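import Vale.Agent.Lib.P154.PChain.BK.R3_0

set_option linter.all false

namespace Vale.Agent.Lib.P154.PChain.BK.S4

open Vale.Agent.Lib.P154.Chain

noncomputable def pc0 : PT := (PT.nd (nat_lit 5357274) (PT.nd (nat_lit 5123040) (PT.nd (nat_lit 5029284) (PT.nd (nat_lit 4982406) (PT.nd (nat_lit 4935606) (PT.nd (nat_lit 4888806) PT.nil (PT.lf (nat_lit 76) (nat_lit 3) (nat_lit 1) (nat_lit 1) (nat_lit 173) (nat_lit 104) (nat_lit 173))) (PT.nd (nat_lit 78) (PT.lf (nat_lit 152) (nat_lit 6) (nat_lit 2) (nat_lit 3) (nat_lit 172) (nat_lit 105) (nat_lit 173)) (PT.lf (nat_lit 152) (nat_lit 6) (nat_lit 2) (nat_lit 1) (nat_lit 173) (nat_lit 105) (nat_lit 172)))) (PT.nd (nat_lit 78) (PT.lf (nat_lit 228) (nat_lit 6) (nat_lit 3) (nat_lit 3) (nat_lit 171) (nat_lit 106) (nat_lit 173)) (PT.nd (nat_lit 78) (PT.lf (nat_lit 304) (nat_lit 3) (nat_lit 4) (nat_lit 1) (nat_lit 172) (nat_lit 106) (nat_lit 172)) (PT.lf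 (nat_lit 228) (nat_lit 6) (nat_lit 3) (nat_lit 1) (nat_lit 173) (nat_lit 106) (nat_lit 171))))) (PT.nd (nat_lit 46878) (PT.nd (nat_lit 78) (PT.lf (nat_lit 380) (nat_lit 6) (nat_lit 5) (nat_lit 3) (nat_lit 171) (nat_lit 107) (nat_lit 172)) (PT.nd (nat_lit 46722) (PT.lf (nat_lit 380) (nat_lit 6) (nat_lit 5) (nat_lit 1) (nat_lit 172) (nat_lit 107) (nat_lit 171)) (PT.lf (nat_lit 456) (nat_lit 6) (nat_lit 6) (nat_lit 3) (nat_lit 170) (nat_lit 108) (nat_lit 172)))) (PT.nd (nat_lit 78) (PT.lf (nat_lit 532) (nat_lit 3) (nat_lit 7) (nat_lit 1) (nat_lit 171) (nat_lit 108) (nat_lit 171)) (PT.nd (nat_lit 46722) (PT.lf (nat_lit 456) (nat_lit 6) (nat_lit 6) (nat_lit 1) (nat_lit 172) (nat_lit 108) (nat_lit 170)) (PT.lf (nat_lit 608) (nat_lit 6) (nat_lit 8) (nat_lit 3) (nat_lit 170) (nat_lit 109) (nat_lit 171)))))) (PT.nd (nat_lit 140400) (PT.nd (nat_lit 46878) (PT.nd (nat_lit 46722) (PT.lf (nat_lit 608)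 (nat_lit 6) (nat_lit 8) (nat_lit 1) (nat_lit 171) (nat_lit 109) (nat_lit 170)) (PT.nd (nat_lit 78) (PT.lf (nat_lit 684) (nat_lit 6) (nat_lit 9) (nat_lit 3) (nat_lit 169) (nat_lit 110) (nat_lit 171)) (PT.lf (nat_lit 760) (nat_lit 3) (nat_lit 10) (nat_lit 1) (nat_lit 170) (nat_lit 110) (nat_lit 170)))) (PT.nd (nat_lit 46722) (PT.lf (nat_lit 684) (nat_lit 6) (nat_lit 9) (nat_lit 1) (nat_lit 171) (nat_lit 110) (nat_lit 169)) (PT.nd (nat_lit 78) (PT.lf (nat_lit 836) (nat_lit 6) (nat_lit 11) (nat_lit 3) (nat_lit 169) (nat_lit 111) (nat_lit 170)) (PT.lf (nat_lit 836) (nat_lit 6) (nat_lit 11) (nat_lit 1) (nat_lit 170) (nat_lit 111) (nat_lit 169))))) (PT.nd (nat_lit 46878) (PT.nd (nat_lit 78) (PT.lf (nat_lit 912) (nat_lit 6) (nat_lit 12) (nat_lit 3) (nat_lit 168) (nat_lit 112) (nat_lit 170)) (PT.nd (nat_lit 78) (PT.lf (nat_lit 988) (nat_lit 3) (nat_lit 13) (nat_lit 1) (nat_lit 169) (nat_lit 112)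 (nat_lit 169)) (PT.lf (nat_lit 912) (nat_lit 6) (nat_lit 12) (nat_lit 1) (nat_lit 170) (nat_lit 112) (nat_lit 168)))) (PT.nd (nat_lit 46800) (PT.nd (nat_lit 78) (PT.lf (nat_lit 1064) (nat_lit 6) (nat_lit 14) (nat_lit 3) (nat_lit 168) (nat_lit 113) (nat_lit 169)) (PT.lf (nat_lit 1064) (nat_lit 6) (nat_lit 14) (nat_lit 1) (nat_lit 169) (nat_lit 113) (nat_lit 168))) (PT.nd (nat_lit 78) (PT.lf (nat_lit 1140) (nat_lit 6) (nat_lit 15) (nat_lit 3) (nat_lit 167) (nat_lit 114) (nat_lit 169)) (PT.lf (nat_lit 1216) (nat_lit 3) (nat_lit 16) (nat_lit 1) (nat_lit 168) (nat_lit 114) (nat_lit 168))))))) (PT.nd (nat_lit 234078) (PT.nd (nat_lit 140400) (PT.nd (nat_lit 93522) (PT.nd (nat_lit 46722) (PT.lf (nat_lit 1140) (nat_lit 6) (nat_lit 15) (nat_lit 1) (nat_lit 169) (nat_lit 114) (nat_lit 167)) (PT.nd (nat_lit 78) (PT.lf (nat_lit 1292) (nat_lit 6) (nat_lit 17) (nat_lit 3) (nat_lit 167) (nat_lit 115)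 (nat_lit 168)) (PT.lf (nat_lit 1292) (nat_lit 6) (nat_lit 17) (nat_lit 1) (nat_lit 168) (nat_lit 115) (nat_lit 167)))) (PT.nd (nat_lit 78) (PT.lf (nat_lit 1368) (nat_lit 6) (nat_lit 18) (nat_lit 3) (nat_lit 166) (nat_lit 116) (nat_lit 168)) (PT.nd (nat_lit 78) (PT.lf (nat_lit 1444) (nat_lit 3) (nat_lit 19) (nat_lit 1) (nat_lit 167) (nat_lit 116) (nat_lit 167)) (PT.lf (nat_lit 1368) (nat_lit 6) (nat_lit 18) (nat_lit 1) (nat_lit 168) (nat_lit 116) (nat_lit 166))))) (PT.nd (nat_lit 46878) (PT.nd (nat_lit 78) (PT.lf (nat_lit 1520) (nat_lit 6) (nat_lit 20) (nat_lit 3) (nat_lit 166) (nat_lit 117) (nat_lit 167)) (PT.nd (nat_lit 46722) (PT.lf (nat_lit 1520) (nat_lit 6) (nat_lit 20) (nat_lit 1) (nat_lit 167) (nat_lit 117) (nat_lit 166)) (PT.lf (nat_lit 1596) (nat_lit 6) (nat_lit 21) (nat_lit 3) (nat_lit 165) (nat_lit 118) (nat_lit 167)))) (PT.nd (nat_lit 78) (PT.lf (nat_lit 1672) (nat_lit 3) (nat_lit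 22) (nat_lit 1) (nat_lit 166) (nat_lit 118) (nat_lit 166)) (PT.nd (nat_lit 46644) (PT.lf (nat_lit 1596) (nat_lit 6) (nat_lit 21) (nat_lit 1) (nat_lit 167) (nat_lit 118) (nat_lit 165)) (PT.lf (nat_lit 1748) (nat_lit 6) (nat_lit 23) (nat_lit 3) (nat_lit 164) (nat_lit 119) (nat_lit 167)))))) (PT.nd (nat_lit 93600) (PT.nd (nat_lit 46800) (PT.nd (nat_lit 78) (PT.lf (nat_lit 1824) (nat_lit 6) (nat_lit 24) (nat_lit 3) (nat_lit 165) (nat_lit 119) (nat_lit 166)) (PT.nd (nat_lit 78) (PT.lf (nat_lit 1824) (nat_lit 6) (nat_lit 24) (nat_lit 1) (nat_lit 166) (nat_lit 119) (nat_lit 165)) (PT.lf (nat_lit 1748) (nat_lit 6) (nat_lit 23) (nat_lit 1) (nat_lit 167) (nat_lit 119) (nat_lit 164)))) (PT.nd (nat_lit 78) (PT.lf (nat_lit 1900) (nat_lit 6) (nat_lit 25) (nat_lit 3) (nat_lit 164) (nat_lit 120) (nat_lit 166)) (PT.nd (nat_lit 78) (PT.lf (nat_lit 1976) (nat_lit 3) (nat_lit 26) (nat_lit 1) (nat_lit 165)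 (nat_lit 120) (nat_lit 165)) (PT.lf (nat_lit 1900) (nat_lit 6) (nat_lit 25) (nat_lit 1) (nat_lit 166) (nat_lit 120) (nat_lit 164))))) (PT.nd (nat_lit 234) (PT.nd (nat_lit 78) (PT.lf (nat_lit 2052) (nat_lit 6) (nat_lit 27) (nat_lit 3) (nat_lit 163) (nat_lit 121) (nat_lit 166)) (PT.nd (nat_lit 78) (PT.lf (nat_lit 2128) (nat_lit 6) (nat_lit 28) (nat_lit 3) (nat_lit 164) (nat_lit 121) (nat_lit 165)) (PT.lf (nat_lit 2128) (nat_lit 6) (nat_lit 28) (nat_lit 1) (nat_lit 165) (nat_lit 121) (nat_lit 164)))) (PT.nd (nat_lit 46722) (PT.nd (nat_lit 46644) (PT.lf (nat_lit 2052) (nat_lit 6) (nat_lit 27) (nat_lit 1) (nat_lit 166) (nat_lit 121) (nat_lit 163)) (PT.lf (nat_lit 2204) (nat_lit 6) (nat_lit 29) (nat_lit 3) (nat_lit 163) (nat_lit 122) (nat_lit 165))) (PT.nd (nat_lit 78) (PT.lf (nat_lit 2280) (nat_lit 3) (nat_lit 30) (nat_lit 1) (nat_lit 164) (nat_lit 122) (nat_lit 164)) (PT.lf (nat_lit 2204)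 (nat_lit 6) (nat_lit 29) (nat_lit 1) (nat_lit 165) (nat_lit 122) (nat_lit 163))))))))
noncomputable def pc1 : PT := (PT.nd (nat_lit 234390) (PT.nd (nat_lit 93912) (PT.nd (nat_lit 46956) (PT.nd (nat_lit 234) (PT.nd (nat_lit 78) (PT.lf (nat_lit 2356) (nat_lit 6) (nat_lit 31) (nat_lit 3) (nat_lit 162) (nat_lit 123) (nat_lit 165)) (PT.nd (nat_lit 78) (PT.lf (nat_lit 2432) (nat_lit 6) (nat_lit 32) (nat_lit 3) (nat_lit 163) (nat_lit 123) (nat_lit 164)) (PT.lf (nat_lit 2432) (nat_lit 6) (nat_lit 32) (nat_lit 1) (nat_lit 164) (nat_lit 123) (nat_lit 163)))) (PT.nd (nat_lit 46566) (PT.lf (nat_lit 2356) (nat_lit 6) (nat_lit 31) (nat_lit 1) (nat_lit 165) (nat_lit 123) (nat_lit 162)) (PT.nd (nat_lit 78) (PT.lf (nat_lit 2508) (nat_lit 6) (nat_lit 33) (nat_lit 3) (nat_lit 161) (nat_lit 124) (nat_lit 165)) (PT.lf (nat_lit 2584) (nat_lit 6) (nat_lit 34) (nat_lit 3) (nat_lit 162) (nat_lit 124) (nat_lit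 164))))) (PT.nd (nat_lit 46722) (PT.nd (nat_lit 78) (PT.lf (nat_lit 2660) (nat_lit 3) (nat_lit 35) (nat_lit 1) (nat_lit 163) (nat_lit 124) (nat_lit 163)) (PT.nd (nat_lit 78) (PT.lf (nat_lit 2584) (nat_lit 6) (nat_lit 34) (nat_lit 1) (nat_lit 164) (nat_lit 124) (nat_lit 162)) (PT.lf (nat_lit 2508) (nat_lit 6) (nat_lit 33) (nat_lit 1) (nat_lit 165) (nat_lit 124) (nat_lit 161)))) (PT.nd (nat_lit 78) (PT.lf (nat_lit 2736) (nat_lit 6) (nat_lit 36) (nat_lit 3) (nat_lit 161) (nat_lit 125) (nat_lit 164)) (PT.nd (nat_lit 78) (PT.lf (nat_lit 2812) (nat_lit 6) (nat_lit 37) (nat_lit 3) (nat_lit 162) (nat_lit 125) (nat_lit 163)) (PT.lf (nat_lit 2812) (nat_lit 6) (nat_lit 37) (nat_lit 1) (nat_lit 163) (nat_lit 125) (nat_lit 162)))))) (PT.nd (nat_lit 93444) (PT.nd (nat_lit 46722) (PT.nd (nat_lit 46566) (PT.lf (nat_lit 2736) (nat_lit 6) (nat_lit 36) (nat_lit 1) (nat_lit 164) (nat_lit 125) (nat_lit 161))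 (PT.nd (nat_lit 78) (PT.lf (nat_lit 2888) (nat_lit 6) (nat_lit 38) (nat_lit 3) (nat_lit 160) (nat_lit 126) (nat_lit 164)) (PT.lf (nat_lit 2964) (nat_lit 6) (nat_lit 39) (nat_lit 3) (nat_lit 161) (nat_lit 126) (nat_lit 163)))) (PT.nd (nat_lit 78) (PT.lf (nat_lit 3040) (nat_lit 3) (nat_lit 40) (nat_lit 1) (nat_lit 162) (nat_lit 126) (nat_lit 162)) (PT.nd (nat_lit 78) (PT.lf (nat_lit 2964) (nat_lit 6) (nat_lit 39) (nat_lit 1) (nat_lit 163) (nat_lit 126) (nat_lit 161)) (PT.lf (nat_lit 2888) (nat_lit 6) (nat_lit 38) (nat_lit 1) (nat_lit 164) (nat_lit 126) (nat_lit 160))))) (PT.nd (nat_lit 234) (PT.nd (nat_lit 78) (PT.lf (nat_lit 3116) (nat_lit 6) (nat_lit 41) (nat_lit 3) (nat_lit 160) (nat_lit 127) (nat_lit 163)) (PT.nd (nat_lit 78) (PT.lf (nat_lit 3192) (nat_lit 6) (nat_lit 42) (nat_lit 3) (nat_lit 161) (nat_lit 127) (nat_lit 162)) (PT.lf (nat_lit 3192) (nat_lit 6) (nat_lit 42) (nat_lit 1)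 (nat_lit 162) (nat_lit 127) (nat_lit 161)))) (PT.nd (nat_lit 46644) (PT.nd (nat_lit 46566) (PT.lf (nat_lit 3116) (nat_lit 6) (nat_lit 41) (nat_lit 1) (nat_lit 163) (nat_lit 127) (nat_lit 160)) (PT.lf (nat_lit 3268) (nat_lit 6) (nat_lit 43) (nat_lit 3) (nat_lit 159) (nat_lit 128) (nat_lit 163))) (PT.nd (nat_lit 78) (PT.lf (nat_lit 3344) (nat_lit 6) (nat_lit 44) (nat_lit 3) (nat_lit 160) (nat_lit 128) (nat_lit 162)) (PT.lf (nat_lit 3420) (nat_lit 3) (nat_lit 45) (nat_lit 1) (nat_lit 161) (nat_lit 128) (nat_lit 161))))))) (PT.nd (nat_lit 140244) (PT.nd (nat_lit 46878) (PT.nd (nat_lit 46644) (PT.nd (nat_lit 78) (PT.lf (nat_lit 3344) (nat_lit 6) (nat_lit 44) (nat_lit 1) (nat_lit 162) (nat_lit 128) (nat_lit 160)) (PT.nd (nat_lit 46488) (PT.lf (nat_lit 3268) (nat_lit 6) (nat_lit 43) (nat_lit 1) (nat_lit 163) (nat_lit 128) (nat_lit 159)) (PT.lf (nat_lit 3496) (nat_lit 6) (nat_lit 46) (nat_lit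 3) (nat_lit 158) (nat_lit 129) (nat_lit 163)))) (PT.nd (nat_lit 78) (PT.lf (nat_lit 3572) (nat_lit 6) (nat_lit 47) (nat_lit 3) (nat_lit 159) (nat_lit 129) (nat_lit 162)) (PT.nd (nat_lit 78) (PT.lf (nat_lit 3648) (nat_lit 6) (nat_lit 48) (nat_lit 3) (nat_lit 160) (nat_lit 129) (nat_lit 161)) (PT.lf (nat_lit 3648) (nat_lit 6) (nat_lit 48) (nat_lit 1) (nat_lit 161) (nat_lit 129) (nat_lit 160))))) (PT.nd (nat_lit 46644) (PT.nd (nat_lit 78) (PT.lf (nat_lit 3572) (nat_lit 6) (nat_lit 47) (nat_lit 1) (nat_lit 162) (nat_lit 129) (nat_lit 159)) (PT.nd (nat_lit 46488) (PT.lf (nat_lit 3496) (nat_lit 6) (nat_lit 46) (nat_lit 1) (nat_lit 163) (nat_lit 129) (nat_lit 158)) (PT.lf (nat_lit 3724) (nat_lit 6) (nat_lit 49) (nat_lit 3) (nat_lit 158) (nat_lit 130) (nat_lit 162)))) (PT.nd (nat_lit 156) (PT.nd (nat_lit 78) (PT.lf (nat_lit 3800) (nat_lit 6) (nat_lit 50) (nat_lit 3) (nat_lit 159) (nat_lit 130)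 (nat_lit 161)) (PT.lf (nat_lit 3876) (nat_lit 3) (nat_lit 51) (nat_lit 1) (nat_lit 160) (nat_lit 130) (nat_lit 160))) (PT.nd (nat_lit 78) (PT.lf (nat_lit 3800) (nat_lit 6) (nat_lit 50) (nat_lit 1) (nat_lit 161) (nat_lit 130) (nat_lit 159)) (PT.lf (nat_lit 3724) (nat_lit 6) (nat_lit 49) (nat_lit 1) (nat_lit 162) (nat_lit 130) (nat_lit 158)))))) (PT.nd (nat_lit 46800) (PT.nd (nat_lit 234) (PT.nd (nat_lit 78) (PT.lf (nat_lit 3952) (nat_lit 6) (nat_lit 52) (nat_lit 3) (nat_lit 157) (nat_lit 131) (nat_lit 162)) (PT.nd (nat_lit 78) (PT.lf (nat_lit 4028) (nat_lit 6) (nat_lit 53) (nat_lit 3) (nat_lit 158) (nat_lit 131) (nat_lit 161)) (PT.lf (nat_lit 4104) (nat_lit 6) (nat_lit 54) (nat_lit 3) (nat_lit 159) (nat_lit 131) (nat_lit 160)))) (PT.nd (nat_lit 78) (PT.lf (nat_lit 4104) (nat_lit 6) (nat_lit 54) (nat_lit 1) (nat_lit 160) (nat_lit 131) (nat_lit 159)) (PT.nd (nat_lit 78) (PT.lf (nat_lit 4028)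 (nat_lit 6) (nat_lit 53) (nat_lit 1) (nat_lit 161) (nat_lit 131) (nat_lit 158)) (PT.lf (nat_lit 3952) (nat_lit 6) (nat_lit 52) (nat_lit 1) (nat_lit 162) (nat_lit 131) (nat_lit 157))))) (PT.nd (nat_lit 234) (PT.nd (nat_lit 78) (PT.lf (nat_lit 4180) (nat_lit 6) (nat_lit 55) (nat_lit 3) (nat_lit 156) (nat_lit 132) (nat_lit 162)) (PT.nd (nat_lit 78) (PT.lf (nat_lit 4256) (nat_lit 6) (nat_lit 56) (nat_lit 3) (nat_lit 157) (nat_lit 132) (nat_lit 161)) (PT.lf (nat_lit 4332) (nat_lit 6) (nat_lit 57) (nat_lit 3) (nat_lit 158) (nat_lit 132) (nat_lit 160)))) (PT.nd (nat_lit 156) (PT.nd (nat_lit 78) (PT.lf (nat_lit 4408) (nat_lit 3) (nat_lit 58) (nat_lit 1) (nat_lit 159) (nat_lit 132) (nat_lit 159)) (PT.lf (nat_lit 4332) (nat_lit 6) (nat_lit 57) (nat_lit 1) (nat_lit 160) (nat_lit 132) (nat_lit 158))) (PT.nd (nat_lit 78) (PT.lf (nat_lit 4256) (nat_lit 6) (nat_lit 56) (nat_lit 1) (nat_lit 161) (nat_lit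 132) (nat_lit 157)) (PT.lf (nat_lit 4180) (nat_lit 6) (nat_lit 55) (nat_lit 1) (nat_lit 162) (nat_lit 132) (nat_lit 156))))))))
noncomputable def pc2 : PT := (PT.nd (nat_lit 140634) (PT.nd (nat_lit 47190) (PT.nd (nat_lit 468) (PT.nd (nat_lit 234) (PT.nd (nat_lit 78) (PT.lf (nat_lit 4484) (nat_lit 6) (nat_lit 59) (nat_lit 3) (nat_lit 155) (nat_lit 133) (nat_lit 162)) (PT.nd (nat_lit 78) (PT.lf (nat_lit 4560) (nat_lit 6) (nat_lit 60) (nat_lit 3) (nat_lit 156) (nat_lit 133) (nat_lit 161)) (PT.lf (nat_lit 4636) (nat_lit 6) (nat_lit 61) (nat_lit 3) (nat_lit 157) (nat_lit 133) (nat_lit 160)))) (PT.nd (nat_lit 78) (PT.lf (nat_lit 4712) (nat_lit 6) (nat_lit 62) (nat_lit 3) (nat_lit 158) (nat_lit 133) (nat_lit 159)) (PT.nd (nat_lit 78) (PT.lf (nat_lit 4712) (nat_lit 6) (nat_lit 62) (nat_lit 1) (nat_lit 159) (nat_lit 133) (nat_lit 158)) (PT.lf (nat_lit 4636) (nat_lit 6) (nat_lit 61) (nat_lit 1)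 (nat_lit 160) (nat_lit 133) (nat_lit 157))))) (PT.nd (nat_lit 46488) (PT.nd (nat_lit 78) (PT.lf (nat_lit 4560) (nat_lit 6) (nat_lit 60) (nat_lit 1) (nat_lit 161) (nat_lit 133) (nat_lit 156)) (PT.nd (nat_lit 46332) (PT.lf (nat_lit 4484) (nat_lit 6) (nat_lit 59) (nat_lit 1) (nat_lit 162) (nat_lit 133) (nat_lit 155)) (PT.lf (nat_lit 4788) (nat_lit 6) (nat_lit 63) (nat_lit 3) (nat_lit 155) (nat_lit 134) (nat_lit 161)))) (PT.nd (nat_lit 78) (PT.lf (nat_lit 4864) (nat_lit 6) (nat_lit 64) (nat_lit 3) (nat_lit 156) (nat_lit 134) (nat_lit 160)) (PT.nd (nat_lit 78) (PT.lf (nat_lit 4940) (nat_lit 6) (nat_lit 65) (nat_lit 3) (nat_lit 157) (nat_lit 134) (nat_lit 159)) (PT.lf (nat_lit 5016) (nat_lit 3) (nat_lit 66) (nat_lit 1) (nat_lit 158) (nat_lit 134) (nat_lit 158)))))) (PT.nd (nat_lit 46722) (PT.nd (nat_lit 46488) (PT.nd (nat_lit 78) (PT.lf (nat_lit 4940) (nat_lit 6) (nat_lit 65) (nat_lit 1) (nat_lit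 159) (nat_lit 134) (nat_lit 157)) (PT.nd (nat_lit 78) (PT.lf (nat_lit 4864) (nat_lit 6) (nat_lit 64) (nat_lit 1) (nat_lit 160) (nat_lit 134) (nat_lit 156)) (PT.lf (nat_lit 4788) (nat_lit 6) (nat_lit 63) (nat_lit 1) (nat_lit 161) (nat_lit 134) (nat_lit 155)))) (PT.nd (nat_lit 78) (PT.lf (nat_lit 5092) (nat_lit 6) (nat_lit 67) (nat_lit 3) (nat_lit 154) (nat_lit 135) (nat_lit 161)) (PT.nd (nat_lit 78) (PT.lf (nat_lit 5168) (nat_lit 6) (nat_lit 68) (nat_lit 3) (nat_lit 155) (nat_lit 135) (nat_lit 160)) (PT.lf (nat_lit 5244) (nat_lit 6) (nat_lit 69) (nat_lit 3) (nat_lit 156) (nat_lit 135) (nat_lit 159))))) (PT.nd (nat_lit 234) (PT.nd (nat_lit 78) (PT.lf (nat_lit 5320) (nat_lit 6) (nat_lit 70) (nat_lit 3) (nat_lit 157) (nat_lit 135) (nat_lit 158)) (PT.nd (nat_lit 78) (PT.lf (nat_lit 5320) (nat_lit 6) (nat_lit 70) (nat_lit 1) (nat_lit 158) (nat_lit 135) (nat_lit 157)) (PT.lf (nat_lit 5244) (nat_lit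 6) (nat_lit 69) (nat_lit 1) (nat_lit 159) (nat_lit 135) (nat_lit 156)))) (PT.nd (nat_lit 46332) (PT.nd (nat_lit 78) (PT.lf (nat_lit 5168) (nat_lit 6) (nat_lit 68) (nat_lit 1) (nat_lit 160) (nat_lit 135) (nat_lit 155)) (PT.lf (nat_lit 5092) (nat_lit 6) (nat_lit 67) (nat_lit 1) (nat_lit 161) (nat_lit 135) (nat_lit 154))) (PT.nd (nat_lit 78) (PT.lf (nat_lit 5396) (nat_lit 6) (nat_lit 71) (nat_lit 3) (nat_lit 153) (nat_lit 136) (nat_lit 161)) (PT.lf (nat_lit 5472) (nat_lit 6) (nat_lit 72) (nat_lit 3) (nat_lit 154) (nat_lit 136) (nat_lit 160))))))) (PT.nd (nat_lit 47112) (PT.nd (nat_lit 468) (PT.nd (nat_lit 234) (PT.nd (nat_lit 78) (PT.lf (nat_lit 5548) (nat_lit 6) (nat_lit 73) (nat_lit 3) (nat_lit 155) (nat_lit 136) (nat_lit 159)) (PT.nd (nat_lit 78) (PT.lf (nat_lit 5624) (nat_lit 6) (nat_lit 74) (nat_lit 3) (nat_lit 156) (nat_lit 136) (nat_lit 158)) (PT.lf (nat_lit 5700) (nat_lit 3) (nat_lit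 75) (nat_lit 1) (nat_lit 157) (nat_lit 136) (nat_lit 157)))) (PT.nd (nat_lit 78) (PT.lf (nat_lit 5624) (nat_lit 6) (nat_lit 74) (nat_lit 1) (nat_lit 158) (nat_lit 136) (nat_lit 156)) (PT.nd (nat_lit 78) (PT.lf (nat_lit 5548) (nat_lit 6) (nat_lit 73) (nat_lit 1) (nat_lit 159) (nat_lit 136) (nat_lit 155)) (PT.lf (nat_lit 5472) (nat_lit 6) (nat_lit 72) (nat_lit 1) (nat_lit 160) (nat_lit 136) (nat_lit 154))))) (PT.nd (nat_lit 46410) (PT.nd (nat_lit 46254) (PT.lf (nat_lit 5396) (nat_lit 6) (nat_lit 71) (nat_lit 1) (nat_lit 161) (nat_lit 136) (nat_lit 153)) (PT.nd (nat_lit 78) (PT.lf (nat_lit 5776) (nat_lit 6) (nat_lit 76) (nat_lit 3) (nat_lit 153) (nat_lit 137) (nat_lit 160)) (PT.lf (nat_lit 5852) (nat_lit 6) (nat_lit 77) (nat_lit 3) (nat_lit 154) (nat_lit 137) (nat_lit 159)))) (PT.nd (nat_lit 78) (PT.lf (nat_lit 5928) (nat_lit 6) (nat_lit 78) (nat_lit 3) (nat_lit 155) (nat_lit 137) (nat_lit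 158)) (PT.nd (nat_lit 78) (PT.lf (nat_lit 6004) (nat_lit 6) (nat_lit 79) (nat_lit 3) (nat_lit 156) (nat_lit 137) (nat_lit 157)) (PT.lf (nat_lit 6004) (nat_lit 6) (nat_lit 79) (nat_lit 1) (nat_lit 157) (nat_lit 137) (nat_lit 156)))))) (PT.nd (nat_lit 46644) (PT.nd (nat_lit 46410) (PT.nd (nat_lit 78) (PT.lf (nat_lit 5928) (nat_lit 6) (nat_lit 78) (nat_lit 1) (nat_lit 158) (nat_lit 137) (nat_lit 155)) (PT.nd (nat_lit 78) (PT.lf (nat_lit 5852) (nat_lit 6) (nat_lit 77) (nat_lit 1) (nat_lit 159) (nat_lit 137) (nat_lit 154)) (PT.lf (nat_lit 5776) (nat_lit 6) (nat_lit 76) (nat_lit 1) (nat_lit 160) (nat_lit 137) (nat_lit 153)))) (PT.nd (nat_lit 78) (PT.lf (nat_lit 6080) (nat_lit 6) (nat_lit 80) (nat_lit 3) (nat_lit 152) (nat_lit 138) (nat_lit 160)) (PT.nd (nat_lit 78) (PT.lf (nat_lit 6156) (nat_lit 6) (nat_lit 81) (nat_lit 3) (nat_lit 153) (nat_lit 138) (nat_lit 159)) (PT.lf (nat_lit 6232) (nat_lit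 6) (nat_lit 82) (nat_lit 3) (nat_lit 154) (nat_lit 138) (nat_lit 158))))) (PT.nd (nat_lit 234) (PT.nd (nat_lit 78) (PT.lf (nat_lit 6308) (nat_lit 6) (nat_lit 83) (nat_lit 3) (nat_lit 155) (nat_lit 138) (nat_lit 157)) (PT.nd (nat_lit 78) (PT.lf (nat_lit 6384) (nat_lit 3) (nat_lit 84) (nat_lit 1) (nat_lit 156) (nat_lit 138) (nat_lit 156)) (PT.lf (nat_lit 6308) (nat_lit 6) (nat_lit 83) (nat_lit 1) (nat_lit 157) (nat_lit 138) (nat_lit 155)))) (PT.nd (nat_lit 156) (PT.nd (nat_lit 78) (PT.lf (nat_lit 6232) (nat_lit 6) (nat_lit 82) (nat_lit 1) (nat_lit 158) (nat_lit 138) (nat_lit 154)) (PT.lf (nat_lit 6156) (nat_lit 6) (nat_lit 81) (nat_lit 1) (nat_lit 159) (nat_lit 138) (nat_lit 153))) (PT.nd (nat_lit 46176) (PT.lf (nat_lit 6080) (nat_lit 6) (nat_lit 80) (nat_lit 1) (nat_lit 160) (nat_lit 138) (nat_lit 152)) (PT.lf (nat_lit 6460) (nat_lit 6) (nat_lit 85) (nat_lit 3) (nat_lit 151) (nat_lit 139)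 (nat_lit 160))))))))
noncomputable def pc3 : PT := (PT.nd (nat_lit 93912) (PT.nd (nat_lit 46956) (PT.nd (nat_lit 468) (PT.nd (nat_lit 234) (PT.nd (nat_lit 78) (PT.lf (nat_lit 6536) (nat_lit 6) (nat_lit 86) (nat_lit 3) (nat_lit 152) (nat_lit 139) (nat_lit 159)) (PT.nd (nat_lit 78) (PT.lf (nat_lit 6612) (nat_lit 6) (nat_lit 87) (nat_lit 3) (nat_lit 153) (nat_lit 139) (nat_lit 158)) (PT.lf (nat_lit 6688) (nat_lit 6) (nat_lit 88) (nat_lit 3) (nat_lit 154) (nat_lit 139) (nat_lit 157)))) (PT.nd (nat_lit 78) (PT.lf (nat_lit 6764) (nat_lit 6) (nat_lit 89) (nat_lit 3) (nat_lit 155) (nat_lit 139) (nat_lit 156)) (PT.nd (nat_lit 78) (PT.lf (nat_lit 6764) (nat_lit 6) (nat_lit 89) (nat_lit 1) (nat_lit 156) (nat_lit 139) (nat_lit 155)) (PT.lf (nat_lit 6688) (nat_lit 6) (nat_lit 88) (nat_lit 1) (nat_lit 157) (nat_lit 139) (nat_lit 154))))) (PT.nd (nat_lit 46254) (PT.nd (nat_lit 78) (PT.lf (nat_lit 6612)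 (nat_lit 6) (nat_lit 87) (nat_lit 1) (nat_lit 158) (nat_lit 139) (nat_lit 153)) (PT.nd (nat_lit 78) (PT.lf (nat_lit 6536) (nat_lit 6) (nat_lit 86) (nat_lit 1) (nat_lit 159) (nat_lit 139) (nat_lit 152)) (PT.lf (nat_lit 6460) (nat_lit 6) (nat_lit 85) (nat_lit 1) (nat_lit 160) (nat_lit 139) (nat_lit 151)))) (PT.nd (nat_lit 78) (PT.lf (nat_lit 7144) (nat_lit 6) (nat_lit 94) (nat_lit 3) (nat_lit 150) (nat_lit 140) (nat_lit 160)) (PT.nd (nat_lit 78) (PT.lf (nat_lit 7220) (nat_lit 6) (nat_lit 95) (nat_lit 3) (nat_lit 151) (nat_lit 140) (nat_lit 159)) (PT.lf (nat_lit 7296) (nat_lit 6) (nat_lit 96) (nat_lit 3) (nat_lit 152) (nat_lit 140) (nat_lit 158)))))) (PT.nd (nat_lit 468) (PT.nd (nat_lit 234) (PT.nd (nat_lit 78) (PT.lf (nat_lit 7372) (nat_lit 6) (nat_lit 97) (nat_lit 3) (nat_lit 153) (nat_lit 140) (nat_lit 157)) (PT.nd (nat_lit 78) (PT.lf (nat_lit 7448) (nat_lit 6) (nat_lit 98) (nat_lit 3)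 (nat_lit 154) (nat_lit 140) (nat_lit 156)) (PT.lf (nat_lit 7524) (nat_lit 3) (nat_lit 99) (nat_lit 1) (nat_lit 155) (nat_lit 140) (nat_lit 155)))) (PT.nd (nat_lit 78) (PT.lf (nat_lit 7448) (nat_lit 6) (nat_lit 98) (nat_lit 1) (nat_lit 156) (nat_lit 140) (nat_lit 154)) (PT.nd (nat_lit 78) (PT.lf (nat_lit 7372) (nat_lit 6) (nat_lit 97) (nat_lit 1) (nat_lit 157) (nat_lit 140) (nat_lit 153)) (PT.lf (nat_lit 7296) (nat_lit 6) (nat_lit 96) (nat_lit 1) (nat_lit 158) (nat_lit 140) (nat_lit 152))))) (PT.nd (nat_lit 46176) (PT.nd (nat_lit 78) (PT.lf (nat_lit 7220) (nat_lit 6) (nat_lit 95) (nat_lit 1) (nat_lit 159) (nat_lit 140) (nat_lit 151)) (PT.nd (nat_lit 46020) (PT.lf (nat_lit 7144) (nat_lit 6) (nat_lit 94) (nat_lit 1) (nat_lit 160) (nat_lit 140) (nat_lit 150)) (PT.lf (nat_lit 7068) (nat_lit 6) (nat_lit 93) (nat_lit 3) (nat_lit 149) (nat_lit 141) (nat_lit 160)))) (PT.nd (nat_lit 156) (PT.nd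 (nat_lit 78) (PT.lf (nat_lit 7904) (nat_lit 6) (nat_lit 104) (nat_lit 3) (nat_lit 150) (nat_lit 141) (nat_lit 159)) (PT.lf (nat_lit 7980) (nat_lit 6) (nat_lit 105) (nat_lit 3) (nat_lit 151) (nat_lit 141) (nat_lit 158))) (PT.nd (nat_lit 78) (PT.lf (nat_lit 8056) (nat_lit 6) (nat_lit 106) (nat_lit 3) (nat_lit 152) (nat_lit 141) (nat_lit 157)) (PT.lf (nat_lit 8132) (nat_lit 6) (nat_lit 107) (nat_lit 3) (nat_lit 153) (nat_lit 141) (nat_lit 156))))))) (PT.nd (nat_lit 46878) (PT.nd (nat_lit 468) (PT.nd (nat_lit 234) (PT.nd (nat_lit 78) (PT.lf (nat_lit 8208) (nat_lit 6) (nat_lit 108) (nat_lit 3) (nat_lit 154) (nat_lit 141) (nat_lit 155)) (PT.nd (nat_lit 78) (PT.lf (nat_lit 8208) (nat_lit 6) (nat_lit 108) (nat_lit 1) (nat_lit 155) (nat_lit 141) (nat_lit 154)) (PT.lf (nat_lit 8132) (nat_lit 6) (nat_lit 107) (nat_lit 1) (nat_lit 156) (nat_lit 141) (nat_lit 153)))) (PT.nd (nat_lit 78) (PT.lf (nat_lit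 8056) (nat_lit 6) (nat_lit 106) (nat_lit 1) (nat_lit 157) (nat_lit 141) (nat_lit 152)) (PT.nd (nat_lit 78) (PT.lf (nat_lit 7980) (nat_lit 6) (nat_lit 105) (nat_lit 1) (nat_lit 158) (nat_lit 141) (nat_lit 151)) (PT.lf (nat_lit 7904) (nat_lit 6) (nat_lit 104) (nat_lit 1) (nat_lit 159) (nat_lit 141) (nat_lit 150))))) (PT.nd (nat_lit 46098) (PT.nd (nat_lit 45942) (PT.lf (nat_lit 7068) (nat_lit 6) (nat_lit 93) (nat_lit 1) (nat_lit 160) (nat_lit 141) (nat_lit 149)) (PT.nd (nat_lit 78) (PT.lf (nat_lit 6992) (nat_lit 6) (nat_lit 92) (nat_lit 3) (nat_lit 148) (nat_lit 142) (nat_lit 160)) (PT.lf (nat_lit 7828) (nat_lit 6) (nat_lit 103) (nat_lit 3) (nat_lit 149) (nat_lit 142) (nat_lit 159)))) (PT.nd (nat_lit 156) (PT.nd (nat_lit 78) (PT.lf (nat_lit 8588) (nat_lit 6) (nat_lit 113) (nat_lit 3) (nat_lit 150) (nat_lit 142) (nat_lit 158)) (PT.lf (nat_lit 8664) (nat_lit 6) (nat_lit 114) (nat_lit 3) (nat_lit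 151) (nat_lit 142) (nat_lit 157))) (PT.nd (nat_lit 78) (PT.lf (nat_lit 8740) (nat_lit 6) (nat_lit 115) (nat_lit 3) (nat_lit 152) (nat_lit 142) (nat_lit 156)) (PT.lf (nat_lit 8816) (nat_lit 6) (nat_lit 116) (nat_lit 3) (nat_lit 153) (nat_lit 142) (nat_lit 155)))))) (PT.nd (nat_lit 468) (PT.nd (nat_lit 234) (PT.nd (nat_lit 78) (PT.lf (nat_lit 8892) (nat_lit 3) (nat_lit 117) (nat_lit 1) (nat_lit 154) (nat_lit 142) (nat_lit 154)) (PT.nd (nat_lit 78) (PT.lf (nat_lit 8816) (nat_lit 6) (nat_lit 116) (nat_lit 1) (nat_lit 155) (nat_lit 142) (nat_lit 153)) (PT.lf (nat_lit 8740) (nat_lit 6) (nat_lit 115) (nat_lit 1) (nat_lit 156) (nat_lit 142) (nat_lit 152)))) (PT.nd (nat_lit 78) (PT.lf (nat_lit 8664) (nat_lit 6) (nat_lit 114) (nat_lit 1) (nat_lit 157) (nat_lit 142) (nat_lit 151)) (PT.nd (nat_lit 78) (PT.lf (nat_lit 8588) (nat_lit 6) (nat_lit 113) (nat_lit 1) (nat_lit 158) (nat_lit 142) (nat_lit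 150)) (PT.lf (nat_lit 7828) (nat_lit 6) (nat_lit 103) (nat_lit 1) (nat_lit 159) (nat_lit 142) (nat_lit 149))))) (PT.nd (nat_lit 46020) (PT.nd (nat_lit 45864) (PT.lf (nat_lit 6992) (nat_lit 6) (nat_lit 92) (nat_lit 1) (nat_lit 160) (nat_lit 142) (nat_lit 148)) (PT.nd (nat_lit 78) (PT.lf (nat_lit 6916) (nat_lit 6) (nat_lit 91) (nat_lit 3) (nat_lit 147) (nat_lit 143) (nat_lit 160)) (PT.lf (nat_lit 7752) (nat_lit 6) (nat_lit 102) (nat_lit 3) (nat_lit 148) (nat_lit 143) (nat_lit 159)))) (PT.nd (nat_lit 156) (PT.nd (nat_lit 78) (PT.lf (nat_lit 8512) (nat_lit 6) (nat_lit 112) (nat_lit 3) (nat_lit 149) (nat_lit 143) (nat_lit 158)) (PT.lf (nat_lit 9196) (nat_lit 6) (nat_lit 121) (nat_lit 3) (nat_lit 150) (nat_lit 143) (nat_lit 157))) (PT.nd (nat_lit 78) (PT.lf (nat_lit 9272) (nat_lit 6) (nat_lit 122) (nat_lit 3) (nat_lit 151) (nat_lit 143) (nat_lit 156)) (PT.lf (nat_lit 9348) (nat_lit 6) (nat_lit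 123) (nat_lit 3) (nat_lit 152) (nat_lit 143) (nat_lit 155))))))))
noncomputable def pc4 : PT := (PT.nd (nat_lit 93366) (PT.nd (nat_lit 46644) (PT.nd (nat_lit 468) (PT.nd (nat_lit 234) (PT.nd (nat_lit 78) (PT.lf (nat_lit 9424) (nat_lit 6) (nat_lit 124) (nat_lit 3) (nat_lit 153) (nat_lit 143) (nat_lit 154)) (PT.nd (nat_lit 78) (PT.lf (nat_lit 9424) (nat_lit 6) (nat_lit 124) (nat_lit 1) (nat_lit 154) (nat_lit 143) (nat_lit 153)) (PT.lf (nat_lit 9348) (nat_lit 6) (nat_lit 123) (nat_lit 1) (nat_lit 155) (nat_lit 143) (nat_lit 152)))) (PT.nd (nat_lit 78) (PT.lf (nat_lit 9272) (nat_lit 6) (nat_lit 122) (nat_lit 1) (nat_lit 156) (nat_lit 143) (nat_lit 151)) (PT.nd (nat_lit 78) (PT.lf (nat_lit 9196) (nat_lit 6) (nat_lit 121) (nat_lit 1) (nat_lit 157) (nat_lit 143) (nat_lit 150)) (PT.lf (nat_lit 8512) (nat_lit 6) (nat_lit 112) (nat_lit 1) (nat_lit 158) (nat_lit 143) (nat_lit 149))))) (PT.nd (nat_lit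 45942) (PT.nd (nat_lit 78) (PT.lf (nat_lit 7752) (nat_lit 6) (nat_lit 102) (nat_lit 1) (nat_lit 159) (nat_lit 143) (nat_lit 148)) (PT.nd (nat_lit 45786) (PT.lf (nat_lit 6916) (nat_lit 6) (nat_lit 91) (nat_lit 1) (nat_lit 160) (nat_lit 143) (nat_lit 147)) (PT.lf (nat_lit 6840) (nat_lit 6) (nat_lit 90) (nat_lit 3) (nat_lit 146) (nat_lit 144) (nat_lit 160)))) (PT.nd (nat_lit 78) (PT.lf (nat_lit 7676) (nat_lit 6) (nat_lit 101) (nat_lit 3) (nat_lit 147) (nat_lit 144) (nat_lit 159)) (PT.nd (nat_lit 78) (PT.lf (nat_lit 8436) (nat_lit 6) (nat_lit 111) (nat_lit 3) (nat_lit 148) (nat_lit 144) (nat_lit 158)) (PT.lf (nat_lit 9120) (nat_lit 6) (nat_lit 120) (nat_lit 3) (nat_lit 149) (nat_lit 144) (nat_lit 157)))))) (PT.nd (nat_lit 468) (PT.nd (nat_lit 234) (PT.nd (nat_lit 78) (PT.lf (nat_lit 9728) (nat_lit 6) (nat_lit 128) (nat_lit 3) (nat_lit 150) (nat_lit 144) (nat_lit 156)) (PT.nd (nat_lit 78) (PT.lf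 (nat_lit 9804) (nat_lit 6) (nat_lit 129) (nat_lit 3) (nat_lit 151) (nat_lit 144) (nat_lit 155)) (PT.lf (nat_lit 9880) (nat_lit 6) (nat_lit 130) (nat_lit 3) (nat_lit 152) (nat_lit 144) (nat_lit 154)))) (PT.nd (nat_lit 78) (PT.lf (nat_lit 9956) (nat_lit 3) (nat_lit 131) (nat_lit 1) (nat_lit 153) (nat_lit 144) (nat_lit 153)) (PT.nd (nat_lit 78) (PT.lf (nat_lit 9880) (nat_lit 6) (nat_lit 130) (nat_lit 1) (nat_lit 154) (nat_lit 144) (nat_lit 152)) (PT.lf (nat_lit 9804) (nat_lit 6) (nat_lit 129) (nat_lit 1) (nat_lit 155) (nat_lit 144) (nat_lit 151))))) (PT.nd (nat_lit 234) (PT.nd (nat_lit 78) (PT.lf (nat_lit 9728) (nat_lit 6) (nat_lit 128) (nat_lit 1) (nat_lit 156) (nat_lit 144) (nat_lit 150)) (PT.nd (nat_lit 78) (PT.lf (nat_lit 9120) (nat_lit 6) (nat_lit 120) (nat_lit 1) (nat_lit 157) (nat_lit 144) (nat_lit 149)) (PT.lf (nat_lit 8436) (nat_lit 6) (nat_lit 111) (nat_lit 1) (nat_lit 158) (nat_lit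 144) (nat_lit 148)))) (PT.nd (nat_lit 45864) (PT.nd (nat_lit 78) (PT.lf (nat_lit 7676) (nat_lit 6) (nat_lit 101) (nat_lit 1) (nat_lit 159) (nat_lit 144) (nat_lit 147)) (PT.lf (nat_lit 6840) (nat_lit 6) (nat_lit 90) (nat_lit 1) (nat_lit 160) (nat_lit 144) (nat_lit 146))) (PT.nd (nat_lit 78) (PT.lf (nat_lit 7600) (nat_lit 6) (nat_lit 100) (nat_lit 3) (nat_lit 146) (nat_lit 145) (nat_lit 159)) (PT.lf (nat_lit 8360) (nat_lit 6) (nat_lit 110) (nat_lit 3) (nat_lit 147) (nat_lit 145) (nat_lit 158))))))) (PT.nd (nat_lit 46566) (PT.nd (nat_lit 468) (PT.nd (nat_lit 234) (PT.nd (nat_lit 78) (PT.lf (nat_lit 9044) (nat_lit 6) (nat_lit 119) (nat_lit 3) (nat_lit 148) (nat_lit 145) (nat_lit 157)) (PT.nd (nat_lit 78) (PT.lf (nat_lit 9652) (nat_lit 6) (nat_lit 127) (nat_lit 3) (nat_lit 149) (nat_lit 145) (nat_lit 156)) (PT.lf (nat_lit 10184) (nat_lit 6) (nat_lit 134) (nat_lit 3) (nat_lit 150) (nat_lit 145)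 (nat_lit 155)))) (PT.nd (nat_lit 78) (PT.lf (nat_lit 10260) (nat_lit 6) (nat_lit 135) (nat_lit 3) (nat_lit 151) (nat_lit 145) (nat_lit 154)) (PT.nd (nat_lit 78) (PT.lf (nat_lit 10336) (nat_lit 6) (nat_lit 136) (nat_lit 3) (nat_lit 152) (nat_lit 145) (nat_lit 153)) (PT.lf (nat_lit 10336) (nat_lit 6) (nat_lit 136) (nat_lit 1) (nat_lit 153) (nat_lit 145) (nat_lit 152))))) (PT.nd (nat_lit 234) (PT.nd (nat_lit 78) (PT.lf (nat_lit 10260) (nat_lit 6) (nat_lit 135) (nat_lit 1) (nat_lit 154) (nat_lit 145) (nat_lit 151)) (PT.nd (nat_lit 78) (PT.lf (nat_lit 10184) (nat_lit 6) (nat_lit 134) (nat_lit 1) (nat_lit 155) (nat_lit 145) (nat_lit 150)) (PT.lf (nat_lit 9652) (nat_lit 6) (nat_lit 127) (nat_lit 1) (nat_lit 156) (nat_lit 145) (nat_lit 149)))) (PT.nd (nat_lit 78) (PT.lf (nat_lit 9044) (nat_lit 6) (nat_lit 119) (nat_lit 1) (nat_lit 157) (nat_lit 145) (nat_lit 148)) (PT.nd (nat_lit 78) (PT.lf (nat_lit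 8360) (nat_lit 6) (nat_lit 110) (nat_lit 1) (nat_lit 158) (nat_lit 145) (nat_lit 147)) (PT.lf (nat_lit 7600) (nat_lit 6) (nat_lit 100) (nat_lit 1) (nat_lit 159) (nat_lit 145) (nat_lit 146)))))) (PT.nd (nat_lit 468) (PT.nd (nat_lit 234) (PT.nd (nat_lit 78) (PT.lf (nat_lit 6840) (nat_lit 6) (nat_lit 90) (nat_lit 5) (nat_lit 144) (nat_lit 146) (nat_lit 160)) (PT.nd (nat_lit 78) (PT.lf (nat_lit 7600) (nat_lit 6) (nat_lit 100) (nat_lit 5) (nat_lit 145) (nat_lit 146) (nat_lit 159)) (PT.lf (nat_lit 8284) (nat_lit 3) (nat_lit 109) (nat_lit 3) (nat_lit 146) (nat_lit 146) (nat_lit 158)))) (PT.nd (nat_lit 78) (PT.lf (nat_lit 8968) (nat_lit 6) (nat_lit 118) (nat_lit 3) (nat_lit 147) (nat_lit 146) (nat_lit 157)) (PT.nd (nat_lit 78) (PT.lf (nat_lit 9576) (nat_lit 6) (nat_lit 126) (nat_lit 3) (nat_lit 148) (nat_lit 146) (nat_lit 156)) (PT.lf (nat_lit 10108) (nat_lit 6) (nat_lit 133) (nat_lit 3) (nat_lit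 149) (nat_lit 146) (nat_lit 155))))) (PT.nd (nat_lit 234) (PT.nd (nat_lit 78) (PT.lf (nat_lit 10564) (nat_lit 6) (nat_lit 139) (nat_lit 3) (nat_lit 150) (nat_lit 146) (nat_lit 154)) (PT.nd (nat_lit 78) (PT.lf (nat_lit 10640) (nat_lit 6) (nat_lit 140) (nat_lit 3) (nat_lit 151) (nat_lit 146) (nat_lit 153)) (PT.lf (nat_lit 10716) (nat_lit 3) (nat_lit 141) (nat_lit 1) (nat_lit 152) (nat_lit 146) (nat_lit 152)))) (PT.nd (nat_lit 156) (PT.nd (nat_lit 78) (PT.lf (nat_lit 10640) (nat_lit 6) (nat_lit 140) (nat_lit 1) (nat_lit 153) (nat_lit 146) (nat_lit 151)) (PT.lf (nat_lit 10564) (nat_lit 6) (nat_lit 139) (nat_lit 1) (nat_lit 154) (nat_lit 146) (nat_lit 150))) (PT.nd (nat_lit 78) (PT.lf (nat_lit 10108) (nat_lit 6) (nat_lit 133) (nat_lit 1) (nat_lit 155) (nat_lit 146) (nat_lit 149)) (PT.lf (nat_lit 9576) (nat_lit 6) (nat_lit 126) (nat_lit 1) (nat_lit 156) (nat_lit 146) (nat_lit 148))))))))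
noncomputable def pc5 : PT := (PT.nd (nat_lit 92820) (PT.nd (nat_lit 46410) (PT.nd (nat_lit 45942) (PT.nd (nat_lit 234) (PT.nd (nat_lit 78) (PT.lf (nat_lit 8968) (nat_lit 6) (nat_lit 118) (nat_lit 1) (nat_lit 157) (nat_lit 146) (nat_lit 147)) (PT.nd (nat_lit 78) (PT.lf (nat_lit 8284) (nat_lit 3) (nat_lit 109) (nat_lit 0) (nat_lit 158) (nat_lit 146) (nat_lit 146)) (PT.lf (nat_lit 7600) (nat_lit 6) (nat_lit 100) (nat_lit 0) (nat_lit 159) (nat_lit 146) (nat_lit 145)))) (PT.nd (nat_lit 45552) (PT.lf (nat_lit 6840) (nat_lit 6) (nat_lit 90) (nat_lit 0) (nat_lit 160) (nat_lit 146) (nat_lit 144)) (PT.nd (nat_lit 78) (PT.lf (nat_lit 6916) (nat_lit 6) (nat_lit 91) (nat_lit 5) (nat_lit 143) (nat_lit 147) (nat_lit 160)) (PT.lf (nat_lit 7676) (nat_lit 6) (nat_lit 101) (nat_lit 5) (nat_lit 144) (nat_lit 147) (nat_lit 159))))) (PT.nd (nat_lit 234) (PT.nd (nat_lit 78) (PT.lf (nat_lit 8360) (nat_lit 6)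 (nat_lit 110) (nat_lit 5) (nat_lit 145) (nat_lit 147) (nat_lit 158)) (PT.nd (nat_lit 78) (PT.lf (nat_lit 8968) (nat_lit 6) (nat_lit 118) (nat_lit 5) (nat_lit 146) (nat_lit 147) (nat_lit 157)) (PT.lf (nat_lit 9500) (nat_lit 3) (nat_lit 125) (nat_lit 3) (nat_lit 147) (nat_lit 147) (nat_lit 156)))) (PT.nd (nat_lit 78) (PT.lf (nat_lit 10032) (nat_lit 6) (nat_lit 132) (nat_lit 3) (nat_lit 148) (nat_lit 147) (nat_lit 155)) (PT.nd (nat_lit 78) (PT.lf (nat_lit 10488) (nat_lit 6) (nat_lit 138) (nat_lit 3) (nat_lit 149) (nat_lit 147) (nat_lit 154)) (PT.lf (nat_lit 10868) (nat_lit 6) (nat_lit 143) (nat_lit 3) (nat_lit 150) (nat_lit 147) (nat_lit 153)))))) (PT.nd (nat_lit 468) (PT.nd (nat_lit 234) (PT.nd (nat_lit 78) (PT.lf (nat_lit 10944) (nat_lit 6) (nat_lit 144) (nat_lit 3) (nat_lit 151) (nat_lit 147) (nat_lit 152)) (PT.nd (nat_lit 78) (PT.lf (nat_lit 10944) (nat_lit 6) (nat_lit 144) (nat_lit 1)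 (nat_lit 152) (nat_lit 147) (nat_lit 151)) (PT.lf (nat_lit 10868) (nat_lit 6) (nat_lit 143) (nat_lit 1) (nat_lit 153) (nat_lit 147) (nat_lit 150)))) (PT.nd (nat_lit 78) (PT.lf (nat_lit 10488) (nat_lit 6) (nat_lit 138) (nat_lit 1) (nat_lit 154) (nat_lit 147) (nat_lit 149)) (PT.nd (nat_lit 78) (PT.lf (nat_lit 10032) (nat_lit 6) (nat_lit 132) (nat_lit 1) (nat_lit 155) (nat_lit 147) (nat_lit 148)) (PT.lf (nat_lit 9500) (nat_lit 3) (nat_lit 125) (nat_lit 0) (nat_lit 156) (nat_lit 147) (nat_lit 147))))) (PT.nd (nat_lit 234) (PT.nd (nat_lit 78) (PT.lf (nat_lit 8968) (nat_lit 6) (nat_lit 118) (nat_lit 0) (nat_lit 157) (nat_lit 147) (nat_lit 146)) (PT.nd (nat_lit 78) (PT.lf (nat_lit 8360) (nat_lit 6) (nat_lit 110) (nat_lit 0) (nat_lit 158) (nat_lit 147) (nat_lit 145)) (PT.lf (nat_lit 7676) (nat_lit 6) (nat_lit 101) (nat_lit 0) (nat_lit 159) (nat_lit 147) (nat_lit 144)))) (PT.nd (nat_lit 45552)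 (PT.nd (nat_lit 45474) (PT.lf (nat_lit 6916) (nat_lit 6) (nat_lit 91) (nat_lit 0) (nat_lit 160) (nat_lit 147) (nat_lit 143)) (PT.lf (nat_lit 6992) (nat_lit 6) (nat_lit 92) (nat_lit 5) (nat_lit 142) (nat_lit 148) (nat_lit 160))) (PT.nd (nat_lit 78) (PT.lf (nat_lit 7752) (nat_lit 6) (nat_lit 102) (nat_lit 5) (nat_lit 143) (nat_lit 148) (nat_lit 159)) (PT.lf (nat_lit 8436) (nat_lit 6) (nat_lit 111) (nat_lit 5) (nat_lit 144) (nat_lit 148) (nat_lit 158))))))) (PT.nd (nat_lit 1014) (PT.nd (nat_lit 468) (PT.nd (nat_lit 234) (PT.nd (nat_lit 78) (PT.lf (nat_lit 9044) (nat_lit 6) (nat_lit 119) (nat_lit 5) (nat_lit 145) (nat_lit 148) (nat_lit 157)) (PT.nd (nat_lit 78) (PT.lf (nat_lit 9576) (nat_lit 6) (nat_lit 126) (nat_lit 5) (nat_lit 146) (nat_lit 148) (nat_lit 156)) (PT.lf (nat_lit 10032) (nat_lit 6) (nat_lit 132) (nat_lit 5) (nat_lit 147) (nat_lit 148) (nat_lit 155)))) (PT.nd (nat_lit 78) (PT.lf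 (nat_lit 10412) (nat_lit 3) (nat_lit 137) (nat_lit 3) (nat_lit 148) (nat_lit 148) (nat_lit 154)) (PT.nd (nat_lit 78) (PT.lf (nat_lit 10792) (nat_lit 6) (nat_lit 142) (nat_lit 3) (nat_lit 149) (nat_lit 148) (nat_lit 153)) (PT.lf (nat_lit 11096) (nat_lit 6) (nat_lit 146) (nat_lit 3) (nat_lit 150) (nat_lit 148) (nat_lit 152))))) (PT.nd (nat_lit 234) (PT.nd (nat_lit 78) (PT.lf (nat_lit 11172) (nat_lit 3) (nat_lit 147) (nat_lit 1) (nat_lit 151) (nat_lit 148) (nat_lit 151)) (PT.nd (nat_lit 78) (PT.lf (nat_lit 11096) (nat_lit 6) (nat_lit 146) (nat_lit 1) (nat_lit 152) (nat_lit 148) (nat_lit 150)) (PT.lf (nat_lit 10792) (nat_lit 6) (nat_lit 142) (nat_lit 1) (nat_lit 153) (nat_lit 148) (nat_lit 149)))) (PT.nd (nat_lit 156) (PT.nd (nat_lit 78) (PT.lf (nat_lit 10412) (nat_lit 3) (nat_lit 137) (nat_lit 0) (nat_lit 154) (nat_lit 148) (nat_lit 148)) (PT.lf (nat_lit 10032) (nat_lit 6) (nat_lit 132) (nat_lit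 0) (nat_lit 155) (nat_lit 148) (nat_lit 147))) (PT.nd (nat_lit 78) (PT.lf (nat_lit 9576) (nat_lit 6) (nat_lit 126) (nat_lit 0) (nat_lit 156) (nat_lit 148) (nat_lit 146)) (PT.lf (nat_lit 9044) (nat_lit 6) (nat_lit 119) (nat_lit 0) (nat_lit 157) (nat_lit 148) (nat_lit 145)))))) (PT.nd (nat_lit 45786) (PT.nd (nat_lit 45552) (PT.nd (nat_lit 78) (PT.lf (nat_lit 8436) (nat_lit 6) (nat_lit 111) (nat_lit 0) (nat_lit 158) (nat_lit 148) (nat_lit 144)) (PT.nd (nat_lit 78) (PT.lf (nat_lit 7752) (nat_lit 6) (nat_lit 102) (nat_lit 0) (nat_lit 159) (nat_lit 148) (nat_lit 143)) (PT.lf (nat_lit 6992) (nat_lit 6) (nat_lit 92) (nat_lit 0) (nat_lit 160) (nat_lit 148) (nat_lit 142)))) (PT.nd (nat_lit 78) (PT.lf (nat_lit 7068) (nat_lit 6) (nat_lit 93) (nat_lit 5) (nat_lit 141) (nat_lit 149) (nat_lit 160)) (PT.nd (nat_lit 78) (PT.lf (nat_lit 7828) (nat_lit 6) (nat_lit 103) (nat_lit 5) (nat_lit 142) (nat_lit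 149) (nat_lit 159)) (PT.lf (nat_lit 8512) (nat_lit 6) (nat_lit 112) (nat_lit 5) (nat_lit 143) (nat_lit 149) (nat_lit 158))))) (PT.nd (nat_lit 234) (PT.nd (nat_lit 78) (PT.lf (nat_lit 9120) (nat_lit 6) (nat_lit 120) (nat_lit 5) (nat_lit 144) (nat_lit 149) (nat_lit 157)) (PT.nd (nat_lit 78) (PT.lf (nat_lit 9652) (nat_lit 6) (nat_lit 127) (nat_lit 5) (nat_lit 145) (nat_lit 149) (nat_lit 156)) (PT.lf (nat_lit 10108) (nat_lit 6) (nat_lit 133) (nat_lit 5) (nat_lit 146) (nat_lit 149) (nat_lit 155)))) (PT.nd (nat_lit 156) (PT.nd (nat_lit 78) (PT.lf (nat_lit 10488) (nat_lit 6) (nat_lit 138) (nat_lit 5) (nat_lit 147) (nat_lit 149) (nat_lit 154)) (PT.lf (nat_lit 10792) (nat_lit 6) (nat_lit 142) (nat_lit 5) (nat_lit 148) (nat_lit 149) (nat_lit 153))) (PT.nd (nat_lit 78) (PT.lf (nat_lit 11020) (nat_lit 3) (nat_lit 145) (nat_lit 3) (nat_lit 149) (nat_lit 149) (nat_lit 152)) (PT.lf (nat_lit 11248) (nat_lit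 6) (nat_lit 148) (nat_lit 3) (nat_lit 150) (nat_lit 149) (nat_lit 151))))))))
noncomputable def pc6 : PT := (PT.nd (nat_lit 47190) (PT.nd (nat_lit 46176) (PT.nd (nat_lit 468) (PT.nd (nat_lit 234) (PT.nd (nat_lit 78) (PT.lf (nat_lit 11248) (nat_lit 6) (nat_lit 148) (nat_lit 1) (nat_lit 151) (nat_lit 149) (nat_lit 150)) (PT.nd (nat_lit 78) (PT.lf (nat_lit 11020) (nat_lit 3) (nat_lit 145) (nat_lit 0) (nat_lit 152) (nat_lit 149) (nat_lit 149)) (PT.lf (nat_lit 10792) (nat_lit 6) (nat_lit 142) (nat_lit 0) (nat_lit 153) (nat_lit 149) (nat_lit 148)))) (PT.nd (nat_lit 78) (PT.lf (nat_lit 10488) (nat_lit 6) (nat_lit 138) (nat_lit 0) (nat_lit 154) (nat_lit 149) (nat_lit 147)) (PT.nd (nat_lit 78) (PT.lf (nat_lit 10108) (nat_lit 6) (nat_lit 133) (nat_lit 0) (nat_lit 155) (nat_lit 149) (nat_lit 146)) (PT.lf (nat_lit 9652) (nat_lit 6) (nat_lit 127) (nat_lit 0) (nat_lit 156) (nat_lit 149) (nat_lit 145)))))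 (PT.nd (nat_lit 234) (PT.nd (nat_lit 78) (PT.lf (nat_lit 9120) (nat_lit 6) (nat_lit 120) (nat_lit 0) (nat_lit 157) (nat_lit 149) (nat_lit 144)) (PT.nd (nat_lit 78) (PT.lf (nat_lit 8512) (nat_lit 6) (nat_lit 112) (nat_lit 0) (nat_lit 158) (nat_lit 149) (nat_lit 143)) (PT.lf (nat_lit 7828) (nat_lit 6) (nat_lit 103) (nat_lit 0) (nat_lit 159) (nat_lit 149) (nat_lit 142)))) (PT.nd (nat_lit 45318) (PT.lf (nat_lit 7068) (nat_lit 6) (nat_lit 93) (nat_lit 0) (nat_lit 160) (nat_lit 149) (nat_lit 141)) (PT.nd (nat_lit 78) (PT.lf (nat_lit 7144) (nat_lit 6) (nat_lit 94) (nat_lit 5) (nat_lit 140) (nat_lit 150) (nat_lit 160)) (PT.lf (nat_lit 7904) (nat_lit 6) (nat_lit 104) (nat_lit 5) (nat_lit 141) (nat_lit 150) (nat_lit 159)))))) (PT.nd (nat_lit 468) (PT.nd (nat_lit 234) (PT.nd (nat_lit 78) (PT.lf (nat_lit 8588) (nat_lit 6) (nat_lit 113) (nat_lit 5) (nat_lit 142) (nat_lit 150) (nat_lit 158)) (PT.nd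 (nat_lit 78) (PT.lf (nat_lit 9196) (nat_lit 6) (nat_lit 121) (nat_lit 5) (nat_lit 143) (nat_lit 150) (nat_lit 157)) (PT.lf (nat_lit 9728) (nat_lit 6) (nat_lit 128) (nat_lit 5) (nat_lit 144) (nat_lit 150) (nat_lit 156)))) (PT.nd (nat_lit 78) (PT.lf (nat_lit 10184) (nat_lit 6) (nat_lit 134) (nat_lit 5) (nat_lit 145) (nat_lit 150) (nat_lit 155)) (PT.nd (nat_lit 78) (PT.lf (nat_lit 10564) (nat_lit 6) (nat_lit 139) (nat_lit 5) (nat_lit 146) (nat_lit 150) (nat_lit 154)) (PT.lf (nat_lit 10868) (nat_lit 6) (nat_lit 143) (nat_lit 5) (nat_lit 147) (nat_lit 150) (nat_lit 153))))) (PT.nd (nat_lit 234) (PT.nd (nat_lit 78) (PT.lf (nat_lit 11096) (nat_lit 6) (nat_lit 146) (nat_lit 5) (nat_lit 148) (nat_lit 150) (nat_lit 152)) (PT.nd (nat_lit 78) (PT.lf (nat_lit 11248) (nat_lit 6) (nat_lit 148) (nat_lit 5) (nat_lit 149) (nat_lit 150) (nat_lit 151)) (PT.lf (nat_lit 11324) (nat_lit 1) (nat_lit 149) (nat_lit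 0) (nat_lit 150) (nat_lit 150) (nat_lit 150)))) (PT.nd (nat_lit 156) (PT.nd (nat_lit 78) (PT.lf (nat_lit 11248) (nat_lit 6) (nat_lit 148) (nat_lit 0) (nat_lit 151) (nat_lit 150) (nat_lit 149)) (PT.lf (nat_lit 11096) (nat_lit 6) (nat_lit 146) (nat_lit 0) (nat_lit 152) (nat_lit 150) (nat_lit 148))) (PT.nd (nat_lit 78) (PT.lf (nat_lit 10868) (nat_lit 6) (nat_lit 143) (nat_lit 0) (nat_lit 153) (nat_lit 150) (nat_lit 147)) (PT.lf (nat_lit 10564) (nat_lit 6) (nat_lit 139) (nat_lit 0) (nat_lit 154) (nat_lit 150) (nat_lit 146))))))) (PT.nd (nat_lit 46098) (PT.nd (nat_lit 45630) (PT.nd (nat_lit 234) (PT.nd (nat_lit 78) (PT.lf (nat_lit 10184) (nat_lit 6) (nat_lit 134) (nat_lit 0) (nat_lit 155) (nat_lit 150) (nat_lit 145)) (PT.nd (nat_lit 78) (PT.lf (nat_lit 9728) (nat_lit 6) (nat_lit 128) (nat_lit 0) (nat_lit 156) (nat_lit 150) (nat_lit 144)) (PT.lf (nat_lit 9196) (nat_lit 6) (nat_lit 121) (nat_lit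 0) (nat_lit 157) (nat_lit 150) (nat_lit 143)))) (PT.nd (nat_lit 78) (PT.lf (nat_lit 8588) (nat_lit 6) (nat_lit 113) (nat_lit 0) (nat_lit 158) (nat_lit 150) (nat_lit 142)) (PT.nd (nat_lit 78) (PT.lf (nat_lit 7904) (nat_lit 6) (nat_lit 104) (nat_lit 0) (nat_lit 159) (nat_lit 150) (nat_lit 141)) (PT.lf (nat_lit 7144) (nat_lit 6) (nat_lit 94) (nat_lit 0) (nat_lit 160) (nat_lit 150) (nat_lit 140))))) (PT.nd (nat_lit 234) (PT.nd (nat_lit 78) (PT.lf (nat_lit 6460) (nat_lit 6) (nat_lit 85) (nat_lit 5) (nat_lit 139) (nat_lit 151) (nat_lit 160)) (PT.nd (nat_lit 78) (PT.lf (nat_lit 7220) (nat_lit 6) (nat_lit 95) (nat_lit 5) (nat_lit 140) (nat_lit 151) (nat_lit 159)) (PT.lf (nat_lit 7980) (nat_lit 6) (nat_lit 105) (nat_lit 5) (nat_lit 141) (nat_lit 151) (nat_lit 158)))) (PT.nd (nat_lit 78) (PT.lf (nat_lit 8664) (nat_lit 6) (nat_lit 114) (nat_lit 5) (nat_lit 142) (nat_lit 151) (nat_lit 157)) (PT.nd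 (nat_lit 78) (PT.lf (nat_lit 9272) (nat_lit 6) (nat_lit 122) (nat_lit 5) (nat_lit 143) (nat_lit 151) (nat_lit 156)) (PT.lf (nat_lit 9804) (nat_lit 6) (nat_lit 129) (nat_lit 5) (nat_lit 144) (nat_lit 151) (nat_lit 155)))))) (PT.nd (nat_lit 468) (PT.nd (nat_lit 234) (PT.nd (nat_lit 78) (PT.lf (nat_lit 10260) (nat_lit 6) (nat_lit 135) (nat_lit 5) (nat_lit 145) (nat_lit 151) (nat_lit 154)) (PT.nd (nat_lit 78) (PT.lf (nat_lit 10640) (nat_lit 6) (nat_lit 140) (nat_lit 5) (nat_lit 146) (nat_lit 151) (nat_lit 153)) (PT.lf (nat_lit 10944) (nat_lit 6) (nat_lit 144) (nat_lit 5) (nat_lit 147) (nat_lit 151) (nat_lit 152)))) (PT.nd (nat_lit 78) (PT.lf (nat_lit 11172) (nat_lit 3) (nat_lit 147) (nat_lit 4) (nat_lit 148) (nat_lit 151) (nat_lit 151)) (PT.nd (nat_lit 78) (PT.lf (nat_lit 11248) (nat_lit 6) (nat_lit 148) (nat_lit 4) (nat_lit 149) (nat_lit 151) (nat_lit 150)) (PT.lf (nat_lit 11248) (nat_lit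 6) (nat_lit 148) (nat_lit 2) (nat_lit 150) (nat_lit 151) (nat_lit 149))))) (PT.nd (nat_lit 234) (PT.nd (nat_lit 78) (PT.lf (nat_lit 11172) (nat_lit 3) (nat_lit 147) (nat_lit 0) (nat_lit 151) (nat_lit 151) (nat_lit 148)) (PT.nd (nat_lit 78) (PT.lf (nat_lit 10944) (nat_lit 6) (nat_lit 144) (nat_lit 0) (nat_lit 152) (nat_lit 151) (nat_lit 147)) (PT.lf (nat_lit 10640) (nat_lit 6) (nat_lit 140) (nat_lit 0) (nat_lit 153) (nat_lit 151) (nat_lit 146)))) (PT.nd (nat_lit 156) (PT.nd (nat_lit 78) (PT.lf (nat_lit 10260) (nat_lit 6) (nat_lit 135) (nat_lit 0) (nat_lit 154) (nat_lit 151) (nat_lit 145)) (PT.lf (nat_lit 9804) (nat_lit 6) (nat_lit 129) (nat_lit 0) (nat_lit 155) (nat_lit 151) (nat_lit 144))) (PT.nd (nat_lit 78) (PT.lf (nat_lit 9272) (nat_lit 6) (nat_lit 122) (nat_lit 0) (nat_lit 156) (nat_lit 151) (nat_lit 143)) (PT.lf (nat_lit 8664) (nat_lit 6) (nat_lit 114) (nat_lit 0) (nat_lit 157) (nat_lit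 151) (nat_lit 142))))))))
noncomputable def pc7 : PT := (PT.nd (nat_lit 47034) (PT.nd (nat_lit 46020) (PT.nd (nat_lit 45552) (PT.nd (nat_lit 45318) (PT.nd (nat_lit 78) (PT.lf (nat_lit 7980) (nat_lit 6) (nat_lit 105) (nat_lit 0) (nat_lit 158) (nat_lit 151) (nat_lit 141)) (PT.nd (nat_lit 78) (PT.lf (nat_lit 7220) (nat_lit 6) (nat_lit 95) (nat_lit 0) (nat_lit 159) (nat_lit 151) (nat_lit 140)) (PT.lf (nat_lit 6460) (nat_lit 6) (nat_lit 85) (nat_lit 0) (nat_lit 160) (nat_lit 151) (nat_lit 139)))) (PT.nd (nat_lit 78) (PT.lf (nat_lit 6080) (nat_lit 6) (nat_lit 80) (nat_lit 5) (nat_lit 138) (nat_lit 152) (nat_lit 160)) (PT.nd (nat_lit 78) (PT.lf (nat_lit 6536) (nat_lit 6) (nat_lit 86) (nat_lit 5) (nat_lit 139) (nat_lit 152) (nat_lit 159)) (PT.lf (nat_lit 7296) (nat_lit 6) (nat_lit 96) (nat_lit 5) (nat_lit 140) (nat_lit 152) (nat_lit 158))))) (PT.nd (nat_lit 234) (PT.nd (nat_lit 78) (PT.lf (nat_lit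 8056) (nat_lit 6) (nat_lit 106) (nat_lit 5) (nat_lit 141) (nat_lit 152) (nat_lit 157)) (PT.nd (nat_lit 78) (PT.lf (nat_lit 8740) (nat_lit 6) (nat_lit 115) (nat_lit 5) (nat_lit 142) (nat_lit 152) (nat_lit 156)) (PT.lf (nat_lit 9348) (nat_lit 6) (nat_lit 123) (nat_lit 5) (nat_lit 143) (nat_lit 152) (nat_lit 155)))) (PT.nd (nat_lit 78) (PT.lf (nat_lit 9880) (nat_lit 6) (nat_lit 130) (nat_lit 5) (nat_lit 144) (nat_lit 152) (nat_lit 154)) (PT.nd (nat_lit 78) (PT.lf (nat_lit 10336) (nat_lit 6) (nat_lit 136) (nat_lit 5) (nat_lit 145) (nat_lit 152) (nat_lit 153)) (PT.lf (nat_lit 10716) (nat_lit 3) (nat_lit 141) (nat_lit 4) (nat_lit 146) (nat_lit 152) (nat_lit 152)))))) (PT.nd (nat_lit 468) (PT.nd (nat_lit 234) (PT.nd (nat_lit 78) (PT.lf (nat_lit 10944) (nat_lit 6) (nat_lit 144) (nat_lit 4) (nat_lit 147) (nat_lit 152) (nat_lit 151)) (PT.nd (nat_lit 78) (PT.lf (nat_lit 11096) (nat_lit 6) (nat_lit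 146) (nat_lit 4) (nat_lit 148) (nat_lit 152) (nat_lit 150)) (PT.lf (nat_lit 11020) (nat_lit 3) (nat_lit 145) (nat_lit 2) (nat_lit 149) (nat_lit 152) (nat_lit 149)))) (PT.nd (nat_lit 78) (PT.lf (nat_lit 11096) (nat_lit 6) (nat_lit 146) (nat_lit 2) (nat_lit 150) (nat_lit 152) (nat_lit 148)) (PT.nd (nat_lit 78) (PT.lf (nat_lit 10944) (nat_lit 6) (nat_lit 144) (nat_lit 2) (nat_lit 151) (nat_lit 152) (nat_lit 147)) (PT.lf (nat_lit 10716) (nat_lit 3) (nat_lit 141) (nat_lit 0) (nat_lit 152) (nat_lit 152) (nat_lit 146))))) (PT.nd (nat_lit 234) (PT.nd (nat_lit 78) (PT.lf (nat_lit 10336) (nat_lit 6) (nat_lit 136) (nat_lit 0) (nat_lit 153) (nat_lit 152) (nat_lit 145)) (PT.nd (nat_lit 78) (PT.lf (nat_lit 9880) (nat_lit 6) (nat_lit 130) (nat_lit 0) (nat_lit 154) (nat_lit 152) (nat_lit 144)) (PT.lf (nat_lit 9348) (nat_lit 6) (nat_lit 123) (nat_lit 0) (nat_lit 155) (nat_lit 152) (nat_lit 143)))) (PT.nd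 (nat_lit 156) (PT.nd (nat_lit 78) (PT.lf (nat_lit 8740) (nat_lit 6) (nat_lit 115) (nat_lit 0) (nat_lit 156) (nat_lit 152) (nat_lit 142)) (PT.lf (nat_lit 8056) (nat_lit 6) (nat_lit 106) (nat_lit 0) (nat_lit 157) (nat_lit 152) (nat_lit 141))) (PT.nd (nat_lit 78) (PT.lf (nat_lit 7296) (nat_lit 6) (nat_lit 96) (nat_lit 0) (nat_lit 158) (nat_lit 152) (nat_lit 140)) (PT.lf (nat_lit 6536) (nat_lit 6) (nat_lit 86) (nat_lit 0) (nat_lit 159) (nat_lit 152) (nat_lit 139))))))) (PT.nd (nat_lit 45942) (PT.nd (nat_lit 45396) (PT.nd (nat_lit 45162) (PT.nd (nat_lit 45006) (PT.lf (nat_lit 6080) (nat_lit 6) (nat_lit 80) (nat_lit 0) (nat_lit 160) (nat_lit 152) (nat_lit 138)) (PT.nd (nat_lit 78) (PT.lf (nat_lit 5396) (nat_lit 6) (nat_lit 71) (nat_lit 5) (nat_lit 136) (nat_lit 153) (nat_lit 161)) (PT.lf (nat_lit 5776) (nat_lit 6) (nat_lit 76) (nat_lit 5) (nat_lit 137) (nat_lit 153) (nat_lit 160)))) (PT.nd (nat_lit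 78) (PT.lf (nat_lit 6156) (nat_lit 6) (nat_lit 81) (nat_lit 5) (nat_lit 138) (nat_lit 153) (nat_lit 159)) (PT.nd (nat_lit 78) (PT.lf (nat_lit 6612) (nat_lit 6) (nat_lit 87) (nat_lit 5) (nat_lit 139) (nat_lit 153) (nat_lit 158)) (PT.lf (nat_lit 7372) (nat_lit 6) (nat_lit 97) (nat_lit 5) (nat_lit 140) (nat_lit 153) (nat_lit 157))))) (PT.nd (nat_lit 234) (PT.nd (nat_lit 78) (PT.lf (nat_lit 8132) (nat_lit 6) (nat_lit 107) (nat_lit 5) (nat_lit 141) (nat_lit 153) (nat_lit 156)) (PT.nd (nat_lit 78) (PT.lf (nat_lit 8816) (nat_lit 6) (nat_lit 116) (nat_lit 5) (nat_lit 142) (nat_lit 153) (nat_lit 155)) (PT.lf (nat_lit 9424) (nat_lit 6) (nat_lit 124) (nat_lit 5) (nat_lit 143) (nat_lit 153) (nat_lit 154)))) (PT.nd (nat_lit 156) (PT.nd (nat_lit 78) (PT.lf (nat_lit 9956) (nat_lit 3) (nat_lit 131) (nat_lit 4) (nat_lit 144) (nat_lit 153) (nat_lit 153)) (PT.lf (nat_lit 10336) (nat_lit 6) (nat_lit 136)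 (nat_lit 4) (nat_lit 145) (nat_lit 153) (nat_lit 152))) (PT.nd (nat_lit 78) (PT.lf (nat_lit 10640) (nat_lit 6) (nat_lit 140) (nat_lit 4) (nat_lit 146) (nat_lit 153) (nat_lit 151)) (PT.lf (nat_lit 10868) (nat_lit 6) (nat_lit 143) (nat_lit 4) (nat_lit 147) (nat_lit 153) (nat_lit 150)))))) (PT.nd (nat_lit 468) (PT.nd (nat_lit 234) (PT.nd (nat_lit 78) (PT.lf (nat_lit 10792) (nat_lit 6) (nat_lit 142) (nat_lit 4) (nat_lit 148) (nat_lit 153) (nat_lit 149)) (PT.nd (nat_lit 78) (PT.lf (nat_lit 10792) (nat_lit 6) (nat_lit 142) (nat_lit 2) (nat_lit 149) (nat_lit 153) (nat_lit 148)) (PT.lf (nat_lit 10868) (nat_lit 6) (nat_lit 143) (nat_lit 2) (nat_lit 150) (nat_lit 153) (nat_lit 147)))) (PT.nd (nat_lit 78) (PT.lf (nat_lit 10640) (nat_lit 6) (nat_lit 140) (nat_lit 2) (nat_lit 151) (nat_lit 153) (nat_lit 146)) (PT.nd (nat_lit 78) (PT.lf (nat_lit 10336) (nat_lit 6) (nat_lit 136) (nat_lit 2) (nat_lit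 152) (nat_lit 153) (nat_lit 145)) (PT.lf (nat_lit 9956) (nat_lit 3) (nat_lit 131) (nat_lit 0) (nat_lit 153) (nat_lit 153) (nat_lit 144))))) (PT.nd (nat_lit 234) (PT.nd (nat_lit 78) (PT.lf (nat_lit 9424) (nat_lit 6) (nat_lit 124) (nat_lit 0) (nat_lit 154) (nat_lit 153) (nat_lit 143)) (PT.nd (nat_lit 78) (PT.lf (nat_lit 8816) (nat_lit 6) (nat_lit 116) (nat_lit 0) (nat_lit 155) (nat_lit 153) (nat_lit 142)) (PT.lf (nat_lit 8132) (nat_lit 6) (nat_lit 107) (nat_lit 0) (nat_lit 156) (nat_lit 153) (nat_lit 141)))) (PT.nd (nat_lit 156) (PT.nd (nat_lit 78) (PT.lf (nat_lit 7372) (nat_lit 6) (nat_lit 97) (nat_lit 0) (nat_lit 157) (nat_lit 153) (nat_lit 140)) (PT.lf (nat_lit 6612) (nat_lit 6) (nat_lit 87) (nat_lit 0) (nat_lit 158) (nat_lit 153) (nat_lit 139))) (PT.nd (nat_lit 78) (PT.lf (nat_lit 6156) (nat_lit 6) (nat_lit 81) (nat_lit 0) (nat_lit 159) (nat_lit 153) (nat_lit 138)) (PT.lf (nat_lit 5776)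 (nat_lit 6) (nat_lit 76) (nat_lit 0) (nat_lit 160) (nat_lit 153) (nat_lit 137))))))))
noncomputable def pc8 : PT := (PT.nd (nat_lit 46722) (PT.nd (nat_lit 45708) (PT.nd (nat_lit 45240) (PT.nd (nat_lit 45006) (PT.nd (nat_lit 44850) (PT.lf (nat_lit 5396) (nat_lit 6) (nat_lit 71) (nat_lit 0) (nat_lit 161) (nat_lit 153) (nat_lit 136)) (PT.nd (nat_lit 78) (PT.lf (nat_lit 5092) (nat_lit 6) (nat_lit 67) (nat_lit 5) (nat_lit 135) (nat_lit 154) (nat_lit 161)) (PT.lf (nat_lit 5472) (nat_lit 6) (nat_lit 72) (nat_lit 5) (nat_lit 136) (nat_lit 154) (nat_lit 160)))) (PT.nd (nat_lit 78) (PT.lf (nat_lit 5852) (nat_lit 6) (nat_lit 77) (nat_lit 5) (nat_lit 137) (nat_lit 154) (nat_lit 159)) (PT.nd (nat_lit 78) (PT.lf (nat_lit 6232) (nat_lit 6) (nat_lit 82) (nat_lit 5) (nat_lit 138) (nat_lit 154) (nat_lit 158)) (PT.lf (nat_lit 6688) (nat_lit 6) (nat_lit 88) (nat_lit 5) (nat_lit 139) (nat_lit 154) (nat_lit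 157))))) (PT.nd (nat_lit 234) (PT.nd (nat_lit 78) (PT.lf (nat_lit 7448) (nat_lit 6) (nat_lit 98) (nat_lit 5) (nat_lit 140) (nat_lit 154) (nat_lit 156)) (PT.nd (nat_lit 78) (PT.lf (nat_lit 8208) (nat_lit 6) (nat_lit 108) (nat_lit 5) (nat_lit 141) (nat_lit 154) (nat_lit 155)) (PT.lf (nat_lit 8892) (nat_lit 3) (nat_lit 117) (nat_lit 4) (nat_lit 142) (nat_lit 154) (nat_lit 154)))) (PT.nd (nat_lit 78) (PT.lf (nat_lit 9424) (nat_lit 6) (nat_lit 124) (nat_lit 4) (nat_lit 143) (nat_lit 154) (nat_lit 153)) (PT.nd (nat_lit 78) (PT.lf (nat_lit 9880) (nat_lit 6) (nat_lit 130) (nat_lit 4) (nat_lit 144) (nat_lit 154) (nat_lit 152)) (PT.lf (nat_lit 10260) (nat_lit 6) (nat_lit 135) (nat_lit 4) (nat_lit 145) (nat_lit 154) (nat_lit 151)))))) (PT.nd (nat_lit 468) (PT.nd (nat_lit 234) (PT.nd (nat_lit 78) (PT.lf (nat_lit 10564) (nat_lit 6) (nat_lit 139) (nat_lit 4) (nat_lit 146) (nat_lit 154) (nat_lit 150))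 (PT.nd (nat_lit 78) (PT.lf (nat_lit 10488) (nat_lit 6) (nat_lit 138) (nat_lit 4) (nat_lit 147) (nat_lit 154) (nat_lit 149)) (PT.lf (nat_lit 10412) (nat_lit 3) (nat_lit 137) (nat_lit 2) (nat_lit 148) (nat_lit 154) (nat_lit 148)))) (PT.nd (nat_lit 78) (PT.lf (nat_lit 10488) (nat_lit 6) (nat_lit 138) (nat_lit 2) (nat_lit 149) (nat_lit 154) (nat_lit 147)) (PT.nd (nat_lit 78) (PT.lf (nat_lit 10564) (nat_lit 6) (nat_lit 139) (nat_lit 2) (nat_lit 150) (nat_lit 154) (nat_lit 146)) (PT.lf (nat_lit 10260) (nat_lit 6) (nat_lit 135) (nat_lit 2) (nat_lit 151) (nat_lit 154) (nat_lit 145))))) (PT.nd (nat_lit 234) (PT.nd (nat_lit 78) (PT.lf (nat_lit 9880) (nat_lit 6) (nat_lit 130) (nat_lit 2) (nat_lit 152) (nat_lit 154) (nat_lit 144)) (PT.nd (nat_lit 78) (PT.lf (nat_lit 9424) (nat_lit 6) (nat_lit 124) (nat_lit 2) (nat_lit 153) (nat_lit 154) (nat_lit 143)) (PT.lf (nat_lit 8892) (nat_lit 3) (nat_lit 117)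 (nat_lit 0) (nat_lit 154) (nat_lit 154) (nat_lit 142)))) (PT.nd (nat_lit 156) (PT.nd (nat_lit 78) (PT.lf (nat_lit 8208) (nat_lit 6) (nat_lit 108) (nat_lit 0) (nat_lit 155) (nat_lit 154) (nat_lit 141)) (PT.lf (nat_lit 7448) (nat_lit 6) (nat_lit 98) (nat_lit 0) (nat_lit 156) (nat_lit 154) (nat_lit 140))) (PT.nd (nat_lit 78) (PT.lf (nat_lit 6688) (nat_lit 6) (nat_lit 88) (nat_lit 0) (nat_lit 157) (nat_lit 154) (nat_lit 139)) (PT.lf (nat_lit 6232) (nat_lit 6) (nat_lit 82) (nat_lit 0) (nat_lit 158) (nat_lit 154) (nat_lit 138))))))) (PT.nd (nat_lit 45552) (PT.nd (nat_lit 45084) (PT.nd (nat_lit 44850) (PT.nd (nat_lit 78) (PT.lf (nat_lit 5852) (nat_lit 6) (nat_lit 77) (nat_lit 0) (nat_lit 159) (nat_lit 154) (nat_lit 137)) (PT.nd (nat_lit 78) (PT.lf (nat_lit 5472) (nat_lit 6) (nat_lit 72) (nat_lit 0) (nat_lit 160) (nat_lit 154) (nat_lit 136)) (PT.lf (nat_lit 5092) (nat_lit 6) (nat_lit 67) (nat_lit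 0) (nat_lit 161) (nat_lit 154) (nat_lit 135)))) (PT.nd (nat_lit 78) (PT.lf (nat_lit 4484) (nat_lit 6) (nat_lit 59) (nat_lit 5) (nat_lit 133) (nat_lit 155) (nat_lit 162)) (PT.nd (nat_lit 78) (PT.lf (nat_lit 4788) (nat_lit 6) (nat_lit 63) (nat_lit 5) (nat_lit 134) (nat_lit 155) (nat_lit 161)) (PT.lf (nat_lit 5168) (nat_lit 6) (nat_lit 68) (nat_lit 5) (nat_lit 135) (nat_lit 155) (nat_lit 160))))) (PT.nd (nat_lit 234) (PT.nd (nat_lit 78) (PT.lf (nat_lit 5548) (nat_lit 6) (nat_lit 73) (nat_lit 5) (nat_lit 136) (nat_lit 155) (nat_lit 159)) (PT.nd (nat_lit 78) (PT.lf (nat_lit 5928) (nat_lit 6) (nat_lit 78) (nat_lit 5) (nat_lit 137) (nat_lit 155) (nat_lit 158)) (PT.lf (nat_lit 6308) (nat_lit 6) (nat_lit 83) (nat_lit 5) (nat_lit 138) (nat_lit 155) (nat_lit 157)))) (PT.nd (nat_lit 78) (PT.lf (nat_lit 6764) (nat_lit 6) (nat_lit 89) (nat_lit 5) (nat_lit 139) (nat_lit 155) (nat_lit 156)) (PT.nd (nat_lit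 78) (PT.lf (nat_lit 7524) (nat_lit 3) (nat_lit 99) (nat_lit 4) (nat_lit 140) (nat_lit 155) (nat_lit 155)) (PT.lf (nat_lit 8208) (nat_lit 6) (nat_lit 108) (nat_lit 4) (nat_lit 141) (nat_lit 155) (nat_lit 154)))))) (PT.nd (nat_lit 468) (PT.nd (nat_lit 234) (PT.nd (nat_lit 78) (PT.lf (nat_lit 8816) (nat_lit 6) (nat_lit 116) (nat_lit 4) (nat_lit 142) (nat_lit 155) (nat_lit 153)) (PT.nd (nat_lit 78) (PT.lf (nat_lit 9348) (nat_lit 6) (nat_lit 123) (nat_lit 4) (nat_lit 143) (nat_lit 155) (nat_lit 152)) (PT.lf (nat_lit 9804) (nat_lit 6) (nat_lit 129) (nat_lit 4) (nat_lit 144) (nat_lit 155) (nat_lit 151)))) (PT.nd (nat_lit 78) (PT.lf (nat_lit 10184) (nat_lit 6) (nat_lit 134) (nat_lit 4) (nat_lit 145) (nat_lit 155) (nat_lit 150)) (PT.nd (nat_lit 78) (PT.lf (nat_lit 10108) (nat_lit 6) (nat_lit 133) (nat_lit 4) (nat_lit 146) (nat_lit 155) (nat_lit 149)) (PT.lf (nat_lit 10032) (nat_lit 6) (nat_lit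 132) (nat_lit 4) (nat_lit 147) (nat_lit 155) (nat_lit 148))))) (PT.nd (nat_lit 234) (PT.nd (nat_lit 78) (PT.lf (nat_lit 10032) (nat_lit 6) (nat_lit 132) (nat_lit 2) (nat_lit 148) (nat_lit 155) (nat_lit 147)) (PT.nd (nat_lit 78) (PT.lf (nat_lit 10108) (nat_lit 6) (nat_lit 133) (nat_lit 2) (nat_lit 149) (nat_lit 155) (nat_lit 146)) (PT.lf (nat_lit 10184) (nat_lit 6) (nat_lit 134) (nat_lit 2) (nat_lit 150) (nat_lit 155) (nat_lit 145)))) (PT.nd (nat_lit 156) (PT.nd (nat_lit 78) (PT.lf (nat_lit 9804) (nat_lit 6) (nat_lit 129) (nat_lit 2) (nat_lit 151) (nat_lit 155) (nat_lit 144)) (PT.lf (nat_lit 9348) (nat_lit 6) (nat_lit 123) (nat_lit 2) (nat_lit 152) (nat_lit 155) (nat_lit 143))) (PT.nd (nat_lit 78) (PT.lf (nat_lit 8816) (nat_lit 6) (nat_lit 116) (nat_lit 2) (nat_lit 153) (nat_lit 155) (nat_lit 142)) (PT.lf (nat_lit 8208) (nat_lit 6) (nat_lit 108) (nat_lit 2) (nat_lit 154) (nat_lit 155) (nat_lit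 141))))))))
noncomputable def pc9 : PT := (PT.nd (nat_lit 46410) (PT.nd (nat_lit 45396) (PT.nd (nat_lit 468) (PT.nd (nat_lit 234) (PT.nd (nat_lit 78) (PT.lf (nat_lit 7524) (nat_lit 3) (nat_lit 99) (nat_lit 0) (nat_lit 155) (nat_lit 155) (nat_lit 140)) (PT.nd (nat_lit 78) (PT.lf (nat_lit 6764) (nat_lit 6) (nat_lit 89) (nat_lit 0) (nat_lit 156) (nat_lit 155) (nat_lit 139)) (PT.lf (nat_lit 6308) (nat_lit 6) (nat_lit 83) (nat_lit 0) (nat_lit 157) (nat_lit 155) (nat_lit 138)))) (PT.nd (nat_lit 78) (PT.lf (nat_lit 5928) (nat_lit 6) (nat_lit 78) (nat_lit 0) (nat_lit 158) (nat_lit 155) (nat_lit 137)) (PT.nd (nat_lit 78) (PT.lf (nat_lit 5548) (nat_lit 6) (nat_lit 73) (nat_lit 0) (nat_lit 159) (nat_lit 155) (nat_lit 136)) (PT.lf (nat_lit 5168) (nat_lit 6) (nat_lit 68) (nat_lit 0) (nat_lit 160) (nat_lit 155) (nat_lit 135))))) (PT.nd (nat_lit 44694) (PT.nd (nat_lit 78) (PT.lf (nat_lit 4788) (nat_lit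 6) (nat_lit 63) (nat_lit 0) (nat_lit 161) (nat_lit 155) (nat_lit 134)) (PT.nd (nat_lit 44538) (PT.lf (nat_lit 4484) (nat_lit 6) (nat_lit 59) (nat_lit 0) (nat_lit 162) (nat_lit 155) (nat_lit 133)) (PT.lf (nat_lit 4180) (nat_lit 6) (nat_lit 55) (nat_lit 5) (nat_lit 132) (nat_lit 156) (nat_lit 162)))) (PT.nd (nat_lit 78) (PT.lf (nat_lit 4560) (nat_lit 6) (nat_lit 60) (nat_lit 5) (nat_lit 133) (nat_lit 156) (nat_lit 161)) (PT.nd (nat_lit 78) (PT.lf (nat_lit 4864) (nat_lit 6) (nat_lit 64) (nat_lit 5) (nat_lit 134) (nat_lit 156) (nat_lit 160)) (PT.lf (nat_lit 5244) (nat_lit 6) (nat_lit 69) (nat_lit 5) (nat_lit 135) (nat_lit 156) (nat_lit 159)))))) (PT.nd (nat_lit 468) (PT.nd (nat_lit 234) (PT.nd (nat_lit 78) (PT.lf (nat_lit 5624) (nat_lit 6) (nat_lit 74) (nat_lit 5) (nat_lit 136) (nat_lit 156) (nat_lit 158)) (PT.nd (nat_lit 78) (PT.lf (nat_lit 6004) (nat_lit 6) (nat_lit 79) (nat_lit 5) (nat_lit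 137) (nat_lit 156) (nat_lit 157)) (PT.lf (nat_lit 6384) (nat_lit 3) (nat_lit 84) (nat_lit 4) (nat_lit 138) (nat_lit 156) (nat_lit 156)))) (PT.nd (nat_lit 78) (PT.lf (nat_lit 6764) (nat_lit 6) (nat_lit 89) (nat_lit 4) (nat_lit 139) (nat_lit 156) (nat_lit 155)) (PT.nd (nat_lit 78) (PT.lf (nat_lit 7448) (nat_lit 6) (nat_lit 98) (nat_lit 4) (nat_lit 140) (nat_lit 156) (nat_lit 154)) (PT.lf (nat_lit 8132) (nat_lit 6) (nat_lit 107) (nat_lit 4) (nat_lit 141) (nat_lit 156) (nat_lit 153))))) (PT.nd (nat_lit 234) (PT.nd (nat_lit 78) (PT.lf (nat_lit 8740) (nat_lit 6) (nat_lit 115) (nat_lit 4) (nat_lit 142) (nat_lit 156) (nat_lit 152)) (PT.nd (nat_lit 78) (PT.lf (nat_lit 9272) (nat_lit 6) (nat_lit 122) (nat_lit 4) (nat_lit 143) (nat_lit 156) (nat_lit 151)) (PT.lf (nat_lit 9728) (nat_lit 6) (nat_lit 128) (nat_lit 4) (nat_lit 144) (nat_lit 156) (nat_lit 150)))) (PT.nd (nat_lit 156) (PT.nd (nat_lit 78)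 (PT.lf (nat_lit 9652) (nat_lit 6) (nat_lit 127) (nat_lit 4) (nat_lit 145) (nat_lit 156) (nat_lit 149)) (PT.lf (nat_lit 9576) (nat_lit 6) (nat_lit 126) (nat_lit 4) (nat_lit 146) (nat_lit 156) (nat_lit 148))) (PT.nd (nat_lit 78) (PT.lf (nat_lit 9500) (nat_lit 3) (nat_lit 125) (nat_lit 2) (nat_lit 147) (nat_lit 156) (nat_lit 147)) (PT.lf (nat_lit 9576) (nat_lit 6) (nat_lit 126) (nat_lit 2) (nat_lit 148) (nat_lit 156) (nat_lit 146))))))) (PT.nd (nat_lit 1014) (PT.nd (nat_lit 468) (PT.nd (nat_lit 234) (PT.nd (nat_lit 78) (PT.lf (nat_lit 9652) (nat_lit 6) (nat_lit 127) (nat_lit 2) (nat_lit 149) (nat_lit 156) (nat_lit 145)) (PT.nd (nat_lit 78) (PT.lf (nat_lit 9728) (nat_lit 6) (nat_lit 128) (nat_lit 2) (nat_lit 150) (nat_lit 156) (nat_lit 144)) (PT.lf (nat_lit 9272) (nat_lit 6) (nat_lit 122) (nat_lit 2) (nat_lit 151) (nat_lit 156) (nat_lit 143)))) (PT.nd (nat_lit 78) (PT.lf (nat_lit 8740) (nat_lit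 6) (nat_lit 115) (nat_lit 2) (nat_lit 152) (nat_lit 156) (nat_lit 142)) (PT.nd (nat_lit 78) (PT.lf (nat_lit 8132) (nat_lit 6) (nat_lit 107) (nat_lit 2) (nat_lit 153) (nat_lit 156) (nat_lit 141)) (PT.lf (nat_lit 7448) (nat_lit 6) (nat_lit 98) (nat_lit 2) (nat_lit 154) (nat_lit 156) (nat_lit 140))))) (PT.nd (nat_lit 234) (PT.nd (nat_lit 78) (PT.lf (nat_lit 6764) (nat_lit 6) (nat_lit 89) (nat_lit 2) (nat_lit 155) (nat_lit 156) (nat_lit 139)) (PT.nd (nat_lit 78) (PT.lf (nat_lit 6384) (nat_lit 3) (nat_lit 84) (nat_lit 0) (nat_lit 156) (nat_lit 156) (nat_lit 138)) (PT.lf (nat_lit 6004) (nat_lit 6) (nat_lit 79) (nat_lit 0) (nat_lit 157) (nat_lit 156) (nat_lit 137)))) (PT.nd (nat_lit 156) (PT.nd (nat_lit 78) (PT.lf (nat_lit 5624) (nat_lit 6) (nat_lit 74) (nat_lit 0) (nat_lit 158) (nat_lit 156) (nat_lit 136)) (PT.lf (nat_lit 5244) (nat_lit 6) (nat_lit 69) (nat_lit 0) (nat_lit 159) (nat_lit 156)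 (nat_lit 135))) (PT.nd (nat_lit 78) (PT.lf (nat_lit 4864) (nat_lit 6) (nat_lit 64) (nat_lit 0) (nat_lit 160) (nat_lit 156) (nat_lit 134)) (PT.lf (nat_lit 4560) (nat_lit 6) (nat_lit 60) (nat_lit 0) (nat_lit 161) (nat_lit 156) (nat_lit 133)))))) (PT.nd (nat_lit 44850) (PT.nd (nat_lit 44616) (PT.nd (nat_lit 44460) (PT.lf (nat_lit 4180) (nat_lit 6) (nat_lit 55) (nat_lit 0) (nat_lit 162) (nat_lit 156) (nat_lit 132)) (PT.nd (nat_lit 78) (PT.lf (nat_lit 3952) (nat_lit 6) (nat_lit 52) (nat_lit 5) (nat_lit 131) (nat_lit 157) (nat_lit 162)) (PT.lf (nat_lit 4256) (nat_lit 6) (nat_lit 56) (nat_lit 5) (nat_lit 132) (nat_lit 157) (nat_lit 161)))) (PT.nd (nat_lit 78) (PT.lf (nat_lit 4636) (nat_lit 6) (nat_lit 61) (nat_lit 5) (nat_lit 133) (nat_lit 157) (nat_lit 160)) (PT.nd (nat_lit 78) (PT.lf (nat_lit 4940) (nat_lit 6) (nat_lit 65) (nat_lit 5) (nat_lit 134) (nat_lit 157) (nat_lit 159)) (PT.lf (nat_lit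 5320) (nat_lit 6) (nat_lit 70) (nat_lit 5) (nat_lit 135) (nat_lit 157) (nat_lit 158))))) (PT.nd (nat_lit 234) (PT.nd (nat_lit 78) (PT.lf (nat_lit 5700) (nat_lit 3) (nat_lit 75) (nat_lit 4) (nat_lit 136) (nat_lit 157) (nat_lit 157)) (PT.nd (nat_lit 78) (PT.lf (nat_lit 6004) (nat_lit 6) (nat_lit 79) (nat_lit 4) (nat_lit 137) (nat_lit 157) (nat_lit 156)) (PT.lf (nat_lit 6308) (nat_lit 6) (nat_lit 83) (nat_lit 4) (nat_lit 138) (nat_lit 157) (nat_lit 155)))) (PT.nd (nat_lit 156) (PT.nd (nat_lit 78) (PT.lf (nat_lit 6688) (nat_lit 6) (nat_lit 88) (nat_lit 4) (nat_lit 139) (nat_lit 157) (nat_lit 154)) (PT.lf (nat_lit 7372) (nat_lit 6) (nat_lit 97) (nat_lit 4) (nat_lit 140) (nat_lit 157) (nat_lit 153))) (PT.nd (nat_lit 78) (PT.lf (nat_lit 8056) (nat_lit 6) (nat_lit 106) (nat_lit 4) (nat_lit 141) (nat_lit 157) (nat_lit 152)) (PT.lf (nat_lit 8664) (nat_lit 6) (nat_lit 114) (nat_lit 4) (nat_lit 142)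 (nat_lit 157) (nat_lit 151))))))))
noncomputable def pc10 : PT := (PT.nd (nat_lit 46176) (PT.nd (nat_lit 936) (PT.nd (nat_lit 468) (PT.nd (nat_lit 234) (PT.nd (nat_lit 78) (PT.lf (nat_lit 9196) (nat_lit 6) (nat_lit 121) (nat_lit 4) (nat_lit 143) (nat_lit 157) (nat_lit 150)) (PT.nd (nat_lit 78) (PT.lf (nat_lit 9120) (nat_lit 6) (nat_lit 120) (nat_lit 4) (nat_lit 144) (nat_lit 157) (nat_lit 149)) (PT.lf (nat_lit 9044) (nat_lit 6) (nat_lit 119) (nat_lit 4) (nat_lit 145) (nat_lit 157) (nat_lit 148)))) (PT.nd (nat_lit 78) (PT.lf (nat_lit 8968) (nat_lit 6) (nat_lit 118) (nat_lit 4) (nat_lit 146) (nat_lit 157) (nat_lit 147)) (PT.nd (nat_lit 78) (PT.lf (nat_lit 8968) (nat_lit 6) (nat_lit 118) (nat_lit 2) (nat_lit 147) (nat_lit 157) (nat_lit 146)) (PT.lf (nat_lit 9044) (nat_lit 6) (nat_lit 119) (nat_lit 2) (nat_lit 148) (nat_lit 157) (nat_lit 145))))) (PT.nd (nat_lit 234) (PT.nd (nat_lit 78) (PT.lf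 (nat_lit 9120) (nat_lit 6) (nat_lit 120) (nat_lit 2) (nat_lit 149) (nat_lit 157) (nat_lit 144)) (PT.nd (nat_lit 78) (PT.lf (nat_lit 9196) (nat_lit 6) (nat_lit 121) (nat_lit 2) (nat_lit 150) (nat_lit 157) (nat_lit 143)) (PT.lf (nat_lit 8664) (nat_lit 6) (nat_lit 114) (nat_lit 2) (nat_lit 151) (nat_lit 157) (nat_lit 142)))) (PT.nd (nat_lit 78) (PT.lf (nat_lit 8056) (nat_lit 6) (nat_lit 106) (nat_lit 2) (nat_lit 152) (nat_lit 157) (nat_lit 141)) (PT.nd (nat_lit 78) (PT.lf (nat_lit 7372) (nat_lit 6) (nat_lit 97) (nat_lit 2) (nat_lit 153) (nat_lit 157) (nat_lit 140)) (PT.lf (nat_lit 6688) (nat_lit 6) (nat_lit 88) (nat_lit 2) (nat_lit 154) (nat_lit 157) (nat_lit 139)))))) (PT.nd (nat_lit 468) (PT.nd (nat_lit 234) (PT.nd (nat_lit 78) (PT.lf (nat_lit 6308) (nat_lit 6) (nat_lit 83) (nat_lit 2) (nat_lit 155) (nat_lit 157) (nat_lit 138)) (PT.nd (nat_lit 78) (PT.lf (nat_lit 6004) (nat_lit 6) (nat_lit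 79) (nat_lit 2) (nat_lit 156) (nat_lit 157) (nat_lit 137)) (PT.lf (nat_lit 5700) (nat_lit 3) (nat_lit 75) (nat_lit 0) (nat_lit 157) (nat_lit 157) (nat_lit 136)))) (PT.nd (nat_lit 78) (PT.lf (nat_lit 5320) (nat_lit 6) (nat_lit 70) (nat_lit 0) (nat_lit 158) (nat_lit 157) (nat_lit 135)) (PT.nd (nat_lit 78) (PT.lf (nat_lit 4940) (nat_lit 6) (nat_lit 65) (nat_lit 0) (nat_lit 159) (nat_lit 157) (nat_lit 134)) (PT.lf (nat_lit 4636) (nat_lit 6) (nat_lit 61) (nat_lit 0) (nat_lit 160) (nat_lit 157) (nat_lit 133))))) (PT.nd (nat_lit 44460) (PT.nd (nat_lit 78) (PT.lf (nat_lit 4256) (nat_lit 6) (nat_lit 56) (nat_lit 0) (nat_lit 161) (nat_lit 157) (nat_lit 132)) (PT.nd (nat_lit 44304) (PT.lf (nat_lit 3952) (nat_lit 6) (nat_lit 52) (nat_lit 0) (nat_lit 162) (nat_lit 157) (nat_lit 131)) (PT.lf (nat_lit 3496) (nat_lit 6) (nat_lit 46) (nat_lit 5) (nat_lit 129) (nat_lit 158) (nat_lit 163)))) (PT.nd (nat_lit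 156) (PT.nd (nat_lit 78) (PT.lf (nat_lit 3724) (nat_lit 6) (nat_lit 49) (nat_lit 5) (nat_lit 130) (nat_lit 158) (nat_lit 162)) (PT.lf (nat_lit 4028) (nat_lit 6) (nat_lit 53) (nat_lit 5) (nat_lit 131) (nat_lit 158) (nat_lit 161))) (PT.nd (nat_lit 78) (PT.lf (nat_lit 4332) (nat_lit 6) (nat_lit 57) (nat_lit 5) (nat_lit 132) (nat_lit 158) (nat_lit 160)) (PT.lf (nat_lit 4712) (nat_lit 6) (nat_lit 62) (nat_lit 5) (nat_lit 133) (nat_lit 158) (nat_lit 159))))))) (PT.nd (nat_lit 936) (PT.nd (nat_lit 468) (PT.nd (nat_lit 234) (PT.nd (nat_lit 78) (PT.lf (nat_lit 5016) (nat_lit 3) (nat_lit 66) (nat_lit 4) (nat_lit 134) (nat_lit 158) (nat_lit 158)) (PT.nd (nat_lit 78) (PT.lf (nat_lit 5320) (nat_lit 6) (nat_lit 70) (nat_lit 4) (nat_lit 135) (nat_lit 158) (nat_lit 157)) (PT.lf (nat_lit 5624) (nat_lit 6) (nat_lit 74) (nat_lit 4) (nat_lit 136) (nat_lit 158) (nat_lit 156)))) (PT.nd (nat_lit 78) (PT.lf (nat_lit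 5928) (nat_lit 6) (nat_lit 78) (nat_lit 4) (nat_lit 137) (nat_lit 158) (nat_lit 155)) (PT.nd (nat_lit 78) (PT.lf (nat_lit 6232) (nat_lit 6) (nat_lit 82) (nat_lit 4) (nat_lit 138) (nat_lit 158) (nat_lit 154)) (PT.lf (nat_lit 6612) (nat_lit 6) (nat_lit 87) (nat_lit 4) (nat_lit 139) (nat_lit 158) (nat_lit 153))))) (PT.nd (nat_lit 234) (PT.nd (nat_lit 78) (PT.lf (nat_lit 7296) (nat_lit 6) (nat_lit 96) (nat_lit 4) (nat_lit 140) (nat_lit 158) (nat_lit 152)) (PT.nd (nat_lit 78) (PT.lf (nat_lit 7980) (nat_lit 6) (nat_lit 105) (nat_lit 4) (nat_lit 141) (nat_lit 158) (nat_lit 151)) (PT.lf (nat_lit 8588) (nat_lit 6) (nat_lit 113) (nat_lit 4) (nat_lit 142) (nat_lit 158) (nat_lit 150)))) (PT.nd (nat_lit 78) (PT.lf (nat_lit 8512) (nat_lit 6) (nat_lit 112) (nat_lit 4) (nat_lit 143) (nat_lit 158) (nat_lit 149)) (PT.nd (nat_lit 78) (PT.lf (nat_lit 8436) (nat_lit 6) (nat_lit 111) (nat_lit 4) (nat_lit 144)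 (nat_lit 158) (nat_lit 148)) (PT.lf (nat_lit 8360) (nat_lit 6) (nat_lit 110) (nat_lit 4) (nat_lit 145) (nat_lit 158) (nat_lit 147)))))) (PT.nd (nat_lit 468) (PT.nd (nat_lit 234) (PT.nd (nat_lit 78) (PT.lf (nat_lit 8284) (nat_lit 3) (nat_lit 109) (nat_lit 2) (nat_lit 146) (nat_lit 158) (nat_lit 146)) (PT.nd (nat_lit 78) (PT.lf (nat_lit 8360) (nat_lit 6) (nat_lit 110) (nat_lit 2) (nat_lit 147) (nat_lit 158) (nat_lit 145)) (PT.lf (nat_lit 8436) (nat_lit 6) (nat_lit 111) (nat_lit 2) (nat_lit 148) (nat_lit 158) (nat_lit 144)))) (PT.nd (nat_lit 78) (PT.lf (nat_lit 8512) (nat_lit 6) (nat_lit 112) (nat_lit 2) (nat_lit 149) (nat_lit 158) (nat_lit 143)) (PT.nd (nat_lit 78) (PT.lf (nat_lit 8588) (nat_lit 6) (nat_lit 113) (nat_lit 2) (nat_lit 150) (nat_lit 158) (nat_lit 142)) (PT.lf (nat_lit 7980) (nat_lit 6) (nat_lit 105) (nat_lit 2) (nat_lit 151) (nat_lit 158) (nat_lit 141))))) (PT.nd (nat_lit 234)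 (PT.nd (nat_lit 78) (PT.lf (nat_lit 7296) (nat_lit 6) (nat_lit 96) (nat_lit 2) (nat_lit 152) (nat_lit 158) (nat_lit 140)) (PT.nd (nat_lit 78) (PT.lf (nat_lit 6612) (nat_lit 6) (nat_lit 87) (nat_lit 2) (nat_lit 153) (nat_lit 158) (nat_lit 139)) (PT.lf (nat_lit 6232) (nat_lit 6) (nat_lit 82) (nat_lit 2) (nat_lit 154) (nat_lit 158) (nat_lit 138)))) (PT.nd (nat_lit 156) (PT.nd (nat_lit 78) (PT.lf (nat_lit 5928) (nat_lit 6) (nat_lit 78) (nat_lit 2) (nat_lit 155) (nat_lit 158) (nat_lit 137)) (PT.lf (nat_lit 5624) (nat_lit 6) (nat_lit 74) (nat_lit 2) (nat_lit 156) (nat_lit 158) (nat_lit 136))) (PT.nd (nat_lit 78) (PT.lf (nat_lit 5320) (nat_lit 6) (nat_lit 70) (nat_lit 2) (nat_lit 157) (nat_lit 158) (nat_lit 135)) (PT.lf (nat_lit 5016) (nat_lit 3) (nat_lit 66) (nat_lit 0) (nat_lit 158) (nat_lit 158) (nat_lit 134))))))))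
noncomputable def pc11 : PT := (PT.nd (nat_lit 46020) (PT.nd (nat_lit 45006) (PT.nd (nat_lit 44538) (PT.nd (nat_lit 234) (PT.nd (nat_lit 78) (PT.lf (nat_lit 4712) (nat_lit 6) (nat_lit 62) (nat_lit 0) (nat_lit 159) (nat_lit 158) (nat_lit 133)) (PT.nd (nat_lit 78) (PT.lf (nat_lit 4332) (nat_lit 6) (nat_lit 57) (nat_lit 0) (nat_lit 160) (nat_lit 158) (nat_lit 132)) (PT.lf (nat_lit 4028) (nat_lit 6) (nat_lit 53) (nat_lit 0) (nat_lit 161) (nat_lit 158) (nat_lit 131)))) (PT.nd (nat_lit 78) (PT.lf (nat_lit 3724) (nat_lit 6) (nat_lit 49) (nat_lit 0) (nat_lit 162) (nat_lit 158) (nat_lit 130)) (PT.nd (nat_lit 44148) (PT.lf (nat_lit 3496) (nat_lit 6) (nat_lit 46) (nat_lit 0) (nat_lit 163) (nat_lit 158) (nat_lit 129)) (PT.lf (nat_lit 3268) (nat_lit 6) (nat_lit 43) (nat_lit 5) (nat_lit 128) (nat_lit 159) (nat_lit 163))))) (PT.nd (nat_lit 234) (PT.nd (nat_lit 78) (PT.lf (nat_lit 3572) (nat_lit 6) (nat_lit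 47) (nat_lit 5) (nat_lit 129) (nat_lit 159) (nat_lit 162)) (PT.nd (nat_lit 78) (PT.lf (nat_lit 3800) (nat_lit 6) (nat_lit 50) (nat_lit 5) (nat_lit 130) (nat_lit 159) (nat_lit 161)) (PT.lf (nat_lit 4104) (nat_lit 6) (nat_lit 54) (nat_lit 5) (nat_lit 131) (nat_lit 159) (nat_lit 160)))) (PT.nd (nat_lit 78) (PT.lf (nat_lit 4408) (nat_lit 3) (nat_lit 58) (nat_lit 4) (nat_lit 132) (nat_lit 159) (nat_lit 159)) (PT.nd (nat_lit 78) (PT.lf (nat_lit 4712) (nat_lit 6) (nat_lit 62) (nat_lit 4) (nat_lit 133) (nat_lit 159) (nat_lit 158)) (PT.lf (nat_lit 4940) (nat_lit 6) (nat_lit 65) (nat_lit 4) (nat_lit 134) (nat_lit 159) (nat_lit 157)))))) (PT.nd (nat_lit 468) (PT.nd (nat_lit 234) (PT.nd (nat_lit 78) (PT.lf (nat_lit 5244) (nat_lit 6) (nat_lit 69) (nat_lit 4) (nat_lit 135) (nat_lit 159) (nat_lit 156)) (PT.nd (nat_lit 78) (PT.lf (nat_lit 5548) (nat_lit 6) (nat_lit 73) (nat_lit 4) (nat_lit 136) (nat_lit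 159) (nat_lit 155)) (PT.lf (nat_lit 5852) (nat_lit 6) (nat_lit 77) (nat_lit 4) (nat_lit 137) (nat_lit 159) (nat_lit 154)))) (PT.nd (nat_lit 78) (PT.lf (nat_lit 6156) (nat_lit 6) (nat_lit 81) (nat_lit 4) (nat_lit 138) (nat_lit 159) (nat_lit 153)) (PT.nd (nat_lit 78) (PT.lf (nat_lit 6536) (nat_lit 6) (nat_lit 86) (nat_lit 4) (nat_lit 139) (nat_lit 159) (nat_lit 152)) (PT.lf (nat_lit 7220) (nat_lit 6) (nat_lit 95) (nat_lit 4) (nat_lit 140) (nat_lit 159) (nat_lit 151))))) (PT.nd (nat_lit 234) (PT.nd (nat_lit 78) (PT.lf (nat_lit 7904) (nat_lit 6) (nat_lit 104) (nat_lit 4) (nat_lit 141) (nat_lit 159) (nat_lit 150)) (PT.nd (nat_lit 78) (PT.lf (nat_lit 7828) (nat_lit 6) (nat_lit 103) (nat_lit 4) (nat_lit 142) (nat_lit 159) (nat_lit 149)) (PT.lf (nat_lit 7752) (nat_lit 6) (nat_lit 102) (nat_lit 4) (nat_lit 143) (nat_lit 159) (nat_lit 148)))) (PT.nd (nat_lit 156) (PT.nd (nat_lit 78) (PT.lf (nat_lit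 7676) (nat_lit 6) (nat_lit 101) (nat_lit 4) (nat_lit 144) (nat_lit 159) (nat_lit 147)) (PT.lf (nat_lit 7600) (nat_lit 6) (nat_lit 100) (nat_lit 4) (nat_lit 145) (nat_lit 159) (nat_lit 146))) (PT.nd (nat_lit 78) (PT.lf (nat_lit 7600) (nat_lit 6) (nat_lit 100) (nat_lit 2) (nat_lit 146) (nat_lit 159) (nat_lit 145)) (PT.lf (nat_lit 7676) (nat_lit 6) (nat_lit 101) (nat_lit 2) (nat_lit 147) (nat_lit 159) (nat_lit 144))))))) (PT.nd (nat_lit 1014) (PT.nd (nat_lit 468) (PT.nd (nat_lit 234) (PT.nd (nat_lit 78) (PT.lf (nat_lit 7752) (nat_lit 6) (nat_lit 102) (nat_lit 2) (nat_lit 148) (nat_lit 159) (nat_lit 143)) (PT.nd (nat_lit 78) (PT.lf (nat_lit 7828) (nat_lit 6) (nat_lit 103) (nat_lit 2) (nat_lit 149) (nat_lit 159) (nat_lit 142)) (PT.lf (nat_lit 7904) (nat_lit 6) (nat_lit 104) (nat_lit 2) (nat_lit 150) (nat_lit 159) (nat_lit 141)))) (PT.nd (nat_lit 78) (PT.lf (nat_lit 7220) (nat_lit 6) (nat_lit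 95) (nat_lit 2) (nat_lit 151) (nat_lit 159) (nat_lit 140)) (PT.nd (nat_lit 78) (PT.lf (nat_lit 6536) (nat_lit 6) (nat_lit 86) (nat_lit 2) (nat_lit 152) (nat_lit 159) (nat_lit 139)) (PT.lf (nat_lit 6156) (nat_lit 6) (nat_lit 81) (nat_lit 2) (nat_lit 153) (nat_lit 159) (nat_lit 138))))) (PT.nd (nat_lit 234) (PT.nd (nat_lit 78) (PT.lf (nat_lit 5852) (nat_lit 6) (nat_lit 77) (nat_lit 2) (nat_lit 154) (nat_lit 159) (nat_lit 137)) (PT.nd (nat_lit 78) (PT.lf (nat_lit 5548) (nat_lit 6) (nat_lit 73) (nat_lit 2) (nat_lit 155) (nat_lit 159) (nat_lit 136)) (PT.lf (nat_lit 5244) (nat_lit 6) (nat_lit 69) (nat_lit 2) (nat_lit 156) (nat_lit 159) (nat_lit 135)))) (PT.nd (nat_lit 156) (PT.nd (nat_lit 78) (PT.lf (nat_lit 4940) (nat_lit 6) (nat_lit 65) (nat_lit 2) (nat_lit 157) (nat_lit 159) (nat_lit 134)) (PT.lf (nat_lit 4712) (nat_lit 6) (nat_lit 62) (nat_lit 2) (nat_lit 158) (nat_lit 159) (nat_lit 133)))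 (PT.nd (nat_lit 78) (PT.lf (nat_lit 4408) (nat_lit 3) (nat_lit 58) (nat_lit 0) (nat_lit 159) (nat_lit 159) (nat_lit 132)) (PT.lf (nat_lit 4104) (nat_lit 6) (nat_lit 54) (nat_lit 0) (nat_lit 160) (nat_lit 159) (nat_lit 131)))))) (PT.nd (nat_lit 44382) (PT.nd (nat_lit 44148) (PT.nd (nat_lit 78) (PT.lf (nat_lit 3800) (nat_lit 6) (nat_lit 50) (nat_lit 0) (nat_lit 161) (nat_lit 159) (nat_lit 130)) (PT.nd (nat_lit 78) (PT.lf (nat_lit 3572) (nat_lit 6) (nat_lit 47) (nat_lit 0) (nat_lit 162) (nat_lit 159) (nat_lit 129)) (PT.lf (nat_lit 3268) (nat_lit 6) (nat_lit 43) (nat_lit 0) (nat_lit 163) (nat_lit 159) (nat_lit 128)))) (PT.nd (nat_lit 78) (PT.lf (nat_lit 2888) (nat_lit 6) (nat_lit 38) (nat_lit 5) (nat_lit 126) (nat_lit 160) (nat_lit 164)) (PT.nd (nat_lit 78) (PT.lf (nat_lit 3116) (nat_lit 6) (nat_lit 41) (nat_lit 5) (nat_lit 127) (nat_lit 160) (nat_lit 163)) (PT.lf (nat_lit 3344) (nat_lit 6)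 (nat_lit 44) (nat_lit 5) (nat_lit 128) (nat_lit 160) (nat_lit 162))))) (PT.nd (nat_lit 234) (PT.nd (nat_lit 78) (PT.lf (nat_lit 3648) (nat_lit 6) (nat_lit 48) (nat_lit 5) (nat_lit 129) (nat_lit 160) (nat_lit 161)) (PT.nd (nat_lit 78) (PT.lf (nat_lit 3876) (nat_lit 3) (nat_lit 51) (nat_lit 4) (nat_lit 130) (nat_lit 160) (nat_lit 160)) (PT.lf (nat_lit 4104) (nat_lit 6) (nat_lit 54) (nat_lit 4) (nat_lit 131) (nat_lit 160) (nat_lit 159)))) (PT.nd (nat_lit 156) (PT.nd (nat_lit 78) (PT.lf (nat_lit 4332) (nat_lit 6) (nat_lit 57) (nat_lit 4) (nat_lit 132) (nat_lit 160) (nat_lit 158)) (PT.lf (nat_lit 4636) (nat_lit 6) (nat_lit 61) (nat_lit 4) (nat_lit 133) (nat_lit 160) (nat_lit 157))) (PT.nd (nat_lit 78) (PT.lf (nat_lit 4864) (nat_lit 6) (nat_lit 64) (nat_lit 4) (nat_lit 134) (nat_lit 160) (nat_lit 156)) (PT.lf (nat_lit 5168) (nat_lit 6) (nat_lit 68) (nat_lit 4) (nat_lit 135) (nat_lit 160) (nat_lit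 155))))))))
noncomputable def pc12 : PT := (PT.nd (nat_lit 2028) (PT.nd (nat_lit 1014) (PT.nd (nat_lit 468) (PT.nd (nat_lit 234) (PT.nd (nat_lit 78) (PT.lf (nat_lit 5472) (nat_lit 6) (nat_lit 72) (nat_lit 4) (nat_lit 136) (nat_lit 160) (nat_lit 154)) (PT.nd (nat_lit 78) (PT.lf (nat_lit 5776) (nat_lit 6) (nat_lit 76) (nat_lit 4) (nat_lit 137) (nat_lit 160) (nat_lit 153)) (PT.lf (nat_lit 6080) (nat_lit 6) (nat_lit 80) (nat_lit 4) (nat_lit 138) (nat_lit 160) (nat_lit 152)))) (PT.nd (nat_lit 78) (PT.lf (nat_lit 6460) (nat_lit 6) (nat_lit 85) (nat_lit 4) (nat_lit 139) (nat_lit 160) (nat_lit 151)) (PT.nd (nat_lit 78) (PT.lf (nat_lit 7144) (nat_lit 6) (nat_lit 94) (nat_lit 4) (nat_lit 140) (nat_lit 160) (nat_lit 150)) (PT.lf (nat_lit 7068) (nat_lit 6) (nat_lit 93) (nat_lit 4) (nat_lit 141) (nat_lit 160) (nat_lit 149))))) (PT.nd (nat_lit 312) (PT.nd (nat_lit 78) (PT.lf (nat_lit 6992) (nat_lit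 6) (nat_lit 92) (nat_lit 4) (nat_lit 142) (nat_lit 160) (nat_lit 148)) (PT.nd (nat_lit 78) (PT.lf (nat_lit 6916) (nat_lit 6) (nat_lit 91) (nat_lit 4) (nat_lit 143) (nat_lit 160) (nat_lit 147)) (PT.lf (nat_lit 6840) (nat_lit 6) (nat_lit 90) (nat_lit 4) (nat_lit 144) (nat_lit 160) (nat_lit 146)))) (PT.nd (nat_lit 78) (PT.lf (nat_lit 6840) (nat_lit 6) (nat_lit 90) (nat_lit 2) (nat_lit 146) (nat_lit 160) (nat_lit 144)) (PT.nd (nat_lit 78) (PT.lf (nat_lit 6916) (nat_lit 6) (nat_lit 91) (nat_lit 2) (nat_lit 147) (nat_lit 160) (nat_lit 143)) (PT.lf (nat_lit 6992) (nat_lit 6) (nat_lit 92) (nat_lit 2) (nat_lit 148) (nat_lit 160) (nat_lit 142)))))) (PT.nd (nat_lit 468) (PT.nd (nat_lit 234) (PT.nd (nat_lit 78) (PT.lf (nat_lit 7068) (nat_lit 6) (nat_lit 93) (nat_lit 2) (nat_lit 149) (nat_lit 160) (nat_lit 141)) (PT.nd (nat_lit 78) (PT.lf (nat_lit 7144) (nat_lit 6) (nat_lit 94) (nat_lit 2) (nat_lit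 150) (nat_lit 160) (nat_lit 140)) (PT.lf (nat_lit 6460) (nat_lit 6) (nat_lit 85) (nat_lit 2) (nat_lit 151) (nat_lit 160) (nat_lit 139)))) (PT.nd (nat_lit 78) (PT.lf (nat_lit 6080) (nat_lit 6) (nat_lit 80) (nat_lit 2) (nat_lit 152) (nat_lit 160) (nat_lit 138)) (PT.nd (nat_lit 78) (PT.lf (nat_lit 5776) (nat_lit 6) (nat_lit 76) (nat_lit 2) (nat_lit 153) (nat_lit 160) (nat_lit 137)) (PT.lf (nat_lit 5472) (nat_lit 6) (nat_lit 72) (nat_lit 2) (nat_lit 154) (nat_lit 160) (nat_lit 136))))) (PT.nd (nat_lit 234) (PT.nd (nat_lit 78) (PT.lf (nat_lit 5168) (nat_lit 6) (nat_lit 68) (nat_lit 2) (nat_lit 155) (nat_lit 160) (nat_lit 135)) (PT.nd (nat_lit 78) (PT.lf (nat_lit 4864) (nat_lit 6) (nat_lit 64) (nat_lit 2) (nat_lit 156) (nat_lit 160) (nat_lit 134)) (PT.lf (nat_lit 4636) (nat_lit 6) (nat_lit 61) (nat_lit 2) (nat_lit 157) (nat_lit 160) (nat_lit 133)))) (PT.nd (nat_lit 156) (PT.nd (nat_lit 78) (PT.lf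 (nat_lit 4332) (nat_lit 6) (nat_lit 57) (nat_lit 2) (nat_lit 158) (nat_lit 160) (nat_lit 132)) (PT.lf (nat_lit 4104) (nat_lit 6) (nat_lit 54) (nat_lit 2) (nat_lit 159) (nat_lit 160) (nat_lit 131))) (PT.nd (nat_lit 78) (PT.lf (nat_lit 3876) (nat_lit 3) (nat_lit 51) (nat_lit 0) (nat_lit 160) (nat_lit 160) (nat_lit 130)) (PT.lf (nat_lit 3648) (nat_lit 6) (nat_lit 48) (nat_lit 0) (nat_lit 161) (nat_lit 160) (nat_lit 129))))))) (PT.nd (nat_lit 44616) (PT.nd (nat_lit 44148) (PT.nd (nat_lit 43914) (PT.nd (nat_lit 78) (PT.lf (nat_lit 3344) (nat_lit 6) (nat_lit 44) (nat_lit 0) (nat_lit 162) (nat_lit 160) (nat_lit 128)) (PT.nd (nat_lit 78) (PT.lf (nat_lit 3116) (nat_lit 6) (nat_lit 41) (nat_lit 0) (nat_lit 163) (nat_lit 160) (nat_lit 127)) (PT.lf (nat_lit 2888) (nat_lit 6) (nat_lit 38) (nat_lit 0) (nat_lit 164) (nat_lit 160) (nat_lit 126)))) (PT.nd (nat_lit 78) (PT.lf (nat_lit 2508) (nat_lit 6)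 (nat_lit 33) (nat_lit 5) (nat_lit 124) (nat_lit 161) (nat_lit 165)) (PT.nd (nat_lit 78) (PT.lf (nat_lit 2736) (nat_lit 6) (nat_lit 36) (nat_lit 5) (nat_lit 125) (nat_lit 161) (nat_lit 164)) (PT.lf (nat_lit 2964) (nat_lit 6) (nat_lit 39) (nat_lit 5) (nat_lit 126) (nat_lit 161) (nat_lit 163))))) (PT.nd (nat_lit 234) (PT.nd (nat_lit 78) (PT.lf (nat_lit 3192) (nat_lit 6) (nat_lit 42) (nat_lit 5) (nat_lit 127) (nat_lit 161) (nat_lit 162)) (PT.nd (nat_lit 78) (PT.lf (nat_lit 3420) (nat_lit 3) (nat_lit 45) (nat_lit 4) (nat_lit 128) (nat_lit 161) (nat_lit 161)) (PT.lf (nat_lit 3648) (nat_lit 6) (nat_lit 48) (nat_lit 4) (nat_lit 129) (nat_lit 161) (nat_lit 160)))) (PT.nd (nat_lit 78) (PT.lf (nat_lit 3800) (nat_lit 6) (nat_lit 50) (nat_lit 4) (nat_lit 130) (nat_lit 161) (nat_lit 159)) (PT.nd (nat_lit 78) (PT.lf (nat_lit 4028) (nat_lit 6) (nat_lit 53) (nat_lit 4) (nat_lit 131) (nat_lit 161) (nat_lit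 158)) (PT.lf (nat_lit 4256) (nat_lit 6) (nat_lit 56) (nat_lit 4) (nat_lit 132) (nat_lit 161) (nat_lit 157)))))) (PT.nd (nat_lit 1716) (PT.nd (nat_lit 234) (PT.nd (nat_lit 78) (PT.lf (nat_lit 4560) (nat_lit 6) (nat_lit 60) (nat_lit 4) (nat_lit 133) (nat_lit 161) (nat_lit 156)) (PT.nd (nat_lit 78) (PT.lf (nat_lit 4788) (nat_lit 6) (nat_lit 63) (nat_lit 4) (nat_lit 134) (nat_lit 161) (nat_lit 155)) (PT.lf (nat_lit 5092) (nat_lit 6) (nat_lit 67) (nat_lit 4) (nat_lit 135) (nat_lit 161) (nat_lit 154)))) (PT.nd (nat_lit 1326) (PT.lf (nat_lit 5396) (nat_lit 6) (nat_lit 71) (nat_lit 4) (nat_lit 136) (nat_lit 161) (nat_lit 153)) (PT.nd (nat_lit 78) (PT.lf (nat_lit 5396) (nat_lit 6) (nat_lit 71) (nat_lit 2) (nat_lit 153) (nat_lit 161) (nat_lit 136)) (PT.lf (nat_lit 5092) (nat_lit 6) (nat_lit 67) (nat_lit 2) (nat_lit 154) (nat_lit 161) (nat_lit 135))))) (PT.nd (nat_lit 234) (PT.nd (nat_lit 78) (PT.lf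 (nat_lit 4788) (nat_lit 6) (nat_lit 63) (nat_lit 2) (nat_lit 155) (nat_lit 161) (nat_lit 134)) (PT.nd (nat_lit 78) (PT.lf (nat_lit 4560) (nat_lit 6) (nat_lit 60) (nat_lit 2) (nat_lit 156) (nat_lit 161) (nat_lit 133)) (PT.lf (nat_lit 4256) (nat_lit 6) (nat_lit 56) (nat_lit 2) (nat_lit 157) (nat_lit 161) (nat_lit 132)))) (PT.nd (nat_lit 156) (PT.nd (nat_lit 78) (PT.lf (nat_lit 4028) (nat_lit 6) (nat_lit 53) (nat_lit 2) (nat_lit 158) (nat_lit 161) (nat_lit 131)) (PT.lf (nat_lit 3800) (nat_lit 6) (nat_lit 50) (nat_lit 2) (nat_lit 159) (nat_lit 161) (nat_lit 130))) (PT.nd (nat_lit 78) (PT.lf (nat_lit 3648) (nat_lit 6) (nat_lit 48) (nat_lit 2) (nat_lit 160) (nat_lit 161) (nat_lit 129)) (PT.lf (nat_lit 3420) (nat_lit 3) (nat_lit 45) (nat_lit 0) (nat_lit 161) (nat_lit 161) (nat_lit 128))))))))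
noncomputable def pc13 : PT := (PT.nd (nat_lit 47112) (PT.nd (nat_lit 44460) (PT.nd (nat_lit 43992) (PT.nd (nat_lit 234) (PT.nd (nat_lit 78) (PT.lf (nat_lit 3192) (nat_lit 6) (nat_lit 42) (nat_lit 0) (nat_lit 162) (nat_lit 161) (nat_lit 127)) (PT.nd (nat_lit 78) (PT.lf (nat_lit 2964) (nat_lit 6) (nat_lit 39) (nat_lit 0) (nat_lit 163) (nat_lit 161) (nat_lit 126)) (PT.lf (nat_lit 2736) (nat_lit 6) (nat_lit 36) (nat_lit 0) (nat_lit 164) (nat_lit 161) (nat_lit 125)))) (PT.nd (nat_lit 43602) (PT.lf (nat_lit 2508) (nat_lit 6) (nat_lit 33) (nat_lit 0) (nat_lit 165) (nat_lit 161) (nat_lit 124)) (PT.nd (nat_lit 78) (PT.lf (nat_lit 2356) (nat_lit 6) (nat_lit 31) (nat_lit 5) (nat_lit 123) (nat_lit 162) (nat_lit 165)) (PT.lf (nat_lit 2584) (nat_lit 6) (nat_lit 34) (nat_lit 5) (nat_lit 124) (nat_lit 162) (nat_lit 164))))) (PT.nd (nat_lit 234) (PT.nd (nat_lit 78) (PT.lf (nat_lit 2812) (nat_lit 6) (nat_lit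 37) (nat_lit 5) (nat_lit 125) (nat_lit 162) (nat_lit 163)) (PT.nd (nat_lit 78) (PT.lf (nat_lit 3040) (nat_lit 3) (nat_lit 40) (nat_lit 4) (nat_lit 126) (nat_lit 162) (nat_lit 162)) (PT.lf (nat_lit 3192) (nat_lit 6) (nat_lit 42) (nat_lit 4) (nat_lit 127) (nat_lit 162) (nat_lit 161)))) (PT.nd (nat_lit 78) (PT.lf (nat_lit 3344) (nat_lit 6) (nat_lit 44) (nat_lit 4) (nat_lit 128) (nat_lit 162) (nat_lit 160)) (PT.nd (nat_lit 78) (PT.lf (nat_lit 3572) (nat_lit 6) (nat_lit 47) (nat_lit 4) (nat_lit 129) (nat_lit 162) (nat_lit 159)) (PT.lf (nat_lit 3724) (nat_lit 6) (nat_lit 49) (nat_lit 4) (nat_lit 130) (nat_lit 162) (nat_lit 158)))))) (PT.nd (nat_lit 2106) (PT.nd (nat_lit 1872) (PT.nd (nat_lit 78) (PT.lf (nat_lit 3952) (nat_lit 6) (nat_lit 52) (nat_lit 4) (nat_lit 131) (nat_lit 162) (nat_lit 157)) (PT.nd (nat_lit 78) (PT.lf (nat_lit 4180) (nat_lit 6) (nat_lit 55) (nat_lit 4) (nat_lit 132) (nat_lit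 162) (nat_lit 156)) (PT.lf (nat_lit 4484) (nat_lit 6) (nat_lit 59) (nat_lit 4) (nat_lit 133) (nat_lit 162) (nat_lit 155)))) (PT.nd (nat_lit 78) (PT.lf (nat_lit 4484) (nat_lit 6) (nat_lit 59) (nat_lit 2) (nat_lit 155) (nat_lit 162) (nat_lit 133)) (PT.nd (nat_lit 78) (PT.lf (nat_lit 4180) (nat_lit 6) (nat_lit 55) (nat_lit 2) (nat_lit 156) (nat_lit 162) (nat_lit 132)) (PT.lf (nat_lit 3952) (nat_lit 6) (nat_lit 52) (nat_lit 2) (nat_lit 157) (nat_lit 162) (nat_lit 131))))) (PT.nd (nat_lit 234) (PT.nd (nat_lit 78) (PT.lf (nat_lit 3724) (nat_lit 6) (nat_lit 49) (nat_lit 2) (nat_lit 158) (nat_lit 162) (nat_lit 130)) (PT.nd (nat_lit 78) (PT.lf (nat_lit 3572) (nat_lit 6) (nat_lit 47) (nat_lit 2) (nat_lit 159) (nat_lit 162) (nat_lit 129)) (PT.lf (nat_lit 3344) (nat_lit 6) (nat_lit 44) (nat_lit 2) (nat_lit 160) (nat_lit 162) (nat_lit 128)))) (PT.nd (nat_lit 156) (PT.nd (nat_lit 78) (PT.lf (nat_lit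 3192) (nat_lit 6) (nat_lit 42) (nat_lit 2) (nat_lit 161) (nat_lit 162) (nat_lit 127)) (PT.lf (nat_lit 3040) (nat_lit 3) (nat_lit 40) (nat_lit 0) (nat_lit 162) (nat_lit 162) (nat_lit 126))) (PT.nd (nat_lit 78) (PT.lf (nat_lit 2812) (nat_lit 6) (nat_lit 37) (nat_lit 0) (nat_lit 163) (nat_lit 162) (nat_lit 125)) (PT.lf (nat_lit 2584) (nat_lit 6) (nat_lit 34) (nat_lit 0) (nat_lit 164) (nat_lit 162) (nat_lit 124))))))) (PT.nd (nat_lit 46566) (PT.nd (nat_lit 43836) (PT.nd (nat_lit 43602) (PT.nd (nat_lit 43446) (PT.lf (nat_lit 2356) (nat_lit 6) (nat_lit 31) (nat_lit 0) (nat_lit 165) (nat_lit 162) (nat_lit 123)) (PT.nd (nat_lit 78) (PT.lf (nat_lit 2052) (nat_lit 6) (nat_lit 27) (nat_lit 5) (nat_lit 121) (nat_lit 163) (nat_lit 166)) (PT.lf (nat_lit 2204) (nat_lit 6) (nat_lit 29) (nat_lit 5) (nat_lit 122) (nat_lit 163) (nat_lit 165)))) (PT.nd (nat_lit 78) (PT.lf (nat_lit 2432) (nat_lit 6) (nat_lit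 32) (nat_lit 5) (nat_lit 123) (nat_lit 163) (nat_lit 164)) (PT.nd (nat_lit 78) (PT.lf (nat_lit 2660) (nat_lit 3) (nat_lit 35) (nat_lit 4) (nat_lit 124) (nat_lit 163) (nat_lit 163)) (PT.lf (nat_lit 2812) (nat_lit 6) (nat_lit 37) (nat_lit 4) (nat_lit 125) (nat_lit 163) (nat_lit 162))))) (PT.nd (nat_lit 234) (PT.nd (nat_lit 78) (PT.lf (nat_lit 2964) (nat_lit 6) (nat_lit 39) (nat_lit 4) (nat_lit 126) (nat_lit 163) (nat_lit 161)) (PT.nd (nat_lit 78) (PT.lf (nat_lit 3116) (nat_lit 6) (nat_lit 41) (nat_lit 4) (nat_lit 127) (nat_lit 163) (nat_lit 160)) (PT.lf (nat_lit 3268) (nat_lit 6) (nat_lit 43) (nat_lit 4) (nat_lit 128) (nat_lit 163) (nat_lit 159)))) (PT.nd (nat_lit 2340) (PT.nd (nat_lit 2262) (PT.lf (nat_lit 3496) (nat_lit 6) (nat_lit 46) (nat_lit 4) (nat_lit 129) (nat_lit 163) (nat_lit 158)) (PT.lf (nat_lit 3496) (nat_lit 6) (nat_lit 46) (nat_lit 2) (nat_lit 158) (nat_lit 163) (nat_lit 129)))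 (PT.nd (nat_lit 78) (PT.lf (nat_lit 3268) (nat_lit 6) (nat_lit 43) (nat_lit 2) (nat_lit 159) (nat_lit 163) (nat_lit 128)) (PT.lf (nat_lit 3116) (nat_lit 6) (nat_lit 41) (nat_lit 2) (nat_lit 160) (nat_lit 163) (nat_lit 127)))))) (PT.nd (nat_lit 43602) (PT.nd (nat_lit 234) (PT.nd (nat_lit 78) (PT.lf (nat_lit 2964) (nat_lit 6) (nat_lit 39) (nat_lit 2) (nat_lit 161) (nat_lit 163) (nat_lit 126)) (PT.nd (nat_lit 78) (PT.lf (nat_lit 2812) (nat_lit 6) (nat_lit 37) (nat_lit 2) (nat_lit 162) (nat_lit 163) (nat_lit 125)) (PT.lf (nat_lit 2660) (nat_lit 3) (nat_lit 35) (nat_lit 0) (nat_lit 163) (nat_lit 163) (nat_lit 124)))) (PT.nd (nat_lit 78) (PT.lf (nat_lit 2432) (nat_lit 6) (nat_lit 32) (nat_lit 0) (nat_lit 164) (nat_lit 163) (nat_lit 123)) (PT.nd (nat_lit 78) (PT.lf (nat_lit 2204) (nat_lit 6) (nat_lit 29) (nat_lit 0) (nat_lit 165) (nat_lit 163) (nat_lit 122)) (PT.lf (nat_lit 2052) (nat_lit 6)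 (nat_lit 27) (nat_lit 0) (nat_lit 166) (nat_lit 163) (nat_lit 121))))) (PT.nd (nat_lit 234) (PT.nd (nat_lit 78) (PT.lf (nat_lit 1748) (nat_lit 6) (nat_lit 23) (nat_lit 5) (nat_lit 119) (nat_lit 164) (nat_lit 167)) (PT.nd (nat_lit 78) (PT.lf (nat_lit 1900) (nat_lit 6) (nat_lit 25) (nat_lit 5) (nat_lit 120) (nat_lit 164) (nat_lit 166)) (PT.lf (nat_lit 2128) (nat_lit 6) (nat_lit 28) (nat_lit 5) (nat_lit 121) (nat_lit 164) (nat_lit 165)))) (PT.nd (nat_lit 156) (PT.nd (nat_lit 78) (PT.lf (nat_lit 2280) (nat_lit 3) (nat_lit 30) (nat_lit 4) (nat_lit 122) (nat_lit 164) (nat_lit 164)) (PT.lf (nat_lit 2432) (nat_lit 6) (nat_lit 32) (nat_lit 4) (nat_lit 123) (nat_lit 164) (nat_lit 163))) (PT.nd (nat_lit 78) (PT.lf (nat_lit 2584) (nat_lit 6) (nat_lit 34) (nat_lit 4) (nat_lit 124) (nat_lit 164) (nat_lit 162)) (PT.lf (nat_lit 2736) (nat_lit 6) (nat_lit 36) (nat_lit 4) (nat_lit 125) (nat_lit 164) (nat_lit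 161))))))))
noncomputable def pc14 : PT := (PT.nd (nat_lit 93132) (PT.nd (nat_lit 46488) (PT.nd (nat_lit 3042) (PT.nd (nat_lit 2808) (PT.nd (nat_lit 2652) (PT.lf (nat_lit 2888) (nat_lit 6) (nat_lit 38) (nat_lit 4) (nat_lit 126) (nat_lit 164) (nat_lit 160)) (PT.nd (nat_lit 78) (PT.lf (nat_lit 2888) (nat_lit 6) (nat_lit 38) (nat_lit 2) (nat_lit 160) (nat_lit 164) (nat_lit 126)) (PT.lf (nat_lit 2736) (nat_lit 6) (nat_lit 36) (nat_lit 2) (nat_lit 161) (nat_lit 164) (nat_lit 125)))) (PT.nd (nat_lit 78) (PT.lf (nat_lit 2584) (nat_lit 6) (nat_lit 34) (nat_lit 2) (nat_lit 162) (nat_lit 164) (nat_lit 124)) (PT.nd (nat_lit 78) (PT.lf (nat_lit 2432) (nat_lit 6) (nat_lit 32) (nat_lit 2) (nat_lit 163) (nat_lit 164) (nat_lit 123)) (PT.lf (nat_lit 2280) (nat_lit 3) (nat_lit 30) (nat_lit 0) (nat_lit 164) (nat_lit 164) (nat_lit 122))))) (PT.nd (nat_lit 43212) (PT.nd (nat_lit 78) (PT.lf (nat_lit 2128) (nat_lit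 6) (nat_lit 28) (nat_lit 0) (nat_lit 165) (nat_lit 164) (nat_lit 121)) (PT.nd (nat_lit 78) (PT.lf (nat_lit 1900) (nat_lit 6) (nat_lit 25) (nat_lit 0) (nat_lit 166) (nat_lit 164) (nat_lit 120)) (PT.lf (nat_lit 1748) (nat_lit 6) (nat_lit 23) (nat_lit 0) (nat_lit 167) (nat_lit 164) (nat_lit 119)))) (PT.nd (nat_lit 78) (PT.lf (nat_lit 1596) (nat_lit 6) (nat_lit 21) (nat_lit 5) (nat_lit 118) (nat_lit 165) (nat_lit 167)) (PT.nd (nat_lit 78) (PT.lf (nat_lit 1824) (nat_lit 6) (nat_lit 24) (nat_lit 5) (nat_lit 119) (nat_lit 165) (nat_lit 166)) (PT.lf (nat_lit 1976) (nat_lit 3) (nat_lit 26) (nat_lit 4) (nat_lit 120) (nat_lit 165) (nat_lit 165)))))) (PT.nd (nat_lit 3276) (PT.nd (nat_lit 234) (PT.nd (nat_lit 78) (PT.lf (nat_lit 2128) (nat_lit 6) (nat_lit 28) (nat_lit 4) (nat_lit 121) (nat_lit 165) (nat_lit 164)) (PT.nd (nat_lit 78) (PT.lf (nat_lit 2204) (nat_lit 6) (nat_lit 29) (nat_lit 4) (nat_lit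 122) (nat_lit 165) (nat_lit 163)) (PT.lf (nat_lit 2356) (nat_lit 6) (nat_lit 31) (nat_lit 4) (nat_lit 123) (nat_lit 165) (nat_lit 162)))) (PT.nd (nat_lit 2886) (PT.lf (nat_lit 2508) (nat_lit 6) (nat_lit 33) (nat_lit 4) (nat_lit 124) (nat_lit 165) (nat_lit 161)) (PT.nd (nat_lit 78) (PT.lf (nat_lit 2508) (nat_lit 6) (nat_lit 33) (nat_lit 2) (nat_lit 161) (nat_lit 165) (nat_lit 124)) (PT.lf (nat_lit 2356) (nat_lit 6) (nat_lit 31) (nat_lit 2) (nat_lit 162) (nat_lit 165) (nat_lit 123))))) (PT.nd (nat_lit 234) (PT.nd (nat_lit 78) (PT.lf (nat_lit 2204) (nat_lit 6) (nat_lit 29) (nat_lit 2) (nat_lit 163) (nat_lit 165) (nat_lit 122)) (PT.nd (nat_lit 78) (PT.lf (nat_lit 2128) (nat_lit 6) (nat_lit 28) (nat_lit 2) (nat_lit 164) (nat_lit 165) (nat_lit 121)) (PT.lf (nat_lit 1976) (nat_lit 3) (nat_lit 26) (nat_lit 0) (nat_lit 165) (nat_lit 165) (nat_lit 120)))) (PT.nd (nat_lit 42978) (PT.nd (nat_lit 78)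 (PT.lf (nat_lit 1824) (nat_lit 6) (nat_lit 24) (nat_lit 0) (nat_lit 166) (nat_lit 165) (nat_lit 119)) (PT.lf (nat_lit 1596) (nat_lit 6) (nat_lit 21) (nat_lit 0) (nat_lit 167) (nat_lit 165) (nat_lit 118))) (PT.nd (nat_lit 78) (PT.lf (nat_lit 1368) (nat_lit 6) (nat_lit 18) (nat_lit 5) (nat_lit 116) (nat_lit 166) (nat_lit 168)) (PT.lf (nat_lit 1520) (nat_lit 6) (nat_lit 20) (nat_lit 5) (nat_lit 117) (nat_lit 166) (nat_lit 167))))))) (PT.nd (nat_lit 46722) (PT.nd (nat_lit 3666) (PT.nd (nat_lit 234) (PT.nd (nat_lit 78) (PT.lf (nat_lit 1672) (nat_lit 3) (nat_lit 22) (nat_lit 4) (nat_lit 118) (nat_lit 166) (nat_lit 166)) (PT.nd (nat_lit 78) (PT.lf (nat_lit 1824) (nat_lit 6) (nat_lit 24) (nat_lit 4) (nat_lit 119) (nat_lit 166) (nat_lit 165)) (PT.lf (nat_lit 1900) (nat_lit 6) (nat_lit 25) (nat_lit 4) (nat_lit 120) (nat_lit 166) (nat_lit 164)))) (PT.nd (nat_lit 3276) (PT.lf (nat_lit 2052) (nat_lit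 6) (nat_lit 27) (nat_lit 4) (nat_lit 121) (nat_lit 166) (nat_lit 163)) (PT.nd (nat_lit 78) (PT.lf (nat_lit 2052) (nat_lit 6) (nat_lit 27) (nat_lit 2) (nat_lit 163) (nat_lit 166) (nat_lit 121)) (PT.lf (nat_lit 1900) (nat_lit 6) (nat_lit 25) (nat_lit 2) (nat_lit 164) (nat_lit 166) (nat_lit 120))))) (PT.nd (nat_lit 234) (PT.nd (nat_lit 78) (PT.lf (nat_lit 1824) (nat_lit 6) (nat_lit 24) (nat_lit 2) (nat_lit 165) (nat_lit 166) (nat_lit 119)) (PT.nd (nat_lit 78) (PT.lf (nat_lit 1672) (nat_lit 3) (nat_lit 22) (nat_lit 0) (nat_lit 166) (nat_lit 166) (nat_lit 118)) (PT.lf (nat_lit 1520) (nat_lit 6) (nat_lit 20) (nat_lit 0) (nat_lit 167) (nat_lit 166) (nat_lit 117)))) (PT.nd (nat_lit 42666) (PT.lf (nat_lit 1368) (nat_lit 6) (nat_lit 18) (nat_lit 0) (nat_lit 168) (nat_lit 166) (nat_lit 116)) (PT.nd (nat_lit 78) (PT.lf (nat_lit 1140) (nat_lit 6) (nat_lit 15) (nat_lit 5) (nat_lit 114) (nat_lit 167)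 (nat_lit 169)) (PT.lf (nat_lit 1292) (nat_lit 6) (nat_lit 17) (nat_lit 5) (nat_lit 115) (nat_lit 167) (nat_lit 168)))))) (PT.nd (nat_lit 3900) (PT.nd (nat_lit 234) (PT.nd (nat_lit 78) (PT.lf (nat_lit 1444) (nat_lit 3) (nat_lit 19) (nat_lit 4) (nat_lit 116) (nat_lit 167) (nat_lit 167)) (PT.nd (nat_lit 78) (PT.lf (nat_lit 1520) (nat_lit 6) (nat_lit 20) (nat_lit 4) (nat_lit 117) (nat_lit 167) (nat_lit 166)) (PT.lf (nat_lit 1596) (nat_lit 6) (nat_lit 21) (nat_lit 4) (nat_lit 118) (nat_lit 167) (nat_lit 165)))) (PT.nd (nat_lit 3510) (PT.lf (nat_lit 1748) (nat_lit 6) (nat_lit 23) (nat_lit 4) (nat_lit 119) (nat_lit 167) (nat_lit 164)) (PT.nd (nat_lit 78) (PT.lf (nat_lit 1748) (nat_lit 6) (nat_lit 23) (nat_lit 2) (nat_lit 164) (nat_lit 167) (nat_lit 119)) (PT.lf (nat_lit 1596) (nat_lit 6) (nat_lit 21) (nat_lit 2) (nat_lit 165) (nat_lit 167) (nat_lit 118))))) (PT.nd (nat_lit 234) (PT.nd (nat_lit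 78) (PT.lf (nat_lit 1520) (nat_lit 6) (nat_lit 20) (nat_lit 2) (nat_lit 166) (nat_lit 167) (nat_lit 117)) (PT.nd (nat_lit 78) (PT.lf (nat_lit 1444) (nat_lit 3) (nat_lit 19) (nat_lit 0) (nat_lit 167) (nat_lit 167) (nat_lit 116)) (PT.lf (nat_lit 1292) (nat_lit 6) (nat_lit 17) (nat_lit 0) (nat_lit 168) (nat_lit 167) (nat_lit 115)))) (PT.nd (nat_lit 42510) (PT.nd (nat_lit 42432) (PT.lf (nat_lit 1140) (nat_lit 6) (nat_lit 15) (nat_lit 0) (nat_lit 169) (nat_lit 167) (nat_lit 114)) (PT.lf (nat_lit 912) (nat_lit 6) (nat_lit 12) (nat_lit 5) (nat_lit 112) (nat_lit 168) (nat_lit 170))) (PT.nd (nat_lit 78) (PT.lf (nat_lit 1064) (nat_lit 6) (nat_lit 14) (nat_lit 5) (nat_lit 113) (nat_lit 168) (nat_lit 169)) (PT.lf (nat_lit 1216) (nat_lit 3) (nat_lit 16) (nat_lit 4) (nat_lit 114) (nat_lit 168) (nat_lit 168))))))))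
noncomputable def pc15 : PT := (PT.nd (nat_lit 98124) (PT.nd (nat_lit 50934) (PT.nd (nat_lit 4290) (PT.nd (nat_lit 4056) (PT.nd (nat_lit 78) (PT.lf (nat_lit 1292) (nat_lit 6) (nat_lit 17) (nat_lit 4) (nat_lit 115) (nat_lit 168) (nat_lit 167)) (PT.nd (nat_lit 3900) (PT.lf (nat_lit 1368) (nat_lit 6) (nat_lit 18) (nat_lit 4) (nat_lit 116) (nat_lit 168) (nat_lit 166)) (PT.lf (nat_lit 1368) (nat_lit 6) (nat_lit 18) (nat_lit 2) (nat_lit 166) (nat_lit 168) (nat_lit 116)))) (PT.nd (nat_lit 78) (PT.lf (nat_lit 1292) (nat_lit 6) (nat_lit 17) (nat_lit 2) (nat_lit 167) (nat_lit 168) (nat_lit 115)) (PT.nd (nat_lit 78) (PT.lf (nat_lit 1216) (nat_lit 3) (nat_lit 16) (nat_lit 0) (nat_lit 168) (nat_lit 168) (nat_lit 114)) (PT.lf (nat_lit 1064) (nat_lit 6) (nat_lit 14) (nat_lit 0) (nat_lit 169) (nat_lit 168) (nat_lit 113))))) (PT.nd (nat_lit 42354) (PT.nd (nat_lit 42198) (PT.lf (nat_lit 912) (nat_lit 6)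 (nat_lit 12) (nat_lit 0) (nat_lit 170) (nat_lit 168) (nat_lit 112)) (PT.nd (nat_lit 78) (PT.lf (nat_lit 684) (nat_lit 6) (nat_lit 9) (nat_lit 5) (nat_lit 110) (nat_lit 169) (nat_lit 171)) (PT.lf (nat_lit 836) (nat_lit 6) (nat_lit 11) (nat_lit 5) (nat_lit 111) (nat_lit 169) (nat_lit 170)))) (PT.nd (nat_lit 78) (PT.lf (nat_lit 988) (nat_lit 3) (nat_lit 13) (nat_lit 4) (nat_lit 112) (nat_lit 169) (nat_lit 169)) (PT.nd (nat_lit 78) (PT.lf (nat_lit 1064) (nat_lit 6) (nat_lit 14) (nat_lit 4) (nat_lit 113) (nat_lit 169) (nat_lit 168)) (PT.lf (nat_lit 1140) (nat_lit 6) (nat_lit 15) (nat_lit 4) (nat_lit 114) (nat_lit 169) (nat_lit 167)))))) (PT.nd (nat_lit 42354) (PT.nd (nat_lit 234) (PT.nd (nat_lit 78) (PT.lf (nat_lit 1140) (nat_lit 6) (nat_lit 15) (nat_lit 2) (nat_lit 167) (nat_lit 169) (nat_lit 114)) (PT.nd (nat_lit 78) (PT.lf (nat_lit 1064) (nat_lit 6) (nat_lit 14) (nat_lit 2) (nat_lit 168)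 (nat_lit 169) (nat_lit 113)) (PT.lf (nat_lit 988) (nat_lit 3) (nat_lit 13) (nat_lit 0) (nat_lit 169) (nat_lit 169) (nat_lit 112)))) (PT.nd (nat_lit 78) (PT.lf (nat_lit 836) (nat_lit 6) (nat_lit 11) (nat_lit 0) (nat_lit 170) (nat_lit 169) (nat_lit 111)) (PT.nd (nat_lit 41964) (PT.lf (nat_lit 684) (nat_lit 6) (nat_lit 9) (nat_lit 0) (nat_lit 171) (nat_lit 169) (nat_lit 110)) (PT.lf (nat_lit 456) (nat_lit 6) (nat_lit 6) (nat_lit 5) (nat_lit 108) (nat_lit 170) (nat_lit 172))))) (PT.nd (nat_lit 234) (PT.nd (nat_lit 78) (PT.lf (nat_lit 608) (nat_lit 6) (nat_lit 8) (nat_lit 5) (nat_lit 109) (nat_lit 170) (nat_lit 171)) (PT.nd (nat_lit 78) (PT.lf (nat_lit 760) (nat_lit 3) (nat_lit 10) (nat_lit 4) (nat_lit 110) (nat_lit 170) (nat_lit 170)) (PT.lf (nat_lit 836) (nat_lit 6) (nat_lit 11) (nat_lit 4) (nat_lit 111) (nat_lit 170) (nat_lit 169)))) (PT.nd (nat_lit 4446) (PT.nd (nat_lit 4368) (PT.lf (nat_lit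 912) (nat_lit 6) (nat_lit 12) (nat_lit 4) (nat_lit 112) (nat_lit 170) (nat_lit 168)) (PT.lf (nat_lit 912) (nat_lit 6) (nat_lit 12) (nat_lit 2) (nat_lit 168) (nat_lit 170) (nat_lit 112))) (PT.nd (nat_lit 78) (PT.lf (nat_lit 836) (nat_lit 6) (nat_lit 11) (nat_lit 2) (nat_lit 169) (nat_lit 170) (nat_lit 111)) (PT.lf (nat_lit 760) (nat_lit 3) (nat_lit 10) (nat_lit 0) (nat_lit 170) (nat_lit 170) (nat_lit 110))))))) (PT.nd (nat_lit 88686) (PT.nd (nat_lit 42120) (PT.nd (nat_lit 41886) (PT.nd (nat_lit 78) (PT.lf (nat_lit 608) (nat_lit 6) (nat_lit 8) (nat_lit 0) (nat_lit 171) (nat_lit 170) (nat_lit 109)) (PT.nd (nat_lit 41730) (PT.lf (nat_lit 456) (nat_lit 6) (nat_lit 6) (nat_lit 0) (nat_lit 172) (nat_lit 170) (nat_lit 108)) (PT.lf (nat_lit 228) (nat_lit 6) (nat_lit 3) (nat_lit 5) (nat_lit 106) (nat_lit 171) (nat_lit 173)))) (PT.nd (nat_lit 78) (PT.lf (nat_lit 380) (nat_lit 6) (nat_lit 5) (nat_lit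 5) (nat_lit 107) (nat_lit 171) (nat_lit 172)) (PT.nd (nat_lit 78) (PT.lf (nat_lit 532) (nat_lit 3) (nat_lit 7) (nat_lit 4) (nat_lit 108) (nat_lit 171) (nat_lit 171)) (PT.lf (nat_lit 608) (nat_lit 6) (nat_lit 8) (nat_lit 4) (nat_lit 109) (nat_lit 171) (nat_lit 170))))) (PT.nd (nat_lit 4758) (PT.nd (nat_lit 4602) (PT.lf (nat_lit 684) (nat_lit 6) (nat_lit 9) (nat_lit 4) (nat_lit 110) (nat_lit 171) (nat_lit 169)) (PT.nd (nat_lit 78) (PT.lf (nat_lit 684) (nat_lit 6) (nat_lit 9) (nat_lit 2) (nat_lit 169) (nat_lit 171) (nat_lit 110)) (PT.lf (nat_lit 608) (nat_lit 6) (nat_lit 8) (nat_lit 2) (nat_lit 170) (nat_lit 171) (nat_lit 109)))) (PT.nd (nat_lit 156) (PT.nd (nat_lit 78) (PT.lf (nat_lit 532) (nat_lit 3) (nat_lit 7) (nat_lit 0) (nat_lit 171) (nat_lit 171) (nat_lit 108)) (PT.lf (nat_lit 380) (nat_lit 6) (nat_lit 5) (nat_lit 0) (nat_lit 172) (nat_lit 171) (nat_lit 107))) (PT.nd (nat_lit 41574)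 (PT.lf (nat_lit 228) (nat_lit 6) (nat_lit 3) (nat_lit 0) (nat_lit 173) (nat_lit 171) (nat_lit 106)) (PT.lf (nat_lit 152) (nat_lit 6) (nat_lit 2) (nat_lit 5) (nat_lit 105) (nat_lit 172) (nat_lit 173)))))) (PT.nd (nat_lit 5226) (PT.nd (nat_lit 4992) (PT.nd (nat_lit 78) (PT.lf (nat_lit 304) (nat_lit 3) (nat_lit 4) (nat_lit 4) (nat_lit 106) (nat_lit 172) (nat_lit 172)) (PT.nd (nat_lit 78) (PT.lf (nat_lit 380) (nat_lit 6) (nat_lit 5) (nat_lit 4) (nat_lit 107) (nat_lit 172) (nat_lit 171)) (PT.lf (nat_lit 456) (nat_lit 6) (nat_lit 6) (nat_lit 4) (nat_lit 108) (nat_lit 172) (nat_lit 170)))) (PT.nd (nat_lit 78) (PT.lf (nat_lit 456) (nat_lit 6) (nat_lit 6) (nat_lit 2) (nat_lit 170) (nat_lit 172) (nat_lit 108)) (PT.nd (nat_lit 78) (PT.lf (nat_lit 380) (nat_lit 6) (nat_lit 5) (nat_lit 2) (nat_lit 171) (nat_lit 172) (nat_lit 107)) (PT.lf (nat_lit 304) (nat_lit 3) (nat_lit 4) (nat_lit 0) (nat_lit 172)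 (nat_lit 172) (nat_lit 106))))) (PT.nd (nat_lit 41652) (PT.nd (nat_lit 41496) (PT.lf (nat_lit 152) (nat_lit 6) (nat_lit 2) (nat_lit 0) (nat_lit 173) (nat_lit 172) (nat_lit 105)) (PT.nd (nat_lit 78) (PT.lf (nat_lit 76) (nat_lit 3) (nat_lit 1) (nat_lit 4) (nat_lit 104) (nat_lit 173) (nat_lit 173)) (PT.lf (nat_lit 152) (nat_lit 6) (nat_lit 2) (nat_lit 4) (nat_lit 105) (nat_lit 173) (nat_lit 172)))) (PT.nd (nat_lit 5148) (PT.nd (nat_lit 5070) (PT.lf (nat_lit 228) (nat_lit 6) (nat_lit 3) (nat_lit 4) (nat_lit 106) (nat_lit 173) (nat_lit 171)) (PT.lf (nat_lit 228) (nat_lit 6) (nat_lit 3) (nat_lit 2) (nat_lit 171) (nat_lit 173) (nat_lit 106))) (PT.nd (nat_lit 78) (PT.lf (nat_lit 152) (nat_lit 6) (nat_lit 2) (nat_lit 2) (nat_lit 172) (nat_lit 173) (nat_lit 105)) (PT.lf (nat_lit 76) (nat_lit 3) (nat_lit 1) (nat_lit 0) (nat_lit 173) (nat_lit 173) (nat_lit 104))))))))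
noncomputable def xc0 : XT := (XT.nd (nat_lit 187044) (nat_lit 0) (nat_lit 0) (XT.nd (nat_lit 93834) (nat_lit 0) (nat_lit 0) (XT.nd (nat_lit 46956) (nat_lit 0) (nat_lit 0) (XT.nd (nat_lit 46722) (nat_lit 0) (nat_lit 0) (XT.nd (nat_lit 78) (nat_lit 0) (nat_lit 0) (XT.lf (nat_lit 0) (nat_lit 54941609613) (nat_lit 76) (nat_lit 172745451754) (nat_lit 76) (nat_lit 172745451754) (nat_lit 1) (nat_lit 4) (nat_lit 2) (nat_lit 5) (nat_lit 2) (nat_lit 4) (nat_lit 436) (nat_lit 232) (nat_lit 232)) (XT.lf (nat_lit 0) (nat_lit 117447976571) (nat_lit 76) (nat_lit 361721411302) (nat_lit 76) (nat_lit 361685462366) (nat_lit 1) (nat_lit 4) (nat_lit 2) (nat_lit 5) (nat_lit 2) (nat_lit 4) (nat_lit 437) (nat_lit 232) (nat_lit 231))) (XT.nd (nat_lit 78) (nat_lit 0) (nat_lit 0) (XT.lf (nat_lit 0) (nat_lit 47828266241) (nat_lit 76) (nat_lit 157713786090) (nat_lit 76) (nat_lit 157713786090) (nat_lit 1) (nat_lit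 4) (nat_lit 2) (nat_lit 5) (nat_lit 2) (nat_lit 4) (nat_lit 434) (nat_lit 233) (nat_lit 233)) (XT.nd (nat_lit 78) (nat_lit 0) (nat_lit 0) (XT.lf (nat_lit 0) (nat_lit 102613485310) (nat_lit 76) (nat_lit 330102711539) (nat_lit 76) (nat_lit 330064965156) (nat_lit 1) (nat_lit 4) (nat_lit 2) (nat_lit 5) (nat_lit 2) (nat_lit 4) (nat_lit 435) (nat_lit 233) (nat_lit 232)) (XT.lf (nat_lit 0) (nat_lit 109849822510) (nat_lit 76) (nat_lit 345544880391) (nat_lit 76) (nat_lit 345471185071) (nat_lit 1) (nat_lit 4) (nat_lit 2) (nat_lit 5) (nat_lit 2) (nat_lit 4) (nat_lit 436) (nat_lit 233) (nat_lit 231))))) (XT.nd (nat_lit 46644) (nat_lit 0) (nat_lit 0) (XT.nd (nat_lit 46488) (nat_lit 0) (nat_lit 0) (XT.lf (nat_lit 0) (nat_lit 117382773459) (nat_lit 76) (nat_lit 361790845804) (nat_lit 76) (nat_lit 361682913402) (nat_lit 1) (nat_lit 4) (nat_lit 2) (nat_lit 5) (nat_lit 2) (nat_lit 4) (nat_lit 437) (nat_lit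 233) (nat_lit 230)) (XT.nd (nat_lit 78) (nat_lit 0) (nat_lit 0) (XT.lf (nat_lit 0) (nat_lit 41275984449) (nat_lit 76) (nat_lit 144131050676) (nat_lit 76) (nat_lit 144131050676) (nat_lit 1) (nat_lit 4) (nat_lit 2) (nat_lit 5) (nat_lit 2) (nat_lit 4) (nat_lit 432) (nat_lit 234) (nat_lit 234)) (XT.lf (nat_lit 0) (nat_lit 88962399856) (nat_lit 76) (nat_lit 301524155209) (nat_lit 76) (nat_lit 301484521506) (nat_lit 1) (nat_lit 4) (nat_lit 2) (nat_lit 5) (nat_lit 2) (nat_lit 4) (nat_lit 433) (nat_lit 234) (nat_lit 233)))) (XT.nd (nat_lit 78) (nat_lit 0) (nat_lit 0) (XT.lf (nat_lit 0) (nat_lit 95621465931) (nat_lit 76) (nat_lit 315484247908) (nat_lit 76) (nat_lit 315406867822) (nat_lit 1) (nat_lit 4) (nat_lit 2) (nat_lit 5) (nat_lit 2) (nat_lit 4) (nat_lit 434) (nat_lit 234) (nat_lit 232)) (XT.nd (nat_lit 78) (nat_lit 0) (nat_lit 0) (XT.lf (nat_lit 0) (nat_lit 102545022042) (nat_lit 76) (nat_lit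 330175617766) (nat_lit 76) (nat_lit 330062288744) (nat_lit 1) (nat_lit 4) (nat_lit 2) (nat_lit 5) (nat_lit 2) (nat_lit 4) (nat_lit 435) (nat_lit 234) (nat_lit 231)) (XT.lf (nat_lit 0) (nat_lit 109749552847) (nat_lit 76) (nat_lit 345633244237) (nat_lit 76) (nat_lit 345485678133) (nat_lit 1) (nat_lit 4) (nat_lit 2) (nat_lit 5) (nat_lit 2) (nat_lit 4) (nat_lit 436) (nat_lit 234) (nat_lit 230)))))) (XT.nd (nat_lit 46644) (nat_lit 0) (nat_lit 0) (XT.nd (nat_lit 46410) (nat_lit 0) (nat_lit 0) (XT.nd (nat_lit 46332) (nat_lit 0) (nat_lit 0) (XT.lf (nat_lit 0) (nat_lit 117252211990) (nat_lit 76) (nat_lit 361893931192) (nat_lit 76) (nat_lit 361713758343) (nat_lit 1) (nat_lit 4) (nat_lit 2) (nat_lit 5) (nat_lit 2) (nat_lit 4) (nat_lit 437) (nat_lit 234) (nat_lit 229)) (XT.lf (nat_lit 0) (nat_lit 35227588565) (nat_lit 76) (nat_lit 131865109135) (nat_lit 76) (nat_lit 131865109135) (nat_lit 1) (nat_lit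 4) (nat_lit 2) (nat_lit 5) (nat_lit 2) (nat_lit 4) (nat_lit 430) (nat_lit 235) (nat_lit 235))) (XT.nd (nat_lit 78) (nat_lit 0) (nat_lit 0) (XT.lf (nat_lit 0) (nat_lit 76374910126) (nat_lit 76) (nat_lit 275708125411) (nat_lit 76) (nat_lit 275666510024) (nat_lit 1) (nat_lit 4) (nat_lit 2) (nat_lit 5) (nat_lit 2) (nat_lit 4) (nat_lit 431) (nat_lit 235) (nat_lit 234)) (XT.nd (nat_lit 78) (nat_lit 0) (nat_lit 0) (XT.lf (nat_lit 0) (nat_lit 82515149019) (nat_lit 76) (nat_lit 288321610867) (nat_lit 76) (nat_lit 288240361777) (nat_lit 1) (nat_lit 4) (nat_lit 2) (nat_lit 5) (nat_lit 2) (nat_lit 4) (nat_lit 432) (nat_lit 235) (nat_lit 233)) (XT.lf (nat_lit 0) (nat_lit 88890513425) (nat_lit 76) (nat_lit 301600706747) (nat_lit 76) (nat_lit 301481711274) (nat_lit 1) (nat_lit 4) (nat_lit 2) (nat_lit 5) (nat_lit 2) (nat_lit 4) (nat_lit 433) (nat_lit 235) (nat_lit 232))))) (XT.nd (nat_lit 234) (nat_lit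 0) (nat_lit 0) (XT.nd (nat_lit 78) (nat_lit 0) (nat_lit 0) (XT.lf (nat_lit 0) (nat_lit 95516182784) (nat_lit 76) (nat_lit 315577029946) (nat_lit 76) (nat_lit 315422085537) (nat_lit 1) (nat_lit 4) (nat_lit 2) (nat_lit 5) (nat_lit 2) (nat_lit 4) (nat_lit 434) (nat_lit 235) (nat_lit 231)) (XT.nd (nat_lit 78) (nat_lit 0) (nat_lit 0) (XT.lf (nat_lit 0) (nat_lit 102407932499) (nat_lit 76) (nat_lit 330283857424) (nat_lit 76) (nat_lit 330094675932) (nat_lit 1) (nat_lit 4) (nat_lit 2) (nat_lit 5) (nat_lit 2) (nat_lit 4) (nat_lit 435) (nat_lit 235) (nat_lit 230)) (XT.lf (nat_lit 0) (nat_lit 109582171498) (nat_lit 76) (nat_lit 345756205437) (nat_lit 76) (nat_lit 345534417200) (nat_lit 1) (nat_lit 4) (nat_lit 2) (nat_lit 5) (nat_lit 2) (nat_lit 4) (nat_lit 436) (nat_lit 235) (nat_lit 229)))) (XT.nd (nat_lit 46176) (nat_lit 0) (nat_lit 0) (XT.lf (nat_lit 0) (nat_lit 117055981303) (nat_lit 76) (nat_lit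 362030912908) (nat_lit 76) (nat_lit 361778070628) (nat_lit 1) (nat_lit 4) (nat_lit 2) (nat_lit 5) (nat_lit 2) (nat_lit 4) (nat_lit 437) (nat_lit 235) (nat_lit 228)) (XT.nd (nat_lit 78) (nat_lit 0) (nat_lit 0) (XT.lf (nat_lit 0) (nat_lit 29630967897) (nat_lit 76) (nat_lit 120796238447) (nat_lit 76) (nat_lit 120796238447) (nat_lit 1) (nat_lit 4) (nat_lit 2) (nat_lit 5) (nat_lit 2) (nat_lit 4) (nat_lit 428) (nat_lit 236) (nat_lit 236)) (XT.lf (nat_lit 0) (nat_lit 64741855430) (nat_lit 76) (nat_lit 252403066777) (nat_lit 76) (nat_lit 252359370620) (nat_lit 1) (nat_lit 4) (nat_lit 2) (nat_lit 5) (nat_lit 2) (nat_lit 4) (nat_lit 429) (nat_lit 236) (nat_lit 235))))))) (XT.nd (nat_lit 46800) (nat_lit 0) (nat_lit 0) (XT.nd (nat_lit 390) (nat_lit 0) (nat_lit 0) (XT.nd (nat_lit 156) (nat_lit 0) (nat_lit 0) (XT.nd (nat_lit 78) (nat_lit 0) (nat_lit 0) (XT.lf (nat_lit 0) (nat_lit 70416516258) (nat_lit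 76) (nat_lit 263792703260) (nat_lit 76) (nat_lit 263707391716) (nat_lit 1) (nat_lit 4) (nat_lit 2) (nat_lit 5) (nat_lit 2) (nat_lit 4) (nat_lit 430) (nat_lit 236) (nat_lit 234)) (XT.lf (nat_lit 0) (nat_lit 76299429374) (nat_lit 76) (nat_lit 275788504527) (nat_lit 76) (nat_lit 275663559280) (nat_lit 1) (nat_lit 4) (nat_lit 2) (nat_lit 5) (nat_lit 2) (nat_lit 4) (nat_lit 431) (nat_lit 236) (nat_lit 233))) (XT.nd (nat_lit 78) (nat_lit 0) (nat_lit 0) (XT.lf (nat_lit 0) (nat_lit 82404601714) (nat_lit 76) (nat_lit 288419032008) (nat_lit 76) (nat_lit 288256340378) (nat_lit 1) (nat_lit 4) (nat_lit 2) (nat_lit 5) (nat_lit 2) (nat_lit 4) (nat_lit 432) (nat_lit 236) (nat_lit 232)) (XT.nd (nat_lit 78) (nat_lit 0) (nat_lit 0) (XT.lf (nat_lit 0) (nat_lit 88746569405) (nat_lit 76) (nat_lit 301714358388) (nat_lit 76) (nat_lit 301515717821) (nat_lit 1) (nat_lit 4) (nat_lit 2) (nat_lit 5) (nat_lit 2) (nat_lit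 4) (nat_lit 433) (nat_lit 236) (nat_lit 231)) (XT.lf (nat_lit 0) (nat_lit 95340432368) (nat_lit 76) (nat_lit 315706139206) (nat_lit 76) (nat_lit 315473261557) (nat_lit 1) (nat_lit 4) (nat_lit 2) (nat_lit 5) (nat_lit 2) (nat_lit 4) (nat_lit 434) (nat_lit 236) (nat_lit 230))))) (XT.nd (nat_lit 46176) (nat_lit 0) (nat_lit 0) (XT.nd (nat_lit 78) (nat_lit 0) (nat_lit 0) (XT.lf (nat_lit 0) (nat_lit 102201890277) (nat_lit 76) (nat_lit 330427688226) (nat_lit 76) (nat_lit 330162203832) (nat_lit 1) (nat_lit 4) (nat_lit 2) (nat_lit 5) (nat_lit 2) (nat_lit 4) (nat_lit 435) (nat_lit 236) (nat_lit 229)) (XT.nd (nat_lit 78) (nat_lit 0) (nat_lit 0) (XT.lf (nat_lit 0) (nat_lit 109347279938) (nat_lit 76) (nat_lit 345914056754) (nat_lit 76) (nat_lit 345617518318) (nat_lit 1) (nat_lit 4) (nat_lit 2) (nat_lit 5) (nat_lit 2) (nat_lit 4) (nat_lit 436) (nat_lit 236) (nat_lit 228)) (XT.lf (nat_lit 0) (nat_lit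 116793614181) (nat_lit 76) (nat_lit 362202117098) (nat_lit 76) (nat_lit 361876003383) (nat_lit 1) (nat_lit 4) (nat_lit 2) (nat_lit 5) (nat_lit 2) (nat_lit 4) (nat_lit 437) (nat_lit 236) (nat_lit 227)))) (XT.nd (nat_lit 78) (nat_lit 0) (nat_lit 0) (XT.lf (nat_lit 0) (nat_lit 24438593302) (nat_lit 76) (nat_lit 110815981303) (nat_lit 76) (nat_lit 110815981303) (nat_lit 1) (nat_lit 4) (nat_lit 2) (nat_lit 5) (nat_lit 2) (nat_lit 4) (nat_lit 426) (nat_lit 237) (nat_lit 237)) (XT.nd (nat_lit 78) (nat_lit 0) (nat_lit 0) (XT.lf (nat_lit 0) (nat_lit 53963709924) (nat_lit 76) (nat_lit 231381075077) (nat_lit 76) (nat_lit 231335194112) (nat_lit 1) (nat_lit 4) (nat_lit 2) (nat_lit 5) (nat_lit 2) (nat_lit 4) (nat_lit 427) (nat_lit 237) (nat_lit 236)) (XT.lf (nat_lit 0) (nat_lit 59221341878) (nat_lit 76) (nat_lit 241658086133) (nat_lit 76) (nat_lit 241568509011) (nat_lit 1) (nat_lit 4) (nat_lit 2) (nat_lit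 5) (nat_lit 2) (nat_lit 4) (nat_lit 428) (nat_lit 237) (nat_lit 235)))))) (XT.nd (nat_lit 468) (nat_lit 0) (nat_lit 0) (XT.nd (nat_lit 234) (nat_lit 0) (nat_lit 0) (XT.nd (nat_lit 78) (nat_lit 0) (nat_lit 0) (XT.lf (nat_lit 0) (nat_lit 64662600640) (nat_lit 76) (nat_lit 252487464848) (nat_lit 76) (nat_lit 252356272339) (nat_lit 1) (nat_lit 4) (nat_lit 2) (nat_lit 5) (nat_lit 2) (nat_lit 4) (nat_lit 429) (nat_lit 237) (nat_lit 234)) (XT.nd (nat_lit 78) (nat_lit 0) (nat_lit 0) (XT.lf (nat_lit 0) (nat_lit 70300441588) (nat_lit 76) (nat_lit 263894995458) (nat_lit 76) (nat_lit 263724169246) (nat_lit 1) (nat_lit 4) (nat_lit 2) (nat_lit 5) (nat_lit 2) (nat_lit 4) (nat_lit 430) (nat_lit 237) (nat_lit 233)) (XT.lf (nat_lit 0) (nat_lit 76148288153) (nat_lit 76) (nat_lit 275907838749) (nat_lit 76) (nat_lit 275699266155) (nat_lit 1) (nat_lit 4) (nat_lit 2) (nat_lit 5) (nat_lit 2) (nat_lit 4) (nat_lit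 431) (nat_lit 237) (nat_lit 232)))) (XT.nd (nat_lit 78) (nat_lit 0) (nat_lit 0) (XT.lf (nat_lit 0) (nat_lit 82220063778) (nat_lit 76) (nat_lit 288554596730) (nat_lit 76) (nat_lit 288310075199) (nat_lit 1) (nat_lit 4) (nat_lit 2) (nat_lit 5) (nat_lit 2) (nat_lit 4) (nat_lit 432) (nat_lit 237) (nat_lit 231)) (XT.nd (nat_lit 78) (nat_lit 0) (nat_lit 0) (XT.lf (nat_lit 0) (nat_lit 88530225072) (nat_lit 76) (nat_lit 301865380729) (nat_lit 76) (nat_lit 301586622116) (nat_lit 1) (nat_lit 4) (nat_lit 2) (nat_lit 5) (nat_lit 2) (nat_lit 4) (nat_lit 433) (nat_lit 237) (nat_lit 230)) (XT.lf (nat_lit 0) (nat_lit 95093796229) (nat_lit 76) (nat_lit 315871883089) (nat_lit 76) (nat_lit 315560517731) (nat_lit 1) (nat_lit 4) (nat_lit 2) (nat_lit 5) (nat_lit 2) (nat_lit 4) (nat_lit 434) (nat_lit 237) (nat_lit 229))))) (XT.nd (nat_lit 46020) (nat_lit 0) (nat_lit 0) (XT.nd (nat_lit 78) (nat_lit 0) (nat_lit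 0) (XT.lf (nat_lit 0) (nat_lit 101926404800) (nat_lit 76) (nat_lit 330607452625) (nat_lit 76) (nat_lit 330265033224) (nat_lit 1) (nat_lit 4) (nat_lit 2) (nat_lit 5) (nat_lit 2) (nat_lit 4) (nat_lit 435) (nat_lit 237) (nat_lit 228)) (XT.nd (nat_lit 78) (nat_lit 0) (nat_lit 0) (XT.lf (nat_lit 0) (nat_lit 109044318899) (nat_lit 76) (nat_lit 346107174026) (nat_lit 76) (nat_lit 345735179346) (nat_lit 1) (nat_lit 4) (nat_lit 2) (nat_lit 5) (nat_lit 2) (nat_lit 4) (nat_lit 436) (nat_lit 237) (nat_lit 227)) (XT.lf (nat_lit 0) (nat_lit 116464485942) (nat_lit 76) (nat_lit 362407951392) (nat_lit 76) (nat_lit 362007789779) (nat_lit 1) (nat_lit 4) (nat_lit 2) (nat_lit 5) (nat_lit 2) (nat_lit 4) (nat_lit 437) (nat_lit 237) (nat_lit 226)))) (XT.nd (nat_lit 78) (nat_lit 0) (nat_lit 0) (XT.lf (nat_lit 0) (nat_lit 19607078079) (nat_lit 76) (nat_lit 101826105478) (nat_lit 76) (nat_lit 101826105478) (nat_lit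 1) (nat_lit 4) (nat_lit 2) (nat_lit 5) (nat_lit 2) (nat_lit 4) (nat_lit 424) (nat_lit 238) (nat_lit 238)) (XT.nd (nat_lit 78) (nat_lit 0) (nat_lit 0) (XT.lf (nat_lit 0) (nat_lit 43949661154) (nat_lit 76) (nat_lit 212435711562) (nat_lit 76) (nat_lit 212387536549) (nat_lit 1) (nat_lit 4) (nat_lit 2) (nat_lit 5) (nat_lit 2) (nat_lit 4) (nat_lit 425) (nat_lit 238) (nat_lit 237)) (XT.lf (nat_lit 0) (nat_lit 48834562993) (nat_lit 76) (nat_lit 221700852307) (nat_lit 76) (nat_lit 221606796330) (nat_lit 1) (nat_lit 4) (nat_lit 2) (nat_lit 5) (nat_lit 2) (nat_lit 4) (nat_lit 426) (nat_lit 238) (nat_lit 236))))))))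
noncomputable def xc1 : XT := (XT.nd (nat_lit 47424) (nat_lit 0) (nat_lit 0) (XT.nd (nat_lit 46488) (nat_lit 0) (nat_lit 0) (XT.nd (nat_lit 390) (nat_lit 0) (nat_lit 0) (XT.nd (nat_lit 156) (nat_lit 0) (nat_lit 0) (XT.nd (nat_lit 78) (nat_lit 0) (nat_lit 0) (XT.lf (nat_lit 0) (nat_lit 53880492394) (nat_lit 76) (nat_lit 231469693052) (nat_lit 76) (nat_lit 231331940917) (nat_lit 1) (nat_lit 4) (nat_lit 2) (nat_lit 5) (nat_lit 2) (nat_lit 4) (nat_lit 427) (nat_lit 238) (nat_lit 235)) (XT.lf (nat_lit 0) (nat_lit 59099463475) (nat_lit 76) (nat_lit 241765492940) (nat_lit 76) (nat_lit 241586125418) (nat_lit 1) (nat_lit 4) (nat_lit 2) (nat_lit 5) (nat_lit 2) (nat_lit 4) (nat_lit 428) (nat_lit 238) (nat_lit 234))) (XT.nd (nat_lit 78) (nat_lit 0) (nat_lit 0) (XT.lf (nat_lit 0) (nat_lit 64503902358) (nat_lit 76) (nat_lit 252612765782) (nat_lit 76) (nat_lit 252393764557) (nat_lit 1) (nat_lit 4) (nat_lit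 2) (nat_lit 5) (nat_lit 2) (nat_lit 4) (nat_lit 429) (nat_lit 238) (nat_lit 233)) (XT.nd (nat_lit 78) (nat_lit 0) (nat_lit 0) (XT.lf (nat_lit 0) (nat_lit 70106676755) (nat_lit 76) (nat_lit 264037338416) (nat_lit 76) (nat_lit 263780590809) (nat_lit 1) (nat_lit 4) (nat_lit 2) (nat_lit 5) (nat_lit 2) (nat_lit 4) (nat_lit 430) (nat_lit 238) (nat_lit 232)) (XT.lf (nat_lit 0) (nat_lit 75921126603) (nat_lit 76) (nat_lit 276066412208) (nat_lit 76) (nat_lit 275773715664) (nat_lit 1) (nat_lit 4) (nat_lit 2) (nat_lit 5) (nat_lit 2) (nat_lit 4) (nat_lit 431) (nat_lit 238) (nat_lit 231))))) (XT.nd (nat_lit 234) (nat_lit 0) (nat_lit 0) (XT.nd (nat_lit 78) (nat_lit 0) (nat_lit 0) (XT.lf (nat_lit 0) (nat_lit 81961095832) (nat_lit 76) (nat_lit 288728627808) (nat_lit 76) (nat_lit 288401694182) (nat_lit 1) (nat_lit 4) (nat_lit 2) (nat_lit 5) (nat_lit 2) (nat_lit 4) (nat_lit 432) (nat_lit 238) (nat_lit 230))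 (XT.nd (nat_lit 78) (nat_lit 0) (nat_lit 0) (XT.lf (nat_lit 0) (nat_lit 88240965321) (nat_lit 76) (nat_lit 302054133349) (nat_lit 76) (nat_lit 301694592977) (nat_lit 1) (nat_lit 4) (nat_lit 2) (nat_lit 5) (nat_lit 2) (nat_lit 4) (nat_lit 433) (nat_lit 238) (nat_lit 229)) (XT.lf (nat_lit 0) (nat_lit 94775687139) (nat_lit 76) (nat_lit 316074656225) (nat_lit 76) (nat_lit 315684061811) (nat_lit 1) (nat_lit 4) (nat_lit 2) (nat_lit 5) (nat_lit 2) (nat_lit 4) (nat_lit 434) (nat_lit 238) (nat_lit 228)))) (XT.nd (nat_lit 78) (nat_lit 0) (nat_lit 0) (XT.lf (nat_lit 0) (nat_lit 101580820149) (nat_lit 76) (nat_lit 330823578633) (nat_lit 76) (nat_lit 330403408940) (nat_lit 1) (nat_lit 4) (nat_lit 2) (nat_lit 5) (nat_lit 2) (nat_lit 4) (nat_lit 435) (nat_lit 238) (nat_lit 227)) (XT.nd (nat_lit 78) (nat_lit 0) (nat_lit 0) (XT.lf (nat_lit 0) (nat_lit 108672567048) (nat_lit 76) (nat_lit 346336017056) (nat_lit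 76) (nat_lit 345887680430) (nat_lit 1) (nat_lit 4) (nat_lit 2) (nat_lit 5) (nat_lit 2) (nat_lit 4) (nat_lit 436) (nat_lit 238) (nat_lit 226)) (XT.lf (nat_lit 0) (nat_lit 116067812947) (nat_lit 76) (nat_lit 362648905870) (nat_lit 76) (nat_lit 362173743595) (nat_lit 1) (nat_lit 4) (nat_lit 2) (nat_lit 5) (nat_lit 2) (nat_lit 4) (nat_lit 437) (nat_lit 238) (nat_lit 225)))))) (XT.nd (nat_lit 468) (nat_lit 0) (nat_lit 0) (XT.nd (nat_lit 234) (nat_lit 0) (nat_lit 0) (XT.nd (nat_lit 78) (nat_lit 0) (nat_lit 0) (XT.lf (nat_lit 0) (nat_lit 15096779023) (nat_lit 76) (nat_lit 93737660285) (nat_lit 76) (nat_lit 93737660285) (nat_lit 1) (nat_lit 4) (nat_lit 2) (nat_lit 5) (nat_lit 2) (nat_lit 4) (nat_lit 422) (nat_lit 239) (nat_lit 239)) (XT.nd (nat_lit 78) (nat_lit 0) (nat_lit 0) (XT.lf (nat_lit 0) (nat_lit 34616772995) (nat_lit 76) (nat_lit 195380021160) (nat_lit 76) (nat_lit 195329437396) (nat_lit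 1) (nat_lit 4) (nat_lit 2) (nat_lit 5) (nat_lit 2) (nat_lit 4) (nat_lit 423) (nat_lit 239) (nat_lit 238)) (XT.lf (nat_lit 0) (nat_lit 39169401365) (nat_lit 76) (nat_lit 203724545143) (nat_lit 76) (nat_lit 203625786367) (nat_lit 1) (nat_lit 4) (nat_lit 2) (nat_lit 5) (nat_lit 2) (nat_lit 4) (nat_lit 424) (nat_lit 239) (nat_lit 237)))) (XT.nd (nat_lit 78) (nat_lit 0) (nat_lit 0) (XT.lf (nat_lit 0) (nat_lit 43862282748) (nat_lit 76) (nat_lit 212528760436) (nat_lit 76) (nat_lit 212384120695) (nat_lit 1) (nat_lit 4) (nat_lit 2) (nat_lit 5) (nat_lit 2) (nat_lit 4) (nat_lit 425) (nat_lit 239) (nat_lit 236)) (XT.nd (nat_lit 78) (nat_lit 0) (nat_lit 0) (XT.lf (nat_lit 0) (nat_lit 48706590670) (nat_lit 76) (nat_lit 221813629455) (nat_lit 76) (nat_lit 221625293557) (nat_lit 1) (nat_lit 4) (nat_lit 2) (nat_lit 5) (nat_lit 2) (nat_lit 4) (nat_lit 426) (nat_lit 239) (nat_lit 235)) (XT.lf (nat_lit 0)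 (nat_lit 53713859198) (nat_lit 76) (nat_lit 231601259032) (nat_lit 76) (nat_lit 231371307747) (nat_lit 1) (nat_lit 4) (nat_lit 2) (nat_lit 5) (nat_lit 2) (nat_lit 4) (nat_lit 427) (nat_lit 239) (nat_lit 234))))) (XT.nd (nat_lit 234) (nat_lit 0) (nat_lit 0) (XT.nd (nat_lit 78) (nat_lit 0) (nat_lit 0) (XT.lf (nat_lit 0) (nat_lit 58896010400) (nat_lit 76) (nat_lit 241914953047) (nat_lit 76) (nat_lit 241645368059) (nat_lit 1) (nat_lit 4) (nat_lit 2) (nat_lit 5) (nat_lit 2) (nat_lit 4) (nat_lit 428) (nat_lit 239) (nat_lit 233)) (XT.nd (nat_lit 78) (nat_lit 0) (nat_lit 0) (XT.lf (nat_lit 0) (nat_lit 64265382731) (nat_lit 76) (nat_lit 252779267913) (nat_lit 76) (nat_lit 252471936542) (nat_lit 1) (nat_lit 4) (nat_lit 2) (nat_lit 5) (nat_lit 2) (nat_lit 4) (nat_lit 429) (nat_lit 239) (nat_lit 232)) (XT.lf (nat_lit 0) (nat_lit 69834760412) (nat_lit 76) (nat_lit 264220071048) (nat_lit 76) (nat_lit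 263876790740) (nat_lit 1) (nat_lit 4) (nat_lit 2) (nat_lit 5) (nat_lit 2) (nat_lit 4) (nat_lit 430) (nat_lit 239) (nat_lit 231)))) (XT.nd (nat_lit 78) (nat_lit 0) (nat_lit 0) (XT.lf (nat_lit 0) (nat_lit 75617403864) (nat_lit 76) (nat_lit 276264602458) (nat_lit 76) (nat_lit 275887085069) (nat_lit 1) (nat_lit 4) (nat_lit 2) (nat_lit 5) (nat_lit 2) (nat_lit 4) (nat_lit 431) (nat_lit 239) (nat_lit 230)) (XT.nd (nat_lit 78) (nat_lit 0) (nat_lit 0) (XT.lf (nat_lit 0) (nat_lit 81627081287) (nat_lit 76) (nat_lit 288941539600) (nat_lit 76) (nat_lit 288531415465) (nat_lit 1) (nat_lit 4) (nat_lit 2) (nat_lit 5) (nat_lit 2) (nat_lit 4) (nat_lit 432) (nat_lit 239) (nat_lit 229)) (XT.lf (nat_lit 0) (nat_lit 87878101437) (nat_lit 76) (nat_lit 302281065657) (nat_lit 76) (nat_lit 301839887480) (nat_lit 1) (nat_lit 4) (nat_lit 2) (nat_lit 5) (nat_lit 2) (nat_lit 4) (nat_lit 433) (nat_lit 239) (nat_lit 228)))))))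 (XT.nd (nat_lit 46332) (nat_lit 0) (nat_lit 0) (XT.nd (nat_lit 45864) (nat_lit 0) (nat_lit 0) (XT.nd (nat_lit 156) (nat_lit 0) (nat_lit 0) (XT.nd (nat_lit 78) (nat_lit 0) (nat_lit 0) (XT.lf (nat_lit 0) (nat_lit 94385347695) (nat_lit 76) (nat_lit 316314941406) (nat_lit 76) (nat_lit 315844187949) (nat_lit 1) (nat_lit 4) (nat_lit 2) (nat_lit 5) (nat_lit 2) (nat_lit 4) (nat_lit 434) (nat_lit 239) (nat_lit 227)) (XT.lf (nat_lit 0) (nat_lit 101164313504) (nat_lit 76) (nat_lit 331076580836) (nat_lit 76) (nat_lit 330577660447) (nat_lit 1) (nat_lit 4) (nat_lit 2) (nat_lit 5) (nat_lit 2) (nat_lit 4) (nat_lit 435) (nat_lit 239) (nat_lit 226))) (XT.nd (nat_lit 78) (nat_lit 0) (nat_lit 0) (XT.lf (nat_lit 0) (nat_lit 108231139259) (nat_lit 76) (nat_lit 346601130707) (nat_lit 76) (nat_lit 346075384668) (nat_lit 1) (nat_lit 4) (nat_lit 2) (nat_lit 5) (nat_lit 2) (nat_lit 4) (nat_lit 436) (nat_lit 239)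 (nat_lit 225)) (XT.nd (nat_lit 45552) (nat_lit 0) (nat_lit 0) (XT.lf (nat_lit 0) (nat_lit 115602650736) (nat_lit 76) (nat_lit 362925554235) (nat_lit 76) (nat_lit 362374259958) (nat_lit 1) (nat_lit 4) (nat_lit 2) (nat_lit 5) (nat_lit 2) (nat_lit 4) (nat_lit 437) (nat_lit 239) (nat_lit 224)) (XT.lf (nat_lit 0) (nat_lit 10871433883) (nat_lit 76) (nat_lit 86470121107) (nat_lit 76) (nat_lit 86470121107) (nat_lit 1) (nat_lit 4) (nat_lit 2) (nat_lit 5) (nat_lit 2) (nat_lit 4) (nat_lit 420) (nat_lit 240) (nat_lit 240))))) (XT.nd (nat_lit 234) (nat_lit 0) (nat_lit 0) (XT.nd (nat_lit 78) (nat_lit 0) (nat_lit 0) (XT.lf (nat_lit 0) (nat_lit 25889225054) (nat_lit 76) (nat_lit 180044735614) (nat_lit 76) (nat_lit 179991622662) (nat_lit 1) (nat_lit 4) (nat_lit 2) (nat_lit 5) (nat_lit 2) (nat_lit 4) (nat_lit 421) (nat_lit 240) (nat_lit 239)) (XT.nd (nat_lit 78) (nat_lit 0) (nat_lit 0) (XT.lf (nat_lit 0)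 (nat_lit 30146565513) (nat_lit 76) (nat_lit 187551271466) (nat_lit 76) (nat_lit 187447574751) (nat_lit 1) (nat_lit 4) (nat_lit 2) (nat_lit 5) (nat_lit 2) (nat_lit 4) (nat_lit 422) (nat_lit 240) (nat_lit 238)) (XT.lf (nat_lit 0) (nat_lit 34525025668) (nat_lit 76) (nat_lit 195477722477) (nat_lit 76) (nat_lit 195325850749) (nat_lit 1) (nat_lit 4) (nat_lit 2) (nat_lit 5) (nat_lit 2) (nat_lit 4) (nat_lit 423) (nat_lit 240) (nat_lit 237)))) (XT.nd (nat_lit 78) (nat_lit 0) (nat_lit 0) (XT.lf (nat_lit 0) (nat_lit 39035030426) (nat_lit 76) (nat_lit 203842961148) (nat_lit 76) (nat_lit 203645208455) (nat_lit 1) (nat_lit 4) (nat_lit 2) (nat_lit 5) (nat_lit 2) (nat_lit 4) (nat_lit 424) (nat_lit 240) (nat_lit 236)) (XT.nd (nat_lit 78) (nat_lit 0) (nat_lit 0) (XT.lf (nat_lit 0) (nat_lit 43687317892) (nat_lit 76) (nat_lit 212666904715) (nat_lit 76) (nat_lit 212425455865) (nat_lit 1) (nat_lit 4) (nat_lit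 2) (nat_lit 5) (nat_lit 2) (nat_lit 4) (nat_lit 425) (nat_lit 240) (nat_lit 235)) (XT.lf (nat_lit 0) (nat_lit 48492964941) (nat_lit 76) (nat_lit 221970562567) (nat_lit 76) (nat_lit 221687498330) (nat_lit 1) (nat_lit 4) (nat_lit 2) (nat_lit 5) (nat_lit 2) (nat_lit 4) (nat_lit 426) (nat_lit 240) (nat_lit 234)))))) (XT.nd (nat_lit 468) (nat_lit 0) (nat_lit 0) (XT.nd (nat_lit 234) (nat_lit 0) (nat_lit 0) (XT.nd (nat_lit 78) (nat_lit 0) (nat_lit 0) (XT.lf (nat_lit 0) (nat_lit 53463413589) (nat_lit 76) (nat_lit 231776086270) (nat_lit 76) (nat_lit 231453388331) (nat_lit 1) (nat_lit 4) (nat_lit 2) (nat_lit 5) (nat_lit 2) (nat_lit 4) (nat_lit 427) (nat_lit 240) (nat_lit 233)) (XT.nd (nat_lit 78) (nat_lit 0) (nat_lit 0) (XT.lf (nat_lit 0) (nat_lit 58610498240) (nat_lit 76) (nat_lit 242106822310) (nat_lit 76) (nat_lit 241746377987) (nat_lit 1) (nat_lit 4) (nat_lit 2) (nat_lit 5) (nat_lit 2) (nat_lit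 4) (nat_lit 428) (nat_lit 240) (nat_lit 232)) (XT.lf (nat_lit 0) (nat_lit 63946473855) (nat_lit 76) (nat_lit 252987367676) (nat_lit 76) (nat_lit 252590974417) (nat_lit 1) (nat_lit 4) (nat_lit 2) (nat_lit 5) (nat_lit 2) (nat_lit 4) (nat_lit 429) (nat_lit 240) (nat_lit 231)))) (XT.nd (nat_lit 78) (nat_lit 0) (nat_lit 0) (XT.lf (nat_lit 0) (nat_lit 69484045140) (nat_lit 76) (nat_lit 264443628430) (nat_lit 76) (nat_lit 264012998088) (nat_lit 1) (nat_lit 4) (nat_lit 2) (nat_lit 5) (nat_lit 2) (nat_lit 4) (nat_lit 430) (nat_lit 240) (nat_lit 230)) (XT.nd (nat_lit 78) (nat_lit 0) (nat_lit 0) (XT.lf (nat_lit 0) (nat_lit 75236396786) (nat_lit 76) (nat_lit 276502881382) (nat_lit 76) (nat_lit 276039644296) (nat_lit 1) (nat_lit 4) (nat_lit 2) (nat_lit 5) (nat_lit 2) (nat_lit 4) (nat_lit 431) (nat_lit 240) (nat_lit 229)) (XT.lf (nat_lit 0) (nat_lit 81217224871) (nat_lit 76) (nat_lit 289193839040) (nat_lit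 76) (nat_lit 288699547911) (nat_lit 1) (nat_lit 4) (nat_lit 2) (nat_lit 5) (nat_lit 2) (nat_lit 4) (nat_lit 432) (nat_lit 240) (nat_lit 228))))) (XT.nd (nat_lit 234) (nat_lit 0) (nat_lit 0) (XT.nd (nat_lit 78) (nat_lit 0) (nat_lit 0) (XT.lf (nat_lit 0) (nat_lit 87440769460) (nat_lit 76) (nat_lit 302546717970) (nat_lit 76) (nat_lit 302022851561) (nat_lit 1) (nat_lit 4) (nat_lit 2) (nat_lit 5) (nat_lit 2) (nat_lit 4) (nat_lit 433) (nat_lit 240) (nat_lit 227)) (XT.nd (nat_lit 78) (nat_lit 0) (nat_lit 0) (XT.lf (nat_lit 0) (nat_lit 93921848517) (nat_lit 76) (nat_lit 316593310740) (nat_lit 76) (nat_lit 316041277399) (nat_lit 1) (nat_lit 4) (nat_lit 2) (nat_lit 5) (nat_lit 2) (nat_lit 4) (nat_lit 434) (nat_lit 240) (nat_lit 226)) (XT.lf (nat_lit 0) (nat_lit 100675893182) (nat_lit 76) (nat_lit 331367061619) (nat_lit 76) (nat_lit 330788202628) (nat_lit 1) (nat_lit 4) (nat_lit 2) (nat_lit 5) (nat_lit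 2) (nat_lit 4) (nat_lit 435) (nat_lit 240) (nat_lit 225)))) (XT.nd (nat_lit 78) (nat_lit 0) (nat_lit 0) (XT.lf (nat_lit 0) (nat_lit 107718984515) (nat_lit 76) (nat_lit 346903146204) (nat_lit 76) (nat_lit 346298738975) (nat_lit 1) (nat_lit 4) (nat_lit 2) (nat_lit 5) (nat_lit 2) (nat_lit 4) (nat_lit 436) (nat_lit 240) (nat_lit 224)) (XT.nd (nat_lit 45396) (nat_lit 0) (nat_lit 0) (XT.lf (nat_lit 0) (nat_lit 115067891780) (nat_lit 76) (nat_lit 363238555172) (nat_lit 76) (nat_lit 362609816289) (nat_lit 1) (nat_lit 4) (nat_lit 2) (nat_lit 5) (nat_lit 2) (nat_lit 4) (nat_lit 437) (nat_lit 240) (nat_lit 223)) (XT.lf (nat_lit 0) (nat_lit 6897831798) (nat_lit 76) (nat_lit 79950613837) (nat_lit 76) (nat_lit 79950613837) (nat_lit 1) (nat_lit 4) (nat_lit 2) (nat_lit 5) (nat_lit 2) (nat_lit 4) (nat_lit 418) (nat_lit 241) (nat_lit 241))))))))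
noncomputable def xc2 : XT := (XT.nd (nat_lit 46956) (nat_lit 0) (nat_lit 0) (XT.nd (nat_lit 858) (nat_lit 0) (nat_lit 0) (XT.nd (nat_lit 390) (nat_lit 0) (nat_lit 0) (XT.nd (nat_lit 156) (nat_lit 0) (nat_lit 0) (XT.nd (nat_lit 78) (nat_lit 0) (nat_lit 0) (XT.lf (nat_lit 0) (nat_lit 17697621371) (nat_lit 76) (nat_lit 166276644410) (nat_lit 76) (nat_lit 166220875810) (nat_lit 1) (nat_lit 4) (nat_lit 2) (nat_lit 5) (nat_lit 2) (nat_lit 4) (nat_lit 419) (nat_lit 241) (nat_lit 240)) (XT.lf (nat_lit 0) (nat_lit 21693525607) (nat_lit 76) (nat_lit 173019990655) (nat_lit 76) (nat_lit 172911109104) (nat_lit 1) (nat_lit 4) (nat_lit 2) (nat_lit 5) (nat_lit 2) (nat_lit 4) (nat_lit 420) (nat_lit 241) (nat_lit 239))) (XT.nd (nat_lit 78) (nat_lit 0) (nat_lit 0) (XT.lf (nat_lit 0) (nat_lit 25792890361) (nat_lit 76) (nat_lit 180147321997) (nat_lit 76) (nat_lit 179987856683) (nat_lit 1) (nat_lit 4) (nat_lit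 2) (nat_lit 5) (nat_lit 2) (nat_lit 4) (nat_lit 421) (nat_lit 241) (nat_lit 238)) (XT.nd (nat_lit 78) (nat_lit 0) (nat_lit 0) (XT.lf (nat_lit 0) (nat_lit 30005476027) (nat_lit 76) (nat_lit 187675608272) (nat_lit 76) (nat_lit 187467967944) (nat_lit 1) (nat_lit 4) (nat_lit 2) (nat_lit 5) (nat_lit 2) (nat_lit 4) (nat_lit 422) (nat_lit 241) (nat_lit 237)) (XT.lf (nat_lit 0) (nat_lit 34341312570) (nat_lit 76) (nat_lit 195622773970) (nat_lit 76) (nat_lit 195369252678) (nat_lit 1) (nat_lit 4) (nat_lit 2) (nat_lit 5) (nat_lit 2) (nat_lit 4) (nat_lit 423) (nat_lit 241) (nat_lit 236))))) (XT.nd (nat_lit 234) (nat_lit 0) (nat_lit 0) (XT.nd (nat_lit 78) (nat_lit 0) (nat_lit 0) (XT.lf (nat_lit 0) (nat_lit 38810723410) (nat_lit 76) (nat_lit 204007740916) (nat_lit 76) (nat_lit 203710523467) (nat_lit 1) (nat_lit 4) (nat_lit 2) (nat_lit 5) (nat_lit 2) (nat_lit 4) (nat_lit 424) (nat_lit 241) (nat_lit 235))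 (XT.nd (nat_lit 78) (nat_lit 0) (nat_lit 0) (XT.lf (nat_lit 0) (nat_lit 43424350003) (nat_lit 76) (nat_lit 212850473315) (nat_lit 76) (nat_lit 212511640479) (nat_lit 1) (nat_lit 4) (nat_lit 2) (nat_lit 5) (nat_lit 2) (nat_lit 4) (nat_lit 425) (nat_lit 241) (nat_lit 234)) (XT.lf (nat_lit 0) (nat_lit 48193177172) (nat_lit 76) (nat_lit 222172025293) (nat_lit 76) (nat_lit 221793558754) (nat_lit 1) (nat_lit 4) (nat_lit 2) (nat_lit 5) (nat_lit 2) (nat_lit 4) (nat_lit 426) (nat_lit 241) (nat_lit 233)))) (XT.nd (nat_lit 78) (nat_lit 0) (nat_lit 0) (XT.lf (nat_lit 0) (nat_lit 53128559270) (nat_lit 76) (nat_lit 231994591022) (nat_lit 76) (nat_lit 231578378099) (nat_lit 1) (nat_lit 4) (nat_lit 2) (nat_lit 5) (nat_lit 2) (nat_lit 4) (nat_lit 427) (nat_lit 241) (nat_lit 232)) (XT.nd (nat_lit 78) (nat_lit 0) (nat_lit 0) (XT.lf (nat_lit 0) (nat_lit 58242247204) (nat_lit 76) (nat_lit 242341557561) (nat_lit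 76) (nat_lit 241889395702) (nat_lit 1) (nat_lit 4) (nat_lit 2) (nat_lit 5) (nat_lit 2) (nat_lit 4) (nat_lit 428) (nat_lit 241) (nat_lit 231)) (XT.lf (nat_lit 0) (nat_lit 63546416424) (nat_lit 76) (nat_lit 253237560547) (nat_lit 76) (nat_lit 252751161605) (nat_lit 1) (nat_lit 4) (nat_lit 2) (nat_lit 5) (nat_lit 2) (nat_lit 4) (nat_lit 429) (nat_lit 241) (nat_lit 230)))))) (XT.nd (nat_lit 468) (nat_lit 0) (nat_lit 0) (XT.nd (nat_lit 234) (nat_lit 0) (nat_lit 0) (XT.nd (nat_lit 78) (nat_lit 0) (nat_lit 0) (XT.lf (nat_lit 0) (nat_lit 69053695902) (nat_lit 76) (nat_lit 264708542842) (nat_lit 76) (nat_lit 264189537156) (nat_lit 1) (nat_lit 4) (nat_lit 2) (nat_lit 5) (nat_lit 2) (nat_lit 4) (nat_lit 430) (nat_lit 241) (nat_lit 229)) (XT.nd (nat_lit 78) (nat_lit 0) (nat_lit 0) (XT.lf (nat_lit 0) (nat_lit 74777198210) (nat_lit 76) (nat_lit 276781816311) (nat_lit 76) (nat_lit 276231756582) (nat_lit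 1) (nat_lit 4) (nat_lit 2) (nat_lit 5) (nat_lit 2) (nat_lit 4) (nat_lit 431) (nat_lit 241) (nat_lit 228)) (XT.lf (nat_lit 0) (nat_lit 80730550734) (nat_lit 76) (nat_lit 289486126841) (nat_lit 76) (nat_lit 288906491833) (nat_lit 1) (nat_lit 4) (nat_lit 2) (nat_lit 5) (nat_lit 2) (nat_lit 4) (nat_lit 432) (nat_lit 241) (nat_lit 227)))) (XT.nd (nat_lit 78) (nat_lit 0) (nat_lit 0) (XT.lf (nat_lit 0) (nat_lit 86927928122) (nat_lit 76) (nat_lit 302851722792) (nat_lit 76) (nat_lit 302243920852) (nat_lit 1) (nat_lit 4) (nat_lit 2) (nat_lit 5) (nat_lit 2) (nat_lit 4) (nat_lit 433) (nat_lit 241) (nat_lit 226)) (XT.nd (nat_lit 78) (nat_lit 0) (nat_lit 0) (XT.lf (nat_lit 0) (nat_lit 93384086035) (nat_lit 76) (nat_lit 316910427011) (nat_lit 76) (nat_lit 316275799421) (nat_lit 1) (nat_lit 4) (nat_lit 2) (nat_lit 5) (nat_lit 2) (nat_lit 4) (nat_lit 434) (nat_lit 241) (nat_lit 225)) (XT.lf (nat_lit 0)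 (nat_lit 100114396278) (nat_lit 76) (nat_lit 331695712603) (nat_lit 76) (nat_lit 331035536775) (nat_lit 1) (nat_lit 4) (nat_lit 2) (nat_lit 5) (nat_lit 2) (nat_lit 4) (nat_lit 435) (nat_lit 241) (nat_lit 224))))) (XT.nd (nat_lit 45396) (nat_lit 0) (nat_lit 0) (XT.nd (nat_lit 78) (nat_lit 0) (nat_lit 0) (XT.lf (nat_lit 0) (nat_lit 107134883399) (nat_lit 76) (nat_lit 347242782629) (nat_lit 76) (nat_lit 346558275146) (nat_lit 1) (nat_lit 4) (nat_lit 2) (nat_lit 5) (nat_lit 2) (nat_lit 4) (nat_lit 436) (nat_lit 241) (nat_lit 223)) (XT.nd (nat_lit 45240) (nat_lit 0) (nat_lit 0) (XT.lf (nat_lit 0) (nat_lit 114462262843) (nat_lit 76) (nat_lit 363588653923) (nat_lit 76) (nat_lit 362880973435) (nat_lit 1) (nat_lit 4) (nat_lit 2) (nat_lit 5) (nat_lit 2) (nat_lit 4) (nat_lit 437) (nat_lit 241) (nat_lit 222)) (XT.lf (nat_lit 0) (nat_lit 3145513612) (nat_lit 76) (nat_lit 74113211806) (nat_lit 76) (nat_lit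 74113211806) (nat_lit 1) (nat_lit 4) (nat_lit 2) (nat_lit 5) (nat_lit 2) (nat_lit 4) (nat_lit 416) (nat_lit 242) (nat_lit 242)))) (XT.nd (nat_lit 78) (nat_lit 0) (nat_lit 0) (XT.lf (nat_lit 0) (nat_lit 9978361909) (nat_lit 76) (nat_lit 153937117913) (nat_lit 76) (nat_lit 153878560884) (nat_lit 1) (nat_lit 4) (nat_lit 2) (nat_lit 5) (nat_lit 2) (nat_lit 4) (nat_lit 417) (nat_lit 242) (nat_lit 241)) (XT.nd (nat_lit 78) (nat_lit 0) (nat_lit 0) (XT.lf (nat_lit 0) (nat_lit 13743854330) (nat_lit 76) (nat_lit 159984963536) (nat_lit 76) (nat_lit 159870637907) (nat_lit 1) (nat_lit 4) (nat_lit 2) (nat_lit 5) (nat_lit 2) (nat_lit 4) (nat_lit 418) (nat_lit 242) (nat_lit 240)) (XT.lf (nat_lit 0) (nat_lit 17596469944) (nat_lit 76) (nat_lit 166384360112) (nat_lit 76) (nat_lit 166216921531) (nat_lit 1) (nat_lit 4) (nat_lit 2) (nat_lit 5) (nat_lit 2) (nat_lit 4) (nat_lit 419) (nat_lit 242) (nat_lit 239)))))))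 (XT.nd (nat_lit 858) (nat_lit 0) (nat_lit 0) (XT.nd (nat_lit 390) (nat_lit 0) (nat_lit 0) (XT.nd (nat_lit 156) (nat_lit 0) (nat_lit 0) (XT.nd (nat_lit 78) (nat_lit 0) (nat_lit 0) (XT.lf (nat_lit 0) (nat_lit 21545381646) (nat_lit 76) (nat_lit 173150544301) (nat_lit 76) (nat_lit 172932521957) (nat_lit 1) (nat_lit 4) (nat_lit 2) (nat_lit 5) (nat_lit 2) (nat_lit 4) (nat_lit 420) (nat_lit 242) (nat_lit 238)) (XT.lf (nat_lit 0) (nat_lit 25599991607) (nat_lit 76) (nat_lit 180299626065) (nat_lit 76) (nat_lit 180033428708) (nat_lit 1) (nat_lit 4) (nat_lit 2) (nat_lit 5) (nat_lit 2) (nat_lit 4) (nat_lit 421) (nat_lit 242) (nat_lit 237))) (XT.nd (nat_lit 78) (nat_lit 0) (nat_lit 0) (XT.lf (nat_lit 0) (nat_lit 29769953660) (nat_lit 76) (nat_lit 187848627028) (nat_lit 76) (nat_lit 187536548706) (nat_lit 1) (nat_lit 4) (nat_lit 2) (nat_lit 5) (nat_lit 2) (nat_lit 4) (nat_lit 422) (nat_lit 242) (nat_lit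 236)) (XT.nd (nat_lit 78) (nat_lit 0) (nat_lit 0) (XT.lf (nat_lit 0) (nat_lit 34065196287) (nat_lit 76) (nat_lit 195815521001) (nat_lit 76) (nat_lit 195459746522) (nat_lit 1) (nat_lit 4) (nat_lit 2) (nat_lit 5) (nat_lit 2) (nat_lit 4) (nat_lit 423) (nat_lit 242) (nat_lit 235)) (XT.lf (nat_lit 0) (nat_lit 38495946254) (nat_lit 76) (nat_lit 204219276778) (nat_lit 76) (nat_lit 203821886912) (nat_lit 1) (nat_lit 4) (nat_lit 2) (nat_lit 5) (nat_lit 2) (nat_lit 4) (nat_lit 424) (nat_lit 242) (nat_lit 234))))) (XT.nd (nat_lit 234) (nat_lit 0) (nat_lit 0) (XT.nd (nat_lit 78) (nat_lit 0) (nat_lit 0) (XT.lf (nat_lit 0) (nat_lit 43072752967) (nat_lit 76) (nat_lit 213079903304) (nat_lit 76) (nat_lit 212642879736) (nat_lit 1) (nat_lit 4) (nat_lit 2) (nat_lit 5) (nat_lit 2) (nat_lit 4) (nat_lit 425) (nat_lit 242) (nat_lit 233)) (XT.nd (nat_lit 78) (nat_lit 0) (nat_lit 0) (XT.lf (nat_lit 0) (nat_lit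 47806513585) (nat_lit 76) (nat_lit 222418497307) (nat_lit 76) (nat_lit 221943727355) (nat_lit 1) (nat_lit 4) (nat_lit 2) (nat_lit 5) (nat_lit 2) (nat_lit 4) (nat_lit 426) (nat_lit 242) (nat_lit 232)) (XT.lf (nat_lit 0) (nat_lit 52708498967) (nat_lit 76) (nat_lit 232257293535) (nat_lit 76) (nat_lit 231746574647) (nat_lit 1) (nat_lit 4) (nat_lit 2) (nat_lit 5) (nat_lit 2) (nat_lit 4) (nat_lit 427) (nat_lit 242) (nat_lit 231)))) (XT.nd (nat_lit 78) (nat_lit 0) (nat_lit 0) (XT.lf (nat_lit 0) (nat_lit 57790380505) (nat_lit 76) (nat_lit 242619717694) (nat_lit 76) (nat_lit 242074761723) (nat_lit 1) (nat_lit 4) (nat_lit 2) (nat_lit 5) (nat_lit 2) (nat_lit 4) (nat_lit 428) (nat_lit 242) (nat_lit 230)) (XT.nd (nat_lit 78) (nat_lit 0) (nat_lit 0) (XT.lf (nat_lit 0) (nat_lit 63064257919) (nat_lit 76) (nat_lit 253530442221) (nat_lit 76) (nat_lit 252952879506) (nat_lit 1) (nat_lit 4) (nat_lit 2) (nat_lit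 5) (nat_lit 2) (nat_lit 4) (nat_lit 429) (nat_lit 242) (nat_lit 229)) (XT.lf (nat_lit 0) (nat_lit 68542688058) (nat_lit 76) (nat_lit 265015445033) (nat_lit 76) (nat_lit 264406828275) (nat_lit 1) (nat_lit 4) (nat_lit 2) (nat_lit 5) (nat_lit 2) (nat_lit 4) (nat_lit 430) (nat_lit 242) (nat_lit 228)))))) (XT.nd (nat_lit 468) (nat_lit 0) (nat_lit 0) (XT.nd (nat_lit 234) (nat_lit 0) (nat_lit 0) (XT.nd (nat_lit 78) (nat_lit 0) (nat_lit 0) (XT.lf (nat_lit 0) (nat_lit 74238714805) (nat_lit 76) (nat_lit 277102071374) (nat_lit 76) (nat_lit 276463879337) (nat_lit 1) (nat_lit 4) (nat_lit 2) (nat_lit 5) (nat_lit 2) (nat_lit 4) (nat_lit 431) (nat_lit 242) (nat_lit 227)) (XT.nd (nat_lit 78) (nat_lit 0) (nat_lit 0) (XT.lf (nat_lit 0) (nat_lit 80165900128) (nat_lit 76) (nat_lit 289819098926) (nat_lit 76) (nat_lit 289152739956) (nat_lit 1) (nat_lit 4) (nat_lit 2) (nat_lit 5) (nat_lit 2) (nat_lit 4) (nat_lit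 432) (nat_lit 242) (nat_lit 226)) (XT.lf (nat_lit 0) (nat_lit 86338356373) (nat_lit 76) (nat_lit 303196806326) (nat_lit 76) (nat_lit 302503621706) (nat_lit 1) (nat_lit 4) (nat_lit 2) (nat_lit 5) (nat_lit 2) (nat_lit 4) (nat_lit 433) (nat_lit 242) (nat_lit 225)))) (XT.nd (nat_lit 78) (nat_lit 0) (nat_lit 0) (XT.lf (nat_lit 0) (nat_lit 92770779864) (nat_lit 76) (nat_lit 317267045258) (nat_lit 76) (nat_lit 316548312401) (nat_lit 1) (nat_lit 4) (nat_lit 2) (nat_lit 5) (nat_lit 2) (nat_lit 4) (nat_lit 434) (nat_lit 242) (nat_lit 224)) (XT.nd (nat_lit 78) (nat_lit 0) (nat_lit 0) (XT.lf (nat_lit 0) (nat_lit 99478485895) (nat_lit 76) (nat_lit 332063316291) (nat_lit 76) (nat_lit 331320251779) (nat_lit 1) (nat_lit 4) (nat_lit 2) (nat_lit 5) (nat_lit 2) (nat_lit 4) (nat_lit 435) (nat_lit 242) (nat_lit 223)) (XT.lf (nat_lit 0) (nat_lit 106477445195) (nat_lit 76) (nat_lit 347620848642) (nat_lit 76)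 (nat_lit 346854611125) (nat_lit 1) (nat_lit 4) (nat_lit 2) (nat_lit 5) (nat_lit 2) (nat_lit 4) (nat_lit 436) (nat_lit 242) (nat_lit 222))))) (XT.nd (nat_lit 45240) (nat_lit 0) (nat_lit 0) (XT.nd (nat_lit 45084) (nat_lit 0) (nat_lit 0) (XT.lf (nat_lit 0) (nat_lit 113784321953) (nat_lit 76) (nat_lit 363976684055) (nat_lit 76) (nat_lit 363188377009) (nat_lit 1) (nat_lit 4) (nat_lit 2) (nat_lit 5) (nat_lit 2) (nat_lit 4) (nat_lit 437) (nat_lit 242) (nat_lit 221)) (XT.nd (nat_lit 78) (nat_lit 76) (nat_lit 0) (XT.lf (nat_lit 0) (nat_lit 68491253651) (nat_lit 152) (nat_lit 400266147) (nat_lit 0) (nat_lit 68491253651) (nat_lit 2) (nat_lit 5) (nat_lit 4) (nat_lit 4) (nat_lit 2) (nat_lit 4) (nat_lit 414) (nat_lit 243) (nat_lit 243)) (XT.lf (nat_lit 0) (nat_lit 2673070907) (nat_lit 76) (nat_lit 142900768624) (nat_lit 76) (nat_lit 142839283743) (nat_lit 1) (nat_lit 4) (nat_lit 2) (nat_lit 5) (nat_lit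 2) (nat_lit 4) (nat_lit 415) (nat_lit 243) (nat_lit 242)))) (XT.nd (nat_lit 78) (nat_lit 0) (nat_lit 0) (XT.lf (nat_lit 0) (nat_lit 6236627493) (nat_lit 76) (nat_lit 148314346268) (nat_lit 76) (nat_lit 148194304358) (nat_lit 1) (nat_lit 4) (nat_lit 2) (nat_lit 5) (nat_lit 2) (nat_lit 4) (nat_lit 416) (nat_lit 243) (nat_lit 241)) (XT.nd (nat_lit 78) (nat_lit 0) (nat_lit 0) (XT.lf (nat_lit 0) (nat_lit 9872152911) (nat_lit 76) (nat_lit 154050219401) (nat_lit 76) (nat_lit 153874408891) (nat_lit 1) (nat_lit 4) (nat_lit 2) (nat_lit 5) (nat_lit 2) (nat_lit 4) (nat_lit 417) (nat_lit 243) (nat_lit 240)) (XT.lf (nat_lit 0) (nat_lit 13588303172) (nat_lit 76) (nat_lit 160122044864) (nat_lit 76) (nat_lit 159893121402) (nat_lit 1) (nat_lit 4) (nat_lit 2) (nat_lit 5) (nat_lit 2) (nat_lit 4) (nat_lit 418) (nat_lit 243) (nat_lit 239))))))))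
noncomputable def xc3 : XT := (XT.nd (nat_lit 46644) (nat_lit 0) (nat_lit 0) (XT.nd (nat_lit 858) (nat_lit 0) (nat_lit 0) (XT.nd (nat_lit 390) (nat_lit 0) (nat_lit 0) (XT.nd (nat_lit 156) (nat_lit 0) (nat_lit 0) (XT.nd (nat_lit 78) (nat_lit 0) (nat_lit 0) (XT.lf (nat_lit 0) (nat_lit 17393926253) (nat_lit 76) (nat_lit 166544279383) (nat_lit 76) (nat_lit 166264772159) (nat_lit 1) (nat_lit 4) (nat_lit 2) (nat_lit 5) (nat_lit 2) (nat_lit 4) (nat_lit 419) (nat_lit 243) (nat_lit 238)) (XT.lf (nat_lit 0) (nat_lit 21298083162) (nat_lit 76) (nat_lit 173332213995) (nat_lit 76) (nat_lit 173004531757) (nat_lit 1) (nat_lit 4) (nat_lit 2) (nat_lit 5) (nat_lit 2) (nat_lit 4) (nat_lit 420) (nat_lit 243) (nat_lit 237))) (XT.nd (nat_lit 78) (nat_lit 0) (nat_lit 0) (XT.lf (nat_lit 0) (nat_lit 25310069510) (nat_lit 76) (nat_lit 180502010447) (nat_lit 76) (nat_lit 180128447244) (nat_lit 1) (nat_lit 4) (nat_lit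 2) (nat_lit 5) (nat_lit 2) (nat_lit 4) (nat_lit 421) (nat_lit 243) (nat_lit 236)) (XT.nd (nat_lit 78) (nat_lit 0) (nat_lit 0) (XT.lf (nat_lit 0) (nat_lit 29439437646) (nat_lit 76) (nat_lit 188070739684) (nat_lit 76) (nat_lit 187653480324) (nat_lit 1) (nat_lit 4) (nat_lit 2) (nat_lit 5) (nat_lit 2) (nat_lit 4) (nat_lit 422) (nat_lit 243) (nat_lit 235)) (XT.lf (nat_lit 0) (nat_lit 33696019399) (nat_lit 76) (nat_lit 196056422489) (nat_lit 76) (nat_lit 195597547742) (nat_lit 1) (nat_lit 4) (nat_lit 2) (nat_lit 5) (nat_lit 2) (nat_lit 4) (nat_lit 423) (nat_lit 243) (nat_lit 234))))) (XT.nd (nat_lit 234) (nat_lit 0) (nat_lit 0) (XT.nd (nat_lit 78) (nat_lit 0) (nat_lit 0) (XT.lf (nat_lit 0) (nat_lit 38089949487) (nat_lit 76) (nat_lit 204478072393) (nat_lit 76) (nat_lit 203979563944) (nat_lit 1) (nat_lit 4) (nat_lit 2) (nat_lit 5) (nat_lit 2) (nat_lit 4) (nat_lit 424) (nat_lit 243) (nat_lit 233))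 (XT.nd (nat_lit 78) (nat_lit 0) (nat_lit 0) (XT.lf (nat_lit 0) (nat_lit 42631689649) (nat_lit 76) (nat_lit 213355740943) (nat_lit 76) (nat_lit 212819486111) (nat_lit 1) (nat_lit 4) (nat_lit 2) (nat_lit 5) (nat_lit 2) (nat_lit 4) (nat_lit 425) (nat_lit 243) (nat_lit 232)) (XT.lf (nat_lit 0) (nat_lit 47332053551) (nat_lit 76) (nat_lit 222710565446) (nat_lit 76) (nat_lit 222138361678) (nat_lit 1) (nat_lit 4) (nat_lit 2) (nat_lit 5) (nat_lit 2) (nat_lit 4) (nat_lit 426) (nat_lit 243) (nat_lit 231)))) (XT.nd (nat_lit 78) (nat_lit 0) (nat_lit 0) (XT.lf (nat_lit 0) (nat_lit 52202232536) (nat_lit 76) (nat_lit 232564819294) (nat_lit 76) (nat_lit 231958378442) (nat_lit 1) (nat_lit 4) (nat_lit 2) (nat_lit 5) (nat_lit 2) (nat_lit 4) (nat_lit 427) (nat_lit 243) (nat_lit 230)) (XT.nd (nat_lit 78) (nat_lit 0) (nat_lit 0) (XT.lf (nat_lit 0) (nat_lit 57253822269) (nat_lit 76) (nat_lit 242941964994) (nat_lit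 76) (nat_lit 242302917398) (nat_lit 1) (nat_lit 4) (nat_lit 2) (nat_lit 5) (nat_lit 2) (nat_lit 4) (nat_lit 428) (nat_lit 243) (nat_lit 229)) (XT.lf (nat_lit 0) (nat_lit 62498850344) (nat_lit 76) (nat_lit 253866710038) (nat_lit 76) (nat_lit 253196608398) (nat_lit 1) (nat_lit 4) (nat_lit 2) (nat_lit 5) (nat_lit 2) (nat_lit 4) (nat_lit 429) (nat_lit 243) (nat_lit 228)))))) (XT.nd (nat_lit 468) (nat_lit 0) (nat_lit 0) (XT.nd (nat_lit 234) (nat_lit 0) (nat_lit 0) (XT.nd (nat_lit 78) (nat_lit 0) (nat_lit 0) (XT.lf (nat_lit 0) (nat_lit 67949804923) (nat_lit 76) (nat_lit 265365065722) (nat_lit 76) (nat_lit 264665388804) (nat_lit 1) (nat_lit 4) (nat_lit 2) (nat_lit 5) (nat_lit 2) (nat_lit 4) (nat_lit 430) (nat_lit 243) (nat_lit 227)) (XT.nd (nat_lit 78) (nat_lit 0) (nat_lit 0) (XT.lf (nat_lit 0) (nat_lit 73619664469) (nat_lit 76) (nat_lit 277464409084) (nat_lit 76) (nat_lit 276736565234) (nat_lit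 1) (nat_lit 4) (nat_lit 2) (nat_lit 5) (nat_lit 2) (nat_lit 4) (nat_lit 431) (nat_lit 243) (nat_lit 226)) (XT.lf (nat_lit 0) (nat_lit 79521928648) (nat_lit 76) (nat_lit 290193548085) (nat_lit 76) (nat_lit 289438878585) (nat_lit 1) (nat_lit 4) (nat_lit 2) (nat_lit 5) (nat_lit 2) (nat_lit 4) (nat_lit 432) (nat_lit 243) (nat_lit 225)))) (XT.nd (nat_lit 78) (nat_lit 0) (nat_lit 0) (XT.lf (nat_lit 0) (nat_lit 85670650470) (nat_lit 76) (nat_lit 303582790198) (nat_lit 76) (nat_lit 302802572460) (nat_lit 1) (nat_lit 4) (nat_lit 2) (nat_lit 5) (nat_lit 2) (nat_lit 4) (nat_lit 433) (nat_lit 243) (nat_lit 224)) (XT.nd (nat_lit 78) (nat_lit 0) (nat_lit 0) (XT.lf (nat_lit 0) (nat_lit 92080469749) (nat_lit 76) (nat_lit 317664014572) (nat_lit 76) (nat_lit 316859465178) (nat_lit 1) (nat_lit 4) (nat_lit 2) (nat_lit 5) (nat_lit 2) (nat_lit 4) (nat_lit 434) (nat_lit 243) (nat_lit 223)) (XT.lf (nat_lit 0)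 (nat_lit 98766647960) (nat_lit 76) (nat_lit 332470747930) (nat_lit 76) (nat_lit 331643025532) (nat_lit 1) (nat_lit 4) (nat_lit 2) (nat_lit 5) (nat_lit 2) (nat_lit 4) (nat_lit 435) (nat_lit 243) (nat_lit 222))))) (XT.nd (nat_lit 45084) (nat_lit 0) (nat_lit 0) (XT.nd (nat_lit 78) (nat_lit 0) (nat_lit 0) (XT.lf (nat_lit 0) (nat_lit 105745104573) (nat_lit 76) (nat_lit 348038244400) (nat_lit 76) (nat_lit 347188452474) (nat_lit 1) (nat_lit 4) (nat_lit 2) (nat_lit 5) (nat_lit 2) (nat_lit 4) (nat_lit 436) (nat_lit 243) (nat_lit 221)) (XT.nd (nat_lit 44928) (nat_lit 0) (nat_lit 76) (XT.lf (nat_lit 0) (nat_lit 113032454963) (nat_lit 76) (nat_lit 364403569450) (nat_lit 76) (nat_lit 363532758925) (nat_lit 1) (nat_lit 4) (nat_lit 2) (nat_lit 5) (nat_lit 2) (nat_lit 4) (nat_lit 437) (nat_lit 243) (nat_lit 220)) (XT.lf (nat_lit 0) (nat_lit 60506435615) (nat_lit 152) (nat_lit 3683177918) (nat_lit 0) (nat_lit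 60506435615) (nat_lit 2) (nat_lit 5) (nat_lit 4) (nat_lit 4) (nat_lit 2) (nat_lit 4) (nat_lit 412) (nat_lit 244) (nat_lit 244)))) (XT.nd (nat_lit 78) (nat_lit 76) (nat_lit 0) (XT.lf (nat_lit 0) (nat_lit 128849011165) (nat_lit 152) (nat_lit 4135195032) (nat_lit 0) (nat_lit 128784452040) (nat_lit 2) (nat_lit 5) (nat_lit 4) (nat_lit 4) (nat_lit 2) (nat_lit 4) (nat_lit 413) (nat_lit 244) (nat_lit 243)) (XT.nd (nat_lit 78) (nat_lit 76) (nat_lit 0) (XT.lf (nat_lit 0) (nat_lit 137018598171) (nat_lit 152) (nat_lit 855823824) (nat_lit 0) (nat_lit 136892554165) (nat_lit 2) (nat_lit 5) (nat_lit 4) (nat_lit 4) (nat_lit 2) (nat_lit 4) (nat_lit 414) (nat_lit 244) (nat_lit 242)) (XT.lf (nat_lit 0) (nat_lit 2561551458) (nat_lit 76) (nat_lit 143019525186) (nat_lit 76) (nat_lit 142834924151) (nat_lit 1) (nat_lit 4) (nat_lit 2) (nat_lit 5) (nat_lit 2) (nat_lit 4) (nat_lit 415) (nat_lit 244) (nat_lit 241)))))))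 (XT.nd (nat_lit 858) (nat_lit 0) (nat_lit 0) (XT.nd (nat_lit 390) (nat_lit 0) (nat_lit 0) (XT.nd (nat_lit 156) (nat_lit 0) (nat_lit 0) (XT.nd (nat_lit 78) (nat_lit 0) (nat_lit 0) (XT.lf (nat_lit 0) (nat_lit 6073298777) (nat_lit 76) (nat_lit 148458281662) (nat_lit 76) (nat_lit 148217912028) (nat_lit 1) (nat_lit 4) (nat_lit 2) (nat_lit 5) (nat_lit 2) (nat_lit 4) (nat_lit 416) (nat_lit 244) (nat_lit 240)) (XT.lf (nat_lit 0) (nat_lit 9659482035) (nat_lit 76) (nat_lit 154218134636) (nat_lit 76) (nat_lit 153924652050) (nat_lit 1) (nat_lit 4) (nat_lit 2) (nat_lit 5) (nat_lit 2) (nat_lit 4) (nat_lit 417) (nat_lit 244) (nat_lit 239))) (XT.nd (nat_lit 78) (nat_lit 0) (nat_lit 0) (XT.lf (nat_lit 0) (nat_lit 13328639763) (nat_lit 76) (nat_lit 160312798042) (nat_lit 76) (nat_lit 159968731692) (nat_lit 1) (nat_lit 4) (nat_lit 2) (nat_lit 5) (nat_lit 2) (nat_lit 4) (nat_lit 418) (nat_lit 244) (nat_lit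 238)) (XT.nd (nat_lit 78) (nat_lit 0) (nat_lit 0) (XT.lf (nat_lit 0) (nat_lit 17089508050) (nat_lit 76) (nat_lit 166756782984) (nat_lit 76) (nat_lit 166364541621) (nat_lit 1) (nat_lit 4) (nat_lit 2) (nat_lit 5) (nat_lit 2) (nat_lit 4) (nat_lit 419) (nat_lit 244) (nat_lit 237)) (XT.lf (nat_lit 0) (nat_lit 20951041347) (nat_lit 76) (nat_lit 173565432283) (nat_lit 76) (nat_lit 173127309956) (nat_lit 1) (nat_lit 4) (nat_lit 2) (nat_lit 5) (nat_lit 2) (nat_lit 4) (nat_lit 420) (nat_lit 244) (nat_lit 236))))) (XT.nd (nat_lit 234) (nat_lit 0) (nat_lit 0) (XT.nd (nat_lit 78) (nat_lit 0) (nat_lit 0) (XT.lf (nat_lit 0) (nat_lit 24922433778) (nat_lit 76) (nat_lit 180754957009) (nat_lit 76) (nat_lit 180273138525) (nat_lit 1) (nat_lit 4) (nat_lit 2) (nat_lit 5) (nat_lit 2) (nat_lit 4) (nat_lit 421) (nat_lit 244) (nat_lit 235)) (XT.nd (nat_lit 78) (nat_lit 0) (nat_lit 0) (XT.lf (nat_lit 0) (nat_lit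 29013141041) (nat_lit 76) (nat_lit 188342475079) (nat_lit 76) (nat_lit 187819041207) (nat_lit 1) (nat_lit 4) (nat_lit 2) (nat_lit 5) (nat_lit 2) (nat_lit 4) (nat_lit 422) (nat_lit 244) (nat_lit 234)) (XT.lf (nat_lit 0) (nat_lit 33232902915) (nat_lit 76) (nat_lit 196346052010) (nat_lit 76) (nat_lit 195782984436) (nat_lit 1) (nat_lit 4) (nat_lit 2) (nat_lit 5) (nat_lit 2) (nat_lit 4) (nat_lit 423) (nat_lit 244) (nat_lit 233)))) (XT.nd (nat_lit 78) (nat_lit 0) (nat_lit 0) (XT.lf (nat_lit 0) (nat_lit 37591766451) (nat_lit 76) (nat_lit 204784743939) (nat_lit 76) (nat_lit 204183929982) (nat_lit 1) (nat_lit 4) (nat_lit 2) (nat_lit 5) (nat_lit 2) (nat_lit 4) (nat_lit 424) (nat_lit 244) (nat_lit 232)) (XT.nd (nat_lit 78) (nat_lit 0) (nat_lit 0) (XT.lf (nat_lit 0) (nat_lit 42100109897) (nat_lit 76) (nat_lit 213678642990) (nat_lit 76) (nat_lit 213041880096) (nat_lit 1) (nat_lit 4) (nat_lit 2) (nat_lit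 5) (nat_lit 2) (nat_lit 4) (nat_lit 425) (nat_lit 244) (nat_lit 231)) (XT.lf (nat_lit 0) (nat_lit 46768667403) (nat_lit 76) (nat_lit 223048925112) (nat_lit 76) (nat_lit 222377925136) (nat_lit 1) (nat_lit 4) (nat_lit 2) (nat_lit 5) (nat_lit 2) (nat_lit 4) (nat_lit 426) (nat_lit 244) (nat_lit 230)))))) (XT.nd (nat_lit 468) (nat_lit 0) (nat_lit 0) (XT.nd (nat_lit 234) (nat_lit 0) (nat_lit 0) (XT.nd (nat_lit 78) (nat_lit 0) (nat_lit 0) (XT.lf (nat_lit 0) (nat_lit 51608554583) (nat_lit 76) (nat_lit 232917900501) (nat_lit 76) (nat_lit 232214293780) (nat_lit 1) (nat_lit 4) (nat_lit 2) (nat_lit 5) (nat_lit 2) (nat_lit 4) (nat_lit 427) (nat_lit 244) (nat_lit 229)) (XT.nd (nat_lit 78) (nat_lit 0) (nat_lit 0) (XT.lf (nat_lit 0) (nat_lit 56631294976) (nat_lit 76) (nat_lit 243309066717) (nat_lit 76) (nat_lit 242574405953) (nat_lit 1) (nat_lit 4) (nat_lit 2) (nat_lit 5) (nat_lit 2) (nat_lit 4) (nat_lit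 428) (nat_lit 244) (nat_lit 228)) (XT.lf (nat_lit 0) (nat_lit 61848847490) (nat_lit 76) (nat_lit 254247164633) (nat_lit 76) (nat_lit 253482928590) (nat_lit 1) (nat_lit 4) (nat_lit 2) (nat_lit 5) (nat_lit 2) (nat_lit 4) (nat_lit 429) (nat_lit 244) (nat_lit 227)))) (XT.nd (nat_lit 78) (nat_lit 0) (nat_lit 0) (XT.lf (nat_lit 0) (nat_lit 67273634869) (nat_lit 76) (nat_lit 265758237339) (nat_lit 76) (nat_lit 264965834364) (nat_lit 1) (nat_lit 4) (nat_lit 2) (nat_lit 5) (nat_lit 2) (nat_lit 4) (nat_lit 430) (nat_lit 244) (nat_lit 226)) (XT.nd (nat_lit 78) (nat_lit 0) (nat_lit 0) (XT.lf (nat_lit 0) (nat_lit 72918573271) (nat_lit 76) (nat_lit 277869692150) (nat_lit 76) (nat_lit 277050463525) (nat_lit 1) (nat_lit 4) (nat_lit 2) (nat_lit 5) (nat_lit 2) (nat_lit 4) (nat_lit 431) (nat_lit 244) (nat_lit 225)) (XT.lf (nat_lit 0) (nat_lit 78797103028) (nat_lit 76) (nat_lit 290610365865) (nat_lit 76)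 (nat_lit 289765589002) (nat_lit 1) (nat_lit 4) (nat_lit 2) (nat_lit 5) (nat_lit 2) (nat_lit 4) (nat_lit 432) (nat_lit 244) (nat_lit 224))))) (XT.nd (nat_lit 234) (nat_lit 0) (nat_lit 0) (XT.nd (nat_lit 78) (nat_lit 0) (nat_lit 0) (XT.lf (nat_lit 0) (nat_lit 84923220639) (nat_lit 76) (nat_lit 304010593419) (nat_lit 76) (nat_lit 303141484901) (nat_lit 1) (nat_lit 4) (nat_lit 2) (nat_lit 5) (nat_lit 2) (nat_lit 4) (nat_lit 433) (nat_lit 244) (nat_lit 223)) (XT.nd (nat_lit 78) (nat_lit 0) (nat_lit 0) (XT.lf (nat_lit 0) (nat_lit 91311512097) (nat_lit 76) (nat_lit 318102280117) (nat_lit 76) (nat_lit 317209998594) (nat_lit 1) (nat_lit 4) (nat_lit 2) (nat_lit 5) (nat_lit 2) (nat_lit 4) (nat_lit 434) (nat_lit 244) (nat_lit 222)) (XT.lf (nat_lit 0) (nat_lit 97977187620) (nat_lit 76) (nat_lit 332918977595) (nat_lit 76) (nat_lit 332004626543) (nat_lit 1) (nat_lit 4) (nat_lit 2) (nat_lit 5) (nat_lit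 2) (nat_lit 4) (nat_lit 435) (nat_lit 244) (nat_lit 221)))) (XT.nd (nat_lit 78) (nat_lit 0) (nat_lit 0) (XT.lf (nat_lit 0) (nat_lit 104936117866) (nat_lit 76) (nat_lit 348495963702) (nat_lit 76) (nat_lit 347560594052) (nat_lit 1) (nat_lit 4) (nat_lit 2) (nat_lit 5) (nat_lit 2) (nat_lit 4) (nat_lit 436) (nat_lit 244) (nat_lit 220)) (XT.nd (nat_lit 44772) (nat_lit 0) (nat_lit 76) (XT.lf (nat_lit 0) (nat_lit 112204871714) (nat_lit 76) (nat_lit 364870326502) (nat_lit 76) (nat_lit 363914939139) (nat_lit 1) (nat_lit 4) (nat_lit 2) (nat_lit 5) (nat_lit 2) (nat_lit 4) (nat_lit 437) (nat_lit 244) (nat_lit 219)) (XT.lf (nat_lit 0) (nat_lit 53183112753) (nat_lit 152) (nat_lit 6826881906) (nat_lit 0) (nat_lit 53183112753) (nat_lit 2) (nat_lit 5) (nat_lit 4) (nat_lit 4) (nat_lit 2) (nat_lit 4) (nat_lit 410) (nat_lit 245) (nat_lit 245))))))))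
noncomputable def xc4 : XT := (XT.nd (nat_lit 1716) (nat_lit 0) (nat_lit 0) (XT.nd (nat_lit 858) (nat_lit 0) (nat_lit 0) (XT.nd (nat_lit 390) (nat_lit 0) (nat_lit 0) (XT.nd (nat_lit 156) (nat_lit 76) (nat_lit 0) (XT.nd (nat_lit 78) (nat_lit 0) (nat_lit 0) (XT.lf (nat_lit 0) (nat_lit 113559307974) (nat_lit 152) (nat_lit 10556999477) (nat_lit 0) (nat_lit 113491520893) (nat_lit 2) (nat_lit 5) (nat_lit 4) (nat_lit 4) (nat_lit 2) (nat_lit 4) (nat_lit 411) (nat_lit 245) (nat_lit 244)) (XT.lf (nat_lit 0) (nat_lit 121050766643) (nat_lit 152) (nat_lit 7424411943) (nat_lit 0) (nat_lit 120918420437) (nat_lit 2) (nat_lit 5) (nat_lit 4) (nat_lit 4) (nat_lit 2) (nat_lit 4) (nat_lit 412) (nat_lit 245) (nat_lit 243))) (XT.nd (nat_lit 78) (nat_lit 76) (nat_lit 0) (XT.lf (nat_lit 0) (nat_lit 128858438321) (nat_lit 152) (nat_lit 4248542668) (nat_lit 0) (nat_lit 128664607234) (nat_lit 2) (nat_lit 5) (nat_lit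 4) (nat_lit 4) (nat_lit 2) (nat_lit 4) (nat_lit 413) (nat_lit 245) (nat_lit 242)) (XT.nd (nat_lit 78) (nat_lit 76) (nat_lit 0) (XT.lf (nat_lit 0) (nat_lit 137000912703) (nat_lit 152) (nat_lit 1021830060) (nat_lit 0) (nat_lit 136748524587) (nat_lit 2) (nat_lit 5) (nat_lit 4) (nat_lit 4) (nat_lit 2) (nat_lit 4) (nat_lit 414) (nat_lit 245) (nat_lit 241)) (XT.lf (nat_lit 0) (nat_lit 2338247038) (nat_lit 76) (nat_lit 143195836182) (nat_lit 76) (nat_lit 142887679467) (nat_lit 1) (nat_lit 4) (nat_lit 2) (nat_lit 5) (nat_lit 2) (nat_lit 4) (nat_lit 415) (nat_lit 245) (nat_lit 240))))) (XT.nd (nat_lit 234) (nat_lit 0) (nat_lit 0) (XT.nd (nat_lit 78) (nat_lit 0) (nat_lit 0) (XT.lf (nat_lit 0) (nat_lit 5800652198) (nat_lit 76) (nat_lit 148658572500) (nat_lit 76) (nat_lit 148297302832) (nat_lit 1) (nat_lit 4) (nat_lit 2) (nat_lit 5) (nat_lit 2) (nat_lit 4) (nat_lit 416) (nat_lit 245) (nat_lit 239))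 (XT.nd (nat_lit 78) (nat_lit 0) (nat_lit 0) (XT.lf (nat_lit 0) (nat_lit 9339842922) (nat_lit 76) (nat_lit 154441263416) (nat_lit 76) (nat_lit 154029409986) (nat_lit 1) (nat_lit 4) (nat_lit 2) (nat_lit 5) (nat_lit 2) (nat_lit 4) (nat_lit 417) (nat_lit 245) (nat_lit 238)) (XT.lf (nat_lit 0) (nat_lit 12964245857) (nat_lit 76) (nat_lit 160557677245) (nat_lit 76) (nat_lit 160097648801) (nat_lit 1) (nat_lit 4) (nat_lit 2) (nat_lit 5) (nat_lit 2) (nat_lit 4) (nat_lit 418) (nat_lit 245) (nat_lit 237)))) (XT.nd (nat_lit 78) (nat_lit 0) (nat_lit 0) (XT.lf (nat_lit 0) (nat_lit 16682490532) (nat_lit 76) (nat_lit 167022376875) (nat_lit 76) (nat_lit 166516467466) (nat_lit 1) (nat_lit 4) (nat_lit 2) (nat_lit 5) (nat_lit 2) (nat_lit 4) (nat_lit 419) (nat_lit 245) (nat_lit 236)) (XT.nd (nat_lit 78) (nat_lit 0) (nat_lit 0) (XT.lf (nat_lit 0) (nat_lit 20503429911) (nat_lit 76) (nat_lit 173850754448) (nat_lit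 76) (nat_lit 173301148883) (nat_lit 1) (nat_lit 4) (nat_lit 2) (nat_lit 5) (nat_lit 2) (nat_lit 4) (nat_lit 420) (nat_lit 245) (nat_lit 235)) (XT.lf (nat_lit 0) (nat_lit 24436161470) (nat_lit 76) (nat_lit 181059068007) (nat_lit 76) (nat_lit 180467847054) (nat_lit 1) (nat_lit 4) (nat_lit 2) (nat_lit 5) (nat_lit 2) (nat_lit 4) (nat_lit 421) (nat_lit 245) (nat_lit 234)))))) (XT.nd (nat_lit 390) (nat_lit 0) (nat_lit 0) (XT.nd (nat_lit 156) (nat_lit 0) (nat_lit 0) (XT.nd (nat_lit 78) (nat_lit 0) (nat_lit 0) (XT.lf (nat_lit 0) (nat_lit 28490048853) (nat_lit 76) (nat_lit 188664480202) (nat_lit 76) (nat_lit 188033625547) (nat_lit 1) (nat_lit 4) (nat_lit 2) (nat_lit 5) (nat_lit 2) (nat_lit 4) (nat_lit 422) (nat_lit 245) (nat_lit 233)) (XT.lf (nat_lit 0) (nat_lit 32674744175) (nat_lit 76) (nat_lit 196685099159) (nat_lit 76) (nat_lit 196016498120) (nat_lit 1) (nat_lit 4) (nat_lit 2) (nat_lit 5) (nat_lit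 2) (nat_lit 4) (nat_lit 423) (nat_lit 245) (nat_lit 232))) (XT.nd (nat_lit 78) (nat_lit 0) (nat_lit 0) (XT.lf (nat_lit 0) (nat_lit 37000210996) (nat_lit 76) (nat_lit 205140021588) (nat_lit 76) (nat_lit 204435471613) (nat_lit 1) (nat_lit 4) (nat_lit 2) (nat_lit 5) (nat_lit 2) (nat_lit 4) (nat_lit 424) (nat_lit 245) (nat_lit 231)) (XT.nd (nat_lit 78) (nat_lit 0) (nat_lit 0) (XT.lf (nat_lit 0) (nat_lit 41476748046) (nat_lit 76) (nat_lit 214049378257) (nat_lit 76) (nat_lit 213310591200) (nat_lit 1) (nat_lit 4) (nat_lit 2) (nat_lit 5) (nat_lit 2) (nat_lit 4) (nat_lit 425) (nat_lit 245) (nat_lit 230)) (XT.lf (nat_lit 0) (nat_lit 46115013746) (nat_lit 76) (nat_lit 223434381921) (nat_lit 76) (nat_lit 222662988119) (nat_lit 1) (nat_lit 4) (nat_lit 2) (nat_lit 5) (nat_lit 2) (nat_lit 4) (nat_lit 426) (nat_lit 245) (nat_lit 229))))) (XT.nd (nat_lit 234) (nat_lit 0) (nat_lit 0) (XT.nd (nat_lit 78)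 (nat_lit 0) (nat_lit 0) (XT.lf (nat_lit 0) (nat_lit 50926051587) (nat_lit 76) (nat_lit 233317377826) (nat_lit 76) (nat_lit 232514929981) (nat_lit 1) (nat_lit 4) (nat_lit 2) (nat_lit 5) (nat_lit 2) (nat_lit 4) (nat_lit 427) (nat_lit 245) (nat_lit 228)) (XT.nd (nat_lit 78) (nat_lit 0) (nat_lit 0) (XT.lf (nat_lit 0) (nat_lit 55921316420) (nat_lit 76) (nat_lit 243721896915) (nat_lit 76) (nat_lit 242889873791) (nat_lit 1) (nat_lit 4) (nat_lit 2) (nat_lit 5) (nat_lit 2) (nat_lit 4) (nat_lit 428) (nat_lit 245) (nat_lit 227)) (XT.lf (nat_lit 0) (nat_lit 61112701733) (nat_lit 76) (nat_lit 254672711853) (nat_lit 76) (nat_lit 253812521797) (nat_lit 1) (nat_lit 4) (nat_lit 2) (nat_lit 5) (nat_lit 2) (nat_lit 4) (nat_lit 429) (nat_lit 245) (nat_lit 226)))) (XT.nd (nat_lit 78) (nat_lit 0) (nat_lit 0) (XT.lf (nat_lit 0) (nat_lit 66512567968) (nat_lit 76) (nat_lit 266195896008) (nat_lit 76) (nat_lit 265308880301)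 (nat_lit 1) (nat_lit 4) (nat_lit 2) (nat_lit 5) (nat_lit 2) (nat_lit 4) (nat_lit 430) (nat_lit 245) (nat_lit 225)) (XT.nd (nat_lit 78) (nat_lit 0) (nat_lit 0) (XT.lf (nat_lit 0) (nat_lit 72133771948) (nat_lit 76) (nat_lit 278318885532) (nat_lit 76) (nat_lit 277406321588) (nat_lit 1) (nat_lit 4) (nat_lit 2) (nat_lit 5) (nat_lit 2) (nat_lit 4) (nat_lit 431) (nat_lit 245) (nat_lit 224)) (XT.lf (nat_lit 0) (nat_lit 77989697493) (nat_lit 76) (nat_lit 291070544688) (nat_lit 76) (nat_lit 290133649088) (nat_lit 1) (nat_lit 4) (nat_lit 2) (nat_lit 5) (nat_lit 2) (nat_lit 4) (nat_lit 432) (nat_lit 245) (nat_lit 223))))))) (XT.nd (nat_lit 45474) (nat_lit 0) (nat_lit 0) (XT.nd (nat_lit 45006) (nat_lit 0) (nat_lit 76) (XT.nd (nat_lit 156) (nat_lit 0) (nat_lit 0) (XT.nd (nat_lit 78) (nat_lit 0) (nat_lit 0) (XT.lf (nat_lit 0) (nat_lit 84094287282) (nat_lit 76) (nat_lit 304481234567) (nat_lit 76) (nat_lit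 303521165963) (nat_lit 1) (nat_lit 4) (nat_lit 2) (nat_lit 5) (nat_lit 2) (nat_lit 4) (nat_lit 433) (nat_lit 245) (nat_lit 222)) (XT.lf (nat_lit 0) (nat_lit 90462076054) (nat_lit 76) (nat_lit 318582885385) (nat_lit 76) (nat_lit 317600747252) (nat_lit 1) (nat_lit 4) (nat_lit 2) (nat_lit 5) (nat_lit 2) (nat_lit 4) (nat_lit 434) (nat_lit 245) (nat_lit 221))) (XT.nd (nat_lit 78) (nat_lit 0) (nat_lit 0) (XT.lf (nat_lit 0) (nat_lit 97108225210) (nat_lit 76) (nat_lit 333409072499) (nat_lit 76) (nat_lit 332405915768) (nat_lit 1) (nat_lit 4) (nat_lit 2) (nat_lit 5) (nat_lit 2) (nat_lit 4) (nat_lit 435) (nat_lit 245) (nat_lit 220)) (XT.nd (nat_lit 44694) (nat_lit 0) (nat_lit 76) (XT.lf (nat_lit 0) (nat_lit 104048558914) (nat_lit 76) (nat_lit 348995096356) (nat_lit 76) (nat_lit 347971921912) (nat_lit 1) (nat_lit 4) (nat_lit 2) (nat_lit 5) (nat_lit 2) (nat_lit 4) (nat_lit 436) (nat_lit 245) (nat_lit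 219)) (XT.lf (nat_lit 0) (nat_lit 46455742638) (nat_lit 152) (nat_lit 9852620643) (nat_lit 0) (nat_lit 46455742638) (nat_lit 2) (nat_lit 5) (nat_lit 4) (nat_lit 4) (nat_lit 2) (nat_lit 4) (nat_lit 408) (nat_lit 246) (nat_lit 246))))) (XT.nd (nat_lit 234) (nat_lit 0) (nat_lit 0) (XT.nd (nat_lit 78) (nat_lit 0) (nat_lit 0) (XT.lf (nat_lit 0) (nat_lit 99525569291) (nat_lit 152) (nat_lit 16722078198) (nat_lit 0) (nat_lit 99454392856) (nat_lit 2) (nat_lit 5) (nat_lit 4) (nat_lit 4) (nat_lit 2) (nat_lit 4) (nat_lit 409) (nat_lit 246) (nat_lit 245)) (XT.nd (nat_lit 78) (nat_lit 0) (nat_lit 0) (XT.lf (nat_lit 0) (nat_lit 106406015690) (nat_lit 152) (nat_lit 13714722724) (nat_lit 0) (nat_lit 106267052174) (nat_lit 2) (nat_lit 5) (nat_lit 4) (nat_lit 4) (nat_lit 2) (nat_lit 4) (nat_lit 410) (nat_lit 246) (nat_lit 244)) (XT.lf (nat_lit 0) (nat_lit 113569206488) (nat_lit 152) (nat_lit 10676014495)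 (nat_lit 0) (nat_lit 113365683847) (nat_lit 2) (nat_lit 5) (nat_lit 4) (nat_lit 4) (nat_lit 2) (nat_lit 4) (nat_lit 411) (nat_lit 246) (nat_lit 243)))) (XT.nd (nat_lit 78) (nat_lit 0) (nat_lit 0) (XT.lf (nat_lit 0) (nat_lit 121032196902) (nat_lit 152) (nat_lit 7598718491) (nat_lit 0) (nat_lit 120767189380) (nat_lit 2) (nat_lit 5) (nat_lit 4) (nat_lit 4) (nat_lit 2) (nat_lit 4) (nat_lit 412) (nat_lit 246) (nat_lit 242)) (XT.nd (nat_lit 78) (nat_lit 0) (nat_lit 0) (XT.lf (nat_lit 0) (nat_lit 128812755955) (nat_lit 152) (nat_lit 4475507816) (nat_lit 0) (nat_lit 128489191404) (nat_lit 2) (nat_lit 5) (nat_lit 4) (nat_lit 4) (nat_lit 2) (nat_lit 4) (nat_lit 413) (nat_lit 246) (nat_lit 241)) (XT.lf (nat_lit 0) (nat_lit 136929408790) (nat_lit 152) (nat_lit 1298946255) (nat_lit 0) (nat_lit 136550075639) (nat_lit 2) (nat_lit 5) (nat_lit 4) (nat_lit 4) (nat_lit 2) (nat_lit 4) (nat_lit 414) (nat_lit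 246) (nat_lit 240)))))) (XT.nd (nat_lit 468) (nat_lit 0) (nat_lit 0) (XT.nd (nat_lit 234) (nat_lit 0) (nat_lit 0) (XT.nd (nat_lit 78) (nat_lit 0) (nat_lit 0) (XT.lf (nat_lit 0) (nat_lit 2002625970) (nat_lit 76) (nat_lit 143430121402) (nat_lit 76) (nat_lit 142997675300) (nat_lit 1) (nat_lit 4) (nat_lit 2) (nat_lit 5) (nat_lit 2) (nat_lit 4) (nat_lit 415) (nat_lit 246) (nat_lit 239)) (XT.nd (nat_lit 78) (nat_lit 0) (nat_lit 0) (XT.lf (nat_lit 0) (nat_lit 5418038597) (nat_lit 76) (nat_lit 148915695663) (nat_lit 76) (nat_lit 148432665797) (nat_lit 1) (nat_lit 4) (nat_lit 2) (nat_lit 5) (nat_lit 2) (nat_lit 4) (nat_lit 416) (nat_lit 246) (nat_lit 238)) (XT.lf (nat_lit 0) (nat_lit 8912474528) (nat_lit 76) (nat_lit 154720137002) (nat_lit 76) (nat_lit 154188932123) (nat_lit 1) (nat_lit 4) (nat_lit 2) (nat_lit 5) (nat_lit 2) (nat_lit 4) (nat_lit 417) (nat_lit 246) (nat_lit 237)))) (XT.nd (nat_lit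 78) (nat_lit 0) (nat_lit 0) (XT.lf (nat_lit 0) (nat_lit 12494253850) (nat_lit 76) (nat_lit 160857265518) (nat_lit 76) (nat_lit 160280179674) (nat_lit 1) (nat_lit 4) (nat_lit 2) (nat_lit 5) (nat_lit 2) (nat_lit 4) (nat_lit 418) (nat_lit 246) (nat_lit 236)) (XT.nd (nat_lit 78) (nat_lit 0) (nat_lit 0) (XT.lf (nat_lit 0) (nat_lit 16171904608) (nat_lit 76) (nat_lit 167341693422) (nat_lit 76) (nat_lit 166720911422) (nat_lit 1) (nat_lit 4) (nat_lit 2) (nat_lit 5) (nat_lit 2) (nat_lit 4) (nat_lit 419) (nat_lit 246) (nat_lit 235)) (XT.lf (nat_lit 0) (nat_lit 19954183114) (nat_lit 76) (nat_lit 174188859828) (nat_lit 76) (nat_lit 173526462440) (nat_lit 1) (nat_lit 4) (nat_lit 2) (nat_lit 5) (nat_lit 2) (nat_lit 4) (nat_lit 420) (nat_lit 246) (nat_lit 234))))) (XT.nd (nat_lit 234) (nat_lit 0) (nat_lit 0) (XT.nd (nat_lit 78) (nat_lit 0) (nat_lit 0) (XT.lf (nat_lit 0) (nat_lit 23850094793) (nat_lit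 76) (nat_lit 181415067513) (nat_lit 76) (nat_lit 180713036423) (nat_lit 1) (nat_lit 4) (nat_lit 2) (nat_lit 5) (nat_lit 2) (nat_lit 4) (nat_lit 421) (nat_lit 246) (nat_lit 233)) (XT.nd (nat_lit 78) (nat_lit 0) (nat_lit 0) (XT.lf (nat_lit 0) (nat_lit 27868915625) (nat_lit 76) (nat_lit 189037521733) (nat_lit 76) (nat_lit 188297744260) (nat_lit 1) (nat_lit 4) (nat_lit 2) (nat_lit 5) (nat_lit 2) (nat_lit 4) (nat_lit 422) (nat_lit 246) (nat_lit 232)) (XT.lf (nat_lit 0) (nat_lit 32020214231) (nat_lit 76) (nat_lit 197074371190) (nat_lit 76) (nat_lit 196298644780) (nat_lit 1) (nat_lit 4) (nat_lit 2) (nat_lit 5) (nat_lit 2) (nat_lit 4) (nat_lit 423) (nat_lit 246) (nat_lit 231)))) (XT.nd (nat_lit 78) (nat_lit 0) (nat_lit 0) (XT.lf (nat_lit 0) (nat_lit 36313874656) (nat_lit 76) (nat_lit 205544751238) (nat_lit 76) (nat_lit 204734787745) (nat_lit 1) (nat_lit 4) (nat_lit 2) (nat_lit 5) (nat_lit 2) (nat_lit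 4) (nat_lit 424) (nat_lit 246) (nat_lit 230)) (XT.nd (nat_lit 78) (nat_lit 0) (nat_lit 0) (XT.lf (nat_lit 0) (nat_lit 40760119900) (nat_lit 76) (nat_lit 214468829449) (nat_lit 76) (nat_lit 213626259212) (nat_lit 1) (nat_lit 4) (nat_lit 2) (nat_lit 5) (nat_lit 2) (nat_lit 4) (nat_lit 425) (nat_lit 246) (nat_lit 229)) (XT.lf (nat_lit 0) (nat_lit 45369536261) (nat_lit 76) (nat_lit 223867853629) (nat_lit 76) (nat_lit 222994229349) (nat_lit 1) (nat_lit 4) (nat_lit 2) (nat_lit 5) (nat_lit 2) (nat_lit 4) (nat_lit 426) (nat_lit 246) (nat_lit 228))))))))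
noncomputable def xc5 : XT := (XT.nd (nat_lit 46254) (nat_lit 0) (nat_lit 0) (XT.nd (nat_lit 45318) (nat_lit 0) (nat_lit 0) (XT.nd (nat_lit 390) (nat_lit 0) (nat_lit 0) (XT.nd (nat_lit 156) (nat_lit 0) (nat_lit 0) (XT.nd (nat_lit 78) (nat_lit 0) (nat_lit 0) (XT.lf (nat_lit 0) (nat_lit 50153098541) (nat_lit 76) (nat_lit 233764202407) (nat_lit 76) (nat_lit 232861002848) (nat_lit 1) (nat_lit 4) (nat_lit 2) (nat_lit 5) (nat_lit 2) (nat_lit 4) (nat_lit 427) (nat_lit 246) (nat_lit 227)) (XT.lf (nat_lit 0) (nat_lit 55122196174) (nat_lit 76) (nat_lit 244181438517) (nat_lit 76) (nat_lit 243250072026) (nat_lit 1) (nat_lit 4) (nat_lit 2) (nat_lit 5) (nat_lit 2) (nat_lit 4) (nat_lit 428) (nat_lit 246) (nat_lit 226))) (XT.nd (nat_lit 78) (nat_lit 0) (nat_lit 0) (XT.lf (nat_lit 0) (nat_lit 60288660343) (nat_lit 76) (nat_lit 255144364904) (nat_lit 76) (nat_lit 254186172762) (nat_lit 1) (nat_lit 4) (nat_lit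 2) (nat_lit 5) (nat_lit 2) (nat_lit 4) (nat_lit 429) (nat_lit 246) (nat_lit 225)) (XT.nd (nat_lit 78) (nat_lit 0) (nat_lit 0) (XT.lf (nat_lit 0) (nat_lit 65664792155) (nat_lit 76) (nat_lit 266679083772) (nat_lit 76) (nat_lit 265695343392) (nat_lit 1) (nat_lit 4) (nat_lit 2) (nat_lit 5) (nat_lit 2) (nat_lit 4) (nat_lit 430) (nat_lit 246) (nat_lit 224)) (XT.lf (nat_lit 0) (nat_lit 71263391924) (nat_lit 76) (nat_lit 278813058738) (nat_lit 76) (nat_lit 277804986703) (nat_lit 1) (nat_lit 4) (nat_lit 2) (nat_lit 5) (nat_lit 2) (nat_lit 4) (nat_lit 431) (nat_lit 246) (nat_lit 223))))) (XT.nd (nat_lit 234) (nat_lit 0) (nat_lit 0) (XT.nd (nat_lit 78) (nat_lit 0) (nat_lit 0) (XT.lf (nat_lit 0) (nat_lit 77097789648) (nat_lit 76) (nat_lit 291575180218) (nat_lit 76) (nat_lit 290543935179) (nat_lit 1) (nat_lit 4) (nat_lit 2) (nat_lit 5) (nat_lit 2) (nat_lit 4) (nat_lit 432) (nat_lit 246) (nat_lit 222))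 (XT.nd (nat_lit 78) (nat_lit 0) (nat_lit 0) (XT.lf (nat_lit 0) (nat_lit 83181876751) (nat_lit 76) (nat_lit 304995834217) (nat_lit 76) (nat_lit 303942519649) (nat_lit 1) (nat_lit 4) (nat_lit 2) (nat_lit 5) (nat_lit 2) (nat_lit 4) (nat_lit 433) (nat_lit 246) (nat_lit 221)) (XT.lf (nat_lit 0) (nat_lit 89530139155) (nat_lit 76) (nat_lit 319106974671) (nat_lit 76) (nat_lit 318032641505) (nat_lit 1) (nat_lit 4) (nat_lit 2) (nat_lit 5) (nat_lit 2) (nat_lit 4) (nat_lit 434) (nat_lit 246) (nat_lit 220)))) (XT.nd (nat_lit 78) (nat_lit 0) (nat_lit 0) (XT.lf (nat_lit 0) (nat_lit 96157691769) (nat_lit 76) (nat_lit 333942199535) (nat_lit 76) (nat_lit 332847848656) (nat_lit 1) (nat_lit 4) (nat_lit 2) (nat_lit 5) (nat_lit 2) (nat_lit 4) (nat_lit 435) (nat_lit 246) (nat_lit 219)) (XT.nd (nat_lit 44538) (nat_lit 0) (nat_lit 76) (XT.lf (nat_lit 0) (nat_lit 103080314482) (nat_lit 76) (nat_lit 349536830773)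 (nat_lit 76) (nat_lit 348423415405) (nat_lit 1) (nat_lit 4) (nat_lit 2) (nat_lit 5) (nat_lit 2) (nat_lit 4) (nat_lit 436) (nat_lit 246) (nat_lit 218)) (XT.lf (nat_lit 0) (nat_lit 40264674212) (nat_lit 152) (nat_lit 12780076746) (nat_lit 0) (nat_lit 40264674212) (nat_lit 2) (nat_lit 5) (nat_lit 4) (nat_lit 4) (nat_lit 2) (nat_lit 4) (nat_lit 406) (nat_lit 247) (nat_lit 247)))))) (XT.nd (nat_lit 468) (nat_lit 76) (nat_lit 0) (XT.nd (nat_lit 234) (nat_lit 0) (nat_lit 0) (XT.nd (nat_lit 78) (nat_lit 0) (nat_lit 0) (XT.lf (nat_lit 0) (nat_lit 86622751084) (nat_lit 152) (nat_lit 22671314758) (nat_lit 0) (nat_lit 86548015827) (nat_lit 2) (nat_lit 5) (nat_lit 4) (nat_lit 4) (nat_lit 2) (nat_lit 4) (nat_lit 407) (nat_lit 247) (nat_lit 246)) (XT.nd (nat_lit 78) (nat_lit 0) (nat_lit 0) (XT.lf (nat_lit 0) (nat_lit 92953264969) (nat_lit 152) (nat_lit 19769248143) (nat_lit 0) (nat_lit 92807353277) (nat_lit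 2) (nat_lit 5) (nat_lit 4) (nat_lit 4) (nat_lit 2) (nat_lit 4) (nat_lit 408) (nat_lit 247) (nat_lit 245)) (XT.lf (nat_lit 0) (nat_lit 99535962732) (nat_lit 152) (nat_lit 16847043967) (nat_lit 0) (nat_lit 99322263959) (nat_lit 2) (nat_lit 5) (nat_lit 4) (nat_lit 4) (nat_lit 2) (nat_lit 4) (nat_lit 409) (nat_lit 247) (nat_lit 244)))) (XT.nd (nat_lit 78) (nat_lit 0) (nat_lit 0) (XT.lf (nat_lit 0) (nat_lit 106386517462) (nat_lit 152) (nat_lit 13897744600) (nat_lit 0) (nat_lit 106108259564) (nat_lit 2) (nat_lit 5) (nat_lit 4) (nat_lit 4) (nat_lit 2) (nat_lit 4) (nat_lit 410) (nat_lit 247) (nat_lit 243)) (XT.nd (nat_lit 78) (nat_lit 0) (nat_lit 0) (XT.lf (nat_lit 0) (nat_lit 113521240004) (nat_lit 152) (nat_lit 10914327900) (nat_lit 0) (nat_lit 113181497225) (nat_lit 2) (nat_lit 5) (nat_lit 4) (nat_lit 4) (nat_lit 2) (nat_lit 4) (nat_lit 411) (nat_lit 247) (nat_lit 242)) (XT.lf (nat_lit 0) (nat_lit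 120957117793) (nat_lit 152) (nat_lit 7889690496) (nat_lit 0) (nat_lit 120558817985) (nat_lit 2) (nat_lit 5) (nat_lit 4) (nat_lit 4) (nat_lit 2) (nat_lit 4) (nat_lit 412) (nat_lit 247) (nat_lit 241))))) (XT.nd (nat_lit 234) (nat_lit 0) (nat_lit 0) (XT.nd (nat_lit 78) (nat_lit 76) (nat_lit 0) (XT.lf (nat_lit 0) (nat_lit 128711855299) (nat_lit 152) (nat_lit 4816630869) (nat_lit 0) (nat_lit 128257786892) (nat_lit 2) (nat_lit 5) (nat_lit 4) (nat_lit 4) (nat_lit 2) (nat_lit 4) (nat_lit 413) (nat_lit 247) (nat_lit 240)) (XT.nd (nat_lit 78) (nat_lit 76) (nat_lit 0) (XT.lf (nat_lit 0) (nat_lit 136803916184) (nat_lit 152) (nat_lit 1687832210) (nat_lit 0) (nat_lit 136296734825) (nat_lit 2) (nat_lit 5) (nat_lit 4) (nat_lit 4) (nat_lit 2) (nat_lit 4) (nat_lit 414) (nat_lit 247) (nat_lit 239)) (XT.lf (nat_lit 0) (nat_lit 1553889156) (nat_lit 76) (nat_lit 143722938667) (nat_lit 76) (nat_lit 143165173544)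 (nat_lit 1) (nat_lit 4) (nat_lit 2) (nat_lit 5) (nat_lit 2) (nat_lit 4) (nat_lit 415) (nat_lit 247) (nat_lit 238)))) (XT.nd (nat_lit 78) (nat_lit 0) (nat_lit 0) (XT.lf (nat_lit 0) (nat_lit 4924546989) (nat_lit 76) (nat_lit 149230263349) (nat_lit 76) (nat_lit 148624323214) (nat_lit 1) (nat_lit 4) (nat_lit 2) (nat_lit 5) (nat_lit 2) (nat_lit 4) (nat_lit 416) (nat_lit 247) (nat_lit 237)) (XT.nd (nat_lit 78) (nat_lit 0) (nat_lit 0) (XT.lf (nat_lit 0) (nat_lit 8376359308) (nat_lit 76) (nat_lit 155055419376) (nat_lit 76) (nat_lit 154403598276) (nat_lit 1) (nat_lit 4) (nat_lit 2) (nat_lit 5) (nat_lit 2) (nat_lit 4) (nat_lit 417) (nat_lit 247) (nat_lit 236)) (XT.lf (nat_lit 0) (nat_lit 11917544713) (nat_lit 76) (nat_lit 161212276167) (nat_lit 76) (nat_lit 160516758909) (nat_lit 1) (nat_lit 4) (nat_lit 2) (nat_lit 5) (nat_lit 2) (nat_lit 4) (nat_lit 418) (nat_lit 247) (nat_lit 235))))))) (XT.nd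 (nat_lit 858) (nat_lit 0) (nat_lit 0) (XT.nd (nat_lit 390) (nat_lit 0) (nat_lit 0) (XT.nd (nat_lit 156) (nat_lit 0) (nat_lit 0) (XT.nd (nat_lit 78) (nat_lit 0) (nat_lit 0) (XT.lf (nat_lit 0) (nat_lit 15556534598) (nat_lit 76) (nat_lit 167715492903) (nat_lit 76) (nat_lit 166978360258) (nat_lit 1) (nat_lit 4) (nat_lit 2) (nat_lit 5) (nat_lit 2) (nat_lit 4) (nat_lit 419) (nat_lit 247) (nat_lit 234)) (XT.lf (nat_lit 0) (nat_lit 19301993225) (nat_lit 76) (nat_lit 174580553436) (nat_lit 76) (nat_lit 173803787088) (nat_lit 1) (nat_lit 4) (nat_lit 2) (nat_lit 5) (nat_lit 2) (nat_lit 4) (nat_lit 420) (nat_lit 247) (nat_lit 233))) (XT.nd (nat_lit 78) (nat_lit 0) (nat_lit 0) (XT.lf (nat_lit 0) (nat_lit 23162838352) (nat_lit 76) (nat_lit 181823803145) (nat_lit 76) (nat_lit 181009290415) (nat_lit 1) (nat_lit 4) (nat_lit 2) (nat_lit 5) (nat_lit 2) (nat_lit 4) (nat_lit 421) (nat_lit 247) (nat_lit 232))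 (XT.nd (nat_lit 78) (nat_lit 0) (nat_lit 0) (XT.lf (nat_lit 0) (nat_lit 27148262468) (nat_lit 76) (nat_lit 189462487866) (nat_lit 76) (nat_lit 188612026199) (nat_lit 1) (nat_lit 4) (nat_lit 2) (nat_lit 5) (nat_lit 2) (nat_lit 4) (nat_lit 422) (nat_lit 247) (nat_lit 231)) (XT.lf (nat_lit 0) (nat_lit 31267754678) (nat_lit 76) (nat_lit 197514794941) (nat_lit 76) (nat_lit 196630096192) (nat_lit 1) (nat_lit 4) (nat_lit 2) (nat_lit 5) (nat_lit 2) (nat_lit 4) (nat_lit 423) (nat_lit 247) (nat_lit 230))))) (XT.nd (nat_lit 234) (nat_lit 0) (nat_lit 0) (XT.nd (nat_lit 78) (nat_lit 0) (nat_lit 0) (XT.lf (nat_lit 0) (nat_lit 35531123297) (nat_lit 76) (nat_lit 205999896531) (nat_lit 76) (nat_lit 205082591037) (nat_lit 1) (nat_lit 4) (nat_lit 2) (nat_lit 5) (nat_lit 2) (nat_lit 4) (nat_lit 424) (nat_lit 247) (nat_lit 229)) (XT.nd (nat_lit 78) (nat_lit 0) (nat_lit 0) (XT.lf (nat_lit 0) (nat_lit 39948519202)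 (nat_lit 76) (nat_lit 214937995259) (nat_lit 76) (nat_lit 213989635722) (nat_lit 1) (nat_lit 4) (nat_lit 2) (nat_lit 5) (nat_lit 2) (nat_lit 4) (nat_lit 425) (nat_lit 247) (nat_lit 228)) (XT.lf (nat_lit 0) (nat_lit 44530460003) (nat_lit 76) (nat_lit 224350372311) (nat_lit 76) (nat_lit 223372437495) (nat_lit 1) (nat_lit 4) (nat_lit 2) (nat_lit 5) (nat_lit 2) (nat_lit 4) (nat_lit 426) (nat_lit 247) (nat_lit 227)))) (XT.nd (nat_lit 78) (nat_lit 0) (nat_lit 0) (XT.lf (nat_lit 0) (nat_lit 49287855082) (nat_lit 76) (nat_lit 234259438110) (nat_lit 76) (nat_lit 233253336362) (nat_lit 1) (nat_lit 4) (nat_lit 2) (nat_lit 5) (nat_lit 2) (nat_lit 4) (nat_lit 427) (nat_lit 247) (nat_lit 226)) (XT.nd (nat_lit 78) (nat_lit 0) (nat_lit 0) (XT.lf (nat_lit 0) (nat_lit 54232031571) (nat_lit 76) (nat_lit 244688785670) (nat_lit 76) (nat_lit 243655858272) (nat_lit 1) (nat_lit 4) (nat_lit 2) (nat_lit 5) (nat_lit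 2) (nat_lit 4) (nat_lit 428) (nat_lit 247) (nat_lit 225)) (XT.lf (nat_lit 0) (nat_lit 59374761318) (nat_lit 76) (nat_lit 255663246769) (nat_lit 76) (nat_lit 254604771133) (nat_lit 1) (nat_lit 4) (nat_lit 2) (nat_lit 5) (nat_lit 2) (nat_lit 4) (nat_lit 429) (nat_lit 247) (nat_lit 224)))))) (XT.nd (nat_lit 468) (nat_lit 0) (nat_lit 0) (XT.nd (nat_lit 234) (nat_lit 0) (nat_lit 0) (XT.nd (nat_lit 78) (nat_lit 0) (nat_lit 0) (XT.lf (nat_lit 0) (nat_lit 64728288918) (nat_lit 76) (nat_lit 267208951079) (nat_lit 76) (nat_lit 266126143787) (nat_lit 1) (nat_lit 4) (nat_lit 2) (nat_lit 5) (nat_lit 2) (nat_lit 4) (nat_lit 430) (nat_lit 247) (nat_lit 223)) (XT.nd (nat_lit 78) (nat_lit 0) (nat_lit 0) (XT.lf (nat_lit 0) (nat_lit 70305360866) (nat_lit 76) (nat_lit 279353388370) (nat_lit 76) (nat_lit 278247408073) (nat_lit 1) (nat_lit 4) (nat_lit 2) (nat_lit 5) (nat_lit 2) (nat_lit 4) (nat_lit 431) (nat_lit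 247) (nat_lit 222)) (XT.lf (nat_lit 0) (nat_lit 76119255904) (nat_lit 76) (nat_lit 292125473969) (nat_lit 76) (nat_lit 290997424144) (nat_lit 1) (nat_lit 4) (nat_lit 2) (nat_lit 5) (nat_lit 2) (nat_lit 4) (nat_lit 432) (nat_lit 247) (nat_lit 221)))) (XT.nd (nat_lit 78) (nat_lit 0) (nat_lit 0) (XT.lf (nat_lit 0) (nat_lit 82183816638) (nat_lit 76) (nat_lit 305555617605) (nat_lit 76) (nat_lit 304406549181) (nat_lit 1) (nat_lit 4) (nat_lit 2) (nat_lit 5) (nat_lit 2) (nat_lit 4) (nat_lit 433) (nat_lit 247) (nat_lit 220)) (XT.nd (nat_lit 78) (nat_lit 0) (nat_lit 0) (XT.lf (nat_lit 0) (nat_lit 88513482501) (nat_lit 76) (nat_lit 319675795809) (nat_lit 76) (nat_lit 318506709673) (nat_lit 1) (nat_lit 4) (nat_lit 2) (nat_lit 5) (nat_lit 2) (nat_lit 4) (nat_lit 434) (nat_lit 247) (nat_lit 219)) (XT.lf (nat_lit 0) (nat_lit 95123324124) (nat_lit 76) (nat_lit 334519628054) (nat_lit 76) (nat_lit 333331477429)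 (nat_lit 1) (nat_lit 4) (nat_lit 2) (nat_lit 5) (nat_lit 2) (nat_lit 4) (nat_lit 435) (nat_lit 247) (nat_lit 218))))) (XT.nd (nat_lit 44538) (nat_lit 0) (nat_lit 76) (XT.nd (nat_lit 44382) (nat_lit 0) (nat_lit 76) (XT.lf (nat_lit 0) (nat_lit 102029079226) (nat_lit 76) (nat_lit 350122456797) (nat_lit 76) (nat_lit 348916149517) (nat_lit 1) (nat_lit 4) (nat_lit 2) (nat_lit 5) (nat_lit 2) (nat_lit 4) (nat_lit 436) (nat_lit 247) (nat_lit 217)) (XT.nd (nat_lit 78) (nat_lit 0) (nat_lit 0) (XT.lf (nat_lit 0) (nat_lit 34555589956) (nat_lit 152) (nat_lit 15627538698) (nat_lit 0) (nat_lit 34555589956) (nat_lit 2) (nat_lit 5) (nat_lit 4) (nat_lit 4) (nat_lit 2) (nat_lit 4) (nat_lit 404) (nat_lit 248) (nat_lit 248)) (XT.lf (nat_lit 0) (nat_lit 74737020909) (nat_lit 152) (nat_lit 28442642536) (nat_lit 0) (nat_lit 74658548889) (nat_lit 2) (nat_lit 5) (nat_lit 4) (nat_lit 4) (nat_lit 2) (nat_lit 4) (nat_lit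 405) (nat_lit 248) (nat_lit 247)))) (XT.nd (nat_lit 78) (nat_lit 0) (nat_lit 0) (XT.lf (nat_lit 0) (nat_lit 80573217101) (nat_lit 152) (nat_lit 25627360693) (nat_lit 0) (nat_lit 80420009825) (nat_lit 2) (nat_lit 5) (nat_lit 4) (nat_lit 4) (nat_lit 2) (nat_lit 4) (nat_lit 406) (nat_lit 248) (nat_lit 246)) (XT.nd (nat_lit 78) (nat_lit 0) (nat_lit 0) (XT.lf (nat_lit 0) (nat_lit 86633664196) (nat_lit 152) (nat_lit 22802528815) (nat_lit 0) (nat_lit 86409280485) (nat_lit 2) (nat_lit 5) (nat_lit 4) (nat_lit 4) (nat_lit 2) (nat_lit 4) (nat_lit 407) (nat_lit 248) (nat_lit 245)) (XT.lf (nat_lit 0) (nat_lit 92932791829) (nat_lit 152) (nat_lit 19961421112) (nat_lit 0) (nat_lit 92640621036) (nat_lit 2) (nat_lit 5) (nat_lit 4) (nat_lit 4) (nat_lit 2) (nat_lit 4) (nat_lit 408) (nat_lit 248) (nat_lit 244))))))))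
noncomputable def xc6 : XT := (XT.nd (nat_lit 1794) (nat_lit 0) (nat_lit 0) (XT.nd (nat_lit 858) (nat_lit 0) (nat_lit 0) (XT.nd (nat_lit 390) (nat_lit 76) (nat_lit 0) (XT.nd (nat_lit 156) (nat_lit 0) (nat_lit 0) (XT.nd (nat_lit 78) (nat_lit 0) (nat_lit 0) (XT.lf (nat_lit 0) (nat_lit 99485597923) (nat_lit 152) (nat_lit 17097273042) (nat_lit 0) (nat_lit 99128868006) (nat_lit 2) (nat_lit 5) (nat_lit 4) (nat_lit 4) (nat_lit 2) (nat_lit 4) (nat_lit 409) (nat_lit 248) (nat_lit 243)) (XT.lf (nat_lit 0) (nat_lit 106307684398) (nat_lit 152) (nat_lit 14203265205) (nat_lit 0) (nat_lit 105889469599) (nat_lit 2) (nat_lit 5) (nat_lit 4) (nat_lit 4) (nat_lit 2) (nat_lit 4) (nat_lit 410) (nat_lit 248) (nat_lit 242))) (XT.nd (nat_lit 78) (nat_lit 0) (nat_lit 0) (XT.lf (nat_lit 0) (nat_lit 113415294315) (nat_lit 152) (nat_lit 11272507106) (nat_lit 0) (nat_lit 112938522487) (nat_lit 2) (nat_lit 5) (nat_lit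 4) (nat_lit 4) (nat_lit 2) (nat_lit 4) (nat_lit 411) (nat_lit 248) (nat_lit 241)) (XT.nd (nat_lit 78) (nat_lit 0) (nat_lit 0) (XT.lf (nat_lit 0) (nat_lit 120825350557) (nat_lit 152) (nat_lit 8298020749) (nat_lit 0) (nat_lit 120292810130) (nat_lit 2) (nat_lit 5) (nat_lit 4) (nat_lit 4) (nat_lit 2) (nat_lit 4) (nat_lit 412) (nat_lit 248) (nat_lit 240)) (XT.lf (nat_lit 0) (nat_lit 128555496113) (nat_lit 152) (nat_lit 5272724024) (nat_lit 0) (nat_lit 127969842734) (nat_lit 2) (nat_lit 5) (nat_lit 4) (nat_lit 4) (nat_lit 2) (nat_lit 4) (nat_lit 413) (nat_lit 248) (nat_lit 239))))) (XT.nd (nat_lit 234) (nat_lit 0) (nat_lit 0) (XT.nd (nat_lit 78) (nat_lit 76) (nat_lit 0) (XT.lf (nat_lit 0) (nat_lit 136624136094) (nat_lit 152) (nat_lit 2189413844) (nat_lit 0) (nat_lit 135987898951) (nat_lit 2) (nat_lit 5) (nat_lit 4) (nat_lit 4) (nat_lit 2) (nat_lit 4) (nat_lit 414) (nat_lit 248) (nat_lit 238))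 (XT.nd (nat_lit 78) (nat_lit 0) (nat_lit 0) (XT.lf (nat_lit 0) (nat_lit 990968175) (nat_lit 76) (nat_lit 144074985160) (nat_lit 76) (nat_lit 143390573004) (nat_lit 1) (nat_lit 4) (nat_lit 2) (nat_lit 5) (nat_lit 2) (nat_lit 4) (nat_lit 415) (nat_lit 248) (nat_lit 237)) (XT.lf (nat_lit 0) (nat_lit 4319002395) (nat_lit 76) (nat_lit 149603024531) (nat_lit 76) (nat_lit 148872731410) (nat_lit 1) (nat_lit 4) (nat_lit 2) (nat_lit 5) (nat_lit 2) (nat_lit 4) (nat_lit 416) (nat_lit 248) (nat_lit 236)))) (XT.nd (nat_lit 78) (nat_lit 0) (nat_lit 0) (XT.lf (nat_lit 0) (nat_lit 7730220797) (nat_lit 76) (nat_lit 155447908832) (nat_lit 76) (nat_lit 154673919555) (nat_lit 1) (nat_lit 4) (nat_lit 2) (nat_lit 5) (nat_lit 2) (nat_lit 4) (nat_lit 417) (nat_lit 248) (nat_lit 235)) (XT.nd (nat_lit 78) (nat_lit 0) (nat_lit 0) (XT.lf (nat_lit 0) (nat_lit 11232745329) (nat_lit 76) (nat_lit 161623554455) (nat_lit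 76) (nat_lit 160807949790) (nat_lit 1) (nat_lit 4) (nat_lit 2) (nat_lit 5) (nat_lit 2) (nat_lit 4) (nat_lit 418) (nat_lit 248) (nat_lit 234)) (XT.lf (nat_lit 0) (nat_lit 14834915335) (nat_lit 76) (nat_lit 168144665318) (nat_lit 76) (nat_lit 167289426950) (nat_lit 1) (nat_lit 4) (nat_lit 2) (nat_lit 5) (nat_lit 2) (nat_lit 4) (nat_lit 419) (nat_lit 248) (nat_lit 233)))))) (XT.nd (nat_lit 468) (nat_lit 0) (nat_lit 0) (XT.nd (nat_lit 234) (nat_lit 0) (nat_lit 0) (XT.nd (nat_lit 78) (nat_lit 0) (nat_lit 0) (XT.lf (nat_lit 0) (nat_lit 18545307410) (nat_lit 76) (nat_lit 175026767875) (nat_lit 76) (nat_lit 174133783124) (nat_lit 1) (nat_lit 4) (nat_lit 2) (nat_lit 5) (nat_lit 2) (nat_lit 4) (nat_lit 420) (nat_lit 248) (nat_lit 232)) (XT.nd (nat_lit 78) (nat_lit 0) (nat_lit 0) (XT.lf (nat_lit 0) (nat_lit 22372755821) (nat_lit 76) (nat_lit 182286248084) (nat_lit 76) (nat_lit 181357314398) (nat_lit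 1) (nat_lit 4) (nat_lit 2) (nat_lit 5) (nat_lit 2) (nat_lit 4) (nat_lit 421) (nat_lit 248) (nat_lit 231)) (XT.lf (nat_lit 0) (nat_lit 26326373542) (nat_lit 76) (nat_lit 189940390424) (nat_lit 76) (nat_lit 188977219655) (nat_lit 1) (nat_lit 4) (nat_lit 2) (nat_lit 5) (nat_lit 2) (nat_lit 4) (nat_lit 422) (nat_lit 248) (nat_lit 230)))) (XT.nd (nat_lit 78) (nat_lit 0) (nat_lit 0) (XT.lf (nat_lit 0) (nat_lit 30415573946) (nat_lit 76) (nat_lit 198007419041) (nat_lit 76) (nat_lit 197011641527) (nat_lit 1) (nat_lit 4) (nat_lit 2) (nat_lit 5) (nat_lit 2) (nat_lit 4) (nat_lit 423) (nat_lit 248) (nat_lit 229)) (XT.nd (nat_lit 78) (nat_lit 0) (nat_lit 0) (XT.lf (nat_lit 0) (nat_lit 34650093226) (nat_lit 76) (nat_lit 206506541147) (nat_lit 76) (nat_lit 205479709590) (nat_lit 1) (nat_lit 4) (nat_lit 2) (nat_lit 5) (nat_lit 2) (nat_lit 4) (nat_lit 424) (nat_lit 248) (nat_lit 228)) (XT.lf (nat_lit 0)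 (nat_lit 39040013570) (nat_lit 76) (nat_lit 215457992747) (nat_lit 76) (nat_lit 214401585912) (nat_lit 1) (nat_lit 4) (nat_lit 2) (nat_lit 5) (nat_lit 2) (nat_lit 4) (nat_lit 425) (nat_lit 248) (nat_lit 227))))) (XT.nd (nat_lit 234) (nat_lit 0) (nat_lit 0) (XT.nd (nat_lit 78) (nat_lit 0) (nat_lit 0) (XT.lf (nat_lit 0) (nat_lit 43595787170) (nat_lit 76) (nat_lit 224883086821) (nat_lit 76) (nat_lit 223798513053) (nat_lit 1) (nat_lit 4) (nat_lit 2) (nat_lit 5) (nat_lit 2) (nat_lit 4) (nat_lit 426) (nat_lit 248) (nat_lit 226)) (XT.nd (nat_lit 78) (nat_lit 0) (nat_lit 0) (XT.lf (nat_lit 0) (nat_lit 48328261106) (nat_lit 76) (nat_lit 234804264069) (nat_lit 76) (nat_lit 233692864651) (nat_lit 1) (nat_lit 4) (nat_lit 2) (nat_lit 5) (nat_lit 2) (nat_lit 4) (nat_lit 427) (nat_lit 248) (nat_lit 225)) (XT.lf (nat_lit 0) (nat_lit 53248703172) (nat_lit 76) (nat_lit 245245146342) (nat_lit 76) (nat_lit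 244108198686) (nat_lit 1) (nat_lit 4) (nat_lit 2) (nat_lit 5) (nat_lit 2) (nat_lit 4) (nat_lit 428) (nat_lit 248) (nat_lit 224)))) (XT.nd (nat_lit 78) (nat_lit 0) (nat_lit 0) (XT.lf (nat_lit 0) (nat_lit 58368828707) (nat_lit 76) (nat_lit 256230592883) (nat_lit 76) (nat_lit 255069313572) (nat_lit 1) (nat_lit 4) (nat_lit 2) (nat_lit 5) (nat_lit 2) (nat_lit 4) (nat_lit 429) (nat_lit 248) (nat_lit 223)) (XT.nd (nat_lit 78) (nat_lit 0) (nat_lit 0) (XT.lf (nat_lit 0) (nat_lit 63700828487) (nat_lit 76) (nat_lit 267786759517) (nat_lit 76) (nat_lit 266602307201) (nat_lit 1) (nat_lit 4) (nat_lit 2) (nat_lit 5) (nat_lit 2) (nat_lit 4) (nat_lit 430) (nat_lit 248) (nat_lit 222)) (XT.lf (nat_lit 0) (nat_lit 69257397748) (nat_lit 76) (nat_lit 279941160927) (nat_lit 76) (nat_lit 278734639083) (nat_lit 1) (nat_lit 4) (nat_lit 2) (nat_lit 5) (nat_lit 2) (nat_lit 4) (nat_lit 431) (nat_lit 248) (nat_lit 221)))))))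 (XT.nd (nat_lit 45006) (nat_lit 0) (nat_lit 0) (XT.nd (nat_lit 44538) (nat_lit 0) (nat_lit 76) (XT.nd (nat_lit 156) (nat_lit 0) (nat_lit 0) (XT.nd (nat_lit 78) (nat_lit 0) (nat_lit 0) (XT.lf (nat_lit 0) (nat_lit 75051766417) (nat_lit 76) (nat_lit 292722736164) (nat_lit 76) (nat_lit 291495195721) (nat_lit 1) (nat_lit 4) (nat_lit 2) (nat_lit 5) (nat_lit 2) (nat_lit 4) (nat_lit 432) (nat_lit 248) (nat_lit 220)) (XT.lf (nat_lit 0) (nat_lit 81097730611) (nat_lit 76) (nat_lit 306161917549) (nat_lit 76) (nat_lit 304914359393) (nat_lit 1) (nat_lit 4) (nat_lit 2) (nat_lit 5) (nat_lit 2) (nat_lit 4) (nat_lit 433) (nat_lit 248) (nat_lit 219))) (XT.nd (nat_lit 78) (nat_lit 0) (nat_lit 0) (XT.lf (nat_lit 0) (nat_lit 87409685482) (nat_lit 76) (nat_lit 320290703134) (nat_lit 76) (nat_lit 319024080490) (nat_lit 1) (nat_lit 4) (nat_lit 2) (nat_lit 5) (nat_lit 2) (nat_lit 4) (nat_lit 434) (nat_lit 248)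 (nat_lit 218)) (XT.nd (nat_lit 78) (nat_lit 0) (nat_lit 0) (XT.lf (nat_lit 0) (nat_lit 94002659495) (nat_lit 76) (nat_lit 335142732884) (nat_lit 76) (nat_lit 333857953584) (nat_lit 1) (nat_lit 4) (nat_lit 2) (nat_lit 5) (nat_lit 2) (nat_lit 4) (nat_lit 435) (nat_lit 248) (nat_lit 217)) (XT.lf (nat_lit 0) (nat_lit 100892350205) (nat_lit 76) (nat_lit 350753368776) (nat_lit 76) (nat_lit 349451297422) (nat_lit 1) (nat_lit 4) (nat_lit 2) (nat_lit 5) (nat_lit 2) (nat_lit 4) (nat_lit 436) (nat_lit 248) (nat_lit 216))))) (XT.nd (nat_lit 234) (nat_lit 0) (nat_lit 0) (XT.nd (nat_lit 78) (nat_lit 0) (nat_lit 0) (XT.lf (nat_lit 0) (nat_lit 29278999416) (nat_lit 152) (nat_lit 18412052245) (nat_lit 0) (nat_lit 29278999416) (nat_lit 2) (nat_lit 5) (nat_lit 4) (nat_lit 4) (nat_lit 2) (nat_lit 4) (nat_lit 402) (nat_lit 249) (nat_lit 249)) (XT.nd (nat_lit 78) (nat_lit 0) (nat_lit 0) (XT.lf (nat_lit 0) (nat_lit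 63764694875) (nat_lit 152) (nat_lit 34071361549) (nat_lit 0) (nat_lit 63682299254) (nat_lit 2) (nat_lit 5) (nat_lit 4) (nat_lit 4) (nat_lit 2) (nat_lit 4) (nat_lit 403) (nat_lit 249) (nat_lit 248)) (XT.lf (nat_lit 0) (nat_lit 69157242023) (nat_lit 152) (nat_lit 31325644957) (nat_lit 0) (nat_lit 68996374383) (nat_lit 2) (nat_lit 5) (nat_lit 4) (nat_lit 4) (nat_lit 2) (nat_lit 4) (nat_lit 404) (nat_lit 249) (nat_lit 247)))) (XT.nd (nat_lit 78) (nat_lit 0) (nat_lit 0) (XT.lf (nat_lit 0) (nat_lit 74748479676) (nat_lit 152) (nat_lit 28580417297) (nat_lit 0) (nat_lit 74512876779) (nat_lit 2) (nat_lit 5) (nat_lit 4) (nat_lit 4) (nat_lit 2) (nat_lit 4) (nat_lit 405) (nat_lit 249) (nat_lit 246)) (XT.nd (nat_lit 78) (nat_lit 0) (nat_lit 0) (XT.lf (nat_lit 0) (nat_lit 80551720305) (nat_lit 152) (nat_lit 25829142311) (nat_lit 0) (nat_lit 80244940972) (nat_lit 2) (nat_lit 5) (nat_lit 4) (nat_lit 4)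 (nat_lit 2) (nat_lit 4) (nat_lit 406) (nat_lit 249) (nat_lit 245)) (XT.lf (nat_lit 0) (nat_lit 86580781148) (nat_lit 152) (nat_lit 23065269344) (nat_lit 0) (nat_lit 86206214734) (nat_lit 2) (nat_lit 5) (nat_lit 4) (nat_lit 4) (nat_lit 2) (nat_lit 4) (nat_lit 407) (nat_lit 249) (nat_lit 244)))))) (XT.nd (nat_lit 468) (nat_lit 76) (nat_lit 0) (XT.nd (nat_lit 234) (nat_lit 0) (nat_lit 0) (XT.nd (nat_lit 78) (nat_lit 0) (nat_lit 0) (XT.lf (nat_lit 0) (nat_lit 92850017112) (nat_lit 152) (nat_lit 20282217748) (nat_lit 0) (nat_lit 92410891573) (nat_lit 2) (nat_lit 5) (nat_lit 4) (nat_lit 4) (nat_lit 2) (nat_lit 4) (nat_lit 408) (nat_lit 249) (nat_lit 243)) (XT.nd (nat_lit 78) (nat_lit 0) (nat_lit 0) (XT.lf (nat_lit 0) (nat_lit 99374354950) (nat_lit 152) (nat_lit 17473361208) (nat_lit 0) (nat_lit 98873744531) (nat_lit 2) (nat_lit 5) (nat_lit 4) (nat_lit 4) (nat_lit 2) (nat_lit 4) (nat_lit 409)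 (nat_lit 249) (nat_lit 242)) (XT.lf (nat_lit 0) (nat_lit 106169328800) (nat_lit 152) (nat_lit 14632011971) (nat_lit 0) (nat_lit 105610161351) (nat_lit 2) (nat_lit 5) (nat_lit 4) (nat_lit 4) (nat_lit 2) (nat_lit 4) (nat_lit 410) (nat_lit 249) (nat_lit 241)))) (XT.nd (nat_lit 78) (nat_lit 0) (nat_lit 0) (XT.lf (nat_lit 0) (nat_lit 113251117170) (nat_lit 152) (nat_lit 11751404919) (nat_lit 0) (nat_lit 112636181122) (nat_lit 2) (nat_lit 5) (nat_lit 4) (nat_lit 4) (nat_lit 2) (nat_lit 4) (nat_lit 411) (nat_lit 249) (nat_lit 240)) (XT.nd (nat_lit 78) (nat_lit 0) (nat_lit 0) (XT.lf (nat_lit 0) (nat_lit 120636581462) (nat_lit 152) (nat_lit 8824681464) (nat_lit 0) (nat_lit 119968532462) (nat_lit 2) (nat_lit 5) (nat_lit 4) (nat_lit 4) (nat_lit 2) (nat_lit 4) (nat_lit 412) (nat_lit 249) (nat_lit 239)) (XT.lf (nat_lit 0) (nat_lit 128343306114) (nat_lit 152) (nat_lit 5844873218) (nat_lit 0) (nat_lit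 127624673351) (nat_lit 2) (nat_lit 5) (nat_lit 4) (nat_lit 4) (nat_lit 2) (nat_lit 4) (nat_lit 413) (nat_lit 249) (nat_lit 238))))) (XT.nd (nat_lit 234) (nat_lit 0) (nat_lit 0) (XT.nd (nat_lit 78) (nat_lit 76) (nat_lit 0) (XT.lf (nat_lit 0) (nat_lit 136389640471) (nat_lit 152) (nat_lit 2804885399) (nat_lit 0) (nat_lit 135622832695) (nat_lit 2) (nat_lit 5) (nat_lit 4) (nat_lit 4) (nat_lit 2) (nat_lit 4) (nat_lit 414) (nat_lit 249) (nat_lit 237)) (XT.nd (nat_lit 78) (nat_lit 0) (nat_lit 0) (XT.lf (nat_lit 0) (nat_lit 312522739) (nat_lit 76) (nat_lit 144487099088) (nat_lit 76) (nat_lit 143674410347) (nat_lit 1) (nat_lit 4) (nat_lit 2) (nat_lit 5) (nat_lit 2) (nat_lit 4) (nat_lit 415) (nat_lit 249) (nat_lit 236)) (XT.lf (nat_lit 0) (nat_lit 3599963042) (nat_lit 76) (nat_lit 150034866733) (nat_lit 76) (nat_lit 149178481835) (nat_lit 1) (nat_lit 4) (nat_lit 2) (nat_lit 5) (nat_lit 2) (nat_lit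 4) (nat_lit 416) (nat_lit 249) (nat_lit 235)))) (XT.nd (nat_lit 78) (nat_lit 0) (nat_lit 0) (XT.lf (nat_lit 0) (nat_lit 6972520571) (nat_lit 76) (nat_lit 155898539867) (nat_lit 76) (nat_lit 155000539581) (nat_lit 1) (nat_lit 4) (nat_lit 2) (nat_lit 5) (nat_lit 2) (nat_lit 4) (nat_lit 417) (nat_lit 249) (nat_lit 234)) (XT.nd (nat_lit 78) (nat_lit 0) (nat_lit 0) (XT.lf (nat_lit 0) (nat_lit 10438225223) (nat_lit 76) (nat_lit 162092079616) (nat_lit 76) (nat_lit 161154445628) (nat_lit 1) (nat_lit 4) (nat_lit 2) (nat_lit 5) (nat_lit 2) (nat_lit 4) (nat_lit 418) (nat_lit 249) (nat_lit 233)) (XT.lf (nat_lit 0) (nat_lit 14005328678) (nat_lit 76) (nat_lit 168630232504) (nat_lit 76) (nat_lit 167654852133) (nat_lit 1) (nat_lit 4) (nat_lit 2) (nat_lit 5) (nat_lit 2) (nat_lit 4) (nat_lit 419) (nat_lit 249) (nat_lit 232))))))))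
noncomputable def xc7 : XT := (XT.nd (nat_lit 45786) (nat_lit 0) (nat_lit 0) (XT.nd (nat_lit 858) (nat_lit 0) (nat_lit 0) (XT.nd (nat_lit 390) (nat_lit 0) (nat_lit 0) (XT.nd (nat_lit 156) (nat_lit 0) (nat_lit 0) (XT.nd (nat_lit 78) (nat_lit 0) (nat_lit 0) (XT.lf (nat_lit 0) (nat_lit 17682324037) (nat_lit 76) (nat_lit 175528565561) (nat_lit 76) (nat_lit 174517236253) (nat_lit 1) (nat_lit 4) (nat_lit 2) (nat_lit 5) (nat_lit 2) (nat_lit 4) (nat_lit 420) (nat_lit 249) (nat_lit 231)) (XT.lf (nat_lit 0) (nat_lit 21477966052) (nat_lit 76) (nat_lit 182803503389) (nat_lit 76) (nat_lit 181757937000) (nat_lit 1) (nat_lit 4) (nat_lit 2) (nat_lit 5) (nat_lit 2) (nat_lit 4) (nat_lit 421) (nat_lit 249) (nat_lit 230))) (XT.nd (nat_lit 78) (nat_lit 0) (nat_lit 0) (XT.lf (nat_lit 0) (nat_lit 25401291967) (nat_lit 76) (nat_lit 190472367271) (nat_lit 76) (nat_lit 189394194136) (nat_lit 1) (nat_lit 4) (nat_lit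 2) (nat_lit 5) (nat_lit 2) (nat_lit 4) (nat_lit 422) (nat_lit 249) (nat_lit 229)) (XT.nd (nat_lit 78) (nat_lit 0) (nat_lit 0) (XT.lf (nat_lit 0) (nat_lit 29461643032) (nat_lit 76) (nat_lit 198553416404) (nat_lit 76) (nat_lit 197444189227) (nat_lit 1) (nat_lit 4) (nat_lit 2) (nat_lit 5) (nat_lit 2) (nat_lit 4) (nat_lit 423) (nat_lit 249) (nat_lit 228)) (XT.lf (nat_lit 0) (nat_lit 33668686751) (nat_lit 76) (nat_lit 207065891383) (nat_lit 76) (nat_lit 205927088926) (nat_lit 1) (nat_lit 4) (nat_lit 2) (nat_lit 5) (nat_lit 2) (nat_lit 4) (nat_lit 424) (nat_lit 249) (nat_lit 227))))) (XT.nd (nat_lit 234) (nat_lit 0) (nat_lit 0) (XT.nd (nat_lit 78) (nat_lit 0) (nat_lit 0) (XT.lf (nat_lit 0) (nat_lit 38032439895) (nat_lit 76) (nat_lit 216030060004) (nat_lit 76) (nat_lit 214863090615) (nat_lit 1) (nat_lit 4) (nat_lit 2) (nat_lit 5) (nat_lit 2) (nat_lit 4) (nat_lit 425) (nat_lit 249) (nat_lit 226))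 (XT.nd (nat_lit 78) (nat_lit 0) (nat_lit 0) (XT.lf (nat_lit 0) (nat_lit 42563292351) (nat_lit 76) (nat_lit 225467265527) (nat_lit 76) (nat_lit 224273470489) (nat_lit 1) (nat_lit 4) (nat_lit 2) (nat_lit 5) (nat_lit 2) (nat_lit 4) (nat_lit 426) (nat_lit 249) (nat_lit 225)) (XT.lf (nat_lit 0) (nat_lit 47272031864) (nat_lit 76) (nat_lit 235399977489) (nat_lit 76) (nat_lit 234180634212) (nat_lit 1) (nat_lit 4) (nat_lit 2) (nat_lit 5) (nat_lit 2) (nat_lit 4) (nat_lit 427) (nat_lit 249) (nat_lit 224)))) (XT.nd (nat_lit 78) (nat_lit 0) (nat_lit 0) (XT.lf (nat_lit 0) (nat_lit 52169869719) (nat_lit 76) (nat_lit 245851845203) (nat_lit 76) (nat_lit 244608170271) (nat_lit 1) (nat_lit 4) (nat_lit 2) (nat_lit 5) (nat_lit 2) (nat_lit 4) (nat_lit 428) (nat_lit 249) (nat_lit 223)) (XT.nd (nat_lit 78) (nat_lit 0) (nat_lit 0) (XT.lf (nat_lit 0) (nat_lit 57268467433) (nat_lit 76) (nat_lit 256847754068) (nat_lit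 76) (nat_lit 255580906132) (nat_lit 1) (nat_lit 4) (nat_lit 2) (nat_lit 5) (nat_lit 2) (nat_lit 4) (nat_lit 429) (nat_lit 249) (nat_lit 222)) (XT.lf (nat_lit 0) (nat_lit 62579964526) (nat_lit 76) (nat_lit 268413884822) (nat_lit 76) (nat_lit 267124967356) (nat_lit 1) (nat_lit 4) (nat_lit 2) (nat_lit 5) (nat_lit 2) (nat_lit 4) (nat_lit 430) (nat_lit 249) (nat_lit 221)))))) (XT.nd (nat_lit 44460) (nat_lit 0) (nat_lit 76) (XT.nd (nat_lit 234) (nat_lit 0) (nat_lit 0) (XT.nd (nat_lit 78) (nat_lit 0) (nat_lit 0) (XT.lf (nat_lit 0) (nat_lit 68117007419) (nat_lit 76) (nat_lit 280577775869) (nat_lit 76) (nat_lit 279267839805) (nat_lit 1) (nat_lit 4) (nat_lit 2) (nat_lit 5) (nat_lit 2) (nat_lit 4) (nat_lit 431) (nat_lit 249) (nat_lit 220)) (XT.nd (nat_lit 78) (nat_lit 0) (nat_lit 0) (XT.lf (nat_lit 0) (nat_lit 73892779548) (nat_lit 76) (nat_lit 293368388855) (nat_lit 76) (nat_lit 292038435078) (nat_lit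 1) (nat_lit 4) (nat_lit 2) (nat_lit 5) (nat_lit 2) (nat_lit 4) (nat_lit 432) (nat_lit 249) (nat_lit 219)) (XT.lf (nat_lit 0) (nat_lit 79921032750) (nat_lit 76) (nat_lit 306816177621) (nat_lit 76) (nat_lit 305467159356) (nat_lit 1) (nat_lit 4) (nat_lit 2) (nat_lit 5) (nat_lit 2) (nat_lit 4) (nat_lit 433) (nat_lit 249) (nat_lit 218)))) (XT.nd (nat_lit 78) (nat_lit 0) (nat_lit 0) (XT.lf (nat_lit 0) (nat_lit 86216120010) (nat_lit 76) (nat_lit 320953160712) (nat_lit 76) (nat_lit 319585985791) (nat_lit 1) (nat_lit 4) (nat_lit 2) (nat_lit 5) (nat_lit 2) (nat_lit 4) (nat_lit 434) (nat_lit 249) (nat_lit 217)) (XT.nd (nat_lit 78) (nat_lit 0) (nat_lit 0) (XT.lf (nat_lit 0) (nat_lit 92793029631) (nat_lit 76) (nat_lit 335812997610) (nat_lit 76) (nat_lit 334428530636) (nat_lit 1) (nat_lit 4) (nat_lit 2) (nat_lit 5) (nat_lit 2) (nat_lit 4) (nat_lit 435) (nat_lit 249) (nat_lit 216)) (XT.lf (nat_lit 0)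 (nat_lit 99667420921) (nat_lit 76) (nat_lit 351431068880) (nat_lit 76) (nat_lit 350030133284) (nat_lit 1) (nat_lit 4) (nat_lit 2) (nat_lit 5) (nat_lit 2) (nat_lit 4) (nat_lit 436) (nat_lit 249) (nat_lit 215))))) (XT.nd (nat_lit 234) (nat_lit 0) (nat_lit 0) (XT.nd (nat_lit 78) (nat_lit 0) (nat_lit 0) (XT.lf (nat_lit 0) (nat_lit 24389779285) (nat_lit 152) (nat_lit 21149558814) (nat_lit 0) (nat_lit 24389779285) (nat_lit 2) (nat_lit 5) (nat_lit 4) (nat_lit 4) (nat_lit 2) (nat_lit 4) (nat_lit 400) (nat_lit 250) (nat_lit 250)) (XT.nd (nat_lit 78) (nat_lit 0) (nat_lit 0) (XT.lf (nat_lit 0) (nat_lit 53611272404) (nat_lit 152) (nat_lit 39590427935) (nat_lit 0) (nat_lit 53524757002) (nat_lit 2) (nat_lit 5) (nat_lit 4) (nat_lit 4) (nat_lit 2) (nat_lit 4) (nat_lit 401) (nat_lit 250) (nat_lit 249)) (XT.lf (nat_lit 0) (nat_lit 58606364049) (nat_lit 152) (nat_lit 36898200429) (nat_lit 0) (nat_lit 58437453027)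 (nat_lit 2) (nat_lit 5) (nat_lit 4) (nat_lit 4) (nat_lit 2) (nat_lit 4) (nat_lit 402) (nat_lit 250) (nat_lit 248)))) (XT.nd (nat_lit 78) (nat_lit 0) (nat_lit 0) (XT.lf (nat_lit 0) (nat_lit 63776726581) (nat_lit 152) (nat_lit 34216025047) (nat_lit 0) (nat_lit 63529343539) (nat_lit 2) (nat_lit 5) (nat_lit 4) (nat_lit 4) (nat_lit 2) (nat_lit 4) (nat_lit 403) (nat_lit 250) (nat_lit 247)) (XT.nd (nat_lit 78) (nat_lit 0) (nat_lit 0) (XT.lf (nat_lit 0) (nat_lit 69134670387) (nat_lit 152) (nat_lit 31537515656) (nat_lit 0) (nat_lit 68812552088) (nat_lit 2) (nat_lit 5) (nat_lit 4) (nat_lit 4) (nat_lit 2) (nat_lit 4) (nat_lit 404) (nat_lit 250) (nat_lit 246)) (XT.lf (nat_lit 0) (nat_lit 74692952475) (nat_lit 152) (nat_lit 28856294853) (nat_lit 0) (nat_lit 74299657741) (nat_lit 2) (nat_lit 5) (nat_lit 4) (nat_lit 4) (nat_lit 2) (nat_lit 4) (nat_lit 405) (nat_lit 250) (nat_lit 245))))))) (XT.nd (nat_lit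 858) (nat_lit 0) (nat_lit 0) (XT.nd (nat_lit 390) (nat_lit 76) (nat_lit 0) (XT.nd (nat_lit 156) (nat_lit 0) (nat_lit 0) (XT.nd (nat_lit 78) (nat_lit 0) (nat_lit 0) (XT.lf (nat_lit 0) (nat_lit 80464806851) (nat_lit 152) (nat_lit 26165978778) (nat_lit 0) (nat_lit 80003725036) (nat_lit 2) (nat_lit 5) (nat_lit 4) (nat_lit 4) (nat_lit 2) (nat_lit 4) (nat_lit 406) (nat_lit 250) (nat_lit 244)) (XT.lf (nat_lit 0) (nat_lit 86463976026) (nat_lit 152) (nat_lit 23460161918) (nat_lit 0) (nat_lit 85938335085) (nat_lit 2) (nat_lit 5) (nat_lit 4) (nat_lit 4) (nat_lit 2) (nat_lit 4) (nat_lit 407) (nat_lit 250) (nat_lit 243))) (XT.nd (nat_lit 78) (nat_lit 0) (nat_lit 0) (XT.lf (nat_lit 0) (nat_lit 92704743734) (nat_lit 152) (nat_lit 20732401852) (nat_lit 0) (nat_lit 92117617913) (nat_lit 2) (nat_lit 5) (nat_lit 4) (nat_lit 4) (nat_lit 2) (nat_lit 4) (nat_lit 408) (nat_lit 250) (nat_lit 242)) (XT.nd (nat_lit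 78) (nat_lit 0) (nat_lit 0) (XT.lf (nat_lit 0) (nat_lit 99201968948) (nat_lit 152) (nat_lit 17976203912) (nat_lit 0) (nat_lit 98556286097) (nat_lit 2) (nat_lit 5) (nat_lit 4) (nat_lit 4) (nat_lit 2) (nat_lit 4) (nat_lit 409) (nat_lit 250) (nat_lit 241)) (XT.lf (nat_lit 0) (nat_lit 105971121250) (nat_lit 152) (nat_lit 15185005722) (nat_lit 0) (nat_lit 105269669800) (nat_lit 2) (nat_lit 5) (nat_lit 4) (nat_lit 4) (nat_lit 2) (nat_lit 4) (nat_lit 410) (nat_lit 250) (nat_lit 240))))) (XT.nd (nat_lit 234) (nat_lit 76) (nat_lit 0) (XT.nd (nat_lit 78) (nat_lit 0) (nat_lit 0) (XT.lf (nat_lit 0) (nat_lit 113028317671) (nat_lit 152) (nat_lit 12352161572) (nat_lit 0) (nat_lit 112273753269) (nat_lit 2) (nat_lit 5) (nat_lit 4) (nat_lit 4) (nat_lit 2) (nat_lit 4) (nat_lit 411) (nat_lit 250) (nat_lit 239)) (XT.nd (nat_lit 78) (nat_lit 0) (nat_lit 0) (XT.lf (nat_lit 0) (nat_lit 120390361058) (nat_lit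 152) (nat_lit 9470926597) (nat_lit 0) (nat_lit 119585212893) (nat_lit 2) (nat_lit 5) (nat_lit 4) (nat_lit 4) (nat_lit 2) (nat_lit 4) (nat_lit 412) (nat_lit 250) (nat_lit 238)) (XT.lf (nat_lit 0) (nat_lit 128074780087) (nat_lit 152) (nat_lit 6534440711) (nat_lit 0) (nat_lit 127221456909) (nat_lit 2) (nat_lit 5) (nat_lit 4) (nat_lit 4) (nat_lit 2) (nat_lit 4) (nat_lit 413) (nat_lit 250) (nat_lit 237)))) (XT.nd (nat_lit 78) (nat_lit 76) (nat_lit 0) (XT.lf (nat_lit 0) (nat_lit 136099870993) (nat_lit 152) (nat_lit 3535712282) (nat_lit 0) (nat_lit 135200666850) (nat_lit 2) (nat_lit 5) (nat_lit 4) (nat_lit 4) (nat_lit 2) (nat_lit 4) (nat_lit 414) (nat_lit 250) (nat_lit 236)) (XT.nd (nat_lit 78) (nat_lit 76) (nat_lit 0) (XT.lf (nat_lit 0) (nat_lit 144484741136) (nat_lit 152) (nat_lit 467601481) (nat_lit 0) (nat_lit 143541840836) (nat_lit 2) (nat_lit 5) (nat_lit 4) (nat_lit 4) (nat_lit 2) (nat_lit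 4) (nat_lit 415) (nat_lit 250) (nat_lit 235)) (XT.lf (nat_lit 0) (nat_lit 2765716932) (nat_lit 76) (nat_lit 150526818152) (nat_lit 76) (nat_lit 149542302465) (nat_lit 1) (nat_lit 4) (nat_lit 2) (nat_lit 5) (nat_lit 2) (nat_lit 4) (nat_lit 416) (nat_lit 250) (nat_lit 234)))))) (XT.nd (nat_lit 468) (nat_lit 0) (nat_lit 0) (XT.nd (nat_lit 234) (nat_lit 0) (nat_lit 0) (XT.nd (nat_lit 78) (nat_lit 0) (nat_lit 0) (XT.lf (nat_lit 0) (nat_lit 6101454581) (nat_lit 76) (nat_lit 156408385412) (nat_lit 76) (nat_lit 155384236022) (nat_lit 1) (nat_lit 4) (nat_lit 2) (nat_lit 5) (nat_lit 2) (nat_lit 4) (nat_lit 417) (nat_lit 250) (nat_lit 233)) (XT.nd (nat_lit 78) (nat_lit 0) (nat_lit 0) (XT.lf (nat_lit 0) (nat_lit 9532092682) (nat_lit 76) (nat_lit 162618967186) (nat_lit 76) (nat_lit 161557071413) (nat_lit 1) (nat_lit 4) (nat_lit 2) (nat_lit 5) (nat_lit 2) (nat_lit 4) (nat_lit 418) (nat_lit 250) (nat_lit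 232)) (XT.lf (nat_lit 0) (nat_lit 13065799420) (nat_lit 76) (nat_lit 169173350574) (nat_lit 76) (nat_lit 168075505865) (nat_lit 1) (nat_lit 4) (nat_lit 2) (nat_lit 5) (nat_lit 2) (nat_lit 4) (nat_lit 419) (nat_lit 250) (nat_lit 231)))) (XT.nd (nat_lit 78) (nat_lit 0) (nat_lit 0) (XT.lf (nat_lit 0) (nat_lit 16710988383) (nat_lit 76) (nat_lit 176087141250) (nat_lit 76) (nat_lit 174955059458) (nat_lit 1) (nat_lit 4) (nat_lit 2) (nat_lit 5) (nat_lit 2) (nat_lit 4) (nat_lit 420) (nat_lit 250) (nat_lit 230)) (XT.nd (nat_lit 78) (nat_lit 0) (nat_lit 0) (XT.lf (nat_lit 0) (nat_lit 20476338593) (nat_lit 76) (nat_lit 183376800621) (nat_lit 76) (nat_lit 182212112084) (nat_lit 1) (nat_lit 4) (nat_lit 2) (nat_lit 5) (nat_lit 2) (nat_lit 4) (nat_lit 421) (nat_lit 250) (nat_lit 229)) (XT.lf (nat_lit 0) (nat_lit 24370815168) (nat_lit 76) (nat_lit 191059685018) (nat_lit 76) (nat_lit 189863942439) (nat_lit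 1) (nat_lit 4) (nat_lit 2) (nat_lit 5) (nat_lit 2) (nat_lit 4) (nat_lit 422) (nat_lit 250) (nat_lit 228))))) (XT.nd (nat_lit 234) (nat_lit 0) (nat_lit 0) (XT.nd (nat_lit 78) (nat_lit 0) (nat_lit 0) (XT.lf (nat_lit 0) (nat_lit 28403690673) (nat_lit 76) (nat_lit 199154087024) (nat_lit 76) (nat_lit 197928769166) (nat_lit 1) (nat_lit 4) (nat_lit 2) (nat_lit 5) (nat_lit 2) (nat_lit 4) (nat_lit 423) (nat_lit 250) (nat_lit 227)) (XT.nd (nat_lit 78) (nat_lit 0) (nat_lit 0) (XT.lf (nat_lit 0) (nat_lit 32584567191) (nat_lit 76) (nat_lit 207679279024) (nat_lit 76) (nat_lit 206425794233) (nat_lit 1) (nat_lit 4) (nat_lit 2) (nat_lit 5) (nat_lit 2) (nat_lit 4) (nat_lit 424) (nat_lit 250) (nat_lit 226)) (XT.lf (nat_lit 0) (nat_lit 36923399191) (nat_lit 76) (nat_lit 216655559094) (nat_lit 76) (nat_lit 215375248654) (nat_lit 1) (nat_lit 4) (nat_lit 2) (nat_lit 5) (nat_lit 2) (nat_lit 4) (nat_lit 425) (nat_lit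 250) (nat_lit 225)))) (XT.nd (nat_lit 78) (nat_lit 0) (nat_lit 0) (XT.lf (nat_lit 0) (nat_lit 41430517225) (nat_lit 76) (nat_lit 226104299331) (nat_lit 76) (nat_lit 224798440652) (nat_lit 1) (nat_lit 4) (nat_lit 2) (nat_lit 5) (nat_lit 2) (nat_lit 4) (nat_lit 426) (nat_lit 250) (nat_lit 224)) (XT.nd (nat_lit 78) (nat_lit 0) (nat_lit 0) (XT.lf (nat_lit 0) (nat_lit 46116652527) (nat_lit 76) (nat_lit 236047996733) (nat_lit 76) (nat_lit 234717806400) (nat_lit 1) (nat_lit 4) (nat_lit 2) (nat_lit 5) (nat_lit 2) (nat_lit 4) (nat_lit 427) (nat_lit 250) (nat_lit 223)) (XT.lf (nat_lit 0) (nat_lit 50992962560) (nat_lit 76) (nat_lit 246510326772) (nat_lit 76) (nat_lit 245156963434) (nat_lit 1) (nat_lit 4) (nat_lit 2) (nat_lit 5) (nat_lit 2) (nat_lit 4) (nat_lit 428) (nat_lit 250) (nat_lit 222))))))))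
noncomputable def xc8 : XT := (XT.nd (nat_lit 45552) (nat_lit 0) (nat_lit 0) (XT.nd (nat_lit 44694) (nat_lit 0) (nat_lit 76) (XT.nd (nat_lit 390) (nat_lit 0) (nat_lit 0) (XT.nd (nat_lit 156) (nat_lit 0) (nat_lit 0) (XT.nd (nat_lit 78) (nat_lit 0) (nat_lit 0) (XT.lf (nat_lit 0) (nat_lit 56071057588) (nat_lit 76) (nat_lit 257516199757) (nat_lit 76) (nat_lit 256140766890) (nat_lit 1) (nat_lit 4) (nat_lit 2) (nat_lit 5) (nat_lit 2) (nat_lit 4) (nat_lit 429) (nat_lit 250) (nat_lit 221)) (XT.lf (nat_lit 0) (nat_lit 61363028313) (nat_lit 76) (nat_lit 269091820148) (nat_lit 76) (nat_lit 267695368682) (nat_lit 1) (nat_lit 4) (nat_lit 2) (nat_lit 5) (nat_lit 2) (nat_lit 4) (nat_lit 430) (nat_lit 250) (nat_lit 220))) (XT.nd (nat_lit 78) (nat_lit 0) (nat_lit 0) (XT.lf (nat_lit 0) (nat_lit 66881474665) (nat_lit 76) (nat_lit 281264748944) (nat_lit 76) (nat_lit 279848279766) (nat_lit 1) (nat_lit 4) (nat_lit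 2) (nat_lit 5) (nat_lit 2) (nat_lit 4) (nat_lit 431) (nat_lit 250) (nat_lit 219)) (XT.nd (nat_lit 78) (nat_lit 0) (nat_lit 0) (XT.lf (nat_lit 0) (nat_lit 72639535802) (nat_lit 76) (nat_lit 294063969311) (nat_lit 76) (nat_lit 292628435644) (nat_lit 1) (nat_lit 4) (nat_lit 2) (nat_lit 5) (nat_lit 2) (nat_lit 4) (nat_lit 432) (nat_lit 250) (nat_lit 218)) (XT.lf (nat_lit 0) (nat_lit 78650921394) (nat_lit 76) (nat_lit 307519955583) (nat_lit 76) (nat_lit 306066265260) (nat_lit 1) (nat_lit 4) (nat_lit 2) (nat_lit 5) (nat_lit 2) (nat_lit 4) (nat_lit 433) (nat_lit 250) (nat_lit 217))))) (XT.nd (nat_lit 44070) (nat_lit 0) (nat_lit 76) (XT.nd (nat_lit 78) (nat_lit 0) (nat_lit 0) (XT.lf (nat_lit 0) (nat_lit 84929944262) (nat_lit 76) (nat_lit 321664745821) (nat_lit 76) (nat_lit 320193763445) (nat_lit 1) (nat_lit 4) (nat_lit 2) (nat_lit 5) (nat_lit 2) (nat_lit 4) (nat_lit 434) (nat_lit 250) (nat_lit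 216)) (XT.nd (nat_lit 78) (nat_lit 0) (nat_lit 0) (XT.lf (nat_lit 0) (nat_lit 91491554463) (nat_lit 76) (nat_lit 336532018099) (nat_lit 76) (nat_lit 335044567101) (nat_lit 1) (nat_lit 4) (nat_lit 2) (nat_lit 5) (nat_lit 2) (nat_lit 4) (nat_lit 435) (nat_lit 250) (nat_lit 215)) (XT.lf (nat_lit 0) (nat_lit 98351374877) (nat_lit 76) (nat_lit 352157170682) (nat_lit 76) (nat_lit 350654035283) (nat_lit 1) (nat_lit 4) (nat_lit 2) (nat_lit 5) (nat_lit 2) (nat_lit 4) (nat_lit 436) (nat_lit 250) (nat_lit 214)))) (XT.nd (nat_lit 78) (nat_lit 0) (nat_lit 0) (XT.lf (nat_lit 0) (nat_lit 19846755685) (nat_lit 152) (nat_lit 23855022203) (nat_lit 0) (nat_lit 19846755685) (nat_lit 2) (nat_lit 5) (nat_lit 4) (nat_lit 4) (nat_lit 2) (nat_lit 4) (nat_lit 398) (nat_lit 251) (nat_lit 251)) (XT.nd (nat_lit 78) (nat_lit 0) (nat_lit 0) (XT.lf (nat_lit 0) (nat_lit 44190559639) (nat_lit 152) (nat_lit 45030718772)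 (nat_lit 0) (nat_lit 44099718467) (nat_lit 2) (nat_lit 5) (nat_lit 4) (nat_lit 4) (nat_lit 2) (nat_lit 4) (nat_lit 399) (nat_lit 251) (nat_lit 250)) (XT.lf (nat_lit 0) (nat_lit 48830342048) (nat_lit 152) (nat_lit 42376918364) (nat_lit 0) (nat_lit 48652985474) (nat_lit 2) (nat_lit 5) (nat_lit 4) (nat_lit 4) (nat_lit 2) (nat_lit 4) (nat_lit 400) (nat_lit 251) (nat_lit 249)))))) (XT.nd (nat_lit 390) (nat_lit 0) (nat_lit 0) (XT.nd (nat_lit 156) (nat_lit 0) (nat_lit 0) (XT.nd (nat_lit 78) (nat_lit 0) (nat_lit 0) (XT.lf (nat_lit 0) (nat_lit 53623905696) (nat_lit 152) (nat_lit 39742324608) (nat_lit 0) (nat_lit 53364153501) (nat_lit 2) (nat_lit 5) (nat_lit 4) (nat_lit 4) (nat_lit 2) (nat_lit 4) (nat_lit 401) (nat_lit 251) (nat_lit 248)) (XT.lf (nat_lit 0) (nat_lit 58582663831) (nat_lit 152) (nat_lit 37120664663) (nat_lit 0) (nat_lit 58244439617) (nat_lit 2) (nat_lit 5) (nat_lit 4) (nat_lit 4)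 (nat_lit 2) (nat_lit 4) (nat_lit 402) (nat_lit 251) (nat_lit 247))) (XT.nd (nat_lit 78) (nat_lit 0) (nat_lit 0) (XT.lf (nat_lit 0) (nat_lit 63718423020) (nat_lit 152) (nat_lit 34505696480) (nat_lit 0) (nat_lit 63305463549) (nat_lit 2) (nat_lit 5) (nat_lit 4) (nat_lit 4) (nat_lit 2) (nat_lit 4) (nat_lit 403) (nat_lit 251) (nat_lit 246)) (XT.nd (nat_lit 78) (nat_lit 0) (nat_lit 0) (XT.lf (nat_lit 0) (nat_lit 69043411261) (nat_lit 152) (nat_lit 31891193947) (nat_lit 0) (nat_lit 68559275355) (nat_lit 2) (nat_lit 5) (nat_lit 4) (nat_lit 4) (nat_lit 2) (nat_lit 4) (nat_lit 404) (nat_lit 251) (nat_lit 245)) (XT.lf (nat_lit 0) (nat_lit 74570307097) (nat_lit 152) (nat_lit 29270932055) (nat_lit 0) (nat_lit 74018384110) (nat_lit 2) (nat_lit 5) (nat_lit 4) (nat_lit 4) (nat_lit 2) (nat_lit 4) (nat_lit 405) (nat_lit 251) (nat_lit 244))))) (XT.nd (nat_lit 234) (nat_lit 0) (nat_lit 0) (XT.nd (nat_lit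 78) (nat_lit 0) (nat_lit 0) (XT.lf (nat_lit 0) (nat_lit 80312269805) (nat_lit 152) (nat_lit 26638672087) (nat_lit 0) (nat_lit 79695787693) (nat_lit 2) (nat_lit 5) (nat_lit 4) (nat_lit 4) (nat_lit 2) (nat_lit 4) (nat_lit 406) (nat_lit 251) (nat_lit 243)) (XT.nd (nat_lit 78) (nat_lit 0) (nat_lit 0) (XT.lf (nat_lit 0) (nat_lit 86282970723) (nat_lit 152) (nat_lit 23988146757) (nat_lit 0) (nat_lit 85605003730) (nat_lit 2) (nat_lit 5) (nat_lit 4) (nat_lit 4) (nat_lit 2) (nat_lit 4) (nat_lit 407) (nat_lit 251) (nat_lit 242)) (XT.lf (nat_lit 0) (nat_lit 92496625807) (nat_lit 152) (nat_lit 21313045290) (nat_lit 0) (nat_lit 91760101785) (nat_lit 2) (nat_lit 5) (nat_lit 4) (nat_lit 4) (nat_lit 2) (nat_lit 4) (nat_lit 408) (nat_lit 251) (nat_lit 241)))) (XT.nd (nat_lit 78) (nat_lit 0) (nat_lit 0) (XT.lf (nat_lit 0) (nat_lit 98968029473) (nat_lit 152) (nat_lit 18606998398) (nat_lit 0) (nat_lit 98175736852)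 (nat_lit 2) (nat_lit 5) (nat_lit 4) (nat_lit 4) (nat_lit 2) (nat_lit 4) (nat_lit 409) (nat_lit 251) (nat_lit 240)) (XT.nd (nat_lit 78) (nat_lit 0) (nat_lit 0) (XT.lf (nat_lit 0) (nat_lit 105712589826) (nat_lit 152) (nat_lit 15863563110) (nat_lit 0) (nat_lit 104867184253) (nat_lit 2) (nat_lit 5) (nat_lit 4) (nat_lit 4) (nat_lit 2) (nat_lit 4) (nat_lit 410) (nat_lit 251) (nat_lit 239)) (XT.lf (nat_lit 0) (nat_lit 112746365342) (nat_lit 152) (nat_lit 13076207440) (nat_lit 0) (nat_lit 111850376005) (nat_lit 2) (nat_lit 5) (nat_lit 4) (nat_lit 4) (nat_lit 2) (nat_lit 4) (nat_lit 411) (nat_lit 251) (nat_lit 238))))))) (XT.nd (nat_lit 858) (nat_lit 0) (nat_lit 0) (XT.nd (nat_lit 390) (nat_lit 0) (nat_lit 0) (XT.nd (nat_lit 156) (nat_lit 76) (nat_lit 0) (XT.nd (nat_lit 78) (nat_lit 0) (nat_lit 0) (XT.lf (nat_lit 0) (nat_lit 120086103106) (nat_lit 152) (nat_lit 10238294824) (nat_lit 0) (nat_lit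 119141938756) (nat_lit 2) (nat_lit 5) (nat_lit 4) (nat_lit 4) (nat_lit 2) (nat_lit 4) (nat_lit 412) (nat_lit 251) (nat_lit 237)) (XT.lf (nat_lit 0) (nat_lit 127749278684) (nat_lit 152) (nat_lit 7343068329) (nat_lit 0) (nat_lit 126759233370) (nat_lit 2) (nat_lit 5) (nat_lit 4) (nat_lit 4) (nat_lit 2) (nat_lit 4) (nat_lit 413) (nat_lit 251) (nat_lit 236))) (XT.nd (nat_lit 78) (nat_lit 76) (nat_lit 0) (XT.lf (nat_lit 0) (nat_lit 135754137733) (nat_lit 152) (nat_lit 4383634559) (nat_lit 0) (nat_lit 134720396261) (nat_lit 2) (nat_lit 5) (nat_lit 4) (nat_lit 4) (nat_lit 2) (nat_lit 4) (nat_lit 414) (nat_lit 251) (nat_lit 235)) (XT.nd (nat_lit 78) (nat_lit 76) (nat_lit 0) (XT.lf (nat_lit 0) (nat_lit 144119739439) (nat_lit 152) (nat_lit 1352947241) (nat_lit 0) (nat_lit 143044382580) (nat_lit 2) (nat_lit 5) (nat_lit 4) (nat_lit 4) (nat_lit 2) (nat_lit 4) (nat_lit 415) (nat_lit 251) (nat_lit 234))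 (XT.lf (nat_lit 0) (nat_lit 1814277763) (nat_lit 76) (nat_lit 151080050101) (nat_lit 76) (nat_lit 149965059539) (nat_lit 1) (nat_lit 4) (nat_lit 2) (nat_lit 5) (nat_lit 2) (nat_lit 4) (nat_lit 416) (nat_lit 251) (nat_lit 233))))) (XT.nd (nat_lit 234) (nat_lit 0) (nat_lit 0) (XT.nd (nat_lit 78) (nat_lit 0) (nat_lit 0) (XT.lf (nat_lit 0) (nat_lit 5114948860) (nat_lit 76) (nat_lit 156978659386) (nat_lit 76) (nat_lit 155825922441) (nat_lit 1) (nat_lit 4) (nat_lit 2) (nat_lit 5) (nat_lit 2) (nat_lit 4) (nat_lit 417) (nat_lit 251) (nat_lit 232)) (XT.nd (nat_lit 78) (nat_lit 0) (nat_lit 0) (XT.lf (nat_lit 0) (nat_lit 8512190245) (nat_lit 76) (nat_lit 163205471660) (nat_lit 76) (nat_lit 162016785779) (nat_lit 1) (nat_lit 4) (nat_lit 2) (nat_lit 5) (nat_lit 2) (nat_lit 4) (nat_lit 418) (nat_lit 251) (nat_lit 231)) (XT.lf (nat_lit 0) (nat_lit 12014090588) (nat_lit 76) (nat_lit 169775312667) (nat_lit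 76) (nat_lit 168552389703) (nat_lit 1) (nat_lit 4) (nat_lit 2) (nat_lit 5) (nat_lit 2) (nat_lit 4) (nat_lit 419) (nat_lit 251) (nat_lit 230)))) (XT.nd (nat_lit 78) (nat_lit 0) (nat_lit 0) (XT.lf (nat_lit 0) (nat_lit 15628987745) (nat_lit 76) (nat_lit 176703824885) (nat_lit 76) (nat_lit 175448295176) (nat_lit 1) (nat_lit 4) (nat_lit 2) (nat_lit 5) (nat_lit 2) (nat_lit 4) (nat_lit 420) (nat_lit 251) (nat_lit 229)) (XT.nd (nat_lit 78) (nat_lit 0) (nat_lit 0) (XT.lf (nat_lit 0) (nat_lit 19365488616) (nat_lit 76) (nat_lit 184007504771) (nat_lit 76) (nat_lit 182720921020) (nat_lit 1) (nat_lit 4) (nat_lit 2) (nat_lit 5) (nat_lit 2) (nat_lit 4) (nat_lit 421) (nat_lit 251) (nat_lit 228)) (XT.lf (nat_lit 0) (nat_lit 23232489631) (nat_lit 76) (nat_lit 191703742041) (nat_lit 76) (nat_lit 190387583011) (nat_lit 1) (nat_lit 4) (nat_lit 2) (nat_lit 5) (nat_lit 2) (nat_lit 4) (nat_lit 422) (nat_lit 251)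 (nat_lit 227)))))) (XT.nd (nat_lit 468) (nat_lit 0) (nat_lit 0) (XT.nd (nat_lit 234) (nat_lit 0) (nat_lit 0) (XT.nd (nat_lit 78) (nat_lit 0) (nat_lit 0) (XT.lf (nat_lit 0) (nat_lit 27239197934) (nat_lit 76) (nat_lit 199810861069) (nat_lit 76) (nat_lit 198466535106) (nat_lit 1) (nat_lit 4) (nat_lit 2) (nat_lit 5) (nat_lit 2) (nat_lit 4) (nat_lit 423) (nat_lit 251) (nat_lit 226)) (XT.nd (nat_lit 78) (nat_lit 0) (nat_lit 0) (XT.lf (nat_lit 0) (nat_lit 31395153309) (nat_lit 76) (nat_lit 208348164518) (nat_lit 76) (nat_lit 206977012905) (nat_lit 1) (nat_lit 4) (nat_lit 2) (nat_lit 5) (nat_lit 2) (nat_lit 4) (nat_lit 424) (nat_lit 251) (nat_lit 225)) (XT.lf (nat_lit 0) (nat_lit 35710250887) (nat_lit 76) (nat_lit 217335979301) (nat_lit 76) (nat_lit 215939279451) (nat_lit 1) (nat_lit 4) (nat_lit 2) (nat_lit 5) (nat_lit 2) (nat_lit 4) (nat_lit 425) (nat_lit 251) (nat_lit 224)))) (XT.nd (nat_lit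 78) (nat_lit 0) (nat_lit 0) (XT.lf (nat_lit 0) (nat_lit 40194764709) (nat_lit 76) (nat_lit 226795704979) (nat_lit 76) (nat_lit 225374673473) (nat_lit 1) (nat_lit 4) (nat_lit 2) (nat_lit 5) (nat_lit 2) (nat_lit 4) (nat_lit 426) (nat_lit 251) (nat_lit 223)) (XT.nd (nat_lit 78) (nat_lit 0) (nat_lit 0) (XT.lf (nat_lit 0) (nat_lit 44859372189) (nat_lit 76) (nat_lit 236749864706) (nat_lit 76) (nat_lit 235305660196) (nat_lit 1) (nat_lit 4) (nat_lit 2) (nat_lit 5) (nat_lit 2) (nat_lit 4) (nat_lit 427) (nat_lit 251) (nat_lit 222)) (XT.lf (nat_lit 0) (nat_lit 49715179536) (nat_lit 76) (nat_lit 247222158864) (nat_lit 76) (nat_lit 245755884826) (nat_lit 1) (nat_lit 4) (nat_lit 2) (nat_lit 5) (nat_lit 2) (nat_lit 4) (nat_lit 428) (nat_lit 251) (nat_lit 221))))) (XT.nd (nat_lit 234) (nat_lit 0) (nat_lit 0) (XT.nd (nat_lit 78) (nat_lit 0) (nat_lit 0) (XT.lf (nat_lit 0) (nat_lit 54773748196) (nat_lit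 76) (nat_lit 258237521487) (nat_lit 76) (nat_lit 256750228849) (nat_lit 1) (nat_lit 4) (nat_lit 2) (nat_lit 5) (nat_lit 2) (nat_lit 4) (nat_lit 429) (nat_lit 251) (nat_lit 220)) (XT.nd (nat_lit 78) (nat_lit 0) (nat_lit 0) (XT.lf (nat_lit 0) (nat_lit 60047122380) (nat_lit 76) (nat_lit 269822179627) (nat_lit 76) (nat_lit 268314869276) (nat_lit 1) (nat_lit 4) (nat_lit 2) (nat_lit 5) (nat_lit 2) (nat_lit 4) (nat_lit 430) (nat_lit 251) (nat_lit 219)) (XT.lf (nat_lit 0) (nat_lit 65547857741) (nat_lit 76) (nat_lit 282003715804) (nat_lit 76) (nat_lit 280477340965) (nat_lit 1) (nat_lit 4) (nat_lit 2) (nat_lit 5) (nat_lit 2) (nat_lit 4) (nat_lit 431) (nat_lit 251) (nat_lit 218)))) (XT.nd (nat_lit 78) (nat_lit 0) (nat_lit 0) (XT.lf (nat_lit 0) (nat_lit 71289051267) (nat_lit 76) (nat_lit 294811133677) (nat_lit 76) (nat_lit 293266602182) (nat_lit 1) (nat_lit 4) (nat_lit 2) (nat_lit 5) (nat_lit 2) (nat_lit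 4) (nat_lit 432) (nat_lit 251) (nat_lit 217)) (XT.nd (nat_lit 78) (nat_lit 0) (nat_lit 0) (XT.lf (nat_lit 0) (nat_lit 77284372467) (nat_lit 76) (nat_lit 308274927096) (nat_lit 76) (nat_lit 306713103548) (nat_lit 1) (nat_lit 4) (nat_lit 2) (nat_lit 5) (nat_lit 2) (nat_lit 4) (nat_lit 433) (nat_lit 251) (nat_lit 216)) (XT.lf (nat_lit 0) (nat_lit 83548095915) (nat_lit 76) (nat_lit 322427152713) (nat_lit 76) (nat_lit 320848860544) (nat_lit 1) (nat_lit 4) (nat_lit 2) (nat_lit 5) (nat_lit 2) (nat_lit 4) (nat_lit 434) (nat_lit 251) (nat_lit 215))))))))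
noncomputable def xc9 : XT := (XT.nd (nat_lit 45474) (nat_lit 0) (nat_lit 0) (XT.nd (nat_lit 44538) (nat_lit 0) (nat_lit 0) (XT.nd (nat_lit 44070) (nat_lit 0) (nat_lit 76) (XT.nd (nat_lit 43836) (nat_lit 0) (nat_lit 76) (XT.nd (nat_lit 78) (nat_lit 0) (nat_lit 0) (XT.lf (nat_lit 0) (nat_lit 90095135239) (nat_lit 76) (nat_lit 337301506304) (nat_lit 76) (nat_lit 335707529733) (nat_lit 1) (nat_lit 4) (nat_lit 2) (nat_lit 5) (nat_lit 2) (nat_lit 4) (nat_lit 435) (nat_lit 251) (nat_lit 214)) (XT.lf (nat_lit 0) (nat_lit 96941078628) (nat_lit 76) (nat_lit 352933402996) (nat_lit 76) (nat_lit 351324488899) (nat_lit 1) (nat_lit 4) (nat_lit 2) (nat_lit 5) (nat_lit 2) (nat_lit 4) (nat_lit 436) (nat_lit 251) (nat_lit 213))) (XT.nd (nat_lit 78) (nat_lit 0) (nat_lit 0) (XT.lf (nat_lit 0) (nat_lit 15612324703) (nat_lit 152) (nat_lit 26542544694) (nat_lit 0) (nat_lit 15612324703) (nat_lit 2) (nat_lit 5)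 (nat_lit 4) (nat_lit 4) (nat_lit 2) (nat_lit 4) (nat_lit 396) (nat_lit 252) (nat_lit 252)) (XT.nd (nat_lit 78) (nat_lit 0) (nat_lit 0) (XT.lf (nat_lit 0) (nat_lit 35423873213) (nat_lit 152) (nat_lit 50421274612) (nat_lit 0) (nat_lit 35328489983) (nat_lit 2) (nat_lit 5) (nat_lit 4) (nat_lit 4) (nat_lit 2) (nat_lit 4) (nat_lit 397) (nat_lit 252) (nat_lit 251)) (XT.lf (nat_lit 0) (nat_lit 39746834021) (nat_lit 152) (nat_lit 47791735178) (nat_lit 0) (nat_lit 39560609619) (nat_lit 2) (nat_lit 5) (nat_lit 4) (nat_lit 4) (nat_lit 2) (nat_lit 4) (nat_lit 398) (nat_lit 252) (nat_lit 250))))) (XT.nd (nat_lit 234) (nat_lit 0) (nat_lit 0) (XT.nd (nat_lit 78) (nat_lit 0) (nat_lit 0) (XT.lf (nat_lit 0) (nat_lit 44203824595) (nat_lit 152) (nat_lit 45190210279) (nat_lit 0) (nat_lit 43931084791) (nat_lit 2) (nat_lit 5) (nat_lit 4) (nat_lit 4) (nat_lit 2) (nat_lit 4) (nat_lit 399) (nat_lit 252) (nat_lit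 249)) (XT.nd (nat_lit 78) (nat_lit 0) (nat_lit 0) (XT.lf (nat_lit 0) (nat_lit 48805456818) (nat_lit 152) (nat_lit 42610505809) (nat_lit 0) (nat_lit 48450321393) (nat_lit 2) (nat_lit 5) (nat_lit 4) (nat_lit 4) (nat_lit 2) (nat_lit 4) (nat_lit 400) (nat_lit 252) (nat_lit 248)) (XT.lf (nat_lit 0) (nat_lit 53562686956) (nat_lit 152) (nat_lit 40046479613) (nat_lit 0) (nat_lit 53129079512) (nat_lit 2) (nat_lit 5) (nat_lit 4) (nat_lit 4) (nat_lit 2) (nat_lit 4) (nat_lit 401) (nat_lit 252) (nat_lit 247)))) (XT.nd (nat_lit 78) (nat_lit 0) (nat_lit 0) (XT.lf (nat_lit 0) (nat_lit 58486841749) (nat_lit 152) (nat_lit 37492026868) (nat_lit 0) (nat_lit 57978499047) (nat_lit 2) (nat_lit 5) (nat_lit 4) (nat_lit 4) (nat_lit 2) (nat_lit 4) (nat_lit 402) (nat_lit 252) (nat_lit 246)) (XT.nd (nat_lit 78) (nat_lit 0) (nat_lit 0) (XT.lf (nat_lit 0) (nat_lit 63589645373) (nat_lit 152) (nat_lit 34941065543) (nat_lit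 0) (nat_lit 63010126236) (nat_lit 2) (nat_lit 5) (nat_lit 4) (nat_lit 4) (nat_lit 2) (nat_lit 4) (nat_lit 403) (nat_lit 252) (nat_lit 245)) (XT.lf (nat_lit 0) (nat_lit 68883247362) (nat_lit 152) (nat_lit 32387521921) (nat_lit 0) (nat_lit 68235941144) (nat_lit 2) (nat_lit 5) (nat_lit 4) (nat_lit 4) (nat_lit 2) (nat_lit 4) (nat_lit 404) (nat_lit 252) (nat_lit 244)))))) (XT.nd (nat_lit 468) (nat_lit 76) (nat_lit 0) (XT.nd (nat_lit 234) (nat_lit 0) (nat_lit 0) (XT.nd (nat_lit 78) (nat_lit 0) (nat_lit 0) (XT.lf (nat_lit 0) (nat_lit 74380251530) (nat_lit 152) (nat_lit 29825316136) (nat_lit 0) (nat_lit 73668386187) (nat_lit 2) (nat_lit 5) (nat_lit 4) (nat_lit 4) (nat_lit 2) (nat_lit 4) (nat_lit 405) (nat_lit 252) (nat_lit 243)) (XT.nd (nat_lit 78) (nat_lit 0) (nat_lit 0) (XT.lf (nat_lit 0) (nat_lit 80093745981) (nat_lit 152) (nat_lit 27248347698) (nat_lit 0) (nat_lit 79320395758) (nat_lit 2)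 (nat_lit 5) (nat_lit 4) (nat_lit 4) (nat_lit 2) (nat_lit 4) (nat_lit 406) (nat_lit 252) (nat_lit 242)) (XT.lf (nat_lit 0) (nat_lit 86037334275) (nat_lit 152) (nat_lit 24650480968) (nat_lit 0) (nat_lit 85205427023) (nat_lit 2) (nat_lit 5) (nat_lit 4) (nat_lit 4) (nat_lit 2) (nat_lit 4) (nat_lit 407) (nat_lit 252) (nat_lit 241)))) (XT.nd (nat_lit 78) (nat_lit 0) (nat_lit 0) (XT.lf (nat_lit 0) (nat_lit 92225167812) (nat_lit 152) (nat_lit 22025530549) (nat_lit 0) (nat_lit 91337491960) (nat_lit 2) (nat_lit 5) (nat_lit 4) (nat_lit 4) (nat_lit 2) (nat_lit 4) (nat_lit 408) (nat_lit 252) (nat_lit 240)) (XT.nd (nat_lit 78) (nat_lit 0) (nat_lit 0) (XT.lf (nat_lit 0) (nat_lit 98671979529) (nat_lit 152) (nat_lit 19367246558) (nat_lit 0) (nat_lit 97731190725) (nat_lit 2) (nat_lit 5) (nat_lit 4) (nat_lit 4) (nat_lit 2) (nat_lit 4) (nat_lit 409) (nat_lit 252) (nat_lit 239)) (XT.lf (nat_lit 0) (nat_lit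 105393118977) (nat_lit 152) (nat_lit 16669299750) (nat_lit 0) (nat_lit 104401746409) (nat_lit 2) (nat_lit 5) (nat_lit 4) (nat_lit 4) (nat_lit 2) (nat_lit 4) (nat_lit 410) (nat_lit 252) (nat_lit 238))))) (XT.nd (nat_lit 234) (nat_lit 76) (nat_lit 0) (XT.nd (nat_lit 78) (nat_lit 0) (nat_lit 0) (XT.lf (nat_lit 0) (nat_lit 112404588869) (nat_lit 152) (nat_lit 13925266439) (nat_lit 0) (nat_lit 111365041289) (nat_lit 2) (nat_lit 5) (nat_lit 4) (nat_lit 4) (nat_lit 2) (nat_lit 4) (nat_lit 411) (nat_lit 252) (nat_lit 237)) (XT.nd (nat_lit 78) (nat_lit 0) (nat_lit 0) (XT.lf (nat_lit 0) (nat_lit 119723083183) (nat_lit 152) (nat_lit 11128613215) (nat_lit 0) (nat_lit 118637654638) (nat_lit 2) (nat_lit 5) (nat_lit 4) (nat_lit 4) (nat_lit 2) (nat_lit 4) (nat_lit 412) (nat_lit 252) (nat_lit 236)) (XT.lf (nat_lit 0) (nat_lit 127366026903) (nat_lit 152) (nat_lit 8272681378) (nat_lit 0) (nat_lit 126236902201)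 (nat_lit 2) (nat_lit 5) (nat_lit 4) (nat_lit 4) (nat_lit 2) (nat_lit 4) (nat_lit 413) (nat_lit 252) (nat_lit 235)))) (XT.nd (nat_lit 78) (nat_lit 76) (nat_lit 0) (XT.lf (nat_lit 0) (nat_lit 135351617515) (nat_lit 152) (nat_lit 5350671091) (nat_lit 0) (nat_lit 134180877426) (nat_lit 2) (nat_lit 5) (nat_lit 4) (nat_lit 4) (nat_lit 2) (nat_lit 4) (nat_lit 414) (nat_lit 252) (nat_lit 234)) (XT.nd (nat_lit 78) (nat_lit 76) (nat_lit 0) (XT.lf (nat_lit 0) (nat_lit 143698868330) (nat_lit 152) (nat_lit 2355625187) (nat_lit 0) (nat_lit 142488494538) (nat_lit 2) (nat_lit 5) (nat_lit 4) (nat_lit 4) (nat_lit 2) (nat_lit 4) (nat_lit 415) (nat_lit 252) (nat_lit 233)) (XT.lf (nat_lit 0) (nat_lit 743380205) (nat_lit 76) (nat_lit 151695879798) (nat_lit 76) (nat_lit 150447759623) (nat_lit 1) (nat_lit 4) (nat_lit 2) (nat_lit 5) (nat_lit 2) (nat_lit 4) (nat_lit 416) (nat_lit 252) (nat_lit 232))))))) (XT.nd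 (nat_lit 858) (nat_lit 0) (nat_lit 0) (XT.nd (nat_lit 390) (nat_lit 0) (nat_lit 0) (XT.nd (nat_lit 156) (nat_lit 0) (nat_lit 0) (XT.nd (nat_lit 78) (nat_lit 0) (nat_lit 0) (XT.lf (nat_lit 0) (nat_lit 4010654586) (nat_lit 76) (nat_lit 157610719583) (nat_lit 76) (nat_lit 156326650472) (nat_lit 1) (nat_lit 4) (nat_lit 2) (nat_lit 5) (nat_lit 2) (nat_lit 4) (nat_lit 417) (nat_lit 252) (nat_lit 231)) (XT.lf (nat_lit 0) (nat_lit 7376089575) (nat_lit 76) (nat_lit 163852989476) (nat_lit 76) (nat_lit 162534683282) (nat_lit 1) (nat_lit 4) (nat_lit 2) (nat_lit 5) (nat_lit 2) (nat_lit 4) (nat_lit 418) (nat_lit 252) (nat_lit 230))) (XT.nd (nat_lit 78) (nat_lit 0) (nat_lit 0) (XT.lf (nat_lit 0) (nat_lit 10847698112) (nat_lit 76) (nat_lit 170437552025) (nat_lit 76) (nat_lit 169086639086) (nat_lit 1) (nat_lit 4) (nat_lit 2) (nat_lit 5) (nat_lit 2) (nat_lit 4) (nat_lit 419) (nat_lit 252) (nat_lit 229))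 (XT.nd (nat_lit 78) (nat_lit 0) (nat_lit 0) (XT.lf (nat_lit 0) (nat_lit 14433745930) (nat_lit 76) (nat_lit 177380084759) (nat_lit 76) (nat_lit 175998117777) (nat_lit 1) (nat_lit 4) (nat_lit 2) (nat_lit 5) (nat_lit 2) (nat_lit 4) (nat_lit 420) (nat_lit 252) (nat_lit 228)) (XT.lf (nat_lit 0) (nat_lit 18142771240) (nat_lit 76) (nat_lit 184697117518) (nat_lit 76) (nat_lit 183285575258) (nat_lit 1) (nat_lit 4) (nat_lit 2) (nat_lit 5) (nat_lit 2) (nat_lit 4) (nat_lit 421) (nat_lit 252) (nat_lit 227))))) (XT.nd (nat_lit 234) (nat_lit 0) (nat_lit 0) (XT.nd (nat_lit 78) (nat_lit 0) (nat_lit 0) (XT.lf (nat_lit 0) (nat_lit 21983605054) (nat_lit 76) (nat_lit 192406071810) (nat_lit 76) (nat_lit 190966362617) (nat_lit 1) (nat_lit 4) (nat_lit 2) (nat_lit 5) (nat_lit 2) (nat_lit 4) (nat_lit 422) (nat_lit 252) (nat_lit 226)) (XT.nd (nat_lit 78) (nat_lit 0) (nat_lit 0) (XT.lf (nat_lit 0) (nat_lit 25965392215)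 (nat_lit 76) (nat_lit 200525302286) (nat_lit 76) (nat_lit 199058767443) (nat_lit 1) (nat_lit 4) (nat_lit 2) (nat_lit 5) (nat_lit 2) (nat_lit 4) (nat_lit 423) (nat_lit 252) (nat_lit 225)) (XT.lf (nat_lit 0) (nat_lit 30097613167) (nat_lit 76) (nat_lit 209074140448) (nat_lit 76) (nat_lit 207582057368) (nat_lit 1) (nat_lit 4) (nat_lit 2) (nat_lit 5) (nat_lit 2) (nat_lit 4) (nat_lit 424) (nat_lit 252) (nat_lit 224)))) (XT.nd (nat_lit 78) (nat_lit 0) (nat_lit 0) (XT.lf (nat_lit 0) (nat_lit 34390106533) (nat_lit 76) (nat_lit 218072940673) (nat_lit 76) (nat_lit 216556525937) (nat_lit 1) (nat_lit 4) (nat_lit 2) (nat_lit 5) (nat_lit 2) (nat_lit 4) (nat_lit 425) (nat_lit 252) (nat_lit 223)) (XT.nd (nat_lit 78) (nat_lit 0) (nat_lit 0) (XT.lf (nat_lit 0) (nat_lit 38853092534) (nat_lit 76) (nat_lit 227543128676) (nat_lit 76) (nat_lit 226003540935) (nat_lit 1) (nat_lit 4) (nat_lit 2) (nat_lit 5) (nat_lit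 2) (nat_lit 4) (nat_lit 426) (nat_lit 252) (nat_lit 222)) (XT.lf (nat_lit 0) (nat_lit 43497197328) (nat_lit 76) (nat_lit 237507252522) (nat_lit 76) (nat_lit 235945595253) (nat_lit 1) (nat_lit 4) (nat_lit 2) (nat_lit 5) (nat_lit 2) (nat_lit 4) (nat_lit 427) (nat_lit 252) (nat_lit 221)))))) (XT.nd (nat_lit 468) (nat_lit 0) (nat_lit 0) (XT.nd (nat_lit 234) (nat_lit 0) (nat_lit 0) (XT.nd (nat_lit 78) (nat_lit 0) (nat_lit 0) (XT.lf (nat_lit 0) (nat_lit 48333478307) (nat_lit 76) (nat_lit 247989036318) (nat_lit 76) (nat_lit 246406360450) (nat_lit 1) (nat_lit 4) (nat_lit 2) (nat_lit 5) (nat_lit 2) (nat_lit 4) (nat_lit 428) (nat_lit 252) (nat_lit 220)) (XT.nd (nat_lit 78) (nat_lit 0) (nat_lit 0) (XT.lf (nat_lit 0) (nat_lit 53373450426) (nat_lit 76) (nat_lit 259013436689) (nat_lit 76) (nat_lit 257410743109) (nat_lit 1) (nat_lit 4) (nat_lit 2) (nat_lit 5) (nat_lit 2) (nat_lit 4) (nat_lit 429) (nat_lit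 252) (nat_lit 219)) (XT.lf (nat_lit 0) (nat_lit 58629113618) (nat_lit 76) (nat_lit 270606702210) (nat_lit 76) (nat_lit 268984944141) (nat_lit 1) (nat_lit 4) (nat_lit 2) (nat_lit 5) (nat_lit 2) (nat_lit 4) (nat_lit 430) (nat_lit 252) (nat_lit 218)))) (XT.nd (nat_lit 78) (nat_lit 0) (nat_lit 0) (XT.lf (nat_lit 0) (nat_lit 64112981368) (nat_lit 76) (nat_lit 282796435893) (nat_lit 76) (nat_lit 281156521168) (nat_lit 1) (nat_lit 4) (nat_lit 2) (nat_lit 5) (nat_lit 2) (nat_lit 4) (nat_lit 431) (nat_lit 252) (nat_lit 217)) (XT.nd (nat_lit 78) (nat_lit 0) (nat_lit 0) (XT.lf (nat_lit 0) (nat_lit 69838110502) (nat_lit 76) (nat_lit 295611660913) (nat_lit 76) (nat_lit 293954454135) (nat_lit 1) (nat_lit 4) (nat_lit 2) (nat_lit 5) (nat_lit 2) (nat_lit 4) (nat_lit 432) (nat_lit 252) (nat_lit 216)) (XT.lf (nat_lit 0) (nat_lit 75818132282) (nat_lit 76) (nat_lit 309082889712) (nat_lit 76) (nat_lit 307409214312)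 (nat_lit 1) (nat_lit 4) (nat_lit 2) (nat_lit 5) (nat_lit 2) (nat_lit 4) (nat_lit 433) (nat_lit 252) (nat_lit 215))))) (XT.nd (nat_lit 43758) (nat_lit 0) (nat_lit 76) (XT.nd (nat_lit 78) (nat_lit 0) (nat_lit 0) (XT.lf (nat_lit 0) (nat_lit 82067284854) (nat_lit 76) (nat_lit 323242196643) (nat_lit 76) (nat_lit 321552836841) (nat_lit 1) (nat_lit 4) (nat_lit 2) (nat_lit 5) (nat_lit 2) (nat_lit 4) (nat_lit 434) (nat_lit 252) (nat_lit 214)) (XT.nd (nat_lit 78) (nat_lit 0) (nat_lit 0) (XT.lf (nat_lit 0) (nat_lit 88600447153) (nat_lit 76) (nat_lit 338123294341) (nat_lit 76) (nat_lit 336418997014) (nat_lit 1) (nat_lit 4) (nat_lit 2) (nat_lit 5) (nat_lit 2) (nat_lit 4) (nat_lit 435) (nat_lit 252) (nat_lit 213)) (XT.lf (nat_lit 0) (nat_lit 95433174327) (nat_lit 76) (nat_lit 353761613993) (nat_lit 76) (nat_lit 352043090451) (nat_lit 1) (nat_lit 4) (nat_lit 2) (nat_lit 5) (nat_lit 2) (nat_lit 4) (nat_lit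 436) (nat_lit 252) (nat_lit 212)))) (XT.nd (nat_lit 78) (nat_lit 0) (nat_lit 0) (XT.lf (nat_lit 0) (nat_lit 11652107591) (nat_lit 152) (nat_lit 29225473636) (nat_lit 0) (nat_lit 11652107591) (nat_lit 2) (nat_lit 5) (nat_lit 4) (nat_lit 4) (nat_lit 2) (nat_lit 4) (nat_lit 394) (nat_lit 253) (nat_lit 253)) (XT.nd (nat_lit 78) (nat_lit 0) (nat_lit 0) (XT.lf (nat_lit 0) (nat_lit 27239316844) (nat_lit 152) (nat_lit 55789521926) (nat_lit 0) (nat_lit 27139164452) (nat_lit 2) (nat_lit 5) (nat_lit 4) (nat_lit 4) (nat_lit 2) (nat_lit 4) (nat_lit 395) (nat_lit 253) (nat_lit 252)) (XT.lf (nat_lit 0) (nat_lit 31280638191) (nat_lit 152) (nat_lit 53170864700) (nat_lit 0) (nat_lit 31085102568) (nat_lit 2) (nat_lit 5) (nat_lit 4) (nat_lit 4) (nat_lit 2) (nat_lit 4) (nat_lit 396) (nat_lit 253) (nat_lit 251))))))))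
noncomputable def xc10 : XT := (XT.nd (nat_lit 1794) (nat_lit 0) (nat_lit 0) (XT.nd (nat_lit 858) (nat_lit 76) (nat_lit 0) (XT.nd (nat_lit 390) (nat_lit 0) (nat_lit 0) (XT.nd (nat_lit 156) (nat_lit 0) (nat_lit 0) (XT.nd (nat_lit 78) (nat_lit 0) (nat_lit 0) (XT.lf (nat_lit 0) (nat_lit 35437801417) (nat_lit 152) (nat_lit 50588740694) (nat_lit 0) (nat_lit 35151424623) (nat_lit 2) (nat_lit 5) (nat_lit 4) (nat_lit 4) (nat_lit 2) (nat_lit 4) (nat_lit 397) (nat_lit 253) (nat_lit 250)) (XT.lf (nat_lit 0) (nat_lit 39720704530) (nat_lit 152) (nat_lit 48037001995) (nat_lit 0) (nat_lit 39347812334) (nat_lit 2) (nat_lit 5) (nat_lit 4) (nat_lit 4) (nat_lit 2) (nat_lit 4) (nat_lit 398) (nat_lit 253) (nat_lit 249))) (XT.nd (nat_lit 78) (nat_lit 0) (nat_lit 0) (XT.lf (nat_lit 0) (nat_lit 44139544919) (nat_lit 152) (nat_lit 45509573035) (nat_lit 0) (nat_lit 43684257102) (nat_lit 2) (nat_lit 5) (nat_lit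 4) (nat_lit 4) (nat_lit 2) (nat_lit 4) (nat_lit 399) (nat_lit 253) (nat_lit 248)) (XT.nd (nat_lit 78) (nat_lit 0) (nat_lit 0) (XT.lf (nat_lit 0) (nat_lit 48704843632) (nat_lit 152) (nat_lit 43000436124) (nat_lit 0) (nat_lit 48171083795) (nat_lit 2) (nat_lit 5) (nat_lit 4) (nat_lit 4) (nat_lit 2) (nat_lit 4) (nat_lit 400) (nat_lit 253) (nat_lit 247)) (XT.lf (nat_lit 0) (nat_lit 53427470427) (nat_lit 152) (nat_lit 40503617129) (nat_lit 0) (nat_lit 52818975334) (nat_lit 2) (nat_lit 5) (nat_lit 4) (nat_lit 4) (nat_lit 2) (nat_lit 4) (nat_lit 401) (nat_lit 253) (nat_lit 246))))) (XT.nd (nat_lit 234) (nat_lit 0) (nat_lit 0) (XT.nd (nat_lit 78) (nat_lit 0) (nat_lit 0) (XT.lf (nat_lit 0) (nat_lit 58318669655) (nat_lit 152) (nat_lit 38013171241) (nat_lit 0) (nat_lit 57638998126) (nat_lit 2) (nat_lit 5) (nat_lit 4) (nat_lit 4) (nat_lit 2) (nat_lit 4) (nat_lit 402) (nat_lit 253) (nat_lit 245)) (XT.nd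 (nat_lit 78) (nat_lit 0) (nat_lit 0) (XT.lf (nat_lit 0) (nat_lit 63390087027) (nat_lit 152) (nat_lit 35523168828) (nat_lit 0) (nat_lit 62642628417) (nat_lit 2) (nat_lit 5) (nat_lit 4) (nat_lit 4) (nat_lit 2) (nat_lit 4) (nat_lit 403) (nat_lit 253) (nat_lit 244)) (XT.lf (nat_lit 0) (nat_lit 68653797347) (nat_lit 152) (nat_lit 33027681312) (nat_lit 0) (nat_lit 67841779613) (nat_lit 2) (nat_lit 5) (nat_lit 4) (nat_lit 4) (nat_lit 2) (nat_lit 4) (nat_lit 404) (nat_lit 253) (nat_lit 243)))) (XT.nd (nat_lit 78) (nat_lit 0) (nat_lit 0) (XT.lf (nat_lit 0) (nat_lit 74122333259) (nat_lit 152) (nat_lit 30520767057) (nat_lit 0) (nat_lit 73248830644) (nat_lit 2) (nat_lit 5) (nat_lit 4) (nat_lit 4) (nat_lit 2) (nat_lit 4) (nat_lit 405) (nat_lit 253) (nat_lit 242)) (XT.nd (nat_lit 78) (nat_lit 0) (nat_lit 0) (XT.lf (nat_lit 0) (nat_lit 79808715086) (nat_lit 152) (nat_lit 27996457219) (nat_lit 0) (nat_lit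 78876655442) (nat_lit 2) (nat_lit 5) (nat_lit 4) (nat_lit 4) (nat_lit 2) (nat_lit 4) (nat_lit 406) (nat_lit 253) (nat_lit 241)) (XT.lf (nat_lit 0) (nat_lit 85726481833) (nat_lit 152) (nat_lit 25448741536) (nat_lit 0) (nat_lit 84738653589) (nat_lit 2) (nat_lit 5) (nat_lit 4) (nat_lit 4) (nat_lit 2) (nat_lit 4) (nat_lit 407) (nat_lit 253) (nat_lit 240)))))) (XT.nd (nat_lit 468) (nat_lit 76) (nat_lit 0) (XT.nd (nat_lit 234) (nat_lit 0) (nat_lit 0) (XT.nd (nat_lit 78) (nat_lit 0) (nat_lit 0) (XT.lf (nat_lit 0) (nat_lit 91889723420) (nat_lit 152) (nat_lit 22871554020) (nat_lit 0) (nat_lit 90848782224) (nat_lit 2) (nat_lit 5) (nat_lit 4) (nat_lit 4) (nat_lit 2) (nat_lit 4) (nat_lit 408) (nat_lit 253) (nat_lit 239)) (XT.nd (nat_lit 78) (nat_lit 0) (nat_lit 0) (XT.lf (nat_lit 0) (nat_lit 98313114232) (nat_lit 152) (nat_lit 20258758508) (nat_lit 0) (nat_lit 97221589273) (nat_lit 2) (nat_lit 5)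 (nat_lit 4) (nat_lit 4) (nat_lit 2) (nat_lit 4) (nat_lit 409) (nat_lit 253) (nat_lit 238)) (XT.lf (nat_lit 0) (nat_lit 105011948057) (nat_lit 152) (nat_lit 17604134059) (nat_lit 0) (nat_lit 103872248085) (nat_lit 2) (nat_lit 5) (nat_lit 4) (nat_lit 4) (nat_lit 2) (nat_lit 4) (nat_lit 410) (nat_lit 253) (nat_lit 237)))) (XT.nd (nat_lit 78) (nat_lit 0) (nat_lit 0) (XT.lf (nat_lit 0) (nat_lit 112002174499) (nat_lit 152) (nat_lit 14901360140) (nat_lit 0) (nat_lit 110816593562) (nat_lit 2) (nat_lit 5) (nat_lit 4) (nat_lit 4) (nat_lit 2) (nat_lit 4) (nat_lit 411) (nat_lit 253) (nat_lit 236)) (XT.nd (nat_lit 78) (nat_lit 0) (nat_lit 0) (XT.lf (nat_lit 0) (nat_lit 119300436954) (nat_lit 152) (nat_lit 12144001573) (nat_lit 0) (nat_lit 118071159860) (nat_lit 2) (nat_lit 5) (nat_lit 4) (nat_lit 4) (nat_lit 2) (nat_lit 4) (nat_lit 412) (nat_lit 253) (nat_lit 235)) (XT.lf (nat_lit 0) (nat_lit 126924112238)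 (nat_lit 152) (nat_lit 9325493220) (nat_lit 0) (nat_lit 125653219757) (nat_lit 2) (nat_lit 5) (nat_lit 4) (nat_lit 4) (nat_lit 2) (nat_lit 4) (nat_lit 413) (nat_lit 253) (nat_lit 234))))) (XT.nd (nat_lit 234) (nat_lit 76) (nat_lit 0) (XT.nd (nat_lit 78) (nat_lit 0) (nat_lit 0) (XT.lf (nat_lit 0) (nat_lit 134891351959) (nat_lit 152) (nat_lit 6439124347) (nat_lit 0) (nat_lit 133580825775) (nat_lit 2) (nat_lit 5) (nat_lit 4) (nat_lit 4) (nat_lit 2) (nat_lit 4) (nat_lit 414) (nat_lit 253) (nat_lit 233)) (XT.nd (nat_lit 78) (nat_lit 0) (nat_lit 0) (XT.lf (nat_lit 0) (nat_lit 143221125734) (nat_lit 152) (nat_lit 3478022646) (nat_lit 0) (nat_lit 141872853167) (nat_lit 2) (nat_lit 5) (nat_lit 4) (nat_lit 4) (nat_lit 2) (nat_lit 4) (nat_lit 415) (nat_lit 253) (nat_lit 232)) (XT.lf (nat_lit 0) (nat_lit 151933266360) (nat_lit 152) (nat_lit 435137875) (nat_lit 0) (nat_lit 150549044856) (nat_lit 2)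 (nat_lit 5) (nat_lit 4) (nat_lit 4) (nat_lit 2) (nat_lit 4) (nat_lit 416) (nat_lit 253) (nat_lit 231)))) (XT.nd (nat_lit 78) (nat_lit 0) (nat_lit 0) (XT.lf (nat_lit 0) (nat_lit 2785942487) (nat_lit 76) (nat_lit 158306070909) (nat_lit 76) (nat_lit 156887612324) (nat_lit 1) (nat_lit 4) (nat_lit 2) (nat_lit 5) (nat_lit 2) (nat_lit 4) (nat_lit 417) (nat_lit 253) (nat_lit 230)) (XT.nd (nat_lit 78) (nat_lit 0) (nat_lit 0) (XT.lf (nat_lit 0) (nat_lit 6121085670) (nat_lit 76) (nat_lit 164563062344) (nat_lit 76) (nat_lit 163111997014) (nat_lit 1) (nat_lit 4) (nat_lit 2) (nat_lit 5) (nat_lit 2) (nat_lit 4) (nat_lit 418) (nat_lit 253) (nat_lit 229)) (XT.lf (nat_lit 0) (nat_lit 9563844867) (nat_lit 76) (nat_lit 171161645409) (nat_lit 76) (nat_lit 169679526035) (nat_lit 1) (nat_lit 4) (nat_lit 2) (nat_lit 5) (nat_lit 2) (nat_lit 4) (nat_lit 419) (nat_lit 253) (nat_lit 228))))))) (XT.nd (nat_lit 858)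 (nat_lit 0) (nat_lit 0) (XT.nd (nat_lit 390) (nat_lit 0) (nat_lit 0) (XT.nd (nat_lit 156) (nat_lit 0) (nat_lit 0) (XT.nd (nat_lit 78) (nat_lit 0) (nat_lit 0) (XT.lf (nat_lit 0) (nat_lit 13122417125) (nat_lit 76) (nat_lit 178117531016) (nat_lit 76) (nat_lit 176605836363) (nat_lit 1) (nat_lit 4) (nat_lit 2) (nat_lit 5) (nat_lit 2) (nat_lit 4) (nat_lit 420) (nat_lit 253) (nat_lit 227)) (XT.lf (nat_lit 0) (nat_lit 16805275235) (nat_lit 76) (nat_lit 185447280797) (nat_lit 76) (nat_lit 183907419212) (nat_lit 1) (nat_lit 4) (nat_lit 2) (nat_lit 5) (nat_lit 2) (nat_lit 4) (nat_lit 421) (nat_lit 253) (nat_lit 226))) (XT.nd (nat_lit 78) (nat_lit 0) (nat_lit 0) (XT.lf (nat_lit 0) (nat_lit 20621187905) (nat_lit 76) (nat_lit 193168346537) (nat_lit 76) (nat_lit 191601659302) (nat_lit 1) (nat_lit 4) (nat_lit 2) (nat_lit 5) (nat_lit 2) (nat_lit 4) (nat_lit 422) (nat_lit 253) (nat_lit 225)) (XT.nd (nat_lit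 78) (nat_lit 0) (nat_lit 0) (XT.lf (nat_lit 0) (nat_lit 24579240643) (nat_lit 76) (nat_lit 201299111726) (nat_lit 76) (nat_lit 199706876254) (nat_lit 1) (nat_lit 4) (nat_lit 2) (nat_lit 5) (nat_lit 2) (nat_lit 4) (nat_lit 423) (nat_lit 253) (nat_lit 224)) (XT.lf (nat_lit 0) (nat_lit 28688857383) (nat_lit 76) (nat_lit 209858935330) (nat_lit 76) (nat_lit 208242368202) (nat_lit 1) (nat_lit 4) (nat_lit 2) (nat_lit 5) (nat_lit 2) (nat_lit 4) (nat_lit 424) (nat_lit 253) (nat_lit 223))))) (XT.nd (nat_lit 234) (nat_lit 0) (nat_lit 0) (XT.nd (nat_lit 78) (nat_lit 0) (nat_lit 0) (XT.lf (nat_lit 0) (nat_lit 32959822928) (nat_lit 76) (nat_lit 218868197880) (nat_lit 76) (nat_lit 217228457747) (nat_lit 1) (nat_lit 4) (nat_lit 2) (nat_lit 5) (nat_lit 2) (nat_lit 4) (nat_lit 425) (nat_lit 253) (nat_lit 222)) (XT.nd (nat_lit 78) (nat_lit 0) (nat_lit 0) (XT.lf (nat_lit 0) (nat_lit 37402306243) (nat_lit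 76) (nat_lit 228348350001) (nat_lit 76) (nat_lit 226686540340) (nat_lit 1) (nat_lit 4) (nat_lit 2) (nat_lit 5) (nat_lit 2) (nat_lit 4) (nat_lit 426) (nat_lit 253) (nat_lit 221)) (XT.lf (nat_lit 0) (nat_lit 42026884669) (nat_lit 76) (nat_lit 238321963485) (nat_lit 76) (nat_lit 236639135225) (nat_lit 1) (nat_lit 4) (nat_lit 2) (nat_lit 5) (nat_lit 2) (nat_lit 4) (nat_lit 427) (nat_lit 253) (nat_lit 220)))) (XT.nd (nat_lit 78) (nat_lit 0) (nat_lit 0) (XT.lf (nat_lit 0) (nat_lit 46844569107) (nat_lit 76) (nat_lit 248812785030) (nat_lit 76) (nat_lit 247109939057) (nat_lit 1) (nat_lit 4) (nat_lit 2) (nat_lit 5) (nat_lit 2) (nat_lit 4) (nat_lit 428) (nat_lit 253) (nat_lit 219)) (XT.nd (nat_lit 78) (nat_lit 0) (nat_lit 0) (XT.lf (nat_lit 0) (nat_lit 51866830234) (nat_lit 76) (nat_lit 259845792783) (nat_lit 76) (nat_lit 258123882321) (nat_lit 1) (nat_lit 4) (nat_lit 2) (nat_lit 5) (nat_lit 2) (nat_lit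 4) (nat_lit 429) (nat_lit 253) (nat_lit 218)) (XT.lf (nat_lit 0) (nat_lit 57105625816) (nat_lit 76) (nat_lit 271447255809) (nat_lit 76) (nat_lit 269707188692) (nat_lit 1) (nat_lit 4) (nat_lit 2) (nat_lit 5) (nat_lit 2) (nat_lit 4) (nat_lit 430) (nat_lit 253) (nat_lit 217)))))) (XT.nd (nat_lit 43836) (nat_lit 0) (nat_lit 76) (XT.nd (nat_lit 234) (nat_lit 0) (nat_lit 0) (XT.nd (nat_lit 78) (nat_lit 0) (nat_lit 0) (XT.lf (nat_lit 0) (nat_lit 62573429174) (nat_lit 76) (nat_lit 283644796640) (nat_lit 76) (nat_lit 281887437470) (nat_lit 1) (nat_lit 4) (nat_lit 2) (nat_lit 5) (nat_lit 2) (nat_lit 4) (nat_lit 431) (nat_lit 253) (nat_lit 216)) (XT.nd (nat_lit 78) (nat_lit 0) (nat_lit 0) (XT.lf (nat_lit 0) (nat_lit 68283258888) (nat_lit 76) (nat_lit 296467457039) (nat_lit 76) (nat_lit 294693629247) (nat_lit 1) (nat_lit 4) (nat_lit 2) (nat_lit 5) (nat_lit 2) (nat_lit 4) (nat_lit 432) (nat_lit 253)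 (nat_lit 215)) (XT.lf (nat_lit 0) (nat_lit 74248709792) (nat_lit 76) (nat_lit 309945767151) (nat_lit 76) (nat_lit 308156254957) (nat_lit 1) (nat_lit 4) (nat_lit 2) (nat_lit 5) (nat_lit 2) (nat_lit 4) (nat_lit 433) (nat_lit 253) (nat_lit 214)))) (XT.nd (nat_lit 78) (nat_lit 0) (nat_lit 0) (XT.lf (nat_lit 0) (nat_lit 80483985338) (nat_lit 76) (nat_lit 324111818190) (nat_lit 76) (nat_lit 322307368470) (nat_lit 1) (nat_lit 4) (nat_lit 2) (nat_lit 5) (nat_lit 2) (nat_lit 4) (nat_lit 434) (nat_lit 253) (nat_lit 213)) (XT.nd (nat_lit 78) (nat_lit 0) (nat_lit 0) (XT.lf (nat_lit 0) (nat_lit 87003931423) (nat_lit 76) (nat_lit 338999338848) (nat_lit 76) (nat_lit 337180662914) (nat_lit 1) (nat_lit 4) (nat_lit 2) (nat_lit 5) (nat_lit 2) (nat_lit 4) (nat_lit 435) (nat_lit 253) (nat_lit 212)) (XT.lf (nat_lit 0) (nat_lit 93824071726) (nat_lit 76) (nat_lit 354643775605) (nat_lit 76) (nat_lit 352811550894)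 (nat_lit 1) (nat_lit 4) (nat_lit 2) (nat_lit 5) (nat_lit 2) (nat_lit 4) (nat_lit 436) (nat_lit 253) (nat_lit 211))))) (XT.nd (nat_lit 234) (nat_lit 0) (nat_lit 0) (XT.nd (nat_lit 78) (nat_lit 0) (nat_lit 0) (XT.lf (nat_lit 0) (nat_lit 7934637372) (nat_lit 152) (nat_lit 31916499432) (nat_lit 0) (nat_lit 7934637372) (nat_lit 2) (nat_lit 5) (nat_lit 4) (nat_lit 4) (nat_lit 2) (nat_lit 4) (nat_lit 392) (nat_lit 254) (nat_lit 254)) (XT.nd (nat_lit 78) (nat_lit 0) (nat_lit 0) (XT.lf (nat_lit 0) (nat_lit 19571123928) (nat_lit 152) (nat_lit 61161477463) (nat_lit 0) (nat_lit 19465963917) (nat_lit 2) (nat_lit 5) (nat_lit 4) (nat_lit 4) (nat_lit 2) (nat_lit 4) (nat_lit 393) (nat_lit 254) (nat_lit 253)) (XT.lf (nat_lit 0) (nat_lit 23363003405) (nat_lit 152) (nat_lit 58541011348) (nat_lit 0) (nat_lit 23157691001) (nat_lit 2) (nat_lit 5) (nat_lit 4) (nat_lit 4) (nat_lit 2) (nat_lit 4) (nat_lit 394)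 (nat_lit 254) (nat_lit 252)))) (XT.nd (nat_lit 78) (nat_lit 0) (nat_lit 0) (XT.lf (nat_lit 0) (nat_lit 27253941458) (nat_lit 152) (nat_lit 55965361312) (nat_lit 0) (nat_lit 26953245824) (nat_lit 2) (nat_lit 5) (nat_lit 4) (nat_lit 4) (nat_lit 2) (nat_lit 4) (nat_lit 395) (nat_lit 254) (nat_lit 251)) (XT.nd (nat_lit 78) (nat_lit 0) (nat_lit 0) (XT.lf (nat_lit 0) (nat_lit 31253202225) (nat_lit 152) (nat_lit 53428394858) (nat_lit 0) (nat_lit 30861665419) (nat_lit 2) (nat_lit 5) (nat_lit 4) (nat_lit 4) (nat_lit 2) (nat_lit 4) (nat_lit 396) (nat_lit 254) (nat_lit 250)) (XT.lf (nat_lit 0) (nat_lit 35370307757) (nat_lit 152) (nat_lit 50924071587) (nat_lit 0) (nat_lit 34892255549) (nat_lit 2) (nat_lit 5) (nat_lit 4) (nat_lit 4) (nat_lit 2) (nat_lit 4) (nat_lit 397) (nat_lit 254) (nat_lit 249))))))))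
noncomputable def xc11 : XT := (XT.nd (nat_lit 1794) (nat_lit 0) (nat_lit 0) (XT.nd (nat_lit 858) (nat_lit 76) (nat_lit 0) (XT.nd (nat_lit 390) (nat_lit 0) (nat_lit 0) (XT.nd (nat_lit 156) (nat_lit 0) (nat_lit 0) (XT.nd (nat_lit 78) (nat_lit 0) (nat_lit 0) (XT.lf (nat_lit 0) (nat_lit 39615060685) (nat_lit 152) (nat_lit 48446428827) (nat_lit 0) (nat_lit 39054612856) (nat_lit 2) (nat_lit 5) (nat_lit 4) (nat_lit 4) (nat_lit 2) (nat_lit 4) (nat_lit 398) (nat_lit 254) (nat_lit 248)) (XT.lf (nat_lit 0) (nat_lit 43997567563) (nat_lit 152) (nat_lit 45989567426) (nat_lit 0) (nat_lit 43358647715) (nat_lit 2) (nat_lit 5) (nat_lit 4) (nat_lit 4) (nat_lit 2) (nat_lit 4) (nat_lit 399) (nat_lit 254) (nat_lit 247))) (XT.nd (nat_lit 78) (nat_lit 0) (nat_lit 0) (XT.lf (nat_lit 0) (nat_lit 48528262933) (nat_lit 152) (nat_lit 43547637716) (nat_lit 0) (nat_lit 47814607828) (nat_lit 2) (nat_lit 5) (nat_lit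 4) (nat_lit 4) (nat_lit 2) (nat_lit 4) (nat_lit 400) (nat_lit 254) (nat_lit 246)) (XT.nd (nat_lit 78) (nat_lit 0) (nat_lit 0) (XT.lf (nat_lit 0) (nat_lit 53217934164) (nat_lit 152) (nat_lit 41114825578) (nat_lit 0) (nat_lit 52433102624) (nat_lit 2) (nat_lit 5) (nat_lit 4) (nat_lit 4) (nat_lit 2) (nat_lit 4) (nat_lit 401) (nat_lit 254) (nat_lit 245)) (XT.lf (nat_lit 0) (nat_lit 58077747139) (nat_lit 152) (nat_lit 38685338602) (nat_lit 0) (nat_lit 57225128518) (nat_lit 2) (nat_lit 5) (nat_lit 4) (nat_lit 4) (nat_lit 2) (nat_lit 4) (nat_lit 402) (nat_lit 254) (nat_lit 244))))) (XT.nd (nat_lit 234) (nat_lit 0) (nat_lit 0) (XT.nd (nat_lit 78) (nat_lit 0) (nat_lit 0) (XT.lf (nat_lit 0) (nat_lit 63119272843) (nat_lit 152) (nat_lit 36253392295) (nat_lit 0) (nat_lit 62202095097) (nat_lit 2) (nat_lit 5) (nat_lit 4) (nat_lit 4) (nat_lit 2) (nat_lit 4) (nat_lit 403) (nat_lit 254) (nat_lit 243)) (XT.nd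 (nat_lit 78) (nat_lit 0) (nat_lit 0) (XT.lf (nat_lit 0) (nat_lit 68354514908) (nat_lit 152) (nat_lit 33813196310) (nat_lit 0) (nat_lit 67375852281) (nat_lit 2) (nat_lit 5) (nat_lit 4) (nat_lit 4) (nat_lit 2) (nat_lit 4) (nat_lit 404) (nat_lit 254) (nat_lit 242)) (XT.lf (nat_lit 0) (nat_lit 73795938195) (nat_lit 152) (nat_lit 31358940654) (nat_lit 0) (nat_lit 72758718539) (nat_lit 2) (nat_lit 5) (nat_lit 4) (nat_lit 4) (nat_lit 2) (nat_lit 4) (nat_lit 405) (nat_lit 254) (nat_lit 241)))) (XT.nd (nat_lit 78) (nat_lit 0) (nat_lit 0) (XT.lf (nat_lit 0) (nat_lit 79456498475) (nat_lit 152) (nat_lit 28884781864) (nat_lit 0) (nat_lit 78363510219) (nat_lit 2) (nat_lit 5) (nat_lit 4) (nat_lit 4) (nat_lit 2) (nat_lit 4) (nat_lit 406) (nat_lit 254) (nat_lit 240)) (XT.nd (nat_lit 78) (nat_lit 0) (nat_lit 0) (XT.lf (nat_lit 0) (nat_lit 85349673272) (nat_lit 152) (nat_lit 26384829083) (nat_lit 0) (nat_lit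 84203572064) (nat_lit 2) (nat_lit 5) (nat_lit 4) (nat_lit 4) (nat_lit 2) (nat_lit 4) (nat_lit 407) (nat_lit 254) (nat_lit 239)) (XT.lf (nat_lit 0) (nat_lit 91489493954) (nat_lit 152) (nat_lit 23853130045) (nat_lit 0) (nat_lit 90292808983) (nat_lit 2) (nat_lit 5) (nat_lit 4) (nat_lit 4) (nat_lit 2) (nat_lit 4) (nat_lit 408) (nat_lit 254) (nat_lit 238)))))) (XT.nd (nat_lit 468) (nat_lit 76) (nat_lit 0) (XT.nd (nat_lit 234) (nat_lit 0) (nat_lit 0) (XT.nd (nat_lit 78) (nat_lit 0) (nat_lit 0) (XT.lf (nat_lit 0) (nat_lit 97890579143) (nat_lit 152) (nat_lit 21283656894) (nat_lit 0) (nat_lit 96645719159) (nat_lit 2) (nat_lit 5) (nat_lit 4) (nat_lit 4) (nat_lit 2) (nat_lit 4) (nat_lit 409) (nat_lit 254) (nat_lit 237)) (XT.nd (nat_lit 78) (nat_lit 0) (nat_lit 0) (XT.lf (nat_lit 0) (nat_lit 104568169517) (nat_lit 152) (nat_lit 18670291836) (nat_lit 0) (nat_lit 103277428568) (nat_lit 2) (nat_lit 5)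 (nat_lit 4) (nat_lit 4) (nat_lit 2) (nat_lit 4) (nat_lit 410) (nat_lit 254) (nat_lit 236)) (XT.lf (nat_lit 0) (nat_lit 111538164101) (nat_lit 152) (nat_lit 16006812575) (nat_lit 0) (nat_lit 110203726996) (nat_lit 2) (nat_lit 5) (nat_lit 4) (nat_lit 4) (nat_lit 2) (nat_lit 4) (nat_lit 411) (nat_lit 254) (nat_lit 235)))) (XT.nd (nat_lit 78) (nat_lit 0) (nat_lit 0) (XT.lf (nat_lit 0) (nat_lit 118817158120) (nat_lit 152) (nat_lit 13286877492) (nat_lit 0) (nat_lit 117441105627) (nat_lit 2) (nat_lit 5) (nat_lit 4) (nat_lit 4) (nat_lit 2) (nat_lit 4) (nat_lit 412) (nat_lit 254) (nat_lit 234)) (XT.nd (nat_lit 78) (nat_lit 0) (nat_lit 0) (XT.lf (nat_lit 0) (nat_lit 126422482513) (nat_lit 152) (nat_lit 10504010552) (nat_lit 0) (nat_lit 125006796317) (nat_lit 2) (nat_lit 5) (nat_lit 4) (nat_lit 4) (nat_lit 2) (nat_lit 4) (nat_lit 413) (nat_lit 254) (nat_lit 233)) (XT.lf (nat_lit 0) (nat_lit 134372245194)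 (nat_lit 152) (nat_lit 7651585882) (nat_lit 0) (nat_lit 132918812615) (nat_lit 2) (nat_lit 5) (nat_lit 4) (nat_lit 4) (nat_lit 2) (nat_lit 4) (nat_lit 414) (nat_lit 254) (nat_lit 232))))) (XT.nd (nat_lit 234) (nat_lit 0) (nat_lit 0) (XT.nd (nat_lit 78) (nat_lit 76) (nat_lit 0) (XT.lf (nat_lit 0) (nat_lit 142685374170) (nat_lit 152) (nat_lit 4722811993) (nat_lit 0) (nat_lit 141195992655) (nat_lit 2) (nat_lit 5) (nat_lit 4) (nat_lit 4) (nat_lit 2) (nat_lit 4) (nat_lit 415) (nat_lit 254) (nat_lit 231)) (XT.nd (nat_lit 78) (nat_lit 76) (nat_lit 0) (XT.lf (nat_lit 0) (nat_lit 151381662605) (nat_lit 152) (nat_lit 1710715615) (nat_lit 0) (nat_lit 149858044008) (nat_lit 2) (nat_lit 5) (nat_lit 4) (nat_lit 4) (nat_lit 2) (nat_lit 4) (nat_lit 416) (nat_lit 254) (nat_lit 230)) (XT.lf (nat_lit 0) (nat_lit 1437896580) (nat_lit 76) (nat_lit 159066368963) (nat_lit 76) (nat_lit 157510143621) (nat_lit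 1) (nat_lit 4) (nat_lit 2) (nat_lit 5) (nat_lit 2) (nat_lit 4) (nat_lit 417) (nat_lit 254) (nat_lit 229)))) (XT.nd (nat_lit 78) (nat_lit 0) (nat_lit 0) (XT.lf (nat_lit 0) (nat_lit 4744190424) (nat_lit 76) (nat_lit 165337380914) (nat_lit 76) (nat_lit 163750101529) (nat_lit 1) (nat_lit 4) (nat_lit 2) (nat_lit 5) (nat_lit 2) (nat_lit 4) (nat_lit 418) (nat_lit 254) (nat_lit 228)) (XT.nd (nat_lit 78) (nat_lit 0) (nat_lit 0) (XT.lf (nat_lit 0) (nat_lit 8159474061) (nat_lit 76) (nat_lit 171949316851) (nat_lit 76) (nat_lit 170332462187) (nat_lit 1) (nat_lit 4) (nat_lit 2) (nat_lit 5) (nat_lit 2) (nat_lit 4) (nat_lit 419) (nat_lit 254) (nat_lit 227)) (XT.lf (nat_lit 0) (nat_lit 11691879118) (nat_lit 76) (nat_lit 178917919479) (nat_lit 76) (nat_lit 177272897883) (nat_lit 1) (nat_lit 4) (nat_lit 2) (nat_lit 5) (nat_lit 2) (nat_lit 4) (nat_lit 420) (nat_lit 254) (nat_lit 226))))))) (XT.nd (nat_lit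 858) (nat_lit 0) (nat_lit 0) (XT.nd (nat_lit 390) (nat_lit 0) (nat_lit 0) (XT.nd (nat_lit 156) (nat_lit 0) (nat_lit 0) (XT.nd (nat_lit 78) (nat_lit 0) (nat_lit 0) (XT.lf (nat_lit 0) (nat_lit 15349816084) (nat_lit 76) (nat_lit 186259780709) (nat_lit 76) (nat_lit 184587933463) (nat_lit 1) (nat_lit 4) (nat_lit 2) (nat_lit 5) (nat_lit 2) (nat_lit 4) (nat_lit 421) (nat_lit 254) (nat_lit 225)) (XT.lf (nat_lit 0) (nat_lit 19141994332) (nat_lit 76) (nat_lit 193992381163) (nat_lit 76) (nat_lit 192294985678) (nat_lit 1) (nat_lit 4) (nat_lit 2) (nat_lit 5) (nat_lit 2) (nat_lit 4) (nat_lit 422) (nat_lit 254) (nat_lit 224))) (XT.nd (nat_lit 78) (nat_lit 0) (nat_lit 0) (XT.lf (nat_lit 0) (nat_lit 23077442858) (nat_lit 76) (nat_lit 202134131793) (nat_lit 76) (nat_lit 200412404654) (nat_lit 1) (nat_lit 4) (nat_lit 2) (nat_lit 5) (nat_lit 2) (nat_lit 4) (nat_lit 423) (nat_lit 254) (nat_lit 223)) (XT.nd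 (nat_lit 78) (nat_lit 0) (nat_lit 0) (XT.lf (nat_lit 0) (nat_lit 27165531778) (nat_lit 76) (nat_lit 210704417722) (nat_lit 76) (nat_lit 208959517578) (nat_lit 1) (nat_lit 4) (nat_lit 2) (nat_lit 5) (nat_lit 2) (nat_lit 4) (nat_lit 424) (nat_lit 254) (nat_lit 222)) (XT.lf (nat_lit 0) (nat_lit 31415994636) (nat_lit 76) (nat_lit 219723644391) (nat_lit 76) (nat_lit 217956674718) (nat_lit 1) (nat_lit 4) (nat_lit 2) (nat_lit 5) (nat_lit 2) (nat_lit 4) (nat_lit 425) (nat_lit 254) (nat_lit 221))))) (XT.nd (nat_lit 234) (nat_lit 0) (nat_lit 0) (XT.nd (nat_lit 78) (nat_lit 0) (nat_lit 0) (XT.lf (nat_lit 0) (nat_lit 35838951583) (nat_lit 76) (nat_lit 229213286150) (nat_lit 76) (nat_lit 227425297878) (nat_lit 1) (nat_lit 4) (nat_lit 2) (nat_lit 5) (nat_lit 2) (nat_lit 4) (nat_lit 426) (nat_lit 254) (nat_lit 220)) (XT.nd (nat_lit 78) (nat_lit 0) (nat_lit 0) (XT.lf (nat_lit 0) (nat_lit 40444933467)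 (nat_lit 76) (nat_lit 239195937383) (nat_lit 76) (nat_lit 237387931399) (nat_lit 1) (nat_lit 4) (nat_lit 2) (nat_lit 5) (nat_lit 2) (nat_lit 4) (nat_lit 427) (nat_lit 254) (nat_lit 219)) (XT.lf (nat_lit 0) (nat_lit 45244906914) (nat_lit 76) (nat_lit 249695366309) (nat_lit 76) (nat_lit 247868295836) (nat_lit 1) (nat_lit 4) (nat_lit 2) (nat_lit 5) (nat_lit 2) (nat_lit 4) (nat_lit 428) (nat_lit 254) (nat_lit 218)))) (XT.nd (nat_lit 78) (nat_lit 0) (nat_lit 0) (XT.lf (nat_lit 0) (nat_lit 50250300431) (nat_lit 76) (nat_lit 260736571567) (nat_lit 76) (nat_lit 258891344438) (nat_lit 1) (nat_lit 4) (nat_lit 2) (nat_lit 5) (nat_lit 2) (nat_lit 4) (nat_lit 429) (nat_lit 254) (nat_lit 217)) (XT.nd (nat_lit 78) (nat_lit 0) (nat_lit 0) (XT.lf (nat_lit 0) (nat_lit 55473031621) (nat_lit 76) (nat_lit 272345841741) (nat_lit 76) (nat_lit 270483322559) (nat_lit 1) (nat_lit 4) (nat_lit 2) (nat_lit 5) (nat_lit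 2) (nat_lit 4) (nat_lit 430) (nat_lit 254) (nat_lit 216)) (XT.lf (nat_lit 0) (nat_lit 60925535558) (nat_lit 76) (nat_lit 284550817951) (nat_lit 76) (nat_lit 282671830147) (nat_lit 1) (nat_lit 4) (nat_lit 2) (nat_lit 5) (nat_lit 2) (nat_lit 4) (nat_lit 431) (nat_lit 254) (nat_lit 215)))))) (XT.nd (nat_lit 43680) (nat_lit 0) (nat_lit 76) (XT.nd (nat_lit 234) (nat_lit 0) (nat_lit 0) (XT.nd (nat_lit 78) (nat_lit 0) (nat_lit 0) (XT.lf (nat_lit 0) (nat_lit 66620794396) (nat_lit 76) (nat_lit 297380559663) (nat_lit 76) (nat_lit 295485887458) (nat_lit 1) (nat_lit 4) (nat_lit 2) (nat_lit 5) (nat_lit 2) (nat_lit 4) (nat_lit 432) (nat_lit 254) (nat_lit 214)) (XT.nd (nat_lit 78) (nat_lit 0) (nat_lit 0) (XT.lf (nat_lit 0) (nat_lit 72572368274) (nat_lit 76) (nat_lit 310865613883) (nat_lit 76) (nat_lit 308956004152) (nat_lit 1) (nat_lit 4) (nat_lit 2) (nat_lit 5) (nat_lit 2) (nat_lit 4) (nat_lit 433)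 (nat_lit 254) (nat_lit 213)) (XT.lf (nat_lit 0) (nat_lit 78794427607) (nat_lit 76) (nat_lit 325038087882) (nat_lit 76) (nat_lit 323114251936) (nat_lit 1) (nat_lit 4) (nat_lit 2) (nat_lit 5) (nat_lit 2) (nat_lit 4) (nat_lit 434) (nat_lit 254) (nat_lit 212)))) (XT.nd (nat_lit 78) (nat_lit 0) (nat_lit 0) (XT.lf (nat_lit 0) (nat_lit 85301786820) (nat_lit 76) (nat_lit 339931725645) (nat_lit 76) (nat_lit 337994340923) (nat_lit 1) (nat_lit 4) (nat_lit 2) (nat_lit 5) (nat_lit 2) (nat_lit 4) (nat_lit 435) (nat_lit 254) (nat_lit 211)) (XT.nd (nat_lit 43290) (nat_lit 0) (nat_lit 76) (XT.lf (nat_lit 0) (nat_lit 92109939627) (nat_lit 76) (nat_lit 355581988216) (nat_lit 76) (nat_lit 353631699898) (nat_lit 1) (nat_lit 4) (nat_lit 2) (nat_lit 5) (nat_lit 2) (nat_lit 4) (nat_lit 436) (nat_lit 254) (nat_lit 210)) (XT.lf (nat_lit 0) (nat_lit 4431073912) (nat_lit 152) (nat_lit 34627745823) (nat_lit 0) (nat_lit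 4431073912) (nat_lit 2) (nat_lit 5) (nat_lit 4) (nat_lit 4) (nat_lit 2) (nat_lit 4) (nat_lit 390) (nat_lit 255) (nat_lit 255))))) (XT.nd (nat_lit 234) (nat_lit 0) (nat_lit 0) (XT.nd (nat_lit 78) (nat_lit 0) (nat_lit 0) (XT.lf (nat_lit 0) (nat_lit 12359059936) (nat_lit 152) (nat_lit 66561936317) (nat_lit 0) (nat_lit 12248641924) (nat_lit 2) (nat_lit 5) (nat_lit 4) (nat_lit 4) (nat_lit 2) (nat_lit 4) (nat_lit 391) (nat_lit 255) (nat_lit 254)) (XT.nd (nat_lit 78) (nat_lit 0) (nat_lit 0) (XT.lf (nat_lit 0) (nat_lit 15931002377) (nat_lit 152) (nat_lit 63927566145) (nat_lit 0) (nat_lit 15715424354) (nat_lit 2) (nat_lit 5) (nat_lit 4) (nat_lit 4) (nat_lit 2) (nat_lit 4) (nat_lit 392) (nat_lit 255) (nat_lit 253)) (XT.lf (nat_lit 0) (nat_lit 19586479773) (nat_lit 152) (nat_lit 61346108819) (nat_lit 0) (nat_lit 19270749357) (nat_lit 2) (nat_lit 5) (nat_lit 4) (nat_lit 4) (nat_lit 2) (nat_lit 4)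 (nat_lit 393) (nat_lit 255) (nat_lit 252)))) (XT.nd (nat_lit 78) (nat_lit 0) (nat_lit 0) (XT.lf (nat_lit 0) (nat_lit 23334195641) (nat_lit 152) (nat_lit 58811418014) (nat_lit 0) (nat_lit 22923081995) (nat_lit 2) (nat_lit 5) (nat_lit 4) (nat_lit 4) (nat_lit 2) (nat_lit 4) (nat_lit 394) (nat_lit 255) (nat_lit 251)) (XT.nd (nat_lit 78) (nat_lit 0) (nat_lit 0) (XT.lf (nat_lit 0) (nat_lit 27183073114) (nat_lit 152) (nat_lit 56317458750) (nat_lit 0) (nat_lit 26681118297) (nat_lit 2) (nat_lit 5) (nat_lit 4) (nat_lit 4) (nat_lit 2) (nat_lit 4) (nat_lit 395) (nat_lit 255) (nat_lit 250)) (XT.lf (nat_lit 0) (nat_lit 31142276187) (nat_lit 152) (nat_lit 53858293031) (nat_lit 0) (nat_lit 30553805967) (nat_lit 2) (nat_lit 5) (nat_lit 4) (nat_lit 4) (nat_lit 2) (nat_lit 4) (nat_lit 396) (nat_lit 255) (nat_lit 249))))))))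
noncomputable def xc12 : XT := (XT.nd (nat_lit 1794) (nat_lit 0) (nat_lit 0) (XT.nd (nat_lit 858) (nat_lit 76) (nat_lit 0) (XT.nd (nat_lit 390) (nat_lit 0) (nat_lit 0) (XT.nd (nat_lit 156) (nat_lit 0) (nat_lit 0) (XT.nd (nat_lit 78) (nat_lit 0) (nat_lit 0) (XT.lf (nat_lit 0) (nat_lit 35221231533) (nat_lit 152) (nat_lit 51428065699) (nat_lit 0) (nat_lit 34550365693) (nat_lit 2) (nat_lit 5) (nat_lit 4) (nat_lit 4) (nat_lit 2) (nat_lit 4) (nat_lit 397) (nat_lit 255) (nat_lit 248)) (XT.lf (nat_lit 0) (nat_lit 39429650951) (nat_lit 152) (nat_lit 49020990498) (nat_lit 0) (nat_lit 38680313091) (nat_lit 2) (nat_lit 5) (nat_lit 4) (nat_lit 4) (nat_lit 2) (nat_lit 4) (nat_lit 398) (nat_lit 255) (nat_lit 247))) (XT.nd (nat_lit 78) (nat_lit 0) (nat_lit 0) (XT.lf (nat_lit 0) (nat_lit 43777554487) (nat_lit 152) (nat_lit 46631336298) (nat_lit 0) (nat_lit 42953481370) (nat_lit 2) (nat_lit 5) (nat_lit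 4) (nat_lit 4) (nat_lit 2) (nat_lit 4) (nat_lit 399) (nat_lit 255) (nat_lit 246)) (XT.nd (nat_lit 78) (nat_lit 0) (nat_lit 0) (XT.lf (nat_lit 0) (nat_lit 48275294292) (nat_lit 152) (nat_lit 44253413445) (nat_lit 0) (nat_lit 47380044740) (nat_lit 2) (nat_lit 5) (nat_lit 4) (nat_lit 4) (nat_lit 2) (nat_lit 4) (nat_lit 400) (nat_lit 255) (nat_lit 245)) (XT.lf (nat_lit 0) (nat_lit 52933579271) (nat_lit 152) (nat_lit 41881560219) (nat_lit 0) (nat_lit 51970542637) (nat_lit 2) (nat_lit 5) (nat_lit 4) (nat_lit 4) (nat_lit 2) (nat_lit 4) (nat_lit 401) (nat_lit 255) (nat_lit 244))))) (XT.nd (nat_lit 234) (nat_lit 0) (nat_lit 0) (XT.nd (nat_lit 78) (nat_lit 0) (nat_lit 0) (XT.lf (nat_lit 0) (nat_lit 57763500578) (nat_lit 152) (nat_lit 39510129349) (nat_lit 0) (nat_lit 56735904820) (nat_lit 2) (nat_lit 5) (nat_lit 4) (nat_lit 4) (nat_lit 2) (nat_lit 4) (nat_lit 402) (nat_lit 255) (nat_lit 243)) (XT.nd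 (nat_lit 78) (nat_lit 0) (nat_lit 0) (XT.lf (nat_lit 0) (nat_lit 62776558026) (nat_lit 152) (nat_lit 37133474572) (nat_lit 0) (nat_lit 61687477387) (nat_lit 2) (nat_lit 5) (nat_lit 4) (nat_lit 4) (nat_lit 2) (nat_lit 4) (nat_lit 403) (nat_lit 255) (nat_lit 242)) (XT.lf (nat_lit 0) (nat_lit 67984687466) (nat_lit 152) (nat_lit 34745937186) (nat_lit 0) (nat_lit 66837049797) (nat_lit 2) (nat_lit 5) (nat_lit 4) (nat_lit 4) (nat_lit 2) (nat_lit 4) (nat_lit 404) (nat_lit 255) (nat_lit 241)))) (XT.nd (nat_lit 78) (nat_lit 0) (nat_lit 0) (XT.lf (nat_lit 0) (nat_lit 73400289206) (nat_lit 152) (nat_lit 32341832579) (nat_lit 0) (nat_lit 72196882938) (nat_lit 2) (nat_lit 5) (nat_lit 4) (nat_lit 4) (nat_lit 2) (nat_lit 4) (nat_lit 405) (nat_lit 255) (nat_lit 240)) (XT.nd (nat_lit 78) (nat_lit 0) (nat_lit 0) (XT.lf (nat_lit 0) (nat_lit 79036257536) (nat_lit 152) (nat_lit 29915436690) (nat_lit 0) (nat_lit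 77779738316) (nat_lit 2) (nat_lit 5) (nat_lit 4) (nat_lit 4) (nat_lit 2) (nat_lit 4) (nat_lit 406) (nat_lit 255) (nat_lit 239)) (XT.lf (nat_lit 0) (nat_lit 84906011428) (nat_lit 152) (nat_lit 27460972389) (nat_lit 0) (nat_lit 83598908445) (nat_lit 2) (nat_lit 5) (nat_lit 4) (nat_lit 4) (nat_lit 2) (nat_lit 4) (nat_lit 407) (nat_lit 255) (nat_lit 238)))))) (XT.nd (nat_lit 468) (nat_lit 76) (nat_lit 0) (XT.nd (nat_lit 234) (nat_lit 0) (nat_lit 0) (XT.nd (nat_lit 78) (nat_lit 0) (nat_lit 0) (XT.lf (nat_lit 0) (nat_lit 91023526487) (nat_lit 152) (nat_lit 24972595711) (nat_lit 0) (nat_lit 89668248491) (nat_lit 2) (nat_lit 5) (nat_lit 4) (nat_lit 4) (nat_lit 2) (nat_lit 4) (nat_lit 408) (nat_lit 255) (nat_lit 237)) (XT.nd (nat_lit 78) (nat_lit 0) (nat_lit 0) (XT.lf (nat_lit 0) (nat_lit 97403368225) (nat_lit 152) (nat_lit 22444381950) (nat_lit 0) (nat_lit 96002209265) (nat_lit 2) (nat_lit 5)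 (nat_lit 4) (nat_lit 4) (nat_lit 2) (nat_lit 4) (nat_lit 409) (nat_lit 255) (nat_lit 236)) (XT.lf (nat_lit 0) (nat_lit 104060726741) (nat_lit 152) (nat_lit 19870311551) (nat_lit 0) (nat_lit 102615871624) (nat_lit 2) (nat_lit 5) (nat_lit 4) (nat_lit 4) (nat_lit 2) (nat_lit 4) (nat_lit 410) (nat_lit 255) (nat_lit 235)))) (XT.nd (nat_lit 78) (nat_lit 0) (nat_lit 0) (XT.lf (nat_lit 0) (nat_lit 111011452889) (nat_lit 152) (nat_lit 17244255773) (nat_lit 0) (nat_lit 109524982384) (nat_lit 2) (nat_lit 5) (nat_lit 4) (nat_lit 4) (nat_lit 2) (nat_lit 4) (nat_lit 411) (nat_lit 255) (nat_lit 234)) (XT.nd (nat_lit 78) (nat_lit 0) (nat_lit 0) (XT.lf (nat_lit 0) (nat_lit 118272096017) (nat_lit 152) (nat_lit 14559962104) (nat_lit 0) (nat_lit 116745991810) (nat_lit 2) (nat_lit 5) (nat_lit 4) (nat_lit 4) (nat_lit 2) (nat_lit 4) (nat_lit 412) (nat_lit 255) (nat_lit 233)) (XT.lf (nat_lit 0) (nat_lit 125859943370)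 (nat_lit 152) (nat_lit 11811039367) (nat_lit 0) (nat_lit 124296092779) (nat_lit 2) (nat_lit 5) (nat_lit 4) (nat_lit 4) (nat_lit 2) (nat_lit 4) (nat_lit 413) (nat_lit 255) (nat_lit 232))))) (XT.nd (nat_lit 234) (nat_lit 76) (nat_lit 0) (XT.nd (nat_lit 78) (nat_lit 0) (nat_lit 0) (XT.lf (nat_lit 0) (nat_lit 133793061252) (nat_lit 152) (nat_lit 8990942509) (nat_lit 0) (nat_lit 132193261724) (nat_lit 2) (nat_lit 5) (nat_lit 4) (nat_lit 4) (nat_lit 2) (nat_lit 4) (nat_lit 414) (nat_lit 255) (nat_lit 231)) (XT.nd (nat_lit 78) (nat_lit 0) (nat_lit 0) (XT.lf (nat_lit 0) (nat_lit 142090338037) (nat_lit 152) (nat_lit 6092957013) (nat_lit 0) (nat_lit 140456301428) (nat_lit 2) (nat_lit 5) (nat_lit 4) (nat_lit 4) (nat_lit 2) (nat_lit 4) (nat_lit 415) (nat_lit 255) (nat_lit 230)) (XT.lf (nat_lit 0) (nat_lit 150771529149) (nat_lit 152) (nat_lit 3110182913) (nat_lit 0) (nat_lit 149104885794) (nat_lit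 2) (nat_lit 5) (nat_lit 4) (nat_lit 4) (nat_lit 2) (nat_lit 4) (nat_lit 416) (nat_lit 255) (nat_lit 229)))) (XT.nd (nat_lit 78) (nat_lit 76) (nat_lit 0) (XT.lf (nat_lit 0) (nat_lit 159857304088) (nat_lit 152) (nat_lit 35518368) (nat_lit 0) (nat_lit 158159606691) (nat_lit 2) (nat_lit 5) (nat_lit 4) (nat_lit 4) (nat_lit 2) (nat_lit 4) (nat_lit 417) (nat_lit 255) (nat_lit 228)) (XT.nd (nat_lit 78) (nat_lit 0) (nat_lit 0) (XT.lf (nat_lit 0) (nat_lit 3242125517) (nat_lit 76) (nat_lit 166177788801) (nat_lit 76) (nat_lit 164450516124) (nat_lit 1) (nat_lit 4) (nat_lit 2) (nat_lit 5) (nat_lit 2) (nat_lit 4) (nat_lit 418) (nat_lit 255) (nat_lit 227)) (XT.lf (nat_lit 0) (nat_lit 6631241953) (nat_lit 76) (nat_lit 172802441759) (nat_lit 76) (nat_lit 171047002151) (nat_lit 1) (nat_lit 4) (nat_lit 2) (nat_lit 5) (nat_lit 2) (nat_lit 4) (nat_lit 419) (nat_lit 255) (nat_lit 226))))))) (XT.nd (nat_lit 858)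 (nat_lit 0) (nat_lit 0) (XT.nd (nat_lit 390) (nat_lit 0) (nat_lit 0) (XT.nd (nat_lit 156) (nat_lit 0) (nat_lit 0) (XT.nd (nat_lit 78) (nat_lit 0) (nat_lit 0) (XT.lf (nat_lit 0) (nat_lit 10138725867) (nat_lit 76) (nat_lit 179783155836) (nat_lit 76) (nat_lit 178000890578) (nat_lit 1) (nat_lit 4) (nat_lit 2) (nat_lit 5) (nat_lit 2) (nat_lit 4) (nat_lit 420) (nat_lit 255) (nat_lit 225)) (XT.lf (nat_lit 0) (nat_lit 13772928410) (nat_lit 76) (nat_lit 187136551779) (nat_lit 76) (nat_lit 185328738283) (nat_lit 1) (nat_lit 4) (nat_lit 2) (nat_lit 5) (nat_lit 2) (nat_lit 4) (nat_lit 421) (nat_lit 255) (nat_lit 224))) (XT.nd (nat_lit 78) (nat_lit 0) (nat_lit 0) (XT.lf (nat_lit 0) (nat_lit 17542502446) (nat_lit 76) (nat_lit 194880137674) (nat_lit 76) (nat_lit 193047992523) (nat_lit 1) (nat_lit 4) (nat_lit 2) (nat_lit 5) (nat_lit 2) (nat_lit 4) (nat_lit 422) (nat_lit 255) (nat_lit 223)) (XT.nd (nat_lit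 78) (nat_lit 0) (nat_lit 0) (XT.lf (nat_lit 0) (nat_lit 21456423151) (nat_lit 76) (nat_lit 203032350630) (nat_lit 76) (nat_lit 201177032473) (nat_lit 1) (nat_lit 4) (nat_lit 2) (nat_lit 5) (nat_lit 2) (nat_lit 4) (nat_lit 423) (nat_lit 255) (nat_lit 222)) (XT.lf (nat_lit 0) (nat_lit 25524009384) (nat_lit 76) (nat_lit 211612600678) (nat_lit 76) (nat_lit 209735212993) (nat_lit 1) (nat_lit 4) (nat_lit 2) (nat_lit 5) (nat_lit 2) (nat_lit 4) (nat_lit 424) (nat_lit 255) (nat_lit 221))))) (XT.nd (nat_lit 234) (nat_lit 0) (nat_lit 0) (XT.nd (nat_lit 78) (nat_lit 0) (nat_lit 0) (XT.lf (nat_lit 0) (nat_lit 29754945875) (nat_lit 76) (nat_lit 220641316984) (nat_lit 76) (nat_lit 218742910700) (nat_lit 1) (nat_lit 4) (nat_lit 2) (nat_lit 5) (nat_lit 2) (nat_lit 4) (nat_lit 425) (nat_lit 255) (nat_lit 220)) (XT.nd (nat_lit 78) (nat_lit 0) (nat_lit 0) (XT.lf (nat_lit 0) (nat_lit 34159306280) (nat_lit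 76) (nat_lit 230139996492) (nat_lit 76) (nat_lit 228221572496) (nat_lit 1) (nat_lit 4) (nat_lit 2) (nat_lit 5) (nat_lit 2) (nat_lit 4) (nat_lit 426) (nat_lit 255) (nat_lit 219)) (XT.lf (nat_lit 0) (nat_lit 38747577174) (nat_lit 76) (nat_lit 240131255106) (nat_lit 76) (nat_lit 238193766621) (nat_lit 1) (nat_lit 4) (nat_lit 2) (nat_lit 5) (nat_lit 2) (nat_lit 4) (nat_lit 427) (nat_lit 255) (nat_lit 218)))) (XT.nd (nat_lit 78) (nat_lit 0) (nat_lit 0) (XT.lf (nat_lit 0) (nat_lit 43530683009) (nat_lit 76) (nat_lit 250638881537) (nat_lit 76) (nat_lit 248683236397) (nat_lit 1) (nat_lit 4) (nat_lit 2) (nat_lit 5) (nat_lit 2) (nat_lit 4) (nat_lit 428) (nat_lit 255) (nat_lit 217)) (XT.nd (nat_lit 78) (nat_lit 0) (nat_lit 0) (XT.lf (nat_lit 0) (nat_lit 48520012134) (nat_lit 76) (nat_lit 261687893943) (nat_lit 76) (nat_lit 259714956749) (nat_lit 1) (nat_lit 4) (nat_lit 2) (nat_lit 5) (nat_lit 2) (nat_lit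 4) (nat_lit 429) (nat_lit 255) (nat_lit 216)) (XT.lf (nat_lit 0) (nat_lit 53727443904) (nat_lit 76) (nat_lit 273304599496) (nat_lit 76) (nat_lit 271315193681) (nat_lit 1) (nat_lit 4) (nat_lit 2) (nat_lit 5) (nat_lit 2) (nat_lit 4) (nat_lit 430) (nat_lit 255) (nat_lit 215)))))) (XT.nd (nat_lit 43524) (nat_lit 0) (nat_lit 76) (XT.nd (nat_lit 234) (nat_lit 0) (nat_lit 0) (XT.nd (nat_lit 78) (nat_lit 0) (nat_lit 0) (XT.lf (nat_lit 0) (nat_lit 59165376966) (nat_lit 76) (nat_lit 285516657020) (nat_lit 76) (nat_lit 283511566802) (nat_lit 1) (nat_lit 4) (nat_lit 2) (nat_lit 5) (nat_lit 2) (nat_lit 4) (nat_lit 431) (nat_lit 255) (nat_lit 214)) (XT.nd (nat_lit 78) (nat_lit 0) (nat_lit 0) (XT.lf (nat_lit 0) (nat_lit 64846758778) (nat_lit 76) (nat_lit 298353142840) (nat_lit 76) (nat_lit 296333115097) (nat_lit 1) (nat_lit 4) (nat_lit 2) (nat_lit 5) (nat_lit 2) (nat_lit 4) (nat_lit 432) (nat_lit 255)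 (nat_lit 213)) (XT.lf (nat_lit 0) (nat_lit 70785116442) (nat_lit 76) (nat_lit 311844620020) (nat_lit 76) (nat_lit 309810366062) (nat_lit 1) (nat_lit 4) (nat_lit 2) (nat_lit 5) (nat_lit 2) (nat_lit 4) (nat_lit 433) (nat_lit 255) (nat_lit 212)))) (XT.nd (nat_lit 78) (nat_lit 0) (nat_lit 0) (XT.lf (nat_lit 0) (nat_lit 76994588903) (nat_lit 76) (nat_lit 326023211124) (nat_lit 76) (nat_lit 323975408390) (nat_lit 1) (nat_lit 4) (nat_lit 2) (nat_lit 5) (nat_lit 2) (nat_lit 4) (nat_lit 434) (nat_lit 255) (nat_lit 211)) (XT.nd (nat_lit 78) (nat_lit 0) (nat_lit 0) (XT.lf (nat_lit 0) (nat_lit 83489960620) (nat_lit 76) (nat_lit 340922674701) (nat_lit 76) (nat_lit 338861968371) (nat_lit 1) (nat_lit 4) (nat_lit 2) (nat_lit 5) (nat_lit 2) (nat_lit 4) (nat_lit 435) (nat_lit 255) (nat_lit 210)) (XT.lf (nat_lit 0) (nat_lit 90286696764) (nat_lit 76) (nat_lit 356578485666) (nat_lit 76) (nat_lit 354505490196)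 (nat_lit 1) (nat_lit 4) (nat_lit 2) (nat_lit 5) (nat_lit 2) (nat_lit 4) (nat_lit 436) (nat_lit 255) (nat_lit 209))))) (XT.nd (nat_lit 234) (nat_lit 0) (nat_lit 0) (XT.nd (nat_lit 78) (nat_lit 0) (nat_lit 0) (XT.lf (nat_lit 0) (nat_lit 1114944771) (nat_lit 152) (nat_lit 37370853222) (nat_lit 0) (nat_lit 1114944771) (nat_lit 2) (nat_lit 5) (nat_lit 4) (nat_lit 4) (nat_lit 2) (nat_lit 4) (nat_lit 388) (nat_lit 256) (nat_lit 256)) (XT.nd (nat_lit 78) (nat_lit 0) (nat_lit 0) (XT.lf (nat_lit 0) (nat_lit 5547878976) (nat_lit 152) (nat_lit 72014645360) (nat_lit 0) (nat_lit 5431940063) (nat_lit 2) (nat_lit 5) (nat_lit 4) (nat_lit 4) (nat_lit 2) (nat_lit 4) (nat_lit 389) (nat_lit 256) (nat_lit 255)) (XT.lf (nat_lit 0) (nat_lit 8926961841) (nat_lit 152) (nat_lit 69354787290) (nat_lit 0) (nat_lit 8700604916) (nat_lit 2) (nat_lit 5) (nat_lit 4) (nat_lit 4) (nat_lit 2) (nat_lit 4) (nat_lit 390) (nat_lit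 256) (nat_lit 254)))) (XT.nd (nat_lit 78) (nat_lit 0) (nat_lit 0) (XT.lf (nat_lit 0) (nat_lit 12375183574) (nat_lit 152) (nat_lit 66755799241) (nat_lit 0) (nat_lit 12043666637) (nat_lit 2) (nat_lit 5) (nat_lit 4) (nat_lit 4) (nat_lit 2) (nat_lit 4) (nat_lit 391) (nat_lit 256) (nat_lit 253)) (XT.nd (nat_lit 78) (nat_lit 0) (nat_lit 0) (XT.lf (nat_lit 0) (nat_lit 15900754226) (nat_lit 152) (nat_lit 64211493144) (nat_lit 0) (nat_lit 15469084897) (nat_lit 2) (nat_lit 5) (nat_lit 4) (nat_lit 4) (nat_lit 2) (nat_lit 4) (nat_lit 392) (nat_lit 256) (nat_lit 252)) (XT.lf (nat_lit 0) (nat_lit 19512068013) (nat_lit 152) (nat_lit 61715811129) (nat_lit 0) (nat_lit 18985015454) (nat_lit 2) (nat_lit 5) (nat_lit 4) (nat_lit 4) (nat_lit 2) (nat_lit 4) (nat_lit 393) (nat_lit 256) (nat_lit 251))))))))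
noncomputable def xc13 : XT := (XT.nd (nat_lit 1794) (nat_lit 76) (nat_lit 0) (XT.nd (nat_lit 858) (nat_lit 0) (nat_lit 0) (XT.nd (nat_lit 390) (nat_lit 0) (nat_lit 0) (XT.nd (nat_lit 156) (nat_lit 0) (nat_lit 0) (XT.nd (nat_lit 78) (nat_lit 0) (nat_lit 0) (XT.lf (nat_lit 0) (nat_lit 23217723301) (nat_lit 152) (nat_lit 59262811095) (nat_lit 0) (nat_lit 22599829570) (nat_lit 2) (nat_lit 5) (nat_lit 4) (nat_lit 4) (nat_lit 2) (nat_lit 4) (nat_lit 394) (nat_lit 256) (nat_lit 250)) (XT.lf (nat_lit 0) (nat_lit 27026543080) (nat_lit 152) (nat_lit 56846652567) (nat_lit 0) (nat_lit 26322133947) (nat_lit 2) (nat_lit 5) (nat_lit 4) (nat_lit 4) (nat_lit 2) (nat_lit 4) (nat_lit 395) (nat_lit 256) (nat_lit 249))) (XT.nd (nat_lit 78) (nat_lit 0) (nat_lit 0) (XT.lf (nat_lit 0) (nat_lit 30947595967) (nat_lit 152) (nat_lit 54461582786) (nat_lit 0) (nat_lit 30160791214) (nat_lit 2) (nat_lit 5) (nat_lit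 4) (nat_lit 4) (nat_lit 2) (nat_lit 4) (nat_lit 396) (nat_lit 256) (nat_lit 248)) (XT.nd (nat_lit 78) (nat_lit 0) (nat_lit 0) (XT.lf (nat_lit 0) (nat_lit 34990217803) (nat_lit 152) (nat_lit 52101923014) (nat_lit 0) (nat_lit 34124941030) (nat_lit 2) (nat_lit 5) (nat_lit 4) (nat_lit 4) (nat_lit 2) (nat_lit 4) (nat_lit 397) (nat_lit 256) (nat_lit 247)) (XT.lf (nat_lit 0) (nat_lit 39164033878) (nat_lit 152) (nat_lit 49762055013) (nat_lit 0) (nat_lit 38224021848) (nat_lit 2) (nat_lit 5) (nat_lit 4) (nat_lit 4) (nat_lit 2) (nat_lit 4) (nat_lit 398) (nat_lit 256) (nat_lit 246))))) (XT.nd (nat_lit 234) (nat_lit 0) (nat_lit 0) (XT.nd (nat_lit 78) (nat_lit 0) (nat_lit 0) (XT.lf (nat_lit 0) (nat_lit 43478981849) (nat_lit 152) (nat_lit 47436407670) (nat_lit 0) (nat_lit 42467793384) (nat_lit 2) (nat_lit 5) (nat_lit 4) (nat_lit 4) (nat_lit 2) (nat_lit 4) (nat_lit 399) (nat_lit 256) (nat_lit 245)) (XT.nd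 (nat_lit 78) (nat_lit 0) (nat_lit 0) (XT.lf (nat_lit 0) (nat_lit 47945335402) (nat_lit 152) (nat_lit 45119443729) (nat_lit 0) (nat_lit 46866359856) (nat_lit 2) (nat_lit 5) (nat_lit 4) (nat_lit 4) (nat_lit 2) (nat_lit 4) (nat_lit 400) (nat_lit 256) (nat_lit 244)) (XT.lf (nat_lit 0) (nat_lit 52573728712) (nat_lit 152) (nat_lit 42805646609) (nat_lit 0) (nat_lit 51430194041) (nat_lit 2) (nat_lit 5) (nat_lit 4) (nat_lit 4) (nat_lit 2) (nat_lit 4) (nat_lit 401) (nat_lit 256) (nat_lit 243)))) (XT.nd (nat_lit 78) (nat_lit 0) (nat_lit 0) (XT.lf (nat_lit 0) (nat_lit 57375181764) (nat_lit 152) (nat_lit 40489507270) (nat_lit 0) (nat_lit 56170162212) (nat_lit 2) (nat_lit 5) (nat_lit 4) (nat_lit 4) (nat_lit 2) (nat_lit 4) (nat_lit 402) (nat_lit 256) (nat_lit 242)) (XT.nd (nat_lit 78) (nat_lit 0) (nat_lit 0) (XT.lf (nat_lit 0) (nat_lit 62361126587) (nat_lit 152) (nat_lit 38165511093) (nat_lit 0) (nat_lit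 61097550006) (nat_lit 2) (nat_lit 5) (nat_lit 4) (nat_lit 4) (nat_lit 2) (nat_lit 4) (nat_lit 403) (nat_lit 256) (nat_lit 241)) (XT.lf (nat_lit 0) (nat_lit 67543434480) (nat_lit 152) (nat_lit 35828124754) (nat_lit 0) (nat_lit 66224089299) (nat_lit 2) (nat_lit 5) (nat_lit 4) (nat_lit 4) (nat_lit 2) (nat_lit 4) (nat_lit 404) (nat_lit 256) (nat_lit 240)))))) (XT.nd (nat_lit 468) (nat_lit 0) (nat_lit 0) (XT.nd (nat_lit 234) (nat_lit 0) (nat_lit 0) (XT.nd (nat_lit 78) (nat_lit 0) (nat_lit 0) (XT.lf (nat_lit 0) (nat_lit 72934444270) (nat_lit 152) (nat_lit 33471783049) (nat_lit 0) (nat_lit 71561986138) (nat_lit 2) (nat_lit 5) (nat_lit 4) (nat_lit 4) (nat_lit 2) (nat_lit 4) (nat_lit 405) (nat_lit 256) (nat_lit 239)) (XT.nd (nat_lit 78) (nat_lit 0) (nat_lit 0) (XT.lf (nat_lit 0) (nat_lit 78546991696) (nat_lit 152) (nat_lit 31090875639) (nat_lit 0) (nat_lit 77123949800) (nat_lit 2) (nat_lit 5) (nat_lit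 4) (nat_lit 4) (nat_lit 2) (nat_lit 4) (nat_lit 406) (nat_lit 256) (nat_lit 238)) (XT.lf (nat_lit 0) (nat_lit 84394439965) (nat_lit 152) (nat_lit 28679733698) (nat_lit 0) (nat_lit 82923223056) (nat_lit 2) (nat_lit 5) (nat_lit 4) (nat_lit 4) (nat_lit 2) (nat_lit 4) (nat_lit 407) (nat_lit 256) (nat_lit 237)))) (XT.nd (nat_lit 78) (nat_lit 0) (nat_lit 0) (XT.lf (nat_lit 0) (nat_lit 90490711573) (nat_lit 152) (nat_lit 26232616411) (nat_lit 0) (nat_lit 88973613699) (nat_lit 2) (nat_lit 5) (nat_lit 4) (nat_lit 4) (nat_lit 2) (nat_lit 4) (nat_lit 408) (nat_lit 256) (nat_lit 236)) (XT.nd (nat_lit 78) (nat_lit 0) (nat_lit 0) (XT.lf (nat_lit 0) (nat_lit 96850321453) (nat_lit 152) (nat_lit 23743697309) (nat_lit 0) (nat_lit 95289527423) (nat_lit 2) (nat_lit 5) (nat_lit 4) (nat_lit 4) (nat_lit 2) (nat_lit 4) (nat_lit 409) (nat_lit 256) (nat_lit 235)) (XT.lf (nat_lit 0) (nat_lit 103488411533) (nat_lit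 152) (nat_lit 21207050393) (nat_lit 0) (nat_lit 101886002115) (nat_lit 2) (nat_lit 5) (nat_lit 4) (nat_lit 4) (nat_lit 2) (nat_lit 4) (nat_lit 410) (nat_lit 256) (nat_lit 234))))) (XT.nd (nat_lit 234) (nat_lit 0) (nat_lit 0) (XT.nd (nat_lit 78) (nat_lit 0) (nat_lit 0) (XT.lf (nat_lit 0) (nat_lit 110420786789) (nat_lit 152) (nat_lit 18616636029) (nat_lit 0) (nat_lit 108778743669) (nat_lit 2) (nat_lit 5) (nat_lit 4) (nat_lit 4) (nat_lit 2) (nat_lit 4) (nat_lit 411) (nat_lit 256) (nat_lit 233)) (XT.nd (nat_lit 78) (nat_lit 0) (nat_lit 0) (XT.lf (nat_lit 0) (nat_lit 117663952878) (nat_lit 152) (nat_lit 15966286562) (nat_lit 0) (nat_lit 115984163374) (nat_lit 2) (nat_lit 5) (nat_lit 4) (nat_lit 4) (nat_lit 2) (nat_lit 4) (nat_lit 412) (nat_lit 256) (nat_lit 232)) (XT.lf (nat_lit 0) (nat_lit 125235155431) (nat_lit 152) (nat_lit 13249691638) (nat_lit 0) (nat_lit 123519416991) (nat_lit 2) (nat_lit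 5) (nat_lit 4) (nat_lit 4) (nat_lit 2) (nat_lit 4) (nat_lit 413) (nat_lit 256) (nat_lit 231)))) (XT.nd (nat_lit 78) (nat_lit 0) (nat_lit 0) (XT.lf (nat_lit 0) (nat_lit 133152421122) (nat_lit 152) (nat_lit 10460383172) (nat_lit 0) (nat_lit 131402445600) (nat_lit 2) (nat_lit 5) (nat_lit 4) (nat_lit 4) (nat_lit 2) (nat_lit 4) (nat_lit 414) (nat_lit 256) (nat_lit 230)) (XT.nd (nat_lit 78) (nat_lit 0) (nat_lit 0) (XT.lf (nat_lit 0) (nat_lit 141434600584) (nat_lit 152) (nat_lit 7591719955) (nat_lit 0) (nat_lit 139652018317) (nat_lit 2) (nat_lit 5) (nat_lit 4) (nat_lit 4) (nat_lit 2) (nat_lit 4) (nat_lit 415) (nat_lit 256) (nat_lit 229)) (XT.lf (nat_lit 0) (nat_lit 150101413292) (nat_lit 152) (nat_lit 4636871835) (nat_lit 0) (nat_lit 148287776982) (nat_lit 2) (nat_lit 5) (nat_lit 4) (nat_lit 4) (nat_lit 2) (nat_lit 4) (nat_lit 416) (nat_lit 256) (nat_lit 228))))))) (XT.nd (nat_lit 858) (nat_lit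 0) (nat_lit 0) (XT.nd (nat_lit 390) (nat_lit 0) (nat_lit 0) (XT.nd (nat_lit 156) (nat_lit 0) (nat_lit 0) (XT.nd (nat_lit 78) (nat_lit 76) (nat_lit 0) (XT.lf (nat_lit 0) (nat_lit 159173494514) (nat_lit 152) (nat_lit 1588803461) (nat_lit 0) (nat_lit 157330282925) (nat_lit 2) (nat_lit 5) (nat_lit 4) (nat_lit 4) (nat_lit 2) (nat_lit 4) (nat_lit 417) (nat_lit 256) (nat_lit 227)) (XT.lf (nat_lit 0) (nat_lit 1611314603) (nat_lit 76) (nat_lit 167086286975) (nat_lit 76) (nat_lit 165214908454) (nat_lit 1) (nat_lit 4) (nat_lit 2) (nat_lit 5) (nat_lit 2) (nat_lit 4) (nat_lit 418) (nat_lit 256) (nat_lit 226))) (XT.nd (nat_lit 78) (nat_lit 0) (nat_lit 0) (XT.lf (nat_lit 0) (nat_lit 4975509896) (nat_lit 76) (nat_lit 173723051383) (nat_lit 76) (nat_lit 171824847212) (nat_lit 1) (nat_lit 4) (nat_lit 2) (nat_lit 5) (nat_lit 2) (nat_lit 4) (nat_lit 419) (nat_lit 256) (nat_lit 225)) (XT.nd (nat_lit 78) (nat_lit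 0) (nat_lit 0) (XT.lf (nat_lit 0) (nat_lit 8459259387) (nat_lit 76) (nat_lit 180715300173) (nat_lit 76) (nat_lit 178791547764) (nat_lit 1) (nat_lit 4) (nat_lit 2) (nat_lit 5) (nat_lit 2) (nat_lit 4) (nat_lit 420) (nat_lit 256) (nat_lit 224)) (XT.lf (nat_lit 0) (nat_lit 12070857718) (nat_lit 76) (nat_lit 188079681558) (nat_lit 76) (nat_lit 186131597493) (nat_lit 1) (nat_lit 4) (nat_lit 2) (nat_lit 5) (nat_lit 2) (nat_lit 4) (nat_lit 421) (nat_lit 256) (nat_lit 223))))) (XT.nd (nat_lit 234) (nat_lit 0) (nat_lit 0) (XT.nd (nat_lit 78) (nat_lit 0) (nat_lit 0) (XT.lf (nat_lit 0) (nat_lit 15818903933) (nat_lit 76) (nat_lit 195833729778) (nat_lit 76) (nat_lit 193862472708) (nat_lit 1) (nat_lit 4) (nat_lit 2) (nat_lit 5) (nat_lit 2) (nat_lit 4) (nat_lit 422) (nat_lit 256) (nat_lit 222)) (XT.nd (nat_lit 78) (nat_lit 0) (nat_lit 0) (XT.lf (nat_lit 0) (nat_lit 19712321952) (nat_lit 76) (nat_lit 203995906852)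 (nat_lit 76) (nat_lit 202002580255) (nat_lit 1) (nat_lit 4) (nat_lit 2) (nat_lit 5) (nat_lit 2) (nat_lit 4) (nat_lit 423) (nat_lit 256) (nat_lit 221)) (XT.lf (nat_lit 0) (nat_lit 23760381817) (nat_lit 76) (nat_lit 212585646537) (nat_lit 76) (nat_lit 210571301341) (nat_lit 1) (nat_lit 4) (nat_lit 2) (nat_lit 5) (nat_lit 2) (nat_lit 4) (nat_lit 424) (nat_lit 256) (nat_lit 220)))) (XT.nd (nat_lit 78) (nat_lit 0) (nat_lit 0) (XT.lf (nat_lit 0) (nat_lit 27972721766) (nat_lit 76) (nat_lit 221623400593) (nat_lit 76) (nat_lit 219589037684) (nat_lit 1) (nat_lit 4) (nat_lit 2) (nat_lit 5) (nat_lit 2) (nat_lit 4) (nat_lit 425) (nat_lit 256) (nat_lit 219)) (XT.nd (nat_lit 78) (nat_lit 0) (nat_lit 0) (XT.lf (nat_lit 0) (nat_lit 32359371180) (nat_lit 76) (nat_lit 231130687482) (nat_lit 76) (nat_lit 229077260084) (nat_lit 1) (nat_lit 4) (nat_lit 2) (nat_lit 5) (nat_lit 2) (nat_lit 4) (nat_lit 426) (nat_lit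 256) (nat_lit 218)) (XT.lf (nat_lit 0) (nat_lit 36930774463) (nat_lit 76) (nat_lit 241130143602) (nat_lit 76) (nat_lit 239058559548) (nat_lit 1) (nat_lit 4) (nat_lit 2) (nat_lit 5) (nat_lit 2) (nat_lit 4) (nat_lit 427) (nat_lit 256) (nat_lit 217)))))) (XT.nd (nat_lit 468) (nat_lit 0) (nat_lit 0) (XT.nd (nat_lit 234) (nat_lit 0) (nat_lit 0) (XT.nd (nat_lit 78) (nat_lit 0) (nat_lit 0) (XT.lf (nat_lit 0) (nat_lit 41697815907) (nat_lit 76) (nat_lit 251645577181) (nat_lit 76) (nat_lit 249556701074) (nat_lit 1) (nat_lit 4) (nat_lit 2) (nat_lit 5) (nat_lit 2) (nat_lit 4) (nat_lit 428) (nat_lit 256) (nat_lit 216)) (XT.nd (nat_lit 78) (nat_lit 0) (nat_lit 0) (XT.lf (nat_lit 0) (nat_lit 46671845612) (nat_lit 76) (nat_lit 262702024966) (nat_lit 76) (nat_lit 260596680237) (nat_lit 1) (nat_lit 4) (nat_lit 2) (nat_lit 5) (nat_lit 2) (nat_lit 4) (nat_lit 429) (nat_lit 256) (nat_lit 215)) (XT.lf (nat_lit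 0) (nat_lit 51864706505) (nat_lit 76) (nat_lit 274325811832) (nat_lit 76) (nat_lit 272204782702) (nat_lit 1) (nat_lit 4) (nat_lit 2) (nat_lit 5) (nat_lit 2) (nat_lit 4) (nat_lit 430) (nat_lit 256) (nat_lit 214)))) (XT.nd (nat_lit 78) (nat_lit 0) (nat_lit 0) (XT.lf (nat_lit 0) (nat_lit 57288762541) (nat_lit 76) (nat_lit 286544613463) (nat_lit 76) (nat_lit 284408646807) (nat_lit 1) (nat_lit 4) (nat_lit 2) (nat_lit 5) (nat_lit 2) (nat_lit 4) (nat_lit 431) (nat_lit 256) (nat_lit 213)) (XT.nd (nat_lit 78) (nat_lit 0) (nat_lit 0) (XT.lf (nat_lit 0) (nat_lit 62956928139) (nat_lit 76) (nat_lit 299387522244) (nat_lit 76) (nat_lit 297237329373) (nat_lit 1) (nat_lit 4) (nat_lit 2) (nat_lit 5) (nat_lit 2) (nat_lit 4) (nat_lit 432) (nat_lit 256) (nat_lit 212)) (XT.lf (nat_lit 0) (nat_lit 68882698932) (nat_lit 76) (nat_lit 312885116529) (nat_lit 76) (nat_lit 310721374882) (nat_lit 1) (nat_lit 4) (nat_lit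 2) (nat_lit 5) (nat_lit 2) (nat_lit 4) (nat_lit 433) (nat_lit 256) (nat_lit 211))))) (XT.nd (nat_lit 43134) (nat_lit 0) (nat_lit 76) (XT.nd (nat_lit 78) (nat_lit 0) (nat_lit 0) (XT.lf (nat_lit 0) (nat_lit 75080183897) (nat_lit 76) (nat_lit 327069533446) (nat_lit 76) (nat_lit 324892888203) (nat_lit 1) (nat_lit 4) (nat_lit 2) (nat_lit 5) (nat_lit 2) (nat_lit 4) (nat_lit 434) (nat_lit 256) (nat_lit 210)) (XT.nd (nat_lit 78) (nat_lit 0) (nat_lit 0) (XT.lf (nat_lit 0) (nat_lit 81564138951) (nat_lit 76) (nat_lit 341974545418) (nat_lit 76) (nat_lit 339785611036) (nat_lit 1) (nat_lit 4) (nat_lit 2) (nat_lit 5) (nat_lit 2) (nat_lit 4) (nat_lit 435) (nat_lit 256) (nat_lit 209)) (XT.lf (nat_lit 0) (nat_lit 88350002083) (nat_lit 76) (nat_lit 357635640568) (nat_lit 76) (nat_lit 355435002243) (nat_lit 1) (nat_lit 4) (nat_lit 2) (nat_lit 5) (nat_lit 2) (nat_lit 4) (nat_lit 436) (nat_lit 256) (nat_lit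 208)))) (XT.nd (nat_lit 78) (nat_lit 152) (nat_lit 0) (XT.lf (nat_lit 0) (nat_lit 32064020320) (nat_lit 76) (nat_lit 2005218179) (nat_lit 76) (nat_lit 2005218179) (nat_lit 4) (nat_lit 4) (nat_lit 5) (nat_lit 5) (nat_lit 5) (nat_lit 4) (nat_lit 386) (nat_lit 257) (nat_lit 257)) (XT.nd (nat_lit 78) (nat_lit 152) (nat_lit 0) (XT.lf (nat_lit 0) (nat_lit 73674662884) (nat_lit 76) (nat_lit 1022239530) (nat_lit 76) (nat_lit 894416879) (nat_lit 4) (nat_lit 4) (nat_lit 5) (nat_lit 5) (nat_lit 5) (nat_lit 4) (nat_lit 387) (nat_lit 257) (nat_lit 256)) (XT.lf (nat_lit 0) (nat_lit 2297944259) (nat_lit 152) (nat_lit 74845966871) (nat_lit 0) (nat_lit 2060269488) (nat_lit 2) (nat_lit 5) (nat_lit 4) (nat_lit 4) (nat_lit 2) (nat_lit 4) (nat_lit 388) (nat_lit 257) (nat_lit 255))))))))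
noncomputable def xc14 : XT := (XT.nd (nat_lit 1794) (nat_lit 76) (nat_lit 0) (XT.nd (nat_lit 858) (nat_lit 0) (nat_lit 0) (XT.nd (nat_lit 390) (nat_lit 0) (nat_lit 0) (XT.nd (nat_lit 156) (nat_lit 0) (nat_lit 0) (XT.nd (nat_lit 78) (nat_lit 0) (nat_lit 0) (XT.lf (nat_lit 0) (nat_lit 5564808795) (nat_lit 152) (nat_lit 72218201430) (nat_lit 0) (nat_lit 5216716011) (nat_lit 2) (nat_lit 5) (nat_lit 4) (nat_lit 4) (nat_lit 2) (nat_lit 4) (nat_lit 389) (nat_lit 257) (nat_lit 254)) (XT.lf (nat_lit 0) (nat_lit 8895201281) (nat_lit 152) (nat_lit 69652910640) (nat_lit 0) (nat_lit 8441948487) (nat_lit 2) (nat_lit 5) (nat_lit 4) (nat_lit 4) (nat_lit 2) (nat_lit 4) (nat_lit 390) (nat_lit 257) (nat_lit 253))) (XT.nd (nat_lit 78) (nat_lit 0) (nat_lit 0) (XT.lf (nat_lit 0) (nat_lit 12297051225) (nat_lit 152) (nat_lit 67143986666) (nat_lit 0) (nat_lit 11743646038) (nat_lit 2) (nat_lit 5) (nat_lit 4) (nat_lit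 4) (nat_lit 2) (nat_lit 4) (nat_lit 391) (nat_lit 257) (nat_lit 252)) (XT.nd (nat_lit 78) (nat_lit 0) (nat_lit 0) (XT.lf (nat_lit 0) (nat_lit 15778458269) (nat_lit 152) (nat_lit 64685455880) (nat_lit 0) (nat_lit 15129669851) (nat_lit 2) (nat_lit 5) (nat_lit 4) (nat_lit 4) (nat_lit 2) (nat_lit 4) (nat_lit 392) (nat_lit 257) (nat_lit 251)) (XT.lf (nat_lit 0) (nat_lit 19347711476) (nat_lit 152) (nat_lit 62271464637) (nat_lit 0) (nat_lit 18608081887) (nat_lit 2) (nat_lit 5) (nat_lit 4) (nat_lit 4) (nat_lit 2) (nat_lit 4) (nat_lit 393) (nat_lit 257) (nat_lit 250))))) (XT.nd (nat_lit 234) (nat_lit 0) (nat_lit 0) (XT.nd (nat_lit 78) (nat_lit 0) (nat_lit 0) (XT.lf (nat_lit 0) (nat_lit 23013309070) (nat_lit 152) (nat_lit 59896265338) (nat_lit 0) (nat_lit 22187164079) (nat_lit 2) (nat_lit 5) (nat_lit 4) (nat_lit 4) (nat_lit 2) (nat_lit 4) (nat_lit 394) (nat_lit 257) (nat_lit 249)) (XT.nd (nat_lit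 78) (nat_lit 0) (nat_lit 0) (XT.lf (nat_lit 0) (nat_lit 26783978663) (nat_lit 152) (nat_lit 57554202748) (nat_lit 0) (nat_lit 25875438051) (nat_lit 2) (nat_lit 5) (nat_lit 4) (nat_lit 4) (nat_lit 2) (nat_lit 4) (nat_lit 395) (nat_lit 257) (nat_lit 248)) (XT.lf (nat_lit 0) (nat_lit 30668698040) (nat_lit 152) (nat_lit 55239700527) (nat_lit 0) (nat_lit 29681685409) (nat_lit 2) (nat_lit 5) (nat_lit 4) (nat_lit 4) (nat_lit 2) (nat_lit 4) (nat_lit 396) (nat_lit 257) (nat_lit 247)))) (XT.nd (nat_lit 78) (nat_lit 0) (nat_lit 0) (XT.lf (nat_lit 0) (nat_lit 34676716533) (nat_lit 152) (nat_lit 52947247955) (nat_lit 0) (nat_lit 33614968645) (nat_lit 2) (nat_lit 5) (nat_lit 4) (nat_lit 4) (nat_lit 2) (nat_lit 4) (nat_lit 397) (nat_lit 257) (nat_lit 246)) (XT.nd (nat_lit 78) (nat_lit 0) (nat_lit 0) (XT.lf (nat_lit 0) (nat_lit 38817577044) (nat_lit 152) (nat_lit 50671386812) (nat_lit 0) (nat_lit 37684652720)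 (nat_lit 2) (nat_lit 5) (nat_lit 4) (nat_lit 4) (nat_lit 2) (nat_lit 4) (nat_lit 398) (nat_lit 257) (nat_lit 245)) (XT.lf (nat_lit 0) (nat_lit 43101138763) (nat_lit 152) (nat_lit 48406698381) (nat_lit 0) (nat_lit 41900427358) (nat_lit 2) (nat_lit 5) (nat_lit 4) (nat_lit 4) (nat_lit 2) (nat_lit 4) (nat_lit 399) (nat_lit 257) (nat_lit 244)))))) (XT.nd (nat_lit 468) (nat_lit 0) (nat_lit 0) (XT.nd (nat_lit 234) (nat_lit 0) (nat_lit 0) (XT.nd (nat_lit 78) (nat_lit 0) (nat_lit 0) (XT.lf (nat_lit 0) (nat_lit 47537600647) (nat_lit 152) (nat_lit 46147790546) (nat_lit 0) (nat_lit 46272330118) (nat_lit 2) (nat_lit 5) (nat_lit 4) (nat_lit 4) (nat_lit 2) (nat_lit 4) (nat_lit 400) (nat_lit 257) (nat_lit 243)) (XT.nd (nat_lit 78) (nat_lit 0) (nat_lit 0) (XT.lf (nat_lit 0) (nat_lit 52137525702) (nat_lit 152) (nat_lit 43889284956) (nat_lit 0) (nat_lit 50810770292) (nat_lit 2) (nat_lit 5) (nat_lit 4) (nat_lit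 4) (nat_lit 2) (nat_lit 4) (nat_lit 401) (nat_lit 257) (nat_lit 242)) (XT.lf (nat_lit 0) (nat_lit 56911866128) (nat_lit 152) (nat_lit 41625804216) (nat_lit 0) (nat_lit 55526553689) (nat_lit 2) (nat_lit 5) (nat_lit 4) (nat_lit 4) (nat_lit 2) (nat_lit 4) (nat_lit 402) (nat_lit 257) (nat_lit 241)))) (XT.nd (nat_lit 78) (nat_lit 0) (nat_lit 0) (XT.lf (nat_lit 0) (nat_lit 61871989404) (nat_lit 152) (nat_lit 39351959087) (nat_lit 0) (nat_lit 60430908366) (nat_lit 2) (nat_lit 5) (nat_lit 4) (nat_lit 4) (nat_lit 2) (nat_lit 4) (nat_lit 403) (nat_lit 257) (nat_lit 240)) (XT.nd (nat_lit 78) (nat_lit 0) (nat_lit 0) (XT.lf (nat_lit 0) (nat_lit 67029705347) (nat_lit 152) (nat_lit 37062335651) (nat_lit 0) (nat_lit 65535511357) (nat_lit 2) (nat_lit 5) (nat_lit 4) (nat_lit 4) (nat_lit 2) (nat_lit 4) (nat_lit 404) (nat_lit 257) (nat_lit 239)) (XT.lf (nat_lit 0) (nat_lit 72397294233) (nat_lit 152) (nat_lit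 34751482424) (nat_lit 0) (nat_lit 70852516479) (nat_lit 2) (nat_lit 5) (nat_lit 4) (nat_lit 4) (nat_lit 2) (nat_lit 4) (nat_lit 405) (nat_lit 257) (nat_lit 238))))) (XT.nd (nat_lit 234) (nat_lit 0) (nat_lit 0) (XT.nd (nat_lit 78) (nat_lit 0) (nat_lit 0) (XT.lf (nat_lit 0) (nat_lit 77987536035) (nat_lit 152) (nat_lit 32413897375) (nat_lit 0) (nat_lit 76394583268) (nat_lit 2) (nat_lit 5) (nat_lit 4) (nat_lit 4) (nat_lit 2) (nat_lit 4) (nat_lit 406) (nat_lit 257) (nat_lit 237)) (XT.nd (nat_lit 78) (nat_lit 0) (nat_lit 0) (XT.lf (nat_lit 0) (nat_lit 83813740854) (nat_lit 152) (nat_lit 30044014824) (nat_lit 0) (nat_lit 82174907122) (nat_lit 2) (nat_lit 5) (nat_lit 4) (nat_lit 4) (nat_lit 2) (nat_lit 4) (nat_lit 407) (nat_lit 257) (nat_lit 236)) (XT.lf (nat_lit 0) (nat_lit 89889780604) (nat_lit 152) (nat_lit 27636192195) (nat_lit 0) (nat_lit 88207250715) (nat_lit 2) (nat_lit 5) (nat_lit 4) (nat_lit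 4) (nat_lit 2) (nat_lit 4) (nat_lit 408) (nat_lit 257) (nat_lit 235)))) (XT.nd (nat_lit 78) (nat_lit 0) (nat_lit 0) (XT.lf (nat_lit 0) (nat_lit 96230122048) (nat_lit 152) (nat_lit 25184696577) (nat_lit 0) (nat_lit 94505976772) (nat_lit 2) (nat_lit 5) (nat_lit 4) (nat_lit 4) (nat_lit 2) (nat_lit 4) (nat_lit 409) (nat_lit 257) (nat_lit 234)) (XT.nd (nat_lit 78) (nat_lit 0) (nat_lit 0) (XT.lf (nat_lit 0) (nat_lit 102849861237) (nat_lit 152) (nat_lit 22683691074) (nat_lit 0) (nat_lit 101086082258) (nat_lit 2) (nat_lit 5) (nat_lit 4) (nat_lit 4) (nat_lit 2) (nat_lit 4) (nat_lit 410) (nat_lit 257) (nat_lit 233)) (XT.lf (nat_lit 0) (nat_lit 109764759453) (nat_lit 152) (nat_lit 20127220913) (nat_lit 0) (nat_lit 107963234091) (nat_lit 2) (nat_lit 5) (nat_lit 4) (nat_lit 4) (nat_lit 2) (nat_lit 4) (nat_lit 411) (nat_lit 257) (nat_lit 232))))))) (XT.nd (nat_lit 858) (nat_lit 0) (nat_lit 0) (XT.nd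 (nat_lit 390) (nat_lit 76) (nat_lit 0) (XT.nd (nat_lit 156) (nat_lit 0) (nat_lit 0) (XT.nd (nat_lit 78) (nat_lit 0) (nat_lit 0) (XT.lf (nat_lit 0) (nat_lit 116991280742) (nat_lit 152) (nat_lit 17509199259) (nat_lit 0) (nat_lit 115153806444) (nat_lit 2) (nat_lit 5) (nat_lit 4) (nat_lit 4) (nat_lit 2) (nat_lit 4) (nat_lit 412) (nat_lit 257) (nat_lit 231)) (XT.lf (nat_lit 0) (nat_lit 124546631105) (nat_lit 152) (nat_lit 14823392727) (nat_lit 0) (nat_lit 122674919725) (nat_lit 2) (nat_lit 5) (nat_lit 4) (nat_lit 4) (nat_lit 2) (nat_lit 4) (nat_lit 413) (nat_lit 257) (nat_lit 230))) (XT.nd (nat_lit 78) (nat_lit 0) (nat_lit 0) (XT.lf (nat_lit 0) (nat_lit 132448799473) (nat_lit 152) (nat_lit 12063406540) (nat_lit 0) (nat_lit 130544481347) (nat_lit 2) (nat_lit 5) (nat_lit 4) (nat_lit 4) (nat_lit 2) (nat_lit 4) (nat_lit 414) (nat_lit 257) (nat_lit 229)) (XT.nd (nat_lit 78) (nat_lit 0) (nat_lit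 0) (XT.lf (nat_lit 0) (nat_lit 140716600531) (nat_lit 152) (nat_lit 9222669303) (nat_lit 0) (nat_lit 138781228363) (nat_lit 2) (nat_lit 5) (nat_lit 4) (nat_lit 4) (nat_lit 2) (nat_lit 4) (nat_lit 415) (nat_lit 257) (nat_lit 228)) (XT.lf (nat_lit 0) (nat_lit 149369719521) (nat_lit 152) (nat_lit 6294417355) (nat_lit 0) (nat_lit 147404772074) (nat_lit 2) (nat_lit 5) (nat_lit 4) (nat_lit 4) (nat_lit 2) (nat_lit 4) (nat_lit 416) (nat_lit 257) (nat_lit 227))))) (XT.nd (nat_lit 234) (nat_lit 0) (nat_lit 0) (XT.nd (nat_lit 78) (nat_lit 76) (nat_lit 0) (XT.lf (nat_lit 0) (nat_lit 158428759107) (nat_lit 152) (nat_lit 3271678667) (nat_lit 0) (nat_lit 156435644727) (nat_lit 2) (nat_lit 5) (nat_lit 4) (nat_lit 4) (nat_lit 2) (nat_lit 4) (nat_lit 417) (nat_lit 257) (nat_lit 226)) (XT.nd (nat_lit 78) (nat_lit 76) (nat_lit 0) (XT.lf (nat_lit 0) (nat_lit 167915288430) (nat_lit 152) (nat_lit 147256244)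 (nat_lit 0) (nat_lit 165895348400) (nat_lit 2) (nat_lit 5) (nat_lit 4) (nat_lit 4) (nat_lit 2) (nat_lit 4) (nat_lit 418) (nat_lit 257) (nat_lit 225)) (XT.lf (nat_lit 0) (nat_lit 3188335669) (nat_lit 76) (nat_lit 174713337650) (nat_lit 76) (nat_lit 172667849383) (nat_lit 1) (nat_lit 4) (nat_lit 2) (nat_lit 5) (nat_lit 2) (nat_lit 4) (nat_lit 419) (nat_lit 257) (nat_lit 224)))) (XT.nd (nat_lit 78) (nat_lit 0) (nat_lit 0) (XT.lf (nat_lit 0) (nat_lit 6649480948) (nat_lit 76) (nat_lit 181716571882) (nat_lit 76) (nat_lit 179646751959) (nat_lit 1) (nat_lit 4) (nat_lit 2) (nat_lit 5) (nat_lit 2) (nat_lit 4) (nat_lit 420) (nat_lit 257) (nat_lit 223)) (XT.nd (nat_lit 78) (nat_lit 0) (nat_lit 0) (XT.lf (nat_lit 0) (nat_lit 10239551459) (nat_lit 76) (nat_lit 189091415591) (nat_lit 76) (nat_lit 186998422664) (nat_lit 1) (nat_lit 4) (nat_lit 2) (nat_lit 5) (nat_lit 2) (nat_lit 4) (nat_lit 421) (nat_lit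 257) (nat_lit 222)) (XT.lf (nat_lit 0) (nat_lit 13967094988) (nat_lit 76) (nat_lit 196855427930) (nat_lit 76) (nat_lit 194740365474) (nat_lit 1) (nat_lit 4) (nat_lit 2) (nat_lit 5) (nat_lit 2) (nat_lit 4) (nat_lit 422) (nat_lit 257) (nat_lit 221)))))) (XT.nd (nat_lit 468) (nat_lit 0) (nat_lit 0) (XT.nd (nat_lit 234) (nat_lit 0) (nat_lit 0) (XT.nd (nat_lit 78) (nat_lit 0) (nat_lit 0) (XT.lf (nat_lit 0) (nat_lit 17840986638) (nat_lit 76) (nat_lit 205027094642) (nat_lit 76) (nat_lit 202891013587) (nat_lit 1) (nat_lit 4) (nat_lit 2) (nat_lit 5) (nat_lit 2) (nat_lit 4) (nat_lit 423) (nat_lit 257) (nat_lit 220)) (XT.nd (nat_lit 78) (nat_lit 0) (nat_lit 0) (XT.lf (nat_lit 0) (nat_lit 21870449962) (nat_lit 76) (nat_lit 213625872077) (nat_lit 76) (nat_lit 211469773309) (nat_lit 1) (nat_lit 4) (nat_lit 2) (nat_lit 5) (nat_lit 2) (nat_lit 4) (nat_lit 424) (nat_lit 257) (nat_lit 219)) (XT.lf (nat_lit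 0) (nat_lit 26065078920) (nat_lit 76) (nat_lit 222672233513) (nat_lit 76) (nat_lit 220497070257) (nat_lit 1) (nat_lit 4) (nat_lit 2) (nat_lit 5) (nat_lit 2) (nat_lit 4) (nat_lit 425) (nat_lit 257) (nat_lit 218)))) (XT.nd (nat_lit 78) (nat_lit 0) (nat_lit 0) (XT.lf (nat_lit 0) (nat_lit 30434860723) (nat_lit 76) (nat_lit 232187717908) (nat_lit 76) (nat_lit 229994397996) (nat_lit 1) (nat_lit 4) (nat_lit 2) (nat_lit 5) (nat_lit 2) (nat_lit 4) (nat_lit 426) (nat_lit 257) (nat_lit 217)) (XT.nd (nat_lit 78) (nat_lit 0) (nat_lit 0) (XT.lf (nat_lit 0) (nat_lit 34990199614) (nat_lit 76) (nat_lit 242194981175) (nat_lit 76) (nat_lit 239984369210) (nat_lit 1) (nat_lit 4) (nat_lit 2) (nat_lit 5) (nat_lit 2) (nat_lit 4) (nat_lit 427) (nat_lit 257) (nat_lit 216)) (XT.lf (nat_lit 0) (nat_lit 39741941638) (nat_lit 76) (nat_lit 252717850133) (nat_lit 76) (nat_lit 250490769546) (nat_lit 1) (nat_lit 4) (nat_lit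 2) (nat_lit 5) (nat_lit 2) (nat_lit 4) (nat_lit 428) (nat_lit 257) (nat_lit 215))))) (XT.nd (nat_lit 234) (nat_lit 0) (nat_lit 0) (XT.nd (nat_lit 78) (nat_lit 0) (nat_lit 0) (XT.lf (nat_lit 0) (nat_lit 44701400466) (nat_lit 76) (nat_lit 263781379231) (nat_lit 76) (nat_lit 261538614243) (nat_lit 1) (nat_lit 4) (nat_lit 2) (nat_lit 5) (nat_lit 2) (nat_lit 4) (nat_lit 429) (nat_lit 257) (nat_lit 214)) (XT.nd (nat_lit 78) (nat_lit 0) (nat_lit 0) (XT.lf (nat_lit 0) (nat_lit 49880384334) (nat_lit 76) (nat_lit 275411910206) (nat_lit 76) (nat_lit 273154207692) (nat_lit 1) (nat_lit 4) (nat_lit 2) (nat_lit 5) (nat_lit 2) (nat_lit 4) (nat_lit 430) (nat_lit 257) (nat_lit 213)) (XT.lf (nat_lit 0) (nat_lit 55291224156) (nat_lit 76) (nat_lit 287637134797) (nat_lit 76) (nat_lit 285365206068) (nat_lit 1) (nat_lit 4) (nat_lit 2) (nat_lit 5) (nat_lit 2) (nat_lit 4) (nat_lit 431) (nat_lit 257) (nat_lit 212))))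 (XT.nd (nat_lit 78) (nat_lit 0) (nat_lit 0) (XT.lf (nat_lit 0) (nat_lit 60946802883) (nat_lit 76) (nat_lit 300486160683) (nat_lit 76) (nat_lit 298200683178) (nat_lit 1) (nat_lit 4) (nat_lit 2) (nat_lit 5) (nat_lit 2) (nat_lit 4) (nat_lit 432) (nat_lit 257) (nat_lit 211)) (XT.nd (nat_lit 78) (nat_lit 0) (nat_lit 0) (XT.lf (nat_lit 0) (nat_lit 66860586180) (nat_lit 76) (nat_lit 313989580781) (nat_lit 76) (nat_lit 311691199680) (nat_lit 1) (nat_lit 4) (nat_lit 2) (nat_lit 5) (nat_lit 2) (nat_lit 4) (nat_lit 433) (nat_lit 257) (nat_lit 210)) (XT.lf (nat_lit 0) (nat_lit 73046654482) (nat_lit 76) (nat_lit 328179546093) (nat_lit 76) (nat_lit 325868875852) (nat_lit 1) (nat_lit 4) (nat_lit 2) (nat_lit 5) (nat_lit 2) (nat_lit 4) (nat_lit 434) (nat_lit 257) (nat_lit 209))))))))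
noncomputable def xc15 : XT := (XT.nd (nat_lit 44538) (nat_lit 0) (nat_lit 0) (XT.nd (nat_lit 43602) (nat_lit 0) (nat_lit 76) (XT.nd (nat_lit 43134) (nat_lit 0) (nat_lit 76) (XT.nd (nat_lit 42900) (nat_lit 0) (nat_lit 228) (XT.nd (nat_lit 78) (nat_lit 0) (nat_lit 0) (XT.lf (nat_lit 0) (nat_lit 79519736523) (nat_lit 76) (nat_lit 343089842250) (nat_lit 76) (nat_lit 340767468067) (nat_lit 1) (nat_lit 4) (nat_lit 2) (nat_lit 5) (nat_lit 2) (nat_lit 4) (nat_lit 435) (nat_lit 257) (nat_lit 208)) (XT.lf (nat_lit 0) (nat_lit 86295244405) (nat_lit 76) (nat_lit 358755969957) (nat_lit 76) (nat_lit 356422449162) (nat_lit 1) (nat_lit 4) (nat_lit 2) (nat_lit 5) (nat_lit 2) (nat_lit 4) (nat_lit 436) (nat_lit 257) (nat_lit 207))) (XT.nd (nat_lit 78) (nat_lit 0) (nat_lit 0) (XT.lf (nat_lit 0) (nat_lit 22942445049) (nat_lit 76) (nat_lit 4968996603) (nat_lit 76) (nat_lit 4968996603) (nat_lit 4) (nat_lit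 4) (nat_lit 5) (nat_lit 5) (nat_lit 5) (nat_lit 4) (nat_lit 384) (nat_lit 258) (nat_lit 258)) (XT.nd (nat_lit 78) (nat_lit 0) (nat_lit 0) (XT.lf (nat_lit 0) (nat_lit 54836365825) (nat_lit 76) (nat_lit 7086738288) (nat_lit 76) (nat_lit 6952524504) (nat_lit 4) (nat_lit 4) (nat_lit 5) (nat_lit 5) (nat_lit 5) (nat_lit 4) (nat_lit 385) (nat_lit 258) (nat_lit 257)) (XT.lf (nat_lit 0) (nat_lit 64025779025) (nat_lit 76) (nat_lit 4193916349) (nat_lit 76) (nat_lit 3931879914) (nat_lit 4) (nat_lit 4) (nat_lit 5) (nat_lit 5) (nat_lit 5) (nat_lit 4) (nat_lit 386) (nat_lit 258) (nat_lit 256))))) (XT.nd (nat_lit 234) (nat_lit 0) (nat_lit 0) (XT.nd (nat_lit 78) (nat_lit 152) (nat_lit 0) (XT.lf (nat_lit 0) (nat_lit 73475009252) (nat_lit 76) (nat_lit 1252639719) (nat_lit 76) (nat_lit 868867425) (nat_lit 4) (nat_lit 4) (nat_lit 5) (nat_lit 5) (nat_lit 5) (nat_lit 4) (nat_lit 387) (nat_lit 258) (nat_lit 255))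 (XT.nd (nat_lit 78) (nat_lit 0) (nat_lit 0) (XT.lf (nat_lit 0) (nat_lit 2264595672) (nat_lit 152) (nat_lit 75158996388) (nat_lit 0) (nat_lit 1788680237) (nat_lit 2) (nat_lit 5) (nat_lit 4) (nat_lit 4) (nat_lit 2) (nat_lit 4) (nat_lit 388) (nat_lit 258) (nat_lit 254)) (XT.lf (nat_lit 0) (nat_lit 5482769829) (nat_lit 152) (nat_lit 72625798226) (nat_lit 0) (nat_lit 4901694383) (nat_lit 2) (nat_lit 5) (nat_lit 4) (nat_lit 4) (nat_lit 2) (nat_lit 4) (nat_lit 389) (nat_lit 258) (nat_lit 253)))) (XT.nd (nat_lit 78) (nat_lit 0) (nat_lit 0) (XT.lf (nat_lit 0) (nat_lit 8766790527) (nat_lit 152) (nat_lit 70150571512) (nat_lit 0) (nat_lit 8085562689) (nat_lit 2) (nat_lit 5) (nat_lit 4) (nat_lit 4) (nat_lit 2) (nat_lit 4) (nat_lit 390) (nat_lit 258) (nat_lit 252)) (XT.nd (nat_lit 78) (nat_lit 0) (nat_lit 0) (XT.lf (nat_lit 0) (nat_lit 12124476862) (nat_lit 152) (nat_lit 67727422849) (nat_lit 0) (nat_lit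 11347865793) (nat_lit 2) (nat_lit 5) (nat_lit 4) (nat_lit 4) (nat_lit 2) (nat_lit 4) (nat_lit 391) (nat_lit 258) (nat_lit 251)) (XT.lf (nat_lit 0) (nat_lit 15563823326) (nat_lit 152) (nat_lit 65350582835) (nat_lit 0) (nat_lit 14696371085) (nat_lit 2) (nat_lit 5) (nat_lit 4) (nat_lit 4) (nat_lit 2) (nat_lit 4) (nat_lit 392) (nat_lit 258) (nat_lit 250)))))) (XT.nd (nat_lit 468) (nat_lit 0) (nat_lit 0) (XT.nd (nat_lit 234) (nat_lit 0) (nat_lit 0) (XT.nd (nat_lit 78) (nat_lit 0) (nat_lit 0) (XT.lf (nat_lit 0) (nat_lit 19093018839) (nat_lit 152) (nat_lit 63014392327) (nat_lit 0) (nat_lit 18139051197) (nat_lit 2) (nat_lit 5) (nat_lit 4) (nat_lit 4) (nat_lit 2) (nat_lit 4) (nat_lit 393) (nat_lit 258) (nat_lit 249)) (XT.nd (nat_lit 78) (nat_lit 0) (nat_lit 0) (XT.lf (nat_lit 0) (nat_lit 22720466247) (nat_lit 152) (nat_lit 60713288966) (nat_lit 0) (nat_lit 21684102984) (nat_lit 2) (nat_lit 5) (nat_lit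 4) (nat_lit 4) (nat_lit 2) (nat_lit 4) (nat_lit 394) (nat_lit 258) (nat_lit 248)) (XT.lf (nat_lit 0) (nat_lit 26454802330) (nat_lit 152) (nat_lit 58441793936) (nat_lit 0) (nat_lit 25339967047) (nat_lit 2) (nat_lit 5) (nat_lit 4) (nat_lit 4) (nat_lit 2) (nat_lit 4) (nat_lit 395) (nat_lit 258) (nat_lit 247)))) (XT.nd (nat_lit 78) (nat_lit 0) (nat_lit 0) (XT.lf (nat_lit 0) (nat_lit 30304918364) (nat_lit 152) (nat_lit 56194498915) (nat_lit 0) (nat_lit 29115347825) (nat_lit 2) (nat_lit 5) (nat_lit 4) (nat_lit 4) (nat_lit 2) (nat_lit 4) (nat_lit 396) (nat_lit 258) (nat_lit 246)) (XT.nd (nat_lit 78) (nat_lit 0) (nat_lit 0) (XT.lf (nat_lit 0) (nat_lit 34279981293) (nat_lit 152) (nat_lit 53966053201) (nat_lit 0) (nat_lit 33019234318) (nat_lit 2) (nat_lit 5) (nat_lit 4) (nat_lit 4) (nat_lit 2) (nat_lit 4) (nat_lit 397) (nat_lit 258) (nat_lit 245)) (XT.lf (nat_lit 0) (nat_lit 38389455551) (nat_lit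 152) (nat_lit 51751150969) (nat_lit 0) (nat_lit 37060921495) (nat_lit 2) (nat_lit 5) (nat_lit 4) (nat_lit 4) (nat_lit 2) (nat_lit 4) (nat_lit 398) (nat_lit 258) (nat_lit 244))))) (XT.nd (nat_lit 234) (nat_lit 0) (nat_lit 0) (XT.nd (nat_lit 78) (nat_lit 0) (nat_lit 0) (XT.lf (nat_lit 0) (nat_lit 42643125602) (nat_lit 152) (nat_lit 49544518645) (nat_lit 0) (nat_lit 41250032421) (nat_lit 2) (nat_lit 5) (nat_lit 4) (nat_lit 4) (nat_lit 2) (nat_lit 4) (nat_lit 399) (nat_lit 258) (nat_lit 243)) (XT.nd (nat_lit 78) (nat_lit 0) (nat_lit 0) (XT.lf (nat_lit 0) (nat_lit 47051119230) (nat_lit 152) (nat_lit 47340902340) (nat_lit 0) (nat_lit 45596541169) (nat_lit 2) (nat_lit 5) (nat_lit 4) (nat_lit 4) (nat_lit 2) (nat_lit 4) (nat_lit 400) (nat_lit 258) (nat_lit 242)) (XT.lf (nat_lit 0) (nat_lit 51623931660) (nat_lit 152) (nat_lit 45135055350) (nat_lit 0) (nat_lit 50110796569) (nat_lit 2) (nat_lit 5)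 (nat_lit 4) (nat_lit 4) (nat_lit 2) (nat_lit 4) (nat_lit 401) (nat_lit 258) (nat_lit 241)))) (XT.nd (nat_lit 78) (nat_lit 0) (nat_lit 0) (XT.lf (nat_lit 0) (nat_lit 56372450539) (nat_lit 152) (nat_lit 42921725657) (nat_lit 0) (nat_lit 54803546849) (nat_lit 2) (nat_lit 5) (nat_lit 4) (nat_lit 4) (nat_lit 2) (nat_lit 4) (nat_lit 402) (nat_lit 258) (nat_lit 240)) (XT.nd (nat_lit 78) (nat_lit 0) (nat_lit 0) (XT.lf (nat_lit 0) (nat_lit 61307981866) (nat_lit 152) (nat_lit 40695643430) (nat_lit 0) (nat_lit 59685965224) (nat_lit 2) (nat_lit 5) (nat_lit 4) (nat_lit 4) (nat_lit 2) (nat_lit 4) (nat_lit 403) (nat_lit 258) (nat_lit 239)) (XT.lf (nat_lit 0) (nat_lit 66442276904) (nat_lit 152) (nat_lit 38451508473) (nat_lit 0) (nat_lit 64769676499) (nat_lit 2) (nat_lit 5) (nat_lit 4) (nat_lit 4) (nat_lit 2) (nat_lit 4) (nat_lit 404) (nat_lit 258) (nat_lit 238))))))) (XT.nd (nat_lit 858) (nat_lit 76)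 (nat_lit 0) (XT.nd (nat_lit 390) (nat_lit 0) (nat_lit 0) (XT.nd (nat_lit 156) (nat_lit 0) (nat_lit 0) (XT.nd (nat_lit 78) (nat_lit 0) (nat_lit 0) (XT.lf (nat_lit 0) (nat_lit 71787560167) (nat_lit 152) (nat_lit 36183977606) (nat_lit 0) (nat_lit 70066784748) (nat_lit 2) (nat_lit 5) (nat_lit 4) (nat_lit 4) (nat_lit 2) (nat_lit 4) (nat_lit 405) (nat_lit 258) (nat_lit 237)) (XT.lf (nat_lit 0) (nat_lit 77356558518) (nat_lit 152) (nat_lit 33887651948) (nat_lit 0) (nat_lit 75589902135) (nat_lit 2) (nat_lit 5) (nat_lit 4) (nat_lit 4) (nat_lit 2) (nat_lit 4) (nat_lit 406) (nat_lit 258) (nat_lit 236))) (XT.nd (nat_lit 78) (nat_lit 0) (nat_lit 0) (XT.lf (nat_lit 0) (nat_lit 83162531478) (nat_lit 152) (nat_lit 31557064056) (nat_lit 0) (nat_lit 81352178938) (nat_lit 2) (nat_lit 5) (nat_lit 4) (nat_lit 4) (nat_lit 2) (nat_lit 4) (nat_lit 407) (nat_lit 258) (nat_lit 235)) (XT.nd (nat_lit 78) (nat_lit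 0) (nat_lit 0) (XT.lf (nat_lit 0) (nat_lit 89219302793) (nat_lit 152) (nat_lit 29186664911) (nat_lit 0) (nat_lit 87367334865) (nat_lit 2) (nat_lit 5) (nat_lit 4) (nat_lit 4) (nat_lit 2) (nat_lit 4) (nat_lit 408) (nat_lit 258) (nat_lit 234)) (XT.lf (nat_lit 0) (nat_lit 95541293345) (nat_lit 152) (nat_lit 26770810705) (nat_lit 0) (nat_lit 93649691715) (nat_lit 2) (nat_lit 5) (nat_lit 4) (nat_lit 4) (nat_lit 2) (nat_lit 4) (nat_lit 409) (nat_lit 258) (nat_lit 233))))) (XT.nd (nat_lit 234) (nat_lit 0) (nat_lit 0) (XT.nd (nat_lit 78) (nat_lit 0) (nat_lit 0) (XT.lf (nat_lit 0) (nat_lit 102143555494) (nat_lit 152) (nat_lit 24303749406) (nat_lit 0) (nat_lit 100214207481) (nat_lit 2) (nat_lit 5) (nat_lit 4) (nat_lit 4) (nat_lit 2) (nat_lit 4) (nat_lit 410) (nat_lit 258) (nat_lit 232)) (XT.nd (nat_lit 78) (nat_lit 0) (nat_lit 0) (XT.lf (nat_lit 0) (nat_lit 109041808911) (nat_lit 152) (nat_lit 21779607057)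 (nat_lit 0) (nat_lit 107076511962) (nat_lit 2) (nat_lit 5) (nat_lit 4) (nat_lit 4) (nat_lit 2) (nat_lit 4) (nat_lit 411) (nat_lit 258) (nat_lit 231)) (XT.lf (nat_lit 0) (nat_lit 116252478010) (nat_lit 152) (nat_lit 19192373795) (nat_lit 0) (nat_lit 114252943978) (nat_lit 2) (nat_lit 5) (nat_lit 4) (nat_lit 4) (nat_lit 2) (nat_lit 4) (nat_lit 412) (nat_lit 258) (nat_lit 230)))) (XT.nd (nat_lit 78) (nat_lit 0) (nat_lit 0) (XT.lf (nat_lit 0) (nat_lit 123792731049) (nat_lit 152) (nat_lit 16535889542) (nat_lit 0) (nat_lit 121760590272) (nat_lit 2) (nat_lit 5) (nat_lit 4) (nat_lit 4) (nat_lit 2) (nat_lit 4) (nat_lit 413) (nat_lit 258) (nat_lit 229)) (XT.nd (nat_lit 78) (nat_lit 0) (nat_lit 0) (XT.lf (nat_lit 0) (nat_lit 131680521013) (nat_lit 152) (nat_lit 13803829335) (nat_lit 0) (nat_lit 129617326193) (nat_lit 2) (nat_lit 5) (nat_lit 4) (nat_lit 4) (nat_lit 2) (nat_lit 4) (nat_lit 414) (nat_lit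 258) (nat_lit 228)) (XT.lf (nat_lit 0) (nat_lit 139934628354) (nat_lit 152) (nat_lit 10989688269) (nat_lit 0) (nat_lit 137841858255) (nat_lit 2) (nat_lit 5) (nat_lit 4) (nat_lit 4) (nat_lit 2) (nat_lit 4) (nat_lit 415) (nat_lit 258) (nat_lit 227)))))) (XT.nd (nat_lit 468) (nat_lit 0) (nat_lit 0) (XT.nd (nat_lit 234) (nat_lit 76) (nat_lit 0) (XT.nd (nat_lit 78) (nat_lit 0) (nat_lit 0) (XT.lf (nat_lit 0) (nat_lit 148574705708) (nat_lit 152) (nat_lit 8086766008) (nat_lit 0) (nat_lit 146453768677) (nat_lit 2) (nat_lit 5) (nat_lit 4) (nat_lit 4) (nat_lit 2) (nat_lit 4) (nat_lit 416) (nat_lit 258) (nat_lit 226)) (XT.nd (nat_lit 78) (nat_lit 0) (nat_lit 0) (XT.lf (nat_lit 0) (nat_lit 157621324687) (nat_lit 152) (nat_lit 5088150832) (nat_lit 0) (nat_lit 155473562007) (nat_lit 2) (nat_lit 5) (nat_lit 4) (nat_lit 4) (nat_lit 2) (nat_lit 4) (nat_lit 417) (nat_lit 258) (nat_lit 225)) (XT.lf (nat_lit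 0) (nat_lit 167096024862) (nat_lit 152) (nat_lit 1986703181) (nat_lit 0) (nat_lit 164922713943) (nat_lit 2) (nat_lit 5) (nat_lit 4) (nat_lit 4) (nat_lit 2) (nat_lit 4) (nat_lit 418) (nat_lit 258) (nat_lit 224)))) (XT.nd (nat_lit 78) (nat_lit 0) (nat_lit 0) (XT.lf (nat_lit 0) (nat_lit 1265464097) (nat_lit 76) (nat_lit 175775658386) (nat_lit 76) (nat_lit 173578015812) (nat_lit 1) (nat_lit 4) (nat_lit 2) (nat_lit 5) (nat_lit 2) (nat_lit 4) (nat_lit 419) (nat_lit 258) (nat_lit 223)) (XT.nd (nat_lit 78) (nat_lit 0) (nat_lit 0) (XT.lf (nat_lit 0) (nat_lit 4705081555) (nat_lit 76) (nat_lit 182789354942) (nat_lit 76) (nat_lit 180568539363) (nat_lit 1) (nat_lit 4) (nat_lit 2) (nat_lit 5) (nat_lit 2) (nat_lit 4) (nat_lit 420) (nat_lit 258) (nat_lit 222)) (XT.lf (nat_lit 0) (nat_lit 8274649379) (nat_lit 76) (nat_lit 190174162771) (nat_lit 76) (nat_lit 187931277663) (nat_lit 1) (nat_lit 4) (nat_lit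 2) (nat_lit 5) (nat_lit 2) (nat_lit 4) (nat_lit 421) (nat_lit 258) (nat_lit 221))))) (XT.nd (nat_lit 234) (nat_lit 0) (nat_lit 0) (XT.nd (nat_lit 78) (nat_lit 0) (nat_lit 0) (XT.lf (nat_lit 0) (nat_lit 11982666540) (nat_lit 76) (nat_lit 197947664747) (nat_lit 76) (nat_lit 195683761041) (nat_lit 1) (nat_lit 4) (nat_lit 2) (nat_lit 5) (nat_lit 2) (nat_lit 4) (nat_lit 422) (nat_lit 258) (nat_lit 220)) (XT.nd (nat_lit 78) (nat_lit 0) (nat_lit 0) (XT.lf (nat_lit 0) (nat_lit 15837961649) (nat_lit 76) (nat_lit 206128369208) (nat_lit 76) (nat_lit 203844447789) (nat_lit 1) (nat_lit 4) (nat_lit 2) (nat_lit 5) (nat_lit 2) (nat_lit 4) (nat_lit 423) (nat_lit 258) (nat_lit 219)) (XT.lf (nat_lit 0) (nat_lit 19849713982) (nat_lit 76) (nat_lit 214735754023) (nat_lit 76) (nat_lit 212432768116) (nat_lit 1) (nat_lit 4) (nat_lit 2) (nat_lit 5) (nat_lit 2) (nat_lit 4) (nat_lit 424) (nat_lit 258) (nat_lit 218))))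 (XT.nd (nat_lit 78) (nat_lit 0) (nat_lit 0) (XT.lf (nat_lit 0) (nat_lit 24027475329) (nat_lit 76) (nat_lit 223790312965) (nat_lit 76) (nat_lit 221469170402) (nat_lit 1) (nat_lit 4) (nat_lit 2) (nat_lit 5) (nat_lit 2) (nat_lit 4) (nat_lit 425) (nat_lit 258) (nat_lit 217)) (XT.nd (nat_lit 78) (nat_lit 0) (nat_lit 0) (XT.lf (nat_lit 0) (nat_lit 28381192741) (nat_lit 76) (nat_lit 233313604508) (nat_lit 76) (nat_lit 230975169892) (nat_lit 1) (nat_lit 4) (nat_lit 2) (nat_lit 5) (nat_lit 2) (nat_lit 4) (nat_lit 426) (nat_lit 258) (nat_lit 216)) (XT.lf (nat_lit 0) (nat_lit 32921232211) (nat_lit 76) (nat_lit 243328303154) (nat_lit 76) (nat_lit 240973399916) (nat_lit 1) (nat_lit 4) (nat_lit 2) (nat_lit 5) (nat_lit 2) (nat_lit 4) (nat_lit 427) (nat_lit 258) (nat_lit 215))))))))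
noncomputable def xc16 : XT := (XT.nd (nat_lit 44304) (nat_lit 0) (nat_lit 76) (XT.nd (nat_lit 43446) (nat_lit 0) (nat_lit 76) (XT.nd (nat_lit 390) (nat_lit 0) (nat_lit 0) (XT.nd (nat_lit 156) (nat_lit 0) (nat_lit 0) (XT.nd (nat_lit 78) (nat_lit 0) (nat_lit 0) (XT.lf (nat_lit 0) (nat_lit 37658403359) (nat_lit 76) (nat_lit 253858253426) (nat_lit 76) (nat_lit 251487665786) (nat_lit 1) (nat_lit 4) (nat_lit 2) (nat_lit 5) (nat_lit 2) (nat_lit 4) (nat_lit 428) (nat_lit 258) (nat_lit 214)) (XT.lf (nat_lit 0) (nat_lit 42603985162) (nat_lit 76) (nat_lit 264928526632) (nat_lit 76) (nat_lit 262543001466) (nat_lit 1) (nat_lit 4) (nat_lit 2) (nat_lit 5) (nat_lit 2) (nat_lit 4) (nat_lit 429) (nat_lit 258) (nat_lit 213))) (XT.nd (nat_lit 78) (nat_lit 0) (nat_lit 0) (XT.lf (nat_lit 0) (nat_lit 47769752815) (nat_lit 76) (nat_lit 276565480567) (nat_lit 76) (nat_lit 274165729186) (nat_lit 1) (nat_lit 4)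 (nat_lit 2) (nat_lit 5) (nat_lit 2) (nat_lit 4) (nat_lit 430) (nat_lit 258) (nat_lit 212)) (XT.nd (nat_lit 78) (nat_lit 0) (nat_lit 0) (XT.lf (nat_lit 0) (nat_lit 53168005766) (nat_lit 76) (nat_lit 288796822263) (nat_lit 76) (nat_lit 286383522106) (nat_lit 1) (nat_lit 4) (nat_lit 2) (nat_lit 5) (nat_lit 2) (nat_lit 4) (nat_lit 431) (nat_lit 258) (nat_lit 211)) (XT.lf (nat_lit 0) (nat_lit 58811596997) (nat_lit 76) (nat_lit 301651673962) (nat_lit 76) (nat_lit 299225470209) (nat_lit 1) (nat_lit 4) (nat_lit 2) (nat_lit 5) (nat_lit 2) (nat_lit 4) (nat_lit 432) (nat_lit 258) (nat_lit 210))))) (XT.nd (nat_lit 234) (nat_lit 0) (nat_lit 0) (XT.nd (nat_lit 78) (nat_lit 0) (nat_lit 0) (XT.lf (nat_lit 0) (nat_lit 64713963630) (nat_lit 76) (nat_lit 315160642455) (nat_lit 76) (nat_lit 312722149563) (nat_lit 1) (nat_lit 4) (nat_lit 2) (nat_lit 5) (nat_lit 2) (nat_lit 4) (nat_lit 433) (nat_lit 258) (nat_lit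 209)) (XT.nd (nat_lit 78) (nat_lit 0) (nat_lit 0) (XT.lf (nat_lit 0) (nat_lit 70889158920) (nat_lit 76) (nat_lit 329355891952) (nat_lit 76) (nat_lit 326905695118) (nat_lit 1) (nat_lit 4) (nat_lit 2) (nat_lit 5) (nat_lit 2) (nat_lit 4) (nat_lit 434) (nat_lit 258) (nat_lit 208)) (XT.lf (nat_lit 0) (nat_lit 77351885712) (nat_lit 76) (nat_lit 344271220666) (nat_lit 76) (nat_lit 341809877220) (nat_lit 1) (nat_lit 4) (nat_lit 2) (nat_lit 5) (nat_lit 2) (nat_lit 4) (nat_lit 435) (nat_lit 258) (nat_lit 207)))) (XT.nd (nat_lit 42666) (nat_lit 0) (nat_lit 228) (XT.lf (nat_lit 0) (nat_lit 84117531451) (nat_lit 76) (nat_lit 359942141285) (nat_lit 76) (nat_lit 357470182018) (nat_lit 1) (nat_lit 4) (nat_lit 2) (nat_lit 5) (nat_lit 2) (nat_lit 4) (nat_lit 436) (nat_lit 258) (nat_lit 206)) (XT.nd (nat_lit 78) (nat_lit 0) (nat_lit 0) (XT.lf (nat_lit 0) (nat_lit 14361879059) (nat_lit 76) (nat_lit 7814741231)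 (nat_lit 76) (nat_lit 7814741231) (nat_lit 4) (nat_lit 4) (nat_lit 5) (nat_lit 5) (nat_lit 5) (nat_lit 4) (nat_lit 382) (nat_lit 259) (nat_lit 259)) (XT.lf (nat_lit 0) (nat_lit 37150038807) (nat_lit 76) (nat_lit 12895394278) (nat_lit 76) (nat_lit 12754469805) (nat_lit 4) (nat_lit 4) (nat_lit 5) (nat_lit 5) (nat_lit 5) (nat_lit 4) (nat_lit 383) (nat_lit 259) (nat_lit 258)))))) (XT.nd (nat_lit 390) (nat_lit 0) (nat_lit 0) (XT.nd (nat_lit 156) (nat_lit 152) (nat_lit 0) (XT.nd (nat_lit 78) (nat_lit 0) (nat_lit 0) (XT.lf (nat_lit 0) (nat_lit 45777515401) (nat_lit 76) (nat_lit 10130647196) (nat_lit 76) (nat_lit 9855508939) (nat_lit 4) (nat_lit 4) (nat_lit 5) (nat_lit 5) (nat_lit 5) (nat_lit 4) (nat_lit 384) (nat_lit 259) (nat_lit 257)) (XT.lf (nat_lit 0) (nat_lit 54626729512) (nat_lit 76) (nat_lit 7328658486) (nat_lit 76) (nat_lit 6925697578) (nat_lit 4) (nat_lit 4) (nat_lit 5) (nat_lit 5) (nat_lit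 5) (nat_lit 4) (nat_lit 385) (nat_lit 259) (nat_lit 256))) (XT.nd (nat_lit 78) (nat_lit 152) (nat_lit 0) (XT.lf (nat_lit 0) (nat_lit 63718750696) (nat_lit 76) (nat_lit 4482756745) (nat_lit 76) (nat_lit 3958059978) (nat_lit 4) (nat_lit 4) (nat_lit 5) (nat_lit 5) (nat_lit 5) (nat_lit 4) (nat_lit 386) (nat_lit 259) (nat_lit 255)) (XT.nd (nat_lit 78) (nat_lit 152) (nat_lit 0) (XT.lf (nat_lit 0) (nat_lit 73075226623) (nat_lit 76) (nat_lit 1586166017) (nat_lit 76) (nat_lit 945530338) (nat_lit 4) (nat_lit 4) (nat_lit 5) (nat_lit 5) (nat_lit 5) (nat_lit 4) (nat_lit 387) (nat_lit 259) (nat_lit 254)) (XT.lf (nat_lit 0) (nat_lit 2129764379) (nat_lit 152) (nat_lit 75681540304) (nat_lit 0) (nat_lit 1414475149) (nat_lit 2) (nat_lit 5) (nat_lit 4) (nat_lit 4) (nat_lit 2) (nat_lit 4) (nat_lit 388) (nat_lit 259) (nat_lit 253))))) (XT.nd (nat_lit 234) (nat_lit 0) (nat_lit 0) (XT.nd (nat_lit 78) (nat_lit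 0) (nat_lit 0) (XT.lf (nat_lit 0) (nat_lit 5301566747) (nat_lit 152) (nat_lit 73238406219) (nat_lit 0) (nat_lit 4486125125) (nat_lit 2) (nat_lit 5) (nat_lit 4) (nat_lit 4) (nat_lit 2) (nat_lit 4) (nat_lit 389) (nat_lit 259) (nat_lit 252)) (XT.nd (nat_lit 78) (nat_lit 0) (nat_lit 0) (XT.lf (nat_lit 0) (nat_lit 8541423837) (nat_lit 152) (nat_lit 70848954815) (nat_lit 0) (nat_lit 7630598984) (nat_lit 2) (nat_lit 5) (nat_lit 4) (nat_lit 4) (nat_lit 2) (nat_lit 4) (nat_lit 390) (nat_lit 259) (nat_lit 251)) (XT.lf (nat_lit 0) (nat_lit 11857049592) (nat_lit 152) (nat_lit 68507496923) (nat_lit 0) (nat_lit 10855383568) (nat_lit 2) (nat_lit 5) (nat_lit 4) (nat_lit 4) (nat_lit 2) (nat_lit 4) (nat_lit 391) (nat_lit 259) (nat_lit 250)))) (XT.nd (nat_lit 78) (nat_lit 0) (nat_lit 0) (XT.lf (nat_lit 0) (nat_lit 15256338362) (nat_lit 152) (nat_lit 66208457644) (nat_lit 0) (nat_lit 14168156936) (nat_lit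 2) (nat_lit 5) (nat_lit 4) (nat_lit 4) (nat_lit 2) (nat_lit 4) (nat_lit 392) (nat_lit 259) (nat_lit 249)) (XT.nd (nat_lit 78) (nat_lit 0) (nat_lit 0) (XT.lf (nat_lit 0) (nat_lit 18747383689) (nat_lit 152) (nat_lit 63946363074) (nat_lit 0) (nat_lit 17576806642) (nat_lit 2) (nat_lit 5) (nat_lit 4) (nat_lit 4) (nat_lit 2) (nat_lit 4) (nat_lit 393) (nat_lit 259) (nat_lit 248)) (XT.lf (nat_lit 0) (nat_lit 22338497587) (nat_lit 152) (nat_lit 61715827274) (nat_lit 0) (nat_lit 21089448521) (nat_lit 2) (nat_lit 5) (nat_lit 4) (nat_lit 4) (nat_lit 2) (nat_lit 4) (nat_lit 394) (nat_lit 259) (nat_lit 247))))))) (XT.nd (nat_lit 858) (nat_lit 0) (nat_lit 0) (XT.nd (nat_lit 390) (nat_lit 0) (nat_lit 0) (XT.nd (nat_lit 156) (nat_lit 0) (nat_lit 0) (XT.nd (nat_lit 78) (nat_lit 0) (nat_lit 0) (XT.lf (nat_lit 0) (nat_lit 26038230327) (nat_lit 152) (nat_lit 59511539445) (nat_lit 0) (nat_lit 24714446004) (nat_lit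 2) (nat_lit 5) (nat_lit 4) (nat_lit 4) (nat_lit 2) (nat_lit 4) (nat_lit 395) (nat_lit 259) (nat_lit 246)) (XT.lf (nat_lit 0) (nat_lit 29855390797) (nat_lit 152) (nat_lit 57328251281) (nat_lit 0) (nat_lit 28460430038) (nat_lit 2) (nat_lit 5) (nat_lit 4) (nat_lit 4) (nat_lit 2) (nat_lit 4) (nat_lit 396) (nat_lit 259) (nat_lit 245))) (XT.nd (nat_lit 78) (nat_lit 0) (nat_lit 0) (XT.lf (nat_lit 0) (nat_lit 33799067474) (nat_lit 152) (nat_lit 55160764478) (nat_lit 0) (nat_lit 32336319634) (nat_lit 2) (nat_lit 5) (nat_lit 4) (nat_lit 4) (nat_lit 2) (nat_lit 4) (nat_lit 397) (nat_lit 259) (nat_lit 244)) (XT.nd (nat_lit 78) (nat_lit 0) (nat_lit 0) (XT.lf (nat_lit 0) (nat_lit 37878650063) (nat_lit 152) (nat_lit 53003918353) (nat_lit 0) (nat_lit 36351343099) (nat_lit 2) (nat_lit 5) (nat_lit 4) (nat_lit 4) (nat_lit 2) (nat_lit 4) (nat_lit 398) (nat_lit 259) (nat_lit 243)) (XT.lf (nat_lit 0) (nat_lit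 42103851858) (nat_lit 152) (nat_lit 50852577558) (nat_lit 0) (nat_lit 40515060013) (nat_lit 2) (nat_lit 5) (nat_lit 4) (nat_lit 4) (nat_lit 2) (nat_lit 4) (nat_lit 399) (nat_lit 259) (nat_lit 242))))) (XT.nd (nat_lit 234) (nat_lit 0) (nat_lit 0) (XT.nd (nat_lit 78) (nat_lit 0) (nat_lit 0) (XT.lf (nat_lit 0) (nat_lit 46484732862) (nat_lit 152) (nat_lit 48701619853) (nat_lit 0) (nat_lit 44837383987) (nat_lit 2) (nat_lit 5) (nat_lit 4) (nat_lit 4) (nat_lit 2) (nat_lit 4) (nat_lit 400) (nat_lit 259) (nat_lit 241)) (XT.nd (nat_lit 78) (nat_lit 0) (nat_lit 0) (XT.lf (nat_lit 0) (nat_lit 51031723744) (nat_lit 152) (nat_lit 46545923910) (nat_lit 0) (nat_lit 49328606270) (nat_lit 2) (nat_lit 5) (nat_lit 4) (nat_lit 4) (nat_lit 2) (nat_lit 4) (nat_lit 401) (nat_lit 259) (nat_lit 240)) (XT.lf (nat_lit 0) (nat_lit 55755650674) (nat_lit 152) (nat_lit 44380357120) (nat_lit 0) (nat_lit 53999420248) (nat_lit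 2) (nat_lit 5) (nat_lit 4) (nat_lit 4) (nat_lit 2) (nat_lit 4) (nat_lit 402) (nat_lit 259) (nat_lit 239)))) (XT.nd (nat_lit 78) (nat_lit 0) (nat_lit 0) (XT.lf (nat_lit 0) (nat_lit 60667761096) (nat_lit 152) (nat_lit 42199763372) (nat_lit 0) (nat_lit 58860946907) (nat_lit 2) (nat_lit 5) (nat_lit 4) (nat_lit 4) (nat_lit 2) (nat_lit 4) (nat_lit 403) (nat_lit 259) (nat_lit 238)) (XT.nd (nat_lit 78) (nat_lit 0) (nat_lit 0) (XT.lf (nat_lit 0) (nat_lit 65779750511) (nat_lit 152) (nat_lit 39998950775) (nat_lit 0) (nat_lit 63924761309) (nat_lit 2) (nat_lit 5) (nat_lit 4) (nat_lit 4) (nat_lit 2) (nat_lit 4) (nat_lit 404) (nat_lit 259) (nat_lit 237)) (XT.lf (nat_lit 0) (nat_lit 71103790323) (nat_lit 152) (nat_lit 37772679299) (nat_lit 0) (nat_lit 69202920156) (nat_lit 2) (nat_lit 5) (nat_lit 4) (nat_lit 4) (nat_lit 2) (nat_lit 4) (nat_lit 405) (nat_lit 259) (nat_lit 236)))))) (XT.nd (nat_lit 468)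 (nat_lit 0) (nat_lit 0) (XT.nd (nat_lit 234) (nat_lit 0) (nat_lit 0) (XT.nd (nat_lit 78) (nat_lit 0) (nat_lit 0) (XT.lf (nat_lit 0) (nat_lit 76652556816) (nat_lit 152) (nat_lit 35515648299) (nat_lit 0) (nat_lit 74707990492) (nat_lit 2) (nat_lit 5) (nat_lit 4) (nat_lit 4) (nat_lit 2) (nat_lit 4) (nat_lit 406) (nat_lit 259) (nat_lit 235)) (XT.nd (nat_lit 78) (nat_lit 0) (nat_lit 0) (XT.lf (nat_lit 0) (nat_lit 82439261340) (nat_lit 152) (nat_lit 33222483891) (nat_lit 0) (nat_lit 80453079629) (nat_lit 2) (nat_lit 5) (nat_lit 4) (nat_lit 4) (nat_lit 2) (nat_lit 4) (nat_lit 407) (nat_lit 259) (nat_lit 234)) (XT.lf (nat_lit 0) (nat_lit 88477681763) (nat_lit 152) (nat_lit 30887726159) (nat_lit 0) (nat_lit 86451866349) (nat_lit 2) (nat_lit 5) (nat_lit 4) (nat_lit 4) (nat_lit 2) (nat_lit 4) (nat_lit 408) (nat_lit 259) (nat_lit 233)))) (XT.nd (nat_lit 78) (nat_lit 0) (nat_lit 0) (XT.lf (nat_lit 0)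 (nat_lit 94782195276) (nat_lit 152) (nat_lit 28505816156) (nat_lit 0) (nat_lit 92718633479) (nat_lit 2) (nat_lit 5) (nat_lit 4) (nat_lit 4) (nat_lit 2) (nat_lit 4) (nat_lit 409) (nat_lit 259) (nat_lit 232)) (XT.nd (nat_lit 78) (nat_lit 0) (nat_lit 0) (XT.lf (nat_lit 0) (nat_lit 101367812625) (nat_lit 152) (nat_lit 26071082669) (nat_lit 0) (nat_lit 99268301892) (nat_lit 2) (nat_lit 5) (nat_lit 4) (nat_lit 4) (nat_lit 2) (nat_lit 4) (nat_lit 410) (nat_lit 259) (nat_lit 231)) (XT.lf (nat_lit 0) (nat_lit 108250213853) (nat_lit 152) (nat_lit 23577728713) (nat_lit 0) (nat_lit 106116466037) (nat_lit 2) (nat_lit 5) (nat_lit 4) (nat_lit 4) (nat_lit 2) (nat_lit 4) (nat_lit 411) (nat_lit 259) (nat_lit 230))))) (XT.nd (nat_lit 234) (nat_lit 0) (nat_lit 0) (XT.nd (nat_lit 78) (nat_lit 0) (nat_lit 0) (XT.lf (nat_lit 0) (nat_lit 115445785627) (nat_lit 152) (nat_lit 21019817730) (nat_lit 0) (nat_lit 113279431067)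 (nat_lit 2) (nat_lit 5) (nat_lit 4) (nat_lit 4) (nat_lit 2) (nat_lit 4) (nat_lit 412) (nat_lit 259) (nat_lit 229)) (XT.nd (nat_lit 78) (nat_lit 0) (nat_lit 0) (XT.lf (nat_lit 0) (nat_lit 122971660263) (nat_lit 152) (nat_lit 18391259457) (nat_lit 0) (nat_lit 120774251659) (nat_lit 2) (nat_lit 5) (nat_lit 4) (nat_lit 4) (nat_lit 2) (nat_lit 4) (nat_lit 413) (nat_lit 259) (nat_lit 228)) (XT.lf (nat_lit 0) (nat_lit 130845756509) (nat_lit 152) (nat_lit 15685795422) (nat_lit 0) (nat_lit 128618772627) (nat_lit 2) (nat_lit 5) (nat_lit 4) (nat_lit 4) (nat_lit 2) (nat_lit 4) (nat_lit 414) (nat_lit 259) (nat_lit 227)))) (XT.nd (nat_lit 78) (nat_lit 0) (nat_lit 0) (XT.lf (nat_lit 0) (nat_lit 139086822214) (nat_lit 152) (nat_lit 12896984042) (nat_lit 0) (nat_lit 136831671399) (nat_lit 2) (nat_lit 5) (nat_lit 4) (nat_lit 4) (nat_lit 2) (nat_lit 4) (nat_lit 415) (nat_lit 259) (nat_lit 226)) (XT.nd (nat_lit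 78) (nat_lit 0) (nat_lit 0) (XT.lf (nat_lit 0) (nat_lit 147714478962) (nat_lit 152) (nat_lit 10018185292) (nat_lit 0) (nat_lit 145432502497) (nat_lit 2) (nat_lit 5) (nat_lit 4) (nat_lit 4) (nat_lit 2) (nat_lit 4) (nat_lit 416) (nat_lit 259) (nat_lit 225)) (XT.lf (nat_lit 0) (nat_lit 156749268793) (nat_lit 152) (nat_lit 7042544889) (nat_lit 0) (nat_lit 154441744091) (nat_lit 2) (nat_lit 5) (nat_lit 4) (nat_lit 4) (nat_lit 2) (nat_lit 4) (nat_lit 417) (nat_lit 259) (nat_lit 224))))))))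
noncomputable def xc17 : XT := (XT.nd (nat_lit 44226) (nat_lit 0) (nat_lit 76) (XT.nd (nat_lit 858) (nat_lit 0) (nat_lit 0) (XT.nd (nat_lit 390) (nat_lit 0) (nat_lit 0) (XT.nd (nat_lit 156) (nat_lit 76) (nat_lit 0) (XT.nd (nat_lit 78) (nat_lit 0) (nat_lit 0) (XT.lf (nat_lit 0) (nat_lit 166212703113) (nat_lit 152) (nat_lit 3962977974) (nat_lit 0) (nat_lit 163880846755) (nat_lit 2) (nat_lit 5) (nat_lit 4) (nat_lit 4) (nat_lit 2) (nat_lit 4) (nat_lit 418) (nat_lit 259) (nat_lit 223)) (XT.lf (nat_lit 0) (nat_lit 176127313906) (nat_lit 152) (nat_lit 772152245) (nat_lit 0) (nat_lit 173772284543) (nat_lit 2) (nat_lit 5) (nat_lit 4) (nat_lit 4) (nat_lit 2) (nat_lit 4) (nat_lit 419) (nat_lit 259) (nat_lit 222))) (XT.nd (nat_lit 78) (nat_lit 0) (nat_lit 0) (XT.lf (nat_lit 0) (nat_lit 2621431685) (nat_lit 76) (nat_lit 183936203599) (nat_lit 76) (nat_lit 181559104708) (nat_lit 1) (nat_lit 4) (nat_lit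 2) (nat_lit 5) (nat_lit 2) (nat_lit 4) (nat_lit 420) (nat_lit 259) (nat_lit 221)) (XT.nd (nat_lit 78) (nat_lit 0) (nat_lit 0) (XT.lf (nat_lit 0) (nat_lit 6171473141) (nat_lit 76) (nat_lit 191330501065) (nat_lit 76) (nat_lit 188932383575) (nat_lit 1) (nat_lit 4) (nat_lit 2) (nat_lit 5) (nat_lit 2) (nat_lit 4) (nat_lit 421) (nat_lit 259) (nat_lit 220)) (XT.lf (nat_lit 0) (nat_lit 9860893761) (nat_lit 76) (nat_lit 199113040791) (nat_lit 76) (nat_lit 196694905588) (nat_lit 1) (nat_lit 4) (nat_lit 2) (nat_lit 5) (nat_lit 2) (nat_lit 4) (nat_lit 422) (nat_lit 259) (nat_lit 219))))) (XT.nd (nat_lit 234) (nat_lit 0) (nat_lit 0) (XT.nd (nat_lit 78) (nat_lit 0) (nat_lit 0) (XT.lf (nat_lit 0) (nat_lit 13698477879) (nat_lit 76) (nat_lit 207302352633) (nat_lit 76) (nat_lit 204865152942) (nat_lit 1) (nat_lit 4) (nat_lit 2) (nat_lit 5) (nat_lit 2) (nat_lit 4) (nat_lit 423) (nat_lit 259) (nat_lit 218))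 (XT.nd (nat_lit 78) (nat_lit 0) (nat_lit 0) (XT.lf (nat_lit 0) (nat_lit 17693362600) (nat_lit 76) (nat_lit 215917934954) (nat_lit 76) (nat_lit 213462578607) (nat_lit 1) (nat_lit 4) (nat_lit 2) (nat_lit 5) (nat_lit 2) (nat_lit 4) (nat_lit 424) (nat_lit 259) (nat_lit 217)) (XT.lf (nat_lit 0) (nat_lit 21855059556) (nat_lit 76) (nat_lit 224980301044) (nat_lit 76) (nat_lit 222507652644) (nat_lit 1) (nat_lit 4) (nat_lit 2) (nat_lit 5) (nat_lit 2) (nat_lit 4) (nat_lit 425) (nat_lit 259) (nat_lit 216)))) (XT.nd (nat_lit 78) (nat_lit 0) (nat_lit 0) (XT.lf (nat_lit 0) (nat_lit 26193477547) (nat_lit 76) (nat_lit 234511027965) (nat_lit 76) (nat_lit 232021910943) (nat_lit 1) (nat_lit 4) (nat_lit 2) (nat_lit 5) (nat_lit 2) (nat_lit 4) (nat_lit 426) (nat_lit 259) (nat_lit 215)) (XT.nd (nat_lit 78) (nat_lit 0) (nat_lit 0) (XT.lf (nat_lit 0) (nat_lit 30718946142) (nat_lit 76) (nat_lit 244532807925) (nat_lit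 76) (nat_lit 242028006501) (nat_lit 1) (nat_lit 4) (nat_lit 2) (nat_lit 5) (nat_lit 2) (nat_lit 4) (nat_lit 427) (nat_lit 259) (nat_lit 214)) (XT.lf (nat_lit 0) (nat_lit 35442240264) (nat_lit 76) (nat_lit 255069502304) (nat_lit 76) (nat_lit 252549763355) (nat_lit 1) (nat_lit 4) (nat_lit 2) (nat_lit 5) (nat_lit 2) (nat_lit 4) (nat_lit 428) (nat_lit 259) (nat_lit 213)))))) (XT.nd (nat_lit 468) (nat_lit 0) (nat_lit 0) (XT.nd (nat_lit 234) (nat_lit 0) (nat_lit 0) (XT.nd (nat_lit 78) (nat_lit 0) (nat_lit 0) (XT.lf (nat_lit 0) (nat_lit 40374605852) (nat_lit 76) (nat_lit 266146198471) (nat_lit 76) (nat_lit 263612233306) (nat_lit 1) (nat_lit 4) (nat_lit 2) (nat_lit 5) (nat_lit 2) (nat_lit 4) (nat_lit 429) (nat_lit 259) (nat_lit 212)) (XT.nd (nat_lit 78) (nat_lit 0) (nat_lit 0) (XT.lf (nat_lit 0) (nat_lit 45527786635) (nat_lit 76) (nat_lit 277789269510) (nat_lit 76) (nat_lit 275241755570) (nat_lit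 1) (nat_lit 4) (nat_lit 2) (nat_lit 5) (nat_lit 2) (nat_lit 4) (nat_lit 430) (nat_lit 259) (nat_lit 211)) (XT.lf (nat_lit 0) (nat_lit 50914052089) (nat_lit 76) (nat_lit 290026437020) (nat_lit 76) (nat_lit 287466019483) (nat_lit 1) (nat_lit 4) (nat_lit 2) (nat_lit 5) (nat_lit 2) (nat_lit 4) (nat_lit 431) (nat_lit 259) (nat_lit 210)))) (XT.nd (nat_lit 78) (nat_lit 0) (nat_lit 0) (XT.lf (nat_lit 0) (nat_lit 56546226657) (nat_lit 76) (nat_lit 302886837114) (nat_lit 76) (nat_lit 300314130438) (nat_lit 1) (nat_lit 4) (nat_lit 2) (nat_lit 5) (nat_lit 2) (nat_lit 4) (nat_lit 432) (nat_lit 259) (nat_lit 209)) (XT.nd (nat_lit 78) (nat_lit 0) (nat_lit 0) (XT.lf (nat_lit 0) (nat_lit 62437720278) (nat_lit 76) (nat_lit 316401089792) (nat_lit 76) (nat_lit 313816679174) (nat_lit 1) (nat_lit 4) (nat_lit 2) (nat_lit 5) (nat_lit 2) (nat_lit 4) (nat_lit 433) (nat_lit 259) (nat_lit 208)) (XT.lf (nat_lit 0)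 (nat_lit 68602560318) (nat_lit 76) (nat_lit 330601371846) (nat_lit 76) (nat_lit 328005814616) (nat_lit 1) (nat_lit 4) (nat_lit 2) (nat_lit 5) (nat_lit 2) (nat_lit 4) (nat_lit 434) (nat_lit 259) (nat_lit 207))))) (XT.nd (nat_lit 42666) (nat_lit 0) (nat_lit 228) (XT.nd (nat_lit 78) (nat_lit 0) (nat_lit 0) (XT.lf (nat_lit 0) (nat_lit 75055424967) (nat_lit 76) (nat_lit 345521493472) (nat_lit 76) (nat_lit 342915320421) (nat_lit 1) (nat_lit 4) (nat_lit 2) (nat_lit 5) (nat_lit 2) (nat_lit 4) (nat_lit 435) (nat_lit 259) (nat_lit 206)) (XT.nd (nat_lit 42510) (nat_lit 0) (nat_lit 228) (XT.lf (nat_lit 0) (nat_lit 81811678189) (nat_lit 76) (nat_lit 361196978768) (nat_lit 76) (nat_lit 358580695412) (nat_lit 1) (nat_lit 4) (nat_lit 2) (nat_lit 5) (nat_lit 2) (nat_lit 4) (nat_lit 436) (nat_lit 259) (nat_lit 205)) (XT.lf (nat_lit 0) (nat_lit 6256673019) (nat_lit 76) (nat_lit 10561301238) (nat_lit 76)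 (nat_lit 10561301238) (nat_lit 4) (nat_lit 4) (nat_lit 5) (nat_lit 5) (nat_lit 5) (nat_lit 4) (nat_lit 380) (nat_lit 260) (nat_lit 260)))) (XT.nd (nat_lit 78) (nat_lit 0) (nat_lit 0) (XT.lf (nat_lit 0) (nat_lit 20478610762) (nat_lit 76) (nat_lit 18487392179) (nat_lit 76) (nat_lit 18339421482) (nat_lit 4) (nat_lit 4) (nat_lit 5) (nat_lit 5) (nat_lit 5) (nat_lit 4) (nat_lit 381) (nat_lit 260) (nat_lit 259)) (XT.nd (nat_lit 78) (nat_lit 0) (nat_lit 0) (XT.lf (nat_lit 0) (nat_lit 28611014687) (nat_lit 76) (nat_lit 15831769152) (nat_lit 76) (nat_lit 15542873983) (nat_lit 4) (nat_lit 4) (nat_lit 5) (nat_lit 5) (nat_lit 5) (nat_lit 4) (nat_lit 382) (nat_lit 260) (nat_lit 258)) (XT.lf (nat_lit 0) (nat_lit 36929920678) (nat_lit 76) (nat_lit 13149410486) (nat_lit 76) (nat_lit 12726301533) (nat_lit 4) (nat_lit 4) (nat_lit 5) (nat_lit 5) (nat_lit 5) (nat_lit 4) (nat_lit 383) (nat_lit 260) (nat_lit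 257))))))) (XT.nd (nat_lit 858) (nat_lit 0) (nat_lit 0) (XT.nd (nat_lit 390) (nat_lit 0) (nat_lit 0) (XT.nd (nat_lit 156) (nat_lit 152) (nat_lit 0) (XT.nd (nat_lit 78) (nat_lit 0) (nat_lit 0) (XT.lf (nat_lit 0) (nat_lit 45455135656) (nat_lit 76) (nat_lit 10433929612) (nat_lit 76) (nat_lit 9882998007) (nat_lit 4) (nat_lit 4) (nat_lit 5) (nat_lit 5) (nat_lit 5) (nat_lit 4) (nat_lit 384) (nat_lit 260) (nat_lit 256)) (XT.lf (nat_lit 0) (nat_lit 54206957751) (nat_lit 76) (nat_lit 7678861099) (nat_lit 76) (nat_lit 7006193636) (nat_lit 4) (nat_lit 4) (nat_lit 5) (nat_lit 5) (nat_lit 5) (nat_lit 4) (nat_lit 385) (nat_lit 260) (nat_lit 255))) (XT.nd (nat_lit 78) (nat_lit 152) (nat_lit 0) (XT.lf (nat_lit 0) (nat_lit 63206224634) (nat_lit 76) (nat_lit 4877645261) (nat_lit 76) (nat_lit 4089038885) (nat_lit 4) (nat_lit 4) (nat_lit 5) (nat_lit 5) (nat_lit 5) (nat_lit 4) (nat_lit 386) (nat_lit 260) (nat_lit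 254)) (XT.nd (nat_lit 78) (nat_lit 152) (nat_lit 0) (XT.lf (nat_lit 0) (nat_lit 72474363132) (nat_lit 76) (nat_lit 2023612535) (nat_lit 76) (nat_lit 1124588147) (nat_lit 4) (nat_lit 4) (nat_lit 5) (nat_lit 5) (nat_lit 5) (nat_lit 4) (nat_lit 387) (nat_lit 260) (nat_lit 253)) (XT.lf (nat_lit 0) (nat_lit 1893129355) (nat_lit 152) (nat_lit 76414842772) (nat_lit 0) (nat_lit 936763260) (nat_lit 2) (nat_lit 5) (nat_lit 4) (nat_lit 4) (nat_lit 2) (nat_lit 4) (nat_lit 388) (nat_lit 260) (nat_lit 252))))) (XT.nd (nat_lit 234) (nat_lit 0) (nat_lit 0) (XT.nd (nat_lit 78) (nat_lit 0) (nat_lit 0) (XT.lf (nat_lit 0) (nat_lit 5020768115) (nat_lit 152) (nat_lit 74057483997) (nat_lit 0) (nat_lit 3969018789) (nat_lit 2) (nat_lit 5) (nat_lit 4) (nat_lit 4) (nat_lit 2) (nat_lit 4) (nat_lit 389) (nat_lit 260) (nat_lit 251)) (XT.nd (nat_lit 78) (nat_lit 0) (nat_lit 0) (XT.lf (nat_lit 0) (nat_lit 8218564624)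 (nat_lit 152) (nat_lit 71749723365) (nat_lit 0) (nat_lit 7075974127) (nat_lit 2) (nat_lit 5) (nat_lit 4) (nat_lit 4) (nat_lit 2) (nat_lit 4) (nat_lit 390) (nat_lit 260) (nat_lit 250)) (XT.lf (nat_lit 0) (nat_lit 11494132685) (nat_lit 152) (nat_lit 69486066209) (nat_lit 0) (nat_lit 10265026786) (nat_lit 2) (nat_lit 5) (nat_lit 4) (nat_lit 4) (nat_lit 2) (nat_lit 4) (nat_lit 391) (nat_lit 260) (nat_lit 249)))) (XT.nd (nat_lit 78) (nat_lit 0) (nat_lit 0) (XT.lf (nat_lit 0) (nat_lit 14855271269) (nat_lit 152) (nat_lit 67261122868) (nat_lit 0) (nat_lit 13543769749) (nat_lit 2) (nat_lit 5) (nat_lit 4) (nat_lit 4) (nat_lit 2) (nat_lit 4) (nat_lit 392) (nat_lit 260) (nat_lit 248)) (XT.nd (nat_lit 78) (nat_lit 0) (nat_lit 0) (XT.lf (nat_lit 0) (nat_lit 18309983086) (nat_lit 152) (nat_lit 65069595858) (nat_lit 0) (nat_lit 16920009547) (nat_lit 2) (nat_lit 5) (nat_lit 4) (nat_lit 4) (nat_lit 2) (nat_lit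 4) (nat_lit 393) (nat_lit 260) (nat_lit 247)) (XT.lf (nat_lit 0) (nat_lit 21866493641) (nat_lit 152) (nat_lit 62906267258) (nat_lit 0) (nat_lit 20401784845) (nat_lit 2) (nat_lit 5) (nat_lit 4) (nat_lit 4) (nat_lit 2) (nat_lit 4) (nat_lit 394) (nat_lit 260) (nat_lit 246)))))) (XT.nd (nat_lit 468) (nat_lit 0) (nat_lit 0) (XT.nd (nat_lit 234) (nat_lit 0) (nat_lit 0) (XT.nd (nat_lit 78) (nat_lit 0) (nat_lit 0) (XT.lf (nat_lit 0) (nat_lit 25533270817) (nat_lit 152) (nat_lit 60765986285) (nat_lit 0) (nat_lit 23997385585) (nat_lit 2) (nat_lit 5) (nat_lit 4) (nat_lit 4) (nat_lit 2) (nat_lit 4) (nat_lit 395) (nat_lit 260) (nat_lit 245)) (XT.nd (nat_lit 78) (nat_lit 0) (nat_lit 0) (XT.lf (nat_lit 0) (nat_lit 29319045035) (nat_lit 152) (nat_lit 58643657033) (nat_lit 0) (nat_lit 27715372722) (nat_lit 2) (nat_lit 5) (nat_lit 4) (nat_lit 4) (nat_lit 2) (nat_lit 4) (nat_lit 396) (nat_lit 260) (nat_lit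 244)) (XT.lf (nat_lit 0) (nat_lit 33232830043) (nat_lit 152) (nat_lit 56534226337) (nat_lit 0) (nat_lit 31564598605) (nat_lit 2) (nat_lit 5) (nat_lit 4) (nat_lit 4) (nat_lit 2) (nat_lit 4) (nat_lit 397) (nat_lit 260) (nat_lit 243)))) (XT.nd (nat_lit 78) (nat_lit 0) (nat_lit 0) (XT.lf (nat_lit 0) (nat_lit 37283944376) (nat_lit 152) (nat_lit 54432671742) (nat_lit 0) (nat_lit 35554228058) (nat_lit 2) (nat_lit 5) (nat_lit 4) (nat_lit 4) (nat_lit 2) (nat_lit 4) (nat_lit 398) (nat_lit 260) (nat_lit 242)) (XT.nd (nat_lit 78) (nat_lit 0) (nat_lit 0) (XT.lf (nat_lit 0) (nat_lit 41482033547) (nat_lit 152) (nat_lit 52333989547) (nat_lit 0) (nat_lit 39693760199) (nat_lit 2) (nat_lit 5) (nat_lit 4) (nat_lit 4) (nat_lit 2) (nat_lit 4) (nat_lit 399) (nat_lit 260) (nat_lit 241)) (XT.lf (nat_lit 0) (nat_lit 45837093003) (nat_lit 152) (nat_lit 50233182889) (nat_lit 0) (nat_lit 43993051056) (nat_lit 2) (nat_lit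 5) (nat_lit 4) (nat_lit 4) (nat_lit 2) (nat_lit 4) (nat_lit 400) (nat_lit 260) (nat_lit 240))))) (XT.nd (nat_lit 234) (nat_lit 0) (nat_lit 0) (XT.nd (nat_lit 78) (nat_lit 0) (nat_lit 0) (XT.lf (nat_lit 0) (nat_lit 50359491936) (nat_lit 152) (nat_lit 48125249849) (nat_lit 0) (nat_lit 48462337037) (nat_lit 2) (nat_lit 5) (nat_lit 4) (nat_lit 4) (nat_lit 2) (nat_lit 4) (nat_lit 401) (nat_lit 260) (nat_lit 239)) (XT.nd (nat_lit 78) (nat_lit 0) (nat_lit 0) (XT.lf (nat_lit 0) (nat_lit 55059997961) (nat_lit 152) (nat_lit 46005171538) (nat_lit 0) (nat_lit 53112259299) (nat_lit 2) (nat_lit 5) (nat_lit 4) (nat_lit 4) (nat_lit 2) (nat_lit 4) (nat_lit 402) (nat_lit 260) (nat_lit 238)) (XT.lf (nat_lit 0) (nat_lit 59949802760) (nat_lit 152) (nat_lit 43867900150) (nat_lit 0) (nat_lit 57953889084) (nat_lit 2) (nat_lit 5) (nat_lit 4) (nat_lit 4) (nat_lit 2) (nat_lit 4) (nat_lit 403) (nat_lit 260) (nat_lit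 237)))) (XT.nd (nat_lit 78) (nat_lit 0) (nat_lit 0) (XT.lf (nat_lit 0) (nat_lit 65040548724) (nat_lit 152) (nat_lit 41708346943) (nat_lit 0) (nat_lit 62998754084) (nat_lit 2) (nat_lit 5) (nat_lit 4) (nat_lit 4) (nat_lit 2) (nat_lit 4) (nat_lit 404) (nat_lit 260) (nat_lit 236)) (XT.nd (nat_lit 78) (nat_lit 0) (nat_lit 0) (XT.lf (nat_lit 0) (nat_lit 70344356678) (nat_lit 152) (nat_lit 39521370126) (nat_lit 0) (nat_lit 68258865881) (nat_lit 2) (nat_lit 5) (nat_lit 4) (nat_lit 4) (nat_lit 2) (nat_lit 4) (nat_lit 405) (nat_lit 260) (nat_lit 235)) (XT.lf (nat_lit 0) (nat_lit 75873854735) (nat_lit 152) (nat_lit 37301762609) (nat_lit 0) (nat_lit 73746748551) (nat_lit 2) (nat_lit 5) (nat_lit 4) (nat_lit 4) (nat_lit 2) (nat_lit 4) (nat_lit 406) (nat_lit 260) (nat_lit 234))))))))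
noncomputable def xc18 : XT := (XT.nd (nat_lit 1794) (nat_lit 0) (nat_lit 0) (XT.nd (nat_lit 858) (nat_lit 76) (nat_lit 0) (XT.nd (nat_lit 390) (nat_lit 0) (nat_lit 0) (XT.nd (nat_lit 156) (nat_lit 0) (nat_lit 0) (XT.nd (nat_lit 78) (nat_lit 0) (nat_lit 0) (XT.lf (nat_lit 0) (nat_lit 81642208368) (nat_lit 152) (nat_lit 35044239614) (nat_lit 0) (nat_lit 79475468481) (nat_lit 2) (nat_lit 5) (nat_lit 4) (nat_lit 4) (nat_lit 2) (nat_lit 4) (nat_lit 407) (nat_lit 260) (nat_lit 233)) (XT.lf (nat_lit 0) (nat_lit 87663151751) (nat_lit 152) (nat_lit 32743426085) (nat_lit 0) (nat_lit 85458665481) (nat_lit 2) (nat_lit 5) (nat_lit 4) (nat_lit 4) (nat_lit 2) (nat_lit 4) (nat_lit 408) (nat_lit 260) (nat_lit 232))) (XT.nd (nat_lit 78) (nat_lit 0) (nat_lit 0) (XT.lf (nat_lit 0) (nat_lit 93951020464) (nat_lit 152) (nat_lit 30393843895) (nat_lit 0) (nat_lit 91710585258) (nat_lit 2) (nat_lit 5) (nat_lit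 4) (nat_lit 4) (nat_lit 2) (nat_lit 4) (nat_lit 409) (nat_lit 260) (nat_lit 231)) (XT.nd (nat_lit 78) (nat_lit 0) (nat_lit 0) (XT.lf (nat_lit 0) (nat_lit 100520785624) (nat_lit 152) (nat_lit 27989898801) (nat_lit 0) (nat_lit 98246113335) (nat_lit 2) (nat_lit 5) (nat_lit 4) (nat_lit 4) (nat_lit 2) (nat_lit 4) (nat_lit 410) (nat_lit 260) (nat_lit 230)) (XT.lf (nat_lit 0) (nat_lit 107388089527) (nat_lit 152) (nat_lit 25525867123) (nat_lit 0) (nat_lit 105080810493) (nat_lit 2) (nat_lit 5) (nat_lit 4) (nat_lit 4) (nat_lit 2) (nat_lit 4) (nat_lit 411) (nat_lit 260) (nat_lit 229))))) (XT.nd (nat_lit 234) (nat_lit 0) (nat_lit 0) (XT.nd (nat_lit 78) (nat_lit 0) (nat_lit 0) (XT.lf (nat_lit 0) (nat_lit 114569282898) (nat_lit 152) (nat_lit 22995882121) (nat_lit 0) (nat_lit 112230949821) (nat_lit 2) (nat_lit 5) (nat_lit 4) (nat_lit 4) (nat_lit 2) (nat_lit 4) (nat_lit 412) (nat_lit 260) (nat_lit 228))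 (XT.nd (nat_lit 78) (nat_lit 0) (nat_lit 0) (XT.lf (nat_lit 0) (nat_lit 122081463816) (nat_lit 152) (nat_lit 20393920019) (nat_lit 0) (nat_lit 119713555460) (nat_lit 2) (nat_lit 5) (nat_lit 4) (nat_lit 4) (nat_lit 2) (nat_lit 4) (nat_lit 413) (nat_lit 260) (nat_lit 227)) (XT.lf (nat_lit 0) (nat_lit 129942518426) (nat_lit 152) (nat_lit 17713785670) (nat_lit 0) (nat_lit 127546443138) (nat_lit 2) (nat_lit 5) (nat_lit 4) (nat_lit 4) (nat_lit 2) (nat_lit 4) (nat_lit 414) (nat_lit 260) (nat_lit 226)))) (XT.nd (nat_lit 78) (nat_lit 0) (nat_lit 0) (XT.lf (nat_lit 0) (nat_lit 138171163525) (nat_lit 152) (nat_lit 14949097802) (nat_lit 0) (nat_lit 135748262587) (nat_lit 2) (nat_lit 5) (nat_lit 4) (nat_lit 4) (nat_lit 2) (nat_lit 4) (nat_lit 415) (nat_lit 260) (nat_lit 225)) (XT.nd (nat_lit 78) (nat_lit 0) (nat_lit 0) (XT.lf (nat_lit 0) (nat_lit 146786991125) (nat_lit 152) (nat_lit 12093273825) (nat_lit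 0) (nat_lit 144338541949) (nat_lit 2) (nat_lit 5) (nat_lit 4) (nat_lit 4) (nat_lit 2) (nat_lit 4) (nat_lit 416) (nat_lit 260) (nat_lit 224)) (XT.lf (nat_lit 0) (nat_lit 155810515101) (nat_lit 152) (nat_lit 9139514158) (nat_lit 0) (nat_lit 153337734270) (nat_lit 2) (nat_lit 5) (nat_lit 4) (nat_lit 4) (nat_lit 2) (nat_lit 4) (nat_lit 417) (nat_lit 260) (nat_lit 223)))))) (XT.nd (nat_lit 468) (nat_lit 0) (nat_lit 0) (XT.nd (nat_lit 234) (nat_lit 0) (nat_lit 0) (XT.nd (nat_lit 78) (nat_lit 76) (nat_lit 0) (XT.lf (nat_lit 0) (nat_lit 165263220034) (nat_lit 152) (nat_lit 6080786039) (nat_lit 0) (nat_lit 162767266198) (nat_lit 2) (nat_lit 5) (nat_lit 4) (nat_lit 4) (nat_lit 2) (nat_lit 4) (nat_lit 418) (nat_lit 260) (nat_lit 222)) (XT.nd (nat_lit 78) (nat_lit 76) (nat_lit 0) (XT.lf (nat_lit 0) (nat_lit 175167612364) (nat_lit 152) (nat_lit 2909806783) (nat_lit 0) (nat_lit 172649589000) (nat_lit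 2) (nat_lit 5) (nat_lit 4) (nat_lit 4) (nat_lit 2) (nat_lit 4) (nat_lit 419) (nat_lit 260) (nat_lit 221)) (XT.lf (nat_lit 0) (nat_lit 393570267) (nat_lit 76) (nat_lit 185159848446) (nat_lit 76) (nat_lit 182620806483) (nat_lit 1) (nat_lit 4) (nat_lit 2) (nat_lit 5) (nat_lit 2) (nat_lit 4) (nat_lit 420) (nat_lit 260) (nat_lit 220)))) (XT.nd (nat_lit 78) (nat_lit 0) (nat_lit 0) (XT.lf (nat_lit 0) (nat_lit 3925015182) (nat_lit 76) (nat_lit 192563183661) (nat_lit 76) (nat_lit 190004123985) (nat_lit 1) (nat_lit 4) (nat_lit 2) (nat_lit 5) (nat_lit 2) (nat_lit 4) (nat_lit 421) (nat_lit 260) (nat_lit 219)) (XT.nd (nat_lit 78) (nat_lit 0) (nat_lit 0) (XT.lf (nat_lit 0) (nat_lit 7596724810) (nat_lit 76) (nat_lit 200354330768) (nat_lit 76) (nat_lit 197776206603) (nat_lit 1) (nat_lit 4) (nat_lit 2) (nat_lit 5) (nat_lit 2) (nat_lit 4) (nat_lit 422) (nat_lit 260) (nat_lit 218)) (XT.lf (nat_lit 0) (nat_lit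 11417441317) (nat_lit 76) (nat_lit 208551840115) (nat_lit 76) (nat_lit 205955559295) (nat_lit 1) (nat_lit 4) (nat_lit 2) (nat_lit 5) (nat_lit 2) (nat_lit 4) (nat_lit 423) (nat_lit 260) (nat_lit 217))))) (XT.nd (nat_lit 234) (nat_lit 0) (nat_lit 0) (XT.nd (nat_lit 78) (nat_lit 0) (nat_lit 0) (XT.lf (nat_lit 0) (nat_lit 15396261647) (nat_lit 76) (nat_lit 217175229584) (nat_lit 76) (nat_lit 214561656711) (nat_lit 1) (nat_lit 4) (nat_lit 2) (nat_lit 5) (nat_lit 2) (nat_lit 4) (nat_lit 424) (nat_lit 260) (nat_lit 216)) (XT.nd (nat_lit 78) (nat_lit 0) (nat_lit 0) (XT.lf (nat_lit 0) (nat_lit 19542659183) (nat_lit 76) (nat_lit 226245031053) (nat_lit 76) (nat_lit 223614989558) (nat_lit 1) (nat_lit 4) (nat_lit 2) (nat_lit 5) (nat_lit 2) (nat_lit 4) (nat_lit 425) (nat_lit 260) (nat_lit 215)) (XT.lf (nat_lit 0) (nat_lit 23866506298) (nat_lit 76) (nat_lit 235782839288) (nat_lit 76) (nat_lit 233137113391)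 (nat_lit 1) (nat_lit 4) (nat_lit 2) (nat_lit 5) (nat_lit 2) (nat_lit 4) (nat_lit 426) (nat_lit 260) (nat_lit 214)))) (XT.nd (nat_lit 78) (nat_lit 0) (nat_lit 0) (XT.lf (nat_lit 0) (nat_lit 28378097867) (nat_lit 76) (nat_lit 245811363356) (nat_lit 76) (nat_lit 243150699933) (nat_lit 1) (nat_lit 4) (nat_lit 2) (nat_lit 5) (nat_lit 2) (nat_lit 4) (nat_lit 427) (nat_lit 260) (nat_lit 213)) (XT.nd (nat_lit 78) (nat_lit 0) (nat_lit 0) (XT.lf (nat_lit 0) (nat_lit 33088175774) (nat_lit 76) (nat_lit 256354480695) (nat_lit 76) (nat_lit 253679591057) (nat_lit 1) (nat_lit 4) (nat_lit 2) (nat_lit 5) (nat_lit 2) (nat_lit 4) (nat_lit 428) (nat_lit 260) (nat_lit 212)) (XT.lf (nat_lit 0) (nat_lit 38007954492) (nat_lit 76) (nat_lit 267437293966) (nat_lit 76) (nat_lit 264748855552) (nat_lit 1) (nat_lit 4) (nat_lit 2) (nat_lit 5) (nat_lit 2) (nat_lit 4) (nat_lit 429) (nat_lit 260) (nat_lit 211))))))) (XT.nd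 (nat_lit 43134) (nat_lit 0) (nat_lit 76) (XT.nd (nat_lit 390) (nat_lit 0) (nat_lit 0) (XT.nd (nat_lit 156) (nat_lit 0) (nat_lit 0) (XT.nd (nat_lit 78) (nat_lit 0) (nat_lit 0) (XT.lf (nat_lit 0) (nat_lit 43149147778) (nat_lit 76) (nat_lit 279086190819) (nat_lit 76) (nat_lit 276384848809) (nat_lit 1) (nat_lit 4) (nat_lit 2) (nat_lit 5) (nat_lit 2) (nat_lit 4) (nat_lit 430) (nat_lit 260) (nat_lit 210)) (XT.lf (nat_lit 0) (nat_lit 48523996570) (nat_lit 76) (nat_lit 291328906724) (nat_lit 76) (nat_lit 288615275575) (nat_lit 1) (nat_lit 4) (nat_lit 2) (nat_lit 5) (nat_lit 2) (nat_lit 4) (nat_lit 431) (nat_lit 260) (nat_lit 209))) (XT.nd (nat_lit 78) (nat_lit 0) (nat_lit 0) (XT.lf (nat_lit 0) (nat_lit 54145298125) (nat_lit 76) (nat_lit 304194591002) (nat_lit 76) (nat_lit 301469255911) (nat_lit 1) (nat_lit 4) (nat_lit 2) (nat_lit 5) (nat_lit 2) (nat_lit 4) (nat_lit 432) (nat_lit 260) (nat_lit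 208)) (XT.nd (nat_lit 78) (nat_lit 0) (nat_lit 0) (XT.lf (nat_lit 0) (nat_lit 60026436496) (nat_lit 76) (nat_lit 317713876238) (nat_lit 76) (nat_lit 314977394535) (nat_lit 1) (nat_lit 4) (nat_lit 2) (nat_lit 5) (nat_lit 2) (nat_lit 4) (nat_lit 433) (nat_lit 260) (nat_lit 207)) (XT.lf (nat_lit 0) (nat_lit 66181414393) (nat_lit 76) (nat_lit 331918951203) (nat_lit 76) (nat_lit 329171853680) (nat_lit 1) (nat_lit 4) (nat_lit 2) (nat_lit 5) (nat_lit 2) (nat_lit 4) (nat_lit 434) (nat_lit 260) (nat_lit 206))))) (XT.nd (nat_lit 42510) (nat_lit 0) (nat_lit 228) (XT.nd (nat_lit 78) (nat_lit 0) (nat_lit 0) (XT.lf (nat_lit 0) (nat_lit 72624886526) (nat_lit 76) (nat_lit 346843637507) (nat_lit 76) (nat_lit 344086429678) (nat_lit 1) (nat_lit 4) (nat_lit 2) (nat_lit 5) (nat_lit 2) (nat_lit 4) (nat_lit 435) (nat_lit 260) (nat_lit 205)) (XT.nd (nat_lit 42354) (nat_lit 0) (nat_lit 304) (XT.lf (nat_lit 0)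 (nat_lit 79372194493) (nat_lit 76) (nat_lit 362523470115) (nat_lit 76) (nat_lit 359756633424) (nat_lit 1) (nat_lit 4) (nat_lit 2) (nat_lit 5) (nat_lit 2) (nat_lit 4) (nat_lit 436) (nat_lit 260) (nat_lit 204)) (XT.lf (nat_lit 0) (nat_lit 11815061380) (nat_lit 152) (nat_lit 1387605999) (nat_lit 0) (nat_lit 11815061380) (nat_lit 5) (nat_lit 5) (nat_lit 7) (nat_lit 4) (nat_lit 5) (nat_lit 4) (nat_lit 378) (nat_lit 261) (nat_lit 261)))) (XT.nd (nat_lit 78) (nat_lit 0) (nat_lit 0) (XT.lf (nat_lit 0) (nat_lit 4696255599) (nat_lit 76) (nat_lit 23899043590) (nat_lit 76) (nat_lit 23743674358) (nat_lit 4) (nat_lit 4) (nat_lit 5) (nat_lit 5) (nat_lit 5) (nat_lit 4) (nat_lit 379) (nat_lit 261) (nat_lit 260)) (XT.nd (nat_lit 78) (nat_lit 0) (nat_lit 0) (XT.lf (nat_lit 0) (nat_lit 12394965435) (nat_lit 76) (nat_lit 21335003502) (nat_lit 76) (nat_lit 21031663574) (nat_lit 4) (nat_lit 4) (nat_lit 5) (nat_lit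 5) (nat_lit 5) (nat_lit 4) (nat_lit 380) (nat_lit 261) (nat_lit 259)) (XT.lf (nat_lit 0) (nat_lit 20247486726) (nat_lit 76) (nat_lit 18754109198) (nat_lit 76) (nat_lit 18309844796) (nat_lit 4) (nat_lit 4) (nat_lit 5) (nat_lit 5) (nat_lit 5) (nat_lit 4) (nat_lit 381) (nat_lit 261) (nat_lit 258)))))) (XT.nd (nat_lit 468) (nat_lit 152) (nat_lit 0) (XT.nd (nat_lit 234) (nat_lit 0) (nat_lit 0) (XT.nd (nat_lit 78) (nat_lit 0) (nat_lit 0) (XT.lf (nat_lit 0) (nat_lit 28272515954) (nat_lit 76) (nat_lit 16150215689) (nat_lit 76) (nat_lit 15571737504) (nat_lit 4) (nat_lit 4) (nat_lit 5) (nat_lit 5) (nat_lit 5) (nat_lit 4) (nat_lit 382) (nat_lit 261) (nat_lit 257)) (XT.nd (nat_lit 78) (nat_lit 0) (nat_lit 0) (XT.lf (nat_lit 0) (nat_lit 36489160329) (nat_lit 76) (nat_lit 13517123230) (nat_lit 76) (nat_lit 12810822394) (nat_lit 4) (nat_lit 4) (nat_lit 5) (nat_lit 5) (nat_lit 5) (nat_lit 4) (nat_lit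 383) (nat_lit 261) (nat_lit 256)) (XT.lf (nat_lit 0) (nat_lit 44916983291) (nat_lit 76) (nat_lit 10848562554) (nat_lit 76) (nat_lit 10020525859) (nat_lit 4) (nat_lit 4) (nat_lit 5) (nat_lit 5) (nat_lit 5) (nat_lit 4) (nat_lit 384) (nat_lit 261) (nat_lit 255)))) (XT.nd (nat_lit 78) (nat_lit 0) (nat_lit 0) (XT.lf (nat_lit 0) (nat_lit 53576051086) (nat_lit 76) (nat_lit 8138179943) (nat_lit 76) (nat_lit 7194204336) (nat_lit 4) (nat_lit 4) (nat_lit 5) (nat_lit 5) (nat_lit 5) (nat_lit 4) (nat_lit 385) (nat_lit 261) (nat_lit 254)) (XT.nd (nat_lit 78) (nat_lit 0) (nat_lit 0) (XT.lf (nat_lit 0) (nat_lit 62486980540) (nat_lit 76) (nat_lit 5379522107) (nat_lit 76) (nat_lit 4325128487) (nat_lit 4) (nat_lit 4) (nat_lit 5) (nat_lit 5) (nat_lit 5) (nat_lit 4) (nat_lit 386) (nat_lit 261) (nat_lit 253)) (XT.lf (nat_lit 0) (nat_lit 71670988154) (nat_lit 76) (nat_lit 2566020812) (nat_lit 76) (nat_lit 1406467181)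 (nat_lit 4) (nat_lit 4) (nat_lit 5) (nat_lit 5) (nat_lit 5) (nat_lit 4) (nat_lit 387) (nat_lit 261) (nat_lit 252))))) (XT.nd (nat_lit 234) (nat_lit 0) (nat_lit 0) (XT.nd (nat_lit 78) (nat_lit 0) (nat_lit 0) (XT.lf (nat_lit 0) (nat_lit 1554127182) (nat_lit 152) (nat_lit 77360649750) (nat_lit 0) (nat_lit 354407159) (nat_lit 2) (nat_lit 5) (nat_lit 4) (nat_lit 4) (nat_lit 2) (nat_lit 4) (nat_lit 388) (nat_lit 261) (nat_lit 251)) (XT.nd (nat_lit 78) (nat_lit 0) (nat_lit 0) (XT.lf (nat_lit 0) (nat_lit 4639705362) (nat_lit 152) (nat_lit 75084981746) (nat_lit 0) (nat_lit 3349144168) (nat_lit 2) (nat_lit 5) (nat_lit 4) (nat_lit 4) (nat_lit 2) (nat_lit 4) (nat_lit 389) (nat_lit 261) (nat_lit 250)) (XT.lf (nat_lit 0) (nat_lit 7797444177) (nat_lit 152) (nat_lit 72855021849) (nat_lit 0) (nat_lit 6420367581) (nat_lit 2) (nat_lit 5) (nat_lit 4) (nat_lit 4) (nat_lit 2) (nat_lit 4) (nat_lit 390) (nat_lit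 261) (nat_lit 249)))) (XT.nd (nat_lit 78) (nat_lit 0) (nat_lit 0) (XT.lf (nat_lit 0) (nat_lit 11034862052) (nat_lit 152) (nat_lit 70665460631) (nat_lit 0) (nat_lit 9575389836) (nat_lit 2) (nat_lit 5) (nat_lit 4) (nat_lit 4) (nat_lit 2) (nat_lit 4) (nat_lit 391) (nat_lit 261) (nat_lit 248)) (XT.nd (nat_lit 78) (nat_lit 0) (nat_lit 0) (XT.lf (nat_lit 0) (nat_lit 14359667126) (nat_lit 152) (nat_lit 68511084850) (nat_lit 0) (nat_lit 12821722890) (nat_lit 2) (nat_lit 5) (nat_lit 4) (nat_lit 4) (nat_lit 2) (nat_lit 4) (nat_lit 392) (nat_lit 261) (nat_lit 247)) (XT.lf (nat_lit 0) (nat_lit 17779775600) (nat_lit 152) (nat_lit 66386765041) (nat_lit 0) (nat_lit 16167096107) (nat_lit 2) (nat_lit 5) (nat_lit 4) (nat_lit 4) (nat_lit 2) (nat_lit 4) (nat_lit 393) (nat_lit 261) (nat_lit 246))))))))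
noncomputable def xc19 : XT := (XT.nd (nat_lit 1794) (nat_lit 76) (nat_lit 0) (XT.nd (nat_lit 858) (nat_lit 0) (nat_lit 0) (XT.nd (nat_lit 390) (nat_lit 0) (nat_lit 0) (XT.nd (nat_lit 156) (nat_lit 0) (nat_lit 0) (XT.nd (nat_lit 78) (nat_lit 0) (nat_lit 0) (XT.lf (nat_lit 0) (nat_lit 21303330591) (nat_lit 152) (nat_lit 64287443298) (nat_lit 0) (nat_lit 19619474663) (nat_lit 2) (nat_lit 5) (nat_lit 4) (nat_lit 4) (nat_lit 2) (nat_lit 4) (nat_lit 394) (nat_lit 261) (nat_lit 245)) (XT.lf (nat_lit 0) (nat_lit 24938721515) (nat_lit 152) (nat_lit 62208121237) (nat_lit 0) (nat_lit 23187078505) (nat_lit 2) (nat_lit 5) (nat_lit 4) (nat_lit 4) (nat_lit 2) (nat_lit 4) (nat_lit 395) (nat_lit 261) (nat_lit 244))) (XT.nd (nat_lit 78) (nat_lit 0) (nat_lit 0) (XT.lf (nat_lit 0) (nat_lit 28694604064) (nat_lit 152) (nat_lit 60143848092) (nat_lit 0) (nat_lit 26878401929) (nat_lit 2) (nat_lit 5) (nat_lit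 4) (nat_lit 4) (nat_lit 2) (nat_lit 4) (nat_lit 396) (nat_lit 261) (nat_lit 243)) (XT.nd (nat_lit 78) (nat_lit 0) (nat_lit 0) (XT.lf (nat_lit 0) (nat_lit 32579920816) (nat_lit 152) (nat_lit 58089708925) (nat_lit 0) (nat_lit 30702233801) (nat_lit 2) (nat_lit 5) (nat_lit 4) (nat_lit 4) (nat_lit 2) (nat_lit 4) (nat_lit 397) (nat_lit 261) (nat_lit 242)) (XT.lf (nat_lit 0) (nat_lit 36603922525) (nat_lit 152) (nat_lit 56040812930) (nat_lit 0) (nat_lit 34667678480) (nat_lit 2) (nat_lit 5) (nat_lit 4) (nat_lit 4) (nat_lit 2) (nat_lit 4) (nat_lit 398) (nat_lit 261) (nat_lit 241))))) (XT.nd (nat_lit 234) (nat_lit 0) (nat_lit 0) (XT.nd (nat_lit 78) (nat_lit 0) (nat_lit 0) (XT.lf (nat_lit 0) (nat_lit 40776190148) (nat_lit 152) (nat_lit 53992281782) (nat_lit 0) (nat_lit 38784177504) (nat_lit 2) (nat_lit 5) (nat_lit 4) (nat_lit 4) (nat_lit 2) (nat_lit 4) (nat_lit 399) (nat_lit 261) (nat_lit 240)) (XT.nd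 (nat_lit 78) (nat_lit 0) (nat_lit 0) (XT.lf (nat_lit 0) (nat_lit 45106657655) (nat_lit 152) (nat_lit 51939238027) (nat_lit 0) (nat_lit 43061532059) (nat_lit 2) (nat_lit 5) (nat_lit 4) (nat_lit 4) (nat_lit 2) (nat_lit 4) (nat_lit 400) (nat_lit 261) (nat_lit 239)) (XT.lf (nat_lit 0) (nat_lit 49605635683) (nat_lit 152) (nat_lit 49876793466) (nat_lit 0) (nat_lit 47509926324) (nat_lit 2) (nat_lit 5) (nat_lit 4) (nat_lit 4) (nat_lit 2) (nat_lit 4) (nat_lit 401) (nat_lit 261) (nat_lit 238)))) (XT.nd (nat_lit 78) (nat_lit 0) (nat_lit 0) (XT.lf (nat_lit 0) (nat_lit 54283836085) (nat_lit 152) (nat_lit 47800037515) (nat_lit 0) (nat_lit 52139951713) (nat_lit 2) (nat_lit 5) (nat_lit 4) (nat_lit 4) (nat_lit 2) (nat_lit 4) (nat_lit 402) (nat_lit 261) (nat_lit 237)) (XT.nd (nat_lit 78) (nat_lit 0) (nat_lit 0) (XT.lf (nat_lit 0) (nat_lit 59152397433) (nat_lit 152) (nat_lit 45704025518) (nat_lit 0) (nat_lit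 56962632096) (nat_lit 2) (nat_lit 5) (nat_lit 4) (nat_lit 4) (nat_lit 2) (nat_lit 4) (nat_lit 403) (nat_lit 261) (nat_lit 236)) (XT.lf (nat_lit 0) (nat_lit 64222911539) (nat_lit 152) (nat_lit 43583766969) (nat_lit 0) (nat_lit 61989450045) (nat_lit 2) (nat_lit 5) (nat_lit 4) (nat_lit 4) (nat_lit 2) (nat_lit 4) (nat_lit 404) (nat_lit 261) (nat_lit 235)))))) (XT.nd (nat_lit 468) (nat_lit 0) (nat_lit 0) (XT.nd (nat_lit 234) (nat_lit 0) (nat_lit 0) (XT.nd (nat_lit 78) (nat_lit 0) (nat_lit 0) (XT.lf (nat_lit 0) (nat_lit 69507451057) (nat_lit 152) (nat_lit 41434213636) (nat_lit 0) (nat_lit 67232374175) (nat_lit 2) (nat_lit 5) (nat_lit 4) (nat_lit 4) (nat_lit 2) (nat_lit 4) (nat_lit 405) (nat_lit 261) (nat_lit 234)) (XT.nd (nat_lit 78) (nat_lit 0) (nat_lit 0) (XT.lf (nat_lit 0) (nat_lit 75018598223) (nat_lit 152) (nat_lit 39250247532) (nat_lit 0) (nat_lit 72703887639) (nat_lit 2) (nat_lit 5) (nat_lit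 4) (nat_lit 4) (nat_lit 2) (nat_lit 4) (nat_lit 406) (nat_lit 261) (nat_lit 233)) (XT.lf (nat_lit 0) (nat_lit 80769474816) (nat_lit 152) (nat_lit 37026668740) (nat_lit 0) (nat_lit 78417017849) (nat_lit 2) (nat_lit 5) (nat_lit 4) (nat_lit 4) (nat_lit 2) (nat_lit 4) (nat_lit 407) (nat_lit 261) (nat_lit 232)))) (XT.nd (nat_lit 78) (nat_lit 0) (nat_lit 0) (XT.lf (nat_lit 0) (nat_lit 86773773399) (nat_lit 152) (nat_lit 34758183024) (nat_lit 0) (nat_lit 84385367496) (nat_lit 2) (nat_lit 5) (nat_lit 4) (nat_lit 4) (nat_lit 2) (nat_lit 4) (nat_lit 408) (nat_lit 261) (nat_lit 231)) (XT.nd (nat_lit 78) (nat_lit 0) (nat_lit 0) (XT.lf (nat_lit 0) (nat_lit 93045789923) (nat_lit 152) (nat_lit 32439389226) (nat_lit 0) (nat_lit 90623146937) (nat_lit 2) (nat_lit 5) (nat_lit 4) (nat_lit 4) (nat_lit 2) (nat_lit 4) (nat_lit 409) (nat_lit 261) (nat_lit 230)) (XT.lf (nat_lit 0) (nat_lit 99600457758) (nat_lit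 152) (nat_lit 30064766411) (nat_lit 0) (nat_lit 97145208027) (nat_lit 2) (nat_lit 5) (nat_lit 4) (nat_lit 4) (nat_lit 2) (nat_lit 4) (nat_lit 410) (nat_lit 261) (nat_lit 229))))) (XT.nd (nat_lit 234) (nat_lit 0) (nat_lit 0) (XT.nd (nat_lit 78) (nat_lit 0) (nat_lit 0) (XT.lf (nat_lit 0) (nat_lit 106453383258) (nat_lit 152) (nat_lit 27628660713) (nat_lit 0) (nat_lit 103967079484) (nat_lit 2) (nat_lit 5) (nat_lit 4) (nat_lit 4) (nat_lit 2) (nat_lit 4) (nat_lit 411) (nat_lit 261) (nat_lit 228)) (XT.nd (nat_lit 78) (nat_lit 0) (nat_lit 0) (XT.lf (nat_lit 0) (nat_lit 113620882911) (nat_lit 152) (nat_lit 25125271882) (nat_lit 0) (nat_lit 111105003858) (nat_lit 2) (nat_lit 5) (nat_lit 4) (nat_lit 4) (nat_lit 2) (nat_lit 4) (nat_lit 412) (nat_lit 261) (nat_lit 227)) (XT.lf (nat_lit 0) (nat_lit 121120022193) (nat_lit 152) (nat_lit 22548639467) (nat_lit 0) (nat_lit 118575976208) (nat_lit 2) (nat_lit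 5) (nat_lit 4) (nat_lit 4) (nat_lit 2) (nat_lit 4) (nat_lit 413) (nat_lit 261) (nat_lit 226)))) (XT.nd (nat_lit 78) (nat_lit 0) (nat_lit 0) (XT.lf (nat_lit 0) (nat_lit 128968656197) (nat_lit 152) (nat_lit 19892628629) (nat_lit 0) (nat_lit 126397784563) (nat_lit 2) (nat_lit 5) (nat_lit 4) (nat_lit 4) (nat_lit 2) (nat_lit 4) (nat_lit 414) (nat_lit 261) (nat_lit 225)) (XT.nd (nat_lit 78) (nat_lit 0) (nat_lit 0) (XT.lf (nat_lit 0) (nat_lit 137185472148) (nat_lit 152) (nat_lit 17150915534) (nat_lit 0) (nat_lit 134589052275) (nat_lit 2) (nat_lit 5) (nat_lit 4) (nat_lit 4) (nat_lit 2) (nat_lit 4) (nat_lit 415) (nat_lit 261) (nat_lit 224)) (XT.lf (nat_lit 0) (nat_lit 145790033892) (nat_lit 152) (nat_lit 14316972293) (nat_lit 0) (nat_lit 143169282364) (nat_lit 2) (nat_lit 5) (nat_lit 4) (nat_lit 4) (nat_lit 2) (nat_lit 4) (nat_lit 416) (nat_lit 261) (nat_lit 223))))))) (XT.nd (nat_lit 858) (nat_lit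 0) (nat_lit 0) (XT.nd (nat_lit 390) (nat_lit 0) (nat_lit 0) (XT.nd (nat_lit 156) (nat_lit 76) (nat_lit 0) (XT.nd (nat_lit 78) (nat_lit 0) (nat_lit 0) (XT.lf (nat_lit 0) (nat_lit 154802828482) (nat_lit 152) (nat_lit 11384051422) (nat_lit 0) (nat_lit 152158903949) (nat_lit 2) (nat_lit 5) (nat_lit 4) (nat_lit 4) (nat_lit 2) (nat_lit 4) (nat_lit 417) (nat_lit 261) (nat_lit 222)) (XT.lf (nat_lit 0) (nat_lit 164245314952) (nat_lit 152) (nat_lit 8345169775) (nat_lit 0) (nat_lit 161579320891) (nat_lit 2) (nat_lit 5) (nat_lit 4) (nat_lit 4) (nat_lit 2) (nat_lit 4) (nat_lit 418) (nat_lit 261) (nat_lit 221))) (XT.nd (nat_lit 78) (nat_lit 76) (nat_lit 0) (XT.lf (nat_lit 0) (nat_lit 174139975413) (nat_lit 152) (nat_lit 5193091921) (nat_lit 0) (nat_lit 171452962753) (nat_lit 2) (nat_lit 5) (nat_lit 4) (nat_lit 4) (nat_lit 2) (nat_lit 4) (nat_lit 419) (nat_lit 261) (nat_lit 220)) (XT.nd (nat_lit 78)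 (nat_lit 76) (nat_lit 0) (XT.lf (nat_lit 0) (nat_lit 184510368580) (nat_lit 152) (nat_lit 1920312913) (nat_lit 0) (nat_lit 181803338207) (nat_lit 2) (nat_lit 5) (nat_lit 4) (nat_lit 4) (nat_lit 2) (nat_lit 4) (nat_lit 420) (nat_lit 261) (nat_lit 219)) (XT.lf (nat_lit 0) (nat_lit 1529926792) (nat_lit 76) (nat_lit 193875145517) (nat_lit 76) (nat_lit 191149050656) (nat_lit 1) (nat_lit 4) (nat_lit 2) (nat_lit 5) (nat_lit 2) (nat_lit 4) (nat_lit 421) (nat_lit 261) (nat_lit 218))))) (XT.nd (nat_lit 234) (nat_lit 0) (nat_lit 0) (XT.nd (nat_lit 78) (nat_lit 0) (nat_lit 0) (XT.lf (nat_lit 0) (nat_lit 5184768809) (nat_lit 76) (nat_lit 201674490129) (nat_lit 76) (nat_lit 198930238612) (nat_lit 1) (nat_lit 4) (nat_lit 2) (nat_lit 5) (nat_lit 2) (nat_lit 4) (nat_lit 422) (nat_lit 261) (nat_lit 217)) (XT.nd (nat_lit 78) (nat_lit 0) (nat_lit 0) (XT.lf (nat_lit 0) (nat_lit 8989420925) (nat_lit 76) (nat_lit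 209879806625) (nat_lit 76) (nat_lit 207118263055) (nat_lit 1) (nat_lit 4) (nat_lit 2) (nat_lit 5) (nat_lit 2) (nat_lit 4) (nat_lit 423) (nat_lit 261) (nat_lit 216)) (XT.lf (nat_lit 0) (nat_lit 12952941835) (nat_lit 76) (nat_lit 218510631472) (nat_lit 76) (nat_lit 215732619281) (nat_lit 1) (nat_lit 4) (nat_lit 2) (nat_lit 5) (nat_lit 2) (nat_lit 4) (nat_lit 424) (nat_lit 261) (nat_lit 215)))) (XT.nd (nat_lit 78) (nat_lit 0) (nat_lit 0) (XT.lf (nat_lit 0) (nat_lit 17084768494) (nat_lit 76) (nat_lit 227587514255) (nat_lit 76) (nat_lit 224793817661) (nat_lit 1) (nat_lit 4) (nat_lit 2) (nat_lit 5) (nat_lit 2) (nat_lit 4) (nat_lit 425) (nat_lit 261) (nat_lit 214)) (XT.nd (nat_lit 78) (nat_lit 0) (nat_lit 0) (XT.lf (nat_lit 0) (nat_lit 21394738584) (nat_lit 76) (nat_lit 237132066598) (nat_lit 76) (nat_lit 234323432478) (nat_lit 1) (nat_lit 4) (nat_lit 2) (nat_lit 5) (nat_lit 2) (nat_lit 4) (nat_lit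 426) (nat_lit 261) (nat_lit 213)) (XT.lf (nat_lit 0) (nat_lit 25893113938) (nat_lit 76) (nat_lit 247167013626) (nat_lit 76) (nat_lit 244344153291) (nat_lit 1) (nat_lit 4) (nat_lit 2) (nat_lit 5) (nat_lit 2) (nat_lit 4) (nat_lit 427) (nat_lit 261) (nat_lit 212)))))) (XT.nd (nat_lit 468) (nat_lit 0) (nat_lit 0) (XT.nd (nat_lit 234) (nat_lit 0) (nat_lit 0) (XT.nd (nat_lit 78) (nat_lit 0) (nat_lit 0) (XT.lf (nat_lit 0) (nat_lit 30590604975) (nat_lit 76) (nat_lit 257716248070) (nat_lit 76) (nat_lit 254879838959) (nat_lit 1) (nat_lit 4) (nat_lit 2) (nat_lit 5) (nat_lit 2) (nat_lit 4) (nat_lit 428) (nat_lit 261) (nat_lit 211)) (XT.nd (nat_lit 78) (nat_lit 0) (nat_lit 0) (XT.lf (nat_lit 0) (nat_lit 35498396196) (nat_lit 76) (nat_lit 268804887155) (nat_lit 76) (nat_lit 265955574448) (nat_lit 1) (nat_lit 4) (nat_lit 2) (nat_lit 5) (nat_lit 2) (nat_lit 4) (nat_lit 429) (nat_lit 261) (nat_lit 210))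 (XT.lf (nat_lit 0) (nat_lit 40628172819) (nat_lit 76) (nat_lit 280459332402) (nat_lit 76) (nat_lit 277597730557) (nat_lit 1) (nat_lit 4) (nat_lit 2) (nat_lit 5) (nat_lit 2) (nat_lit 4) (nat_lit 430) (nat_lit 261) (nat_lit 209)))) (XT.nd (nat_lit 78) (nat_lit 0) (nat_lit 0) (XT.lf (nat_lit 0) (nat_lit 45992148599) (nat_lit 76) (nat_lit 292707332492) (nat_lit 76) (nat_lit 289834026704) (nat_lit 1) (nat_lit 4) (nat_lit 2) (nat_lit 5) (nat_lit 2) (nat_lit 4) (nat_lit 431) (nat_lit 261) (nat_lit 208)) (XT.nd (nat_lit 78) (nat_lit 0) (nat_lit 0) (XT.lf (nat_lit 0) (nat_lit 51603094904) (nat_lit 76) (nat_lit 305578049328) (nat_lit 76) (nat_lit 302693596928) (nat_lit 1) (nat_lit 4) (nat_lit 2) (nat_lit 5) (nat_lit 2) (nat_lit 4) (nat_lit 432) (nat_lit 261) (nat_lit 207)) (XT.lf (nat_lit 0) (nat_lit 57474371133) (nat_lit 76) (nat_lit 319102127475) (nat_lit 76) (nat_lit 316207059255) (nat_lit 1)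 (nat_lit 4) (nat_lit 2) (nat_lit 5) (nat_lit 2) (nat_lit 4) (nat_lit 433) (nat_lit 261) (nat_lit 206))))) (XT.nd (nat_lit 42354) (nat_lit 0) (nat_lit 304) (XT.nd (nat_lit 78) (nat_lit 0) (nat_lit 0) (XT.lf (nat_lit 0) (nat_lit 63619956513) (nat_lit 76) (nat_lit 333311767118) (nat_lit 76) (nat_lit 330406588593) (nat_lit 1) (nat_lit 4) (nat_lit 2) (nat_lit 5) (nat_lit 2) (nat_lit 4) (nat_lit 434) (nat_lit 261) (nat_lit 205)) (XT.nd (nat_lit 78) (nat_lit 0) (nat_lit 0) (XT.lf (nat_lit 0) (nat_lit 70054483391) (nat_lit 76) (nat_lit 348240800734) (nat_lit 76) (nat_lit 345325993346) (nat_lit 1) (nat_lit 4) (nat_lit 2) (nat_lit 5) (nat_lit 2) (nat_lit 4) (nat_lit 435) (nat_lit 261) (nat_lit 204)) (XT.lf (nat_lit 0) (nat_lit 76793272069) (nat_lit 76) (nat_lit 363924773639) (nat_lit 76) (nat_lit 361000795907) (nat_lit 1) (nat_lit 4) (nat_lit 2) (nat_lit 5) (nat_lit 2) (nat_lit 4) (nat_lit 436)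 (nat_lit 261) (nat_lit 203)))) (XT.nd (nat_lit 78) (nat_lit 0) (nat_lit 0) (XT.lf (nat_lit 0) (nat_lit 7198337641) (nat_lit 152) (nat_lit 8483605283) (nat_lit 0) (nat_lit 7198337641) (nat_lit 5) (nat_lit 5) (nat_lit 7) (nat_lit 4) (nat_lit 5) (nat_lit 4) (nat_lit 376) (nat_lit 262) (nat_lit 262)) (XT.nd (nat_lit 78) (nat_lit 0) (nat_lit 0) (XT.lf (nat_lit 0) (nat_lit 19012375055) (nat_lit 152) (nat_lit 9982656469) (nat_lit 0) (nat_lit 18849237362) (nat_lit 5) (nat_lit 5) (nat_lit 7) (nat_lit 4) (nat_lit 5) (nat_lit 4) (nat_lit 377) (nat_lit 262) (nat_lit 261)) (XT.lf (nat_lit 0) (nat_lit 23730784868) (nat_lit 152) (nat_lit 2895533268) (nat_lit 0) (nat_lit 23412277943) (nat_lit 5) (nat_lit 5) (nat_lit 7) (nat_lit 4) (nat_lit 5) (nat_lit 4) (nat_lit 378) (nat_lit 262) (nat_lit 260))))))))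
noncomputable def xc20 : XT := (XT.nd (nat_lit 1716) (nat_lit 76) (nat_lit 0) (XT.nd (nat_lit 858) (nat_lit 0) (nat_lit 0) (XT.nd (nat_lit 390) (nat_lit 152) (nat_lit 0) (XT.nd (nat_lit 156) (nat_lit 0) (nat_lit 0) (XT.nd (nat_lit 78) (nat_lit 0) (nat_lit 0) (XT.lf (nat_lit 0) (nat_lit 4453575362) (nat_lit 76) (nat_lit 24179096460) (nat_lit 76) (nat_lit 23712618838) (nat_lit 4) (nat_lit 4) (nat_lit 5) (nat_lit 5) (nat_lit 5) (nat_lit 4) (nat_lit 379) (nat_lit 262) (nat_lit 259)) (XT.lf (nat_lit 0) (nat_lit 12039541765) (nat_lit 76) (nat_lit 21669372366) (nat_lit 76) (nat_lit 21061970271) (nat_lit 4) (nat_lit 4) (nat_lit 5) (nat_lit 5) (nat_lit 5) (nat_lit 4) (nat_lit 380) (nat_lit 262) (nat_lit 258))) (XT.nd (nat_lit 78) (nat_lit 0) (nat_lit 0) (XT.lf (nat_lit 0) (nat_lit 19784688360) (nat_lit 76) (nat_lit 19140207579) (nat_lit 76) (nat_lit 18398591700) (nat_lit 4) (nat_lit 4) (nat_lit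 5) (nat_lit 5) (nat_lit 5) (nat_lit 4) (nat_lit 381) (nat_lit 262) (nat_lit 257)) (XT.nd (nat_lit 78) (nat_lit 0) (nat_lit 0) (XT.lf (nat_lit 0) (nat_lit 27707455971) (nat_lit 76) (nat_lit 16585580278) (nat_lit 76) (nat_lit 15716141748) (nat_lit 4) (nat_lit 4) (nat_lit 5) (nat_lit 5) (nat_lit 5) (nat_lit 4) (nat_lit 382) (nat_lit 262) (nat_lit 256)) (XT.lf (nat_lit 0) (nat_lit 35826708331) (nat_lit 76) (nat_lit 13999408016) (nat_lit 76) (nat_lit 13008233628) (nat_lit 4) (nat_lit 4) (nat_lit 5) (nat_lit 5) (nat_lit 5) (nat_lit 4) (nat_lit 383) (nat_lit 262) (nat_lit 255))))) (XT.nd (nat_lit 234) (nat_lit 152) (nat_lit 0) (XT.nd (nat_lit 78) (nat_lit 0) (nat_lit 0) (XT.lf (nat_lit 0) (nat_lit 44161776993) (nat_lit 76) (nat_lit 11375533242) (nat_lit 76) (nat_lit 10268419941) (nat_lit 4) (nat_lit 4) (nat_lit 5) (nat_lit 5) (nat_lit 5) (nat_lit 4) (nat_lit 384) (nat_lit 262) (nat_lit 254))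 (XT.nd (nat_lit 78) (nat_lit 0) (nat_lit 0) (XT.lf (nat_lit 0) (nat_lit 52732507358) (nat_lit 76) (nat_lit 8707708634) (nat_lit 76) (nat_lit 7490177321) (nat_lit 4) (nat_lit 4) (nat_lit 5) (nat_lit 5) (nat_lit 5) (nat_lit 4) (nat_lit 385) (nat_lit 262) (nat_lit 253)) (XT.lf (nat_lit 0) (nat_lit 61559305928) (nat_lit 76) (nat_lit 5989582229) (nat_lit 76) (nat_lit 4666890904) (nat_lit 4) (nat_lit 4) (nat_lit 5) (nat_lit 5) (nat_lit 5) (nat_lit 4) (nat_lit 386) (nat_lit 262) (nat_lit 252)))) (XT.nd (nat_lit 78) (nat_lit 152) (nat_lit 0) (XT.lf (nat_lit 0) (nat_lit 70663188889) (nat_lit 76) (nat_lit 3214682297) (nat_lit 76) (nat_lit 1791838580) (nat_lit 4) (nat_lit 4) (nat_lit 5) (nat_lit 5) (nat_lit 5) (nat_lit 4) (nat_lit 387) (nat_lit 262) (nat_lit 251)) (XT.nd (nat_lit 78) (nat_lit 0) (nat_lit 0) (XT.lf (nat_lit 0) (nat_lit 772314891) (nat_lit 76) (nat_lit 345022590) (nat_lit 152) (nat_lit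 78181577337) (nat_lit 2) (nat_lit 5) (nat_lit 3) (nat_lit 5) (nat_lit 4) (nat_lit 4) (nat_lit 388) (nat_lit 262) (nat_lit 250)) (XT.lf (nat_lit 0) (nat_lit 4157471197) (nat_lit 152) (nat_lit 76323345890) (nat_lit 0) (nat_lit 2625025370) (nat_lit 2) (nat_lit 5) (nat_lit 4) (nat_lit 4) (nat_lit 2) (nat_lit 4) (nat_lit 389) (nat_lit 262) (nat_lit 249)))))) (XT.nd (nat_lit 390) (nat_lit 0) (nat_lit 0) (XT.nd (nat_lit 156) (nat_lit 0) (nat_lit 0) (XT.nd (nat_lit 78) (nat_lit 0) (nat_lit 0) (XT.lf (nat_lit 0) (nat_lit 7277059827) (nat_lit 152) (nat_lit 74167481931) (nat_lit 0) (nat_lit 5662218379) (nat_lit 2) (nat_lit 5) (nat_lit 4) (nat_lit 4) (nat_lit 2) (nat_lit 4) (nat_lit 390) (nat_lit 262) (nat_lit 248)) (XT.lf (nat_lit 0) (nat_lit 10478144192) (nat_lit 152) (nat_lit 72048488273) (nat_lit 0) (nat_lit 8784830724) (nat_lit 2) (nat_lit 5) (nat_lit 4) (nat_lit 4) (nat_lit 2) (nat_lit 4) (nat_lit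 391) (nat_lit 262) (nat_lit 247))) (XT.nd (nat_lit 78) (nat_lit 0) (nat_lit 0) (XT.lf (nat_lit 0) (nat_lit 13768345923) (nat_lit 152) (nat_lit 69961319693) (nat_lit 0) (nat_lit 12000297198) (nat_lit 2) (nat_lit 5) (nat_lit 4) (nat_lit 4) (nat_lit 2) (nat_lit 4) (nat_lit 392) (nat_lit 262) (nat_lit 246)) (XT.nd (nat_lit 78) (nat_lit 0) (nat_lit 0) (XT.lf (nat_lit 0) (nat_lit 17155498833) (nat_lit 152) (nat_lit 67901006740) (nat_lit 0) (nat_lit 15316273673) (nat_lit 2) (nat_lit 5) (nat_lit 4) (nat_lit 4) (nat_lit 2) (nat_lit 4) (nat_lit 393) (nat_lit 262) (nat_lit 245)) (XT.lf (nat_lit 0) (nat_lit 20647667571) (nat_lit 152) (nat_lit 65862643909) (nat_lit 0) (nat_lit 18740655330) (nat_lit 2) (nat_lit 5) (nat_lit 4) (nat_lit 4) (nat_lit 2) (nat_lit 4) (nat_lit 394) (nat_lit 262) (nat_lit 244))))) (XT.nd (nat_lit 234) (nat_lit 0) (nat_lit 0) (XT.nd (nat_lit 78) (nat_lit 0) (nat_lit 0) (XT.lf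 (nat_lit 0) (nat_lit 24253166826) (nat_lit 152) (nat_lit 63841377955) (nat_lit 0) (nat_lit 22281595460) (nat_lit 2) (nat_lit 5) (nat_lit 4) (nat_lit 4) (nat_lit 2) (nat_lit 4) (nat_lit 395) (nat_lit 262) (nat_lit 243)) (XT.nd (nat_lit 78) (nat_lit 0) (nat_lit 0) (XT.lf (nat_lit 0) (nat_lit 27980581120) (nat_lit 152) (nat_lit 61832396339) (nat_lit 0) (nat_lit 25947524873) (nat_lit 2) (nat_lit 5) (nat_lit 4) (nat_lit 4) (nat_lit 2) (nat_lit 4) (nat_lit 396) (nat_lit 262) (nat_lit 242)) (XT.lf (nat_lit 0) (nat_lit 31838785247) (nat_lit 152) (nat_lit 59830915773) (nat_lit 0) (nat_lit 29747171971) (nat_lit 2) (nat_lit 5) (nat_lit 4) (nat_lit 4) (nat_lit 2) (nat_lit 4) (nat_lit 397) (nat_lit 262) (nat_lit 241)))) (XT.nd (nat_lit 78) (nat_lit 0) (nat_lit 0) (XT.lf (nat_lit 0) (nat_lit 35836965409) (nat_lit 152) (nat_lit 57832170825) (nat_lit 0) (nat_lit 33689583534) (nat_lit 2) (nat_lit 5) (nat_lit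 4) (nat_lit 4) (nat_lit 2) (nat_lit 4) (nat_lit 398) (nat_lit 262) (nat_lit 240)) (XT.nd (nat_lit 78) (nat_lit 0) (nat_lit 0) (XT.lf (nat_lit 0) (nat_lit 39984641082) (nat_lit 152) (nat_lit 55831402580) (nat_lit 0) (nat_lit 37784146255) (nat_lit 2) (nat_lit 5) (nat_lit 4) (nat_lit 4) (nat_lit 2) (nat_lit 4) (nat_lit 399) (nat_lit 262) (nat_lit 239)) (XT.lf (nat_lit 0) (nat_lit 44291687685) (nat_lit 152) (nat_lit 53823847303) (nat_lit 0) (nat_lit 42040609094) (nat_lit 2) (nat_lit 5) (nat_lit 4) (nat_lit 4) (nat_lit 2) (nat_lit 4) (nat_lit 400) (nat_lit 262) (nat_lit 238))))))) (XT.nd (nat_lit 858) (nat_lit 76) (nat_lit 0) (XT.nd (nat_lit 390) (nat_lit 0) (nat_lit 0) (XT.nd (nat_lit 156) (nat_lit 0) (nat_lit 0) (XT.nd (nat_lit 78) (nat_lit 0) (nat_lit 0) (XT.lf (nat_lit 0) (nat_lit 48768360090) (nat_lit 152) (nat_lit 51804725102) (nat_lit 0) (nat_lit 46469106486) (nat_lit 2) (nat_lit 5)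 (nat_lit 4) (nat_lit 4) (nat_lit 2) (nat_lit 4) (nat_lit 401) (nat_lit 262) (nat_lit 237)) (XT.lf (nat_lit 0) (nat_lit 53425317041) (nat_lit 152) (nat_lit 49769228542) (nat_lit 0) (nat_lit 51080182472) (nat_lit 2) (nat_lit 5) (nat_lit 4) (nat_lit 4) (nat_lit 2) (nat_lit 4) (nat_lit 402) (nat_lit 262) (nat_lit 236))) (XT.nd (nat_lit 78) (nat_lit 0) (nat_lit 0) (XT.lf (nat_lit 0) (nat_lit 58273646530) (nat_lit 152) (nat_lit 47712511203) (nat_lit 0) (nat_lit 55884815805) (nat_lit 2) (nat_lit 5) (nat_lit 4) (nat_lit 4) (nat_lit 2) (nat_lit 4) (nat_lit 403) (nat_lit 262) (nat_lit 235)) (XT.nd (nat_lit 78) (nat_lit 0) (nat_lit 0) (XT.lf (nat_lit 0) (nat_lit 63324892201) (nat_lit 152) (nat_lit 45629676139) (nat_lit 0) (nat_lit 60894446088) (nat_lit 2) (nat_lit 5) (nat_lit 4) (nat_lit 4) (nat_lit 2) (nat_lit 4) (nat_lit 404) (nat_lit 262) (nat_lit 234)) (XT.lf (nat_lit 0) (nat_lit 68591080827)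 (nat_lit 152) (nat_lit 43515764218) (nat_lit 0) (nat_lit 66121001012) (nat_lit 2) (nat_lit 5) (nat_lit 4) (nat_lit 4) (nat_lit 2) (nat_lit 4) (nat_lit 405) (nat_lit 262) (nat_lit 233))))) (XT.nd (nat_lit 234) (nat_lit 0) (nat_lit 0) (XT.nd (nat_lit 78) (nat_lit 0) (nat_lit 0) (XT.lf (nat_lit 0) (nat_lit 74084750953) (nat_lit 152) (nat_lit 41365742318) (nat_lit 0) (nat_lit 71576924755) (nat_lit 2) (nat_lit 5) (nat_lit 4) (nat_lit 4) (nat_lit 2) (nat_lit 4) (nat_lit 406) (nat_lit 262) (nat_lit 232)) (XT.nd (nat_lit 78) (nat_lit 0) (nat_lit 0) (XT.lf (nat_lit 0) (nat_lit 79818982747) (nat_lit 152) (nat_lit 39174491338) (nat_lit 0) (nat_lit 77275207612) (nat_lit 2) (nat_lit 5) (nat_lit 4) (nat_lit 4) (nat_lit 2) (nat_lit 4) (nat_lit 407) (nat_lit 262) (nat_lit 231)) (XT.lf (nat_lit 0) (nat_lit 85807429140) (nat_lit 152) (nat_lit 36936794014) (nat_lit 0) (nat_lit 83229416923) (nat_lit 2) (nat_lit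 5) (nat_lit 4) (nat_lit 4) (nat_lit 2) (nat_lit 4) (nat_lit 408) (nat_lit 262) (nat_lit 230)))) (XT.nd (nat_lit 78) (nat_lit 0) (nat_lit 0) (XT.lf (nat_lit 0) (nat_lit 92064348340) (nat_lit 152) (nat_lit 34647322495) (nat_lit 0) (nat_lit 89453729378) (nat_lit 2) (nat_lit 5) (nat_lit 4) (nat_lit 4) (nat_lit 2) (nat_lit 4) (nat_lit 409) (nat_lit 262) (nat_lit 229)) (XT.nd (nat_lit 78) (nat_lit 0) (nat_lit 0) (XT.lf (nat_lit 0) (nat_lit 98604637771) (nat_lit 152) (nat_lit 32300625660) (nat_lit 0) (nat_lit 95962964766) (nat_lit 2) (nat_lit 5) (nat_lit 4) (nat_lit 4) (nat_lit 2) (nat_lit 4) (nat_lit 410) (nat_lit 262) (nat_lit 228)) (XT.lf (nat_lit 0) (nat_lit 105443869553) (nat_lit 152) (nat_lit 29891116133) (nat_lit 0) (nat_lit 102772621269) (nat_lit 2) (nat_lit 5) (nat_lit 4) (nat_lit 4) (nat_lit 2) (nat_lit 4) (nat_lit 411) (nat_lit 262) (nat_lit 227)))))) (XT.nd (nat_lit 468) (nat_lit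 76) (nat_lit 0) (XT.nd (nat_lit 234) (nat_lit 0) (nat_lit 0) (XT.nd (nat_lit 78) (nat_lit 0) (nat_lit 0) (XT.lf (nat_lit 0) (nat_lit 112598327570) (nat_lit 152) (nat_lit 27413056989) (nat_lit 0) (nat_lit 109898912354) (nat_lit 2) (nat_lit 5) (nat_lit 4) (nat_lit 4) (nat_lit 2) (nat_lit 4) (nat_lit 412) (nat_lit 262) (nat_lit 226)) (XT.nd (nat_lit 78) (nat_lit 0) (nat_lit 0) (XT.lf (nat_lit 0) (nat_lit 120085046247) (nat_lit 152) (nat_lit 24860548085) (nat_lit 0) (nat_lit 117358805381) (nat_lit 2) (nat_lit 5) (nat_lit 4) (nat_lit 4) (nat_lit 2) (nat_lit 4) (nat_lit 413) (nat_lit 262) (nat_lit 225)) (XT.lf (nat_lit 0) (nat_lit 127921851103) (nat_lit 152) (nat_lit 22227512021) (nat_lit 0) (nat_lit 125170061999) (nat_lit 2) (nat_lit 5) (nat_lit 4) (nat_lit 4) (nat_lit 2) (nat_lit 4) (nat_lit 414) (nat_lit 262) (nat_lit 224)))) (XT.nd (nat_lit 78) (nat_lit 0) (nat_lit 0) (XT.lf (nat_lit 0)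 (nat_lit 136127401198) (nat_lit 152) (nat_lit 19507679661) (nat_lit 0) (nat_lit 133351280439) (nat_lit 2) (nat_lit 5) (nat_lit 4) (nat_lit 4) (nat_lit 2) (nat_lit 4) (nat_lit 415) (nat_lit 262) (nat_lit 223)) (XT.nd (nat_lit 78) (nat_lit 0) (nat_lit 0) (XT.lf (nat_lit 0) (nat_lit 144721233556) (nat_lit 152) (nat_lit 16694575216) (nat_lit 0) (nat_lit 141921939792) (nat_lit 2) (nat_lit 5) (nat_lit 4) (nat_lit 4) (nat_lit 2) (nat_lit 4) (nat_lit 416) (nat_lit 262) (nat_lit 222)) (XT.lf (nat_lit 0) (nat_lit 153723809683) (nat_lit 152) (nat_lit 13781500817) (nat_lit 0) (nat_lit 150902446390) (nat_lit 2) (nat_lit 5) (nat_lit 4) (nat_lit 4) (nat_lit 2) (nat_lit 4) (nat_lit 417) (nat_lit 262) (nat_lit 221))))) (XT.nd (nat_lit 234) (nat_lit 76) (nat_lit 0) (XT.nd (nat_lit 78) (nat_lit 0) (nat_lit 0) (XT.lf (nat_lit 0) (nat_lit 163156564283) (nat_lit 152) (nat_lit 10761520573) (nat_lit 0) (nat_lit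 160314182392) (nat_lit 2) (nat_lit 5) (nat_lit 4) (nat_lit 4) (nat_lit 2) (nat_lit 4) (nat_lit 418) (nat_lit 262) (nat_lit 220)) (XT.nd (nat_lit 78) (nat_lit 0) (nat_lit 0) (XT.lf (nat_lit 0) (nat_lit 173041956297) (nat_lit 152) (nat_lit 7627444055) (nat_lit 0) (nat_lit 170179556692) (nat_lit 2) (nat_lit 5) (nat_lit 4) (nat_lit 4) (nat_lit 2) (nat_lit 4) (nat_lit 419) (nat_lit 262) (nat_lit 219)) (XT.lf (nat_lit 0) (nat_lit 183403522371) (nat_lit 152) (nat_lit 4371809176) (nat_lit 0) (nat_lit 180522058278) (nat_lit 2) (nat_lit 5) (nat_lit 4) (nat_lit 4) (nat_lit 2) (nat_lit 4) (nat_lit 420) (nat_lit 262) (nat_lit 218)))) (XT.nd (nat_lit 78) (nat_lit 76) (nat_lit 0) (XT.lf (nat_lit 0) (nat_lit 194265932902) (nat_lit 152) (nat_lit 986864424) (nat_lit 0) (nat_lit 191366312153) (nat_lit 2) (nat_lit 5) (nat_lit 4) (nat_lit 4) (nat_lit 2) (nat_lit 4) (nat_lit 421) (nat_lit 262) (nat_lit 217))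 (XT.nd (nat_lit 78) (nat_lit 0) (nat_lit 0) (XT.lf (nat_lit 0) (nat_lit 2619283007) (nat_lit 76) (nat_lit 203076662112) (nat_lit 76) (nat_lit 200159749311) (nat_lit 1) (nat_lit 4) (nat_lit 2) (nat_lit 5) (nat_lit 2) (nat_lit 4) (nat_lit 422) (nat_lit 262) (nat_lit 216)) (XT.lf (nat_lit 0) (nat_lit 6408635702) (nat_lit 76) (nat_lit 211289413987) (nat_lit 76) (nat_lit 208356032564) (nat_lit 1) (nat_lit 4) (nat_lit 2) (nat_lit 5) (nat_lit 2) (nat_lit 4) (nat_lit 423) (nat_lit 262) (nat_lit 215))))))))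
noncomputable def xc21 : XT := (XT.nd (nat_lit 43758) (nat_lit 0) (nat_lit 76) (XT.nd (nat_lit 858) (nat_lit 0) (nat_lit 0) (XT.nd (nat_lit 390) (nat_lit 0) (nat_lit 0) (XT.nd (nat_lit 156) (nat_lit 0) (nat_lit 0) (XT.nd (nat_lit 78) (nat_lit 0) (nat_lit 0) (XT.lf (nat_lit 0) (nat_lit 10357585736) (nat_lit 76) (nat_lit 219927320148) (nat_lit 76) (nat_lit 216978254323) (nat_lit 1) (nat_lit 4) (nat_lit 2) (nat_lit 5) (nat_lit 2) (nat_lit 4) (nat_lit 424) (nat_lit 262) (nat_lit 214)) (XT.lf (nat_lit 0) (nat_lit 14475535369) (nat_lit 76) (nat_lit 229010947038) (nat_lit 76) (nat_lit 226046943687) (nat_lit 1) (nat_lit 4) (nat_lit 2) (nat_lit 5) (nat_lit 2) (nat_lit 4) (nat_lit 425) (nat_lit 262) (nat_lit 213))) (XT.nd (nat_lit 78) (nat_lit 0) (nat_lit 0) (XT.lf (nat_lit 0) (nat_lit 18772289244) (nat_lit 76) (nat_lit 238561922341) (nat_lit 76) (nat_lit 235583692775) (nat_lit 1) (nat_lit 4) (nat_lit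 2) (nat_lit 5) (nat_lit 2) (nat_lit 4) (nat_lit 426) (nat_lit 262) (nat_lit 212)) (XT.nd (nat_lit 78) (nat_lit 0) (nat_lit 0) (XT.lf (nat_lit 0) (nat_lit 23258077728) (nat_lit 76) (nat_lit 248602986474) (nat_lit 76) (nat_lit 245611208132) (nat_lit 1) (nat_lit 4) (nat_lit 2) (nat_lit 5) (nat_lit 2) (nat_lit 4) (nat_lit 427) (nat_lit 262) (nat_lit 211)) (XT.lf (nat_lit 0) (nat_lit 27943581268) (nat_lit 76) (nat_lit 259158046732) (nat_lit 76) (nat_lit 256153364794) (nat_lit 1) (nat_lit 4) (nat_lit 2) (nat_lit 5) (nat_lit 2) (nat_lit 4) (nat_lit 428) (nat_lit 262) (nat_lit 210))))) (XT.nd (nat_lit 234) (nat_lit 0) (nat_lit 0) (XT.nd (nat_lit 78) (nat_lit 0) (nat_lit 0) (XT.lf (nat_lit 0) (nat_lit 32839955827) (nat_lit 76) (nat_lit 270252234211) (nat_lit 76) (nat_lit 267235263134) (nat_lit 1) (nat_lit 4) (nat_lit 2) (nat_lit 5) (nat_lit 2) (nat_lit 4) (nat_lit 429) (nat_lit 262) (nat_lit 209))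 (XT.nd (nat_lit 78) (nat_lit 0) (nat_lit 0) (XT.lf (nat_lit 0) (nat_lit 37958859437) (nat_lit 76) (nat_lit 281911963644) (nat_lit 76) (nat_lit 278883288624) (nat_lit 1) (nat_lit 4) (nat_lit 2) (nat_lit 5) (nat_lit 2) (nat_lit 4) (nat_lit 430) (nat_lit 262) (nat_lit 208)) (XT.lf (nat_lit 0) (nat_lit 43312479967) (nat_lit 76) (nat_lit 294164996291) (nat_lit 76) (nat_lit 291125174659) (nat_lit 1) (nat_lit 4) (nat_lit 2) (nat_lit 5) (nat_lit 2) (nat_lit 4) (nat_lit 431) (nat_lit 262) (nat_lit 207)))) (XT.nd (nat_lit 78) (nat_lit 0) (nat_lit 0) (XT.lf (nat_lit 0) (nat_lit 48913564130) (nat_lit 76) (nat_lit 307040506038) (nat_lit 76) (nat_lit 303990068587) (nat_lit 1) (nat_lit 4) (nat_lit 2) (nat_lit 5) (nat_lit 2) (nat_lit 4) (nat_lit 432) (nat_lit 262) (nat_lit 206)) (XT.nd (nat_lit 78) (nat_lit 0) (nat_lit 0) (XT.lf (nat_lit 0) (nat_lit 54775447841) (nat_lit 76) (nat_lit 320569148863) (nat_lit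 76) (nat_lit 317508601106) (nat_lit 1) (nat_lit 4) (nat_lit 2) (nat_lit 5) (nat_lit 2) (nat_lit 4) (nat_lit 433) (nat_lit 262) (nat_lit 205)) (XT.lf (nat_lit 0) (nat_lit 60912087967) (nat_lit 76) (nat_lit 334783135818) (nat_lit 76) (nat_lit 331712959199) (nat_lit 1) (nat_lit 4) (nat_lit 2) (nat_lit 5) (nat_lit 2) (nat_lit 4) (nat_lit 434) (nat_lit 262) (nat_lit 204)))))) (XT.nd (nat_lit 42432) (nat_lit 0) (nat_lit 228) (XT.nd (nat_lit 42198) (nat_lit 0) (nat_lit 304) (XT.nd (nat_lit 78) (nat_lit 0) (nat_lit 0) (XT.lf (nat_lit 0) (nat_lit 67338095555) (nat_lit 76) (nat_lit 349716309731) (nat_lit 76) (nat_lit 346636962767) (nat_lit 1) (nat_lit 4) (nat_lit 2) (nat_lit 5) (nat_lit 2) (nat_lit 4) (nat_lit 435) (nat_lit 262) (nat_lit 203)) (XT.nd (nat_lit 42042) (nat_lit 0) (nat_lit 304) (XT.lf (nat_lit 0) (nat_lit 74068770624) (nat_lit 76) (nat_lit 365404225777) (nat_lit 76) (nat_lit 362316145151)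 (nat_lit 1) (nat_lit 4) (nat_lit 2) (nat_lit 5) (nat_lit 2) (nat_lit 4) (nat_lit 436) (nat_lit 262) (nat_lit 202)) (XT.lf (nat_lit 0) (nat_lit 2834919549) (nat_lit 152) (nat_lit 15281136099) (nat_lit 0) (nat_lit 2834919549) (nat_lit 5) (nat_lit 5) (nat_lit 7) (nat_lit 4) (nat_lit 5) (nat_lit 4) (nat_lit 374) (nat_lit 263) (nat_lit 263)))) (XT.nd (nat_lit 78) (nat_lit 0) (nat_lit 0) (XT.lf (nat_lit 0) (nat_lit 10043990364) (nat_lit 152) (nat_lit 23865825451) (nat_lit 0) (nat_lit 9872695786) (nat_lit 5) (nat_lit 5) (nat_lit 7) (nat_lit 4) (nat_lit 5) (nat_lit 4) (nat_lit 375) (nat_lit 263) (nat_lit 262)) (XT.nd (nat_lit 78) (nat_lit 0) (nat_lit 0) (XT.lf (nat_lit 0) (nat_lit 14502370495) (nat_lit 152) (nat_lit 17093547899) (nat_lit 0) (nat_lit 14167938224) (nat_lit 5) (nat_lit 5) (nat_lit 7) (nat_lit 4) (nat_lit 5) (nat_lit 4) (nat_lit 376) (nat_lit 263) (nat_lit 261)) (XT.lf (nat_lit 0)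 (nat_lit 19055594684) (nat_lit 152) (nat_lit 10229315071) (nat_lit 0) (nat_lit 18565793181) (nat_lit 5) (nat_lit 5) (nat_lit 7) (nat_lit 4) (nat_lit 5) (nat_lit 4) (nat_lit 377) (nat_lit 263) (nat_lit 260))))) (XT.nd (nat_lit 234) (nat_lit 0) (nat_lit 0) (XT.nd (nat_lit 78) (nat_lit 76) (nat_lit 0) (XT.lf (nat_lit 0) (nat_lit 23714503939) (nat_lit 152) (nat_lit 3256783555) (nat_lit 0) (nat_lit 23076731740) (nat_lit 5) (nat_lit 5) (nat_lit 7) (nat_lit 4) (nat_lit 5) (nat_lit 4) (nat_lit 378) (nat_lit 263) (nat_lit 259)) (XT.nd (nat_lit 78) (nat_lit 0) (nat_lit 0) (XT.lf (nat_lit 0) (nat_lit 3967637077) (nat_lit 76) (nat_lit 24584499760) (nat_lit 76) (nat_lit 23805803087) (nat_lit 4) (nat_lit 4) (nat_lit 5) (nat_lit 5) (nat_lit 5) (nat_lit 4) (nat_lit 379) (nat_lit 263) (nat_lit 258)) (XT.lf (nat_lit 0) (nat_lit 11446228783) (nat_lit 76) (nat_lit 22126505184) (nat_lit 76) (nat_lit 21213594728)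 (nat_lit 4) (nat_lit 4) (nat_lit 5) (nat_lit 5) (nat_lit 5) (nat_lit 4) (nat_lit 380) (nat_lit 263) (nat_lit 257)))) (XT.nd (nat_lit 78) (nat_lit 0) (nat_lit 0) (XT.lf (nat_lit 0) (nat_lit 19089113762) (nat_lit 76) (nat_lit 19646606604) (nat_lit 76) (nat_lit 18605873497) (nat_lit 4) (nat_lit 4) (nat_lit 5) (nat_lit 5) (nat_lit 5) (nat_lit 4) (nat_lit 381) (nat_lit 263) (nat_lit 256)) (XT.nd (nat_lit 78) (nat_lit 0) (nat_lit 0) (XT.lf (nat_lit 0) (nat_lit 26914489357) (nat_lit 76) (nat_lit 17138899501) (nat_lit 76) (nat_lit 15976430535) (nat_lit 4) (nat_lit 4) (nat_lit 5) (nat_lit 5) (nat_lit 5) (nat_lit 4) (nat_lit 382) (nat_lit 263) (nat_lit 255)) (XT.lf (nat_lit 0) (nat_lit 34940987417) (nat_lit 76) (nat_lit 14597413142) (nat_lit 76) (nat_lit 13319005263) (nat_lit 4) (nat_lit 4) (nat_lit 5) (nat_lit 5) (nat_lit 5) (nat_lit 4) (nat_lit 383) (nat_lit 263) (nat_lit 254))))))) (XT.nd (nat_lit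 858) (nat_lit 0) (nat_lit 0) (XT.nd (nat_lit 390) (nat_lit 76) (nat_lit 0) (XT.nd (nat_lit 156) (nat_lit 76) (nat_lit 0) (XT.nd (nat_lit 78) (nat_lit 0) (nat_lit 0) (XT.lf (nat_lit 0) (nat_lit 43187718649) (nat_lit 76) (nat_lit 12016096370) (nat_lit 76) (nat_lit 10627270479) (nat_lit 4) (nat_lit 4) (nat_lit 5) (nat_lit 5) (nat_lit 5) (nat_lit 4) (nat_lit 384) (nat_lit 263) (nat_lit 253)) (XT.lf (nat_lit 0) (nat_lit 51674318130) (nat_lit 76) (nat_lit 9388803193) (nat_lit 76) (nat_lit 7894817291) (nat_lit 4) (nat_lit 4) (nat_lit 5) (nat_lit 5) (nat_lit 5) (nat_lit 4) (nat_lit 385) (nat_lit 263) (nat_lit 252))) (XT.nd (nat_lit 78) (nat_lit 76) (nat_lit 0) (XT.lf (nat_lit 0) (nat_lit 60420992047) (nat_lit 76) (nat_lit 6709278150) (nat_lit 76) (nat_lit 5115139856) (nat_lit 4) (nat_lit 4) (nat_lit 5) (nat_lit 5) (nat_lit 5) (nat_lit 4) (nat_lit 386) (nat_lit 263) (nat_lit 251)) (XT.nd (nat_lit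 78) (nat_lit 76) (nat_lit 0) (XT.lf (nat_lit 0) (nat_lit 69448565816) (nat_lit 76) (nat_lit 3971141421) (nat_lit 76) (nat_lit 2281619896) (nat_lit 4) (nat_lit 4) (nat_lit 5) (nat_lit 5) (nat_lit 5) (nat_lit 4) (nat_lit 387) (nat_lit 263) (nat_lit 250)) (XT.lf (nat_lit 0) (nat_lit 592885590) (nat_lit 152) (nat_lit 564947236) (nat_lit 76) (nat_lit 78175607264) (nat_lit 3) (nat_lit 5) (nat_lit 5) (nat_lit 5) (nat_lit 4) (nat_lit 4) (nat_lit 388) (nat_lit 263) (nat_lit 249))))) (XT.nd (nat_lit 234) (nat_lit 0) (nat_lit 0) (XT.nd (nat_lit 78) (nat_lit 0) (nat_lit 0) (XT.lf (nat_lit 0) (nat_lit 3572917444) (nat_lit 152) (nat_lit 77775524914) (nat_lit 0) (nat_lit 1794938303) (nat_lit 2) (nat_lit 5) (nat_lit 4) (nat_lit 4) (nat_lit 2) (nat_lit 4) (nat_lit 389) (nat_lit 263) (nat_lit 248)) (XT.nd (nat_lit 78) (nat_lit 0) (nat_lit 0) (XT.lf (nat_lit 0) (nat_lit 6656172564) (nat_lit 152) (nat_lit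 75690228516) (nat_lit 0) (nat_lit 4799721403) (nat_lit 2) (nat_lit 5) (nat_lit 4) (nat_lit 4) (nat_lit 2) (nat_lit 4) (nat_lit 390) (nat_lit 263) (nat_lit 247)) (XT.lf (nat_lit 0) (nat_lit 9822653586) (nat_lit 152) (nat_lit 73638442058) (nat_lit 0) (nat_lit 7891467168) (nat_lit 2) (nat_lit 5) (nat_lit 4) (nat_lit 4) (nat_lit 2) (nat_lit 4) (nat_lit 391) (nat_lit 263) (nat_lit 246)))) (XT.nd (nat_lit 78) (nat_lit 0) (nat_lit 0) (XT.lf (nat_lit 0) (nat_lit 13079899752) (nat_lit 152) (nat_lit 71615280334) (nat_lit 0) (nat_lit 11077536899) (nat_lit 2) (nat_lit 5) (nat_lit 4) (nat_lit 4) (nat_lit 2) (nat_lit 4) (nat_lit 392) (nat_lit 263) (nat_lit 245)) (XT.nd (nat_lit 78) (nat_lit 0) (nat_lit 0) (XT.lf (nat_lit 0) (nat_lit 16435666410) (nat_lit 152) (nat_lit 69615926294) (nat_lit 0) (nat_lit 14365516476) (nat_lit 2) (nat_lit 5) (nat_lit 4) (nat_lit 4) (nat_lit 2) (nat_lit 4) (nat_lit 393)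 (nat_lit 263) (nat_lit 244)) (XT.lf (nat_lit 0) (nat_lit 19897943480) (nat_lit 152) (nat_lit 67635619569) (nat_lit 0) (nat_lit 17763234421) (nat_lit 2) (nat_lit 5) (nat_lit 4) (nat_lit 4) (nat_lit 2) (nat_lit 4) (nat_lit 394) (nat_lit 263) (nat_lit 243)))))) (XT.nd (nat_lit 468) (nat_lit 0) (nat_lit 0) (XT.nd (nat_lit 234) (nat_lit 0) (nat_lit 0) (XT.nd (nat_lit 78) (nat_lit 0) (nat_lit 0) (XT.lf (nat_lit 0) (nat_lit 23474974479) (nat_lit 152) (nat_lit 65669645145) (nat_lit 0) (nat_lit 21278780539) (nat_lit 2) (nat_lit 5) (nat_lit 4) (nat_lit 4) (nat_lit 2) (nat_lit 4) (nat_lit 395) (nat_lit 263) (nat_lit 242)) (XT.nd (nat_lit 78) (nat_lit 0) (nat_lit 0) (XT.lf (nat_lit 0) (nat_lit 27175276148) (nat_lit 152) (nat_lit 63713322129) (nat_lit 0) (nat_lit 24920525179) (nat_lit 2) (nat_lit 5) (nat_lit 4) (nat_lit 4) (nat_lit 2) (nat_lit 4) (nat_lit 396) (nat_lit 263) (nat_lit 241)) (XT.lf (nat_lit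 0) (nat_lit 31007658728) (nat_lit 152) (nat_lit 61761992610) (nat_lit 0) (nat_lit 28697139160) (nat_lit 2) (nat_lit 5) (nat_lit 4) (nat_lit 4) (nat_lit 2) (nat_lit 4) (nat_lit 397) (nat_lit 263) (nat_lit 240)))) (XT.nd (nat_lit 78) (nat_lit 0) (nat_lit 0) (XT.lf (nat_lit 0) (nat_lit 34981246940) (nat_lit 152) (nat_lit 59811010565) (nat_lit 0) (nat_lit 32617614420) (nat_lit 2) (nat_lit 5) (nat_lit 4) (nat_lit 4) (nat_lit 2) (nat_lit 4) (nat_lit 398) (nat_lit 263) (nat_lit 239)) (XT.nd (nat_lit 78) (nat_lit 0) (nat_lit 0) (XT.lf (nat_lit 0) (nat_lit 39105501709) (nat_lit 152) (nat_lit 57855730798) (nat_lit 0) (nat_lit 36691285425) (nat_lit 2) (nat_lit 5) (nat_lit 4) (nat_lit 4) (nat_lit 2) (nat_lit 4) (nat_lit 399) (nat_lit 263) (nat_lit 238)) (XT.lf (nat_lit 0) (nat_lit 43390242688) (nat_lit 152) (nat_lit 55891497882) (nat_lit 0) (nat_lit 40927851392) (nat_lit 2) (nat_lit 5) (nat_lit 4)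 (nat_lit 4) (nat_lit 2) (nat_lit 4) (nat_lit 400) (nat_lit 263) (nat_lit 237))))) (XT.nd (nat_lit 234) (nat_lit 0) (nat_lit 0) (XT.nd (nat_lit 78) (nat_lit 0) (nat_lit 0) (XT.lf (nat_lit 0) (nat_lit 47845671642) (nat_lit 152) (nat_lit 53913635072) (nat_lit 0) (nat_lit 45337399381) (nat_lit 2) (nat_lit 5) (nat_lit 4) (nat_lit 4) (nat_lit 2) (nat_lit 4) (nat_lit 401) (nat_lit 263) (nat_lit 236)) (XT.nd (nat_lit 78) (nat_lit 0) (nat_lit 0) (XT.lf (nat_lit 0) (nat_lit 52482396735) (nat_lit 152) (nat_lit 51917433169) (nat_lit 0) (nat_lit 49930428317) (nat_lit 2) (nat_lit 5) (nat_lit 4) (nat_lit 4) (nat_lit 2) (nat_lit 4) (nat_lit 402) (nat_lit 263) (nat_lit 235)) (XT.lf (nat_lit 0) (nat_lit 57311457789) (nat_lit 152) (nat_lit 49898139314) (nat_lit 0) (nat_lit 54717873983) (nat_lit 2) (nat_lit 5) (nat_lit 4) (nat_lit 4) (nat_lit 2) (nat_lit 4) (nat_lit 403) (nat_lit 263) (nat_lit 234)))) (XT.nd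 (nat_lit 78) (nat_lit 0) (nat_lit 0) (XT.lf (nat_lit 0) (nat_lit 62344352568) (nat_lit 152) (nat_lit 47850945663) (nat_lit 0) (nat_lit 59711135060) (nat_lit 2) (nat_lit 5) (nat_lit 4) (nat_lit 4) (nat_lit 2) (nat_lit 4) (nat_lit 404) (nat_lit 263) (nat_lit 233)) (XT.nd (nat_lit 78) (nat_lit 0) (nat_lit 0) (XT.lf (nat_lit 0) (nat_lit 67593064154) (nat_lit 152) (nat_lit 45770977946) (nat_lit 0) (nat_lit 64922100263) (nat_lit 2) (nat_lit 5) (nat_lit 4) (nat_lit 4) (nat_lit 2) (nat_lit 4) (nat_lit 405) (nat_lit 263) (nat_lit 232)) (XT.lf (nat_lit 0) (nat_lit 73070089481) (nat_lit 152) (nat_lit 43653283858) (nat_lit 0) (nat_lit 70363176653) (nat_lit 2) (nat_lit 5) (nat_lit 4) (nat_lit 4) (nat_lit 2) (nat_lit 4) (nat_lit 406) (nat_lit 263) (nat_lit 231))))))))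
noncomputable def xc22 : XT := (XT.nd (nat_lit 1794) (nat_lit 0) (nat_lit 0) (XT.nd (nat_lit 858) (nat_lit 76) (nat_lit 0) (XT.nd (nat_lit 390) (nat_lit 0) (nat_lit 0) (XT.nd (nat_lit 156) (nat_lit 0) (nat_lit 0) (XT.nd (nat_lit 78) (nat_lit 0) (nat_lit 0) (XT.lf (nat_lit 0) (nat_lit 78788469085) (nat_lit 152) (nat_lit 41492821270) (nat_lit 0) (nat_lit 76047319175) (nat_lit 2) (nat_lit 5) (nat_lit 4) (nat_lit 4) (nat_lit 2) (nat_lit 4) (nat_lit 407) (nat_lit 263) (nat_lit 230)) (XT.lf (nat_lit 0) (nat_lit 84761818155) (nat_lit 152) (nat_lit 39284446225) (nat_lit 0) (nat_lit 81988061499) (nat_lit 2) (nat_lit 5) (nat_lit 4) (nat_lit 4) (nat_lit 2) (nat_lit 4) (nat_lit 408) (nat_lit 263) (nat_lit 229))) (XT.nd (nat_lit 78) (nat_lit 0) (nat_lit 0) (XT.lf (nat_lit 0) (nat_lit 91004358950) (nat_lit 152) (nat_lit 37022900687) (nat_lit 0) (nat_lit 88199548252) (nat_lit 2) (nat_lit 5) (nat_lit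 4) (nat_lit 4) (nat_lit 2) (nat_lit 4) (nat_lit 409) (nat_lit 263) (nat_lit 228)) (XT.nd (nat_lit 78) (nat_lit 0) (nat_lit 0) (XT.lf (nat_lit 0) (nat_lit 97530954664) (nat_lit 152) (nat_lit 34702800022) (nat_lit 0) (nat_lit 94696568687) (nat_lit 2) (nat_lit 5) (nat_lit 4) (nat_lit 4) (nat_lit 2) (nat_lit 4) (nat_lit 410) (nat_lit 263) (nat_lit 227)) (XT.lf (nat_lit 0) (nat_lit 104357144810) (nat_lit 152) (nat_lit 32318620183) (nat_lit 0) (nat_lit 101494591900) (nat_lit 2) (nat_lit 5) (nat_lit 4) (nat_lit 4) (nat_lit 2) (nat_lit 4) (nat_lit 411) (nat_lit 263) (nat_lit 226))))) (XT.nd (nat_lit 234) (nat_lit 0) (nat_lit 0) (XT.nd (nat_lit 78) (nat_lit 0) (nat_lit 0) (XT.lf (nat_lit 0) (nat_lit 111499182221) (nat_lit 152) (nat_lit 29864684550) (nat_lit 0) (nat_lit 108609803662) (nat_lit 2) (nat_lit 5) (nat_lit 4) (nat_lit 4) (nat_lit 2) (nat_lit 4) (nat_lit 412) (nat_lit 263) (nat_lit 225))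 (XT.nd (nat_lit 78) (nat_lit 0) (nat_lit 0) (XT.lf (nat_lit 0) (nat_lit 118974071749) (nat_lit 152) (nat_lit 27335150419) (nat_lit 0) (nat_lit 116059144952) (nat_lit 2) (nat_lit 5) (nat_lit 4) (nat_lit 4) (nat_lit 2) (nat_lit 4) (nat_lit 413) (nat_lit 263) (nat_lit 224)) (XT.lf (nat_lit 0) (nat_lit 126799610750) (nat_lit 152) (nat_lit 24723995090) (nat_lit 0) (nat_lit 123860352297) (nat_lit 2) (nat_lit 5) (nat_lit 4) (nat_lit 4) (nat_lit 2) (nat_lit 4) (nat_lit 414) (nat_lit 263) (nat_lit 223)))) (XT.nd (nat_lit 78) (nat_lit 0) (nat_lit 0) (XT.lf (nat_lit 0) (nat_lit 134994431459) (nat_lit 152) (nat_lit 22025001527) (nat_lit 0) (nat_lit 132032000001) (nat_lit 2) (nat_lit 5) (nat_lit 4) (nat_lit 4) (nat_lit 2) (nat_lit 4) (nat_lit 415) (nat_lit 263) (nat_lit 222)) (XT.nd (nat_lit 78) (nat_lit 0) (nat_lit 0) (XT.lf (nat_lit 0) (nat_lit 143578045354) (nat_lit 152) (nat_lit 19231743554) (nat_lit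 0) (nat_lit 140593544368) (nat_lit 2) (nat_lit 5) (nat_lit 4) (nat_lit 4) (nat_lit 2) (nat_lit 4) (nat_lit 416) (nat_lit 263) (nat_lit 221)) (XT.lf (nat_lit 0) (nat_lit 152570889611) (nat_lit 152) (nat_lit 16337570558) (nat_lit 0) (nat_lit 149565370026) (nat_lit 2) (nat_lit 5) (nat_lit 4) (nat_lit 4) (nat_lit 2) (nat_lit 4) (nat_lit 417) (nat_lit 263) (nat_lit 220)))))) (XT.nd (nat_lit 468) (nat_lit 0) (nat_lit 0) (XT.nd (nat_lit 234) (nat_lit 76) (nat_lit 0) (XT.nd (nat_lit 78) (nat_lit 0) (nat_lit 0) (XT.lf (nat_lit 0) (nat_lit 161994375764) (nat_lit 152) (nat_lit 13335591649) (nat_lit 0) (nat_lit 158968838467) (nat_lit 2) (nat_lit 5) (nat_lit 4) (nat_lit 4) (nat_lit 2) (nat_lit 4) (nat_lit 418) (nat_lit 263) (nat_lit 219)) (XT.nd (nat_lit 78) (nat_lit 0) (nat_lit 0) (XT.lf (nat_lit 0) (nat_lit 171870940685) (nat_lit 152) (nat_lit 10218659260) (nat_lit 0) (nat_lit 168826338899) (nat_lit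 2) (nat_lit 5) (nat_lit 4) (nat_lit 4) (nat_lit 2) (nat_lit 4) (nat_lit 419) (nat_lit 263) (nat_lit 218)) (XT.lf (nat_lit 0) (nat_lit 182224100005) (nat_lit 152) (nat_lit 6979352123) (nat_lit 0) (nat_lit 179161341563) (nat_lit 2) (nat_lit 5) (nat_lit 4) (nat_lit 4) (nat_lit 2) (nat_lit 4) (nat_lit 420) (nat_lit 263) (nat_lit 217)))) (XT.nd (nat_lit 78) (nat_lit 76) (nat_lit 0) (XT.lf (nat_lit 0) (nat_lit 193078504102) (nat_lit 152) (nat_lit 3609957601) (nat_lit 0) (nat_lit 189998453608) (nat_lit 2) (nat_lit 5) (nat_lit 4) (nat_lit 4) (nat_lit 2) (nat_lit 4) (nat_lit 421) (nat_lit 263) (nat_lit 216)) (XT.nd (nat_lit 78) (nat_lit 76) (nat_lit 0) (XT.lf (nat_lit 0) (nat_lit 204459996797) (nat_lit 152) (nat_lit 102453327) (nat_lit 0) (nat_lit 201363477680) (nat_lit 2) (nat_lit 5) (nat_lit 4) (nat_lit 4) (nat_lit 2) (nat_lit 4) (nat_lit 422) (nat_lit 263) (nat_lit 215)) (XT.lf (nat_lit 0) (nat_lit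 3668940921) (nat_lit 76) (nat_lit 212784018410) (nat_lit 76) (nat_lit 209671814891) (nat_lit 1) (nat_lit 4) (nat_lit 2) (nat_lit 5) (nat_lit 2) (nat_lit 4) (nat_lit 423) (nat_lit 263) (nat_lit 214))))) (XT.nd (nat_lit 234) (nat_lit 0) (nat_lit 0) (XT.nd (nat_lit 78) (nat_lit 0) (nat_lit 0) (XT.lf (nat_lit 0) (nat_lit 7604013929) (nat_lit 76) (nat_lit 221428668679) (nat_lit 76) (nat_lit 218301527635) (nat_lit 1) (nat_lit 4) (nat_lit 2) (nat_lit 5) (nat_lit 2) (nat_lit 4) (nat_lit 424) (nat_lit 263) (nat_lit 213)) (XT.nd (nat_lit 78) (nat_lit 0) (nat_lit 0) (XT.lf (nat_lit 0) (nat_lit 11708747348) (nat_lit 76) (nat_lit 230518718529) (nat_lit 76) (nat_lit 227377351270) (nat_lit 1) (nat_lit 4) (nat_lit 2) (nat_lit 5) (nat_lit 2) (nat_lit 4) (nat_lit 425) (nat_lit 263) (nat_lit 212)) (XT.lf (nat_lit 0) (nat_lit 15992914352) (nat_lit 76) (nat_lit 240075810936) (nat_lit 76) (nat_lit 236920894902)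 (nat_lit 1) (nat_lit 4) (nat_lit 2) (nat_lit 5) (nat_lit 2) (nat_lit 4) (nat_lit 426) (nat_lit 263) (nat_lit 211)))) (XT.nd (nat_lit 78) (nat_lit 0) (nat_lit 0) (XT.lf (nat_lit 0) (nat_lit 20466715339) (nat_lit 76) (nat_lit 250122700883) (nat_lit 76) (nat_lit 246954881252) (nat_lit 1) (nat_lit 4) (nat_lit 2) (nat_lit 5) (nat_lit 2) (nat_lit 4) (nat_lit 427) (nat_lit 263) (nat_lit 210)) (XT.nd (nat_lit 78) (nat_lit 0) (nat_lit 0) (XT.lf (nat_lit 0) (nat_lit 25140802217) (nat_lit 76) (nat_lit 260683309536) (nat_lit 76) (nat_lit 257503200765) (nat_lit 1) (nat_lit 4) (nat_lit 2) (nat_lit 5) (nat_lit 2) (nat_lit 4) (nat_lit 428) (nat_lit 263) (nat_lit 209)) (XT.lf (nat_lit 0) (nat_lit 30026303763) (nat_lit 76) (nat_lit 271782781200) (nat_lit 76) (nat_lit 268590968487) (nat_lit 1) (nat_lit 4) (nat_lit 2) (nat_lit 5) (nat_lit 2) (nat_lit 4) (nat_lit 429) (nat_lit 263) (nat_lit 208))))))) (XT.nd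 (nat_lit 42666) (nat_lit 0) (nat_lit 228) (XT.nd (nat_lit 390) (nat_lit 0) (nat_lit 0) (XT.nd (nat_lit 156) (nat_lit 0) (nat_lit 0) (XT.nd (nat_lit 78) (nat_lit 0) (nat_lit 0) (XT.lf (nat_lit 0) (nat_lit 35134852124) (nat_lit 76) (nat_lit 283447543190) (nat_lit 76) (nat_lit 280244583866) (nat_lit 1) (nat_lit 4) (nat_lit 2) (nat_lit 5) (nat_lit 2) (nat_lit 4) (nat_lit 430) (nat_lit 263) (nat_lit 207)) (XT.lf (nat_lit 0) (nat_lit 40478610510) (nat_lit 76) (nat_lit 295705368748) (nat_lit 76) (nat_lit 292491793603) (nat_lit 1) (nat_lit 4) (nat_lit 2) (nat_lit 5) (nat_lit 2) (nat_lit 4) (nat_lit 431) (nat_lit 263) (nat_lit 206))) (XT.nd (nat_lit 78) (nat_lit 0) (nat_lit 0) (XT.lf (nat_lit 0) (nat_lit 46070302156) (nat_lit 76) (nat_lit 308585443174) (nat_lit 76) (nat_lit 305361757724) (nat_lit 1) (nat_lit 4) (nat_lit 2) (nat_lit 5) (nat_lit 2) (nat_lit 4) (nat_lit 432) (nat_lit 263) (nat_lit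 205)) (XT.nd (nat_lit 78) (nat_lit 0) (nat_lit 0) (XT.lf (nat_lit 0) (nat_lit 51923240614) (nat_lit 76) (nat_lit 322118433310) (nat_lit 76) (nat_lit 318885118998) (nat_lit 1) (nat_lit 4) (nat_lit 2) (nat_lit 5) (nat_lit 2) (nat_lit 4) (nat_lit 433) (nat_lit 263) (nat_lit 204)) (XT.lf (nat_lit 0) (nat_lit 58051361450) (nat_lit 76) (nat_lit 336336560563) (nat_lit 76) (nat_lit 333094075906) (nat_lit 1) (nat_lit 4) (nat_lit 2) (nat_lit 5) (nat_lit 2) (nat_lit 4) (nat_lit 434) (nat_lit 263) (nat_lit 203))))) (XT.nd (nat_lit 42042) (nat_lit 0) (nat_lit 304) (XT.nd (nat_lit 78) (nat_lit 0) (nat_lit 0) (XT.lf (nat_lit 0) (nat_lit 64469255429) (nat_lit 76) (nat_lit 351273677616) (nat_lit 76) (nat_lit 348022459297) (nat_lit 1) (nat_lit 4) (nat_lit 2) (nat_lit 5) (nat_lit 2) (nat_lit 4) (nat_lit 435) (nat_lit 263) (nat_lit 202)) (XT.nd (nat_lit 41886) (nat_lit 0) (nat_lit 456) (XT.lf (nat_lit 0)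 (nat_lit 71192203251) (nat_lit 76) (nat_lit 366965349034) (nat_lit 76) (nat_lit 363705812942) (nat_lit 1) (nat_lit 4) (nat_lit 2) (nat_lit 5) (nat_lit 2) (nat_lit 4) (nat_lit 436) (nat_lit 263) (nat_lit 201)) (XT.lf (nat_lit 0) (nat_lit 16633916833) (nat_lit 76) (nat_lit 1286449198) (nat_lit 76) (nat_lit 1286449198) (nat_lit 7) (nat_lit 4) (nat_lit 8) (nat_lit 5) (nat_lit 8) (nat_lit 4) (nat_lit 372) (nat_lit 264) (nat_lit 264)))) (XT.nd (nat_lit 78) (nat_lit 0) (nat_lit 0) (XT.lf (nat_lit 0) (nat_lit 1549361362) (nat_lit 152) (nat_lit 37198832061) (nat_lit 0) (nat_lit 1369502055) (nat_lit 5) (nat_lit 5) (nat_lit 7) (nat_lit 4) (nat_lit 5) (nat_lit 4) (nat_lit 373) (nat_lit 264) (nat_lit 263)) (XT.nd (nat_lit 78) (nat_lit 0) (nat_lit 0) (XT.lf (nat_lit 0) (nat_lit 5780819074) (nat_lit 152) (nat_lit 30694926398) (nat_lit 0) (nat_lit 5429665189) (nat_lit 5) (nat_lit 5) (nat_lit 7) (nat_lit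 4) (nat_lit 5) (nat_lit 4) (nat_lit 374) (nat_lit 264) (nat_lit 262)) (XT.lf (nat_lit 0) (nat_lit 10089370974) (nat_lit 152) (nat_lit 24124816983) (nat_lit 0) (nat_lit 9575079396) (nat_lit 5) (nat_lit 5) (nat_lit 7) (nat_lit 4) (nat_lit 5) (nat_lit 4) (nat_lit 375) (nat_lit 264) (nat_lit 261)))))) (XT.nd (nat_lit 468) (nat_lit 0) (nat_lit 0) (XT.nd (nat_lit 234) (nat_lit 76) (nat_lit 0) (XT.nd (nat_lit 78) (nat_lit 0) (nat_lit 0) (XT.lf (nat_lit 0) (nat_lit 14485275520) (nat_lit 152) (nat_lit 17472860700) (nat_lit 0) (nat_lit 13815614711) (nat_lit 5) (nat_lit 5) (nat_lit 7) (nat_lit 4) (nat_lit 5) (nat_lit 4) (nat_lit 376) (nat_lit 264) (nat_lit 260)) (XT.nd (nat_lit 78) (nat_lit 0) (nat_lit 0) (XT.lf (nat_lit 0) (nat_lit 18978999151) (nat_lit 152) (nat_lit 10723219557) (nat_lit 0) (nat_lit 18161367645) (nat_lit 5) (nat_lit 5) (nat_lit 7) (nat_lit 4) (nat_lit 5) (nat_lit 4) (nat_lit 377)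 (nat_lit 264) (nat_lit 259)) (XT.lf (nat_lit 0) (nat_lit 23581241209) (nat_lit 152) (nat_lit 3859822979) (nat_lit 0) (nat_lit 22622685230) (nat_lit 5) (nat_lit 5) (nat_lit 7) (nat_lit 4) (nat_lit 5) (nat_lit 4) (nat_lit 378) (nat_lit 264) (nat_lit 258)))) (XT.nd (nat_lit 78) (nat_lit 0) (nat_lit 0) (XT.lf (nat_lit 0) (nat_lit 3237283749) (nat_lit 76) (nat_lit 25116218737) (nat_lit 76) (nat_lit 24023448974) (nat_lit 4) (nat_lit 4) (nat_lit 5) (nat_lit 5) (nat_lit 5) (nat_lit 4) (nat_lit 379) (nat_lit 264) (nat_lit 257)) (XT.nd (nat_lit 78) (nat_lit 0) (nat_lit 0) (XT.lf (nat_lit 0) (nat_lit 10613613839) (nat_lit 76) (nat_lit 22707490368) (nat_lit 76) (nat_lit 21486897954) (nat_lit 4) (nat_lit 4) (nat_lit 5) (nat_lit 5) (nat_lit 5) (nat_lit 4) (nat_lit 380) (nat_lit 264) (nat_lit 256)) (XT.lf (nat_lit 0) (nat_lit 18159106802) (nat_lit 76) (nat_lit 20274511986) (nat_lit 76) (nat_lit 18932183713)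 (nat_lit 4) (nat_lit 4) (nat_lit 5) (nat_lit 5) (nat_lit 5) (nat_lit 4) (nat_lit 381) (nat_lit 264) (nat_lit 255))))) (XT.nd (nat_lit 234) (nat_lit 0) (nat_lit 0) (XT.nd (nat_lit 78) (nat_lit 0) (nat_lit 0) (XT.lf (nat_lit 0) (nat_lit 25891728097) (nat_lit 76) (nat_lit 17811490785) (nat_lit 76) (nat_lit 16353223600) (nat_lit 4) (nat_lit 4) (nat_lit 5) (nat_lit 5) (nat_lit 5) (nat_lit 4) (nat_lit 382) (nat_lit 264) (nat_lit 254)) (XT.nd (nat_lit 78) (nat_lit 0) (nat_lit 0) (XT.lf (nat_lit 0) (nat_lit 33829888727) (nat_lit 76) (nat_lit 15312562429) (nat_lit 76) (nat_lit 13743877231) (nat_lit 4) (nat_lit 4) (nat_lit 5) (nat_lit 5) (nat_lit 5) (nat_lit 4) (nat_lit 383) (nat_lit 264) (nat_lit 253)) (XT.lf (nat_lit 0) (nat_lit 41992489075) (nat_lit 76) (nat_lit 12771777087) (nat_lit 76) (nat_lit 11097931878) (nat_lit 4) (nat_lit 4) (nat_lit 5) (nat_lit 5) (nat_lit 5) (nat_lit 4) (nat_lit 384)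 (nat_lit 264) (nat_lit 252)))) (XT.nd (nat_lit 78) (nat_lit 0) (nat_lit 0) (XT.lf (nat_lit 0) (nat_lit 50398963903) (nat_lit 76) (nat_lit 10183085273) (nat_lit 76) (nat_lit 8409087672) (nat_lit 4) (nat_lit 4) (nat_lit 5) (nat_lit 5) (nat_lit 5) (nat_lit 4) (nat_lit 385) (nat_lit 264) (nat_lit 251)) (XT.nd (nat_lit 78) (nat_lit 0) (nat_lit 0) (XT.lf (nat_lit 0) (nat_lit 59069328628) (nat_lit 76) (nat_lit 7540323433) (nat_lit 76) (nat_lit 5670942601) (nat_lit 4) (nat_lit 4) (nat_lit 5) (nat_lit 5) (nat_lit 5) (nat_lit 4) (nat_lit 386) (nat_lit 264) (nat_lit 250)) (XT.lf (nat_lit 0) (nat_lit 68024226975) (nat_lit 76) (nat_lit 4837199277) (nat_lit 76) (nat_lit 2876977274) (nat_lit 4) (nat_lit 4) (nat_lit 5) (nat_lit 5) (nat_lit 5) (nat_lit 4) (nat_lit 387) (nat_lit 264) (nat_lit 249))))))))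
noncomputable def xc23 : XT := (XT.nd (nat_lit 1794) (nat_lit 76) (nat_lit 0) (XT.nd (nat_lit 858) (nat_lit 0) (nat_lit 0) (XT.nd (nat_lit 390) (nat_lit 0) (nat_lit 0) (XT.nd (nat_lit 156) (nat_lit 0) (nat_lit 0) (XT.nd (nat_lit 78) (nat_lit 152) (nat_lit 0) (XT.lf (nat_lit 0) (nat_lit 77284980131) (nat_lit 76) (nat_lit 2067276796) (nat_lit 76) (nat_lit 20539391) (nat_lit 4) (nat_lit 4) (nat_lit 5) (nat_lit 5) (nat_lit 5) (nat_lit 4) (nat_lit 388) (nat_lit 264) (nat_lit 248)) (XT.lf (nat_lit 0) (nat_lit 2884652308) (nat_lit 152) (nat_lit 79444976388) (nat_lit 0) (nat_lit 856906569) (nat_lit 2) (nat_lit 5) (nat_lit 4) (nat_lit 4) (nat_lit 2) (nat_lit 4) (nat_lit 389) (nat_lit 264) (nat_lit 247))) (XT.nd (nat_lit 78) (nat_lit 0) (nat_lit 0) (XT.lf (nat_lit 0) (nat_lit 5933304085) (nat_lit 152) (nat_lit 77426887190) (nat_lit 0) (nat_lit 3830823089) (nat_lit 2) (nat_lit 5) (nat_lit 4) (nat_lit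 4) (nat_lit 2) (nat_lit 4) (nat_lit 390) (nat_lit 264) (nat_lit 246)) (XT.nd (nat_lit 78) (nat_lit 0) (nat_lit 0) (XT.lf (nat_lit 0) (nat_lit 9066829542) (nat_lit 152) (nat_lit 75439107589) (nat_lit 0) (nat_lit 6893172112) (nat_lit 2) (nat_lit 5) (nat_lit 4) (nat_lit 4) (nat_lit 2) (nat_lit 4) (nat_lit 391) (nat_lit 264) (nat_lit 245)) (XT.lf (nat_lit 0) (nat_lit 12292689457) (nat_lit 152) (nat_lit 73476904777) (nat_lit 0) (nat_lit 10051244945) (nat_lit 2) (nat_lit 5) (nat_lit 4) (nat_lit 4) (nat_lit 2) (nat_lit 4) (nat_lit 392) (nat_lit 264) (nat_lit 244))))) (XT.nd (nat_lit 234) (nat_lit 0) (nat_lit 0) (XT.nd (nat_lit 78) (nat_lit 0) (nat_lit 0) (XT.lf (nat_lit 0) (nat_lit 15618564446) (nat_lit 152) (nat_lit 71535606843) (nat_lit 0) (nat_lit 13312560809) (nat_lit 2) (nat_lit 5) (nat_lit 4) (nat_lit 4) (nat_lit 2) (nat_lit 4) (nat_lit 393) (nat_lit 264) (nat_lit 243)) (XT.nd (nat_lit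 78) (nat_lit 0) (nat_lit 0) (XT.lf (nat_lit 0) (nat_lit 19052373260) (nat_lit 152) (nat_lit 69610591649) (nat_lit 0) (nat_lit 16684884742) (nat_lit 2) (nat_lit 5) (nat_lit 4) (nat_lit 4) (nat_lit 2) (nat_lit 4) (nat_lit 394) (nat_lit 264) (nat_lit 242)) (XT.lf (nat_lit 0) (nat_lit 22602291634) (nat_lit 152) (nat_lit 67697275824) (nat_lit 0) (nat_lit 20176246087) (nat_lit 2) (nat_lit 5) (nat_lit 4) (nat_lit 4) (nat_lit 2) (nat_lit 4) (nat_lit 395) (nat_lit 264) (nat_lit 241)))) (XT.nd (nat_lit 78) (nat_lit 0) (nat_lit 0) (XT.lf (nat_lit 0) (nat_lit 26276771756) (nat_lit 152) (nat_lit 65791103856) (nat_lit 0) (nat_lit 23794957609) (nat_lit 2) (nat_lit 5) (nat_lit 4) (nat_lit 4) (nat_lit 2) (nat_lit 4) (nat_lit 396) (nat_lit 264) (nat_lit 240)) (XT.nd (nat_lit 78) (nat_lit 0) (nat_lit 0) (XT.lf (nat_lit 0) (nat_lit 30084562386) (nat_lit 152) (nat_lit 63887537239) (nat_lit 0) (nat_lit 27549635288)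 (nat_lit 2) (nat_lit 5) (nat_lit 4) (nat_lit 4) (nat_lit 2) (nat_lit 4) (nat_lit 397) (nat_lit 264) (nat_lit 239)) (XT.lf (nat_lit 0) (nat_lit 34034729694) (nat_lit 152) (nat_lit 61982043672) (nat_lit 0) (nat_lit 31449218832) (nat_lit 2) (nat_lit 5) (nat_lit 4) (nat_lit 4) (nat_lit 2) (nat_lit 4) (nat_lit 398) (nat_lit 264) (nat_lit 238)))))) (XT.nd (nat_lit 468) (nat_lit 0) (nat_lit 0) (XT.nd (nat_lit 234) (nat_lit 0) (nat_lit 0) (XT.nd (nat_lit 78) (nat_lit 0) (nat_lit 0) (XT.lf (nat_lit 0) (nat_lit 38136678839) (nat_lit 152) (nat_lit 60070086266) (nat_lit 0) (nat_lit 35502992965) (nat_lit 2) (nat_lit 5) (nat_lit 4) (nat_lit 4) (nat_lit 2) (nat_lit 4) (nat_lit 399) (nat_lit 264) (nat_lit 237)) (XT.nd (nat_lit 78) (nat_lit 0) (nat_lit 0) (XT.lf (nat_lit 0) (nat_lit 42400176368) (nat_lit 152) (nat_lit 58147112741) (nat_lit 0) (nat_lit 39720609529) (nat_lit 2) (nat_lit 5) (nat_lit 4) (nat_lit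 4) (nat_lit 2) (nat_lit 4) (nat_lit 400) (nat_lit 264) (nat_lit 236)) (XT.lf (nat_lit 0) (nat_lit 46835373464) (nat_lit 152) (nat_lit 56208544588) (nat_lit 0) (nat_lit 44112110468) (nat_lit 2) (nat_lit 5) (nat_lit 4) (nat_lit 4) (nat_lit 2) (nat_lit 4) (nat_lit 401) (nat_lit 264) (nat_lit 235)))) (XT.nd (nat_lit 78) (nat_lit 0) (nat_lit 0) (XT.lf (nat_lit 0) (nat_lit 51452830121) (nat_lit 152) (nat_lit 54249766170) (nat_lit 0) (nat_lit 48687951737) (nat_lit 2) (nat_lit 5) (nat_lit 4) (nat_lit 4) (nat_lit 2) (nat_lit 4) (nat_lit 402) (nat_lit 264) (nat_lit 234)) (XT.nd (nat_lit 78) (nat_lit 0) (nat_lit 0) (XT.lf (nat_lit 0) (nat_lit 56263540283) (nat_lit 152) (nat_lit 52266113728) (nat_lit 0) (nat_lit 53459028197) (nat_lit 2) (nat_lit 5) (nat_lit 4) (nat_lit 4) (nat_lit 2) (nat_lit 4) (nat_lit 403) (nat_lit 264) (nat_lit 233)) (XT.lf (nat_lit 0) (nat_lit 61278958022) (nat_lit 152) (nat_lit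 50252864280) (nat_lit 0) (nat_lit 58436699553) (nat_lit 2) (nat_lit 5) (nat_lit 4) (nat_lit 4) (nat_lit 2) (nat_lit 4) (nat_lit 404) (nat_lit 264) (nat_lit 232))))) (XT.nd (nat_lit 234) (nat_lit 0) (nat_lit 0) (XT.nd (nat_lit 78) (nat_lit 0) (nat_lit 0) (XT.lf (nat_lit 0) (nat_lit 66511024809) (nat_lit 152) (nat_lit 48205224375) (nat_lit 0) (nat_lit 63632817404) (nat_lit 2) (nat_lit 5) (nat_lit 4) (nat_lit 4) (nat_lit 2) (nat_lit 4) (nat_lit 405) (nat_lit 264) (nat_lit 231)) (XT.nd (nat_lit 78) (nat_lit 0) (nat_lit 0) (XT.lf (nat_lit 0) (nat_lit 71972197946) (nat_lit 152) (nat_lit 46118318680) (nat_lit 0) (nat_lit 69059753458) (nat_lit 2) (nat_lit 5) (nat_lit 4) (nat_lit 4) (nat_lit 2) (nat_lit 4) (nat_lit 406) (nat_lit 264) (nat_lit 230)) (XT.lf (nat_lit 0) (nat_lit 77675480226) (nat_lit 152) (nat_lit 43987178371) (nat_lit 0) (nat_lit 74730428993) (nat_lit 2) (nat_lit 5) (nat_lit 4) (nat_lit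 4) (nat_lit 2) (nat_lit 4) (nat_lit 407) (nat_lit 264) (nat_lit 229)))) (XT.nd (nat_lit 78) (nat_lit 0) (nat_lit 0) (XT.lf (nat_lit 0) (nat_lit 83634450892) (nat_lit 152) (nat_lit 41806729306) (nat_lit 0) (nat_lit 80658345616) (nat_lit 2) (nat_lit 5) (nat_lit 4) (nat_lit 4) (nat_lit 2) (nat_lit 4) (nat_lit 408) (nat_lit 264) (nat_lit 228)) (XT.nd (nat_lit 78) (nat_lit 0) (nat_lit 0) (XT.lf (nat_lit 0) (nat_lit 89863297970) (nat_lit 152) (nat_lit 39571779939) (nat_lit 0) (nat_lit 86857617415) (nat_lit 2) (nat_lit 5) (nat_lit 4) (nat_lit 4) (nat_lit 2) (nat_lit 4) (nat_lit 409) (nat_lit 264) (nat_lit 227)) (XT.lf (nat_lit 0) (nat_lit 96376852048) (nat_lit 152) (nat_lit 37277008961) (nat_lit 0) (nat_lit 93343004560) (nat_lit 2) (nat_lit 5) (nat_lit 4) (nat_lit 4) (nat_lit 2) (nat_lit 4) (nat_lit 410) (nat_lit 264) (nat_lit 226))))))) (XT.nd (nat_lit 858) (nat_lit 76) (nat_lit 0) (XT.nd (nat_lit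 390) (nat_lit 0) (nat_lit 0) (XT.nd (nat_lit 156) (nat_lit 0) (nat_lit 0) (XT.nd (nat_lit 78) (nat_lit 0) (nat_lit 0) (XT.lf (nat_lit 0) (nat_lit 103190621588) (nat_lit 152) (nat_lit 34916952633) (nat_lit 0) (nat_lit 100129948451) (nat_lit 2) (nat_lit 5) (nat_lit 4) (nat_lit 4) (nat_lit 2) (nat_lit 4) (nat_lit 411) (nat_lit 264) (nat_lit 225)) (XT.lf (nat_lit 0) (nat_lit 110320829851) (nat_lit 152) (nat_lit 32485991773) (nat_lit 0) (nat_lit 107234608476) (nat_lit 2) (nat_lit 5) (nat_lit 4) (nat_lit 4) (nat_lit 2) (nat_lit 4) (nat_lit 412) (nat_lit 264) (nat_lit 224))) (XT.nd (nat_lit 78) (nat_lit 0) (nat_lit 0) (XT.lf (nat_lit 0) (nat_lit 117784453523) (nat_lit 152) (nat_lit 29978338378) (nat_lit 0) (nat_lit 114673900493) (nat_lit 2) (nat_lit 5) (nat_lit 4) (nat_lit 4) (nat_lit 2) (nat_lit 4) (nat_lit 413) (nat_lit 264) (nat_lit 223)) (XT.nd (nat_lit 78) (nat_lit 0) (nat_lit 0) (XT.lf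 (nat_lit 0) (nat_lit 125599263138) (nat_lit 152) (nat_lit 27388021845) (nat_lit 0) (nat_lit 122465537102) (nat_lit 2) (nat_lit 5) (nat_lit 4) (nat_lit 4) (nat_lit 2) (nat_lit 4) (nat_lit 414) (nat_lit 264) (nat_lit 222)) (XT.lf (nat_lit 0) (nat_lit 133783865383) (nat_lit 152) (nat_lit 24708874754) (nat_lit 0) (nat_lit 130628069820) (nat_lit 2) (nat_lit 5) (nat_lit 4) (nat_lit 4) (nat_lit 2) (nat_lit 4) (nat_lit 415) (nat_lit 264) (nat_lit 221))))) (XT.nd (nat_lit 234) (nat_lit 0) (nat_lit 0) (XT.nd (nat_lit 78) (nat_lit 0) (nat_lit 0) (XT.lf (nat_lit 0) (nat_lit 142357747409) (nat_lit 152) (nat_lit 21934518184) (nat_lit 0) (nat_lit 139180933247) (nat_lit 2) (nat_lit 5) (nat_lit 4) (nat_lit 4) (nat_lit 2) (nat_lit 4) (nat_lit 416) (nat_lit 264) (nat_lit 220)) (XT.nd (nat_lit 78) (nat_lit 0) (nat_lit 0) (XT.lf (nat_lit 0) (nat_lit 151341323219) (nat_lit 152) (nat_lit 19058346523) (nat_lit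 0) (nat_lit 148144491343) (nat_lit 2) (nat_lit 5) (nat_lit 4) (nat_lit 4) (nat_lit 2) (nat_lit 4) (nat_lit 417) (nat_lit 264) (nat_lit 219)) (XT.lf (nat_lit 0) (nat_lit 160755982279) (nat_lit 152) (nat_lit 16073511744) (nat_lit 0) (nat_lit 157540085916) (nat_lit 2) (nat_lit 5) (nat_lit 4) (nat_lit 4) (nat_lit 2) (nat_lit 4) (nat_lit 418) (nat_lit 264) (nat_lit 218)))) (XT.nd (nat_lit 78) (nat_lit 0) (nat_lit 0) (XT.lf (nat_lit 0) (nat_lit 170624140445) (nat_lit 152) (nat_lit 12972907097) (nat_lit 0) (nat_lit 167390087426) (nat_lit 2) (nat_lit 5) (nat_lit 4) (nat_lit 4) (nat_lit 2) (nat_lit 4) (nat_lit 419) (nat_lit 264) (nat_lit 217)) (XT.nd (nat_lit 78) (nat_lit 0) (nat_lit 0) (XT.lf (nat_lit 0) (nat_lit 180969293332) (nat_lit 152) (nat_lit 9749150190) (nat_lit 0) (nat_lit 177717948259) (nat_lit 2) (nat_lit 5) (nat_lit 4) (nat_lit 4) (nat_lit 2) (nat_lit 4) (nat_lit 420) (nat_lit 264)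 (nat_lit 216)) (XT.lf (nat_lit 0) (nat_lit 191816072255) (nat_lit 152) (nat_lit 6394565412) (nat_lit 0) (nat_lit 188548258560) (nat_lit 2) (nat_lit 5) (nat_lit 4) (nat_lit 4) (nat_lit 2) (nat_lit 4) (nat_lit 421) (nat_lit 264) (nat_lit 215)))))) (XT.nd (nat_lit 468) (nat_lit 0) (nat_lit 0) (XT.nd (nat_lit 234) (nat_lit 0) (nat_lit 0) (XT.nd (nat_lit 78) (nat_lit 76) (nat_lit 0) (XT.lf (nat_lit 0) (nat_lit 203190302879) (nat_lit 152) (nat_lit 2901165655) (nat_lit 0) (nat_lit 199906804782) (nat_lit 2) (nat_lit 5) (nat_lit 4) (nat_lit 4) (nat_lit 2) (nat_lit 4) (nat_lit 422) (nat_lit 264) (nat_lit 214)) (XT.nd (nat_lit 78) (nat_lit 0) (nat_lit 0) (XT.lf (nat_lit 0) (nat_lit 763813499) (nat_lit 76) (nat_lit 214367178475) (nat_lit 76) (nat_lit 211068742853) (nat_lit 1) (nat_lit 4) (nat_lit 2) (nat_lit 5) (nat_lit 2) (nat_lit 4) (nat_lit 423) (nat_lit 264) (nat_lit 213)) (XT.lf (nat_lit 0) (nat_lit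 4685670292) (nat_lit 76) (nat_lit 223018251704) (nat_lit 76) (nat_lit 219705589867) (nat_lit 1) (nat_lit 4) (nat_lit 2) (nat_lit 5) (nat_lit 2) (nat_lit 4) (nat_lit 424) (nat_lit 264) (nat_lit 212)))) (XT.nd (nat_lit 78) (nat_lit 0) (nat_lit 0) (XT.lf (nat_lit 0) (nat_lit 8777816840) (nat_lit 76) (nat_lit 232114418659) (nat_lit 76) (nat_lit 228788208046) (nat_lit 1) (nat_lit 4) (nat_lit 2) (nat_lit 5) (nat_lit 2) (nat_lit 4) (nat_lit 425) (nat_lit 264) (nat_lit 211)) (XT.nd (nat_lit 78) (nat_lit 0) (nat_lit 0) (XT.lf (nat_lit 0) (nat_lit 13049996348) (nat_lit 76) (nat_lit 241677336880) (nat_lit 76) (nat_lit 238338222671) (nat_lit 1) (nat_lit 4) (nat_lit 2) (nat_lit 5) (nat_lit 2) (nat_lit 4) (nat_lit 426) (nat_lit 264) (nat_lit 210)) (XT.lf (nat_lit 0) (nat_lit 17512380673) (nat_lit 76) (nat_lit 251729775221) (nat_lit 76) (nat_lit 248378371873) (nat_lit 1) (nat_lit 4) (nat_lit 2) (nat_lit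 5) (nat_lit 2) (nat_lit 4) (nat_lit 427) (nat_lit 264) (nat_lit 209))))) (XT.nd (nat_lit 234) (nat_lit 0) (nat_lit 0) (XT.nd (nat_lit 78) (nat_lit 0) (nat_lit 0) (XT.lf (nat_lit 0) (nat_lit 22175594538) (nat_lit 76) (nat_lit 262295668059) (nat_lit 76) (nat_lit 258932560768) (nat_lit 1) (nat_lit 4) (nat_lit 2) (nat_lit 5) (nat_lit 2) (nat_lit 4) (nat_lit 428) (nat_lit 264) (nat_lit 208)) (XT.nd (nat_lit 78) (nat_lit 0) (nat_lit 0) (XT.lf (nat_lit 0) (nat_lit 27050740834) (nat_lit 76) (nat_lit 273400172280) (nat_lit 76) (nat_lit 270025918378) (nat_lit 1) (nat_lit 4) (nat_lit 2) (nat_lit 5) (nat_lit 2) (nat_lit 4) (nat_lit 429) (nat_lit 264) (nat_lit 207)) (XT.lf (nat_lit 0) (nat_lit 32149427052) (nat_lit 76) (nat_lit 285069727182) (nat_lit 76) (nat_lit 281684857459) (nat_lit 1) (nat_lit 4) (nat_lit 2) (nat_lit 5) (nat_lit 2) (nat_lit 4) (nat_lit 430) (nat_lit 264) (nat_lit 206)))) (XT.nd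 (nat_lit 78) (nat_lit 0) (nat_lit 0) (XT.lf (nat_lit 0) (nat_lit 37483792922) (nat_lit 76) (nat_lit 297332117418) (nat_lit 76) (nat_lit 293937137390) (nat_lit 1) (nat_lit 4) (nat_lit 2) (nat_lit 5) (nat_lit 2) (nat_lit 4) (nat_lit 431) (nat_lit 264) (nat_lit 205)) (XT.nd (nat_lit 78) (nat_lit 0) (nat_lit 0) (XT.lf (nat_lit 0) (nat_lit 43066539314) (nat_lit 76) (nat_lit 310216539156) (nat_lit 76) (nat_lit 306811930266) (nat_lit 1) (nat_lit 4) (nat_lit 2) (nat_lit 5) (nat_lit 2) (nat_lit 4) (nat_lit 432) (nat_lit 264) (nat_lit 204)) (XT.lf (nat_lit 0) (nat_lit 48910958481) (nat_lit 76) (nat_lit 323753669590) (nat_lit 76) (nat_lit 320339890355) (nat_lit 1) (nat_lit 4) (nat_lit 2) (nat_lit 5) (nat_lit 2) (nat_lit 4) (nat_lit 433) (nat_lit 264) (nat_lit 203))))))))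
noncomputable def xc24 : XT := (XT.nd (nat_lit 43368) (nat_lit 0) (nat_lit 76) (XT.nd (nat_lit 42510) (nat_lit 0) (nat_lit 228) (XT.nd (nat_lit 42042) (nat_lit 0) (nat_lit 304) (XT.nd (nat_lit 156) (nat_lit 0) (nat_lit 0) (XT.nd (nat_lit 78) (nat_lit 0) (nat_lit 0) (XT.lf (nat_lit 0) (nat_lit 55030965708) (nat_lit 76) (nat_lit 337975739983) (nat_lit 76) (nat_lit 334553227086) (nat_lit 1) (nat_lit 4) (nat_lit 2) (nat_lit 5) (nat_lit 2) (nat_lit 4) (nat_lit 434) (nat_lit 264) (nat_lit 202)) (XT.lf (nat_lit 0) (nat_lit 61441132440) (nat_lit 76) (nat_lit 352916612407) (nat_lit 76) (nat_lit 349485781737) (nat_lit 1) (nat_lit 4) (nat_lit 2) (nat_lit 5) (nat_lit 2) (nat_lit 4) (nat_lit 435) (nat_lit 264) (nat_lit 201))) (XT.nd (nat_lit 41730) (nat_lit 0) (nat_lit 456) (XT.lf (nat_lit 0) (nat_lit 68156720979) (nat_lit 76) (nat_lit 368611860369) (nat_lit 76) (nat_lit 365173108011) (nat_lit 1) (nat_lit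 4) (nat_lit 2) (nat_lit 5) (nat_lit 2) (nat_lit 4) (nat_lit 436) (nat_lit 264) (nat_lit 200)) (XT.nd (nat_lit 78) (nat_lit 0) (nat_lit 0) (XT.lf (nat_lit 0) (nat_lit 7278501349) (nat_lit 76) (nat_lit 5173995234) (nat_lit 76) (nat_lit 5173995234) (nat_lit 7) (nat_lit 4) (nat_lit 8) (nat_lit 5) (nat_lit 8) (nat_lit 4) (nat_lit 370) (nat_lit 265) (nat_lit 265)) (XT.lf (nat_lit 0) (nat_lit 23750846234) (nat_lit 76) (nat_lit 6620229838) (nat_lit 76) (nat_lit 6421934953) (nat_lit 7) (nat_lit 4) (nat_lit 8) (nat_lit 5) (nat_lit 8) (nat_lit 4) (nat_lit 371) (nat_lit 265) (nat_lit 264))))) (XT.nd (nat_lit 234) (nat_lit 0) (nat_lit 0) (XT.nd (nat_lit 78) (nat_lit 152) (nat_lit 0) (XT.lf (nat_lit 0) (nat_lit 33137787685) (nat_lit 76) (nat_lit 2833204811) (nat_lit 76) (nat_lit 2446057654) (nat_lit 7) (nat_lit 4) (nat_lit 8) (nat_lit 5) (nat_lit 8) (nat_lit 4) (nat_lit 372) (nat_lit 265) (nat_lit 263))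 (XT.nd (nat_lit 78) (nat_lit 0) (nat_lit 0) (XT.lf (nat_lit 0) (nat_lit 1597011002) (nat_lit 152) (nat_lit 37470773169) (nat_lit 0) (nat_lit 1057004846) (nat_lit 5) (nat_lit 5) (nat_lit 7) (nat_lit 4) (nat_lit 5) (nat_lit 4) (nat_lit 373) (nat_lit 265) (nat_lit 262)) (XT.lf (nat_lit 0) (nat_lit 5762869350) (nat_lit 152) (nat_lit 31093204839) (nat_lit 0) (nat_lit 5059725500) (nat_lit 5) (nat_lit 5) (nat_lit 7) (nat_lit 4) (nat_lit 5) (nat_lit 4) (nat_lit 374) (nat_lit 265) (nat_lit 261)))) (XT.nd (nat_lit 78) (nat_lit 0) (nat_lit 0) (XT.lf (nat_lit 0) (nat_lit 10008945665) (nat_lit 152) (nat_lit 24643416694) (nat_lit 0) (nat_lit 9150432584) (nat_lit 5) (nat_lit 5) (nat_lit 7) (nat_lit 4) (nat_lit 5) (nat_lit 4) (nat_lit 375) (nat_lit 265) (nat_lit 260)) (XT.nd (nat_lit 78) (nat_lit 0) (nat_lit 0) (XT.lf (nat_lit 0) (nat_lit 14345349654) (nat_lit 152) (nat_lit 18106052095) (nat_lit 0) (nat_lit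 13338865876) (nat_lit 5) (nat_lit 5) (nat_lit 7) (nat_lit 4) (nat_lit 5) (nat_lit 4) (nat_lit 376) (nat_lit 265) (nat_lit 259)) (XT.lf (nat_lit 0) (nat_lit 18782406088) (nat_lit 152) (nat_lit 11465545890) (nat_lit 0) (nat_lit 17634997837) (nat_lit 5) (nat_lit 5) (nat_lit 7) (nat_lit 4) (nat_lit 5) (nat_lit 4) (nat_lit 377) (nat_lit 265) (nat_lit 258)))))) (XT.nd (nat_lit 390) (nat_lit 0) (nat_lit 0) (XT.nd (nat_lit 156) (nat_lit 0) (nat_lit 0) (XT.nd (nat_lit 78) (nat_lit 76) (nat_lit 0) (XT.lf (nat_lit 0) (nat_lit 23330679387) (nat_lit 152) (nat_lit 4706087349) (nat_lit 0) (nat_lit 22049057352) (nat_lit 5) (nat_lit 5) (nat_lit 7) (nat_lit 4) (nat_lit 5) (nat_lit 4) (nat_lit 378) (nat_lit 265) (nat_lit 257)) (XT.lf (nat_lit 0) (nat_lit 2260776441) (nat_lit 76) (nat_lit 25775519387) (nat_lit 76) (nat_lit 24366074701) (nat_lit 4) (nat_lit 4) (nat_lit 5) (nat_lit 5) (nat_lit 5) (nat_lit 4)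 (nat_lit 379) (nat_lit 265) (nat_lit 256))) (XT.nd (nat_lit 78) (nat_lit 0) (nat_lit 0) (XT.lf (nat_lit 0) (nat_lit 9539714515) (nat_lit 76) (nat_lit 23413711216) (nat_lit 76) (nat_lit 21882530672) (nat_lit 4) (nat_lit 4) (nat_lit 5) (nat_lit 5) (nat_lit 5) (nat_lit 4) (nat_lit 380) (nat_lit 265) (nat_lit 255)) (XT.nd (nat_lit 78) (nat_lit 0) (nat_lit 0) (XT.lf (nat_lit 0) (nat_lit 16992453178) (nat_lit 76) (nat_lit 21025418737) (nat_lit 76) (nat_lit 19378299279) (nat_lit 4) (nat_lit 4) (nat_lit 5) (nat_lit 5) (nat_lit 5) (nat_lit 4) (nat_lit 381) (nat_lit 265) (nat_lit 254)) (XT.lf (nat_lit 0) (nat_lit 24636737044) (nat_lit 76) (nat_lit 18604955538) (nat_lit 76) (nat_lit 16847418069) (nat_lit 4) (nat_lit 4) (nat_lit 5) (nat_lit 5) (nat_lit 5) (nat_lit 4) (nat_lit 382) (nat_lit 265) (nat_lit 253))))) (XT.nd (nat_lit 234) (nat_lit 0) (nat_lit 0) (XT.nd (nat_lit 78) (nat_lit 0) (nat_lit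 0) (XT.lf (nat_lit 0) (nat_lit 32490766789) (nat_lit 76) (nat_lit 16146558613) (nat_lit 76) (nat_lit 14283861132) (nat_lit 4) (nat_lit 4) (nat_lit 5) (nat_lit 5) (nat_lit 5) (nat_lit 4) (nat_lit 383) (nat_lit 265) (nat_lit 252)) (XT.nd (nat_lit 78) (nat_lit 0) (nat_lit 0) (XT.lf (nat_lit 0) (nat_lit 40573242485) (nat_lit 76) (nat_lit 13644374634) (nat_lit 76) (nat_lit 11681524761) (nat_lit 4) (nat_lit 4) (nat_lit 5) (nat_lit 5) (nat_lit 5) (nat_lit 4) (nat_lit 384) (nat_lit 265) (nat_lit 251)) (XT.lf (nat_lit 0) (nat_lit 48903408121) (nat_lit 76) (nat_lit 11092446022) (nat_lit 76) (nat_lit 9034212919) (nat_lit 4) (nat_lit 4) (nat_lit 5) (nat_lit 5) (nat_lit 5) (nat_lit 4) (nat_lit 385) (nat_lit 265) (nat_lit 250)))) (XT.nd (nat_lit 78) (nat_lit 0) (nat_lit 0) (XT.lf (nat_lit 0) (nat_lit 57501097424) (nat_lit 76) (nat_lit 8484696756) (nat_lit 76) (nat_lit 6335622480) (nat_lit 4) (nat_lit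 4) (nat_lit 5) (nat_lit 5) (nat_lit 5) (nat_lit 4) (nat_lit 386) (nat_lit 265) (nat_lit 249)) (XT.nd (nat_lit 78) (nat_lit 0) (nat_lit 0) (XT.lf (nat_lit 0) (nat_lit 66386781084) (nat_lit 76) (nat_lit 5814917908) (nat_lit 76) (nat_lit 3579328231) (nat_lit 4) (nat_lit 4) (nat_lit 5) (nat_lit 5) (nat_lit 5) (nat_lit 4) (nat_lit 387) (nat_lit 265) (nat_lit 248)) (XT.lf (nat_lit 0) (nat_lit 75581615490) (nat_lit 76) (nat_lit 3076752864) (nat_lit 76) (nat_lit 758767566) (nat_lit 4) (nat_lit 4) (nat_lit 5) (nat_lit 5) (nat_lit 5) (nat_lit 4) (nat_lit 388) (nat_lit 265) (nat_lit 247))))))) (XT.nd (nat_lit 858) (nat_lit 0) (nat_lit 0) (XT.nd (nat_lit 390) (nat_lit 0) (nat_lit 0) (XT.nd (nat_lit 156) (nat_lit 0) (nat_lit 0) (XT.nd (nat_lit 78) (nat_lit 0) (nat_lit 0) (XT.lf (nat_lit 0) (nat_lit 1896494009) (nat_lit 76) (nat_lit 197628588) (nat_lit 152) (nat_lit 81141132143) (nat_lit 2) (nat_lit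 5) (nat_lit 3) (nat_lit 5) (nat_lit 4) (nat_lit 4) (nat_lit 389) (nat_lit 265) (nat_lit 246)) (XT.lf (nat_lit 0) (nat_lit 5106733274) (nat_lit 152) (nat_lit 79381592855) (nat_lit 0) (nat_lit 2753216536) (nat_lit 2) (nat_lit 5) (nat_lit 4) (nat_lit 4) (nat_lit 2) (nat_lit 4) (nat_lit 390) (nat_lit 265) (nat_lit 245))) (XT.nd (nat_lit 78) (nat_lit 0) (nat_lit 0) (XT.lf (nat_lit 0) (nat_lit 8208872480) (nat_lit 152) (nat_lit 77454772166) (nat_lit 0) (nat_lit 5787568661) (nat_lit 2) (nat_lit 5) (nat_lit 4) (nat_lit 4) (nat_lit 2) (nat_lit 4) (nat_lit 391) (nat_lit 265) (nat_lit 244)) (XT.nd (nat_lit 78) (nat_lit 0) (nat_lit 0) (XT.lf (nat_lit 0) (nat_lit 11404840725) (nat_lit 152) (nat_lit 75550625461) (nat_lit 0) (nat_lit 8918977782) (nat_lit 2) (nat_lit 5) (nat_lit 4) (nat_lit 4) (nat_lit 2) (nat_lit 4) (nat_lit 392) (nat_lit 265) (nat_lit 243)) (XT.lf (nat_lit 0) (nat_lit 14702247459) (nat_lit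 152) (nat_lit 73664619056) (nat_lit 0) (nat_lit 12154899634) (nat_lit 2) (nat_lit 5) (nat_lit 4) (nat_lit 4) (nat_lit 2) (nat_lit 4) (nat_lit 393) (nat_lit 265) (nat_lit 242))))) (XT.nd (nat_lit 234) (nat_lit 0) (nat_lit 0) (XT.nd (nat_lit 78) (nat_lit 0) (nat_lit 0) (XT.lf (nat_lit 0) (nat_lit 18108943648) (nat_lit 152) (nat_lit 71792262462) (nat_lit 0) (nat_lit 15503038795) (nat_lit 2) (nat_lit 5) (nat_lit 4) (nat_lit 4) (nat_lit 2) (nat_lit 4) (nat_lit 394) (nat_lit 265) (nat_lit 241)) (XT.nd (nat_lit 78) (nat_lit 0) (nat_lit 0) (XT.lf (nat_lit 0) (nat_lit 21633040476) (nat_lit 152) (nat_lit 69929097685) (nat_lit 0) (nat_lit 18971367023) (nat_lit 2) (nat_lit 5) (nat_lit 4) (nat_lit 4) (nat_lit 2) (nat_lit 4) (nat_lit 395) (nat_lit 265) (nat_lit 240)) (XT.lf (nat_lit 0) (nat_lit 25282928647) (nat_lit 152) (nat_lit 68070688619) (nat_lit 0) (nat_lit 22568142242) (nat_lit 2) (nat_lit 5)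 (nat_lit 4) (nat_lit 4) (nat_lit 2) (nat_lit 4) (nat_lit 396) (nat_lit 265) (nat_lit 239)))) (XT.nd (nat_lit 78) (nat_lit 0) (nat_lit 0) (XT.lf (nat_lit 0) (nat_lit 29067298373) (nat_lit 152) (nat_lit 66212610480) (nat_lit 0) (nat_lit 26301928205) (nat_lit 2) (nat_lit 5) (nat_lit 4) (nat_lit 4) (nat_lit 2) (nat_lit 4) (nat_lit 397) (nat_lit 265) (nat_lit 238)) (XT.nd (nat_lit 78) (nat_lit 0) (nat_lit 0) (XT.lf (nat_lit 0) (nat_lit 32995160058) (nat_lit 152) (nat_lit 64350439274) (nat_lit 0) (nat_lit 30181614876) (nat_lit 2) (nat_lit 5) (nat_lit 4) (nat_lit 4) (nat_lit 2) (nat_lit 4) (nat_lit 398) (nat_lit 265) (nat_lit 237)) (XT.lf (nat_lit 0) (nat_lit 37075865752) (nat_lit 152) (nat_lit 62479741259) (nat_lit 0) (nat_lit 34216439606) (nat_lit 2) (nat_lit 5) (nat_lit 4) (nat_lit 4) (nat_lit 2) (nat_lit 4) (nat_lit 399) (nat_lit 265) (nat_lit 236)))))) (XT.nd (nat_lit 468) (nat_lit 0) (nat_lit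 0) (XT.nd (nat_lit 234) (nat_lit 0) (nat_lit 0) (XT.nd (nat_lit 78) (nat_lit 0) (nat_lit 0) (XT.lf (nat_lit 0) (nat_lit 41319131423) (nat_lit 152) (nat_lit 60596062392) (nat_lit 0) (nat_lit 38416009120) (nat_lit 2) (nat_lit 5) (nat_lit 4) (nat_lit 4) (nat_lit 2) (nat_lit 4) (nat_lit 400) (nat_lit 265) (nat_lit 235)) (XT.nd (nat_lit 78) (nat_lit 0) (nat_lit 0) (XT.lf (nat_lit 0) (nat_lit 45735060083) (nat_lit 152) (nat_lit 58694917723) (nat_lit 0) (nat_lit 42790322392) (nat_lit 2) (nat_lit 5) (nat_lit 4) (nat_lit 4) (nat_lit 2) (nat_lit 4) (nat_lit 401) (nat_lit 265) (nat_lit 234)) (XT.lf (nat_lit 0) (nat_lit 50334165848) (nat_lit 152) (nat_lit 56771780718) (nat_lit 0) (nat_lit 47349794455) (nat_lit 2) (nat_lit 5) (nat_lit 4) (nat_lit 4) (nat_lit 2) (nat_lit 4) (nat_lit 402) (nat_lit 265) (nat_lit 233)))) (XT.nd (nat_lit 78) (nat_lit 0) (nat_lit 0) (XT.lf (nat_lit 0) (nat_lit 55127398971)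 (nat_lit 152) (nat_lit 54822072479) (nat_lit 0) (nat_lit 52105281195) (nat_lit 2) (nat_lit 5) (nat_lit 4) (nat_lit 4) (nat_lit 2) (nat_lit 4) (nat_lit 403) (nat_lit 265) (nat_lit 232)) (XT.nd (nat_lit 78) (nat_lit 0) (nat_lit 0) (XT.lf (nat_lit 0) (nat_lit 60126171910) (nat_lit 152) (nat_lit 52841150843) (nat_lit 0) (nat_lit 57068105198) (nat_lit 2) (nat_lit 5) (nat_lit 4) (nat_lit 4) (nat_lit 2) (nat_lit 4) (nat_lit 404) (nat_lit 265) (nat_lit 231)) (XT.lf (nat_lit 0) (nat_lit 65342386507) (nat_lit 152) (nat_lit 50824299331) (nat_lit 0) (nat_lit 62250082713) (nat_lit 2) (nat_lit 5) (nat_lit 4) (nat_lit 4) (nat_lit 2) (nat_lit 4) (nat_lit 405) (nat_lit 265) (nat_lit 230))))) (XT.nd (nat_lit 234) (nat_lit 0) (nat_lit 0) (XT.nd (nat_lit 78) (nat_lit 0) (nat_lit 0) (XT.lf (nat_lit 0) (nat_lit 70788462320) (nat_lit 152) (nat_lit 48766715914) (nat_lit 0) (nat_lit 67663551780) (nat_lit 2) (nat_lit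 5) (nat_lit 4) (nat_lit 4) (nat_lit 2) (nat_lit 4) (nat_lit 406) (nat_lit 265) (nat_lit 229)) (XT.nd (nat_lit 78) (nat_lit 0) (nat_lit 0) (XT.lf (nat_lit 0) (nat_lit 76477366196) (nat_lit 152) (nat_lit 46663501586) (nat_lit 0) (nat_lit 73321401613) (nat_lit 2) (nat_lit 5) (nat_lit 4) (nat_lit 4) (nat_lit 2) (nat_lit 4) (nat_lit 407) (nat_lit 265) (nat_lit 228)) (XT.lf (nat_lit 0) (nat_lit 82422643144) (nat_lit 152) (nat_lit 44509648692) (nat_lit 0) (nat_lit 79237103283) (nat_lit 2) (nat_lit 5) (nat_lit 4) (nat_lit 4) (nat_lit 2) (nat_lit 4) (nat_lit 408) (nat_lit 265) (nat_lit 227)))) (XT.nd (nat_lit 78) (nat_lit 0) (nat_lit 0) (XT.lf (nat_lit 0) (nat_lit 88638448586) (nat_lit 152) (nat_lit 42300029012) (nat_lit 0) (nat_lit 85424741792) (nat_lit 2) (nat_lit 5) (nat_lit 4) (nat_lit 4) (nat_lit 2) (nat_lit 4) (nat_lit 409) (nat_lit 265) (nat_lit 226)) (XT.nd (nat_lit 78) (nat_lit 0) (nat_lit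 0) (XT.lf (nat_lit 0) (nat_lit 95139582058) (nat_lit 152) (nat_lit 40029381545) (nat_lit 0) (nat_lit 91899049615) (nat_lit 2) (nat_lit 5) (nat_lit 4) (nat_lit 4) (nat_lit 2) (nat_lit 4) (nat_lit 410) (nat_lit 265) (nat_lit 225)) (XT.lf (nat_lit 0) (nat_lit 101941522450) (nat_lit 152) (nat_lit 37692299990) (nat_lit 0) (nat_lit 98675441769) (nat_lit 2) (nat_lit 5) (nat_lit 4) (nat_lit 4) (nat_lit 2) (nat_lit 4) (nat_lit 411) (nat_lit 265) (nat_lit 224))))))))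
noncomputable def xc25 : XT := (XT.nd (nat_lit 1794) (nat_lit 0) (nat_lit 0) (XT.nd (nat_lit 858) (nat_lit 76) (nat_lit 0) (XT.nd (nat_lit 390) (nat_lit 0) (nat_lit 0) (XT.nd (nat_lit 156) (nat_lit 0) (nat_lit 0) (XT.nd (nat_lit 78) (nat_lit 0) (nat_lit 0) (XT.lf (nat_lit 0) (nat_lit 109060464858) (nat_lit 152) (nat_lit 35283219865) (nat_lit 0) (nat_lit 105770052521) (nat_lit 2) (nat_lit 5) (nat_lit 4) (nat_lit 4) (nat_lit 2) (nat_lit 4) (nat_lit 412) (nat_lit 265) (nat_lit 223)) (XT.lf (nat_lit 0) (nat_lit 116513359144) (nat_lit 152) (nat_lit 32796405266) (nat_lit 0) (nat_lit 113199773802) (nat_lit 2) (nat_lit 5) (nat_lit 4) (nat_lit 4) (nat_lit 2) (nat_lit 4) (nat_lit 413) (nat_lit 265) (nat_lit 222))) (XT.nd (nat_lit 78) (nat_lit 0) (nat_lit 0) (XT.lf (nat_lit 0) (nat_lit 124317950295) (nat_lit 152) (nat_lit 30225935206) (nat_lit 0) (nat_lit 120982295425) (nat_lit 2) (nat_lit 5) (nat_lit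 4) (nat_lit 4) (nat_lit 2) (nat_lit 4) (nat_lit 414) (nat_lit 265) (nat_lit 221)) (XT.nd (nat_lit 78) (nat_lit 0) (nat_lit 0) (XT.lf (nat_lit 0) (nat_lit 132492820671) (nat_lit 152) (nat_lit 27565689518) (nat_lit 0) (nat_lit 129136147203) (nat_lit 2) (nat_lit 5) (nat_lit 4) (nat_lit 4) (nat_lit 2) (nat_lit 4) (nat_lit 415) (nat_lit 265) (nat_lit 220)) (XT.lf (nat_lit 0) (nat_lit 141057434250) (nat_lit 152) (nat_lit 24809334283) (nat_lit 0) (nat_lit 137680743068) (nat_lit 2) (nat_lit 5) (nat_lit 4) (nat_lit 4) (nat_lit 2) (nat_lit 4) (nat_lit 416) (nat_lit 265) (nat_lit 219))))) (XT.nd (nat_lit 234) (nat_lit 0) (nat_lit 0) (XT.nd (nat_lit 78) (nat_lit 0) (nat_lit 0) (XT.lf (nat_lit 0) (nat_lit 150032182967) (nat_lit 152) (nat_lit 21950306752) (nat_lit 0) (nat_lit 146636427297) (nat_lit 2) (nat_lit 5) (nat_lit 4) (nat_lit 4) (nat_lit 2) (nat_lit 4) (nat_lit 417) (nat_lit 265) (nat_lit 218))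 (XT.nd (nat_lit 78) (nat_lit 0) (nat_lit 0) (XT.lf (nat_lit 0) (nat_lit 159438435273) (nat_lit 152) (nat_lit 18981799714) (nat_lit 0) (nat_lit 156024522947) (nat_lit 2) (nat_lit 5) (nat_lit 4) (nat_lit 4) (nat_lit 2) (nat_lit 4) (nat_lit 418) (nat_lit 265) (nat_lit 217)) (XT.lf (nat_lit 0) (nat_lit 169298587006) (nat_lit 152) (nat_lit 15896745298) (nat_lit 0) (nat_lit 165867382627) (nat_lit 2) (nat_lit 5) (nat_lit 4) (nat_lit 4) (nat_lit 2) (nat_lit 4) (nat_lit 419) (nat_lit 265) (nat_lit 216)))) (XT.nd (nat_lit 78) (nat_lit 0) (nat_lit 0) (XT.lf (nat_lit 0) (nat_lit 179636114718) (nat_lit 152) (nat_lit 12687798134) (nat_lit 0) (nat_lit 176188441717) (nat_lit 2) (nat_lit 5) (nat_lit 4) (nat_lit 4) (nat_lit 2) (nat_lit 4) (nat_lit 420) (nat_lit 265) (nat_lit 215)) (XT.nd (nat_lit 78) (nat_lit 0) (nat_lit 0) (XT.lf (nat_lit 0) (nat_lit 190475631570) (nat_lit 152) (nat_lit 9347317873) (nat_lit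 0) (nat_lit 187012274167) (nat_lit 2) (nat_lit 5) (nat_lit 4) (nat_lit 4) (nat_lit 2) (nat_lit 4) (nat_lit 421) (nat_lit 265) (nat_lit 214)) (XT.lf (nat_lit 0) (nat_lit 201842945936) (nat_lit 152) (nat_lit 5867350991) (nat_lit 0) (nat_lit 198364651007) (nat_lit 2) (nat_lit 5) (nat_lit 4) (nat_lit 4) (nat_lit 2) (nat_lit 4) (nat_lit 422) (nat_lit 265) (nat_lit 213)))))) (XT.nd (nat_lit 468) (nat_lit 0) (nat_lit 0) (XT.nd (nat_lit 234) (nat_lit 0) (nat_lit 0) (XT.nd (nat_lit 78) (nat_lit 76) (nat_lit 0) (XT.lf (nat_lit 0) (nat_lit 213765122849) (nat_lit 152) (nat_lit 2239611851) (nat_lit 0) (nat_lit 210272601706) (nat_lit 2) (nat_lit 5) (nat_lit 4) (nat_lit 4) (nat_lit 2) (nat_lit 4) (nat_lit 423) (nat_lit 265) (nat_lit 212)) (XT.nd (nat_lit 78) (nat_lit 0) (nat_lit 0) (XT.lf (nat_lit 0) (nat_lit 1595606389) (nat_lit 76) (nat_lit 224699853945) (nat_lit 76) (nat_lit 221193784025) (nat_lit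 1) (nat_lit 4) (nat_lit 2) (nat_lit 5) (nat_lit 2) (nat_lit 4) (nat_lit 424) (nat_lit 265) (nat_lit 211)) (XT.lf (nat_lit 0) (nat_lit 5675765440) (nat_lit 76) (nat_lit 233801846714) (nat_lit 76) (nat_lit 230282873198) (nat_lit 1) (nat_lit 4) (nat_lit 2) (nat_lit 5) (nat_lit 2) (nat_lit 4) (nat_lit 425) (nat_lit 265) (nat_lit 210)))) (XT.nd (nat_lit 78) (nat_lit 0) (nat_lit 0) (XT.lf (nat_lit 0) (nat_lit 9936528285) (nat_lit 76) (nat_lit 243370313330) (nat_lit 76) (nat_lit 239839050675) (nat_lit 1) (nat_lit 4) (nat_lit 2) (nat_lit 5) (nat_lit 2) (nat_lit 4) (nat_lit 426) (nat_lit 265) (nat_lit 209)) (XT.nd (nat_lit 78) (nat_lit 0) (nat_lit 0) (XT.lf (nat_lit 0) (nat_lit 14388039597) (nat_lit 76) (nat_lit 253428035856) (nat_lit 76) (nat_lit 249885069259) (nat_lit 1) (nat_lit 4) (nat_lit 2) (nat_lit 5) (nat_lit 2) (nat_lit 4) (nat_lit 427) (nat_lit 265) (nat_lit 208)) (XT.lf (nat_lit 0) (nat_lit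 19040898213) (nat_lit 76) (nat_lit 263998961251) (nat_lit 76) (nat_lit 260444848042) (nat_lit 1) (nat_lit 4) (nat_lit 2) (nat_lit 5) (nat_lit 2) (nat_lit 4) (nat_lit 428) (nat_lit 265) (nat_lit 207))))) (XT.nd (nat_lit 234) (nat_lit 0) (nat_lit 0) (XT.nd (nat_lit 78) (nat_lit 0) (nat_lit 0) (XT.lf (nat_lit 0) (nat_lit 23906182366) (nat_lit 76) (nat_lit 275108258384) (nat_lit 76) (nat_lit 271543529355) (nat_lit 1) (nat_lit 4) (nat_lit 2) (nat_lit 5) (nat_lit 2) (nat_lit 4) (nat_lit 429) (nat_lit 265) (nat_lit 206)) (XT.nd (nat_lit 78) (nat_lit 0) (nat_lit 0) (XT.lf (nat_lit 0) (nat_lit 28995476067) (nat_lit 76) (nat_lit 286782377963) (nat_lit 76) (nat_lit 283207538629) (nat_lit 1) (nat_lit 4) (nat_lit 2) (nat_lit 5) (nat_lit 2) (nat_lit 4) (nat_lit 430) (nat_lit 265) (nat_lit 205)) (XT.lf (nat_lit 0) (nat_lit 34320896683) (nat_lit 76) (nat_lit 299049115511) (nat_lit 76) (nat_lit 295464647314)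 (nat_lit 1) (nat_lit 4) (nat_lit 2) (nat_lit 5) (nat_lit 2) (nat_lit 4) (nat_lit 431) (nat_lit 265) (nat_lit 204)))) (XT.nd (nat_lit 78) (nat_lit 0) (nat_lit 0) (XT.lf (nat_lit 0) (nat_lit 39895123785) (nat_lit 76) (nat_lit 311937677546) (nat_lit 76) (nat_lit 308344039004) (nat_lit 1) (nat_lit 4) (nat_lit 2) (nat_lit 5) (nat_lit 2) (nat_lit 4) (nat_lit 432) (nat_lit 265) (nat_lit 203)) (XT.nd (nat_lit 78) (nat_lit 0) (nat_lit 0) (XT.lf (nat_lit 0) (nat_lit 45731429343) (nat_lit 76) (nat_lit 325478751120) (nat_lit 76) (nat_lit 321876378917) (nat_lit 1) (nat_lit 4) (nat_lit 2) (nat_lit 5) (nat_lit 2) (nat_lit 4) (nat_lit 433) (nat_lit 265) (nat_lit 202)) (XT.lf (nat_lit 0) (nat_lit 51843709323) (nat_lit 76) (nat_lit 339704576885) (nat_lit 76) (nat_lit 336093886908) (nat_lit 1) (nat_lit 4) (nat_lit 2) (nat_lit 5) (nat_lit 2) (nat_lit 4) (nat_lit 434) (nat_lit 265) (nat_lit 201))))))) (XT.nd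 (nat_lit 42354) (nat_lit 0) (nat_lit 228) (XT.nd (nat_lit 41886) (nat_lit 0) (nat_lit 304) (XT.nd (nat_lit 41652) (nat_lit 0) (nat_lit 456) (XT.nd (nat_lit 78) (nat_lit 0) (nat_lit 0) (XT.lf (nat_lit 0) (nat_lit 58246516772) (nat_lit 76) (nat_lit 354649025854) (nat_lit 76) (nat_lit 351030414189) (nat_lit 1) (nat_lit 4) (nat_lit 2) (nat_lit 5) (nat_lit 2) (nat_lit 4) (nat_lit 435) (nat_lit 265) (nat_lit 200)) (XT.lf (nat_lit 0) (nat_lit 64955096471) (nat_lit 76) (nat_lit 370347680049) (nat_lit 76) (nat_lit 366721523918) (nat_lit 1) (nat_lit 4) (nat_lit 2) (nat_lit 5) (nat_lit 2) (nat_lit 4) (nat_lit 436) (nat_lit 265) (nat_lit 199))) (XT.nd (nat_lit 78) (nat_lit 76) (nat_lit 0) (XT.lf (nat_lit 0) (nat_lit 7327830386) (nat_lit 152) (nat_lit 1546451195) (nat_lit 0) (nat_lit 7327830386) (nat_lit 8) (nat_lit 5) (nat_lit 10) (nat_lit 4) (nat_lit 8) (nat_lit 4) (nat_lit 368) (nat_lit 266) (nat_lit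 266)) (XT.nd (nat_lit 78) (nat_lit 0) (nat_lit 0) (XT.lf (nat_lit 0) (nat_lit 5534366973) (nat_lit 76) (nat_lit 14233571950) (nat_lit 76) (nat_lit 14025362320) (nat_lit 7) (nat_lit 4) (nat_lit 8) (nat_lit 5) (nat_lit 8) (nat_lit 4) (nat_lit 369) (nat_lit 266) (nat_lit 265)) (XT.lf (nat_lit 0) (nat_lit 14420454417) (nat_lit 76) (nat_lit 10621312203) (nat_lit 76) (nat_lit 10214807687) (nat_lit 7) (nat_lit 4) (nat_lit 8) (nat_lit 5) (nat_lit 8) (nat_lit 4) (nat_lit 370) (nat_lit 266) (nat_lit 264))))) (XT.nd (nat_lit 234) (nat_lit 0) (nat_lit 0) (XT.nd (nat_lit 78) (nat_lit 152) (nat_lit 0) (XT.lf (nat_lit 0) (nat_lit 23484251972) (nat_lit 76) (nat_lit 6955563102) (nat_lit 76) (nat_lit 6360206315) (nat_lit 7) (nat_lit 4) (nat_lit 8) (nat_lit 5) (nat_lit 8) (nat_lit 4) (nat_lit 371) (nat_lit 266) (nat_lit 263)) (XT.nd (nat_lit 78) (nat_lit 152) (nat_lit 0) (XT.lf (nat_lit 0) (nat_lit 32747340107)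 (nat_lit 76) (nat_lit 3227596674) (nat_lit 76) (nat_lit 2452380580) (nat_lit 7) (nat_lit 4) (nat_lit 8) (nat_lit 5) (nat_lit 8) (nat_lit 4) (nat_lit 372) (nat_lit 266) (nat_lit 262)) (XT.lf (nat_lit 0) (nat_lit 1512564428) (nat_lit 152) (nat_lit 38015302865) (nat_lit 0) (nat_lit 611125693) (nat_lit 5) (nat_lit 5) (nat_lit 7) (nat_lit 4) (nat_lit 5) (nat_lit 4) (nat_lit 373) (nat_lit 266) (nat_lit 261)))) (XT.nd (nat_lit 78) (nat_lit 0) (nat_lit 0) (XT.lf (nat_lit 0) (nat_lit 5615947190) (nat_lit 152) (nat_lit 31758055804) (nat_lit 0) (nat_lit 4559139223) (nat_lit 5) (nat_lit 5) (nat_lit 7) (nat_lit 4) (nat_lit 5) (nat_lit 4) (nat_lit 374) (nat_lit 266) (nat_lit 260)) (XT.nd (nat_lit 78) (nat_lit 0) (nat_lit 0) (XT.lf (nat_lit 0) (nat_lit 9802522948) (nat_lit 152) (nat_lit 25422859344) (nat_lit 0) (nat_lit 8597744285) (nat_lit 5) (nat_lit 5) (nat_lit 7) (nat_lit 4) (nat_lit 5) (nat_lit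 4) (nat_lit 375) (nat_lit 266) (nat_lit 259)) (XT.lf (nat_lit 0) (nat_lit 14082259740) (nat_lit 152) (nat_lit 18994629684) (nat_lit 0) (nat_lit 12736556603) (nat_lit 5) (nat_lit 5) (nat_lit 7) (nat_lit 4) (nat_lit 5) (nat_lit 4) (nat_lit 376) (nat_lit 266) (nat_lit 258)))))) (XT.nd (nat_lit 468) (nat_lit 0) (nat_lit 0) (XT.nd (nat_lit 234) (nat_lit 0) (nat_lit 0) (XT.nd (nat_lit 78) (nat_lit 76) (nat_lit 0) (XT.lf (nat_lit 0) (nat_lit 18465347414) (nat_lit 152) (nat_lit 12458061515) (nat_lit 0) (nat_lit 16985430494) (nat_lit 5) (nat_lit 5) (nat_lit 7) (nat_lit 4) (nat_lit 5) (nat_lit 4) (nat_lit 377) (nat_lit 266) (nat_lit 257)) (XT.nd (nat_lit 78) (nat_lit 76) (nat_lit 0) (XT.lf (nat_lit 0) (nat_lit 22962221895) (nat_lit 152) (nat_lit 5797591580) (nat_lit 0) (nat_lit 21354482323) (nat_lit 5) (nat_lit 5) (nat_lit 7) (nat_lit 4) (nat_lit 5) (nat_lit 4) (nat_lit 378) (nat_lit 266) (nat_lit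 256)) (XT.lf (nat_lit 0) (nat_lit 1035790136) (nat_lit 76) (nat_lit 26563971476) (nat_lit 76) (nat_lit 24834496046) (nat_lit 4) (nat_lit 4) (nat_lit 5) (nat_lit 5) (nat_lit 5) (nat_lit 4) (nat_lit 379) (nat_lit 266) (nat_lit 255)))) (XT.nd (nat_lit 78) (nat_lit 0) (nat_lit 0) (XT.lf (nat_lit 0) (nat_lit 8221973910) (nat_lit 76) (nat_lit 24246849207) (nat_lit 76) (nat_lit 22401434864) (nat_lit 4) (nat_lit 4) (nat_lit 5) (nat_lit 5) (nat_lit 5) (nat_lit 4) (nat_lit 380) (nat_lit 266) (nat_lit 254)) (XT.nd (nat_lit 78) (nat_lit 0) (nat_lit 0) (XT.lf (nat_lit 0) (nat_lit 15586375143) (nat_lit 76) (nat_lit 21901114730) (nat_lit 76) (nat_lit 19945282375) (nat_lit 4) (nat_lit 4) (nat_lit 5) (nat_lit 5) (nat_lit 5) (nat_lit 4) (nat_lit 381) (nat_lit 266) (nat_lit 253)) (XT.lf (nat_lit 0) (nat_lit 23146528124) (nat_lit 76) (nat_lit 19521182962) (nat_lit 76) (nat_lit 17460190595) (nat_lit 4) (nat_lit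 4) (nat_lit 5) (nat_lit 5) (nat_lit 5) (nat_lit 4) (nat_lit 382) (nat_lit 266) (nat_lit 252))))) (XT.nd (nat_lit 234) (nat_lit 0) (nat_lit 0) (XT.nd (nat_lit 78) (nat_lit 0) (nat_lit 0) (XT.lf (nat_lit 0) (nat_lit 30920433217) (nat_lit 76) (nat_lit 17101387399) (nat_lit 76) (nat_lit 14940242641) (nat_lit 4) (nat_lit 4) (nat_lit 5) (nat_lit 5) (nat_lit 5) (nat_lit 4) (nat_lit 383) (nat_lit 266) (nat_lit 251)) (XT.nd (nat_lit 78) (nat_lit 0) (nat_lit 0) (XT.lf (nat_lit 0) (nat_lit 38926599721) (nat_lit 76) (nat_lit 14635966623) (nat_lit 76) (nat_lit 12379438634) (nat_lit 4) (nat_lit 4) (nat_lit 5) (nat_lit 5) (nat_lit 5) (nat_lit 4) (nat_lit 384) (nat_lit 266) (nat_lit 250)) (XT.lf (nat_lit 0) (nat_lit 47184089935) (nat_lit 76) (nat_lit 12119050585) (nat_lit 76) (nat_lit 9771681424) (nat_lit 4) (nat_lit 4) (nat_lit 5) (nat_lit 5) (nat_lit 5) (nat_lit 4) (nat_lit 385) (nat_lit 266) (nat_lit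 249)))) (XT.nd (nat_lit 78) (nat_lit 0) (nat_lit 0) (XT.lf (nat_lit 0) (nat_lit 55712564551) (nat_lit 76) (nat_lit 9544646627) (nat_lit 76) (nat_lit 7110762065) (nat_lit 4) (nat_lit 4) (nat_lit 5) (nat_lit 5) (nat_lit 5) (nat_lit 4) (nat_lit 386) (nat_lit 266) (nat_lit 248)) (XT.nd (nat_lit 78) (nat_lit 0) (nat_lit 0) (XT.lf (nat_lit 0) (nat_lit 64532329461) (nat_lit 76) (nat_lit 6906625216) (nat_lit 76) (nat_lit 4390345033) (nat_lit 4) (nat_lit 4) (nat_lit 5) (nat_lit 5) (nat_lit 5) (nat_lit 4) (nat_lit 387) (nat_lit 266) (nat_lit 247)) (XT.lf (nat_lit 0) (nat_lit 73664384106) (nat_lit 76) (nat_lit 4198705349) (nat_lit 76) (nat_lit 1603953146) (nat_lit 4) (nat_lit 4) (nat_lit 5) (nat_lit 5) (nat_lit 5) (nat_lit 4) (nat_lit 388) (nat_lit 266) (nat_lit 246))))))))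
noncomputable def xc26 : XT := (XT.nd (nat_lit 1794) (nat_lit 76) (nat_lit 0) (XT.nd (nat_lit 858) (nat_lit 0) (nat_lit 0) (XT.nd (nat_lit 390) (nat_lit 0) (nat_lit 0) (XT.nd (nat_lit 156) (nat_lit 0) (nat_lit 0) (XT.nd (nat_lit 78) (nat_lit 76) (nat_lit 0) (XT.lf (nat_lit 0) (nat_lit 1214878492) (nat_lit 152) (nat_lit 178986551) (nat_lit 76) (nat_lit 81895018425) (nat_lit 3) (nat_lit 5) (nat_lit 5) (nat_lit 5) (nat_lit 4) (nat_lit 4) (nat_lit 389) (nat_lit 266) (nat_lit 245)) (XT.lf (nat_lit 0) (nat_lit 4174492106) (nat_lit 152) (nat_lit 81558999572) (nat_lit 0) (nat_lit 1564336015) (nat_lit 2) (nat_lit 5) (nat_lit 4) (nat_lit 4) (nat_lit 2) (nat_lit 4) (nat_lit 390) (nat_lit 266) (nat_lit 244))) (XT.nd (nat_lit 78) (nat_lit 0) (nat_lit 0) (XT.lf (nat_lit 0) (nat_lit 7246739643) (nat_lit 152) (nat_lit 79690234990) (nat_lit 0) (nat_lit 4572024428) (nat_lit 2) (nat_lit 5) (nat_lit 4) (nat_lit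 4) (nat_lit 2) (nat_lit 4) (nat_lit 391) (nat_lit 266) (nat_lit 243)) (XT.nd (nat_lit 78) (nat_lit 0) (nat_lit 0) (XT.lf (nat_lit 0) (nat_lit 10414239633) (nat_lit 152) (nat_lit 77841379814) (nat_lit 0) (nat_lit 7678039537) (nat_lit 2) (nat_lit 5) (nat_lit 4) (nat_lit 4) (nat_lit 2) (nat_lit 4) (nat_lit 392) (nat_lit 266) (nat_lit 242)) (XT.lf (nat_lit 0) (nat_lit 13684533742) (nat_lit 152) (nat_lit 76008032010) (nat_lit 0) (nat_lit 10889776616) (nat_lit 2) (nat_lit 5) (nat_lit 4) (nat_lit 4) (nat_lit 2) (nat_lit 4) (nat_lit 393) (nat_lit 266) (nat_lit 241))))) (XT.nd (nat_lit 234) (nat_lit 0) (nat_lit 0) (XT.nd (nat_lit 78) (nat_lit 0) (nat_lit 0) (XT.lf (nat_lit 0) (nat_lit 17065408384) (nat_lit 152) (nat_lit 74185826463) (nat_lit 0) (nat_lit 14214882659) (nat_lit 2) (nat_lit 5) (nat_lit 4) (nat_lit 4) (nat_lit 2) (nat_lit 4) (nat_lit 394) (nat_lit 266) (nat_lit 240)) (XT.nd (nat_lit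 78) (nat_lit 0) (nat_lit 0) (XT.lf (nat_lit 0) (nat_lit 20564913262) (nat_lit 152) (nat_lit 72370424588) (nat_lit 0) (nat_lit 17661274585) (nat_lit 2) (nat_lit 5) (nat_lit 4) (nat_lit 4) (nat_lit 2) (nat_lit 4) (nat_lit 395) (nat_lit 266) (nat_lit 239)) (XT.lf (nat_lit 0) (nat_lit 24191380529) (nat_lit 152) (nat_lit 70557504001) (nat_lit 0) (nat_lit 21237158088) (nat_lit 2) (nat_lit 5) (nat_lit 4) (nat_lit 4) (nat_lit 2) (nat_lit 4) (nat_lit 396) (nat_lit 266) (nat_lit 238)))) (XT.nd (nat_lit 78) (nat_lit 0) (nat_lit 0) (XT.lf (nat_lit 0) (nat_lit 27953444632) (nat_lit 152) (nat_lit 68742748223) (nat_lit 0) (nat_lit 24951047178) (nat_lit 2) (nat_lit 5) (nat_lit 4) (nat_lit 4) (nat_lit 2) (nat_lit 4) (nat_lit 397) (nat_lit 266) (nat_lit 237)) (XT.nd (nat_lit 78) (nat_lit 0) (nat_lit 0) (XT.lf (nat_lit 0) (nat_lit 31860062865) (nat_lit 152) (nat_lit 66921836407) (nat_lit 0) (nat_lit 28811784447)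 (nat_lit 2) (nat_lit 5) (nat_lit 4) (nat_lit 4) (nat_lit 2) (nat_lit 4) (nat_lit 398) (nat_lit 266) (nat_lit 236)) (XT.lf (nat_lit 0) (nat_lit 35920536702) (nat_lit 152) (nat_lit 65090433050) (nat_lit 0) (nat_lit 32828562127) (nat_lit 2) (nat_lit 5) (nat_lit 4) (nat_lit 4) (nat_lit 2) (nat_lit 4) (nat_lit 399) (nat_lit 266) (nat_lit 235)))))) (XT.nd (nat_lit 468) (nat_lit 0) (nat_lit 0) (XT.nd (nat_lit 234) (nat_lit 0) (nat_lit 0) (XT.nd (nat_lit 78) (nat_lit 0) (nat_lit 0) (XT.lf (nat_lit 0) (nat_lit 40144533936) (nat_lit 152) (nat_lit 63244177667) (nat_lit 0) (nat_lit 37010943974) (nat_lit 2) (nat_lit 5) (nat_lit 4) (nat_lit 4) (nat_lit 2) (nat_lit 4) (nat_lit 400) (nat_lit 266) (nat_lit 234)) (XT.nd (nat_lit 78) (nat_lit 0) (nat_lit 0) (XT.lf (nat_lit 0) (nat_lit 44542111705) (nat_lit 152) (nat_lit 61378674411) (nat_lit 0) (nat_lit 41368888040) (nat_lit 2) (nat_lit 5) (nat_lit 4) (nat_lit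 4) (nat_lit 2) (nat_lit 4) (nat_lit 401) (nat_lit 266) (nat_lit 233)) (XT.lf (nat_lit 0) (nat_lit 49123740431) (nat_lit 152) (nat_lit 59489481609) (nat_lit 0) (nat_lit 45912770383) (nat_lit 2) (nat_lit 5) (nat_lit 4) (nat_lit 4) (nat_lit 2) (nat_lit 4) (nat_lit 402) (nat_lit 266) (nat_lit 232)))) (XT.nd (nat_lit 78) (nat_lit 0) (nat_lit 0) (XT.lf (nat_lit 0) (nat_lit 53900328754) (nat_lit 152) (nat_lit 57572101183) (nat_lit 0) (nat_lit 50653409769) (nat_lit 2) (nat_lit 5) (nat_lit 4) (nat_lit 4) (nat_lit 2) (nat_lit 4) (nat_lit 403) (nat_lit 266) (nat_lit 231)) (XT.nd (nat_lit 78) (nat_lit 0) (nat_lit 0) (XT.lf (nat_lit 0) (nat_lit 58883249503) (nat_lit 152) (nat_lit 55621967940) (nat_lit 0) (nat_lit 55602093436) (nat_lit 2) (nat_lit 5) (nat_lit 4) (nat_lit 4) (nat_lit 2) (nat_lit 4) (nat_lit 404) (nat_lit 266) (nat_lit 230)) (XT.lf (nat_lit 0) (nat_lit 64084366776) (nat_lit 152) (nat_lit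 53634438706) (nat_lit 0) (nat_lit 60770603964) (nat_lit 2) (nat_lit 5) (nat_lit 4) (nat_lit 4) (nat_lit 2) (nat_lit 4) (nat_lit 405) (nat_lit 266) (nat_lit 229))))) (XT.nd (nat_lit 234) (nat_lit 0) (nat_lit 0) (XT.nd (nat_lit 78) (nat_lit 0) (nat_lit 0) (XT.lf (nat_lit 0) (nat_lit 69516064185) (nat_lit 152) (nat_lit 51604781270) (nat_lit 0) (nat_lit 66171247331) (nat_lit 2) (nat_lit 5) (nat_lit 4) (nat_lit 4) (nat_lit 2) (nat_lit 4) (nat_lit 406) (nat_lit 266) (nat_lit 228)) (XT.nd (nat_lit 78) (nat_lit 0) (nat_lit 0) (XT.lf (nat_lit 0) (nat_lit 75191274344) (nat_lit 152) (nat_lit 49528163112) (nat_lit 0) (nat_lit 71816882210) (nat_lit 2) (nat_lit 5) (nat_lit 4) (nat_lit 4) (nat_lit 2) (nat_lit 4) (nat_lit 407) (nat_lit 266) (nat_lit 227)) (XT.lf (nat_lit 0) (nat_lit 81123509656) (nat_lit 152) (nat_lit 47399639905) (nat_lit 0) (nat_lit 77720950590) (nat_lit 2) (nat_lit 5) (nat_lit 4) (nat_lit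 4) (nat_lit 2) (nat_lit 4) (nat_lit 408) (nat_lit 266) (nat_lit 226)))) (XT.nd (nat_lit 78) (nat_lit 0) (nat_lit 0) (XT.lf (nat_lit 0) (nat_lit 87326894492) (nat_lit 152) (nat_lit 45214143736) (nat_lit 0) (nat_lit 83897509776) (nat_lit 2) (nat_lit 5) (nat_lit 4) (nat_lit 4) (nat_lit 2) (nat_lit 4) (nat_lit 409) (nat_lit 266) (nat_lit 225)) (XT.nd (nat_lit 78) (nat_lit 0) (nat_lit 0) (XT.lf (nat_lit 0) (nat_lit 93816198816) (nat_lit 152) (nat_lit 42966471043) (nat_lit 0) (nat_lit 90361265862) (nat_lit 2) (nat_lit 5) (nat_lit 4) (nat_lit 4) (nat_lit 2) (nat_lit 4) (nat_lit 410) (nat_lit 266) (nat_lit 224)) (XT.lf (nat_lit 0) (nat_lit 100606873352) (nat_lit 152) (nat_lit 40651270223) (nat_lit 0) (nat_lit 97127608743) (nat_lit 2) (nat_lit 5) (nat_lit 4) (nat_lit 4) (nat_lit 2) (nat_lit 4) (nat_lit 411) (nat_lit 266) (nat_lit 223))))))) (XT.nd (nat_lit 858) (nat_lit 76) (nat_lit 0) (XT.nd (nat_lit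 390) (nat_lit 0) (nat_lit 0) (XT.nd (nat_lit 156) (nat_lit 0) (nat_lit 0) (XT.nd (nat_lit 78) (nat_lit 0) (nat_lit 0) (XT.lf (nat_lit 0) (nat_lit 107715086373) (nat_lit 152) (nat_lit 38263028895) (nat_lit 0) (nat_lit 104212648760) (nat_lit 2) (nat_lit 5) (nat_lit 4) (nat_lit 4) (nat_lit 2) (nat_lit 4) (nat_lit 412) (nat_lit 266) (nat_lit 222)) (XT.lf (nat_lit 0) (nat_lit 115157762197) (nat_lit 152) (nat_lit 35796060768) (nat_lit 0) (nat_lit 111633255054) (nat_lit 2) (nat_lit 5) (nat_lit 4) (nat_lit 4) (nat_lit 2) (nat_lit 4) (nat_lit 413) (nat_lit 266) (nat_lit 221))) (XT.nd (nat_lit 78) (nat_lit 0) (nat_lit 0) (XT.lf (nat_lit 0) (nat_lit 122952621478) (nat_lit 152) (nat_lit 33244492111) (nat_lit 0) (nat_lit 119407095737) (nat_lit 2) (nat_lit 5) (nat_lit 4) (nat_lit 4) (nat_lit 2) (nat_lit 4) (nat_lit 414) (nat_lit 266) (nat_lit 220)) (XT.nd (nat_lit 78) (nat_lit 0) (nat_lit 0) (XT.lf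 (nat_lit 0) (nat_lit 131118223407) (nat_lit 152) (nat_lit 30602247758) (nat_lit 0) (nat_lit 127552679953) (nat_lit 2) (nat_lit 5) (nat_lit 4) (nat_lit 4) (nat_lit 2) (nat_lit 4) (nat_lit 415) (nat_lit 266) (nat_lit 219)) (XT.lf (nat_lit 0) (nat_lit 139674009893) (nat_lit 152) (nat_lit 27863036652) (nat_lit 0) (nat_lit 136089401951) (nat_lit 2) (nat_lit 5) (nat_lit 4) (nat_lit 4) (nat_lit 2) (nat_lit 4) (nat_lit 416) (nat_lit 266) (nat_lit 218))))) (XT.nd (nat_lit 234) (nat_lit 0) (nat_lit 0) (XT.nd (nat_lit 78) (nat_lit 0) (nat_lit 0) (XT.lf (nat_lit 0) (nat_lit 148640351855) (nat_lit 152) (nat_lit 25020336863) (nat_lit 0) (nat_lit 145037587257) (nat_lit 2) (nat_lit 5) (nat_lit 4) (nat_lit 4) (nat_lit 2) (nat_lit 4) (nat_lit 417) (nat_lit 266) (nat_lit 217)) (XT.nd (nat_lit 78) (nat_lit 0) (nat_lit 0) (XT.lf (nat_lit 0) (nat_lit 158038597728) (nat_lit 152) (nat_lit 22067380056) (nat_lit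 0) (nat_lit 154418541077) (nat_lit 2) (nat_lit 5) (nat_lit 4) (nat_lit 4) (nat_lit 2) (nat_lit 4) (nat_lit 418) (nat_lit 266) (nat_lit 216)) (XT.lf (nat_lit 0) (nat_lit 167891124286) (nat_lit 152) (nat_lit 18997135383) (nat_lit 0) (nat_lit 164254599013) (nat_lit 2) (nat_lit 5) (nat_lit 4) (nat_lit 4) (nat_lit 2) (nat_lit 4) (nat_lit 419) (nat_lit 266) (nat_lit 215)))) (XT.nd (nat_lit 78) (nat_lit 0) (nat_lit 0) (XT.lf (nat_lit 0) (nat_lit 178221389927) (nat_lit 152) (nat_lit 15802292737) (nat_lit 0) (nat_lit 174569180253) (nat_lit 2) (nat_lit 5) (nat_lit 4) (nat_lit 4) (nat_lit 2) (nat_lit 4) (nat_lit 420) (nat_lit 266) (nat_lit 214)) (XT.nd (nat_lit 78) (nat_lit 0) (nat_lit 0) (XT.lf (nat_lit 0) (nat_lit 189053990522) (nat_lit 152) (nat_lit 12475245350) (nat_lit 0) (nat_lit 185386843321) (nat_lit 2) (nat_lit 5) (nat_lit 4) (nat_lit 4) (nat_lit 2) (nat_lit 4) (nat_lit 421) (nat_lit 266)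 (nat_lit 213)) (XT.lf (nat_lit 0) (nat_lit 200414717975) (nat_lit 152) (nat_lit 9008071680) (nat_lit 0) (nat_lit 196733344560) (nat_lit 2) (nat_lit 5) (nat_lit 4) (nat_lit 4) (nat_lit 2) (nat_lit 4) (nat_lit 422) (nat_lit 266) (nat_lit 212)))))) (XT.nd (nat_lit 468) (nat_lit 0) (nat_lit 0) (XT.nd (nat_lit 234) (nat_lit 0) (nat_lit 0) (XT.nd (nat_lit 78) (nat_lit 76) (nat_lit 0) (XT.lf (nat_lit 0) (nat_lit 212330621639) (nat_lit 152) (nat_lit 5392516553) (nat_lit 0) (nat_lit 208635699447) (nat_lit 2) (nat_lit 5) (nat_lit 4) (nat_lit 4) (nat_lit 2) (nat_lit 4) (nat_lit 423) (nat_lit 266) (nat_lit 211)) (XT.nd (nat_lit 78) (nat_lit 76) (nat_lit 0) (XT.lf (nat_lit 0) (nat_lit 224830072712) (nat_lit 152) (nat_lit 1619971503) (nat_lit 0) (nat_lit 221122246925) (nat_lit 2) (nat_lit 5) (nat_lit 4) (nat_lit 4) (nat_lit 2) (nat_lit 4) (nat_lit 424) (nat_lit 266) (nat_lit 210)) (XT.lf (nat_lit 0)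 (nat_lit 2395207311) (nat_lit 76) (nat_lit 235585020380) (nat_lit 76) (nat_lit 231864905453) (nat_lit 1) (nat_lit 4) (nat_lit 2) (nat_lit 5) (nat_lit 2) (nat_lit 4) (nat_lit 425) (nat_lit 266) (nat_lit 209)))) (XT.nd (nat_lit 78) (nat_lit 0) (nat_lit 0) (XT.lf (nat_lit 0) (nat_lit 6645097144) (nat_lit 76) (nat_lit 245158771181) (nat_lit 76) (nat_lit 241426952312) (nat_lit 1) (nat_lit 4) (nat_lit 2) (nat_lit 5) (nat_lit 2) (nat_lit 4) (nat_lit 426) (nat_lit 266) (nat_lit 208)) (XT.nd (nat_lit 78) (nat_lit 0) (nat_lit 0) (XT.lf (nat_lit 0) (nat_lit 11086253206) (nat_lit 76) (nat_lit 255221526264) (nat_lit 76) (nat_lit 251478560784) (nat_lit 1) (nat_lit 4) (nat_lit 2) (nat_lit 5) (nat_lit 2) (nat_lit 4) (nat_lit 427) (nat_lit 266) (nat_lit 207)) (XT.lf (nat_lit 0) (nat_lit 15729249678) (nat_lit 76) (nat_lit 265797244571) (nat_lit 76) (nat_lit 262043663269) (nat_lit 1) (nat_lit 4) (nat_lit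 2) (nat_lit 5) (nat_lit 2) (nat_lit 4) (nat_lit 428) (nat_lit 266) (nat_lit 206))))) (XT.nd (nat_lit 234) (nat_lit 0) (nat_lit 0) (XT.nd (nat_lit 78) (nat_lit 0) (nat_lit 0) (XT.lf (nat_lit 0) (nat_lit 20585141315) (nat_lit 76) (nat_lit 276911106382) (nat_lit 76) (nat_lit 273147414775) (nat_lit 1) (nat_lit 4) (nat_lit 2) (nat_lit 5) (nat_lit 2) (nat_lit 4) (nat_lit 429) (nat_lit 266) (nat_lit 205)) (XT.nd (nat_lit 78) (nat_lit 0) (nat_lit 0) (XT.lf (nat_lit 0) (nat_lit 25665489762) (nat_lit 76) (nat_lit 288589573273) (nat_lit 76) (nat_lit 284816252804) (nat_lit 1) (nat_lit 4) (nat_lit 2) (nat_lit 5) (nat_lit 2) (nat_lit 4) (nat_lit 430) (nat_lit 266) (nat_lit 204)) (XT.lf (nat_lit 0) (nat_lit 30982391087) (nat_lit 76) (nat_lit 300860451118) (nat_lit 76) (nat_lit 297077960305) (nat_lit 1) (nat_lit 4) (nat_lit 2) (nat_lit 5) (nat_lit 2) (nat_lit 4) (nat_lit 431) (nat_lit 266) (nat_lit 203))))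 (XT.nd (nat_lit 78) (nat_lit 0) (nat_lit 0) (XT.lf (nat_lit 0) (nat_lit 36548504580) (nat_lit 76) (nat_lit 313752956294) (nat_lit 76) (nat_lit 309961731818) (nat_lit 1) (nat_lit 4) (nat_lit 2) (nat_lit 5) (nat_lit 2) (nat_lit 4) (nat_lit 432) (nat_lit 266) (nat_lit 202)) (XT.nd (nat_lit 78) (nat_lit 0) (nat_lit 0) (XT.lf (nat_lit 0) (nat_lit 42377082892) (nat_lit 76) (nat_lit 327297785239) (nat_lit 76) (nat_lit 323498242991) (nat_lit 1) (nat_lit 4) (nat_lit 2) (nat_lit 5) (nat_lit 2) (nat_lit 4) (nat_lit 433) (nat_lit 266) (nat_lit 201)) (XT.lf (nat_lit 0) (nat_lit 48482003589) (nat_lit 76) (nat_lit 341527187549) (nat_lit 76) (nat_lit 337719723611) (nat_lit 1) (nat_lit 4) (nat_lit 2) (nat_lit 5) (nat_lit 2) (nat_lit 4) (nat_lit 434) (nat_lit 266) (nat_lit 200))))))))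
noncomputable def xc27 : XT := (XT.nd (nat_lit 43134) (nat_lit 0) (nat_lit 76) (XT.nd (nat_lit 42198) (nat_lit 0) (nat_lit 228) (XT.nd (nat_lit 41730) (nat_lit 0) (nat_lit 304) (XT.nd (nat_lit 41496) (nat_lit 0) (nat_lit 532) (XT.nd (nat_lit 78) (nat_lit 0) (nat_lit 0) (XT.lf (nat_lit 0) (nat_lit 54877802197) (nat_lit 76) (nat_lit 356475042751) (nat_lit 76) (nat_lit 352660034348) (nat_lit 1) (nat_lit 4) (nat_lit 2) (nat_lit 5) (nat_lit 2) (nat_lit 4) (nat_lit 435) (nat_lit 266) (nat_lit 199)) (XT.lf (nat_lit 0) (nat_lit 61579706809) (nat_lit 76) (nat_lit 372176940977) (nat_lit 76) (nat_lit 368354747369) (nat_lit 1) (nat_lit 4) (nat_lit 2) (nat_lit 5) (nat_lit 2) (nat_lit 4) (nat_lit 436) (nat_lit 266) (nat_lit 198))) (XT.nd (nat_lit 78) (nat_lit 0) (nat_lit 0) (XT.lf (nat_lit 0) (nat_lit 2589486004) (nat_lit 152) (nat_lit 9736492339) (nat_lit 0) (nat_lit 2589486004) (nat_lit 8) (nat_lit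 5) (nat_lit 10) (nat_lit 4) (nat_lit 8) (nat_lit 4) (nat_lit 366) (nat_lit 267) (nat_lit 267)) (XT.nd (nat_lit 78) (nat_lit 0) (nat_lit 0) (XT.lf (nat_lit 0) (nat_lit 9945663149) (nat_lit 152) (nat_lit 11411614725) (nat_lit 0) (nat_lit 9727043038) (nat_lit 8) (nat_lit 5) (nat_lit 10) (nat_lit 4) (nat_lit 8) (nat_lit 4) (nat_lit 367) (nat_lit 267) (nat_lit 266)) (XT.lf (nat_lit 0) (nat_lit 14801511397) (nat_lit 152) (nat_lit 3231689168) (nat_lit 0) (nat_lit 14374681655) (nat_lit 8) (nat_lit 5) (nat_lit 10) (nat_lit 4) (nat_lit 8) (nat_lit 4) (nat_lit 368) (nat_lit 267) (nat_lit 265))))) (XT.nd (nat_lit 234) (nat_lit 152) (nat_lit 0) (XT.nd (nat_lit 78) (nat_lit 0) (nat_lit 0) (XT.lf (nat_lit 0) (nat_lit 5254442998) (nat_lit 76) (nat_lit 14585671877) (nat_lit 76) (nat_lit 13960547250) (nat_lit 7) (nat_lit 4) (nat_lit 8) (nat_lit 5) (nat_lit 8) (nat_lit 4) (nat_lit 369) (nat_lit 267) (nat_lit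 264)) (XT.nd (nat_lit 78) (nat_lit 0) (nat_lit 0) (XT.lf (nat_lit 0) (nat_lit 14010484461) (nat_lit 76) (nat_lit 11035423659) (nat_lit 76) (nat_lit 10221446760) (nat_lit 7) (nat_lit 4) (nat_lit 8) (nat_lit 5) (nat_lit 8) (nat_lit 4) (nat_lit 370) (nat_lit 267) (nat_lit 263)) (XT.lf (nat_lit 0) (nat_lit 22950428699) (nat_lit 76) (nat_lit 7428733157) (nat_lit 76) (nat_lit 6434896951) (nat_lit 7) (nat_lit 4) (nat_lit 8) (nat_lit 5) (nat_lit 8) (nat_lit 4) (nat_lit 371) (nat_lit 267) (nat_lit 262)))) (XT.nd (nat_lit 78) (nat_lit 152) (nat_lit 0) (XT.lf (nat_lit 0) (nat_lit 32095561295) (nat_lit 76) (nat_lit 3757013013) (nat_lit 76) (nat_lit 2591882230) (nat_lit 7) (nat_lit 4) (nat_lit 8) (nat_lit 5) (nat_lit 8) (nat_lit 4) (nat_lit 372) (nat_lit 267) (nat_lit 261)) (XT.nd (nat_lit 78) (nat_lit 0) (nat_lit 0) (XT.lf (nat_lit 0) (nat_lit 1295820575) (nat_lit 152) (nat_lit 38833717648) (nat_lit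 0) (nat_lit 30802979) (nat_lit 5) (nat_lit 5) (nat_lit 7) (nat_lit 4) (nat_lit 5) (nat_lit 4) (nat_lit 373) (nat_lit 267) (nat_lit 260)) (XT.lf (nat_lit 0) (nat_lit 5339702780) (nat_lit 152) (nat_lit 32691062272) (nat_lit 0) (nat_lit 3926714487) (nat_lit 5) (nat_lit 5) (nat_lit 7) (nat_lit 4) (nat_lit 5) (nat_lit 4) (nat_lit 374) (nat_lit 267) (nat_lit 259)))))) (XT.nd (nat_lit 468) (nat_lit 0) (nat_lit 0) (XT.nd (nat_lit 234) (nat_lit 76) (nat_lit 0) (XT.nd (nat_lit 78) (nat_lit 0) (nat_lit 0) (XT.lf (nat_lit 0) (nat_lit 9469611341) (nat_lit 152) (nat_lit 26465000750) (nat_lit 0) (nat_lit 7915698575) (nat_lit 5) (nat_lit 5) (nat_lit 7) (nat_lit 4) (nat_lit 5) (nat_lit 4) (nat_lit 375) (nat_lit 267) (nat_lit 258)) (XT.nd (nat_lit 78) (nat_lit 0) (nat_lit 0) (XT.lf (nat_lit 0) (nat_lit 13695379373) (nat_lit 152) (nat_lit 20140709126) (nat_lit 0) (nat_lit 12007252823) (nat_lit 5) (nat_lit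 5) (nat_lit 7) (nat_lit 4) (nat_lit 5) (nat_lit 4) (nat_lit 376) (nat_lit 267) (nat_lit 257)) (XT.lf (nat_lit 0) (nat_lit 18027068229) (nat_lit 152) (nat_lit 13703129563) (nat_lit 0) (nat_lit 16211119028) (nat_lit 5) (nat_lit 5) (nat_lit 7) (nat_lit 4) (nat_lit 5) (nat_lit 4) (nat_lit 377) (nat_lit 267) (nat_lit 256)))) (XT.nd (nat_lit 78) (nat_lit 76) (nat_lit 0) (XT.lf (nat_lit 0) (nat_lit 22474991454) (nat_lit 152) (nat_lit 7136934490) (nat_lit 0) (nat_lit 20537306394) (nat_lit 5) (nat_lit 5) (nat_lit 7) (nat_lit 4) (nat_lit 5) (nat_lit 4) (nat_lit 378) (nat_lit 267) (nat_lit 255)) (XT.nd (nat_lit 78) (nat_lit 76) (nat_lit 0) (XT.lf (nat_lit 0) (nat_lit 27049739341) (nat_lit 152) (nat_lit 426490111) (nat_lit 0) (nat_lit 24996115368) (nat_lit 5) (nat_lit 5) (nat_lit 7) (nat_lit 4) (nat_lit 5) (nat_lit 4) (nat_lit 379) (nat_lit 267) (nat_lit 254)) (XT.lf (nat_lit 0) (nat_lit 6657254544)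 (nat_lit 76) (nat_lit 25208888002) (nat_lit 76) (nat_lit 23044846017) (nat_lit 4) (nat_lit 4) (nat_lit 5) (nat_lit 5) (nat_lit 5) (nat_lit 4) (nat_lit 380) (nat_lit 267) (nat_lit 253))))) (XT.nd (nat_lit 234) (nat_lit 0) (nat_lit 0) (XT.nd (nat_lit 78) (nat_lit 0) (nat_lit 0) (XT.lf (nat_lit 0) (nat_lit 13937524893) (nat_lit 76) (nat_lit 22903684956) (nat_lit 76) (nat_lit 20634482959) (nat_lit 4) (nat_lit 4) (nat_lit 5) (nat_lit 5) (nat_lit 5) (nat_lit 4) (nat_lit 381) (nat_lit 267) (nat_lit 252)) (XT.nd (nat_lit 78) (nat_lit 0) (nat_lit 0) (XT.lf (nat_lit 0) (nat_lit 21417553222) (nat_lit 76) (nat_lit 20562354551) (nat_lit 76) (nat_lit 18193000162) (nat_lit 4) (nat_lit 4) (nat_lit 5) (nat_lit 5) (nat_lit 5) (nat_lit 4) (nat_lit 382) (nat_lit 267) (nat_lit 251)) (XT.lf (nat_lit 0) (nat_lit 29115149122) (nat_lit 76) (nat_lit 18179322190) (nat_lit 76) (nat_lit 15714584571) (nat_lit 4) (nat_lit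 4) (nat_lit 5) (nat_lit 5) (nat_lit 5) (nat_lit 4) (nat_lit 383) (nat_lit 267) (nat_lit 250)))) (XT.nd (nat_lit 78) (nat_lit 0) (nat_lit 0) (XT.lf (nat_lit 0) (nat_lit 37048640204) (nat_lit 76) (nat_lit 15748913988) (nat_lit 76) (nat_lit 13193335198) (nat_lit 4) (nat_lit 4) (nat_lit 5) (nat_lit 5) (nat_lit 5) (nat_lit 4) (nat_lit 384) (nat_lit 267) (nat_lit 249)) (XT.nd (nat_lit 78) (nat_lit 0) (nat_lit 0) (XT.lf (nat_lit 0) (nat_lit 45236915731) (nat_lit 76) (nat_lit 13265343259) (nat_lit 76) (nat_lit 10623249066) (nat_lit 4) (nat_lit 4) (nat_lit 5) (nat_lit 5) (nat_lit 5) (nat_lit 4) (nat_lit 385) (nat_lit 267) (nat_lit 248)) (XT.lf (nat_lit 0) (nat_lit 53699471598) (nat_lit 76) (nat_lit 10722696737) (nat_lit 76) (nat_lit 7998206924) (nat_lit 4) (nat_lit 4) (nat_lit 5) (nat_lit 5) (nat_lit 5) (nat_lit 4) (nat_lit 386) (nat_lit 267) (nat_lit 247))))))) (XT.nd (nat_lit 858) (nat_lit 0)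 (nat_lit 0) (XT.nd (nat_lit 390) (nat_lit 0) (nat_lit 0) (XT.nd (nat_lit 156) (nat_lit 152) (nat_lit 0) (XT.nd (nat_lit 78) (nat_lit 0) (nat_lit 0) (XT.lf (nat_lit 0) (nat_lit 62456456746) (nat_lit 76) (nat_lit 8114920504) (nat_lit 76) (nat_lit 5311958671) (nat_lit 4) (nat_lit 4) (nat_lit 5) (nat_lit 5) (nat_lit 5) (nat_lit 4) (nat_lit 387) (nat_lit 267) (nat_lit 246)) (XT.lf (nat_lit 0) (nat_lit 71528721142) (nat_lit 76) (nat_lit 5435805568) (nat_lit 76) (nat_lit 2558108478) (nat_lit 4) (nat_lit 4) (nat_lit 5) (nat_lit 5) (nat_lit 5) (nat_lit 4) (nat_lit 388) (nat_lit 267) (nat_lit 245))) (XT.nd (nat_lit 78) (nat_lit 76) (nat_lit 0) (XT.lf (nat_lit 0) (nat_lit 261261940) (nat_lit 152) (nat_lit 2413286547) (nat_lit 76) (nat_lit 80672178876) (nat_lit 3) (nat_lit 5) (nat_lit 5) (nat_lit 5) (nat_lit 4) (nat_lit 4) (nat_lit 389) (nat_lit 267) (nat_lit 244)) (XT.nd (nat_lit 78) (nat_lit 0)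 (nat_lit 0) (XT.lf (nat_lit 0) (nat_lit 3134360959) (nat_lit 152) (nat_lit 83964291643) (nat_lit 0) (nat_lit 261350858) (nat_lit 2) (nat_lit 5) (nat_lit 4) (nat_lit 4) (nat_lit 2) (nat_lit 4) (nat_lit 390) (nat_lit 267) (nat_lit 243)) (XT.lf (nat_lit 0) (nat_lit 6178140241) (nat_lit 152) (nat_lit 82150818591) (nat_lit 0) (nat_lit 3243645259) (nat_lit 2) (nat_lit 5) (nat_lit 4) (nat_lit 4) (nat_lit 2) (nat_lit 4) (nat_lit 391) (nat_lit 267) (nat_lit 242))))) (XT.nd (nat_lit 234) (nat_lit 0) (nat_lit 0) (XT.nd (nat_lit 78) (nat_lit 0) (nat_lit 0) (XT.lf (nat_lit 0) (nat_lit 9318527606) (nat_lit 152) (nat_lit 80354622015) (nat_lit 0) (nat_lit 6325475594) (nat_lit 2) (nat_lit 5) (nat_lit 4) (nat_lit 4) (nat_lit 2) (nat_lit 4) (nat_lit 392) (nat_lit 267) (nat_lit 241)) (XT.nd (nat_lit 78) (nat_lit 0) (nat_lit 0) (XT.lf (nat_lit 0) (nat_lit 12563000167) (nat_lit 152) (nat_lit 78571425258) (nat_lit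 0) (nat_lit 9514179557) (nat_lit 2) (nat_lit 5) (nat_lit 4) (nat_lit 4) (nat_lit 2) (nat_lit 4) (nat_lit 393) (nat_lit 267) (nat_lit 240)) (XT.lf (nat_lit 0) (nat_lit 15919282860) (nat_lit 152) (nat_lit 76796982614) (nat_lit 0) (nat_lit 12817349298) (nat_lit 2) (nat_lit 5) (nat_lit 4) (nat_lit 4) (nat_lit 2) (nat_lit 4) (nat_lit 394) (nat_lit 267) (nat_lit 239)))) (XT.nd (nat_lit 78) (nat_lit 0) (nat_lit 0) (XT.lf (nat_lit 0) (nat_lit 19395366833) (nat_lit 152) (nat_lit 75027069218) (nat_lit 0) (nat_lit 16242849507) (nat_lit 2) (nat_lit 5) (nat_lit 4) (nat_lit 4) (nat_lit 2) (nat_lit 4) (nat_lit 395) (nat_lit 267) (nat_lit 238)) (XT.nd (nat_lit 78) (nat_lit 0) (nat_lit 0) (XT.lf (nat_lit 0) (nat_lit 22999528477) (nat_lit 152) (nat_lit 73257470991) (nat_lit 0) (nat_lit 19798836138) (nat_lit 2) (nat_lit 5) (nat_lit 4) (nat_lit 4) (nat_lit 2) (nat_lit 4) (nat_lit 396) (nat_lit 267) (nat_lit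 237)) (XT.lf (nat_lit 0) (nat_lit 26740349129) (nat_lit 152) (nat_lit 71483974604) (nat_lit 0) (nat_lit 23493775825) (nat_lit 2) (nat_lit 5) (nat_lit 4) (nat_lit 4) (nat_lit 2) (nat_lit 4) (nat_lit 397) (nat_lit 267) (nat_lit 236)))))) (XT.nd (nat_lit 468) (nat_lit 0) (nat_lit 0) (XT.nd (nat_lit 234) (nat_lit 0) (nat_lit 0) (XT.nd (nat_lit 78) (nat_lit 0) (nat_lit 0) (XT.lf (nat_lit 0) (nat_lit 30626735504) (nat_lit 152) (nat_lit 69702357446) (nat_lit 0) (nat_lit 27336466044) (nat_lit 2) (nat_lit 5) (nat_lit 4) (nat_lit 4) (nat_lit 2) (nat_lit 4) (nat_lit 398) (nat_lit 267) (nat_lit 235)) (XT.nd (nat_lit 78) (nat_lit 0) (nat_lit 0) (XT.lf (nat_lit 0) (nat_lit 34667940905) (nat_lit 152) (nat_lit 67908377573) (nat_lit 0) (nat_lit 31336056057) (nat_lit 2) (nat_lit 5) (nat_lit 4) (nat_lit 4) (nat_lit 2) (nat_lit 4) (nat_lit 399) (nat_lit 267) (nat_lit 234)) (XT.lf (nat_lit 0) (nat_lit 38873587248)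 (nat_lit 152) (nat_lit 66097763603) (nat_lit 0) (nat_lit 35502068697) (nat_lit 2) (nat_lit 5) (nat_lit 4) (nat_lit 4) (nat_lit 2) (nat_lit 4) (nat_lit 400) (nat_lit 267) (nat_lit 233)))) (XT.nd (nat_lit 78) (nat_lit 0) (nat_lit 0) (XT.lf (nat_lit 0) (nat_lit 43253687977) (nat_lit 152) (nat_lit 64266204550) (nat_lit 0) (nat_lit 39844423043) (nat_lit 2) (nat_lit 5) (nat_lit 4) (nat_lit 4) (nat_lit 2) (nat_lit 4) (nat_lit 401) (nat_lit 267) (nat_lit 232)) (XT.nd (nat_lit 78) (nat_lit 0) (nat_lit 0) (XT.lf (nat_lit 0) (nat_lit 47818671903) (nat_lit 152) (nat_lit 62409339561) (nat_lit 0) (nat_lit 44373458033) (nat_lit 2) (nat_lit 5) (nat_lit 4) (nat_lit 4) (nat_lit 2) (nat_lit 4) (nat_lit 402) (nat_lit 267) (nat_lit 231)) (XT.lf (nat_lit 0) (nat_lit 52579408036) (nat_lit 152) (nat_lit 60522747527) (nat_lit 0) (nat_lit 49099957084) (nat_lit 2) (nat_lit 5) (nat_lit 4) (nat_lit 4) (nat_lit 2)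 (nat_lit 4) (nat_lit 403) (nat_lit 267) (nat_lit 230))))) (XT.nd (nat_lit 234) (nat_lit 0) (nat_lit 0) (XT.nd (nat_lit 78) (nat_lit 0) (nat_lit 0) (XT.lf (nat_lit 0) (nat_lit 57547231462) (nat_lit 152) (nat_lit 58601936562) (nat_lit 0) (nat_lit 54035173764) (nat_lit 2) (nat_lit 5) (nat_lit 4) (nat_lit 4) (nat_lit 2) (nat_lit 4) (nat_lit 404) (nat_lit 267) (nat_lit 229)) (XT.nd (nat_lit 78) (nat_lit 0) (nat_lit 0) (XT.lf (nat_lit 0) (nat_lit 62733970331) (nat_lit 152) (nat_lit 56642333309) (nat_lit 0) (nat_lit 59190858591) (nat_lit 2) (nat_lit 5) (nat_lit 4) (nat_lit 4) (nat_lit 2) (nat_lit 4) (nat_lit 405) (nat_lit 267) (nat_lit 228)) (XT.lf (nat_lit 0) (nat_lit 68151974022) (nat_lit 152) (nat_lit 54639272043) (nat_lit 0) (nat_lit 64579287003) (nat_lit 2) (nat_lit 5) (nat_lit 4) (nat_lit 4) (nat_lit 2) (nat_lit 4) (nat_lit 406) (nat_lit 267) (nat_lit 227)))) (XT.nd (nat_lit 78) (nat_lit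 0) (nat_lit 0) (XT.lf (nat_lit 0) (nat_lit 73814142545) (nat_lit 152) (nat_lit 52587983573) (nat_lit 0) (nat_lit 70213288593) (nat_lit 2) (nat_lit 5) (nat_lit 4) (nat_lit 4) (nat_lit 2) (nat_lit 4) (nat_lit 407) (nat_lit 267) (nat_lit 226)) (XT.nd (nat_lit 78) (nat_lit 0) (nat_lit 0) (XT.lf (nat_lit 0) (nat_lit 79733957251) (nat_lit 152) (nat_lit 50483583877) (nat_lit 0) (nat_lit 76106277650) (nat_lit 2) (nat_lit 5) (nat_lit 4) (nat_lit 4) (nat_lit 2) (nat_lit 4) (nat_lit 408) (nat_lit 267) (nat_lit 225)) (XT.lf (nat_lit 0) (nat_lit 85925512939) (nat_lit 152) (nat_lit 48321062481) (nat_lit 0) (nat_lit 82272285100) (nat_lit 2) (nat_lit 5) (nat_lit 4) (nat_lit 4) (nat_lit 2) (nat_lit 4) (nat_lit 409) (nat_lit 267) (nat_lit 224))))))))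
noncomputable def xc28 : XT := (XT.nd (nat_lit 1794) (nat_lit 0) (nat_lit 0) (XT.nd (nat_lit 858) (nat_lit 76) (nat_lit 0) (XT.nd (nat_lit 390) (nat_lit 0) (nat_lit 0) (XT.nd (nat_lit 156) (nat_lit 0) (nat_lit 0) (XT.nd (nat_lit 78) (nat_lit 0) (nat_lit 0) (XT.lf (nat_lit 0) (nat_lit 92403551407) (nat_lit 152) (nat_lit 46095270524) (nat_lit 0) (nat_lit 88725991913) (nat_lit 2) (nat_lit 5) (nat_lit 4) (nat_lit 4) (nat_lit 2) (nat_lit 4) (nat_lit 410) (nat_lit 267) (nat_lit 223)) (XT.lf (nat_lit 0) (nat_lit 99183496557) (nat_lit 152) (nat_lit 43800908500) (nat_lit 0) (nat_lit 95482764058) (nat_lit 2) (nat_lit 5) (nat_lit 4) (nat_lit 4) (nat_lit 2) (nat_lit 4) (nat_lit 411) (nat_lit 267) (nat_lit 222))) (XT.nd (nat_lit 78) (nat_lit 0) (nat_lit 0) (XT.lf (nat_lit 0) (nat_lit 106281491116) (nat_lit 152) (nat_lit 41432513644) (nat_lit 0) (nat_lit 102558689088) (nat_lit 2) (nat_lit 5) (nat_lit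 4) (nat_lit 4) (nat_lit 2) (nat_lit 4) (nat_lit 412) (nat_lit 267) (nat_lit 221)) (XT.nd (nat_lit 78) (nat_lit 0) (nat_lit 0) (XT.lf (nat_lit 0) (nat_lit 113714435069) (nat_lit 152) (nat_lit 38984446920) (nat_lit 0) (nat_lit 109970614443) (nat_lit 2) (nat_lit 5) (nat_lit 4) (nat_lit 4) (nat_lit 2) (nat_lit 4) (nat_lit 413) (nat_lit 267) (nat_lit 220)) (XT.lf (nat_lit 0) (nat_lit 121500025904) (nat_lit 152) (nat_lit 36450879598) (nat_lit 0) (nat_lit 117736187564) (nat_lit 2) (nat_lit 5) (nat_lit 4) (nat_lit 4) (nat_lit 2) (nat_lit 4) (nat_lit 414) (nat_lit 267) (nat_lit 219))))) (XT.nd (nat_lit 234) (nat_lit 0) (nat_lit 0) (XT.nd (nat_lit 78) (nat_lit 0) (nat_lit 0) (XT.lf (nat_lit 0) (nat_lit 129656800740) (nat_lit 152) (nat_lit 33825779374) (nat_lit 0) (nat_lit 125873897912) (nat_lit 2) (nat_lit 5) (nat_lit 4) (nat_lit 4) (nat_lit 2) (nat_lit 4) (nat_lit 415) (nat_lit 267) (nat_lit 218))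 (XT.nd (nat_lit 78) (nat_lit 0) (nat_lit 0) (XT.lf (nat_lit 0) (nat_lit 138204180471) (nat_lit 152) (nat_lit 31102896011) (nat_lit 0) (nat_lit 134403120987) (nat_lit 2) (nat_lit 5) (nat_lit 4) (nat_lit 4) (nat_lit 2) (nat_lit 4) (nat_lit 416) (nat_lit 267) (nat_lit 217)) (XT.lf (nat_lit 0) (nat_lit 147162516000) (nat_lit 152) (nat_lit 28275746452) (nat_lit 0) (nat_lit 143344164463) (nat_lit 2) (nat_lit 5) (nat_lit 4) (nat_lit 4) (nat_lit 2) (nat_lit 4) (nat_lit 417) (nat_lit 267) (nat_lit 216)))) (XT.nd (nat_lit 78) (nat_lit 0) (nat_lit 0) (XT.lf (nat_lit 0) (nat_lit 156553136698) (nat_lit 152) (nat_lit 25337599388) (nat_lit 0) (nat_lit 152718316540) (nat_lit 2) (nat_lit 5) (nat_lit 4) (nat_lit 4) (nat_lit 2) (nat_lit 4) (nat_lit 418) (nat_lit 267) (nat_lit 215)) (XT.nd (nat_lit 78) (nat_lit 0) (nat_lit 0) (XT.lf (nat_lit 0) (nat_lit 166398401186) (nat_lit 152) (nat_lit 22281459233) (nat_lit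 0) (nat_lit 162547896625) (nat_lit 2) (nat_lit 5) (nat_lit 4) (nat_lit 4) (nat_lit 2) (nat_lit 4) (nat_lit 419) (nat_lit 267) (nat_lit 214)) (XT.lf (nat_lit 0) (nat_lit 176721750569) (nat_lit 152) (nat_lit 19100049460) (nat_lit 0) (nat_lit 172856308483) (nat_lit 2) (nat_lit 5) (nat_lit 4) (nat_lit 4) (nat_lit 2) (nat_lit 4) (nat_lit 420) (nat_lit 267) (nat_lit 213)))))) (XT.nd (nat_lit 468) (nat_lit 0) (nat_lit 0) (XT.nd (nat_lit 234) (nat_lit 76) (nat_lit 0) (XT.nd (nat_lit 78) (nat_lit 0) (nat_lit 0) (XT.lf (nat_lit 0) (nat_lit 187547764251) (nat_lit 152) (nat_lit 15785795286) (nat_lit 0) (nat_lit 183668095950) (nat_lit 2) (nat_lit 5) (nat_lit 4) (nat_lit 4) (nat_lit 2) (nat_lit 4) (nat_lit 421) (nat_lit 267) (nat_lit 212)) (XT.nd (nat_lit 78) (nat_lit 0) (nat_lit 0) (XT.lf (nat_lit 0) (nat_lit 198902218454) (nat_lit 152) (nat_lit 12330805629) (nat_lit 0) (nat_lit 195009001377) (nat_lit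 2) (nat_lit 5) (nat_lit 4) (nat_lit 4) (nat_lit 2) (nat_lit 4) (nat_lit 422) (nat_lit 267) (nat_lit 211)) (XT.lf (nat_lit 0) (nat_lit 210812147594) (nat_lit 152) (nat_lit 8726854323) (nat_lit 0) (nat_lit 206906026921) (nat_lit 2) (nat_lit 5) (nat_lit 4) (nat_lit 4) (nat_lit 2) (nat_lit 4) (nat_lit 423) (nat_lit 267) (nat_lit 210)))) (XT.nd (nat_lit 78) (nat_lit 76) (nat_lit 0) (XT.lf (nat_lit 0) (nat_lit 223305908645) (nat_lit 152) (nat_lit 4965360532) (nat_lit 0) (nat_lit 219387498832) (nat_lit 2) (nat_lit 5) (nat_lit 4) (nat_lit 4) (nat_lit 2) (nat_lit 4) (nat_lit 424) (nat_lit 267) (nat_lit 209)) (XT.nd (nat_lit 78) (nat_lit 76) (nat_lit 0) (XT.lf (nat_lit 0) (nat_lit 236413248657) (nat_lit 152) (nat_lit 1037368317) (nat_lit 0) (nat_lit 232483134902) (nat_lit 2) (nat_lit 5) (nat_lit 4) (nat_lit 4) (nat_lit 2) (nat_lit 4) (nat_lit 425) (nat_lit 267) (nat_lit 208)) (XT.lf (nat_lit 0)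 (nat_lit 3167866183) (nat_lit 76) (nat_lit 247046968667) (nat_lit 76) (nat_lit 243105708301) (nat_lit 1) (nat_lit 4) (nat_lit 2) (nat_lit 5) (nat_lit 2) (nat_lit 4) (nat_lit 426) (nat_lit 267) (nat_lit 207))))) (XT.nd (nat_lit 234) (nat_lit 0) (nat_lit 0) (XT.nd (nat_lit 78) (nat_lit 0) (nat_lit 0) (XT.lf (nat_lit 0) (nat_lit 7599160102) (nat_lit 76) (nat_lit 257114516662) (nat_lit 76) (nat_lit 253162640475) (nat_lit 1) (nat_lit 4) (nat_lit 2) (nat_lit 5) (nat_lit 2) (nat_lit 4) (nat_lit 427) (nat_lit 267) (nat_lit 206)) (XT.nd (nat_lit 78) (nat_lit 0) (nat_lit 0) (XT.lf (nat_lit 0) (nat_lit 12232764058) (nat_lit 76) (nat_lit 267694799646) (nat_lit 76) (nat_lit 263732813154) (nat_lit 1) (nat_lit 4) (nat_lit 2) (nat_lit 5) (nat_lit 2) (nat_lit 4) (nat_lit 428) (nat_lit 267) (nat_lit 205)) (XT.lf (nat_lit 0) (nat_lit 17079710440) (nat_lit 76) (nat_lit 278813008769) (nat_lit 76) (nat_lit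 274841393415) (nat_lit 1) (nat_lit 4) (nat_lit 2) (nat_lit 5) (nat_lit 2) (nat_lit 4) (nat_lit 429) (nat_lit 267) (nat_lit 204)))) (XT.nd (nat_lit 78) (nat_lit 0) (nat_lit 0) (XT.lf (nat_lit 0) (nat_lit 22151539597) (nat_lit 76) (nat_lit 290495615958) (nat_lit 76) (nat_lit 286514830259) (nat_lit 1) (nat_lit 4) (nat_lit 2) (nat_lit 5) (nat_lit 2) (nat_lit 4) (nat_lit 430) (nat_lit 267) (nat_lit 203)) (XT.nd (nat_lit 78) (nat_lit 0) (nat_lit 0) (XT.lf (nat_lit 0) (nat_lit 27460327314) (nat_lit 76) (nat_lit 302770436944) (nat_lit 76) (nat_lit 298780917583) (nat_lit 1) (nat_lit 4) (nat_lit 2) (nat_lit 5) (nat_lit 2) (nat_lit 4) (nat_lit 431) (nat_lit 267) (nat_lit 202)) (XT.lf (nat_lit 0) (nat_lit 33018713560) (nat_lit 76) (nat_lit 315666697490) (nat_lit 76) (nat_lit 311668860356) (nat_lit 1) (nat_lit 4) (nat_lit 2) (nat_lit 5) (nat_lit 2) (nat_lit 4) (nat_lit 432) (nat_lit 267) (nat_lit 201)))))))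 (XT.nd (nat_lit 42042) (nat_lit 0) (nat_lit 228) (XT.nd (nat_lit 41574) (nat_lit 0) (nat_lit 456) (XT.nd (nat_lit 156) (nat_lit 0) (nat_lit 0) (XT.nd (nat_lit 78) (nat_lit 0) (nat_lit 0) (XT.lf (nat_lit 0) (nat_lit 38839932588) (nat_lit 76) (nat_lit 329215102981) (nat_lit 76) (nat_lit 325209344158) (nat_lit 1) (nat_lit 4) (nat_lit 2) (nat_lit 5) (nat_lit 2) (nat_lit 4) (nat_lit 433) (nat_lit 267) (nat_lit 200)) (XT.lf (nat_lit 0) (nat_lit 44937844445) (nat_lit 76) (nat_lit 343447911523) (nat_lit 76) (nat_lit 339434608234) (nat_lit 1) (nat_lit 4) (nat_lit 2) (nat_lit 5) (nat_lit 2) (nat_lit 4) (nat_lit 434) (nat_lit 267) (nat_lit 199))) (XT.nd (nat_lit 78) (nat_lit 0) (nat_lit 0) (XT.lf (nat_lit 0) (nat_lit 51326967967) (nat_lit 76) (nat_lit 358399010756) (nat_lit 76) (nat_lit 354378522262) (nat_lit 1) (nat_lit 4) (nat_lit 2) (nat_lit 5) (nat_lit 2) (nat_lit 4) (nat_lit 435) (nat_lit 267)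 (nat_lit 198)) (XT.nd (nat_lit 41262) (nat_lit 0) (nat_lit 684) (XT.lf (nat_lit 0) (nat_lit 58022515353) (nat_lit 76) (nat_lit 374103998536) (nat_lit 76) (nat_lit 370076666989) (nat_lit 1) (nat_lit 4) (nat_lit 2) (nat_lit 5) (nat_lit 2) (nat_lit 4) (nat_lit 436) (nat_lit 267) (nat_lit 197)) (XT.lf (nat_lit 0) (nat_lit 9992682133) (nat_lit 76) (nat_lit 1880360063) (nat_lit 76) (nat_lit 1880360063) (nat_lit 10) (nat_lit 4) (nat_lit 11) (nat_lit 5) (nat_lit 11) (nat_lit 4) (nat_lit 364) (nat_lit 268) (nat_lit 268))))) (XT.nd (nat_lit 234) (nat_lit 76) (nat_lit 0) (XT.nd (nat_lit 78) (nat_lit 0) (nat_lit 0) (XT.lf (nat_lit 0) (nat_lit 719639827) (nat_lit 152) (nat_lit 27434992765) (nat_lit 0) (nat_lit 490088710) (nat_lit 8) (nat_lit 5) (nat_lit 10) (nat_lit 4) (nat_lit 8) (nat_lit 4) (nat_lit 365) (nat_lit 268) (nat_lit 267)) (XT.nd (nat_lit 78) (nat_lit 0) (nat_lit 0) (XT.lf (nat_lit 0) (nat_lit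 5332115163) (nat_lit 152) (nat_lit 19618710794) (nat_lit 0) (nat_lit 4883943935) (nat_lit 8) (nat_lit 5) (nat_lit 10) (nat_lit 4) (nat_lit 8) (nat_lit 4) (nat_lit 366) (nat_lit 268) (nat_lit 266)) (XT.lf (nat_lit 0) (nat_lit 10026036816) (nat_lit 152) (nat_lit 11696127618) (nat_lit 0) (nat_lit 9369655958) (nat_lit 8) (nat_lit 5) (nat_lit 10) (nat_lit 4) (nat_lit 8) (nat_lit 4) (nat_lit 367) (nat_lit 268) (nat_lit 265)))) (XT.nd (nat_lit 78) (nat_lit 76) (nat_lit 0) (XT.lf (nat_lit 0) (nat_lit 14812580789) (nat_lit 152) (nat_lit 3648379943) (nat_lit 0) (nat_lit 13957905046) (nat_lit 8) (nat_lit 5) (nat_lit 10) (nat_lit 4) (nat_lit 8) (nat_lit 4) (nat_lit 368) (nat_lit 268) (nat_lit 264)) (XT.nd (nat_lit 78) (nat_lit 0) (nat_lit 0) (XT.lf (nat_lit 0) (nat_lit 4693928561) (nat_lit 76) (nat_lit 15082500435) (nat_lit 76) (nat_lit 14038972419) (nat_lit 7) (nat_lit 4) (nat_lit 8) (nat_lit 5)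 (nat_lit 8) (nat_lit 4) (nat_lit 369) (nat_lit 268) (nat_lit 263)) (XT.lf (nat_lit 0) (nat_lit 13326116708) (nat_lit 76) (nat_lit 11591310815) (nat_lit 76) (nat_lit 10367923492) (nat_lit 7) (nat_lit 4) (nat_lit 8) (nat_lit 5) (nat_lit 8) (nat_lit 4) (nat_lit 370) (nat_lit 268) (nat_lit 262)))))) (XT.nd (nat_lit 468) (nat_lit 76) (nat_lit 0) (XT.nd (nat_lit 234) (nat_lit 0) (nat_lit 0) (XT.nd (nat_lit 78) (nat_lit 152) (nat_lit 0) (XT.lf (nat_lit 0) (nat_lit 22148105408) (nat_lit 76) (nat_lit 8040866598) (nat_lit 76) (nat_lit 6646184697) (nat_lit 7) (nat_lit 4) (nat_lit 8) (nat_lit 5) (nat_lit 8) (nat_lit 4) (nat_lit 371) (nat_lit 268) (nat_lit 261)) (XT.nd (nat_lit 78) (nat_lit 152) (nat_lit 0) (XT.lf (nat_lit 0) (nat_lit 31180899396) (nat_lit 76) (nat_lit 4422714344) (nat_lit 76) (nat_lit 2864894751) (nat_lit 7) (nat_lit 4) (nat_lit 8) (nat_lit 5) (nat_lit 8) (nat_lit 4) (nat_lit 372)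 (nat_lit 268) (nat_lit 260)) (XT.lf (nat_lit 0) (nat_lit 249311722) (nat_lit 76) (nat_lit 708005617) (nat_lit 152) (nat_lit 39231014458) (nat_lit 5) (nat_lit 5) (nat_lit 6) (nat_lit 5) (nat_lit 7) (nat_lit 4) (nat_lit 373) (nat_lit 268) (nat_lit 259)))) (XT.nd (nat_lit 78) (nat_lit 0) (nat_lit 0) (XT.lf (nat_lit 0) (nat_lit 4933478396) (nat_lit 152) (nat_lit 33894445686) (nat_lit 0) (nat_lit 3160945518) (nat_lit 5) (nat_lit 5) (nat_lit 7) (nat_lit 4) (nat_lit 5) (nat_lit 4) (nat_lit 374) (nat_lit 268) (nat_lit 258)) (XT.nd (nat_lit 78) (nat_lit 0) (nat_lit 0) (XT.lf (nat_lit 0) (nat_lit 9009418197) (nat_lit 152) (nat_lit 27772322200) (nat_lit 0) (nat_lit 7102671535) (nat_lit 5) (nat_lit 5) (nat_lit 7) (nat_lit 4) (nat_lit 5) (nat_lit 4) (nat_lit 375) (nat_lit 268) (nat_lit 257)) (XT.lf (nat_lit 0) (nat_lit 13183787411) (nat_lit 152) (nat_lit 21547019182) (nat_lit 0) (nat_lit 11149218098)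 (nat_lit 5) (nat_lit 5) (nat_lit 7) (nat_lit 4) (nat_lit 5) (nat_lit 4) (nat_lit 376) (nat_lit 268) (nat_lit 256))))) (XT.nd (nat_lit 234) (nat_lit 76) (nat_lit 0) (XT.nd (nat_lit 78) (nat_lit 0) (nat_lit 0) (XT.lf (nat_lit 0) (nat_lit 17466525011) (nat_lit 152) (nat_lit 15203714482) (nat_lit 0) (nat_lit 15310219840) (nat_lit 5) (nat_lit 5) (nat_lit 7) (nat_lit 4) (nat_lit 5) (nat_lit 4) (nat_lit 377) (nat_lit 268) (nat_lit 255)) (XT.nd (nat_lit 78) (nat_lit 0) (nat_lit 0) (XT.lf (nat_lit 0) (nat_lit 21867827993) (nat_lit 152) (nat_lit 8727304993) (nat_lit 0) (nat_lit 19595583908) (nat_lit 5) (nat_lit 5) (nat_lit 7) (nat_lit 4) (nat_lit 5) (nat_lit 4) (nat_lit 378) (nat_lit 268) (nat_lit 254)) (XT.lf (nat_lit 0) (nat_lit 26398175647) (nat_lit 152) (nat_lit 2102370693) (nat_lit 0) (nat_lit 24015513551) (nat_lit 5) (nat_lit 5) (nat_lit 7) (nat_lit 4) (nat_lit 5) (nat_lit 4) (nat_lit 379)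 (nat_lit 268) (nat_lit 253)))) (XT.nd (nat_lit 78) (nat_lit 0) (nat_lit 0) (XT.lf (nat_lit 0) (nat_lit 4841830897) (nat_lit 76) (nat_lit 26302118171) (nat_lit 76) (nat_lit 23814296063) (nat_lit 4) (nat_lit 4) (nat_lit 5) (nat_lit 5) (nat_lit 5) (nat_lit 4) (nat_lit 380) (nat_lit 268) (nat_lit 252)) (XT.nd (nat_lit 78) (nat_lit 0) (nat_lit 0) (XT.lf (nat_lit 0) (nat_lit 12041976593) (nat_lit 76) (nat_lit 24035516487) (nat_lit 76) (nat_lit 21447541987) (nat_lit 4) (nat_lit 4) (nat_lit 5) (nat_lit 5) (nat_lit 5) (nat_lit 4) (nat_lit 381) (nat_lit 268) (nat_lit 251)) (XT.lf (nat_lit 0) (nat_lit 19445695729) (nat_lit 76) (nat_lit 21730949284) (nat_lit 76) (nat_lit 19047591554) (nat_lit 4) (nat_lit 4) (nat_lit 5) (nat_lit 5) (nat_lit 5) (nat_lit 4) (nat_lit 382) (nat_lit 268) (nat_lit 250))))))))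
noncomputable def xc29 : XT := (XT.nd (nat_lit 1794) (nat_lit 76) (nat_lit 0) (XT.nd (nat_lit 858) (nat_lit 0) (nat_lit 0) (XT.nd (nat_lit 390) (nat_lit 152) (nat_lit 0) (XT.nd (nat_lit 156) (nat_lit 0) (nat_lit 0) (XT.nd (nat_lit 78) (nat_lit 0) (nat_lit 0) (XT.lf (nat_lit 0) (nat_lit 27070616208) (nat_lit 76) (nat_lit 19382929498) (nat_lit 76) (nat_lit 16608730595) (nat_lit 4) (nat_lit 4) (nat_lit 5) (nat_lit 5) (nat_lit 5) (nat_lit 4) (nat_lit 383) (nat_lit 268) (nat_lit 249)) (XT.lf (nat_lit 0) (nat_lit 34934892603) (nat_lit 76) (nat_lit 16985866604) (nat_lit 76) (nat_lit 14125152300) (nat_lit 4) (nat_lit 4) (nat_lit 5) (nat_lit 5) (nat_lit 5) (nat_lit 4) (nat_lit 384) (nat_lit 268) (nat_lit 248))) (XT.nd (nat_lit 78) (nat_lit 0) (nat_lit 0) (XT.lf (nat_lit 0) (nat_lit 43057249380) (nat_lit 76) (nat_lit 14534053311) (nat_lit 76) (nat_lit 11590943386) (nat_lit 4) (nat_lit 4) (nat_lit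 5) (nat_lit 5) (nat_lit 5) (nat_lit 4) (nat_lit 385) (nat_lit 268) (nat_lit 247)) (XT.nd (nat_lit 78) (nat_lit 0) (nat_lit 0) (XT.lf (nat_lit 0) (nat_lit 51457025485) (nat_lit 76) (nat_lit 12021651967) (nat_lit 76) (nat_lit 9000070023) (nat_lit 4) (nat_lit 4) (nat_lit 5) (nat_lit 5) (nat_lit 5) (nat_lit 4) (nat_lit 386) (nat_lit 268) (nat_lit 246)) (XT.lf (nat_lit 0) (nat_lit 60154220385) (nat_lit 76) (nat_lit 9442680665) (nat_lit 76) (nat_lit 6346363464) (nat_lit 4) (nat_lit 4) (nat_lit 5) (nat_lit 5) (nat_lit 5) (nat_lit 4) (nat_lit 387) (nat_lit 268) (nat_lit 245))))) (XT.nd (nat_lit 234) (nat_lit 0) (nat_lit 0) (XT.nd (nat_lit 78) (nat_lit 152) (nat_lit 0) (XT.lf (nat_lit 0) (nat_lit 69169541686) (nat_lit 76) (nat_lit 6790998997) (nat_lit 76) (nat_lit 3623505361) (nat_lit 4) (nat_lit 4) (nat_lit 5) (nat_lit 5) (nat_lit 5) (nat_lit 4) (nat_lit 388) (nat_lit 268) (nat_lit 244)) (XT.nd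 (nat_lit 78) (nat_lit 152) (nat_lit 0) (XT.lf (nat_lit 0) (nat_lit 78524454439) (nat_lit 76) (nat_lit 4060293435) (nat_lit 76) (nat_lit 825012718) (nat_lit 4) (nat_lit 4) (nat_lit 5) (nat_lit 5) (nat_lit 5) (nat_lit 4) (nat_lit 389) (nat_lit 268) (nat_lit 243)) (XT.lf (nat_lit 0) (nat_lit 805396512) (nat_lit 76) (nat_lit 1197157806) (nat_lit 152) (nat_lit 85424729136) (nat_lit 2) (nat_lit 5) (nat_lit 3) (nat_lit 5) (nat_lit 4) (nat_lit 4) (nat_lit 390) (nat_lit 268) (nat_lit 242)))) (XT.nd (nat_lit 78) (nat_lit 0) (nat_lit 0) (XT.lf (nat_lit 0) (nat_lit 5000529987) (nat_lit 152) (nat_lit 84842381502) (nat_lit 0) (nat_lit 1799268346) (nat_lit 2) (nat_lit 5) (nat_lit 4) (nat_lit 4) (nat_lit 2) (nat_lit 4) (nat_lit 391) (nat_lit 268) (nat_lit 241)) (XT.nd (nat_lit 78) (nat_lit 0) (nat_lit 0) (XT.lf (nat_lit 0) (nat_lit 8115095805) (nat_lit 152) (nat_lit 83096335974) (nat_lit 0) (nat_lit 4858065565)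 (nat_lit 2) (nat_lit 5) (nat_lit 4) (nat_lit 4) (nat_lit 2) (nat_lit 4) (nat_lit 392) (nat_lit 268) (nat_lit 240)) (XT.lf (nat_lit 0) (nat_lit 11334976417) (nat_lit 152) (nat_lit 81360902119) (nat_lit 0) (nat_lit 8024833225) (nat_lit 2) (nat_lit 5) (nat_lit 4) (nat_lit 4) (nat_lit 2) (nat_lit 4) (nat_lit 393) (nat_lit 268) (nat_lit 239)))))) (XT.nd (nat_lit 468) (nat_lit 0) (nat_lit 0) (XT.nd (nat_lit 234) (nat_lit 0) (nat_lit 0) (XT.nd (nat_lit 78) (nat_lit 0) (nat_lit 0) (XT.lf (nat_lit 0) (nat_lit 14667838205) (nat_lit 152) (nat_lit 79631947953) (nat_lit 0) (nat_lit 11307111249) (nat_lit 2) (nat_lit 5) (nat_lit 4) (nat_lit 4) (nat_lit 2) (nat_lit 4) (nat_lit 394) (nat_lit 268) (nat_lit 238)) (XT.nd (nat_lit 78) (nat_lit 0) (nat_lit 0) (XT.lf (nat_lit 0) (nat_lit 18121616555) (nat_lit 152) (nat_lit 77905356918) (nat_lit 0) (nat_lit 14712714586) (nat_lit 2) (nat_lit 5) (nat_lit 4) (nat_lit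 4) (nat_lit 2) (nat_lit 4) (nat_lit 395) (nat_lit 268) (nat_lit 237)) (XT.lf (nat_lit 0) (nat_lit 21704534748) (nat_lit 152) (nat_lit 76177018081) (nat_lit 0) (nat_lit 18249751814) (nat_lit 2) (nat_lit 5) (nat_lit 4) (nat_lit 4) (nat_lit 2) (nat_lit 4) (nat_lit 396) (nat_lit 268) (nat_lit 236)))) (XT.nd (nat_lit 78) (nat_lit 0) (nat_lit 0) (XT.lf (nat_lit 0) (nat_lit 25425123542) (nat_lit 152) (nat_lit 74442816353) (nat_lit 0) (nat_lit 21926644451) (nat_lit 2) (nat_lit 5) (nat_lit 4) (nat_lit 4) (nat_lit 2) (nat_lit 4) (nat_lit 397) (nat_lit 268) (nat_lit 235)) (XT.nd (nat_lit 78) (nat_lit 0) (nat_lit 0) (XT.lf (nat_lit 0) (nat_lit 29292241482) (nat_lit 152) (nat_lit 72698622679) (nat_lit 0) (nat_lit 25752147004) (nat_lit 2) (nat_lit 5) (nat_lit 4) (nat_lit 4) (nat_lit 2) (nat_lit 4) (nat_lit 398) (nat_lit 268) (nat_lit 234)) (XT.lf (nat_lit 0) (nat_lit 33315095991) (nat_lit 152) (nat_lit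 70940284219) (nat_lit 0) (nat_lit 29735367810) (nat_lit 2) (nat_lit 5) (nat_lit 4) (nat_lit 4) (nat_lit 2) (nat_lit 4) (nat_lit 399) (nat_lit 268) (nat_lit 233))))) (XT.nd (nat_lit 234) (nat_lit 0) (nat_lit 0) (XT.nd (nat_lit 78) (nat_lit 0) (nat_lit 0) (XT.lf (nat_lit 0) (nat_lit 37503265294) (nat_lit 152) (nat_lit 69163614452) (nat_lit 0) (nat_lit 33885790730) (nat_lit 2) (nat_lit 5) (nat_lit 4) (nat_lit 4) (nat_lit 2) (nat_lit 4) (nat_lit 400) (nat_lit 268) (nat_lit 232)) (XT.nd (nat_lit 78) (nat_lit 0) (nat_lit 0) (XT.lf (nat_lit 0) (nat_lit 41866721223) (nat_lit 152) (nat_lit 67364383212) (nat_lit 0) (nat_lit 38213297723) (nat_lit 2) (nat_lit 5) (nat_lit 4) (nat_lit 4) (nat_lit 2) (nat_lit 4) (nat_lit 401) (nat_lit 268) (nat_lit 231)) (XT.lf (nat_lit 0) (nat_lit 46415852959) (nat_lit 152) (nat_lit 65538306615) (nat_lit 0) (nat_lit 42728192377) (nat_lit 2) (nat_lit 5) (nat_lit 4) (nat_lit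 4) (nat_lit 2) (nat_lit 4) (nat_lit 402) (nat_lit 268) (nat_lit 230)))) (XT.nd (nat_lit 78) (nat_lit 0) (nat_lit 0) (XT.lf (nat_lit 0) (nat_lit 51161491769) (nat_lit 152) (nat_lit 63681036859) (nat_lit 0) (nat_lit 47441224441) (nat_lit 2) (nat_lit 5) (nat_lit 4) (nat_lit 4) (nat_lit 2) (nat_lit 4) (nat_lit 403) (nat_lit 268) (nat_lit 229)) (XT.nd (nat_lit 78) (nat_lit 0) (nat_lit 0) (XT.lf (nat_lit 0) (nat_lit 56114936791) (nat_lit 152) (nat_lit 61788151875) (nat_lit 0) (nat_lit 52363615420) (nat_lit 2) (nat_lit 5) (nat_lit 4) (nat_lit 4) (nat_lit 2) (nat_lit 4) (nat_lit 404) (nat_lit 268) (nat_lit 228)) (XT.lf (nat_lit 0) (nat_lit 61287981942) (nat_lit 152) (nat_lit 59855144793) (nat_lit 0) (nat_lit 57507085293) (nat_lit 2) (nat_lit 5) (nat_lit 4) (nat_lit 4) (nat_lit 2) (nat_lit 4) (nat_lit 405) (nat_lit 268) (nat_lit 227))))))) (XT.nd (nat_lit 858) (nat_lit 76) (nat_lit 0) (XT.nd (nat_lit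 390) (nat_lit 0) (nat_lit 0) (XT.nd (nat_lit 156) (nat_lit 0) (nat_lit 0) (XT.nd (nat_lit 78) (nat_lit 0) (nat_lit 0) (XT.lf (nat_lit 0) (nat_lit 66692943997) (nat_lit 152) (nat_lit 57877413214) (nat_lit 0) (nat_lit 62883880416) (nat_lit 2) (nat_lit 5) (nat_lit 4) (nat_lit 4) (nat_lit 2) (nat_lit 4) (nat_lit 406) (nat_lit 268) (nat_lit 226)) (XT.lf (nat_lit 0) (nat_lit 72342691914) (nat_lit 152) (nat_lit 55850248255) (nat_lit 0) (nat_lit 68506802683) (nat_lit 2) (nat_lit 5) (nat_lit 4) (nat_lit 4) (nat_lit 2) (nat_lit 4) (nat_lit 407) (nat_lit 268) (nat_lit 225))) (XT.nd (nat_lit 78) (nat_lit 0) (nat_lit 0) (XT.lf (nat_lit 0) (nat_lit 78250677472) (nat_lit 152) (nat_lit 53768823332) (nat_lit 0) (nat_lit 74389240003) (nat_lit 2) (nat_lit 5) (nat_lit 4) (nat_lit 4) (nat_lit 2) (nat_lit 4) (nat_lit 408) (nat_lit 268) (nat_lit 224)) (XT.nd (nat_lit 78) (nat_lit 0) (nat_lit 0) (XT.lf (nat_lit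 0) (nat_lit 84430967304) (nat_lit 152) (nat_lit 51628182672) (nat_lit 0) (nat_lit 80545198180) (nat_lit 2) (nat_lit 5) (nat_lit 4) (nat_lit 4) (nat_lit 2) (nat_lit 4) (nat_lit 409) (nat_lit 268) (nat_lit 223)) (XT.lf (nat_lit 0) (nat_lit 90898276387) (nat_lit 152) (nat_lit 49423229510) (nat_lit 0) (nat_lit 86989334257) (nat_lit 2) (nat_lit 5) (nat_lit 4) (nat_lit 4) (nat_lit 2) (nat_lit 4) (nat_lit 410) (nat_lit 268) (nat_lit 222))))) (XT.nd (nat_lit 234) (nat_lit 0) (nat_lit 0) (XT.nd (nat_lit 78) (nat_lit 0) (nat_lit 0) (XT.lf (nat_lit 0) (nat_lit 97668003074) (nat_lit 152) (nat_lit 47148713959) (nat_lit 0) (nat_lit 93736991416) (nat_lit 2) (nat_lit 5) (nat_lit 4) (nat_lit 4) (nat_lit 2) (nat_lit 4) (nat_lit 411) (nat_lit 268) (nat_lit 221)) (XT.nd (nat_lit 78) (nat_lit 0) (nat_lit 0) (XT.lf (nat_lit 0) (nat_lit 104756265762) (nat_lit 152) (nat_lit 44799220506) (nat_lit 0) (nat_lit 100804235506)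 (nat_lit 2) (nat_lit 5) (nat_lit 4) (nat_lit 4) (nat_lit 2) (nat_lit 4) (nat_lit 412) (nat_lit 268) (nat_lit 220)) (XT.lf (nat_lit 0) (nat_lit 112179941269) (nat_lit 152) (nat_lit 42369155118) (nat_lit 0) (nat_lit 108207893299) (nat_lit 2) (nat_lit 5) (nat_lit 4) (nat_lit 4) (nat_lit 2) (nat_lit 4) (nat_lit 413) (nat_lit 268) (nat_lit 219)))) (XT.nd (nat_lit 78) (nat_lit 0) (nat_lit 0) (XT.lf (nat_lit 0) (nat_lit 119956705011) (nat_lit 152) (nat_lit 39852731924) (nat_lit 0) (nat_lit 115965592553) (nat_lit 2) (nat_lit 5) (nat_lit 4) (nat_lit 4) (nat_lit 2) (nat_lit 4) (nat_lit 414) (nat_lit 268) (nat_lit 218)) (XT.nd (nat_lit 78) (nat_lit 0) (nat_lit 0) (XT.lf (nat_lit 0) (nat_lit 128105073092) (nat_lit 152) (nat_lit 37243959443) (nat_lit 0) (nat_lit 124095803979) (nat_lit 2) (nat_lit 5) (nat_lit 4) (nat_lit 4) (nat_lit 2) (nat_lit 4) (nat_lit 415) (nat_lit 268) (nat_lit 217)) (XT.lf (nat_lit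 0) (nat_lit 136644446390) (nat_lit 152) (nat_lit 34536626310) (nat_lit 0) (nat_lit 132617885223) (nat_lit 2) (nat_lit 5) (nat_lit 4) (nat_lit 4) (nat_lit 2) (nat_lit 4) (nat_lit 416) (nat_lit 268) (nat_lit 216)))))) (XT.nd (nat_lit 468) (nat_lit 76) (nat_lit 0) (XT.nd (nat_lit 234) (nat_lit 0) (nat_lit 0) (XT.nd (nat_lit 78) (nat_lit 0) (nat_lit 0) (XT.lf (nat_lit 0) (nat_lit 145595156744) (nat_lit 152) (nat_lit 31724286494) (nat_lit 0) (nat_lit 141552126956) (nat_lit 2) (nat_lit 5) (nat_lit 4) (nat_lit 4) (nat_lit 2) (nat_lit 4) (nat_lit 417) (nat_lit 268) (nat_lit 215)) (XT.nd (nat_lit 78) (nat_lit 0) (nat_lit 0) (XT.lf (nat_lit 0) (nat_lit 154978515372) (nat_lit 152) (nat_lit 28800243948) (nat_lit 0) (nat_lit 150919801181) (nat_lit 2) (nat_lit 5) (nat_lit 4) (nat_lit 4) (nat_lit 2) (nat_lit 4) (nat_lit 418) (nat_lit 268) (nat_lit 214)) (XT.lf (nat_lit 0) (nat_lit 164816863601) (nat_lit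 152) (nat_lit 25757536666) (nat_lit 0) (nat_lit 160743211885) (nat_lit 2) (nat_lit 5) (nat_lit 4) (nat_lit 4) (nat_lit 2) (nat_lit 4) (nat_lit 419) (nat_lit 268) (nat_lit 213)))) (XT.nd (nat_lit 78) (nat_lit 0) (nat_lit 0) (XT.lf (nat_lit 0) (nat_lit 175133626072) (nat_lit 152) (nat_lit 22588920107) (nat_lit 0) (nat_lit 171045748141) (nat_lit 2) (nat_lit 5) (nat_lit 4) (nat_lit 4) (nat_lit 2) (nat_lit 4) (nat_lit 420) (nat_lit 268) (nat_lit 212)) (XT.nd (nat_lit 78) (nat_lit 0) (nat_lit 0) (XT.lf (nat_lit 0) (nat_lit 185953366504) (nat_lit 152) (nat_lit 19286849945) (nat_lit 0) (nat_lit 181851939797) (nat_lit 2) (nat_lit 5) (nat_lit 4) (nat_lit 4) (nat_lit 2) (nat_lit 4) (nat_lit 421) (nat_lit 268) (nat_lit 211)) (XT.lf (nat_lit 0) (nat_lit 197301846184) (nat_lit 152) (nat_lit 15843464110) (nat_lit 0) (nat_lit 193187515880) (nat_lit 2) (nat_lit 5) (nat_lit 4) (nat_lit 4) (nat_lit 2) (nat_lit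 4) (nat_lit 422) (nat_lit 268) (nat_lit 210))))) (XT.nd (nat_lit 234) (nat_lit 76) (nat_lit 0) (XT.nd (nat_lit 78) (nat_lit 0) (nat_lit 0) (XT.lf (nat_lit 0) (nat_lit 209206085301) (nat_lit 152) (nat_lit 12250564062) (nat_lit 0) (nat_lit 205079465859) (nat_lit 2) (nat_lit 5) (nat_lit 4) (nat_lit 4) (nat_lit 2) (nat_lit 4) (nat_lit 423) (nat_lit 268) (nat_lit 209)) (XT.nd (nat_lit 78) (nat_lit 0) (nat_lit 0) (XT.lf (nat_lit 0) (nat_lit 221694427283) (nat_lit 152) (nat_lit 8499595279) (nat_lit 0) (nat_lit 217556103898) (nat_lit 2) (nat_lit 5) (nat_lit 4) (nat_lit 4) (nat_lit 2) (nat_lit 4) (nat_lit 424) (nat_lit 268) (nat_lit 208)) (XT.lf (nat_lit 0) (nat_lit 234796606276) (nat_lit 152) (nat_lit 4581626882) (nat_lit 0) (nat_lit 230647136280) (nat_lit 2) (nat_lit 5) (nat_lit 4) (nat_lit 4) (nat_lit 2) (nat_lit 4) (nat_lit 425) (nat_lit 268) (nat_lit 207)))) (XT.nd (nat_lit 78) (nat_lit 76)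 (nat_lit 0) (XT.lf (nat_lit 0) (nat_lit 248543817946) (nat_lit 152) (nat_lit 487330375) (nat_lit 0) (nat_lit 244383732129) (nat_lit 2) (nat_lit 5) (nat_lit 4) (nat_lit 4) (nat_lit 2) (nat_lit 4) (nat_lit 426) (nat_lit 268) (nat_lit 206)) (XT.nd (nat_lit 78) (nat_lit 0) (nat_lit 0) (XT.lf (nat_lit 0) (nat_lit 3918457684) (nat_lit 76) (nat_lit 259111514169) (nat_lit 76) (nat_lit 254941318047) (nat_lit 1) (nat_lit 4) (nat_lit 2) (nat_lit 5) (nat_lit 2) (nat_lit 4) (nat_lit 427) (nat_lit 268) (nat_lit 205)) (XT.lf (nat_lit 0) (nat_lit 8543116385) (nat_lit 76) (nat_lit 269696144465) (nat_lit 76) (nat_lit 265516319481) (nat_lit 1) (nat_lit 4) (nat_lit 2) (nat_lit 5) (nat_lit 2) (nat_lit 4) (nat_lit 428) (nat_lit 268) (nat_lit 204))))))))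
noncomputable def xc30 : XT := (XT.nd (nat_lit 42822) (nat_lit 0) (nat_lit 76) (XT.nd (nat_lit 41886) (nat_lit 0) (nat_lit 304) (XT.nd (nat_lit 390) (nat_lit 0) (nat_lit 0) (XT.nd (nat_lit 156) (nat_lit 0) (nat_lit 0) (XT.nd (nat_lit 78) (nat_lit 0) (nat_lit 0) (XT.lf (nat_lit 0) (nat_lit 13381543477) (nat_lit 76) (nat_lit 280818493886) (nat_lit 76) (nat_lit 276629498557) (nat_lit 1) (nat_lit 4) (nat_lit 2) (nat_lit 5) (nat_lit 2) (nat_lit 4) (nat_lit 429) (nat_lit 268) (nat_lit 203)) (XT.lf (nat_lit 0) (nat_lit 18445259026) (nat_lit 76) (nat_lit 292505044215) (nat_lit 76) (nat_lit 288307315224) (nat_lit 1) (nat_lit 4) (nat_lit 2) (nat_lit 5) (nat_lit 2) (nat_lit 4) (nat_lit 430) (nat_lit 268) (nat_lit 202))) (XT.nd (nat_lit 78) (nat_lit 0) (nat_lit 0) (XT.lf (nat_lit 0) (nat_lit 23746319495) (nat_lit 76) (nat_lit 304783620572) (nat_lit 76) (nat_lit 300577573808) (nat_lit 1) (nat_lit 4)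 (nat_lit 2) (nat_lit 5) (nat_lit 2) (nat_lit 4) (nat_lit 431) (nat_lit 268) (nat_lit 201)) (XT.nd (nat_lit 78) (nat_lit 0) (nat_lit 0) (XT.lf (nat_lit 0) (nat_lit 29297346458) (nat_lit 76) (nat_lit 317683457663) (nat_lit 76) (nat_lit 313469489210) (nat_lit 1) (nat_lit 4) (nat_lit 2) (nat_lit 5) (nat_lit 2) (nat_lit 4) (nat_lit 432) (nat_lit 268) (nat_lit 200)) (XT.lf (nat_lit 0) (nat_lit 35111556646) (nat_lit 76) (nat_lit 331235269386) (nat_lit 76) (nat_lit 327013756468) (nat_lit 1) (nat_lit 4) (nat_lit 2) (nat_lit 5) (nat_lit 2) (nat_lit 4) (nat_lit 433) (nat_lit 268) (nat_lit 199))))) (XT.nd (nat_lit 41262) (nat_lit 0) (nat_lit 684) (XT.nd (nat_lit 78) (nat_lit 0) (nat_lit 0) (XT.lf (nat_lit 0) (nat_lit 41202793416) (nat_lit 76) (nat_lit 345471321960) (nat_lit 76) (nat_lit 341242623836) (nat_lit 1) (nat_lit 4) (nat_lit 2) (nat_lit 5) (nat_lit 2) (nat_lit 4) (nat_lit 434) (nat_lit 268)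 (nat_lit 198)) (XT.nd (nat_lit 78) (nat_lit 0) (nat_lit 0) (XT.lf (nat_lit 0) (nat_lit 47585559713) (nat_lit 76) (nat_lit 360425510747) (nat_lit 76) (nat_lit 356189969570) (nat_lit 1) (nat_lit 4) (nat_lit 2) (nat_lit 5) (nat_lit 2) (nat_lit 4) (nat_lit 435) (nat_lit 268) (nat_lit 197)) (XT.lf (nat_lit 0) (nat_lit 54275052600) (nat_lit 76) (nat_lit 376133440958) (nat_lit 76) (nat_lit 371891382589) (nat_lit 1) (nat_lit 4) (nat_lit 2) (nat_lit 5) (nat_lit 2) (nat_lit 4) (nat_lit 436) (nat_lit 268) (nat_lit 196)))) (XT.nd (nat_lit 78) (nat_lit 0) (nat_lit 0) (XT.lf (nat_lit 0) (nat_lit 490203175) (nat_lit 76) (nat_lit 6106320170) (nat_lit 76) (nat_lit 6106320170) (nat_lit 10) (nat_lit 4) (nat_lit 11) (nat_lit 5) (nat_lit 11) (nat_lit 4) (nat_lit 362) (nat_lit 269) (nat_lit 269)) (XT.nd (nat_lit 78) (nat_lit 0) (nat_lit 0) (XT.lf (nat_lit 0) (nat_lit 10324247512) (nat_lit 76) (nat_lit 8178754657)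 (nat_lit 76) (nat_lit 7925674551) (nat_lit 10) (nat_lit 4) (nat_lit 11) (nat_lit 5) (nat_lit 11) (nat_lit 4) (nat_lit 363) (nat_lit 269) (nat_lit 268)) (XT.lf (nat_lit 0) (nat_lit 19842586681) (nat_lit 76) (nat_lit 4081062653) (nat_lit 76) (nat_lit 3586953874) (nat_lit 10) (nat_lit 4) (nat_lit 11) (nat_lit 5) (nat_lit 11) (nat_lit 4) (nat_lit 364) (nat_lit 269) (nat_lit 267)))))) (XT.nd (nat_lit 468) (nat_lit 152) (nat_lit 0) (XT.nd (nat_lit 234) (nat_lit 76) (nat_lit 0) (XT.nd (nat_lit 78) (nat_lit 0) (nat_lit 0) (XT.lf (nat_lit 0) (nat_lit 804032177) (nat_lit 152) (nat_lit 27733731302) (nat_lit 0) (nat_lit 114832276) (nat_lit 8) (nat_lit 5) (nat_lit 10) (nat_lit 4) (nat_lit 8) (nat_lit 4) (nat_lit 365) (nat_lit 269) (nat_lit 266)) (XT.nd (nat_lit 78) (nat_lit 0) (nat_lit 0) (XT.lf (nat_lit 0) (nat_lit 5343738025) (nat_lit 152) (nat_lit 20056236109) (nat_lit 0) (nat_lit 4446328494) (nat_lit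 8) (nat_lit 5) (nat_lit 10) (nat_lit 4) (nat_lit 8) (nat_lit 4) (nat_lit 366) (nat_lit 269) (nat_lit 265)) (XT.lf (nat_lit 0) (nat_lit 9968355404) (nat_lit 152) (nat_lit 12265830816) (nat_lit 0) (nat_lit 8872650987) (nat_lit 8) (nat_lit 5) (nat_lit 10) (nat_lit 4) (nat_lit 8) (nat_lit 4) (nat_lit 367) (nat_lit 269) (nat_lit 264)))) (XT.nd (nat_lit 78) (nat_lit 76) (nat_lit 0) (XT.lf (nat_lit 0) (nat_lit 14688895307) (nat_lit 152) (nat_lit 4343966839) (nat_lit 0) (nat_lit 13404338618) (nat_lit 8) (nat_lit 5) (nat_lit 10) (nat_lit 4) (nat_lit 8) (nat_lit 4) (nat_lit 368) (nat_lit 269) (nat_lit 263)) (XT.nd (nat_lit 78) (nat_lit 0) (nat_lit 0) (XT.lf (nat_lit 0) (nat_lit 3851489106) (nat_lit 76) (nat_lit 15725240548) (nat_lit 76) (nat_lit 14260824552) (nat_lit 7) (nat_lit 4) (nat_lit 8) (nat_lit 5) (nat_lit 8) (nat_lit 4) (nat_lit 369) (nat_lit 269) (nat_lit 262)) (XT.lf (nat_lit 0) (nat_lit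 12365721714) (nat_lit 76) (nat_lit 12290297212) (nat_lit 76) (nat_lit 10654586639) (nat_lit 7) (nat_lit 4) (nat_lit 8) (nat_lit 5) (nat_lit 8) (nat_lit 4) (nat_lit 370) (nat_lit 269) (nat_lit 261))))) (XT.nd (nat_lit 234) (nat_lit 76) (nat_lit 0) (XT.nd (nat_lit 78) (nat_lit 76) (nat_lit 0) (XT.lf (nat_lit 0) (nat_lit 21075371805) (nat_lit 76) (nat_lit 8793420885) (nat_lit 76) (nat_lit 6994572619) (nat_lit 7) (nat_lit 4) (nat_lit 8) (nat_lit 5) (nat_lit 8) (nat_lit 4) (nat_lit 371) (nat_lit 269) (nat_lit 260)) (XT.nd (nat_lit 78) (nat_lit 76) (nat_lit 0) (XT.lf (nat_lit 0) (nat_lit 30001176642) (nat_lit 76) (nat_lit 5226285670) (nat_lit 76) (nat_lit 3272068172) (nat_lit 7) (nat_lit 4) (nat_lit 8) (nat_lit 5) (nat_lit 8) (nat_lit 4) (nat_lit 372) (nat_lit 269) (nat_lit 259)) (XT.lf (nat_lit 0) (nat_lit 505089273) (nat_lit 152) (nat_lit 1066755182) (nat_lit 76) (nat_lit 38650744935) (nat_lit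 6) (nat_lit 5) (nat_lit 8) (nat_lit 5) (nat_lit 7) (nat_lit 4) (nat_lit 373) (nat_lit 269) (nat_lit 258)))) (XT.nd (nat_lit 78) (nat_lit 0) (nat_lit 0) (XT.lf (nat_lit 0) (nat_lit 4396306835) (nat_lit 152) (nat_lit 35371071245) (nat_lit 0) (nat_lit 2260009056) (nat_lit 5) (nat_lit 5) (nat_lit 7) (nat_lit 4) (nat_lit 5) (nat_lit 4) (nat_lit 374) (nat_lit 269) (nat_lit 257)) (XT.nd (nat_lit 78) (nat_lit 0) (nat_lit 0) (XT.lf (nat_lit 0) (nat_lit 8420847818) (nat_lit 152) (nat_lit 29347936365) (nat_lit 0) (nat_lit 6156727388) (nat_lit 5) (nat_lit 5) (nat_lit 7) (nat_lit 4) (nat_lit 5) (nat_lit 4) (nat_lit 375) (nat_lit 269) (nat_lit 256)) (XT.lf (nat_lit 0) (nat_lit 12546265776) (nat_lit 152) (nat_lit 23216908210) (nat_lit 0) (nat_lit 10160409488) (nat_lit 5) (nat_lit 5) (nat_lit 7) (nat_lit 4) (nat_lit 5) (nat_lit 4) (nat_lit 376) (nat_lit 269) (nat_lit 255))))))) (XT.nd (nat_lit 858) (nat_lit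 152) (nat_lit 0) (XT.nd (nat_lit 390) (nat_lit 0) (nat_lit 0) (XT.nd (nat_lit 156) (nat_lit 76) (nat_lit 0) (XT.nd (nat_lit 78) (nat_lit 0) (nat_lit 0) (XT.lf (nat_lit 0) (nat_lit 16782383133) (nat_lit 152) (nat_lit 16963389093) (nat_lit 0) (nat_lit 14280587932) (nat_lit 5) (nat_lit 5) (nat_lit 7) (nat_lit 4) (nat_lit 5) (nat_lit 4) (nat_lit 377) (nat_lit 269) (nat_lit 254)) (XT.lf (nat_lit 0) (nat_lit 21139285882) (nat_lit 152) (nat_lit 10572489684) (nat_lit 0) (nat_lit 18527072669) (nat_lit 5) (nat_lit 5) (nat_lit 7) (nat_lit 4) (nat_lit 5) (nat_lit 4) (nat_lit 378) (nat_lit 269) (nat_lit 253))) (XT.nd (nat_lit 78) (nat_lit 76) (nat_lit 0) (XT.lf (nat_lit 0) (nat_lit 25627347602) (nat_lit 152) (nat_lit 4028993555) (nat_lit 0) (nat_lit 22909974377) (nat_lit 5) (nat_lit 5) (nat_lit 7) (nat_lit 4) (nat_lit 5) (nat_lit 4) (nat_lit 379) (nat_lit 269) (nat_lit 252)) (XT.nd (nat_lit 78) (nat_lit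 0) (nat_lit 0) (XT.lf (nat_lit 0) (nat_lit 2771380529) (nat_lit 76) (nat_lit 27529142641) (nat_lit 76) (nat_lit 24711617024) (nat_lit 4) (nat_lit 4) (nat_lit 5) (nat_lit 5) (nat_lit 5) (nat_lit 4) (nat_lit 380) (nat_lit 269) (nat_lit 251)) (XT.lf (nat_lit 0) (nat_lit 9895217033) (nat_lit 76) (nat_lit 25299304159) (nat_lit 76) (nat_lit 22386395312) (nat_lit 4) (nat_lit 4) (nat_lit 5) (nat_lit 5) (nat_lit 5) (nat_lit 4) (nat_lit 381) (nat_lit 269) (nat_lit 250))))) (XT.nd (nat_lit 234) (nat_lit 0) (nat_lit 0) (XT.nd (nat_lit 78) (nat_lit 0) (nat_lit 0) (XT.lf (nat_lit 0) (nat_lit 17226260748) (nat_lit 76) (nat_lit 23029749530) (nat_lit 76) (nat_lit 20025999511) (nat_lit 4) (nat_lit 4) (nat_lit 5) (nat_lit 5) (nat_lit 5) (nat_lit 4) (nat_lit 382) (nat_lit 269) (nat_lit 249)) (XT.nd (nat_lit 78) (nat_lit 0) (nat_lit 0) (XT.lf (nat_lit 0) (nat_lit 24781966540) (nat_lit 76) (nat_lit 20715075052)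 (nat_lit 76) (nat_lit 17624809631) (nat_lit 4) (nat_lit 4) (nat_lit 5) (nat_lit 5) (nat_lit 5) (nat_lit 4) (nat_lit 383) (nat_lit 269) (nat_lit 248)) (XT.lf (nat_lit 0) (nat_lit 32580324185) (nat_lit 76) (nat_lit 18349769595) (nat_lit 76) (nat_lit 15177108554) (nat_lit 4) (nat_lit 4) (nat_lit 5) (nat_lit 5) (nat_lit 5) (nat_lit 4) (nat_lit 384) (nat_lit 269) (nat_lit 247)))) (XT.nd (nat_lit 78) (nat_lit 0) (nat_lit 0) (XT.lf (nat_lit 0) (nat_lit 40639901201) (nat_lit 76) (nat_lit 15928201480) (nat_lit 76) (nat_lit 12677068418) (nat_lit 4) (nat_lit 4) (nat_lit 5) (nat_lit 5) (nat_lit 5) (nat_lit 4) (nat_lit 385) (nat_lit 269) (nat_lit 246)) (XT.nd (nat_lit 78) (nat_lit 0) (nat_lit 0) (XT.lf (nat_lit 0) (nat_lit 48979887057) (nat_lit 76) (nat_lit 13444605067) (nat_lit 76) (nat_lit 10118736749) (nat_lit 4) (nat_lit 4) (nat_lit 5) (nat_lit 5) (nat_lit 5) (nat_lit 4) (nat_lit 386) (nat_lit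 269) (nat_lit 245)) (XT.lf (nat_lit 0) (nat_lit 57620138862) (nat_lit 76) (nat_lit 10893067033) (nat_lit 76) (nat_lit 7496022280) (nat_lit 4) (nat_lit 4) (nat_lit 5) (nat_lit 5) (nat_lit 5) (nat_lit 4) (nat_lit 387) (nat_lit 269) (nat_lit 244)))))) (XT.nd (nat_lit 468) (nat_lit 0) (nat_lit 0) (XT.nd (nat_lit 234) (nat_lit 76) (nat_lit 0) (XT.nd (nat_lit 78) (nat_lit 76) (nat_lit 0) (XT.lf (nat_lit 0) (nat_lit 66581228644) (nat_lit 76) (nat_lit 8267512287) (nat_lit 76) (nat_lit 4802680452) (nat_lit 4) (nat_lit 4) (nat_lit 5) (nat_lit 5) (nat_lit 5) (nat_lit 4) (nat_lit 388) (nat_lit 269) (nat_lit 243)) (XT.nd (nat_lit 78) (nat_lit 76) (nat_lit 0) (XT.lf (nat_lit 0) (nat_lit 75884492332) (nat_lit 76) (nat_lit 5561689507) (nat_lit 76) (nat_lit 2032298548) (nat_lit 4) (nat_lit 4) (nat_lit 5) (nat_lit 5) (nat_lit 5) (nat_lit 4) (nat_lit 389) (nat_lit 269) (nat_lit 242)) (XT.lf (nat_lit 0) (nat_lit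 795419421) (nat_lit 152) (nat_lit 1960266025) (nat_lit 76) (nat_lit 84743190319) (nat_lit 3) (nat_lit 5) (nat_lit 5) (nat_lit 5) (nat_lit 4) (nat_lit 4) (nat_lit 390) (nat_lit 269) (nat_lit 241)))) (XT.nd (nat_lit 78) (nat_lit 0) (nat_lit 0) (XT.lf (nat_lit 0) (nat_lit 3711105050) (nat_lit 152) (nat_lit 87771332206) (nat_lit 0) (nat_lit 235454698) (nat_lit 2) (nat_lit 5) (nat_lit 4) (nat_lit 4) (nat_lit 2) (nat_lit 4) (nat_lit 391) (nat_lit 269) (nat_lit 240)) (XT.nd (nat_lit 78) (nat_lit 0) (nat_lit 0) (XT.lf (nat_lit 0) (nat_lit 6801078918) (nat_lit 152) (nat_lit 86073049580) (nat_lit 0) (nat_lit 3272315614) (nat_lit 2) (nat_lit 5) (nat_lit 4) (nat_lit 4) (nat_lit 2) (nat_lit 4) (nat_lit 392) (nat_lit 269) (nat_lit 239)) (XT.lf (nat_lit 0) (nat_lit 9997538625) (nat_lit 152) (nat_lit 84383104204) (nat_lit 0) (nat_lit 6418191558) (nat_lit 2) (nat_lit 5) (nat_lit 4) (nat_lit 4) (nat_lit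 2) (nat_lit 4) (nat_lit 393) (nat_lit 269) (nat_lit 238))))) (XT.nd (nat_lit 234) (nat_lit 0) (nat_lit 0) (XT.nd (nat_lit 78) (nat_lit 0) (nat_lit 0) (XT.lf (nat_lit 0) (nat_lit 13308094790) (nat_lit 152) (nat_lit 82697472399) (nat_lit 0) (nat_lit 9680572710) (nat_lit 2) (nat_lit 5) (nat_lit 4) (nat_lit 4) (nat_lit 2) (nat_lit 4) (nat_lit 394) (nat_lit 269) (nat_lit 237)) (XT.nd (nat_lit 78) (nat_lit 0) (nat_lit 0) (XT.lf (nat_lit 0) (nat_lit 16740629689) (nat_lit 152) (nat_lit 81012140754) (nat_lit 0) (nat_lit 13067226644) (nat_lit 2) (nat_lit 5) (nat_lit 4) (nat_lit 4) (nat_lit 2) (nat_lit 4) (nat_lit 395) (nat_lit 269) (nat_lit 236)) (XT.lf (nat_lit 0) (nat_lit 20303316024) (nat_lit 152) (nat_lit 79323096576) (nat_lit 0) (nat_lit 16586216822) (nat_lit 2) (nat_lit 5) (nat_lit 4) (nat_lit 4) (nat_lit 2) (nat_lit 4) (nat_lit 396) (nat_lit 269) (nat_lit 235)))) (XT.nd (nat_lit 78) (nat_lit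 0) (nat_lit 0) (XT.lf (nat_lit 0) (nat_lit 24004636382) (nat_lit 152) (nat_lit 77626318331) (nat_lit 0) (nat_lit 20245921792) (nat_lit 2) (nat_lit 5) (nat_lit 4) (nat_lit 4) (nat_lit 2) (nat_lit 4) (nat_lit 397) (nat_lit 269) (nat_lit 234)) (XT.nd (nat_lit 78) (nat_lit 0) (nat_lit 0) (XT.lf (nat_lit 0) (nat_lit 27853403430) (nat_lit 152) (nat_lit 75917766070) (nat_lit 0) (nat_lit 24055055138) (nat_lit 2) (nat_lit 5) (nat_lit 4) (nat_lit 4) (nat_lit 2) (nat_lit 4) (nat_lit 398) (nat_lit 269) (nat_lit 233)) (XT.lf (nat_lit 0) (nat_lit 31858780899) (nat_lit 152) (nat_lit 74193371813) (nat_lit 0) (nat_lit 28022686224) (nat_lit 2) (nat_lit 5) (nat_lit 4) (nat_lit 4) (nat_lit 2) (nat_lit 4) (nat_lit 399) (nat_lit 269) (nat_lit 232))))))))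
noncomputable def xc31 : XT := (XT.nd (nat_lit 1794) (nat_lit 76) (nat_lit 0) (XT.nd (nat_lit 858) (nat_lit 0) (nat_lit 0) (XT.nd (nat_lit 390) (nat_lit 0) (nat_lit 0) (XT.nd (nat_lit 156) (nat_lit 0) (nat_lit 0) (XT.nd (nat_lit 78) (nat_lit 0) (nat_lit 0) (XT.lf (nat_lit 0) (nat_lit 36030305403) (nat_lit 152) (nat_lit 72449029858) (nat_lit 0) (nat_lit 32158261792) (nat_lit 2) (nat_lit 5) (nat_lit 4) (nat_lit 4) (nat_lit 2) (nat_lit 4) (nat_lit 400) (nat_lit 269) (nat_lit 231)) (XT.lf (nat_lit 0) (nat_lit 40377909142) (nat_lit 152) (nat_lit 70680587011) (nat_lit 0) (nat_lit 36471628449) (nat_lit 2) (nat_lit 5) (nat_lit 4) (nat_lit 4) (nat_lit 2) (nat_lit 4) (nat_lit 401) (nat_lit 269) (nat_lit 230))) (XT.nd (nat_lit 78) (nat_lit 0) (nat_lit 0) (XT.lf (nat_lit 0) (nat_lit 44911943555) (nat_lit 152) (nat_lit 68883832693) (nat_lit 0) (nat_lit 40973056116) (nat_lit 2) (nat_lit 5) (nat_lit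 4) (nat_lit 4) (nat_lit 2) (nat_lit 4) (nat_lit 402) (nat_lit 269) (nat_lit 229)) (XT.nd (nat_lit 78) (nat_lit 0) (nat_lit 0) (XT.lf (nat_lit 0) (nat_lit 49643203960) (nat_lit 152) (nat_lit 67054488918) (nat_lit 0) (nat_lit 45673262479) (nat_lit 2) (nat_lit 5) (nat_lit 4) (nat_lit 4) (nat_lit 2) (nat_lit 4) (nat_lit 403) (nat_lit 269) (nat_lit 228)) (XT.lf (nat_lit 0) (nat_lit 54582955264) (nat_lit 152) (nat_lit 65188200104) (nat_lit 0) (nat_lit 50583438504) (nat_lit 2) (nat_lit 5) (nat_lit 4) (nat_lit 4) (nat_lit 2) (nat_lit 4) (nat_lit 404) (nat_lit 269) (nat_lit 227))))) (XT.nd (nat_lit 234) (nat_lit 0) (nat_lit 0) (XT.nd (nat_lit 78) (nat_lit 0) (nat_lit 0) (XT.lf (nat_lit 0) (nat_lit 59742958780) (nat_lit 152) (nat_lit 63280522709) (nat_lit 0) (nat_lit 55715275087) (nat_lit 2) (nat_lit 5) (nat_lit 4) (nat_lit 4) (nat_lit 2) (nat_lit 4) (nat_lit 405) (nat_lit 269) (nat_lit 226)) (XT.nd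 (nat_lit 78) (nat_lit 0) (nat_lit 0) (XT.lf (nat_lit 0) (nat_lit 65135500230) (nat_lit 152) (nat_lit 61326914642) (nat_lit 0) (nat_lit 61080990887) (nat_lit 2) (nat_lit 5) (nat_lit 4) (nat_lit 4) (nat_lit 2) (nat_lit 4) (nat_lit 406) (nat_lit 269) (nat_lit 225)) (XT.lf (nat_lit 0) (nat_lit 70773418998) (nat_lit 152) (nat_lit 59322724456) (nat_lit 0) (nat_lit 66693361417) (nat_lit 2) (nat_lit 5) (nat_lit 4) (nat_lit 4) (nat_lit 2) (nat_lit 4) (nat_lit 407) (nat_lit 269) (nat_lit 224)))) (XT.nd (nat_lit 78) (nat_lit 0) (nat_lit 0) (XT.lf (nat_lit 0) (nat_lit 76670138700) (nat_lit 152) (nat_lit 57263180269) (nat_lit 0) (nat_lit 72565749465) (nat_lit 2) (nat_lit 5) (nat_lit 4) (nat_lit 4) (nat_lit 2) (nat_lit 4) (nat_lit 408) (nat_lit 269) (nat_lit 223)) (XT.nd (nat_lit 78) (nat_lit 0) (nat_lit 0) (XT.lf (nat_lit 0) (nat_lit 82839699146) (nat_lit 152) (nat_lit 55143378404) (nat_lit 0) (nat_lit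 78712136906) (nat_lit 2) (nat_lit 5) (nat_lit 4) (nat_lit 4) (nat_lit 2) (nat_lit 4) (nat_lit 409) (nat_lit 269) (nat_lit 222)) (XT.lf (nat_lit 0) (nat_lit 89296789766) (nat_lit 152) (nat_lit 52958271715) (nat_lit 0) (nat_lit 85147157996) (nat_lit 2) (nat_lit 5) (nat_lit 4) (nat_lit 4) (nat_lit 2) (nat_lit 4) (nat_lit 410) (nat_lit 269) (nat_lit 221)))))) (XT.nd (nat_lit 468) (nat_lit 0) (nat_lit 0) (XT.nd (nat_lit 234) (nat_lit 0) (nat_lit 0) (XT.nd (nat_lit 78) (nat_lit 0) (nat_lit 0) (XT.lf (nat_lit 0) (nat_lit 96056784583) (nat_lit 152) (nat_lit 50702657567) (nat_lit 0) (nat_lit 91886134215) (nat_lit 2) (nat_lit 5) (nat_lit 4) (nat_lit 4) (nat_lit 2) (nat_lit 4) (nat_lit 411) (nat_lit 269) (nat_lit 220)) (XT.nd (nat_lit 78) (nat_lit 0) (nat_lit 0) (XT.lf (nat_lit 0) (nat_lit 103135778825) (nat_lit 152) (nat_lit 48371165449) (nat_lit 0) (nat_lit 98945110744) (nat_lit 2) (nat_lit 5)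 (nat_lit 4) (nat_lit 4) (nat_lit 2) (nat_lit 4) (nat_lit 412) (nat_lit 269) (nat_lit 219)) (XT.lf (nat_lit 0) (nat_lit 110550627238) (nat_lit 152) (nat_lit 45958244189) (nat_lit 0) (nat_lit 106340894669) (nat_lit 2) (nat_lit 5) (nat_lit 4) (nat_lit 4) (nat_lit 2) (nat_lit 4) (nat_lit 413) (nat_lit 269) (nat_lit 218)))) (XT.nd (nat_lit 78) (nat_lit 0) (nat_lit 0) (XT.lf (nat_lit 0) (nat_lit 118318984225) (nat_lit 152) (nat_lit 43458148738) (nat_lit 0) (nat_lit 114091095000) (nat_lit 2) (nat_lit 5) (nat_lit 4) (nat_lit 4) (nat_lit 2) (nat_lit 4) (nat_lit 414) (nat_lit 269) (nat_lit 217)) (XT.nd (nat_lit 78) (nat_lit 0) (nat_lit 0) (XT.lf (nat_lit 0) (nat_lit 126459345874) (nat_lit 152) (nat_lit 40864926487) (nat_lit 0) (nat_lit 122214164596) (nat_lit 2) (nat_lit 5) (nat_lit 4) (nat_lit 4) (nat_lit 2) (nat_lit 4) (nat_lit 415) (nat_lit 269) (nat_lit 216)) (XT.lf (nat_lit 0) (nat_lit 134991093997)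 (nat_lit 152) (nat_lit 38172403098) (nat_lit 0) (nat_lit 130729444097) (nat_lit 2) (nat_lit 5) (nat_lit 4) (nat_lit 4) (nat_lit 2) (nat_lit 4) (nat_lit 416) (nat_lit 269) (nat_lit 215))))) (XT.nd (nat_lit 234) (nat_lit 0) (nat_lit 0) (XT.nd (nat_lit 78) (nat_lit 0) (nat_lit 0) (XT.lf (nat_lit 0) (nat_lit 143934542281) (nat_lit 152) (nat_lit 35374167799) (nat_lit 0) (nat_lit 139657207979) (nat_lit 2) (nat_lit 5) (nat_lit 4) (nat_lit 4) (nat_lit 2) (nat_lit 4) (nat_lit 417) (nat_lit 269) (nat_lit 214)) (XT.nd (nat_lit 78) (nat_lit 0) (nat_lit 0) (XT.lf (nat_lit 0) (nat_lit 153310984650) (nat_lit 152) (nat_lit 32463558127) (nat_lit 0) (nat_lit 149018712822) (nat_lit 2) (nat_lit 5) (nat_lit 4) (nat_lit 4) (nat_lit 2) (nat_lit 4) (nat_lit 418) (nat_lit 269) (nat_lit 213)) (XT.lf (nat_lit 0) (nat_lit 163142745967) (nat_lit 152) (nat_lit 29433644058) (nat_lit 0) (nat_lit 158836247925) (nat_lit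 2) (nat_lit 5) (nat_lit 4) (nat_lit 4) (nat_lit 2) (nat_lit 4) (nat_lit 419) (nat_lit 269) (nat_lit 212)))) (XT.nd (nat_lit 78) (nat_lit 0) (nat_lit 0) (XT.lf (nat_lit 0) (nat_lit 173453235188) (nat_lit 152) (nat_lit 26277211512) (nat_lit 0) (nat_lit 169133188369) (nat_lit 2) (nat_lit 5) (nat_lit 4) (nat_lit 4) (nat_lit 2) (nat_lit 4) (nat_lit 420) (nat_lit 269) (nat_lit 211)) (XT.nd (nat_lit 78) (nat_lit 0) (nat_lit 0) (XT.lf (nat_lit 0) (nat_lit 184267001096) (nat_lit 152) (nat_lit 22986745172) (nat_lit 0) (nat_lit 179934050681) (nat_lit 2) (nat_lit 5) (nat_lit 4) (nat_lit 4) (nat_lit 2) (nat_lit 4) (nat_lit 421) (nat_lit 269) (nat_lit 210)) (XT.lf (nat_lit 0) (nat_lit 195609790753) (nat_lit 152) (nat_lit 19554410594) (nat_lit 0) (nat_lit 191264551199) (nat_lit 2) (nat_lit 5) (nat_lit 4) (nat_lit 4) (nat_lit 2) (nat_lit 4) (nat_lit 422) (nat_lit 269) (nat_lit 209))))))) (XT.nd (nat_lit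 858) (nat_lit 0) (nat_lit 0) (XT.nd (nat_lit 390) (nat_lit 0) (nat_lit 0) (XT.nd (nat_lit 156) (nat_lit 76) (nat_lit 0) (XT.nd (nat_lit 78) (nat_lit 0) (nat_lit 0) (XT.lf (nat_lit 0) (nat_lit 207508610801) (nat_lit 152) (nat_lit 15972035555) (nat_lit 0) (nat_lit 203151667305) (nat_lit 2) (nat_lit 5) (nat_lit 4) (nat_lit 4) (nat_lit 2) (nat_lit 4) (nat_lit 423) (nat_lit 269) (nat_lit 208)) (XT.lf (nat_lit 0) (nat_lit 219991791765) (nat_lit 152) (nat_lit 12231090589) (nat_lit 0) (nat_lit 215623701657) (nat_lit 2) (nat_lit 5) (nat_lit 4) (nat_lit 4) (nat_lit 2) (nat_lit 4) (nat_lit 424) (nat_lit 269) (nat_lit 207))) (XT.nd (nat_lit 78) (nat_lit 76) (nat_lit 0) (XT.lf (nat_lit 0) (nat_lit 233089055503) (nat_lit 152) (nat_lit 8322668684) (nat_lit 0) (nat_lit 228710349575) (nat_lit 2) (nat_lit 5) (nat_lit 4) (nat_lit 4) (nat_lit 2) (nat_lit 4) (nat_lit 425) (nat_lit 269) (nat_lit 206)) (XT.nd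 (nat_lit 78) (nat_lit 76) (nat_lit 0) (XT.lf (nat_lit 0) (nat_lit 246831585977) (nat_lit 152) (nat_lit 4237464075) (nat_lit 0) (nat_lit 242442769743) (nat_lit 2) (nat_lit 5) (nat_lit 4) (nat_lit 4) (nat_lit 2) (nat_lit 4) (nat_lit 426) (nat_lit 269) (nat_lit 205)) (XT.lf (nat_lit 0) (nat_lit 35382373) (nat_lit 76) (nat_lit 261217273541) (nat_lit 76) (nat_lit 256818828446) (nat_lit 1) (nat_lit 4) (nat_lit 2) (nat_lit 5) (nat_lit 2) (nat_lit 4) (nat_lit 427) (nat_lit 269) (nat_lit 204))))) (XT.nd (nat_lit 234) (nat_lit 0) (nat_lit 0) (XT.nd (nat_lit 78) (nat_lit 0) (nat_lit 0) (XT.lf (nat_lit 0) (nat_lit 4651521784) (nat_lit 76) (nat_lit 271806044135) (nat_lit 76) (nat_lit 267398428694) (nat_lit 1) (nat_lit 4) (nat_lit 2) (nat_lit 5) (nat_lit 2) (nat_lit 4) (nat_lit 428) (nat_lit 269) (nat_lit 203)) (XT.nd (nat_lit 78) (nat_lit 0) (nat_lit 0) (XT.lf (nat_lit 0) (nat_lit 9481835268) (nat_lit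 76) (nat_lit 282932336696) (nat_lit 76) (nat_lit 278515987593) (nat_lit 1) (nat_lit 4) (nat_lit 2) (nat_lit 5) (nat_lit 2) (nat_lit 4) (nat_lit 429) (nat_lit 269) (nat_lit 202)) (XT.lf (nat_lit 0) (nat_lit 14537823569) (nat_lit 76) (nat_lit 294622642396) (nat_lit 76) (nat_lit 290197975521) (nat_lit 1) (nat_lit 4) (nat_lit 2) (nat_lit 5) (nat_lit 2) (nat_lit 4) (nat_lit 430) (nat_lit 269) (nat_lit 201)))) (XT.nd (nat_lit 78) (nat_lit 0) (nat_lit 0) (XT.lf (nat_lit 0) (nat_lit 19831524756) (nat_lit 76) (nat_lit 306904795298) (nat_lit 76) (nat_lit 302472206734) (nat_lit 1) (nat_lit 4) (nat_lit 2) (nat_lit 5) (nat_lit 2) (nat_lit 4) (nat_lit 431) (nat_lit 269) (nat_lit 200)) (XT.nd (nat_lit 78) (nat_lit 0) (nat_lit 0) (XT.lf (nat_lit 0) (nat_lit 25375542878) (nat_lit 76) (nat_lit 319808038622) (nat_lit 76) (nat_lit 315367905592) (nat_lit 1) (nat_lit 4) (nat_lit 2) (nat_lit 5) (nat_lit 2) (nat_lit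 4) (nat_lit 432) (nat_lit 269) (nat_lit 199)) (XT.lf (nat_lit 0) (nat_lit 31183077979) (nat_lit 76) (nat_lit 333363094376) (nat_lit 76) (nat_lit 328915776141) (nat_lit 1) (nat_lit 4) (nat_lit 2) (nat_lit 5) (nat_lit 2) (nat_lit 4) (nat_lit 433) (nat_lit 269) (nat_lit 198)))))) (XT.nd (nat_lit 41340) (nat_lit 0) (nat_lit 532) (XT.nd (nat_lit 41106) (nat_lit 0) (nat_lit 684) (XT.nd (nat_lit 78) (nat_lit 0) (nat_lit 0) (XT.lf (nat_lit 0) (nat_lit 37267957524) (nat_lit 76) (nat_lit 347602236503) (nat_lit 76) (nat_lit 343148075216) (nat_lit 1) (nat_lit 4) (nat_lit 2) (nat_lit 5) (nat_lit 2) (nat_lit 4) (nat_lit 434) (nat_lit 269) (nat_lit 197)) (XT.nd (nat_lit 78) (nat_lit 0) (nat_lit 0) (XT.lf (nat_lit 0) (nat_lit 43644669321) (nat_lit 76) (nat_lit 362559367722) (nat_lit 76) (nat_lit 358098689241) (nat_lit 1) (nat_lit 4) (nat_lit 2) (nat_lit 5) (nat_lit 2) (nat_lit 4) (nat_lit 435) (nat_lit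 269) (nat_lit 196)) (XT.lf (nat_lit 0) (nat_lit 50328396017) (nat_lit 76) (nat_lit 378270100250) (nat_lit 76) (nat_lit 373803214919) (nat_lit 1) (nat_lit 4) (nat_lit 2) (nat_lit 5) (nat_lit 2) (nat_lit 4) (nat_lit 436) (nat_lit 269) (nat_lit 195)))) (XT.nd (nat_lit 78) (nat_lit 76) (nat_lit 0) (XT.lf (nat_lit 0) (nat_lit 1735537934) (nat_lit 152) (nat_lit 8283604682) (nat_lit 0) (nat_lit 1735537934) (nat_lit 11) (nat_lit 5) (nat_lit 13) (nat_lit 4) (nat_lit 11) (nat_lit 4) (nat_lit 360) (nat_lit 270) (nat_lit 270)) (XT.nd (nat_lit 78) (nat_lit 76) (nat_lit 0) (XT.lf (nat_lit 0) (nat_lit 8375073852) (nat_lit 152) (nat_lit 7948374875) (nat_lit 0) (nat_lit 8109339740) (nat_lit 11) (nat_lit 5) (nat_lit 13) (nat_lit 4) (nat_lit 11) (nat_lit 4) (nat_lit 361) (nat_lit 270) (nat_lit 269)) (XT.lf (nat_lit 0) (nat_lit 830489885) (nat_lit 76) (nat_lit 12548999993) (nat_lit 76) (nat_lit 12030185775)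 (nat_lit 10) (nat_lit 4) (nat_lit 11) (nat_lit 5) (nat_lit 11) (nat_lit 4) (nat_lit 362) (nat_lit 270) (nat_lit 268))))) (XT.nd (nat_lit 234) (nat_lit 0) (nat_lit 0) (XT.nd (nat_lit 78) (nat_lit 152) (nat_lit 0) (XT.lf (nat_lit 0) (nat_lit 10031553461) (nat_lit 76) (nat_lit 8582376731) (nat_lit 76) (nat_lit 7822533840) (nat_lit 10) (nat_lit 4) (nat_lit 11) (nat_lit 5) (nat_lit 11) (nat_lit 4) (nat_lit 363) (nat_lit 270) (nat_lit 267)) (XT.nd (nat_lit 78) (nat_lit 152) (nat_lit 0) (XT.lf (nat_lit 0) (nat_lit 19413913977) (nat_lit 76) (nat_lit 4548744176) (nat_lit 76) (nat_lit 3559350168) (nat_lit 10) (nat_lit 4) (nat_lit 11) (nat_lit 5) (nat_lit 11) (nat_lit 4) (nat_lit 364) (nat_lit 270) (nat_lit 266)) (XT.lf (nat_lit 0) (nat_lit 329550622) (nat_lit 76) (nat_lit 420480958) (nat_lit 152) (nat_lit 27918003587) (nat_lit 8) (nat_lit 5) (nat_lit 9) (nat_lit 5) (nat_lit 10) (nat_lit 4) (nat_lit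 365) (nat_lit 270) (nat_lit 265)))) (XT.nd (nat_lit 78) (nat_lit 0) (nat_lit 0) (XT.lf (nat_lit 0) (nat_lit 5213868269) (nat_lit 152) (nat_lit 20786602349) (nat_lit 0) (nat_lit 3865083746) (nat_lit 8) (nat_lit 5) (nat_lit 10) (nat_lit 4) (nat_lit 8) (nat_lit 4) (nat_lit 366) (nat_lit 270) (nat_lit 264)) (XT.nd (nat_lit 78) (nat_lit 0) (nat_lit 0) (XT.lf (nat_lit 0) (nat_lit 9772481577) (nat_lit 152) (nat_lit 13122080754) (nat_lit 0) (nat_lit 8234844782) (nat_lit 8) (nat_lit 5) (nat_lit 10) (nat_lit 4) (nat_lit 8) (nat_lit 4) (nat_lit 367) (nat_lit 270) (nat_lit 263)) (XT.lf (nat_lit 0) (nat_lit 14430160461) (nat_lit 152) (nat_lit 5320106014) (nat_lit 0) (nat_lit 12712664359) (nat_lit 8) (nat_lit 5) (nat_lit 10) (nat_lit 4) (nat_lit 8) (nat_lit 4) (nat_lit 368) (nat_lit 270) (nat_lit 262))))))))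
noncomputable def xc32 : XT := (XT.nd (nat_lit 1716) (nat_lit 152) (nat_lit 0) (XT.nd (nat_lit 858) (nat_lit 76) (nat_lit 0) (XT.nd (nat_lit 390) (nat_lit 152) (nat_lit 0) (XT.nd (nat_lit 156) (nat_lit 0) (nat_lit 0) (XT.nd (nat_lit 78) (nat_lit 0) (nat_lit 0) (XT.lf (nat_lit 0) (nat_lit 2725118823) (nat_lit 76) (nat_lit 16515422549) (nat_lit 76) (nat_lit 14626631870) (nat_lit 7) (nat_lit 4) (nat_lit 8) (nat_lit 5) (nat_lit 8) (nat_lit 4) (nat_lit 369) (nat_lit 270) (nat_lit 261)) (XT.lf (nat_lit 0) (nat_lit 11127012823) (nat_lit 76) (nat_lit 13134047104) (nat_lit 76) (nat_lit 11082118732) (nat_lit 7) (nat_lit 4) (nat_lit 8) (nat_lit 5) (nat_lit 8) (nat_lit 4) (nat_lit 370) (nat_lit 270) (nat_lit 260))) (XT.nd (nat_lit 78) (nat_lit 0) (nat_lit 0) (XT.lf (nat_lit 0) (nat_lit 19729673763) (nat_lit 76) (nat_lit 9688187816) (nat_lit 76) (nat_lit 7480890211) (nat_lit 7) (nat_lit 4) (nat_lit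 8) (nat_lit 5) (nat_lit 8) (nat_lit 4) (nat_lit 371) (nat_lit 270) (nat_lit 259)) (XT.nd (nat_lit 78) (nat_lit 0) (nat_lit 0) (XT.lf (nat_lit 0) (nat_lit 28553584170) (nat_lit 76) (nat_lit 6169640256) (nat_lit 76) (nat_lit 3814371955) (nat_lit 7) (nat_lit 4) (nat_lit 8) (nat_lit 5) (nat_lit 8) (nat_lit 4) (nat_lit 372) (nat_lit 270) (nat_lit 258)) (XT.lf (nat_lit 0) (nat_lit 37619753355) (nat_lit 76) (nat_lit 2570026931) (nat_lit 76) (nat_lit 73834157) (nat_lit 7) (nat_lit 4) (nat_lit 8) (nat_lit 5) (nat_lit 8) (nat_lit 4) (nat_lit 373) (nat_lit 270) (nat_lit 257))))) (XT.nd (nat_lit 234) (nat_lit 0) (nat_lit 0) (XT.nd (nat_lit 78) (nat_lit 0) (nat_lit 0) (XT.lf (nat_lit 0) (nat_lit 3726909118) (nat_lit 152) (nat_lit 37124454724) (nat_lit 0) (nat_lit 1221760016) (nat_lit 5) (nat_lit 5) (nat_lit 7) (nat_lit 4) (nat_lit 5) (nat_lit 4) (nat_lit 374) (nat_lit 270) (nat_lit 256)) (XT.nd (nat_lit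 78) (nat_lit 0) (nat_lit 0) (XT.lf (nat_lit 0) (nat_lit 7702498846) (nat_lit 152) (nat_lit 31195594707) (nat_lit 0) (nat_lit 5075613885) (nat_lit 5) (nat_lit 5) (nat_lit 7) (nat_lit 4) (nat_lit 5) (nat_lit 4) (nat_lit 375) (nat_lit 270) (nat_lit 255)) (XT.lf (nat_lit 0) (nat_lit 11781296560) (nat_lit 152) (nat_lit 25154352135) (nat_lit 0) (nat_lit 9038472686) (nat_lit 5) (nat_lit 5) (nat_lit 7) (nat_lit 4) (nat_lit 5) (nat_lit 4) (nat_lit 376) (nat_lit 270) (nat_lit 254)))) (XT.nd (nat_lit 78) (nat_lit 0) (nat_lit 0) (XT.lf (nat_lit 0) (nat_lit 15973013685) (nat_lit 152) (nat_lit 18986343098) (nat_lit 0) (nat_lit 13119771799) (nat_lit 5) (nat_lit 5) (nat_lit 7) (nat_lit 4) (nat_lit 5) (nat_lit 4) (nat_lit 377) (nat_lit 270) (nat_lit 253)) (XT.nd (nat_lit 78) (nat_lit 0) (nat_lit 0) (XT.lf (nat_lit 0) (nat_lit 20287630500) (nat_lit 152) (nat_lit 12676881860) (nat_lit 0) (nat_lit 17329228602)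 (nat_lit 5) (nat_lit 5) (nat_lit 7) (nat_lit 4) (nat_lit 5) (nat_lit 4) (nat_lit 378) (nat_lit 270) (nat_lit 252)) (XT.lf (nat_lit 0) (nat_lit 24735419900) (nat_lit 152) (nat_lit 6210945895) (nat_lit 0) (nat_lit 21676865611) (nat_lit 5) (nat_lit 5) (nat_lit 7) (nat_lit 4) (nat_lit 5) (nat_lit 4) (nat_lit 379) (nat_lit 270) (nat_lit 251)))))) (XT.nd (nat_lit 390) (nat_lit 0) (nat_lit 0) (XT.nd (nat_lit 156) (nat_lit 0) (nat_lit 0) (XT.nd (nat_lit 78) (nat_lit 0) (nat_lit 0) (XT.lf (nat_lit 0) (nat_lit 440973799) (nat_lit 76) (nat_lit 28892882899) (nat_lit 76) (nat_lit 25738945379) (nat_lit 4) (nat_lit 4) (nat_lit 5) (nat_lit 5) (nat_lit 5) (nat_lit 4) (nat_lit 380) (nat_lit 270) (nat_lit 250)) (XT.lf (nat_lit 0) (nat_lit 7492134881) (nat_lit 76) (nat_lit 26698056992) (nat_lit 76) (nat_lit 23453278300) (nat_lit 4) (nat_lit 4) (nat_lit 5) (nat_lit 5) (nat_lit 5) (nat_lit 4) (nat_lit 381)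 (nat_lit 270) (nat_lit 249))) (XT.nd (nat_lit 78) (nat_lit 0) (nat_lit 0) (XT.lf (nat_lit 0) (nat_lit 14753963909) (nat_lit 76) (nat_lit 24461847671) (nat_lit 76) (nat_lit 21130553578) (nat_lit 4) (nat_lit 4) (nat_lit 5) (nat_lit 5) (nat_lit 5) (nat_lit 4) (nat_lit 382) (nat_lit 270) (nat_lit 248)) (XT.nd (nat_lit 78) (nat_lit 0) (nat_lit 0) (XT.lf (nat_lit 0) (nat_lit 22243750952) (nat_lit 76) (nat_lit 22178930630) (nat_lit 76) (nat_lit 18765240915) (nat_lit 4) (nat_lit 4) (nat_lit 5) (nat_lit 5) (nat_lit 5) (nat_lit 4) (nat_lit 383) (nat_lit 270) (nat_lit 247)) (XT.lf (nat_lit 0) (nat_lit 29979328835) (nat_lit 76) (nat_lit 19843870351) (nat_lit 76) (nat_lit 16351708616) (nat_lit 4) (nat_lit 4) (nat_lit 5) (nat_lit 5) (nat_lit 5) (nat_lit 4) (nat_lit 384) (nat_lit 270) (nat_lit 246))))) (XT.nd (nat_lit 234) (nat_lit 0) (nat_lit 0) (XT.nd (nat_lit 78) (nat_lit 0) (nat_lit 0) (XT.lf (nat_lit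 0) (nat_lit 37979115601) (nat_lit 76) (nat_lit 17451107166) (nat_lit 76) (nat_lit 13884210175) (nat_lit 4) (nat_lit 4) (nat_lit 5) (nat_lit 5) (nat_lit 5) (nat_lit 4) (nat_lit 385) (nat_lit 270) (nat_lit 245)) (XT.nd (nat_lit 78) (nat_lit 0) (nat_lit 0) (XT.lf (nat_lit 0) (nat_lit 46262158363) (nat_lit 76) (nat_lit 14994944022) (nat_lit 76) (nat_lit 11356870595) (nat_lit 4) (nat_lit 4) (nat_lit 5) (nat_lit 5) (nat_lit 5) (nat_lit 4) (nat_lit 386) (nat_lit 270) (nat_lit 244)) (XT.lf (nat_lit 0) (nat_lit 54848178650) (nat_lit 76) (nat_lit 12469532909) (nat_lit 76) (nat_lit 8763672402) (nat_lit 4) (nat_lit 4) (nat_lit 5) (nat_lit 5) (nat_lit 5) (nat_lit 4) (nat_lit 387) (nat_lit 270) (nat_lit 243)))) (XT.nd (nat_lit 78) (nat_lit 0) (nat_lit 0) (XT.lf (nat_lit 0) (nat_lit 63757619367) (nat_lit 76) (nat_lit 9868860945) (nat_lit 76) (nat_lit 6098441313) (nat_lit 4) (nat_lit 4) (nat_lit 5) (nat_lit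 5) (nat_lit 5) (nat_lit 4) (nat_lit 388) (nat_lit 270) (nat_lit 242)) (XT.nd (nat_lit 78) (nat_lit 0) (nat_lit 0) (XT.lf (nat_lit 0) (nat_lit 73011693469) (nat_lit 76) (nat_lit 7186736054) (nat_lit 76) (nat_lit 3354831541) (nat_lit 4) (nat_lit 4) (nat_lit 5) (nat_lit 5) (nat_lit 5) (nat_lit 4) (nat_lit 389) (nat_lit 270) (nat_lit 241)) (XT.lf (nat_lit 0) (nat_lit 82632434465) (nat_lit 76) (nat_lit 4416772223) (nat_lit 76) (nat_lit 526310681) (nat_lit 4) (nat_lit 4) (nat_lit 5) (nat_lit 5) (nat_lit 5) (nat_lit 4) (nat_lit 390) (nat_lit 270) (nat_lit 240))))))) (XT.nd (nat_lit 858) (nat_lit 0) (nat_lit 0) (XT.nd (nat_lit 390) (nat_lit 0) (nat_lit 0) (XT.nd (nat_lit 156) (nat_lit 0) (nat_lit 0) (XT.nd (nat_lit 78) (nat_lit 0) (nat_lit 0) (XT.lf (nat_lit 0) (nat_lit 830694139) (nat_lit 76) (nat_lit 1499512827) (nat_lit 152) (nat_lit 89468543166) (nat_lit 2) (nat_lit 5) (nat_lit 3) (nat_lit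 5) (nat_lit 4) (nat_lit 4) (nat_lit 391) (nat_lit 270) (nat_lit 239)) (XT.lf (nat_lit 0) (nat_lit 5373348332) (nat_lit 152) (nat_lit 89291850248) (nat_lit 0) (nat_lit 1564450148) (nat_lit 2) (nat_lit 5) (nat_lit 4) (nat_lit 4) (nat_lit 2) (nat_lit 4) (nat_lit 392) (nat_lit 270) (nat_lit 238))) (XT.nd (nat_lit 78) (nat_lit 0) (nat_lit 0) (XT.lf (nat_lit 0) (nat_lit 8547502416) (nat_lit 152) (nat_lit 87645227233) (nat_lit 0) (nat_lit 4690429219) (nat_lit 2) (nat_lit 5) (nat_lit 4) (nat_lit 4) (nat_lit 2) (nat_lit 4) (nat_lit 393) (nat_lit 270) (nat_lit 237)) (XT.nd (nat_lit 78) (nat_lit 0) (nat_lit 0) (XT.lf (nat_lit 0) (nat_lit 11836815130) (nat_lit 152) (nat_lit 86000854818) (nat_lit 0) (nat_lit 7933860968) (nat_lit 2) (nat_lit 5) (nat_lit 4) (nat_lit 4) (nat_lit 2) (nat_lit 4) (nat_lit 394) (nat_lit 270) (nat_lit 236)) (XT.lf (nat_lit 0) (nat_lit 15249118171) (nat_lit 152) (nat_lit 84354817831)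 (nat_lit 0) (nat_lit 11302467852) (nat_lit 2) (nat_lit 5) (nat_lit 4) (nat_lit 4) (nat_lit 2) (nat_lit 4) (nat_lit 395) (nat_lit 270) (nat_lit 235))))) (XT.nd (nat_lit 234) (nat_lit 0) (nat_lit 0) (XT.nd (nat_lit 78) (nat_lit 0) (nat_lit 0) (XT.lf (nat_lit 0) (nat_lit 18792536070) (nat_lit 152) (nat_lit 82703197137) (nat_lit 0) (nat_lit 14804270363) (nat_lit 2) (nat_lit 5) (nat_lit 4) (nat_lit 4) (nat_lit 2) (nat_lit 4) (nat_lit 396) (nat_lit 270) (nat_lit 234)) (XT.nd (nat_lit 78) (nat_lit 0) (nat_lit 0) (XT.lf (nat_lit 0) (nat_lit 22475505536) (nat_lit 152) (nat_lit 81042060305) (nat_lit 0) (nat_lit 18447606127) (nat_lit 2) (nat_lit 5) (nat_lit 4) (nat_lit 4) (nat_lit 2) (nat_lit 4) (nat_lit 397) (nat_lit 270) (nat_lit 233)) (XT.lf (nat_lit 0) (nat_lit 26306795545) (nat_lit 152) (nat_lit 79367452247) (nat_lit 0) (nat_lit 22241149753) (nat_lit 2) (nat_lit 5) (nat_lit 4) (nat_lit 4) (nat_lit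 2) (nat_lit 4) (nat_lit 398) (nat_lit 270) (nat_lit 232)))) (XT.nd (nat_lit 78) (nat_lit 0) (nat_lit 0) (XT.lf (nat_lit 0) (nat_lit 30295528214) (nat_lit 152) (nat_lit 77675385802) (nat_lit 0) (nat_lit 26193933486) (nat_lit 2) (nat_lit 5) (nat_lit 4) (nat_lit 4) (nat_lit 2) (nat_lit 4) (nat_lit 399) (nat_lit 270) (nat_lit 231)) (XT.nd (nat_lit 78) (nat_lit 0) (nat_lit 0) (XT.lf (nat_lit 0) (nat_lit 34451200528) (nat_lit 152) (nat_lit 75961832240) (nat_lit 0) (nat_lit 30315368718) (nat_lit 2) (nat_lit 5) (nat_lit 4) (nat_lit 4) (nat_lit 2) (nat_lit 4) (nat_lit 400) (nat_lit 270) (nat_lit 230)) (XT.lf (nat_lit 0) (nat_lit 38783706944) (nat_lit 152) (nat_lit 74222711672) (nat_lit 0) (nat_lit 34615268388) (nat_lit 2) (nat_lit 5) (nat_lit 4) (nat_lit 4) (nat_lit 2) (nat_lit 4) (nat_lit 401) (nat_lit 270) (nat_lit 229)))))) (XT.nd (nat_lit 468) (nat_lit 0) (nat_lit 0) (XT.nd (nat_lit 234) (nat_lit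 0) (nat_lit 0) (XT.nd (nat_lit 78) (nat_lit 0) (nat_lit 0) (XT.lf (nat_lit 0) (nat_lit 43303362952) (nat_lit 152) (nat_lit 72453883334) (nat_lit 0) (nat_lit 39103870354) (nat_lit 2) (nat_lit 5) (nat_lit 4) (nat_lit 4) (nat_lit 2) (nat_lit 4) (nat_lit 402) (nat_lit 270) (nat_lit 228)) (XT.nd (nat_lit 78) (nat_lit 0) (nat_lit 0) (XT.lf (nat_lit 0) (nat_lit 48020929640) (nat_lit 152) (nat_lit 70651135730) (nat_lit 0) (nat_lit 43791861762) (nat_lit 2) (nat_lit 5) (nat_lit 4) (nat_lit 4) (nat_lit 2) (nat_lit 4) (nat_lit 403) (nat_lit 270) (nat_lit 227)) (XT.lf (nat_lit 0) (nat_lit 52947639308) (nat_lit 152) (nat_lit 68810176604) (nat_lit 0) (nat_lit 48690404498) (nat_lit 2) (nat_lit 5) (nat_lit 4) (nat_lit 4) (nat_lit 2) (nat_lit 4) (nat_lit 404) (nat_lit 270) (nat_lit 226)))) (XT.nd (nat_lit 78) (nat_lit 0) (nat_lit 0) (XT.lf (nat_lit 0) (nat_lit 58095222218) (nat_lit 152) (nat_lit 66926622719)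 (nat_lit 0) (nat_lit 53811161758) (nat_lit 2) (nat_lit 5) (nat_lit 4) (nat_lit 4) (nat_lit 2) (nat_lit 4) (nat_lit 405) (nat_lit 270) (nat_lit 225)) (XT.nd (nat_lit 78) (nat_lit 0) (nat_lit 0) (XT.lf (nat_lit 0) (nat_lit 63475934519) (nat_lit 152) (nat_lit 64995989425) (nat_lit 0) (nat_lit 59166325822) (nat_lit 2) (nat_lit 5) (nat_lit 4) (nat_lit 4) (nat_lit 2) (nat_lit 4) (nat_lit 406) (nat_lit 270) (nat_lit 224)) (XT.lf (nat_lit 0) (nat_lit 69102587432) (nat_lit 152) (nat_lit 63013679975) (nat_lit 0) (nat_lit 64768647079) (nat_lit 2) (nat_lit 5) (nat_lit 4) (nat_lit 4) (nat_lit 2) (nat_lit 4) (nat_lit 407) (nat_lit 270) (nat_lit 223))))) (XT.nd (nat_lit 234) (nat_lit 0) (nat_lit 0) (XT.nd (nat_lit 78) (nat_lit 0) (nat_lit 0) (XT.lf (nat_lit 0) (nat_lit 74988577748) (nat_lit 152) (nat_lit 60974974584) (nat_lit 0) (nat_lit 70631464391) (nat_lit 2) (nat_lit 5) (nat_lit 4) (nat_lit 4) (nat_lit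 2) (nat_lit 4) (nat_lit 408) (nat_lit 270) (nat_lit 222)) (XT.nd (nat_lit 78) (nat_lit 0) (nat_lit 0) (XT.lf (nat_lit 0) (nat_lit 81147919731) (nat_lit 152) (nat_lit 58875019192) (nat_lit 0) (nat_lit 76768736845) (nat_lit 2) (nat_lit 5) (nat_lit 4) (nat_lit 4) (nat_lit 2) (nat_lit 4) (nat_lit 409) (nat_lit 270) (nat_lit 221)) (XT.lf (nat_lit 0) (nat_lit 87595278481) (nat_lit 152) (nat_lit 56708813905) (nat_lit 0) (nat_lit 83195076996) (nat_lit 2) (nat_lit 5) (nat_lit 4) (nat_lit 4) (nat_lit 2) (nat_lit 4) (nat_lit 410) (nat_lit 270) (nat_lit 220)))) (XT.nd (nat_lit 78) (nat_lit 0) (nat_lit 0) (XT.lf (nat_lit 0) (nat_lit 94346004851) (nat_lit 152) (nat_lit 54471201092) (nat_lit 0) (nat_lit 89925785653) (nat_lit 2) (nat_lit 5) (nat_lit 4) (nat_lit 4) (nat_lit 2) (nat_lit 4) (nat_lit 411) (nat_lit 270) (nat_lit 219)) (XT.nd (nat_lit 78) (nat_lit 0) (nat_lit 0) (XT.lf (nat_lit 0) (nat_lit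 101416172000) (nat_lit 152) (nat_lit 52156853103) (nat_lit 0) (nat_lit 96976888314) (nat_lit 2) (nat_lit 5) (nat_lit 4) (nat_lit 4) (nat_lit 2) (nat_lit 4) (nat_lit 412) (nat_lit 270) (nat_lit 218)) (XT.lf (nat_lit 0) (nat_lit 108822613659) (nat_lit 152) (nat_lit 49760259586) (nat_lit 0) (nat_lit 104365173317) (nat_lit 2) (nat_lit 5) (nat_lit 4) (nat_lit 4) (nat_lit 2) (nat_lit 4) (nat_lit 413) (nat_lit 270) (nat_lit 217))))))))
noncomputable def xc33 : XT := (XT.nd (nat_lit 42510) (nat_lit 0) (nat_lit 304) (XT.nd (nat_lit 858) (nat_lit 76) (nat_lit 0) (XT.nd (nat_lit 390) (nat_lit 0) (nat_lit 0) (XT.nd (nat_lit 156) (nat_lit 0) (nat_lit 0) (XT.nd (nat_lit 78) (nat_lit 0) (nat_lit 0) (XT.lf (nat_lit 0) (nat_lit 116582964213) (nat_lit 152) (nat_lit 47275714366) (nat_lit 0) (nat_lit 112108231818) (nat_lit 2) (nat_lit 5) (nat_lit 4) (nat_lit 4) (nat_lit 2) (nat_lit 4) (nat_lit 414) (nat_lit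 270) (nat_lit 216)) (XT.lf (nat_lit 0) (nat_lit 124715700687) (nat_lit 152) (nat_lit 44697301858) (nat_lit 0) (nat_lit 120224499670) (nat_lit 2) (nat_lit 5) (nat_lit 4) (nat_lit 4) (nat_lit 2) (nat_lit 4) (nat_lit 415) (nat_lit 270) (nat_lit 215))) (XT.nd (nat_lit 78) (nat_lit 0) (nat_lit 0) (XT.lf (nat_lit 0) (nat_lit 133240186739) (nat_lit 152) (nat_lit 42018882986) (nat_lit 0) (nat_lit 128733301320) (nat_lit 2) (nat_lit 5) (nat_lit 4) (nat_lit 4) (nat_lit 2) (nat_lit 4) (nat_lit 416) (nat_lit 270) (nat_lit 214)) (XT.nd (nat_lit 78) (nat_lit 0) (nat_lit 0) (XT.lf (nat_lit 0) (nat_lit 142176718765) (nat_lit 152) (nat_lit 39234080561) (nat_lit 0) (nat_lit 137654895820) (nat_lit 2) (nat_lit 5) (nat_lit 4) (nat_lit 4) (nat_lit 2) (nat_lit 4) (nat_lit 417) (nat_lit 270) (nat_lit 213)) (XT.lf (nat_lit 0) (nat_lit 151546574221) (nat_lit 152) (nat_lit 36336264102) (nat_lit 0) (nat_lit 147010525062)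 (nat_lit 2) (nat_lit 5) (nat_lit 4) (nat_lit 4) (nat_lit 2) (nat_lit 4) (nat_lit 418) (nat_lit 270) (nat_lit 212))))) (XT.nd (nat_lit 234) (nat_lit 0) (nat_lit 0) (XT.nd (nat_lit 78) (nat_lit 0) (nat_lit 0) (XT.lf (nat_lit 0) (nat_lit 161372062289) (nat_lit 152) (nat_lit 33318534046) (nat_lit 0) (nat_lit 156822464353) (nat_lit 2) (nat_lit 5) (nat_lit 4) (nat_lit 4) (nat_lit 2) (nat_lit 4) (nat_lit 419) (nat_lit 270) (nat_lit 211)) (XT.nd (nat_lit 78) (nat_lit 0) (nat_lit 0) (XT.lf (nat_lit 0) (nat_lit 171676576986) (nat_lit 152) (nat_lit 30173705320) (nat_lit 0) (nat_lit 167114075454) (nat_lit 2) (nat_lit 5) (nat_lit 4) (nat_lit 4) (nat_lit 2) (nat_lit 4) (nat_lit 420) (nat_lit 270) (nat_lit 210)) (XT.lf (nat_lit 0) (nat_lit 182484652871) (nat_lit 152) (nat_lit 26894290239) (nat_lit 0) (nat_lit 177909862200) (nat_lit 2) (nat_lit 5) (nat_lit 4) (nat_lit 4) (nat_lit 2) (nat_lit 4) (nat_lit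 421) (nat_lit 270) (nat_lit 209)))) (XT.nd (nat_lit 78) (nat_lit 0) (nat_lit 0) (XT.lf (nat_lit 0) (nat_lit 193822023459) (nat_lit 152) (nat_lit 23472480670) (nat_lit 0) (nat_lit 189235528846) (nat_lit 2) (nat_lit 5) (nat_lit 4) (nat_lit 4) (nat_lit 2) (nat_lit 4) (nat_lit 422) (nat_lit 270) (nat_lit 208)) (XT.nd (nat_lit 78) (nat_lit 0) (nat_lit 0) (XT.lf (nat_lit 0) (nat_lit 205715682490) (nat_lit 152) (nat_lit 19900129448) (nat_lit 0) (nat_lit 201118041265) (nat_lit 2) (nat_lit 5) (nat_lit 4) (nat_lit 4) (nat_lit 2) (nat_lit 4) (nat_lit 423) (nat_lit 270) (nat_lit 207)) (XT.lf (nat_lit 0) (nat_lit 218193948198) (nat_lit 152) (nat_lit 16168730974) (nat_lit 0) (nat_lit 213585691152) (nat_lit 2) (nat_lit 5) (nat_lit 4) (nat_lit 4) (nat_lit 2) (nat_lit 4) (nat_lit 424) (nat_lit 270) (nat_lit 206)))))) (XT.nd (nat_lit 468) (nat_lit 0) (nat_lit 0) (XT.nd (nat_lit 234) (nat_lit 76) (nat_lit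 0) (XT.nd (nat_lit 78) (nat_lit 0) (nat_lit 0) (XT.lf (nat_lit 0) (nat_lit 231286530740) (nat_lit 152) (nat_lit 12269400967) (nat_lit 0) (nat_lit 226668163389) (nat_lit 2) (nat_lit 5) (nat_lit 4) (nat_lit 4) (nat_lit 2) (nat_lit 4) (nat_lit 425) (nat_lit 270) (nat_lit 205)) (XT.nd (nat_lit 78) (nat_lit 0) (nat_lit 0) (XT.lf (nat_lit 0) (nat_lit 245024602932) (nat_lit 152) (nat_lit 8192855308) (nat_lit 0) (nat_lit 240396606719) (nat_lit 2) (nat_lit 5) (nat_lit 4) (nat_lit 4) (nat_lit 2) (nat_lit 4) (nat_lit 426) (nat_lit 270) (nat_lit 204)) (XT.lf (nat_lit 0) (nat_lit 259440874470) (nat_lit 152) (nat_lit 3929387935) (nat_lit 0) (nat_lit 254803707912) (nat_lit 2) (nat_lit 5) (nat_lit 4) (nat_lit 4) (nat_lit 2) (nat_lit 4) (nat_lit 427) (nat_lit 270) (nat_lit 203)))) (XT.nd (nat_lit 78) (nat_lit 0) (nat_lit 0) (XT.lf (nat_lit 0) (nat_lit 548714555) (nat_lit 76) (nat_lit 274029522225) (nat_lit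 76) (nat_lit 269383622006) (nat_lit 1) (nat_lit 4) (nat_lit 2) (nat_lit 5) (nat_lit 2) (nat_lit 4) (nat_lit 428) (nat_lit 270) (nat_lit 202)) (XT.nd (nat_lit 78) (nat_lit 0) (nat_lit 0) (XT.lf (nat_lit 0) (nat_lit 5371300791) (nat_lit 76) (nat_lit 285159570158) (nat_lit 76) (nat_lit 280505352165) (nat_lit 1) (nat_lit 4) (nat_lit 2) (nat_lit 5) (nat_lit 2) (nat_lit 4) (nat_lit 429) (nat_lit 270) (nat_lit 201)) (XT.lf (nat_lit 0) (nat_lit 10419929810) (nat_lit 76) (nat_lit 296853452403) (nat_lit 76) (nat_lit 292191312721) (nat_lit 1) (nat_lit 4) (nat_lit 2) (nat_lit 5) (nat_lit 2) (nat_lit 4) (nat_lit 430) (nat_lit 270) (nat_lit 200))))) (XT.nd (nat_lit 234) (nat_lit 0) (nat_lit 0) (XT.nd (nat_lit 78) (nat_lit 0) (nat_lit 0) (XT.lf (nat_lit 0) (nat_lit 15706622156) (nat_lit 76) (nat_lit 309139011537) (nat_lit 76) (nat_lit 304469327391) (nat_lit 1) (nat_lit 4) (nat_lit 2) (nat_lit 5) (nat_lit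 2) (nat_lit 4) (nat_lit 431) (nat_lit 270) (nat_lit 199)) (XT.nd (nat_lit 78) (nat_lit 0) (nat_lit 0) (XT.lf (nat_lit 0) (nat_lit 21243965192) (nat_lit 76) (nat_lit 322045498893) (nat_lit 76) (nat_lit 317368629541) (nat_lit 1) (nat_lit 4) (nat_lit 2) (nat_lit 5) (nat_lit 2) (nat_lit 4) (nat_lit 432) (nat_lit 270) (nat_lit 198)) (XT.lf (nat_lit 0) (nat_lit 27045143068) (nat_lit 76) (nat_lit 335603644201) (nat_lit 76) (nat_lit 330919931796) (nat_lit 1) (nat_lit 4) (nat_lit 2) (nat_lit 5) (nat_lit 2) (nat_lit 4) (nat_lit 433) (nat_lit 270) (nat_lit 197)))) (XT.nd (nat_lit 78) (nat_lit 0) (nat_lit 0) (XT.lf (nat_lit 0) (nat_lit 33123968113) (nat_lit 76) (nat_lit 349845728759) (nat_lit 76) (nat_lit 345155499162) (nat_lit 1) (nat_lit 4) (nat_lit 2) (nat_lit 5) (nat_lit 2) (nat_lit 4) (nat_lit 434) (nat_lit 270) (nat_lit 196)) (XT.nd (nat_lit 78) (nat_lit 0) (nat_lit 0) (XT.lf (nat_lit 0) (nat_lit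 39494913719) (nat_lit 76) (nat_lit 364805662294) (nat_lit 76) (nat_lit 360109225846) (nat_lit 1) (nat_lit 4) (nat_lit 2) (nat_lit 5) (nat_lit 2) (nat_lit 4) (nat_lit 435) (nat_lit 270) (nat_lit 195)) (XT.lf (nat_lit 0) (nat_lit 46173148805) (nat_lit 76) (nat_lit 380519063695) (nat_lit 76) (nat_lit 375816715961) (nat_lit 1) (nat_lit 4) (nat_lit 2) (nat_lit 5) (nat_lit 2) (nat_lit 4) (nat_lit 436) (nat_lit 270) (nat_lit 194))))))) (XT.nd (nat_lit 858) (nat_lit 228) (nat_lit 0) (XT.nd (nat_lit 390) (nat_lit 152) (nat_lit 0) (XT.nd (nat_lit 156) (nat_lit 228) (nat_lit 0) (XT.nd (nat_lit 78) (nat_lit 0) (nat_lit 0) (XT.lf (nat_lit 0) (nat_lit 5232508902) (nat_lit 76) (nat_lit 2832186013) (nat_lit 76) (nat_lit 2832186013) (nat_lit 13) (nat_lit 4) (nat_lit 14) (nat_lit 5) (nat_lit 14) (nat_lit 4) (nat_lit 358) (nat_lit 271) (nat_lit 271)) (XT.lf (nat_lit 0) (nat_lit 20238015232) (nat_lit 76)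 (nat_lit 1344482759) (nat_lit 76) (nat_lit 1051510901) (nat_lit 13) (nat_lit 4) (nat_lit 14) (nat_lit 5) (nat_lit 14) (nat_lit 4) (nat_lit 359) (nat_lit 271) (nat_lit 270))) (XT.nd (nat_lit 78) (nat_lit 76) (nat_lit 0) (XT.lf (nat_lit 0) (nat_lit 3669298863) (nat_lit 152) (nat_lit 16719583476) (nat_lit 0) (nat_lit 3124543934) (nat_lit 11) (nat_lit 5) (nat_lit 13) (nat_lit 4) (nat_lit 11) (nat_lit 4) (nat_lit 360) (nat_lit 271) (nat_lit 269)) (XT.nd (nat_lit 78) (nat_lit 76) (nat_lit 0) (XT.lf (nat_lit 0) (nat_lit 8496346539) (nat_lit 152) (nat_lit 8245867190) (nat_lit 0) (nat_lit 7698511503) (nat_lit 11) (nat_lit 5) (nat_lit 13) (nat_lit 4) (nat_lit 11) (nat_lit 4) (nat_lit 361) (nat_lit 271) (nat_lit 268)) (XT.lf (nat_lit 0) (nat_lit 380383545) (nat_lit 76) (nat_lit 13040065592) (nat_lit 76) (nat_lit 12001201883) (nat_lit 10) (nat_lit 4) (nat_lit 11) (nat_lit 5) (nat_lit 11) (nat_lit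 4) (nat_lit 362) (nat_lit 271) (nat_lit 267))))) (XT.nd (nat_lit 234) (nat_lit 76) (nat_lit 0) (XT.nd (nat_lit 78) (nat_lit 76) (nat_lit 0) (XT.lf (nat_lit 0) (nat_lit 9445468468) (nat_lit 76) (nat_lit 9137501778) (nat_lit 76) (nat_lit 7869086953) (nat_lit 10) (nat_lit 4) (nat_lit 11) (nat_lit 5) (nat_lit 11) (nat_lit 4) (nat_lit 363) (nat_lit 271) (nat_lit 266)) (XT.nd (nat_lit 78) (nat_lit 76) (nat_lit 0) (XT.lf (nat_lit 0) (nat_lit 18698325504) (nat_lit 76) (nat_lit 5164878221) (nat_lit 76) (nat_lit 3677843284) (nat_lit 10) (nat_lit 4) (nat_lit 11) (nat_lit 5) (nat_lit 11) (nat_lit 4) (nat_lit 364) (nat_lit 271) (nat_lit 265)) (XT.lf (nat_lit 0) (nat_lit 563864371) (nat_lit 152) (nat_lit 539322604) (nat_lit 76) (nat_lit 27587571579) (nat_lit 9) (nat_lit 5) (nat_lit 11) (nat_lit 5) (nat_lit 10) (nat_lit 4) (nat_lit 365) (nat_lit 271) (nat_lit 264)))) (XT.nd (nat_lit 78) (nat_lit 0) (nat_lit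 0) (XT.lf (nat_lit 0) (nat_lit 4942196680) (nat_lit 152) (nat_lit 21811548483) (nat_lit 0) (nat_lit 3138825773) (nat_lit 8) (nat_lit 5) (nat_lit 10) (nat_lit 4) (nat_lit 8) (nat_lit 4) (nat_lit 366) (nat_lit 271) (nat_lit 263)) (XT.nd (nat_lit 78) (nat_lit 0) (nat_lit 0) (XT.lf (nat_lit 0) (nat_lit 9437948969) (nat_lit 152) (nat_lit 14266916124) (nat_lit 0) (nat_lit 7454718755) (nat_lit 8) (nat_lit 5) (nat_lit 10) (nat_lit 4) (nat_lit 8) (nat_lit 4) (nat_lit 367) (nat_lit 271) (nat_lit 262)) (XT.lf (nat_lit 0) (nat_lit 14035760214) (nat_lit 152) (nat_lit 6579121608) (nat_lit 0) (nat_lit 11881235423) (nat_lit 8) (nat_lit 5) (nat_lit 10) (nat_lit 4) (nat_lit 8) (nat_lit 4) (nat_lit 368) (nat_lit 271) (nat_lit 261)))))) (XT.nd (nat_lit 468) (nat_lit 0) (nat_lit 0) (XT.nd (nat_lit 234) (nat_lit 152) (nat_lit 0) (XT.nd (nat_lit 78) (nat_lit 0) (nat_lit 0) (XT.lf (nat_lit 0) (nat_lit 1312135878)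 (nat_lit 76) (nat_lit 17454927826) (nat_lit 76) (nat_lit 15137265342) (nat_lit 7) (nat_lit 4) (nat_lit 8) (nat_lit 5) (nat_lit 8) (nat_lit 4) (nat_lit 369) (nat_lit 271) (nat_lit 260)) (XT.nd (nat_lit 78) (nat_lit 0) (nat_lit 0) (XT.lf (nat_lit 0) (nat_lit 9607040727) (nat_lit 76) (nat_lit 14124569419) (nat_lit 76) (nat_lit 11651537703) (nat_lit 7) (nat_lit 4) (nat_lit 8) (nat_lit 5) (nat_lit 8) (nat_lit 4) (nat_lit 370) (nat_lit 271) (nat_lit 259)) (XT.lf (nat_lit 0) (nat_lit 18107807238) (nat_lit 76) (nat_lit 10727297786) (nat_lit 76) (nat_lit 8106295373) (nat_lit 7) (nat_lit 4) (nat_lit 8) (nat_lit 5) (nat_lit 8) (nat_lit 4) (nat_lit 371) (nat_lit 271) (nat_lit 258)))) (XT.nd (nat_lit 78) (nat_lit 152) (nat_lit 0) (XT.lf (nat_lit 0) (nat_lit 26834675332) (nat_lit 76) (nat_lit 7255024184) (nat_lit 76) (nat_lit 4493097298) (nat_lit 7) (nat_lit 4) (nat_lit 8) (nat_lit 5) (nat_lit 8) (nat_lit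 4) (nat_lit 372) (nat_lit 271) (nat_lit 257)) (XT.nd (nat_lit 78) (nat_lit 152) (nat_lit 0) (XT.lf (nat_lit 0) (nat_lit 35808423265) (nat_lit 76) (nat_lit 3699481294) (nat_lit 76) (nat_lit 803340625) (nat_lit 7) (nat_lit 4) (nat_lit 8) (nat_lit 5) (nat_lit 8) (nat_lit 4) (nat_lit 373) (nat_lit 271) (nat_lit 256)) (XT.lf (nat_lit 0) (nat_lit 2923691442) (nat_lit 152) (nat_lit 39158770846) (nat_lit 0) (nat_lit 43726374) (nat_lit 5) (nat_lit 5) (nat_lit 7) (nat_lit 4) (nat_lit 5) (nat_lit 4) (nat_lit 374) (nat_lit 271) (nat_lit 255))))) (XT.nd (nat_lit 234) (nat_lit 0) (nat_lit 0) (XT.nd (nat_lit 78) (nat_lit 0) (nat_lit 0) (XT.lf (nat_lit 0) (nat_lit 6852660926) (nat_lit 152) (nat_lit 33319696412) (nat_lit 0) (nat_lit 3856756945) (nat_lit 5) (nat_lit 5) (nat_lit 7) (nat_lit 4) (nat_lit 5) (nat_lit 4) (nat_lit 375) (nat_lit 271) (nat_lit 254)) (XT.nd (nat_lit 78) (nat_lit 0) (nat_lit 0) (XT.lf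 (nat_lit 0) (nat_lit 10887058409) (nat_lit 152) (nat_lit 27363963921) (nat_lit 0) (nat_lit 7780736416) (nat_lit 5) (nat_lit 5) (nat_lit 7) (nat_lit 4) (nat_lit 5) (nat_lit 4) (nat_lit 376) (nat_lit 271) (nat_lit 253)) (XT.lf (nat_lit 0) (nat_lit 15036489599) (nat_lit 152) (nat_lit 21277393055) (nat_lit 0) (nat_lit 11825007594) (nat_lit 5) (nat_lit 5) (nat_lit 7) (nat_lit 4) (nat_lit 5) (nat_lit 4) (nat_lit 377) (nat_lit 271) (nat_lit 252)))) (XT.nd (nat_lit 78) (nat_lit 0) (nat_lit 0) (XT.lf (nat_lit 0) (nat_lit 19310834094) (nat_lit 152) (nat_lit 15045491980) (nat_lit 0) (nat_lit 15999199697) (nat_lit 5) (nat_lit 5) (nat_lit 7) (nat_lit 4) (nat_lit 5) (nat_lit 4) (nat_lit 378) (nat_lit 271) (nat_lit 251)) (XT.nd (nat_lit 78) (nat_lit 0) (nat_lit 0) (XT.lf (nat_lit 0) (nat_lit 23720268905) (nat_lit 152) (nat_lit 8653422836) (nat_lit 0) (nat_lit 20313251278) (nat_lit 5) (nat_lit 5) (nat_lit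 7) (nat_lit 4) (nat_lit 5) (nat_lit 4) (nat_lit 379) (nat_lit 271) (nat_lit 250)) (XT.lf (nat_lit 0) (nat_lit 28275292686) (nat_lit 152) (nat_lit 2085966411) (nat_lit 0) (nat_lit 24777433887) (nat_lit 5) (nat_lit 5) (nat_lit 7) (nat_lit 4) (nat_lit 5) (nat_lit 4) (nat_lit 380) (nat_lit 271) (nat_lit 249))))))))
noncomputable def xc34 : XT := (XT.nd (nat_lit 1794) (nat_lit 0) (nat_lit 0) (XT.nd (nat_lit 858) (nat_lit 76) (nat_lit 0) (XT.nd (nat_lit 390) (nat_lit 76) (nat_lit 0) (XT.nd (nat_lit 156) (nat_lit 0) (nat_lit 0) (XT.nd (nat_lit 78) (nat_lit 0) (nat_lit 0) (XT.lf (nat_lit 0) (nat_lit 4827008514) (nat_lit 76) (nat_lit 28235105348) (nat_lit 76) (nat_lit 24650731148) (nat_lit 4) (nat_lit 4) (nat_lit 5) (nat_lit 5) (nat_lit 5) (nat_lit 4) (nat_lit 381) (nat_lit 271) (nat_lit 248)) (XT.lf (nat_lit 0) (nat_lit 12022918792) (nat_lit 76) (nat_lit 26030653464) (nat_lit 76) (nat_lit 22363883643)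 (nat_lit 4) (nat_lit 4) (nat_lit 5) (nat_lit 5) (nat_lit 5) (nat_lit 4) (nat_lit 382) (nat_lit 271) (nat_lit 247))) (XT.nd (nat_lit 78) (nat_lit 0) (nat_lit 0) (XT.lf (nat_lit 0) (nat_lit 19449926072) (nat_lit 76) (nat_lit 23777981601) (nat_lit 76) (nat_lit 20032739760) (nat_lit 4) (nat_lit 4) (nat_lit 5) (nat_lit 5) (nat_lit 5) (nat_lit 4) (nat_lit 383) (nat_lit 271) (nat_lit 246)) (XT.nd (nat_lit 78) (nat_lit 0) (nat_lit 0) (XT.lf (nat_lit 0) (nat_lit 27125713706) (nat_lit 76) (nat_lit 21471726252) (nat_lit 76) (nat_lit 17651749155) (nat_lit 4) (nat_lit 4) (nat_lit 5) (nat_lit 5) (nat_lit 5) (nat_lit 4) (nat_lit 384) (nat_lit 271) (nat_lit 245)) (XT.lf (nat_lit 0) (nat_lit 35068557379) (nat_lit 76) (nat_lit 19106396336) (nat_lit 76) (nat_lit 15215242803) (nat_lit 4) (nat_lit 4) (nat_lit 5) (nat_lit 5) (nat_lit 5) (nat_lit 4) (nat_lit 385) (nat_lit 271) (nat_lit 244))))) (XT.nd (nat_lit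 234) (nat_lit 76) (nat_lit 0) (XT.nd (nat_lit 78) (nat_lit 0) (nat_lit 0) (XT.lf (nat_lit 0) (nat_lit 43297368622) (nat_lit 76) (nat_lit 16676360113) (nat_lit 76) (nat_lit 12717419499) (nat_lit 4) (nat_lit 4) (nat_lit 5) (nat_lit 5) (nat_lit 5) (nat_lit 4) (nat_lit 386) (nat_lit 271) (nat_lit 243)) (XT.nd (nat_lit 78) (nat_lit 0) (nat_lit 0) (XT.lf (nat_lit 0) (nat_lit 51831739843) (nat_lit 76) (nat_lit 14175831783) (nat_lit 76) (nat_lit 10152332044) (nat_lit 4) (nat_lit 4) (nat_lit 5) (nat_lit 5) (nat_lit 5) (nat_lit 4) (nat_lit 387) (nat_lit 271) (nat_lit 242)) (XT.lf (nat_lit 0) (nat_lit 60691990975) (nat_lit 76) (nat_lit 11598857707) (nat_lit 76) (nat_lit 7513873088) (nat_lit 4) (nat_lit 4) (nat_lit 5) (nat_lit 5) (nat_lit 5) (nat_lit 4) (nat_lit 388) (nat_lit 271) (nat_lit 241)))) (XT.nd (nat_lit 78) (nat_lit 76) (nat_lit 0) (XT.lf (nat_lit 0) (nat_lit 69899217852) (nat_lit 76) (nat_lit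 8939302233) (nat_lit 76) (nat_lit 4795760584) (nat_lit 4) (nat_lit 4) (nat_lit 5) (nat_lit 5) (nat_lit 5) (nat_lit 4) (nat_lit 389) (nat_lit 271) (nat_lit 240)) (XT.nd (nat_lit 78) (nat_lit 76) (nat_lit 0) (XT.lf (nat_lit 0) (nat_lit 79475342444) (nat_lit 76) (nat_lit 6190833086) (nat_lit 76) (nat_lit 1991522837) (nat_lit 4) (nat_lit 4) (nat_lit 5) (nat_lit 5) (nat_lit 5) (nat_lit 4) (nat_lit 390) (nat_lit 271) (nat_lit 239)) (XT.lf (nat_lit 0) (nat_lit 876534712) (nat_lit 152) (nat_lit 2455527039) (nat_lit 76) (nat_lit 88551785795) (nat_lit 3) (nat_lit 5) (nat_lit 5) (nat_lit 5) (nat_lit 4) (nat_lit 4) (nat_lit 391) (nat_lit 271) (nat_lit 238)))))) (XT.nd (nat_lit 468) (nat_lit 0) (nat_lit 0) (XT.nd (nat_lit 234) (nat_lit 0) (nat_lit 0) (XT.nd (nat_lit 78) (nat_lit 0) (nat_lit 0) (XT.lf (nat_lit 0) (nat_lit 3554341749) (nat_lit 76) (nat_lit 278511281) (nat_lit 152) (nat_lit 92486238848)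 (nat_lit 2) (nat_lit 5) (nat_lit 3) (nat_lit 5) (nat_lit 4) (nat_lit 4) (nat_lit 392) (nat_lit 271) (nat_lit 237)) (XT.nd (nat_lit 78) (nat_lit 0) (nat_lit 0) (XT.lf (nat_lit 0) (nat_lit 6981415322) (nat_lit 152) (nat_lit 91155038163) (nat_lit 0) (nat_lit 2837432487) (nat_lit 2) (nat_lit 5) (nat_lit 4) (nat_lit 4) (nat_lit 2) (nat_lit 4) (nat_lit 393) (nat_lit 271) (nat_lit 236)) (XT.lf (nat_lit 0) (nat_lit 10250496178) (nat_lit 152) (nat_lit 89549960407) (nat_lit 0) (nat_lit 6062817186) (nat_lit 2) (nat_lit 5) (nat_lit 4) (nat_lit 4) (nat_lit 2) (nat_lit 4) (nat_lit 394) (nat_lit 271) (nat_lit 235)))) (XT.nd (nat_lit 78) (nat_lit 0) (nat_lit 0) (XT.lf (nat_lit 0) (nat_lit 13643530783) (nat_lit 152) (nat_lit 87941346904) (nat_lit 0) (nat_lit 9414236404) (nat_lit 2) (nat_lit 5) (nat_lit 4) (nat_lit 4) (nat_lit 2) (nat_lit 4) (nat_lit 395) (nat_lit 271) (nat_lit 234)) (XT.nd (nat_lit 78)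 (nat_lit 0) (nat_lit 0) (XT.lf (nat_lit 0) (nat_lit 17168597790) (nat_lit 152) (nat_lit 86325367623) (nat_lit 0) (nat_lit 12899669709) (nat_lit 2) (nat_lit 5) (nat_lit 4) (nat_lit 4) (nat_lit 2) (nat_lit 4) (nat_lit 396) (nat_lit 271) (nat_lit 233)) (XT.lf (nat_lit 0) (nat_lit 20834090217) (nat_lit 152) (nat_lit 84698174994) (nat_lit 0) (nat_lit 16527415752) (nat_lit 2) (nat_lit 5) (nat_lit 4) (nat_lit 4) (nat_lit 2) (nat_lit 4) (nat_lit 397) (nat_lit 271) (nat_lit 232))))) (XT.nd (nat_lit 234) (nat_lit 0) (nat_lit 0) (XT.nd (nat_lit 78) (nat_lit 0) (nat_lit 0) (XT.lf (nat_lit 0) (nat_lit 24648735426) (nat_lit 152) (nat_lit 83055894749) (nat_lit 0) (nat_lit 20306112025) (nat_lit 2) (nat_lit 5) (nat_lit 4) (nat_lit 4) (nat_lit 2) (nat_lit 4) (nat_lit 398) (nat_lit 271) (nat_lit 231)) (XT.nd (nat_lit 78) (nat_lit 0) (nat_lit 0) (XT.lf (nat_lit 0) (nat_lit 28621615906) (nat_lit 152) (nat_lit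 81394616696) (nat_lit 0) (nat_lit 24244755422) (nat_lit 2) (nat_lit 5) (nat_lit 4) (nat_lit 4) (nat_lit 2) (nat_lit 4) (nat_lit 399) (nat_lit 271) (nat_lit 230)) (XT.lf (nat_lit 0) (nat_lit 32762190896) (nat_lit 152) (nat_lit 79710385413) (nat_lit 0) (nat_lit 28352723667) (nat_lit 2) (nat_lit 5) (nat_lit 4) (nat_lit 4) (nat_lit 2) (nat_lit 4) (nat_lit 400) (nat_lit 271) (nat_lit 229)))) (XT.nd (nat_lit 78) (nat_lit 0) (nat_lit 0) (XT.lf (nat_lit 0) (nat_lit 37080318907) (nat_lit 152) (nat_lit 77999190825) (nat_lit 0) (nat_lit 32639797636) (nat_lit 2) (nat_lit 5) (nat_lit 4) (nat_lit 4) (nat_lit 2) (nat_lit 4) (nat_lit 401) (nat_lit 271) (nat_lit 228)) (XT.nd (nat_lit 78) (nat_lit 0) (nat_lit 0) (XT.lf (nat_lit 0) (nat_lit 41586281198) (nat_lit 152) (nat_lit 76256958658) (nat_lit 0) (nat_lit 37116184648) (nat_lit 2) (nat_lit 5) (nat_lit 4) (nat_lit 4) (nat_lit 2) (nat_lit 4) (nat_lit 402)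 (nat_lit 271) (nat_lit 227)) (XT.lf (nat_lit 0) (nat_lit 46290806250) (nat_lit 152) (nat_lit 74479540741) (nat_lit 0) (nat_lit 41792542767) (nat_lit 2) (nat_lit 5) (nat_lit 4) (nat_lit 4) (nat_lit 2) (nat_lit 4) (nat_lit 403) (nat_lit 271) (nat_lit 226))))))) (XT.nd (nat_lit 858) (nat_lit 0) (nat_lit 0) (XT.nd (nat_lit 390) (nat_lit 0) (nat_lit 0) (XT.nd (nat_lit 156) (nat_lit 0) (nat_lit 0) (XT.nd (nat_lit 78) (nat_lit 0) (nat_lit 0) (XT.lf (nat_lit 0) (nat_lit 51205095312) (nat_lit 152) (nat_lit 72662705126) (nat_lit 0) (nat_lit 46680006180) (nat_lit 2) (nat_lit 5) (nat_lit 4) (nat_lit 4) (nat_lit 2) (nat_lit 4) (nat_lit 404) (nat_lit 271) (nat_lit 225)) (XT.lf (nat_lit 0) (nat_lit 56340849074) (nat_lit 152) (nat_lit 70802126014) (nat_lit 0) (nat_lit 51790211703) (nat_lit 2) (nat_lit 5) (nat_lit 4) (nat_lit 4) (nat_lit 2) (nat_lit 4) (nat_lit 405) (nat_lit 271) (nat_lit 224))) (XT.nd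 (nat_lit 78) (nat_lit 0) (nat_lit 0) (XT.lf (nat_lit 0) (nat_lit 61710295520) (nat_lit 152) (nat_lit 68893373456) (nat_lit 0) (nat_lit 57135326494) (nat_lit 2) (nat_lit 5) (nat_lit 4) (nat_lit 4) (nat_lit 2) (nat_lit 4) (nat_lit 406) (nat_lit 271) (nat_lit 223)) (XT.nd (nat_lit 78) (nat_lit 0) (nat_lit 0) (XT.lf (nat_lit 0) (nat_lit 67326219046) (nat_lit 152) (nat_lit 66931902802) (nat_lit 0) (nat_lit 62728077015) (nat_lit 2) (nat_lit 5) (nat_lit 4) (nat_lit 4) (nat_lit 2) (nat_lit 4) (nat_lit 407) (nat_lit 271) (nat_lit 222)) (XT.lf (nat_lit 0) (nat_lit 73201990899) (nat_lit 152) (nat_lit 64913043883) (nat_lit 0) (nat_lit 68581779340) (nat_lit 2) (nat_lit 5) (nat_lit 4) (nat_lit 4) (nat_lit 2) (nat_lit 4) (nat_lit 408) (nat_lit 271) (nat_lit 221))))) (XT.nd (nat_lit 234) (nat_lit 0) (nat_lit 0) (XT.nd (nat_lit 78) (nat_lit 0) (nat_lit 0) (XT.lf (nat_lit 0) (nat_lit 79351601013) (nat_lit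 152) (nat_lit 62831989894) (nat_lit 0) (nat_lit 74710370855) (nat_lit 2) (nat_lit 5) (nat_lit 4) (nat_lit 4) (nat_lit 2) (nat_lit 4) (nat_lit 409) (nat_lit 271) (nat_lit 220)) (XT.nd (nat_lit 78) (nat_lit 0) (nat_lit 0) (XT.lf (nat_lit 0) (nat_lit 85789691315) (nat_lit 152) (nat_lit 60683785943) (nat_lit 0) (nat_lit 81128443445) (nat_lit 2) (nat_lit 5) (nat_lit 4) (nat_lit 4) (nat_lit 2) (nat_lit 4) (nat_lit 410) (nat_lit 271) (nat_lit 219)) (XT.lf (nat_lit 0) (nat_lit 92531590593) (nat_lit 152) (nat_lit 58463317259) (nat_lit 0) (nat_lit 87851278234) (nat_lit 2) (nat_lit 5) (nat_lit 4) (nat_lit 4) (nat_lit 2) (nat_lit 4) (nat_lit 411) (nat_lit 271) (nat_lit 218)))) (XT.nd (nat_lit 78) (nat_lit 0) (nat_lit 0) (XT.lf (nat_lit 0) (nat_lit 99593350987) (nat_lit 152) (nat_lit 56165297012) (nat_lit 0) (nat_lit 94894881972) (nat_lit 2) (nat_lit 5) (nat_lit 4) (nat_lit 4) (nat_lit 2) (nat_lit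 4) (nat_lit 412) (nat_lit 271) (nat_lit 217)) (XT.nd (nat_lit 78) (nat_lit 0) (nat_lit 0) (XT.lf (nat_lit 0) (nat_lit 106991786213) (nat_lit 152) (nat_lit 53784253725) (nat_lit 0) (nat_lit 102276025145) (nat_lit 2) (nat_lit 5) (nat_lit 4) (nat_lit 4) (nat_lit 2) (nat_lit 4) (nat_lit 413) (nat_lit 271) (nat_lit 216)) (XT.lf (nat_lit 0) (nat_lit 114744511592) (nat_lit 152) (nat_lit 51314518248) (nat_lit 0) (nat_lit 110012281902) (nat_lit 2) (nat_lit 5) (nat_lit 4) (nat_lit 4) (nat_lit 2) (nat_lit 4) (nat_lit 414) (nat_lit 271) (nat_lit 215)))))) (XT.nd (nat_lit 468) (nat_lit 0) (nat_lit 0) (XT.nd (nat_lit 234) (nat_lit 0) (nat_lit 0) (XT.nd (nat_lit 78) (nat_lit 0) (nat_lit 0) (XT.lf (nat_lit 0) (nat_lit 122869985995) (nat_lit 152) (nat_lit 48750210258) (nat_lit 0) (nat_lit 118122071903) (nat_lit 2) (nat_lit 5) (nat_lit 4) (nat_lit 4) (nat_lit 2) (nat_lit 4) (nat_lit 415) (nat_lit 271) (nat_lit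 214)) (XT.nd (nat_lit 78) (nat_lit 0) (nat_lit 0) (XT.lf (nat_lit 0) (nat_lit 131387555789) (nat_lit 152) (nat_lit 46085224259) (nat_lit 0) (nat_lit 126624704172) (nat_lit 2) (nat_lit 5) (nat_lit 4) (nat_lit 4) (nat_lit 2) (nat_lit 4) (nat_lit 416) (nat_lit 271) (nat_lit 213)) (XT.lf (nat_lit 0) (nat_lit 140317500903) (nat_lit 152) (nat_lit 43313215048) (nat_lit 0) (nat_lit 135540423070) (nat_lit 2) (nat_lit 5) (nat_lit 4) (nat_lit 4) (nat_lit 2) (nat_lit 4) (nat_lit 417) (nat_lit 271) (nat_lit 212)))) (XT.nd (nat_lit 78) (nat_lit 0) (nat_lit 0) (XT.lf (nat_lit 0) (nat_lit 149681083109) (nat_lit 152) (nat_lit 40427582601) (nat_lit 0) (nat_lit 144890456501) (nat_lit 2) (nat_lit 5) (nat_lit 4) (nat_lit 4) (nat_lit 2) (nat_lit 4) (nat_lit 418) (nat_lit 271) (nat_lit 211)) (XT.nd (nat_lit 78) (nat_lit 0) (nat_lit 0) (XT.lf (nat_lit 0) (nat_lit 159500596653) (nat_lit 152) (nat_lit 37421456366)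 (nat_lit 0) (nat_lit 154697066449) (nat_lit 2) (nat_lit 5) (nat_lit 4) (nat_lit 4) (nat_lit 2) (nat_lit 4) (nat_lit 419) (nat_lit 271) (nat_lit 210)) (XT.lf (nat_lit 0) (nat_lit 169799421327) (nat_lit 152) (nat_lit 34287678900) (nat_lit 0) (nat_lit 164983601984) (nat_lit 2) (nat_lit 5) (nat_lit 4) (nat_lit 4) (nat_lit 2) (nat_lit 4) (nat_lit 420) (nat_lit 271) (nat_lit 209))))) (XT.nd (nat_lit 234) (nat_lit 0) (nat_lit 0) (XT.nd (nat_lit 78) (nat_lit 0) (nat_lit 0) (XT.lf (nat_lit 0) (nat_lit 180602078144) (nat_lit 152) (nat_lit 31018788826) (nat_lit 0) (nat_lit 175774554858) (nat_lit 2) (nat_lit 5) (nat_lit 4) (nat_lit 4) (nat_lit 2) (nat_lit 4) (nat_lit 421) (nat_lit 271) (nat_lit 208)) (XT.nd (nat_lit 78) (nat_lit 0) (nat_lit 0) (XT.lf (nat_lit 0) (nat_lit 191934287714) (nat_lit 152) (nat_lit 27607003074) (nat_lit 0) (nat_lit 187095617816) (nat_lit 2) (nat_lit 5) (nat_lit 4) (nat_lit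 4) (nat_lit 2) (nat_lit 4) (nat_lit 422) (nat_lit 271) (nat_lit 207)) (XT.lf (nat_lit 0) (nat_lit 203823031488) (nat_lit 152) (nat_lit 24044198345) (nat_lit 0) (nat_lit 198973745770) (nat_lit 2) (nat_lit 5) (nat_lit 4) (nat_lit 4) (nat_lit 2) (nat_lit 4) (nat_lit 423) (nat_lit 271) (nat_lit 206)))) (XT.nd (nat_lit 78) (nat_lit 0) (nat_lit 0) (XT.lf (nat_lit 0) (nat_lit 216296616001) (nat_lit 152) (nat_lit 20321891769) (nat_lit 0) (nat_lit 211437219977) (nat_lit 2) (nat_lit 5) (nat_lit 4) (nat_lit 4) (nat_lit 2) (nat_lit 4) (nat_lit 424) (nat_lit 271) (nat_lit 205)) (XT.nd (nat_lit 78) (nat_lit 0) (nat_lit 0) (XT.lf (nat_lit 0) (nat_lit 229384740261) (nat_lit 152) (nat_lit 16431220712) (nat_lit 0) (nat_lit 224515715376) (nat_lit 2) (nat_lit 5) (nat_lit 4) (nat_lit 4) (nat_lit 2) (nat_lit 4) (nat_lit 425) (nat_lit 271) (nat_lit 204)) (XT.lf (nat_lit 0) (nat_lit 243118566471) (nat_lit 152)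 (nat_lit 12362921672) (nat_lit 0) (nat_lit 238240371241) (nat_lit 2) (nat_lit 5) (nat_lit 4) (nat_lit 4) (nat_lit 2) (nat_lit 4) (nat_lit 426) (nat_lit 271) (nat_lit 203))))))))
noncomputable def xc35 : XT := (XT.nd (nat_lit 42354) (nat_lit 0) (nat_lit 228) (XT.nd (nat_lit 41418) (nat_lit 0) (nat_lit 532) (XT.nd (nat_lit 390) (nat_lit 0) (nat_lit 0) (XT.nd (nat_lit 156) (nat_lit 76) (nat_lit 0) (XT.nd (nat_lit 78) (nat_lit 0) (nat_lit 0) (XT.lf (nat_lit 0) (nat_lit 257530794216) (nat_lit 152) (nat_lit 8107308223) (nat_lit 0) (nat_lit 252643865324) (nat_lit 2) (nat_lit 5) (nat_lit 4) (nat_lit 4) (nat_lit 2) (nat_lit 4) (nat_lit 427) (nat_lit 271) (nat_lit 202)) (XT.lf (nat_lit 0) (nat_lit 272655738324) (nat_lit 152) (nat_lit 3654247951) (nat_lit 0) (nat_lit 267760491659) (nat_lit 2) (nat_lit 5) (nat_lit 4) (nat_lit 4) (nat_lit 2) (nat_lit 4) (nat_lit 428) (nat_lit 271) (nat_lit 201))) (XT.nd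 (nat_lit 78) (nat_lit 0) (nat_lit 0) (XT.lf (nat_lit 0) (nat_lit 1040153062) (nat_lit 76) (nat_lit 287505497209) (nat_lit 76) (nat_lit 282602328855) (nat_lit 1) (nat_lit 4) (nat_lit 2) (nat_lit 5) (nat_lit 2) (nat_lit 4) (nat_lit 429) (nat_lit 271) (nat_lit 200)) (XT.nd (nat_lit 78) (nat_lit 0) (nat_lit 0) (XT.lf (nat_lit 0) (nat_lit 6081773239) (nat_lit 76) (nat_lit 299202785687) (nat_lit 76) (nat_lit 294292072867) (nat_lit 1) (nat_lit 4) (nat_lit 2) (nat_lit 5) (nat_lit 2) (nat_lit 4) (nat_lit 430) (nat_lit 271) (nat_lit 199)) (XT.lf (nat_lit 0) (nat_lit 11361790499) (nat_lit 76) (nat_lit 311491588853) (nat_lit 76) (nat_lit 306573690828) (nat_lit 1) (nat_lit 4) (nat_lit 2) (nat_lit 5) (nat_lit 2) (nat_lit 4) (nat_lit 431) (nat_lit 271) (nat_lit 198))))) (XT.nd (nat_lit 234) (nat_lit 0) (nat_lit 0) (XT.nd (nat_lit 78) (nat_lit 0) (nat_lit 0) (XT.lf (nat_lit 0) (nat_lit 16892776310) (nat_lit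 76) (nat_lit 324401165762) (nat_lit 76) (nat_lit 319476424684) (nat_lit 1) (nat_lit 4) (nat_lit 2) (nat_lit 5) (nat_lit 2) (nat_lit 4) (nat_lit 432) (nat_lit 271) (nat_lit 197)) (XT.nd (nat_lit 78) (nat_lit 0) (nat_lit 0) (XT.lf (nat_lit 0) (nat_lit 22687899686) (nat_lit 76) (nat_lit 337962253502) (nat_lit 76) (nat_lit 333030995231) (nat_lit 1) (nat_lit 4) (nat_lit 2) (nat_lit 5) (nat_lit 2) (nat_lit 4) (nat_lit 433) (nat_lit 271) (nat_lit 196)) (XT.lf (nat_lit 0) (nat_lit 28760958540) (nat_lit 76) (nat_lit 352207140377) (nat_lit 76) (nat_lit 347269675256) (nat_lit 1) (nat_lit 4) (nat_lit 2) (nat_lit 5) (nat_lit 2) (nat_lit 4) (nat_lit 434) (nat_lit 271) (nat_lit 195)))) (XT.nd (nat_lit 78) (nat_lit 0) (nat_lit 0) (XT.lf (nat_lit 0) (nat_lit 35126412536) (nat_lit 76) (nat_lit 367169742784) (nat_lit 76) (nat_lit 362226366377) (nat_lit 1) (nat_lit 4) (nat_lit 2) (nat_lit 5) (nat_lit 2) (nat_lit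 4) (nat_lit 435) (nat_lit 271) (nat_lit 194)) (XT.nd (nat_lit 40638) (nat_lit 0) (nat_lit 988) (XT.lf (nat_lit 0) (nat_lit 41799417517) (nat_lit 76) (nat_lit 382885685968) (nat_lit 76) (nat_lit 377936679765) (nat_lit 1) (nat_lit 4) (nat_lit 2) (nat_lit 5) (nat_lit 2) (nat_lit 4) (nat_lit 436) (nat_lit 271) (nat_lit 193)) (XT.lf (nat_lit 0) (nat_lit 3022241030) (nat_lit 152) (nat_lit 4077607924) (nat_lit 0) (nat_lit 3022241030) (nat_lit 14) (nat_lit 5) (nat_lit 16) (nat_lit 4) (nat_lit 14) (nat_lit 4) (nat_lit 356) (nat_lit 272) (nat_lit 272)))))) (XT.nd (nat_lit 468) (nat_lit 228) (nat_lit 0) (XT.nd (nat_lit 234) (nat_lit 152) (nat_lit 0) (XT.nd (nat_lit 78) (nat_lit 0) (nat_lit 0) (XT.lf (nat_lit 0) (nat_lit 866126544) (nat_lit 76) (nat_lit 10221437696) (nat_lit 76) (nat_lit 9913817245) (nat_lit 13) (nat_lit 4) (nat_lit 14) (nat_lit 5) (nat_lit 14) (nat_lit 4) (nat_lit 357) (nat_lit 272)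 (nat_lit 271)) (XT.nd (nat_lit 78) (nat_lit 0) (nat_lit 0) (XT.lf (nat_lit 0) (nat_lit 10315828343) (nat_lit 76) (nat_lit 6041274532) (nat_lit 76) (nat_lit 5440682223) (nat_lit 13) (nat_lit 4) (nat_lit 14) (nat_lit 5) (nat_lit 14) (nat_lit 4) (nat_lit 358) (nat_lit 272) (nat_lit 270)) (XT.lf (nat_lit 0) (nat_lit 19946740572) (nat_lit 76) (nat_lit 1787368175) (nat_lit 76) (nat_lit 907755048) (nat_lit 13) (nat_lit 4) (nat_lit 14) (nat_lit 5) (nat_lit 14) (nat_lit 4) (nat_lit 359) (nat_lit 272) (nat_lit 269)))) (XT.nd (nat_lit 78) (nat_lit 0) (nat_lit 0) (XT.lf (nat_lit 0) (nat_lit 3719684877) (nat_lit 152) (nat_lit 17177068608) (nat_lit 0) (nat_lit 2628877983) (nat_lit 11) (nat_lit 5) (nat_lit 13) (nat_lit 4) (nat_lit 11) (nat_lit 4) (nat_lit 360) (nat_lit 272) (nat_lit 268)) (XT.nd (nat_lit 78) (nat_lit 0) (nat_lit 0) (XT.lf (nat_lit 0) (nat_lit 8473446546) (nat_lit 152) (nat_lit 8841560133)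 (nat_lit 0) (nat_lit 7141610980) (nat_lit 11) (nat_lit 5) (nat_lit 13) (nat_lit 4) (nat_lit 11) (nat_lit 4) (nat_lit 361) (nat_lit 272) (nat_lit 267)) (XT.lf (nat_lit 0) (nat_lit 13321814095) (nat_lit 152) (nat_lit 359110533) (nat_lit 0) (nat_lit 11760427411) (nat_lit 11) (nat_lit 5) (nat_lit 13) (nat_lit 4) (nat_lit 11) (nat_lit 4) (nat_lit 362) (nat_lit 272) (nat_lit 266))))) (XT.nd (nat_lit 234) (nat_lit 76) (nat_lit 0) (XT.nd (nat_lit 78) (nat_lit 76) (nat_lit 0) (XT.lf (nat_lit 0) (nat_lit 8564597093) (nat_lit 76) (nat_lit 9845451524) (nat_lit 76) (nat_lit 8065444729) (nat_lit 10) (nat_lit 4) (nat_lit 11) (nat_lit 5) (nat_lit 11) (nat_lit 4) (nat_lit 363) (nat_lit 272) (nat_lit 265)) (XT.nd (nat_lit 78) (nat_lit 76) (nat_lit 0) (XT.lf (nat_lit 0) (nat_lit 17694117482) (nat_lit 76) (nat_lit 5930931775) (nat_lit 76) (nat_lit 3942715350) (nat_lit 10) (nat_lit 4) (nat_lit 11) (nat_lit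 5) (nat_lit 11) (nat_lit 4) (nat_lit 364) (nat_lit 272) (nat_lit 264)) (XT.lf (nat_lit 0) (nat_lit 244306624) (nat_lit 152) (nat_lit 1685682731) (nat_lit 76) (nat_lit 26790869696) (nat_lit 9) (nat_lit 5) (nat_lit 11) (nat_lit 5) (nat_lit 10) (nat_lit 4) (nat_lit 365) (nat_lit 272) (nat_lit 263)))) (XT.nd (nat_lit 78) (nat_lit 0) (nat_lit 0) (XT.lf (nat_lit 0) (nat_lit 4528076422) (nat_lit 152) (nat_lit 23133514857) (nat_lit 0) (nat_lit 2265825391) (nat_lit 8) (nat_lit 5) (nat_lit 10) (nat_lit 4) (nat_lit 8) (nat_lit 4) (nat_lit 366) (nat_lit 272) (nat_lit 262)) (XT.nd (nat_lit 78) (nat_lit 0) (nat_lit 0) (XT.lf (nat_lit 0) (nat_lit 8963961073) (nat_lit 152) (nat_lit 15703062723) (nat_lit 0) (nat_lit 6530415464) (nat_lit 8) (nat_lit 5) (nat_lit 10) (nat_lit 4) (nat_lit 8) (nat_lit 4) (nat_lit 367) (nat_lit 272) (nat_lit 261)) (XT.lf (nat_lit 0) (nat_lit 13504755520) (nat_lit 152) (nat_lit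 8124011279) (nat_lit 0) (nat_lit 10908072218) (nat_lit 8) (nat_lit 5) (nat_lit 10) (nat_lit 4) (nat_lit 8) (nat_lit 4) (nat_lit 368) (nat_lit 272) (nat_lit 260))))))) (XT.nd (nat_lit 858) (nat_lit 76) (nat_lit 0) (XT.nd (nat_lit 390) (nat_lit 152) (nat_lit 0) (XT.nd (nat_lit 156) (nat_lit 0) (nat_lit 0) (XT.nd (nat_lit 78) (nat_lit 76) (nat_lit 0) (XT.lf (nat_lit 0) (nat_lit 18161271180) (nat_lit 152) (nat_lit 378315164) (nat_lit 0) (nat_lit 15409218647) (nat_lit 8) (nat_lit 5) (nat_lit 10) (nat_lit 4) (nat_lit 8) (nat_lit 4) (nat_lit 369) (nat_lit 272) (nat_lit 259)) (XT.lf (nat_lit 0) (nat_lit 7802186447) (nat_lit 76) (nat_lit 15264222544) (nat_lit 76) (nat_lit 12364199313) (nat_lit 7) (nat_lit 4) (nat_lit 8) (nat_lit 5) (nat_lit 8) (nat_lit 4) (nat_lit 370) (nat_lit 272) (nat_lit 258))) (XT.nd (nat_lit 78) (nat_lit 0) (nat_lit 0) (XT.lf (nat_lit 0) (nat_lit 16205910644) (nat_lit 76)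 (nat_lit 11913224868) (nat_lit 76) (nat_lit 8872277164) (nat_lit 7) (nat_lit 4) (nat_lit 8) (nat_lit 5) (nat_lit 8) (nat_lit 4) (nat_lit 371) (nat_lit 272) (nat_lit 257)) (XT.nd (nat_lit 78) (nat_lit 0) (nat_lit 0) (XT.lf (nat_lit 0) (nat_lit 24840357486) (nat_lit 76) (nat_lit 8485021701) (nat_lit 76) (nat_lit 5309860214) (nat_lit 7) (nat_lit 4) (nat_lit 8) (nat_lit 5) (nat_lit 8) (nat_lit 4) (nat_lit 372) (nat_lit 272) (nat_lit 256)) (XT.lf (nat_lit 0) (nat_lit 33726085180) (nat_lit 76) (nat_lit 4971450656) (nat_lit 76) (nat_lit 1668466517) (nat_lit 7) (nat_lit 4) (nat_lit 8) (nat_lit 5) (nat_lit 8) (nat_lit 4) (nat_lit 373) (nat_lit 272) (nat_lit 255))))) (XT.nd (nat_lit 234) (nat_lit 0) (nat_lit 0) (XT.nd (nat_lit 78) (nat_lit 0) (nat_lit 0) (XT.lf (nat_lit 0) (nat_lit 686219810) (nat_lit 76) (nat_lit 1319116680) (nat_lit 152) (nat_lit 40180341648) (nat_lit 5) (nat_lit 5) (nat_lit 6)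 (nat_lit 5) (nat_lit 7) (nat_lit 4) (nat_lit 374) (nat_lit 272) (nat_lit 254)) (XT.nd (nat_lit 78) (nat_lit 0) (nat_lit 0) (XT.lf (nat_lit 0) (nat_lit 5869310635) (nat_lit 152) (nat_lit 35725298867) (nat_lit 0) (nat_lit 2497254530) (nat_lit 5) (nat_lit 5) (nat_lit 7) (nat_lit 4) (nat_lit 5) (nat_lit 4) (nat_lit 375) (nat_lit 272) (nat_lit 253)) (XT.lf (nat_lit 0) (nat_lit 9861422182) (nat_lit 152) (nat_lit 29851004546) (nat_lit 0) (nat_lit 6384206066) (nat_lit 5) (nat_lit 5) (nat_lit 7) (nat_lit 4) (nat_lit 5) (nat_lit 4) (nat_lit 376) (nat_lit 272) (nat_lit 252)))) (XT.nd (nat_lit 78) (nat_lit 0) (nat_lit 0) (XT.lf (nat_lit 0) (nat_lit 13970581053) (nat_lit 152) (nat_lit 23841993843) (nat_lit 0) (nat_lit 10393212545) (nat_lit 5) (nat_lit 5) (nat_lit 7) (nat_lit 4) (nat_lit 5) (nat_lit 4) (nat_lit 377) (nat_lit 272) (nat_lit 251)) (XT.nd (nat_lit 78) (nat_lit 0) (nat_lit 0) (XT.lf (nat_lit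 0) (nat_lit 18206570958) (nat_lit 152) (nat_lit 17683959590) (nat_lit 0) (nat_lit 14533819220) (nat_lit 5) (nat_lit 5) (nat_lit 7) (nat_lit 4) (nat_lit 5) (nat_lit 4) (nat_lit 378) (nat_lit 272) (nat_lit 250)) (XT.lf (nat_lit 0) (nat_lit 22579477589) (nat_lit 152) (nat_lit 11362239800) (nat_lit 0) (nat_lit 18815884678) (nat_lit 5) (nat_lit 5) (nat_lit 7) (nat_lit 4) (nat_lit 5) (nat_lit 4) (nat_lit 379) (nat_lit 272) (nat_lit 249)))))) (XT.nd (nat_lit 468) (nat_lit 0) (nat_lit 0) (XT.nd (nat_lit 234) (nat_lit 0) (nat_lit 0) (XT.nd (nat_lit 78) (nat_lit 76) (nat_lit 0) (XT.lf (nat_lit 0) (nat_lit 27099712626) (nat_lit 152) (nat_lit 4861782760) (nat_lit 0) (nat_lit 23249604314) (nat_lit 5) (nat_lit 5) (nat_lit 7) (nat_lit 4) (nat_lit 5) (nat_lit 4) (nat_lit 380) (nat_lit 272) (nat_lit 248)) (XT.nd (nat_lit 78) (nat_lit 0) (nat_lit 0) (XT.lf (nat_lit 0) (nat_lit 1893492390) (nat_lit 76) (nat_lit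 29914108867) (nat_lit 76) (nat_lit 25981604935) (nat_lit 4) (nat_lit 4) (nat_lit 5) (nat_lit 5) (nat_lit 5) (nat_lit 4) (nat_lit 381) (nat_lit 272) (nat_lit 247)) (XT.lf (nat_lit 0) (nat_lit 9026622907) (nat_lit 76) (nat_lit 27739902161) (nat_lit 76) (nat_lit 23728926209) (nat_lit 4) (nat_lit 4) (nat_lit 5) (nat_lit 5) (nat_lit 5) (nat_lit 4) (nat_lit 382) (nat_lit 272) (nat_lit 246)))) (XT.nd (nat_lit 78) (nat_lit 0) (nat_lit 0) (XT.lf (nat_lit 0) (nat_lit 16393839939) (nat_lit 76) (nat_lit 25516035229) (nat_lit 76) (nat_lit 21430324019) (nat_lit 4) (nat_lit 4) (nat_lit 5) (nat_lit 5) (nat_lit 5) (nat_lit 4) (nat_lit 383) (nat_lit 272) (nat_lit 245)) (XT.nd (nat_lit 78) (nat_lit 0) (nat_lit 0) (XT.lf (nat_lit 0) (nat_lit 24012684478) (nat_lit 76) (nat_lit 23237213148) (nat_lit 76) (nat_lit 19080325504) (nat_lit 4) (nat_lit 4) (nat_lit 5) (nat_lit 5) (nat_lit 5) (nat_lit 4) (nat_lit 384)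 (nat_lit 272) (nat_lit 244)) (XT.lf (nat_lit 0) (nat_lit 31901296632) (nat_lit 76) (nat_lit 20898010153) (nat_lit 76) (nat_lit 16673335428) (nat_lit 4) (nat_lit 4) (nat_lit 5) (nat_lit 5) (nat_lit 5) (nat_lit 4) (nat_lit 385) (nat_lit 272) (nat_lit 243))))) (XT.nd (nat_lit 234) (nat_lit 0) (nat_lit 0) (XT.nd (nat_lit 78) (nat_lit 0) (nat_lit 0) (XT.lf (nat_lit 0) (nat_lit 40078458810) (nat_lit 76) (nat_lit 18492856713) (nat_lit 76) (nat_lit 14203622862) (nat_lit 4) (nat_lit 4) (nat_lit 5) (nat_lit 5) (nat_lit 5) (nat_lit 4) (nat_lit 386) (nat_lit 272) (nat_lit 242)) (XT.nd (nat_lit 78) (nat_lit 0) (nat_lit 0) (XT.lf (nat_lit 0) (nat_lit 48563640445) (nat_lit 76) (nat_lit 16016026271) (nat_lit 76) (nat_lit 11665307540) (nat_lit 4) (nat_lit 4) (nat_lit 5) (nat_lit 5) (nat_lit 5) (nat_lit 4) (nat_lit 387) (nat_lit 272) (nat_lit 241)) (XT.lf (nat_lit 0) (nat_lit 57377044352) (nat_lit 76) (nat_lit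 13461621613) (nat_lit 76) (nat_lit 9052345852) (nat_lit 4) (nat_lit 4) (nat_lit 5) (nat_lit 5) (nat_lit 5) (nat_lit 4) (nat_lit 388) (nat_lit 272) (nat_lit 240)))) (XT.nd (nat_lit 78) (nat_lit 0) (nat_lit 0) (XT.lf (nat_lit 0) (nat_lit 66539654825) (nat_lit 76) (nat_lit 10823560822) (nat_lit 76) (nat_lit 6358516462) (nat_lit 4) (nat_lit 4) (nat_lit 5) (nat_lit 5) (nat_lit 5) (nat_lit 4) (nat_lit 389) (nat_lit 272) (nat_lit 239)) (XT.nd (nat_lit 78) (nat_lit 0) (nat_lit 0) (XT.lf (nat_lit 0) (nat_lit 76073287603) (nat_lit 76) (nat_lit 8095562801) (nat_lit 76) (nat_lit 3577405489) (nat_lit 4) (nat_lit 4) (nat_lit 5) (nat_lit 5) (nat_lit 5) (nat_lit 4) (nat_lit 390) (nat_lit 272) (nat_lit 238)) (XT.lf (nat_lit 0) (nat_lit 86000641812) (nat_lit 76) (nat_lit 5271132317) (nat_lit 76) (nat_lit 702391242) (nat_lit 4) (nat_lit 4) (nat_lit 5) (nat_lit 5) (nat_lit 5) (nat_lit 4) (nat_lit 391) (nat_lit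 272) (nat_lit 237))))))))
noncomputable def xc36 : XT := (XT.nd (nat_lit 1716) (nat_lit 76) (nat_lit 0) (XT.nd (nat_lit 858) (nat_lit 0) (nat_lit 0) (XT.nd (nat_lit 390) (nat_lit 0) (nat_lit 0) (XT.nd (nat_lit 156) (nat_lit 0) (nat_lit 0) (XT.nd (nat_lit 78) (nat_lit 76) (nat_lit 0) (XT.lf (nat_lit 0) (nat_lit 2200609464) (nat_lit 152) (nat_lit 105666686) (nat_lit 76) (nat_lit 94107476160) (nat_lit 3) (nat_lit 5) (nat_lit 5) (nat_lit 5) (nat_lit 4) (nat_lit 4) (nat_lit 392) (nat_lit 272) (nat_lit 236)) (XT.lf (nat_lit 0) (nat_lit 5295548564) (nat_lit 152) (nat_lit 94920893690) (nat_lit 0) (nat_lit 854789466) (nat_lit 2) (nat_lit 5) (nat_lit 4) (nat_lit 4) (nat_lit 2) (nat_lit 4) (nat_lit 393) (nat_lit 272) (nat_lit 235))) (XT.nd (nat_lit 78) (nat_lit 0) (nat_lit 0) (XT.lf (nat_lit 0) (nat_lit 8545360984) (nat_lit 152) (nat_lit 93353239417) (nat_lit 0) (nat_lit 4062986499) (nat_lit 2) (nat_lit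 5) (nat_lit 4) (nat_lit 4) (nat_lit 2) (nat_lit 4) (nat_lit 394) (nat_lit 272) (nat_lit 234)) (XT.nd (nat_lit 78) (nat_lit 0) (nat_lit 0) (XT.lf (nat_lit 0) (nat_lit 11920044698) (nat_lit 152) (nat_lit 91780267327) (nat_lit 0) (nat_lit 7398036510) (nat_lit 2) (nat_lit 5) (nat_lit 4) (nat_lit 4) (nat_lit 2) (nat_lit 4) (nat_lit 395) (nat_lit 272) (nat_lit 233)) (XT.lf (nat_lit 0) (nat_lit 15427634666) (nat_lit 152) (nat_lit 90198232249) (nat_lit 0) (nat_lit 10867880094) (nat_lit 2) (nat_lit 5) (nat_lit 4) (nat_lit 4) (nat_lit 2) (nat_lit 4) (nat_lit 396) (nat_lit 272) (nat_lit 232))))) (XT.nd (nat_lit 234) (nat_lit 0) (nat_lit 0) (XT.nd (nat_lit 78) (nat_lit 0) (nat_lit 0) (XT.lf (nat_lit 0) (nat_lit 19076482293) (nat_lit 152) (nat_lit 88603367432) (nat_lit 0) (nat_lit 14480778785) (nat_lit 2) (nat_lit 5) (nat_lit 4) (nat_lit 4) (nat_lit 2) (nat_lit 4) (nat_lit 397) (nat_lit 272) (nat_lit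 231)) (XT.nd (nat_lit 78) (nat_lit 0) (nat_lit 0) (XT.lf (nat_lit 0) (nat_lit 22875275312) (nat_lit 152) (nat_lit 86991875580) (nat_lit 0) (nat_lit 18245334722) (nat_lit 2) (nat_lit 5) (nat_lit 4) (nat_lit 4) (nat_lit 2) (nat_lit 4) (nat_lit 398) (nat_lit 272) (nat_lit 230)) (XT.lf (nat_lit 0) (nat_lit 26833058468) (nat_lit 152) (nat_lit 85359919807) (nat_lit 0) (nat_lit 22170511133) (nat_lit 2) (nat_lit 5) (nat_lit 4) (nat_lit 4) (nat_lit 2) (nat_lit 4) (nat_lit 399) (nat_lit 272) (nat_lit 229)))) (XT.nd (nat_lit 78) (nat_lit 0) (nat_lit 0) (XT.lf (nat_lit 0) (nat_lit 30959255054) (nat_lit 152) (nat_lit 83703614504) (nat_lit 0) (nat_lit 26265653676) (nat_lit 2) (nat_lit 5) (nat_lit 4) (nat_lit 4) (nat_lit 2) (nat_lit 4) (nat_lit 400) (nat_lit 272) (nat_lit 228)) (XT.nd (nat_lit 78) (nat_lit 0) (nat_lit 0) (XT.lf (nat_lit 0) (nat_lit 35263689348) (nat_lit 152) (nat_lit 82019016086) (nat_lit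 0) (nat_lit 30540512691) (nat_lit 2) (nat_lit 5) (nat_lit 4) (nat_lit 4) (nat_lit 2) (nat_lit 4) (nat_lit 401) (nat_lit 272) (nat_lit 227)) (XT.lf (nat_lit 0) (nat_lit 39756610002) (nat_lit 152) (nat_lit 80302113606) (nat_lit 0) (nat_lit 35005266413) (nat_lit 2) (nat_lit 5) (nat_lit 4) (nat_lit 4) (nat_lit 2) (nat_lit 4) (nat_lit 402) (nat_lit 272) (nat_lit 226)))))) (XT.nd (nat_lit 390) (nat_lit 0) (nat_lit 0) (XT.nd (nat_lit 156) (nat_lit 0) (nat_lit 0) (XT.nd (nat_lit 78) (nat_lit 0) (nat_lit 0) (XT.lf (nat_lit 0) (nat_lit 44448714448) (nat_lit 152) (nat_lit 78548819200) (nat_lit 0) (nat_lit 39670545209) (nat_lit 2) (nat_lit 5) (nat_lit 4) (nat_lit 4) (nat_lit 2) (nat_lit 4) (nat_lit 403) (nat_lit 272) (nat_lit 225)) (XT.lf (nat_lit 0) (nat_lit 49351174363) (nat_lit 152) (nat_lit 76754958358) (nat_lit 0) (nat_lit 44547456886) (nat_lit 2) (nat_lit 5) (nat_lit 4) (nat_lit 4) (nat_lit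 2) (nat_lit 4) (nat_lit 404) (nat_lit 272) (nat_lit 224))) (XT.nd (nat_lit 78) (nat_lit 0) (nat_lit 0) (XT.lf (nat_lit 0) (nat_lit 54475662269) (nat_lit 152) (nat_lit 74916259983) (nat_lit 0) (nat_lit 49647613137) (nat_lit 2) (nat_lit 5) (nat_lit 4) (nat_lit 4) (nat_lit 2) (nat_lit 4) (nat_lit 405) (nat_lit 272) (nat_lit 223)) (XT.nd (nat_lit 78) (nat_lit 0) (nat_lit 0) (XT.lf (nat_lit 0) (nat_lit 59834379328) (nat_lit 152) (nat_lit 73028346220) (nat_lit 0) (nat_lit 54983157191) (nat_lit 2) (nat_lit 5) (nat_lit 4) (nat_lit 4) (nat_lit 2) (nat_lit 4) (nat_lit 406) (nat_lit 272) (nat_lit 222)) (XT.lf (nat_lit 0) (nat_lit 65440084392) (nat_lit 152) (nat_lit 71086722038) (nat_lit 0) (nat_lit 60566792726) (nat_lit 2) (nat_lit 5) (nat_lit 4) (nat_lit 4) (nat_lit 2) (nat_lit 4) (nat_lit 407) (nat_lit 272) (nat_lit 221))))) (XT.nd (nat_lit 234) (nat_lit 0) (nat_lit 0) (XT.nd (nat_lit 78) (nat_lit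 0) (nat_lit 0) (XT.lf (nat_lit 0) (nat_lit 71306124375) (nat_lit 152) (nat_lit 69086764522) (nat_lit 0) (nat_lit 66411814111) (nat_lit 2) (nat_lit 5) (nat_lit 4) (nat_lit 4) (nat_lit 2) (nat_lit 4) (nat_lit 408) (nat_lit 272) (nat_lit 220)) (XT.nd (nat_lit 78) (nat_lit 0) (nat_lit 0) (XT.lf (nat_lit 0) (nat_lit 77446466042) (nat_lit 152) (nat_lit 67023711868) (nat_lit 0) (nat_lit 72532138065) (nat_lit 2) (nat_lit 5) (nat_lit 4) (nat_lit 4) (nat_lit 2) (nat_lit 4) (nat_lit 409) (nat_lit 272) (nat_lit 219)) (XT.lf (nat_lit 0) (nat_lit 83875729251) (nat_lit 152) (nat_lit 64892652047) (nat_lit 0) (nat_lit 78942336786) (nat_lit 2) (nat_lit 5) (nat_lit 4) (nat_lit 4) (nat_lit 2) (nat_lit 4) (nat_lit 410) (nat_lit 272) (nat_lit 218)))) (XT.nd (nat_lit 78) (nat_lit 0) (nat_lit 0) (XT.lf (nat_lit 0) (nat_lit 90609221774) (nat_lit 152) (nat_lit 62688511105) (nat_lit 0) (nat_lit 85657672653) (nat_lit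 2) (nat_lit 5) (nat_lit 4) (nat_lit 4) (nat_lit 2) (nat_lit 4) (nat_lit 411) (nat_lit 272) (nat_lit 217)) (XT.nd (nat_lit 78) (nat_lit 0) (nat_lit 0) (XT.lf (nat_lit 0) (nat_lit 97662975735) (nat_lit 152) (nat_lit 60406041088) (nat_lit 0) (nat_lit 92694134561) (nat_lit 2) (nat_lit 5) (nat_lit 4) (nat_lit 4) (nat_lit 2) (nat_lit 4) (nat_lit 412) (nat_lit 272) (nat_lit 216)) (XT.lf (nat_lit 0) (nat_lit 105053785786) (nat_lit 152) (nat_lit 58039807545) (nat_lit 0) (nat_lit 100068475990) (nat_lit 2) (nat_lit 5) (nat_lit 4) (nat_lit 4) (nat_lit 2) (nat_lit 4) (nat_lit 413) (nat_lit 272) (nat_lit 215))))))) (XT.nd (nat_lit 858) (nat_lit 76) (nat_lit 0) (XT.nd (nat_lit 390) (nat_lit 0) (nat_lit 0) (XT.nd (nat_lit 156) (nat_lit 0) (nat_lit 0) (XT.nd (nat_lit 78) (nat_lit 0) (nat_lit 0) (XT.lf (nat_lit 0) (nat_lit 112799249095) (nat_lit 152) (nat_lit 55584176585) (nat_lit 0) (nat_lit 107798254897)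 (nat_lit 2) (nat_lit 5) (nat_lit 4) (nat_lit 4) (nat_lit 2) (nat_lit 4) (nat_lit 414) (nat_lit 272) (nat_lit 214)) (XT.lf (nat_lit 0) (nat_lit 120917807240) (nat_lit 152) (nat_lit 53033301469) (nat_lit 0) (nat_lit 115901875516) (nat_lit 2) (nat_lit 5) (nat_lit 4) (nat_lit 4) (nat_lit 2) (nat_lit 4) (nat_lit 415) (nat_lit 272) (nat_lit 213))) (XT.nd (nat_lit 78) (nat_lit 0) (nat_lit 0) (XT.lf (nat_lit 0) (nat_lit 129428790121) (nat_lit 152) (nat_lit 50381108684) (nat_lit 0) (nat_lit 124398632183) (nat_lit 2) (nat_lit 5) (nat_lit 4) (nat_lit 4) (nat_lit 2) (nat_lit 4) (nat_lit 416) (nat_lit 272) (nat_lit 212)) (XT.nd (nat_lit 78) (nat_lit 0) (nat_lit 0) (XT.lf (nat_lit 0) (nat_lit 138352461985) (nat_lit 152) (nat_lit 47621283484) (nat_lit 0) (nat_lit 133308755270) (nat_lit 2) (nat_lit 5) (nat_lit 4) (nat_lit 4) (nat_lit 2) (nat_lit 4) (nat_lit 417) (nat_lit 272) (nat_lit 211)) (XT.lf (nat_lit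 0) (nat_lit 147710069668) (nat_lit 152) (nat_lit 44747254859) (nat_lit 0) (nat_lit 142653459357) (nat_lit 2) (nat_lit 5) (nat_lit 4) (nat_lit 4) (nat_lit 2) (nat_lit 4) (nat_lit 418) (nat_lit 272) (nat_lit 210))))) (XT.nd (nat_lit 234) (nat_lit 0) (nat_lit 0) (XT.nd (nat_lit 78) (nat_lit 0) (nat_lit 0) (XT.lf (nat_lit 0) (nat_lit 157523893189) (nat_lit 152) (nat_lit 41752179883) (nat_lit 0) (nat_lit 152454993739) (nat_lit 2) (nat_lit 5) (nat_lit 4) (nat_lit 4) (nat_lit 2) (nat_lit 4) (nat_lit 419) (nat_lit 272) (nat_lit 209)) (XT.nd (nat_lit 78) (nat_lit 0) (nat_lit 0) (XT.lf (nat_lit 0) (nat_lit 167817298794) (nat_lit 152) (nat_lit 38628927424) (nat_lit 0) (nat_lit 162736695402) (nat_lit 2) (nat_lit 5) (nat_lit 4) (nat_lit 4) (nat_lit 2) (nat_lit 4) (nat_lit 420) (nat_lit 272) (nat_lit 208)) (XT.lf (nat_lit 0) (nat_lit 178614794593) (nat_lit 152) (nat_lit 35370061168) (nat_lit 0) (nat_lit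 173523044589) (nat_lit 2) (nat_lit 5) (nat_lit 4) (nat_lit 4) (nat_lit 2) (nat_lit 4) (nat_lit 421) (nat_lit 272) (nat_lit 207)))) (XT.nd (nat_lit 78) (nat_lit 0) (nat_lit 0) (XT.lf (nat_lit 0) (nat_lit 189942088907) (nat_lit 152) (nat_lit 31967821909) (nat_lit 0) (nat_lit 184839723083) (nat_lit 2) (nat_lit 5) (nat_lit 4) (nat_lit 4) (nat_lit 2) (nat_lit 4) (nat_lit 422) (nat_lit 272) (nat_lit 206)) (XT.nd (nat_lit 78) (nat_lit 0) (nat_lit 0) (XT.lf (nat_lit 0) (nat_lit 201826151486) (nat_lit 152) (nat_lit 28414109077) (nat_lit 0) (nat_lit 196713675356) (nat_lit 2) (nat_lit 5) (nat_lit 4) (nat_lit 4) (nat_lit 2) (nat_lit 4) (nat_lit 423) (nat_lit 272) (nat_lit 205)) (XT.lf (nat_lit 0) (nat_lit 214295277717) (nat_lit 152) (nat_lit 24700461452) (nat_lit 0) (nat_lit 209173172725) (nat_lit 2) (nat_lit 5) (nat_lit 4) (nat_lit 4) (nat_lit 2) (nat_lit 4) (nat_lit 424) (nat_lit 272) (nat_lit 204))))))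 (XT.nd (nat_lit 468) (nat_lit 0) (nat_lit 0) (XT.nd (nat_lit 234) (nat_lit 76) (nat_lit 0) (XT.nd (nat_lit 78) (nat_lit 0) (nat_lit 0) (XT.lf (nat_lit 0) (nat_lit 227379155995) (nat_lit 152) (nat_lit 20818037014) (nat_lit 0) (nat_lit 222247880658) (nat_lit 2) (nat_lit 5) (nat_lit 4) (nat_lit 4) (nat_lit 2) (nat_lit 4) (nat_lit 425) (nat_lit 272) (nat_lit 203)) (XT.nd (nat_lit 78) (nat_lit 0) (nat_lit 0) (XT.lf (nat_lit 0) (nat_lit 241108938412) (nat_lit 152) (nat_lit 16757591897) (nat_lit 0) (nat_lit 235968929413) (nat_lit 2) (nat_lit 5) (nat_lit 4) (nat_lit 4) (nat_lit 2) (nat_lit 4) (nat_lit 426) (nat_lit 272) (nat_lit 202)) (XT.lf (nat_lit 0) (nat_lit 255517314926) (nat_lit 152) (nat_lit 12509458374) (nat_lit 0) (nat_lit 250368988154) (nat_lit 2) (nat_lit 5) (nat_lit 4) (nat_lit 4) (nat_lit 2) (nat_lit 4) (nat_lit 427) (nat_lit 272) (nat_lit 201)))) (XT.nd (nat_lit 78) (nat_lit 76)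 (nat_lit 0) (XT.lf (nat_lit 0) (nat_lit 270638591194) (nat_lit 152) (nat_lit 8063521842) (nat_lit 0) (nat_lit 265482342734) (nat_lit 2) (nat_lit 5) (nat_lit 4) (nat_lit 4) (nat_lit 2) (nat_lit 4) (nat_lit 428) (nat_lit 272) (nat_lit 200)) (XT.nd (nat_lit 78) (nat_lit 76) (nat_lit 0) (XT.lf (nat_lit 0) (nat_lit 286508770257) (nat_lit 152) (nat_lit 3409196737) (nat_lit 0) (nat_lit 281344977331) (nat_lit 2) (nat_lit 5) (nat_lit 4) (nat_lit 4) (nat_lit 2) (nat_lit 4) (nat_lit 429) (nat_lit 272) (nat_lit 199)) (XT.lf (nat_lit 0) (nat_lit 1513024913) (nat_lit 76) (nat_lit 301676235900) (nat_lit 76) (nat_lit 296505257768) (nat_lit 1) (nat_lit 4) (nat_lit 2) (nat_lit 5) (nat_lit 2) (nat_lit 4) (nat_lit 430) (nat_lit 272) (nat_lit 198))))) (XT.nd (nat_lit 234) (nat_lit 0) (nat_lit 0) (XT.nd (nat_lit 78) (nat_lit 0) (nat_lit 0) (XT.lf (nat_lit 0) (nat_lit 6786684948) (nat_lit 76) (nat_lit 313968128619)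 (nat_lit 76) (nat_lit 308790307435) (nat_lit 1) (nat_lit 4) (nat_lit 2) (nat_lit 5) (nat_lit 2) (nat_lit 4) (nat_lit 431) (nat_lit 272) (nat_lit 197)) (XT.nd (nat_lit 78) (nat_lit 0) (nat_lit 0) (XT.lf (nat_lit 0) (nat_lit 12311616258) (nat_lit 76) (nat_lit 326880647960) (nat_lit 76) (nat_lit 321696309583) (nat_lit 1) (nat_lit 4) (nat_lit 2) (nat_lit 5) (nat_lit 2) (nat_lit 4) (nat_lit 432) (nat_lit 272) (nat_lit 196)) (XT.lf (nat_lit 0) (nat_lit 18100973444) (nat_lit 76) (nat_lit 340444538016) (nat_lit 76) (nat_lit 335253992789) (nat_lit 1) (nat_lit 4) (nat_lit 2) (nat_lit 5) (nat_lit 2) (nat_lit 4) (nat_lit 433) (nat_lit 272) (nat_lit 195)))) (XT.nd (nat_lit 78) (nat_lit 0) (nat_lit 0) (XT.lf (nat_lit 0) (nat_lit 24168540688) (nat_lit 76) (nat_lit 354692093763) (nat_lit 76) (nat_lit 349495637250) (nat_lit 1) (nat_lit 4) (nat_lit 2) (nat_lit 5) (nat_lit 2) (nat_lit 4) (nat_lit 434) (nat_lit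 272) (nat_lit 194)) (XT.nd (nat_lit 78) (nat_lit 0) (nat_lit 0) (XT.lf (nat_lit 0) (nat_lit 30528764579) (nat_lit 76) (nat_lit 369657237954) (nat_lit 76) (nat_lit 364455151645) (nat_lit 1) (nat_lit 4) (nat_lit 2) (nat_lit 5) (nat_lit 2) (nat_lit 4) (nat_lit 435) (nat_lit 272) (nat_lit 193)) (XT.lf (nat_lit 0) (nat_lit 37196788508) (nat_lit 76) (nat_lit 385375601884) (nat_lit 76) (nat_lit 380168153864) (nat_lit 1) (nat_lit 4) (nat_lit 2) (nat_lit 5) (nat_lit 2) (nat_lit 4) (nat_lit 436) (nat_lit 272) (nat_lit 192))))))))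
noncomputable def xc37 : XT := (XT.nd (nat_lit 1794) (nat_lit 228) (nat_lit 0) (XT.nd (nat_lit 858) (nat_lit 380) (nat_lit 0) (XT.nd (nat_lit 390) (nat_lit 228) (nat_lit 0) (XT.nd (nat_lit 156) (nat_lit 76) (nat_lit 0) (XT.nd (nat_lit 78) (nat_lit 152) (nat_lit 0) (XT.lf (nat_lit 0) (nat_lit 6100013418) (nat_lit 76) (nat_lit 1661013377) (nat_lit 76) (nat_lit 1661013377) (nat_lit 16) (nat_lit 4) (nat_lit 17) (nat_lit 5) (nat_lit 17) (nat_lit 4) (nat_lit 354) (nat_lit 273) (nat_lit 273)) (XT.lf (nat_lit 0) (nat_lit 1418391665) (nat_lit 152) (nat_lit 17016618775) (nat_lit 0) (nat_lit 1095390191) (nat_lit 14) (nat_lit 5) (nat_lit 16) (nat_lit 4) (nat_lit 14) (nat_lit 4) (nat_lit 355) (nat_lit 273) (nat_lit 272))) (XT.nd (nat_lit 78) (nat_lit 76) (nat_lit 0) (XT.lf (nat_lit 0) (nat_lit 6286026488) (nat_lit 152) (nat_lit 8306851037) (nat_lit 0) (nat_lit 5655404563) (nat_lit 14) (nat_lit 5) (nat_lit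 16) (nat_lit 4) (nat_lit 14) (nat_lit 4) (nat_lit 356) (nat_lit 273) (nat_lit 271)) (XT.nd (nat_lit 78) (nat_lit 0) (nat_lit 0) (XT.lf (nat_lit 0) (nat_lit 560288151) (nat_lit 76) (nat_lit 10686467383) (nat_lit 76) (nat_lit 9762873600) (nat_lit 13) (nat_lit 4) (nat_lit 14) (nat_lit 5) (nat_lit 14) (nat_lit 4) (nat_lit 357) (nat_lit 273) (nat_lit 270)) (XT.lf (nat_lit 0) (nat_lit 9867904749) (nat_lit 76) (nat_lit 6572287129) (nat_lit 76) (nat_lit 5369672528) (nat_lit 13) (nat_lit 4) (nat_lit 14) (nat_lit 5) (nat_lit 14) (nat_lit 4) (nat_lit 358) (nat_lit 273) (nat_lit 269))))) (XT.nd (nat_lit 234) (nat_lit 76) (nat_lit 0) (XT.nd (nat_lit 78) (nat_lit 152) (nat_lit 0) (XT.lf (nat_lit 0) (nat_lit 19363497739) (nat_lit 76) (nat_lit 2381221638) (nat_lit 76) (nat_lit 912872925) (nat_lit 13) (nat_lit 4) (nat_lit 14) (nat_lit 5) (nat_lit 14) (nat_lit 4) (nat_lit 359) (nat_lit 273) (nat_lit 268))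 (XT.nd (nat_lit 78) (nat_lit 0) (nat_lit 0) (XT.lf (nat_lit 0) (nat_lit 3622353878) (nat_lit 152) (nat_lit 17940754010) (nat_lit 0) (nat_lit 1982897860) (nat_lit 11) (nat_lit 5) (nat_lit 13) (nat_lit 4) (nat_lit 11) (nat_lit 4) (nat_lit 360) (nat_lit 273) (nat_lit 267)) (XT.lf (nat_lit 0) (nat_lit 8306319350) (nat_lit 152) (nat_lit 9736872023) (nat_lit 0) (nat_lit 6437312215) (nat_lit 11) (nat_lit 5) (nat_lit 13) (nat_lit 4) (nat_lit 11) (nat_lit 4) (nat_lit 361) (nat_lit 273) (nat_lit 266)))) (XT.nd (nat_lit 78) (nat_lit 76) (nat_lit 0) (XT.lf (nat_lit 0) (nat_lit 13088214330) (nat_lit 152) (nat_lit 1379780982) (nat_lit 0) (nat_lit 11000587084) (nat_lit 11) (nat_lit 5) (nat_lit 13) (nat_lit 4) (nat_lit 11) (nat_lit 4) (nat_lit 362) (nat_lit 273) (nat_lit 265)) (XT.nd (nat_lit 78) (nat_lit 0) (nat_lit 0) (XT.lf (nat_lit 0) (nat_lit 7386842023) (nat_lit 76) (nat_lit 10707911564) (nat_lit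 76) (nat_lit 8412074688) (nat_lit 10) (nat_lit 4) (nat_lit 11) (nat_lit 5) (nat_lit 11) (nat_lit 4) (nat_lit 363) (nat_lit 273) (nat_lit 264)) (XT.lf (nat_lit 0) (nat_lit 16398898939) (nat_lit 76) (nat_lit 6848728774) (nat_lit 76) (nat_lit 4354597013) (nat_lit 10) (nat_lit 4) (nat_lit 11) (nat_lit 5) (nat_lit 11) (nat_lit 4) (nat_lit 364) (nat_lit 273) (nat_lit 263)))))) (XT.nd (nat_lit 468) (nat_lit 152) (nat_lit 0) (XT.nd (nat_lit 234) (nat_lit 76) (nat_lit 0) (XT.nd (nat_lit 78) (nat_lit 152) (nat_lit 0) (XT.lf (nat_lit 0) (nat_lit 25632225253) (nat_lit 76) (nat_lit 2904625672) (nat_lit 76) (nat_lit 221641638) (nat_lit 10) (nat_lit 4) (nat_lit 11) (nat_lit 5) (nat_lit 11) (nat_lit 4) (nat_lit 365) (nat_lit 273) (nat_lit 262)) (XT.nd (nat_lit 78) (nat_lit 0) (nat_lit 0) (XT.lf (nat_lit 0) (nat_lit 3970521493) (nat_lit 152) (nat_lit 24755649011) (nat_lit 0) (nat_lit 1244004026) (nat_lit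 8) (nat_lit 5) (nat_lit 10) (nat_lit 4) (nat_lit 8) (nat_lit 4) (nat_lit 366) (nat_lit 273) (nat_lit 261)) (XT.lf (nat_lit 0) (nat_lit 8349389346) (nat_lit 152) (nat_lit 17433939949) (nat_lit 0) (nat_lit 5459734186) (nat_lit 8) (nat_lit 5) (nat_lit 10) (nat_lit 4) (nat_lit 8) (nat_lit 4) (nat_lit 367) (nat_lit 273) (nat_lit 260)))) (XT.nd (nat_lit 78) (nat_lit 76) (nat_lit 0) (XT.lf (nat_lit 0) (nat_lit 12835882082) (nat_lit 152) (nat_lit 9958453334) (nat_lit 0) (nat_lit 9790857690) (nat_lit 8) (nat_lit 5) (nat_lit 10) (nat_lit 4) (nat_lit 8) (nat_lit 4) (nat_lit 368) (nat_lit 273) (nat_lit 259)) (XT.nd (nat_lit 78) (nat_lit 76) (nat_lit 0) (XT.lf (nat_lit 0) (nat_lit 17440681825) (nat_lit 152) (nat_lit 2311390391) (nat_lit 0) (nat_lit 14247686737) (nat_lit 8) (nat_lit 5) (nat_lit 10) (nat_lit 4) (nat_lit 8) (nat_lit 4) (nat_lit 369) (nat_lit 273) (nat_lit 258)) (XT.lf (nat_lit 0) (nat_lit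 5708152709) (nat_lit 76) (nat_lit 16555719937) (nat_lit 76) (nat_lit 13221800376) (nat_lit 7) (nat_lit 4) (nat_lit 8) (nat_lit 5) (nat_lit 8) (nat_lit 4) (nat_lit 370) (nat_lit 273) (nat_lit 257))))) (XT.nd (nat_lit 234) (nat_lit 152) (nat_lit 0) (XT.nd (nat_lit 78) (nat_lit 0) (nat_lit 0) (XT.lf (nat_lit 0) (nat_lit 14019455655) (nat_lit 76) (nat_lit 13248792697) (nat_lit 76) (nat_lit 9780659351) (nat_lit 7) (nat_lit 4) (nat_lit 8) (nat_lit 5) (nat_lit 8) (nat_lit 4) (nat_lit 371) (nat_lit 273) (nat_lit 256)) (XT.nd (nat_lit 78) (nat_lit 0) (nat_lit 0) (XT.lf (nat_lit 0) (nat_lit 22565882259) (nat_lit 76) (nat_lit 9862561374) (nat_lit 76) (nat_lit 6266605377) (nat_lit 7) (nat_lit 4) (nat_lit 8) (nat_lit 5) (nat_lit 8) (nat_lit 4) (nat_lit 372) (nat_lit 273) (nat_lit 255)) (XT.lf (nat_lit 0) (nat_lit 31367781153) (nat_lit 76) (nat_lit 6388963513) (nat_lit 76) (nat_lit 2671271658) (nat_lit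 7) (nat_lit 4) (nat_lit 8) (nat_lit 5) (nat_lit 8) (nat_lit 4) (nat_lit 373) (nat_lit 273) (nat_lit 254)))) (XT.nd (nat_lit 78) (nat_lit 76) (nat_lit 0) (XT.lf (nat_lit 0) (nat_lit 981450925) (nat_lit 152) (nat_lit 1821656371) (nat_lit 76) (nat_lit 39448036970) (nat_lit 6) (nat_lit 5) (nat_lit 8) (nat_lit 5) (nat_lit 7) (nat_lit 4) (nat_lit 374) (nat_lit 273) (nat_lit 253)) (XT.nd (nat_lit 78) (nat_lit 0) (nat_lit 0) (XT.lf (nat_lit 0) (nat_lit 4750106662) (nat_lit 152) (nat_lit 38418129694) (nat_lit 0) (nat_lit 993869728) (nat_lit 5) (nat_lit 5) (nat_lit 7) (nat_lit 4) (nat_lit 5) (nat_lit 4) (nat_lit 375) (nat_lit 273) (nat_lit 252)) (XT.lf (nat_lit 0) (nat_lit 8701945890) (nat_lit 152) (nat_lit 32621395536) (nat_lit 0) (nat_lit 4845556565) (nat_lit 5) (nat_lit 5) (nat_lit 7) (nat_lit 4) (nat_lit 5) (nat_lit 4) (nat_lit 376) (nat_lit 273) (nat_lit 251))))))) (XT.nd (nat_lit 858) (nat_lit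 152) (nat_lit 0) (XT.nd (nat_lit 390) (nat_lit 76) (nat_lit 0) (XT.nd (nat_lit 156) (nat_lit 0) (nat_lit 0) (XT.nd (nat_lit 78) (nat_lit 0) (nat_lit 0) (XT.lf (nat_lit 0) (nat_lit 12772750171) (nat_lit 152) (nat_lit 26686251655) (nat_lit 0) (nat_lit 8820977615) (nat_lit 5) (nat_lit 5) (nat_lit 7) (nat_lit 4) (nat_lit 5) (nat_lit 4) (nat_lit 377) (nat_lit 273) (nat_lit 250)) (XT.lf (nat_lit 0) (nat_lit 16972211896) (nat_lit 152) (nat_lit 20598566756) (nat_lit 0) (nat_lit 12929598168) (nat_lit 5) (nat_lit 5) (nat_lit 7) (nat_lit 4) (nat_lit 5) (nat_lit 4) (nat_lit 378) (nat_lit 273) (nat_lit 249))) (XT.nd (nat_lit 78) (nat_lit 0) (nat_lit 0) (XT.lf (nat_lit 0) (nat_lit 21310329783) (nat_lit 152) (nat_lit 14343846351) (nat_lit 0) (nat_lit 17181200653) (nat_lit 5) (nat_lit 5) (nat_lit 7) (nat_lit 4) (nat_lit 5) (nat_lit 4) (nat_lit 379) (nat_lit 273) (nat_lit 248)) (XT.nd (nat_lit 78) (nat_lit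 0) (nat_lit 0) (XT.lf (nat_lit 0) (nat_lit 25797432684) (nat_lit 152) (nat_lit 7907198249) (nat_lit 0) (nat_lit 21585907934) (nat_lit 5) (nat_lit 5) (nat_lit 7) (nat_lit 4) (nat_lit 5) (nat_lit 4) (nat_lit 380) (nat_lit 273) (nat_lit 247)) (XT.lf (nat_lit 0) (nat_lit 30444204177) (nat_lit 152) (nat_lit 1273297097) (nat_lit 0) (nat_lit 26154207407) (nat_lit 5) (nat_lit 5) (nat_lit 7) (nat_lit 4) (nat_lit 5) (nat_lit 4) (nat_lit 381) (nat_lit 273) (nat_lit 246))))) (XT.nd (nat_lit 234) (nat_lit 0) (nat_lit 0) (XT.nd (nat_lit 78) (nat_lit 0) (nat_lit 0) (XT.lf (nat_lit 0) (nat_lit 5757942217) (nat_lit 76) (nat_lit 29593663402) (nat_lit 76) (nat_lit 25228931375) (nat_lit 4) (nat_lit 4) (nat_lit 5) (nat_lit 5) (nat_lit 5) (nat_lit 4) (nat_lit 382) (nat_lit 273) (nat_lit 245)) (XT.nd (nat_lit 78) (nat_lit 0) (nat_lit 0) (XT.lf (nat_lit 0) (nat_lit 13068216154) (nat_lit 76) (nat_lit 27397229737)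 (nat_lit 76) (nat_lit 22961321275) (nat_lit 4) (nat_lit 4) (nat_lit 5) (nat_lit 5) (nat_lit 5) (nat_lit 4) (nat_lit 383) (nat_lit 273) (nat_lit 244)) (XT.lf (nat_lit 0) (nat_lit 20632829176) (nat_lit 76) (nat_lit 25144534578) (nat_lit 76) (nat_lit 20640839035) (nat_lit 4) (nat_lit 4) (nat_lit 5) (nat_lit 5) (nat_lit 5) (nat_lit 4) (nat_lit 384) (nat_lit 273) (nat_lit 243)))) (XT.nd (nat_lit 78) (nat_lit 0) (nat_lit 0) (XT.lf (nat_lit 0) (nat_lit 28469792264) (nat_lit 76) (nat_lit 22830214366) (nat_lit 76) (nat_lit 18261959698) (nat_lit 4) (nat_lit 4) (nat_lit 5) (nat_lit 5) (nat_lit 5) (nat_lit 4) (nat_lit 385) (nat_lit 273) (nat_lit 242)) (XT.nd (nat_lit 78) (nat_lit 0) (nat_lit 0) (XT.lf (nat_lit 0) (nat_lit 36597764856) (nat_lit 76) (nat_lit 20448758814) (nat_lit 76) (nat_lit 15819019265) (nat_lit 4) (nat_lit 4) (nat_lit 5) (nat_lit 5) (nat_lit 5) (nat_lit 4) (nat_lit 386) (nat_lit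 273) (nat_lit 241)) (XT.lf (nat_lit 0) (nat_lit 45036099267) (nat_lit 76) (nat_lit 17994497789) (nat_lit 76) (nat_lit 13306201211) (nat_lit 4) (nat_lit 4) (nat_lit 5) (nat_lit 5) (nat_lit 5) (nat_lit 4) (nat_lit 387) (nat_lit 273) (nat_lit 240)))))) (XT.nd (nat_lit 468) (nat_lit 0) (nat_lit 0) (XT.nd (nat_lit 234) (nat_lit 152) (nat_lit 0) (XT.nd (nat_lit 78) (nat_lit 0) (nat_lit 0) (XT.lf (nat_lit 0) (nat_lit 53804886769) (nat_lit 76) (nat_lit 15461587814) (nat_lit 76) (nat_lit 10717522637) (nat_lit 4) (nat_lit 4) (nat_lit 5) (nat_lit 5) (nat_lit 5) (nat_lit 4) (nat_lit 388) (nat_lit 273) (nat_lit 239)) (XT.nd (nat_lit 78) (nat_lit 0) (nat_lit 0) (XT.lf (nat_lit 0) (nat_lit 62925005428) (nat_lit 76) (nat_lit 12843998150) (nat_lit 76) (nat_lit 8046820021) (nat_lit 4) (nat_lit 4) (nat_lit 5) (nat_lit 5) (nat_lit 5) (nat_lit 4) (nat_lit 389) (nat_lit 273) (nat_lit 238)) (XT.lf (nat_lit 0)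 (nat_lit 72418169812) (nat_lit 76) (nat_lit 10135496440) (nat_lit 76) (nat_lit 5287734548) (nat_lit 4) (nat_lit 4) (nat_lit 5) (nat_lit 5) (nat_lit 5) (nat_lit 4) (nat_lit 390) (nat_lit 273) (nat_lit 237)))) (XT.nd (nat_lit 78) (nat_lit 152) (nat_lit 0) (XT.lf (nat_lit 0) (nat_lit 82306982694) (nat_lit 76) (nat_lit 7329633872) (nat_lit 76) (nat_lit 2433696966) (nat_lit 4) (nat_lit 4) (nat_lit 5) (nat_lit 5) (nat_lit 5) (nat_lit 4) (nat_lit 391) (nat_lit 273) (nat_lit 236)) (XT.nd (nat_lit 78) (nat_lit 76) (nat_lit 0) (XT.lf (nat_lit 0) (nat_lit 505377971) (nat_lit 152) (nat_lit 3905793028) (nat_lit 76) (nat_lit 92101052073) (nat_lit 3) (nat_lit 5) (nat_lit 5) (nat_lit 5) (nat_lit 4) (nat_lit 4) (nat_lit 392) (nat_lit 273) (nat_lit 235)) (XT.lf (nat_lit 0) (nat_lit 2202291440) (nat_lit 76) (nat_lit 1303955129) (nat_lit 152) (nat_lit 97668163399) (nat_lit 2) (nat_lit 5) (nat_lit 3) (nat_lit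 5) (nat_lit 4) (nat_lit 4) (nat_lit 393) (nat_lit 273) (nat_lit 234))))) (XT.nd (nat_lit 234) (nat_lit 0) (nat_lit 0) (XT.nd (nat_lit 78) (nat_lit 0) (nat_lit 0) (XT.lf (nat_lit 0) (nat_lit 6717349703) (nat_lit 152) (nat_lit 97419747274) (nat_lit 0) (nat_lit 1929607404) (nat_lit 2) (nat_lit 5) (nat_lit 4) (nat_lit 4) (nat_lit 2) (nat_lit 4) (nat_lit 394) (nat_lit 273) (nat_lit 233)) (XT.nd (nat_lit 78) (nat_lit 0) (nat_lit 0) (XT.lf (nat_lit 0) (nat_lit 10074556377) (nat_lit 152) (nat_lit 95880719388) (nat_lit 0) (nat_lit 5249067694) (nat_lit 2) (nat_lit 5) (nat_lit 4) (nat_lit 4) (nat_lit 2) (nat_lit 4) (nat_lit 395) (nat_lit 273) (nat_lit 232)) (XT.lf (nat_lit 0) (nat_lit 13565501546) (nat_lit 152) (nat_lit 94331012122) (nat_lit 0) (nat_lit 8704063926) (nat_lit 2) (nat_lit 5) (nat_lit 4) (nat_lit 4) (nat_lit 2) (nat_lit 4) (nat_lit 396) (nat_lit 273) (nat_lit 231)))) (XT.nd (nat_lit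 78) (nat_lit 0) (nat_lit 0) (XT.lf (nat_lit 0) (nat_lit 17198496983) (nat_lit 152) (nat_lit 92766935698) (nat_lit 0) (nat_lit 12302822281) (nat_lit 2) (nat_lit 5) (nat_lit 4) (nat_lit 4) (nat_lit 2) (nat_lit 4) (nat_lit 397) (nat_lit 273) (nat_lit 230)) (XT.nd (nat_lit 78) (nat_lit 0) (nat_lit 0) (XT.lf (nat_lit 0) (nat_lit 20982192678) (nat_lit 152) (nat_lit 91184766125) (nat_lit 0) (nat_lit 16053911231) (nat_lit 2) (nat_lit 5) (nat_lit 4) (nat_lit 4) (nat_lit 2) (nat_lit 4) (nat_lit 398) (nat_lit 273) (nat_lit 229)) (XT.lf (nat_lit 0) (nat_lit 24925597430) (nat_lit 152) (nat_lit 89580736331) (nat_lit 0) (nat_lit 19966261940) (nat_lit 2) (nat_lit 5) (nat_lit 4) (nat_lit 4) (nat_lit 2) (nat_lit 4) (nat_lit 399) (nat_lit 273) (nat_lit 228))))))))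
noncomputable def xc38 : XT := (XT.nd (nat_lit 1794) (nat_lit 76) (nat_lit 0) (XT.nd (nat_lit 858) (nat_lit 0) (nat_lit 0) (XT.nd (nat_lit 390) (nat_lit 0) (nat_lit 0) (XT.nd (nat_lit 156) (nat_lit 0) (nat_lit 0) (XT.nd (nat_lit 78) (nat_lit 0) (nat_lit 0) (XT.lf (nat_lit 0) (nat_lit 29038100298) (nat_lit 152) (nat_lit 87951027199) (nat_lit 0) (nat_lit 24049189530) (nat_lit 2) (nat_lit 5) (nat_lit 4) (nat_lit 4) (nat_lit 2) (nat_lit 4) (nat_lit 400) (nat_lit 273) (nat_lit 227)) (XT.lf (nat_lit 0) (nat_lit 33329492956) (nat_lit 152) (nat_lit 86291758469) (nat_lit 0) (nat_lit 28312415255) (nat_lit 2) (nat_lit 5) (nat_lit 4) (nat_lit 4) (nat_lit 2) (nat_lit 4) (nat_lit 401) (nat_lit 273) (nat_lit 226))) (XT.nd (nat_lit 78) (nat_lit 0) (nat_lit 0) (XT.lf (nat_lit 0) (nat_lit 37809993005) (nat_lit 152) (nat_lit 84598979500) (nat_lit 0) (nat_lit 32766089655) (nat_lit 2) (nat_lit 5) (nat_lit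 4) (nat_lit 4) (nat_lit 2) (nat_lit 4) (nat_lit 402) (nat_lit 273) (nat_lit 225)) (XT.nd (nat_lit 78) (nat_lit 0) (nat_lit 0) (XT.lf (nat_lit 0) (nat_lit 42490268303) (nat_lit 152) (nat_lit 82868659867) (nat_lit 0) (nat_lit 37420816714) (nat_lit 2) (nat_lit 5) (nat_lit 4) (nat_lit 4) (nat_lit 2) (nat_lit 4) (nat_lit 403) (nat_lit 273) (nat_lit 224)) (XT.lf (nat_lit 0) (nat_lit 47381462362) (nat_lit 152) (nat_lit 81096679761) (nat_lit 0) (nat_lit 42287679118) (nat_lit 2) (nat_lit 5) (nat_lit 4) (nat_lit 4) (nat_lit 2) (nat_lit 4) (nat_lit 404) (nat_lit 273) (nat_lit 223))))) (XT.nd (nat_lit 234) (nat_lit 0) (nat_lit 0) (XT.nd (nat_lit 78) (nat_lit 0) (nat_lit 0) (XT.lf (nat_lit 0) (nat_lit 52495220881) (nat_lit 152) (nat_lit 79278820181) (nat_lit 0) (nat_lit 47378264633) (nat_lit 2) (nat_lit 5) (nat_lit 4) (nat_lit 4) (nat_lit 2) (nat_lit 4) (nat_lit 405) (nat_lit 273) (nat_lit 222)) (XT.nd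 (nat_lit 78) (nat_lit 0) (nat_lit 0) (XT.lf (nat_lit 0) (nat_lit 57843719478) (nat_lit 152) (nat_lit 77410752891) (nat_lit 0) (nat_lit 52704693701) (nat_lit 2) (nat_lit 5) (nat_lit 4) (nat_lit 4) (nat_lit 2) (nat_lit 4) (nat_lit 406) (nat_lit 273) (nat_lit 221)) (XT.lf (nat_lit 0) (nat_lit 63439692672) (nat_lit 152) (nat_lit 75488030112) (nat_lit 0) (nat_lit 58279648296) (nat_lit 2) (nat_lit 5) (nat_lit 4) (nat_lit 4) (nat_lit 2) (nat_lit 4) (nat_lit 407) (nat_lit 273) (nat_lit 220)))) (XT.nd (nat_lit 78) (nat_lit 0) (nat_lit 0) (XT.lf (nat_lit 0) (nat_lit 69296464208) (nat_lit 152) (nat_lit 73506073932) (nat_lit 0) (nat_lit 64116402120) (nat_lit 2) (nat_lit 5) (nat_lit 4) (nat_lit 4) (nat_lit 2) (nat_lit 4) (nat_lit 408) (nat_lit 273) (nat_lit 219)) (XT.nd (nat_lit 78) (nat_lit 0) (nat_lit 0) (XT.lf (nat_lit 0) (nat_lit 75427978782) (nat_lit 152) (nat_lit 71460165407) (nat_lit 0) (nat_lit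 70228852205) (nat_lit 2) (nat_lit 5) (nat_lit 4) (nat_lit 4) (nat_lit 2) (nat_lit 4) (nat_lit 409) (nat_lit 273) (nat_lit 218)) (XT.lf (nat_lit 0) (nat_lit 81848835237) (nat_lit 152) (nat_lit 69345433327) (nat_lit 0) (nat_lit 76631552004) (nat_lit 2) (nat_lit 5) (nat_lit 4) (nat_lit 4) (nat_lit 2) (nat_lit 4) (nat_lit 410) (nat_lit 273) (nat_lit 217)))))) (XT.nd (nat_lit 468) (nat_lit 0) (nat_lit 0) (XT.nd (nat_lit 234) (nat_lit 0) (nat_lit 0) (XT.nd (nat_lit 78) (nat_lit 0) (nat_lit 0) (XT.lf (nat_lit 0) (nat_lit 88574321326) (nat_lit 152) (nat_lit 67156842616) (nat_lit 0) (nat_lit 83339746040) (nat_lit 2) (nat_lit 5) (nat_lit 4) (nat_lit 4) (nat_lit 2) (nat_lit 4) (nat_lit 411) (nat_lit 273) (nat_lit 216)) (XT.nd (nat_lit 78) (nat_lit 0) (nat_lit 0) (XT.lf (nat_lit 0) (nat_lit 95620450113) (nat_lit 152) (nat_lit 64889182343) (nat_lit 0) (nat_lit 90369406205) (nat_lit 2) (nat_lit 5) (nat_lit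 4) (nat_lit 4) (nat_lit 2) (nat_lit 4) (nat_lit 412) (nat_lit 273) (nat_lit 215)) (XT.lf (nat_lit 0) (nat_lit 103003998093) (nat_lit 152) (nat_lit 62537053317) (nat_lit 0) (nat_lit 97737269783) (nat_lit 2) (nat_lit 5) (nat_lit 4) (nat_lit 4) (nat_lit 2) (nat_lit 4) (nat_lit 413) (nat_lit 273) (nat_lit 214)))) (XT.nd (nat_lit 78) (nat_lit 0) (nat_lit 0) (XT.lf (nat_lit 0) (nat_lit 110742545144) (nat_lit 152) (nat_lit 60094855231) (nat_lit 0) (nat_lit 105460879308) (nat_lit 2) (nat_lit 5) (nat_lit 4) (nat_lit 4) (nat_lit 2) (nat_lit 4) (nat_lit 414) (nat_lit 273) (nat_lit 213)) (XT.nd (nat_lit 78) (nat_lit 0) (nat_lit 0) (XT.lf (nat_lit 0) (nat_lit 118854516376) (nat_lit 152) (nat_lit 57556773327) (nat_lit 0) (nat_lit 113558624326) (nat_lit 2) (nat_lit 5) (nat_lit 4) (nat_lit 4) (nat_lit 2) (nat_lit 4) (nat_lit 415) (nat_lit 273) (nat_lit 212)) (XT.lf (nat_lit 0) (nat_lit 127359226008) (nat_lit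 152) (nat_lit 54916764555) (nat_lit 0) (nat_lit 122049785182) (nat_lit 2) (nat_lit 5) (nat_lit 4) (nat_lit 4) (nat_lit 2) (nat_lit 4) (nat_lit 416) (nat_lit 273) (nat_lit 211))))) (XT.nd (nat_lit 234) (nat_lit 0) (nat_lit 0) (XT.nd (nat_lit 78) (nat_lit 0) (nat_lit 0) (XT.lf (nat_lit 0) (nat_lit 136276923348) (nat_lit 152) (nat_lit 52168543177) (nat_lit 0) (nat_lit 130954578925) (nat_lit 2) (nat_lit 5) (nat_lit 4) (nat_lit 4) (nat_lit 2) (nat_lit 4) (nat_lit 417) (nat_lit 273) (nat_lit 210)) (XT.nd (nat_lit 78) (nat_lit 0) (nat_lit 0) (XT.lf (nat_lit 0) (nat_lit 145628841008) (nat_lit 152) (nat_lit 49305565810) (nat_lit 0) (nat_lit 140294207447) (nat_lit 2) (nat_lit 5) (nat_lit 4) (nat_lit 4) (nat_lit 2) (nat_lit 4) (nat_lit 418) (nat_lit 273) (nat_lit 209)) (XT.lf (nat_lit 0) (nat_lit 155437245460) (nat_lit 152) (nat_lit 46321015842) (nat_lit 0) (nat_lit 150090907956) (nat_lit 2) (nat_lit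 5) (nat_lit 4) (nat_lit 4) (nat_lit 2) (nat_lit 4) (nat_lit 419) (nat_lit 273) (nat_lit 208)))) (XT.nd (nat_lit 78) (nat_lit 0) (nat_lit 0) (XT.lf (nat_lit 0) (nat_lit 165725490047) (nat_lit 152) (nat_lit 43207787201) (nat_lit 0) (nat_lit 160368005932) (nat_lit 2) (nat_lit 5) (nat_lit 4) (nat_lit 4) (nat_lit 2) (nat_lit 4) (nat_lit 420) (nat_lit 273) (nat_lit 207)) (XT.nd (nat_lit 78) (nat_lit 0) (nat_lit 0) (XT.lf (nat_lit 0) (nat_lit 176518070590) (nat_lit 152) (nat_lit 39958467437) (nat_lit 0) (nat_lit 171149970654) (nat_lit 2) (nat_lit 5) (nat_lit 4) (nat_lit 4) (nat_lit 2) (nat_lit 4) (nat_lit 421) (nat_lit 273) (nat_lit 206)) (XT.lf (nat_lit 0) (nat_lit 187840683709) (nat_lit 152) (nat_lit 36565320076) (nat_lit 0) (nat_lit 182462473467) (nat_lit 2) (nat_lit 5) (nat_lit 4) (nat_lit 4) (nat_lit 2) (nat_lit 4) (nat_lit 422) (nat_lit 273) (nat_lit 205))))))) (XT.nd (nat_lit 858) (nat_lit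 0) (nat_lit 0) (XT.nd (nat_lit 390) (nat_lit 76) (nat_lit 0) (XT.nd (nat_lit 156) (nat_lit 0) (nat_lit 0) (XT.nd (nat_lit 78) (nat_lit 0) (nat_lit 0) (XT.lf (nat_lit 0) (nat_lit 199720288006) (nat_lit 152) (nat_lit 33020266194) (nat_lit 0) (nat_lit 194332448903) (nat_lit 2) (nat_lit 5) (nat_lit 4) (nat_lit 4) (nat_lit 2) (nat_lit 4) (nat_lit 423) (nat_lit 273) (nat_lit 204)) (XT.lf (nat_lit 0) (nat_lit 212185168255) (nat_lit 152) (nat_lit 29314865188) (nat_lit 0) (nat_lit 206788158806) (nat_lit 2) (nat_lit 5) (nat_lit 4) (nat_lit 4) (nat_lit 2) (nat_lit 4) (nat_lit 424) (nat_lit 273) (nat_lit 203))) (XT.nd (nat_lit 78) (nat_lit 0) (nat_lit 0) (XT.lf (nat_lit 0) (nat_lit 225265002740) (nat_lit 152) (nat_lit 25440294673) (nat_lit 0) (nat_lit 219859259630) (nat_lit 2) (nat_lit 5) (nat_lit 4) (nat_lit 4) (nat_lit 2) (nat_lit 4) (nat_lit 425) (nat_lit 273) (nat_lit 202)) (XT.nd (nat_lit 78)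 (nat_lit 0) (nat_lit 0) (XT.lf (nat_lit 0) (nat_lit 238990933926) (nat_lit 152) (nat_lit 21387329483) (nat_lit 0) (nat_lit 233576873042) (nat_lit 2) (nat_lit 5) (nat_lit 4) (nat_lit 4) (nat_lit 2) (nat_lit 4) (nat_lit 426) (nat_lit 273) (nat_lit 201)) (XT.lf (nat_lit 0) (nat_lit 253395642600) (nat_lit 152) (nat_lit 17146319700) (nat_lit 0) (nat_lit 247973660028) (nat_lit 2) (nat_lit 5) (nat_lit 4) (nat_lit 4) (nat_lit 2) (nat_lit 4) (nat_lit 427) (nat_lit 273) (nat_lit 200))))) (XT.nd (nat_lit 234) (nat_lit 76) (nat_lit 0) (XT.nd (nat_lit 78) (nat_lit 0) (nat_lit 0) (XT.lf (nat_lit 0) (nat_lit 268513425689) (nat_lit 152) (nat_lit 12707167682) (nat_lit 0) (nat_lit 263083898651) (nat_lit 2) (nat_lit 5) (nat_lit 4) (nat_lit 4) (nat_lit 2) (nat_lit 4) (nat_lit 428) (nat_lit 273) (nat_lit 199)) (XT.nd (nat_lit 78) (nat_lit 0) (nat_lit 0) (XT.lf (nat_lit 0) (nat_lit 284380277913) (nat_lit 152)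 (nat_lit 8059304018) (nat_lit 0) (nat_lit 278943565670) (nat_lit 2) (nat_lit 5) (nat_lit 4) (nat_lit 4) (nat_lit 2) (nat_lit 4) (nat_lit 429) (nat_lit 273) (nat_lit 198)) (XT.lf (nat_lit 0) (nat_lit 301033977492) (nat_lit 152) (nat_lit 3191662368) (nat_lit 0) (nat_lit 295590422197) (nat_lit 2) (nat_lit 5) (nat_lit 4) (nat_lit 4) (nat_lit 2) (nat_lit 4) (nat_lit 430) (nat_lit 273) (nat_lit 197)))) (XT.nd (nat_lit 78) (nat_lit 0) (nat_lit 0) (XT.lf (nat_lit 0) (nat_lit 1970412393) (nat_lit 76) (nat_lit 316574527359) (nat_lit 76) (nat_lit 311124454870) (nat_lit 1) (nat_lit 4) (nat_lit 2) (nat_lit 5) (nat_lit 2) (nat_lit 4) (nat_lit 431) (nat_lit 273) (nat_lit 196)) (XT.nd (nat_lit 78) (nat_lit 0) (nat_lit 0) (XT.lf (nat_lit 0) (nat_lit 7489577513) (nat_lit 76) (nat_lit 329489849016) (nat_lit 76) (nat_lit 324033569677) (nat_lit 1) (nat_lit 4) (nat_lit 2) (nat_lit 5) (nat_lit 2) (nat_lit 4)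 (nat_lit 432) (nat_lit 273) (nat_lit 195)) (XT.lf (nat_lit 0) (nat_lit 13273443089) (nat_lit 76) (nat_lit 343056407944) (nat_lit 76) (nat_lit 337594217319) (nat_lit 1) (nat_lit 4) (nat_lit 2) (nat_lit 5) (nat_lit 2) (nat_lit 4) (nat_lit 433) (nat_lit 273) (nat_lit 194)))))) (XT.nd (nat_lit 40716) (nat_lit 0) (nat_lit 760) (XT.nd (nat_lit 40482) (nat_lit 0) (nat_lit 1140) (XT.nd (nat_lit 78) (nat_lit 0) (nat_lit 0) (XT.lf (nat_lit 0) (nat_lit 19335780228) (nat_lit 76) (nat_lit 357306505475) (nat_lit 76) (nat_lit 351838685054) (nat_lit 1) (nat_lit 4) (nat_lit 2) (nat_lit 5) (nat_lit 2) (nat_lit 4) (nat_lit 434) (nat_lit 273) (nat_lit 193)) (XT.nd (nat_lit 78) (nat_lit 0) (nat_lit 0) (XT.lf (nat_lit 0) (nat_lit 25691023067) (nat_lit 76) (nat_lit 372274070412) (nat_lit 76) (nat_lit 366800888280) (nat_lit 1) (nat_lit 4) (nat_lit 2) (nat_lit 5) (nat_lit 2) (nat_lit 4) (nat_lit 435) (nat_lit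 273) (nat_lit 192)) (XT.lf (nat_lit 0) (nat_lit 32354303136) (nat_lit 76) (nat_lit 387994739815) (nat_lit 76) (nat_lit 382516451291) (nat_lit 1) (nat_lit 4) (nat_lit 2) (nat_lit 5) (nat_lit 2) (nat_lit 4) (nat_lit 436) (nat_lit 273) (nat_lit 191)))) (XT.nd (nat_lit 78) (nat_lit 76) (nat_lit 0) (XT.lf (nat_lit 0) (nat_lit 2760202366) (nat_lit 152) (nat_lit 3267021385) (nat_lit 0) (nat_lit 2760202366) (nat_lit 17) (nat_lit 5) (nat_lit 19) (nat_lit 4) (nat_lit 17) (nat_lit 4) (nat_lit 352) (nat_lit 274) (nat_lit 274)) (XT.nd (nat_lit 78) (nat_lit 0) (nat_lit 0) (XT.lf (nat_lit 0) (nat_lit 2569853643) (nat_lit 76) (nat_lit 7990430562) (nat_lit 76) (nat_lit 7634321437) (nat_lit 16) (nat_lit 4) (nat_lit 17) (nat_lit 5) (nat_lit 17) (nat_lit 4) (nat_lit 353) (nat_lit 274) (nat_lit 273)) (XT.lf (nat_lit 0) (nat_lit 12051678974) (nat_lit 76) (nat_lit 3745862680) (nat_lit 76) (nat_lit 3050602008)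 (nat_lit 16) (nat_lit 4) (nat_lit 17) (nat_lit 5) (nat_lit 17) (nat_lit 4) (nat_lit 354) (nat_lit 274) (nat_lit 272))))) (XT.nd (nat_lit 234) (nat_lit 228) (nat_lit 0) (XT.nd (nat_lit 78) (nat_lit 0) (nat_lit 0) (XT.lf (nat_lit 0) (nat_lit 1590556267) (nat_lit 152) (nat_lit 17327470913) (nat_lit 0) (nat_lit 620782795) (nat_lit 14) (nat_lit 5) (nat_lit 16) (nat_lit 4) (nat_lit 14) (nat_lit 4) (nat_lit 355) (nat_lit 274) (nat_lit 271)) (XT.nd (nat_lit 78) (nat_lit 0) (nat_lit 0) (XT.lf (nat_lit 0) (nat_lit 6380612950) (nat_lit 152) (nat_lit 8762117641) (nat_lit 0) (nat_lit 5117867620) (nat_lit 14) (nat_lit 5) (nat_lit 16) (nat_lit 4) (nat_lit 14) (nat_lit 4) (nat_lit 356) (nat_lit 274) (nat_lit 270)) (XT.lf (nat_lit 0) (nat_lit 11258710386) (nat_lit 152) (nat_lit 50448758) (nat_lit 0) (nat_lit 9716944238) (nat_lit 14) (nat_lit 5) (nat_lit 16) (nat_lit 4) (nat_lit 14) (nat_lit 4) (nat_lit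 357) (nat_lit 274) (nat_lit 269)))) (XT.nd (nat_lit 78) (nat_lit 152) (nat_lit 0) (XT.lf (nat_lit 0) (nat_lit 9120180537) (nat_lit 76) (nat_lit 7258674131) (nat_lit 76) (nat_lit 5451173871) (nat_lit 13) (nat_lit 4) (nat_lit 14) (nat_lit 5) (nat_lit 14) (nat_lit 4) (nat_lit 358) (nat_lit 274) (nat_lit 268)) (XT.nd (nat_lit 78) (nat_lit 152) (nat_lit 0) (XT.lf (nat_lit 0) (nat_lit 18486898062) (nat_lit 76) (nat_lit 3127457084) (nat_lit 76) (nat_lit 1066876718) (nat_lit 13) (nat_lit 4) (nat_lit 14) (nat_lit 5) (nat_lit 14) (nat_lit 4) (nat_lit 359) (nat_lit 274) (nat_lit 267)) (XT.lf (nat_lit 0) (nat_lit 3377074125) (nat_lit 152) (nat_lit 19012457982) (nat_lit 0) (nat_lit 1185065516) (nat_lit 11) (nat_lit 5) (nat_lit 13) (nat_lit 4) (nat_lit 11) (nat_lit 4) (nat_lit 360) (nat_lit 274) (nat_lit 266))))))))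
noncomputable def xc39 : XT := (XT.nd (nat_lit 1794) (nat_lit 152) (nat_lit 0) (XT.nd (nat_lit 858) (nat_lit 228) (nat_lit 0) (XT.nd (nat_lit 390) (nat_lit 228) (nat_lit 0) (XT.nd (nat_lit 156) (nat_lit 76) (nat_lit 0) (XT.nd (nat_lit 78) (nat_lit 0) (nat_lit 0) (XT.lf (nat_lit 0) (nat_lit 7994567028) (nat_lit 152) (nat_lit 10933934553) (nat_lit 0) (nat_lit 5583938308) (nat_lit 11) (nat_lit 5) (nat_lit 13) (nat_lit 4) (nat_lit 11) (nat_lit 4) (nat_lit 361) (nat_lit 274) (nat_lit 265)) (XT.lf (nat_lit 0) (nat_lit 12713154799) (nat_lit 152) (nat_lit 2696232616) (nat_lit 0) (nat_lit 10094316450) (nat_lit 11) (nat_lit 5) (nat_lit 13) (nat_lit 4) (nat_lit 11) (nat_lit 4) (nat_lit 362) (nat_lit 274) (nat_lit 264))) (XT.nd (nat_lit 78) (nat_lit 0) (nat_lit 0) (XT.lf (nat_lit 0) (nat_lit 5909399079) (nat_lit 76) (nat_lit 11726935373) (nat_lit 76) (nat_lit 8909802138) (nat_lit 10) (nat_lit 4) (nat_lit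 11) (nat_lit 5) (nat_lit 11) (nat_lit 4) (nat_lit 363) (nat_lit 274) (nat_lit 263)) (XT.nd (nat_lit 78) (nat_lit 0) (nat_lit 0) (XT.lf (nat_lit 0) (nat_lit 14809586020) (nat_lit 76) (nat_lit 7920454450) (nat_lit 76) (nat_lit 4914468943) (nat_lit 10) (nat_lit 4) (nat_lit 11) (nat_lit 5) (nat_lit 11) (nat_lit 4) (nat_lit 364) (nat_lit 274) (nat_lit 262)) (XT.lf (nat_lit 0) (nat_lit 23936369501) (nat_lit 76) (nat_lit 4026543602) (nat_lit 76) (nat_lit 840698788) (nat_lit 10) (nat_lit 4) (nat_lit 11) (nat_lit 5) (nat_lit 11) (nat_lit 4) (nat_lit 365) (nat_lit 274) (nat_lit 261))))) (XT.nd (nat_lit 234) (nat_lit 76) (nat_lit 0) (XT.nd (nat_lit 78) (nat_lit 0) (nat_lit 0) (XT.lf (nat_lit 0) (nat_lit 3268204382) (nat_lit 152) (nat_lit 26681813170) (nat_lit 0) (nat_lit 70928771) (nat_lit 8) (nat_lit 5) (nat_lit 10) (nat_lit 4) (nat_lit 8) (nat_lit 4) (nat_lit 366) (nat_lit 274) (nat_lit 260)) (XT.nd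 (nat_lit 78) (nat_lit 0) (nat_lit 0) (XT.lf (nat_lit 0) (nat_lit 7592770523) (nat_lit 152) (nat_lit 19463668937) (nat_lit 0) (nat_lit 4240125680) (nat_lit 8) (nat_lit 5) (nat_lit 10) (nat_lit 4) (nat_lit 8) (nat_lit 4) (nat_lit 367) (nat_lit 274) (nat_lit 259)) (XT.lf (nat_lit 0) (nat_lit 12027547342) (nat_lit 152) (nat_lit 12086815494) (nat_lit 0) (nat_lit 8526931803) (nat_lit 8) (nat_lit 5) (nat_lit 10) (nat_lit 4) (nat_lit 8) (nat_lit 4) (nat_lit 368) (nat_lit 274) (nat_lit 258)))) (XT.nd (nat_lit 78) (nat_lit 76) (nat_lit 0) (XT.lf (nat_lit 0) (nat_lit 16583093832) (nat_lit 152) (nat_lit 4533688904) (nat_lit 0) (nat_lit 12941553819) (nat_lit 8) (nat_lit 5) (nat_lit 10) (nat_lit 4) (nat_lit 8) (nat_lit 4) (nat_lit 369) (nat_lit 274) (nat_lit 257)) (XT.nd (nat_lit 78) (nat_lit 0) (nat_lit 0) (XT.lf (nat_lit 0) (nat_lit 3319953720) (nat_lit 76) (nat_lit 18002136594) (nat_lit 76) (nat_lit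 14226382797) (nat_lit 7) (nat_lit 4) (nat_lit 8) (nat_lit 5) (nat_lit 8) (nat_lit 4) (nat_lit 370) (nat_lit 274) (nat_lit 256)) (XT.lf (nat_lit 0) (nat_lit 11543236427) (nat_lit 76) (nat_lit 14737181197) (nat_lit 76) (nat_lit 10833604749) (nat_lit 7) (nat_lit 4) (nat_lit 8) (nat_lit 5) (nat_lit 8) (nat_lit 4) (nat_lit 371) (nat_lit 274) (nat_lit 255)))))) (XT.nd (nat_lit 468) (nat_lit 76) (nat_lit 0) (XT.nd (nat_lit 234) (nat_lit 152) (nat_lit 0) (XT.nd (nat_lit 78) (nat_lit 0) (nat_lit 0) (XT.lf (nat_lit 0) (nat_lit 20005834231) (nat_lit 76) (nat_lit 11390923058) (nat_lit 76) (nat_lit 7365610752) (nat_lit 7) (nat_lit 4) (nat_lit 8) (nat_lit 5) (nat_lit 8) (nat_lit 4) (nat_lit 372) (nat_lit 274) (nat_lit 254)) (XT.nd (nat_lit 78) (nat_lit 0) (nat_lit 0) (XT.lf (nat_lit 0) (nat_lit 28727896174) (nat_lit 76) (nat_lit 7955394896) (nat_lit 76) (nat_lit 3814143677) (nat_lit 7) (nat_lit 4) (nat_lit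 8) (nat_lit 5) (nat_lit 8) (nat_lit 4) (nat_lit 373) (nat_lit 274) (nat_lit 253)) (XT.lf (nat_lit 0) (nat_lit 37730189070) (nat_lit 76) (nat_lit 4422416883) (nat_lit 76) (nat_lit 170747651) (nat_lit 7) (nat_lit 4) (nat_lit 8) (nat_lit 5) (nat_lit 8) (nat_lit 4) (nat_lit 374) (nat_lit 274) (nat_lit 252)))) (XT.nd (nat_lit 78) (nat_lit 0) (nat_lit 0) (XT.lf (nat_lit 0) (nat_lit 2824281066) (nat_lit 76) (nat_lit 678699571) (nat_lit 152) (nat_lit 40736497227) (nat_lit 5) (nat_lit 5) (nat_lit 6) (nat_lit 5) (nat_lit 7) (nat_lit 4) (nat_lit 375) (nat_lit 274) (nat_lit 251)) (XT.nd (nat_lit 78) (nat_lit 0) (nat_lit 0) (XT.lf (nat_lit 0) (nat_lit 7405868875) (nat_lit 152) (nat_lit 35681733061) (nat_lit 0) (nat_lit 3161124461) (nat_lit 5) (nat_lit 5) (nat_lit 7) (nat_lit 4) (nat_lit 5) (nat_lit 4) (nat_lit 376) (nat_lit 274) (nat_lit 250)) (XT.lf (nat_lit 0) (nat_lit 11440144975) (nat_lit 152)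 (nat_lit 29816938534) (nat_lit 0) (nat_lit 7104559389) (nat_lit 5) (nat_lit 5) (nat_lit 7) (nat_lit 4) (nat_lit 5) (nat_lit 4) (nat_lit 377) (nat_lit 274) (nat_lit 249))))) (XT.nd (nat_lit 234) (nat_lit 76) (nat_lit 0) (XT.nd (nat_lit 78) (nat_lit 0) (nat_lit 0) (XT.lf (nat_lit 0) (nat_lit 15604817956) (nat_lit 152) (nat_lit 23796253020) (nat_lit 0) (nat_lit 11182716969) (nat_lit 5) (nat_lit 5) (nat_lit 7) (nat_lit 4) (nat_lit 5) (nat_lit 4) (nat_lit 378) (nat_lit 274) (nat_lit 248)) (XT.nd (nat_lit 78) (nat_lit 0) (nat_lit 0) (XT.lf (nat_lit 0) (nat_lit 19909803706) (nat_lit 152) (nat_lit 17605341553) (nat_lit 0) (nat_lit 15405307098) (nat_lit 5) (nat_lit 5) (nat_lit 7) (nat_lit 4) (nat_lit 5) (nat_lit 4) (nat_lit 379) (nat_lit 274) (nat_lit 247)) (XT.lf (nat_lit 0) (nat_lit 24365352192) (nat_lit 152) (nat_lit 11229463868) (nat_lit 0) (nat_lit 19782383563) (nat_lit 5) (nat_lit 5) (nat_lit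 7) (nat_lit 4) (nat_lit 5) (nat_lit 4) (nat_lit 380) (nat_lit 274) (nat_lit 246)))) (XT.nd (nat_lit 78) (nat_lit 76) (nat_lit 0) (XT.lf (nat_lit 0) (nat_lit 28982071861) (nat_lit 152) (nat_lit 4653439304) (nat_lit 0) (nat_lit 24324367976) (nat_lit 5) (nat_lit 5) (nat_lit 7) (nat_lit 4) (nat_lit 5) (nat_lit 4) (nat_lit 381) (nat_lit 274) (nat_lit 245)) (XT.nd (nat_lit 78) (nat_lit 0) (nat_lit 0) (XT.lf (nat_lit 0) (nat_lit 2209094150) (nat_lit 76) (nat_lit 31596350904) (nat_lit 76) (nat_lit 26867470583) (nat_lit 4) (nat_lit 4) (nat_lit 5) (nat_lit 5) (nat_lit 5) (nat_lit 4) (nat_lit 382) (nat_lit 274) (nat_lit 244)) (XT.lf (nat_lit 0) (nat_lit 9465136568) (nat_lit 76) (nat_lit 29426044160) (nat_lit 76) (nat_lit 24629376759) (nat_lit 4) (nat_lit 4) (nat_lit 5) (nat_lit 5) (nat_lit 5) (nat_lit 4) (nat_lit 383) (nat_lit 274) (nat_lit 243))))))) (XT.nd (nat_lit 858) (nat_lit 0) (nat_lit 0)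 (XT.nd (nat_lit 390) (nat_lit 152) (nat_lit 0) (XT.nd (nat_lit 156) (nat_lit 0) (nat_lit 0) (XT.nd (nat_lit 78) (nat_lit 0) (nat_lit 0) (XT.lf (nat_lit 0) (nat_lit 16978100524) (nat_lit 76) (nat_lit 27198231784) (nat_lit 76) (nat_lit 22337005258) (nat_lit 4) (nat_lit 4) (nat_lit 5) (nat_lit 5) (nat_lit 5) (nat_lit 4) (nat_lit 384) (nat_lit 274) (nat_lit 242)) (XT.lf (nat_lit 0) (nat_lit 24765874027) (nat_lit 76) (nat_lit 24907609460) (nat_lit 76) (nat_lit 19984898053) (nat_lit 4) (nat_lit 4) (nat_lit 5) (nat_lit 5) (nat_lit 5) (nat_lit 4) (nat_lit 385) (nat_lit 274) (nat_lit 241))) (XT.nd (nat_lit 78) (nat_lit 0) (nat_lit 0) (XT.lf (nat_lit 0) (nat_lit 32846999394) (nat_lit 76) (nat_lit 22548723325) (nat_lit 76) (nat_lit 17567454889) (nat_lit 4) (nat_lit 4) (nat_lit 5) (nat_lit 5) (nat_lit 5) (nat_lit 4) (nat_lit 386) (nat_lit 274) (nat_lit 240)) (XT.nd (nat_lit 78) (nat_lit 0) (nat_lit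 0) (XT.lf (nat_lit 0) (nat_lit 41240717400) (nat_lit 76) (nat_lit 20115956984) (nat_lit 76) (nat_lit 15078919948) (nat_lit 4) (nat_lit 4) (nat_lit 5) (nat_lit 5) (nat_lit 5) (nat_lit 4) (nat_lit 387) (nat_lit 274) (nat_lit 239)) (XT.lf (nat_lit 0) (nat_lit 49967013089) (nat_lit 76) (nat_lit 17603518135) (nat_lit 76) (nat_lit 12513368148) (nat_lit 4) (nat_lit 4) (nat_lit 5) (nat_lit 5) (nat_lit 5) (nat_lit 4) (nat_lit 388) (nat_lit 274) (nat_lit 238))))) (XT.nd (nat_lit 234) (nat_lit 152) (nat_lit 0) (XT.nd (nat_lit 78) (nat_lit 0) (nat_lit 0) (XT.lf (nat_lit 0) (nat_lit 59046663354) (nat_lit 76) (nat_lit 15005424782) (nat_lit 76) (nat_lit 9864691031) (nat_lit 4) (nat_lit 4) (nat_lit 5) (nat_lit 5) (nat_lit 5) (nat_lit 4) (nat_lit 389) (nat_lit 274) (nat_lit 237)) (XT.nd (nat_lit 78) (nat_lit 0) (nat_lit 0) (XT.lf (nat_lit 0) (nat_lit 68501286410) (nat_lit 76) (nat_lit 12315490988) (nat_lit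 76) (nat_lit 7126582224) (nat_lit 4) (nat_lit 4) (nat_lit 5) (nat_lit 5) (nat_lit 5) (nat_lit 4) (nat_lit 390) (nat_lit 274) (nat_lit 236)) (XT.lf (nat_lit 0) (nat_lit 78353393266) (nat_lit 76) (nat_lit 9527312149) (nat_lit 76) (nat_lit 4292522420) (nat_lit 4) (nat_lit 4) (nat_lit 5) (nat_lit 5) (nat_lit 5) (nat_lit 4) (nat_lit 391) (nat_lit 274) (nat_lit 235)))) (XT.nd (nat_lit 78) (nat_lit 152) (nat_lit 0) (XT.lf (nat_lit 0) (nat_lit 88626441317) (nat_lit 76) (nat_lit 6634249743) (nat_lit 76) (nat_lit 1355763858) (nat_lit 4) (nat_lit 4) (nat_lit 5) (nat_lit 5) (nat_lit 5) (nat_lit 4) (nat_lit 392) (nat_lit 274) (nat_lit 234)) (XT.nd (nat_lit 78) (nat_lit 76) (nat_lit 0) (XT.lf (nat_lit 0) (nat_lit 1636573242) (nat_lit 152) (nat_lit 1965126126) (nat_lit 76) (nat_lit 97680600800) (nat_lit 3) (nat_lit 5) (nat_lit 5) (nat_lit 5) (nat_lit 4) (nat_lit 4) (nat_lit 393) (nat_lit 274) (nat_lit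 233)) (XT.lf (nat_lit 0) (nat_lit 4413911653) (nat_lit 76) (nat_lit 353720848) (nat_lit 152) (nat_lit 101410967866) (nat_lit 2) (nat_lit 5) (nat_lit 3) (nat_lit 5) (nat_lit 4) (nat_lit 4) (nat_lit 394) (nat_lit 274) (nat_lit 232)))))) (XT.nd (nat_lit 468) (nat_lit 0) (nat_lit 0) (XT.nd (nat_lit 234) (nat_lit 0) (nat_lit 0) (XT.nd (nat_lit 78) (nat_lit 0) (nat_lit 0) (XT.lf (nat_lit 0) (nat_lit 8102671802) (nat_lit 152) (nat_lit 100252466067) (nat_lit 0) (nat_lit 2962213365) (nat_lit 2) (nat_lit 5) (nat_lit 4) (nat_lit 4) (nat_lit 2) (nat_lit 4) (nat_lit 395) (nat_lit 274) (nat_lit 231)) (XT.nd (nat_lit 78) (nat_lit 0) (nat_lit 0) (XT.lf (nat_lit 0) (nat_lit 11577764780) (nat_lit 152) (nat_lit 98733547194) (nat_lit 0) (nat_lit 6403069261) (nat_lit 2) (nat_lit 5) (nat_lit 4) (nat_lit 4) (nat_lit 2) (nat_lit 4) (nat_lit 396) (nat_lit 274) (nat_lit 230)) (XT.lf (nat_lit 0) (nat_lit 15195662893)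 (nat_lit 152) (nat_lit 97198793049) (nat_lit 0) (nat_lit 9988360629) (nat_lit 2) (nat_lit 5) (nat_lit 4) (nat_lit 4) (nat_lit 2) (nat_lit 4) (nat_lit 397) (nat_lit 274) (nat_lit 229)))) (XT.nd (nat_lit 78) (nat_lit 0) (nat_lit 0) (XT.lf (nat_lit 0) (nat_lit 18964980185) (nat_lit 152) (nat_lit 95644549455) (nat_lit 0) (nat_lit 13726623878) (nat_lit 2) (nat_lit 5) (nat_lit 4) (nat_lit 4) (nat_lit 2) (nat_lit 4) (nat_lit 398) (nat_lit 274) (nat_lit 228)) (XT.nd (nat_lit 78) (nat_lit 0) (nat_lit 0) (XT.lf (nat_lit 0) (nat_lit 22894691219) (nat_lit 152) (nat_lit 94067115833) (nat_lit 0) (nat_lit 17626759633) (nat_lit 2) (nat_lit 5) (nat_lit 4) (nat_lit 4) (nat_lit 2) (nat_lit 4) (nat_lit 399) (nat_lit 274) (nat_lit 227)) (XT.lf (nat_lit 0) (nat_lit 26994152451) (nat_lit 152) (nat_lit 92462736388) (nat_lit 0) (nat_lit 21698053933) (nat_lit 2) (nat_lit 5) (nat_lit 4) (nat_lit 4) (nat_lit 2) (nat_lit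 4) (nat_lit 400) (nat_lit 274) (nat_lit 226))))) (XT.nd (nat_lit 234) (nat_lit 0) (nat_lit 0) (XT.nd (nat_lit 78) (nat_lit 0) (nat_lit 0) (XT.lf (nat_lit 0) (nat_lit 31273124504) (nat_lit 152) (nat_lit 90827591169) (nat_lit 0) (nat_lit 25950200335) (nat_lit 2) (nat_lit 5) (nat_lit 4) (nat_lit 4) (nat_lit 2) (nat_lit 4) (nat_lit 401) (nat_lit 274) (nat_lit 225)) (XT.nd (nat_lit 78) (nat_lit 0) (nat_lit 0) (XT.lf (nat_lit 0) (nat_lit 35741795404) (nat_lit 152) (nat_lit 89157786973) (nat_lit 0) (nat_lit 30393322998) (nat_lit 2) (nat_lit 5) (nat_lit 4) (nat_lit 4) (nat_lit 2) (nat_lit 4) (nat_lit 402) (nat_lit 274) (nat_lit 224)) (XT.lf (nat_lit 0) (nat_lit 40410804846) (nat_lit 152) (nat_lit 87449348076) (nat_lit 0) (nat_lit 35038000785) (nat_lit 2) (nat_lit 5) (nat_lit 4) (nat_lit 4) (nat_lit 2) (nat_lit 4) (nat_lit 403) (nat_lit 274) (nat_lit 223)))) (XT.nd (nat_lit 78) (nat_lit 0) (nat_lit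 0) (XT.lf (nat_lit 0) (nat_lit 45291269519) (nat_lit 152) (nat_lit 85698206766) (nat_lit 0) (nat_lit 39895292453) (nat_lit 2) (nat_lit 5) (nat_lit 4) (nat_lit 4) (nat_lit 2) (nat_lit 4) (nat_lit 404) (nat_lit 274) (nat_lit 222)) (XT.nd (nat_lit 78) (nat_lit 0) (nat_lit 0) (XT.lf (nat_lit 0) (nat_lit 50394809576) (nat_lit 152) (nat_lit 83900193659) (nat_lit 0) (nat_lit 44976762981) (nat_lit 2) (nat_lit 5) (nat_lit 4) (nat_lit 4) (nat_lit 2) (nat_lit 4) (nat_lit 405) (nat_lit 274) (nat_lit 221)) (XT.lf (nat_lit 0) (nat_lit 55733576303) (nat_lit 152) (nat_lit 82051027771) (nat_lit 0) (nat_lit 50294511109) (nat_lit 2) (nat_lit 5) (nat_lit 4) (nat_lit 4) (nat_lit 2) (nat_lit 4) (nat_lit 406) (nat_lit 274) (nat_lit 220))))))))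
noncomputable def xc40 : XT := (XT.nd (nat_lit 1716) (nat_lit 76) (nat_lit 0) (XT.nd (nat_lit 858) (nat_lit 0) (nat_lit 0) (XT.nd (nat_lit 390) (nat_lit 0) (nat_lit 0) (XT.nd (nat_lit 156) (nat_lit 0) (nat_lit 0) (XT.nd (nat_lit 78) (nat_lit 0) (nat_lit 0) (XT.lf (nat_lit 0) (nat_lit 61320281049) (nat_lit 152) (nat_lit 80146306327) (nat_lit 0) (nat_lit 55861198143) (nat_lit 2) (nat_lit 5) (nat_lit 4) (nat_lit 4) (nat_lit 2) (nat_lit 4) (nat_lit 407) (nat_lit 274) (nat_lit 219)) (XT.lf (nat_lit 0) (nat_lit 67168225493) (nat_lit 152) (nat_lit 78181494276) (nat_lit 0) (nat_lit 61690078099) (nat_lit 2) (nat_lit 5) (nat_lit 4) (nat_lit 4) (nat_lit 2) (nat_lit 4) (nat_lit 408) (nat_lit 274) (nat_lit 218))) (XT.nd (nat_lit 78) (nat_lit 0) (nat_lit 0) (XT.lf (nat_lit 0) (nat_lit 73291333312) (nat_lit 152) (nat_lit 76151913493) (nat_lit 0) (nat_lit 67795029262) (nat_lit 2) (nat_lit 5) (nat_lit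 4) (nat_lit 4) (nat_lit 2) (nat_lit 4) (nat_lit 409) (nat_lit 274) (nat_lit 217)) (XT.nd (nat_lit 78) (nat_lit 0) (nat_lit 0) (XT.lf (nat_lit 0) (nat_lit 79704183334) (nat_lit 152) (nat_lit 74052731644) (nat_lit 0) (nat_lit 74190587230) (nat_lit 2) (nat_lit 5) (nat_lit 4) (nat_lit 4) (nat_lit 2) (nat_lit 4) (nat_lit 410) (nat_lit 274) (nat_lit 216)) (XT.lf (nat_lit 0) (nat_lit 86422044249) (nat_lit 152) (nat_lit 71878950676) (nat_lit 0) (nat_lit 80891979523) (nat_lit 2) (nat_lit 5) (nat_lit 4) (nat_lit 4) (nat_lit 2) (nat_lit 4) (nat_lit 411) (nat_lit 274) (nat_lit 215))))) (XT.nd (nat_lit 234) (nat_lit 0) (nat_lit 0) (XT.nd (nat_lit 78) (nat_lit 0) (nat_lit 0) (XT.lf (nat_lit 0) (nat_lit 93460910964) (nat_lit 152) (nat_lit 69625394920) (nat_lit 0) (nat_lit 87915161837) (nat_lit 2) (nat_lit 5) (nat_lit 4) (nat_lit 4) (nat_lit 2) (nat_lit 4) (nat_lit 412) (nat_lit 274) (nat_lit 214)) (XT.nd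 (nat_lit 78) (nat_lit 0) (nat_lit 0) (XT.lf (nat_lit 0) (nat_lit 100837542687) (nat_lit 152) (nat_lit 67286698768) (nat_lit 0) (nat_lit 95276856034) (nat_lit 2) (nat_lit 5) (nat_lit 4) (nat_lit 4) (nat_lit 2) (nat_lit 4) (nat_lit 413) (nat_lit 274) (nat_lit 213)) (XT.lf (nat_lit 0) (nat_lit 108569502825) (nat_lit 152) (nat_lit 64857293895) (nat_lit 0) (nat_lit 102994589957) (nat_lit 2) (nat_lit 5) (nat_lit 4) (nat_lit 4) (nat_lit 2) (nat_lit 4) (nat_lit 414) (nat_lit 274) (nat_lit 212)))) (XT.nd (nat_lit 78) (nat_lit 0) (nat_lit 0) (XT.lf (nat_lit 0) (nat_lit 116675200807) (nat_lit 152) (nat_lit 62331396005) (nat_lit 0) (nat_lit 111086739164) (nat_lit 2) (nat_lit 5) (nat_lit 4) (nat_lit 4) (nat_lit 2) (nat_lit 4) (nat_lit 415) (nat_lit 274) (nat_lit 211)) (XT.nd (nat_lit 78) (nat_lit 0) (nat_lit 0) (XT.lf (nat_lit 0) (nat_lit 125173935915) (nat_lit 152) (nat_lit 59702991053) (nat_lit 0)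 (nat_lit 119572570675) (nat_lit 2) (nat_lit 5) (nat_lit 4) (nat_lit 4) (nat_lit 2) (nat_lit 4) (nat_lit 416) (nat_lit 274) (nat_lit 210)) (XT.lf (nat_lit 0) (nat_lit 134085943233) (nat_lit 152) (nat_lit 56965820934) (nat_lit 0) (nat_lit 128472288853) (nat_lit 2) (nat_lit 5) (nat_lit 4) (nat_lit 4) (nat_lit 2) (nat_lit 4) (nat_lit 417) (nat_lit 274) (nat_lit 209)))))) (XT.nd (nat_lit 390) (nat_lit 0) (nat_lit 0) (XT.nd (nat_lit 156) (nat_lit 0) (nat_lit 0) (XT.nd (nat_lit 78) (nat_lit 0) (nat_lit 0) (XT.lf (nat_lit 0) (nat_lit 143432441824) (nat_lit 152) (nat_lit 54113368575) (nat_lit 0) (nat_lit 137807083503) (nat_lit 2) (nat_lit 5) (nat_lit 4) (nat_lit 4) (nat_lit 2) (nat_lit 4) (nat_lit 418) (nat_lit 274) (nat_lit 208)) (XT.lf (nat_lit 0) (nat_lit 153235685258) (nat_lit 152) (nat_lit 51138842424) (nat_lit 0) (nat_lit 147599180325) (nat_lit 2) (nat_lit 5) (nat_lit 4) (nat_lit 4) (nat_lit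 2) (nat_lit 4) (nat_lit 419) (nat_lit 274) (nat_lit 207))) (XT.nd (nat_lit 78) (nat_lit 0) (nat_lit 0) (XT.lf (nat_lit 0) (nat_lit 163519014589) (nat_lit 152) (nat_lit 48035160276) (nat_lit 0) (nat_lit 157871893836) (nat_lit 2) (nat_lit 5) (nat_lit 4) (nat_lit 4) (nat_lit 2) (nat_lit 4) (nat_lit 420) (nat_lit 274) (nat_lit 206)) (XT.nd (nat_lit 78) (nat_lit 0) (nat_lit 0) (XT.lf (nat_lit 0) (nat_lit 174306913936) (nat_lit 152) (nat_lit 44794932410) (nat_lit 0) (nat_lit 168649682878) (nat_lit 2) (nat_lit 5) (nat_lit 4) (nat_lit 4) (nat_lit 2) (nat_lit 4) (nat_lit 421) (nat_lit 274) (nat_lit 205)) (XT.lf (nat_lit 0) (nat_lit 185625068774) (nat_lit 152) (nat_lit 41410443998) (nat_lit 0) (nat_lit 179958208853) (nat_lit 2) (nat_lit 5) (nat_lit 4) (nat_lit 4) (nat_lit 2) (nat_lit 4) (nat_lit 422) (nat_lit 274) (nat_lit 204))))) (XT.nd (nat_lit 234) (nat_lit 0) (nat_lit 0) (XT.nd (nat_lit 78)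 (nat_lit 0) (nat_lit 0) (XT.lf (nat_lit 0) (nat_lit 197500427089) (nat_lit 152) (nat_lit 37873636736) (nat_lit 0) (nat_lit 191824396823) (nat_lit 2) (nat_lit 5) (nat_lit 4) (nat_lit 4) (nat_lit 2) (nat_lit 4) (nat_lit 423) (nat_lit 274) (nat_lit 203)) (XT.nd (nat_lit 78) (nat_lit 0) (nat_lit 0) (XT.lf (nat_lit 0) (nat_lit 209961263544) (nat_lit 152) (nat_lit 34176089653) (nat_lit 0) (nat_lit 204276499616) (nat_lit 2) (nat_lit 5) (nat_lit 4) (nat_lit 4) (nat_lit 2) (nat_lit 4) (nat_lit 424) (nat_lit 274) (nat_lit 202)) (XT.lf (nat_lit 0) (nat_lit 223037246798) (nat_lit 152) (nat_lit 30308999065) (nat_lit 0) (nat_lit 217344165097) (nat_lit 2) (nat_lit 5) (nat_lit 4) (nat_lit 4) (nat_lit 2) (nat_lit 4) (nat_lit 425) (nat_lit 274) (nat_lit 201)))) (XT.nd (nat_lit 78) (nat_lit 0) (nat_lit 0) (XT.lf (nat_lit 0) (nat_lit 236759510145) (nat_lit 152) (nat_lit 26263157615) (nat_lit 0) (nat_lit 231058506755)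 (nat_lit 2) (nat_lit 5) (nat_lit 4) (nat_lit 4) (nat_lit 2) (nat_lit 4) (nat_lit 426) (nat_lit 274) (nat_lit 200)) (XT.nd (nat_lit 78) (nat_lit 0) (nat_lit 0) (XT.lf (nat_lit 0) (nat_lit 251160725639) (nat_lit 152) (nat_lit 22028932346) (nat_lit 0) (nat_lit 245452177783) (nat_lit 2) (nat_lit 5) (nat_lit 4) (nat_lit 4) (nat_lit 2) (nat_lit 4) (nat_lit 427) (nat_lit 274) (nat_lit 199)) (XT.lf (nat_lit 0) (nat_lit 266275181889) (nat_lit 152) (nat_lit 17596241769) (nat_lit 0) (nat_lit 260559448828) (nat_lit 2) (nat_lit 5) (nat_lit 4) (nat_lit 4) (nat_lit 2) (nat_lit 4) (nat_lit 428) (nat_lit 274) (nat_lit 198))))))) (XT.nd (nat_lit 41028) (nat_lit 0) (nat_lit 684) (XT.nd (nat_lit 390) (nat_lit 0) (nat_lit 0) (XT.nd (nat_lit 156) (nat_lit 76) (nat_lit 0) (XT.nd (nat_lit 78) (nat_lit 0) (nat_lit 0) (XT.lf (nat_lit 0) (nat_lit 282138865696) (nat_lit 152) (nat_lit 12954531860) (nat_lit 0) (nat_lit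 276416289582) (nat_lit 2) (nat_lit 5) (nat_lit 4) (nat_lit 4) (nat_lit 2) (nat_lit 4) (nat_lit 429) (nat_lit 274) (nat_lit 197)) (XT.lf (nat_lit 0) (nat_lit 298789547735) (nat_lit 152) (nat_lit 8092750928) (nat_lit 0) (nat_lit 293060454429) (nat_lit 2) (nat_lit 5) (nat_lit 4) (nat_lit 4) (nat_lit 2) (nat_lit 4) (nat_lit 430) (nat_lit 274) (nat_lit 196))) (XT.nd (nat_lit 78) (nat_lit 76) (nat_lit 0) (XT.lf (nat_lit 0) (nat_lit 316266872487) (nat_lit 152) (nat_lit 2999323305) (nat_lit 0) (nat_lit 310531572331) (nat_lit 2) (nat_lit 5) (nat_lit 4) (nat_lit 4) (nat_lit 2) (nat_lit 4) (nat_lit 431) (nat_lit 274) (nat_lit 195)) (XT.nd (nat_lit 78) (nat_lit 0) (nat_lit 0) (XT.lf (nat_lit 0) (nat_lit 2415179031) (nat_lit 76) (nat_lit 332234981313) (nat_lit 76) (nat_lit 326493769871) (nat_lit 1) (nat_lit 4) (nat_lit 2) (nat_lit 5) (nat_lit 2) (nat_lit 4) (nat_lit 432) (nat_lit 274) (nat_lit 194))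 (XT.lf (nat_lit 0) (nat_lit 8193814501) (nat_lit 76) (nat_lit 345804082025) (nat_lit 76) (nat_lit 340057240787) (nat_lit 1) (nat_lit 4) (nat_lit 2) (nat_lit 5) (nat_lit 2) (nat_lit 4) (nat_lit 433) (nat_lit 274) (nat_lit 193))))) (XT.nd (nat_lit 40404) (nat_lit 0) (nat_lit 1140) (XT.nd (nat_lit 78) (nat_lit 0) (nat_lit 0) (XT.lf (nat_lit 0) (nat_lit 14251170588) (nat_lit 76) (nat_lit 360056600302) (nat_lit 76) (nat_lit 354304397353) (nat_lit 1) (nat_lit 4) (nat_lit 2) (nat_lit 5) (nat_lit 2) (nat_lit 4) (nat_lit 434) (nat_lit 274) (nat_lit 192)) (XT.nd (nat_lit 40248) (nat_lit 0) (nat_lit 1368) (XT.lf (nat_lit 0) (nat_lit 20601669568) (nat_lit 76) (nat_lit 375026470712) (nat_lit 76) (nat_lit 369269161371) (nat_lit 1) (nat_lit 4) (nat_lit 2) (nat_lit 5) (nat_lit 2) (nat_lit 4) (nat_lit 435) (nat_lit 274) (nat_lit 191)) (XT.lf (nat_lit 0) (nat_lit 4476714875) (nat_lit 76) (nat_lit 1868325261)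 (nat_lit 76) (nat_lit 1868325261) (nat_lit 19) (nat_lit 4) (nat_lit 20) (nat_lit 5) (nat_lit 20) (nat_lit 4) (nat_lit 350) (nat_lit 275) (nat_lit 275)))) (XT.nd (nat_lit 78) (nat_lit 76) (nat_lit 0) (XT.lf (nat_lit 0) (nat_lit 972121005) (nat_lit 152) (nat_lit 15420465272) (nat_lit 0) (nat_lit 598206424) (nat_lit 17) (nat_lit 5) (nat_lit 19) (nat_lit 4) (nat_lit 17) (nat_lit 4) (nat_lit 351) (nat_lit 275) (nat_lit 274)) (XT.nd (nat_lit 78) (nat_lit 76) (nat_lit 0) (XT.lf (nat_lit 0) (nat_lit 5812099134) (nat_lit 152) (nat_lit 6684822565) (nat_lit 0) (nat_lit 5082075428) (nat_lit 17) (nat_lit 5) (nat_lit 19) (nat_lit 4) (nat_lit 17) (nat_lit 4) (nat_lit 352) (nat_lit 275) (nat_lit 273)) (XT.lf (nat_lit 0) (nat_lit 2265740528) (nat_lit 76) (nat_lit 8503185086) (nat_lit 76) (nat_lit 7434009833) (nat_lit 16) (nat_lit 4) (nat_lit 17) (nat_lit 5) (nat_lit 17) (nat_lit 4) (nat_lit 353) (nat_lit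 275) (nat_lit 272)))))) (XT.nd (nat_lit 468) (nat_lit 228) (nat_lit 0) (XT.nd (nat_lit 234) (nat_lit 76) (nat_lit 0) (XT.nd (nat_lit 78) (nat_lit 152) (nat_lit 0) (XT.lf (nat_lit 0) (nat_lit 11606282182) (nat_lit 76) (nat_lit 4323118919) (nat_lit 76) (nat_lit 2930942193) (nat_lit 16) (nat_lit 4) (nat_lit 17) (nat_lit 5) (nat_lit 17) (nat_lit 4) (nat_lit 354) (nat_lit 275) (nat_lit 271)) (XT.nd (nat_lit 78) (nat_lit 0) (nat_lit 0) (XT.lf (nat_lit 0) (nat_lit 1605622265) (nat_lit 76) (nat_lit 6777463) (nat_lit 152) (nat_lit 17943243664) (nat_lit 14) (nat_lit 5) (nat_lit 15) (nat_lit 5) (nat_lit 16) (nat_lit 4) (nat_lit 355) (nat_lit 275) (nat_lit 270)) (XT.lf (nat_lit 0) (nat_lit 6328466654) (nat_lit 152) (nat_lit 9522099627) (nat_lit 0) (nat_lit 4430591381) (nat_lit 14) (nat_lit 5) (nat_lit 16) (nat_lit 4) (nat_lit 14) (nat_lit 4) (nat_lit 356) (nat_lit 275) (nat_lit 269)))) (XT.nd (nat_lit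 78) (nat_lit 76) (nat_lit 0) (XT.lf (nat_lit 0) (nat_lit 11136198430) (nat_lit 152) (nat_lit 941418922) (nat_lit 0) (nat_lit 8972589045) (nat_lit 14) (nat_lit 5) (nat_lit 16) (nat_lit 4) (nat_lit 14) (nat_lit 4) (nat_lit 357) (nat_lit 275) (nat_lit 268)) (XT.nd (nat_lit 78) (nat_lit 0) (nat_lit 0) (XT.lf (nat_lit 0) (nat_lit 8070875411) (nat_lit 76) (nat_lit 8102069793) (nat_lit 76) (nat_lit 5685380302) (nat_lit 13) (nat_lit 4) (nat_lit 14) (nat_lit 5) (nat_lit 14) (nat_lit 4) (nat_lit 358) (nat_lit 275) (nat_lit 267)) (XT.lf (nat_lit 0) (nat_lit 17314854398) (nat_lit 76) (nat_lit 4027851265) (nat_lit 76) (nat_lit 1370133101) (nat_lit 13) (nat_lit 4) (nat_lit 14) (nat_lit 5) (nat_lit 14) (nat_lit 4) (nat_lit 359) (nat_lit 275) (nat_lit 266))))) (XT.nd (nat_lit 234) (nat_lit 76) (nat_lit 0) (XT.nd (nat_lit 78) (nat_lit 0) (nat_lit 0) (XT.lf (nat_lit 0) (nat_lit 2983261618) (nat_lit 152)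 (nat_lit 20394732198) (nat_lit 0) (nat_lit 233481351) (nat_lit 11) (nat_lit 5) (nat_lit 13) (nat_lit 4) (nat_lit 11) (nat_lit 4) (nat_lit 360) (nat_lit 275) (nat_lit 265)) (XT.nd (nat_lit 78) (nat_lit 0) (nat_lit 0) (XT.lf (nat_lit 0) (nat_lit 7537447313) (nat_lit 152) (nat_lit 12435597873) (nat_lit 0) (nat_lit 4579457416) (nat_lit 11) (nat_lit 5) (nat_lit 13) (nat_lit 4) (nat_lit 11) (nat_lit 4) (nat_lit 361) (nat_lit 275) (nat_lit 264)) (XT.lf (nat_lit 0) (nat_lit 12195742505) (nat_lit 152) (nat_lit 4311599845) (nat_lit 0) (nat_lit 9039457722) (nat_lit 11) (nat_lit 5) (nat_lit 13) (nat_lit 4) (nat_lit 11) (nat_lit 4) (nat_lit 362) (nat_lit 275) (nat_lit 263)))) (XT.nd (nat_lit 78) (nat_lit 0) (nat_lit 0) (XT.lf (nat_lit 0) (nat_lit 4128750540) (nat_lit 76) (nat_lit 12904949200) (nat_lit 76) (nat_lit 9559812145) (nat_lit 10) (nat_lit 4) (nat_lit 11) (nat_lit 5) (nat_lit 11) (nat_lit 4)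 (nat_lit 363) (nat_lit 275) (nat_lit 262)) (XT.nd (nat_lit 78) (nat_lit 0) (nat_lit 0) (XT.lf (nat_lit 0) (nat_lit 12922394648) (nat_lit 76) (nat_lit 9148660531) (nat_lit 76) (nat_lit 5623664169) (nat_lit 10) (nat_lit 4) (nat_lit 11) (nat_lit 5) (nat_lit 11) (nat_lit 4) (nat_lit 364) (nat_lit 275) (nat_lit 261)) (XT.lf (nat_lit 0) (nat_lit 21947708765) (nat_lit 76) (nat_lit 5302551829) (nat_lit 76) (nat_lit 1606260890) (nat_lit 10) (nat_lit 4) (nat_lit 11) (nat_lit 5) (nat_lit 11) (nat_lit 4) (nat_lit 365) (nat_lit 275) (nat_lit 260))))))))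
noncomputable def xc41 : XT := (XT.nd (nat_lit 1794) (nat_lit 152) (nat_lit 0) (XT.nd (nat_lit 858) (nat_lit 76) (nat_lit 0) (XT.nd (nat_lit 390) (nat_lit 152) (nat_lit 0) (XT.nd (nat_lit 156) (nat_lit 76) (nat_lit 0) (XT.nd (nat_lit 78) (nat_lit 0) (nat_lit 0) (XT.lf (nat_lit 0) (nat_lit 1141985252) (nat_lit 76) (nat_lit 1297728837) (nat_lit 152) (nat_lit 27639125783) (nat_lit 8) (nat_lit 5) (nat_lit 9) (nat_lit 5) (nat_lit 10) (nat_lit 4) (nat_lit 366) (nat_lit 275) (nat_lit 259)) (XT.lf (nat_lit 0) (nat_lit 6692303130) (nat_lit 152) (nat_lit 21797082376) (nat_lit 0) (nat_lit 2868686117) (nat_lit 8) (nat_lit 5) (nat_lit 10) (nat_lit 4) (nat_lit 8) (nat_lit 4) (nat_lit 367) (nat_lit 275) (nat_lit 258))) (XT.nd (nat_lit 78) (nat_lit 76) (nat_lit 0) (XT.lf (nat_lit 0) (nat_lit 11077826696) (nat_lit 152) (nat_lit 14514165286) (nat_lit 0) (nat_lit 7113285209) (nat_lit 8) (nat_lit 5) (nat_lit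 10) (nat_lit 4) (nat_lit 8) (nat_lit 4) (nat_lit 368) (nat_lit 275) (nat_lit 257)) (XT.nd (nat_lit 78) (nat_lit 76) (nat_lit 0) (XT.lf (nat_lit 0) (nat_lit 15586465325) (nat_lit 152) (nat_lit 7050501890) (nat_lit 0) (nat_lit 11487710055) (nat_lit 8) (nat_lit 5) (nat_lit 10) (nat_lit 4) (nat_lit 8) (nat_lit 4) (nat_lit 369) (nat_lit 275) (nat_lit 256)) (XT.lf (nat_lit 0) (nat_lit 631903291) (nat_lit 76) (nat_lit 19606916362) (nat_lit 76) (nat_lit 15380338440) (nat_lit 7) (nat_lit 4) (nat_lit 8) (nat_lit 5) (nat_lit 8) (nat_lit 4) (nat_lit 370) (nat_lit 275) (nat_lit 255))))) (XT.nd (nat_lit 234) (nat_lit 152) (nat_lit 0) (XT.nd (nat_lit 78) (nat_lit 0) (nat_lit 0) (XT.lf (nat_lit 0) (nat_lit 8771357199) (nat_lit 76) (nat_lit 16381934150) (nat_lit 76) (nat_lit 12033620370) (nat_lit 7) (nat_lit 4) (nat_lit 8) (nat_lit 5) (nat_lit 8) (nat_lit 4) (nat_lit 371) (nat_lit 275) (nat_lit 254)) (XT.nd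 (nat_lit 78) (nat_lit 0) (nat_lit 0) (XT.lf (nat_lit 0) (nat_lit 17154118051) (nat_lit 76) (nat_lit 13073745711) (nat_lit 76) (nat_lit 8609493018) (nat_lit 7) (nat_lit 4) (nat_lit 8) (nat_lit 5) (nat_lit 8) (nat_lit 4) (nat_lit 372) (nat_lit 275) (nat_lit 253)) (XT.lf (nat_lit 0) (nat_lit 25800144802) (nat_lit 76) (nat_lit 9674474405) (nat_lit 76) (nat_lit 5099803700) (nat_lit 7) (nat_lit 4) (nat_lit 8) (nat_lit 5) (nat_lit 8) (nat_lit 4) (nat_lit 373) (nat_lit 275) (nat_lit 252)))) (XT.nd (nat_lit 78) (nat_lit 152) (nat_lit 0) (XT.lf (nat_lit 0) (nat_lit 34730023230) (nat_lit 76) (nat_lit 6176026731) (nat_lit 76) (nat_lit 1496196014) (nat_lit 7) (nat_lit 4) (nat_lit 8) (nat_lit 5) (nat_lit 8) (nat_lit 4) (nat_lit 374) (nat_lit 275) (nat_lit 251)) (XT.nd (nat_lit 78) (nat_lit 76) (nat_lit 0) (XT.lf (nat_lit 0) (nat_lit 2139179134) (nat_lit 152) (nat_lit 394665882) (nat_lit 76) (nat_lit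 41789607781) (nat_lit 6) (nat_lit 5) (nat_lit 8) (nat_lit 5) (nat_lit 7) (nat_lit 4) (nat_lit 375) (nat_lit 275) (nat_lit 250)) (XT.lf (nat_lit 0) (nat_lit 5970105238) (nat_lit 152) (nat_lit 39039303638) (nat_lit 0) (nat_lit 1326899201) (nat_lit 5) (nat_lit 5) (nat_lit 7) (nat_lit 4) (nat_lit 5) (nat_lit 4) (nat_lit 376) (nat_lit 275) (nat_lit 249)))))) (XT.nd (nat_lit 468) (nat_lit 76) (nat_lit 0) (XT.nd (nat_lit 234) (nat_lit 0) (nat_lit 0) (XT.nd (nat_lit 78) (nat_lit 0) (nat_lit 0) (XT.lf (nat_lit 0) (nat_lit 9969592595) (nat_lit 152) (nat_lit 33241508496) (nat_lit 0) (nat_lit 5239871156) (nat_lit 5) (nat_lit 5) (nat_lit 7) (nat_lit 4) (nat_lit 5) (nat_lit 4) (nat_lit 377) (nat_lit 275) (nat_lit 248)) (XT.nd (nat_lit 78) (nat_lit 0) (nat_lit 0) (XT.lf (nat_lit 0) (nat_lit 14101133440) (nat_lit 152) (nat_lit 27284631920) (nat_lit 0) (nat_lit 9289016380) (nat_lit 5) (nat_lit 5) (nat_lit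 7) (nat_lit 4) (nat_lit 5) (nat_lit 4) (nat_lit 378) (nat_lit 275) (nat_lit 247)) (XT.lf (nat_lit 0) (nat_lit 18374564774) (nat_lit 152) (nat_lit 21154490870) (nat_lit 0) (nat_lit 13483975695) (nat_lit 5) (nat_lit 5) (nat_lit 7) (nat_lit 4) (nat_lit 5) (nat_lit 4) (nat_lit 379) (nat_lit 275) (nat_lit 246)))) (XT.nd (nat_lit 78) (nat_lit 0) (nat_lit 0) (XT.lf (nat_lit 0) (nat_lit 22800061434) (nat_lit 152) (nat_lit 14836489773) (nat_lit 0) (nat_lit 17834737098) (nat_lit 5) (nat_lit 5) (nat_lit 7) (nat_lit 4) (nat_lit 5) (nat_lit 4) (nat_lit 380) (nat_lit 275) (nat_lit 245)) (XT.nd (nat_lit 78) (nat_lit 0) (nat_lit 0) (XT.lf (nat_lit 0) (nat_lit 27388160318) (nat_lit 152) (nat_lit 8315585768) (nat_lit 0) (nat_lit 22351659547) (nat_lit 5) (nat_lit 5) (nat_lit 7) (nat_lit 4) (nat_lit 5) (nat_lit 4) (nat_lit 381) (nat_lit 275) (nat_lit 244)) (XT.lf (nat_lit 0) (nat_lit 32149785470) (nat_lit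 152) (nat_lit 1576252894) (nat_lit 0) (nat_lit 27045497617) (nat_lit 5) (nat_lit 5) (nat_lit 7) (nat_lit 4) (nat_lit 5) (nat_lit 4) (nat_lit 382) (nat_lit 275) (nat_lit 243))))) (XT.nd (nat_lit 234) (nat_lit 0) (nat_lit 0) (XT.nd (nat_lit 78) (nat_lit 0) (nat_lit 0) (XT.lf (nat_lit 0) (nat_lit 5576022419) (nat_lit 76) (nat_lit 31607309009) (nat_lit 76) (nat_lit 26438462032) (nat_lit 4) (nat_lit 4) (nat_lit 5) (nat_lit 5) (nat_lit 5) (nat_lit 4) (nat_lit 383) (nat_lit 275) (nat_lit 242)) (XT.nd (nat_lit 78) (nat_lit 0) (nat_lit 0) (XT.lf (nat_lit 0) (nat_lit 13039796789) (nat_lit 76) (nat_lit 29403194521) (nat_lit 76) (nat_lit 24172862663) (nat_lit 4) (nat_lit 4) (nat_lit 5) (nat_lit 5) (nat_lit 5) (nat_lit 4) (nat_lit 384) (nat_lit 275) (nat_lit 241)) (XT.lf (nat_lit 0) (nat_lit 20780723067) (nat_lit 76) (nat_lit 27135141614) (nat_lit 76) (nat_lit 21846252727) (nat_lit 4) (nat_lit 4) (nat_lit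 5) (nat_lit 5) (nat_lit 5) (nat_lit 4) (nat_lit 385) (nat_lit 275) (nat_lit 240)))) (XT.nd (nat_lit 78) (nat_lit 0) (nat_lit 0) (XT.lf (nat_lit 0) (nat_lit 28817232030) (nat_lit 76) (nat_lit 24797750162) (nat_lit 76) (nat_lit 19453092675) (nat_lit 4) (nat_lit 4) (nat_lit 5) (nat_lit 5) (nat_lit 5) (nat_lit 4) (nat_lit 386) (nat_lit 275) (nat_lit 239)) (XT.nd (nat_lit 78) (nat_lit 0) (nat_lit 0) (XT.lf (nat_lit 0) (nat_lit 37168458222) (nat_lit 76) (nat_lit 22385454948) (nat_lit 76) (nat_lit 16987684509) (nat_lit 4) (nat_lit 4) (nat_lit 5) (nat_lit 5) (nat_lit 5) (nat_lit 4) (nat_lit 387) (nat_lit 275) (nat_lit 238)) (XT.lf (nat_lit 0) (nat_lit 45854285517) (nat_lit 76) (nat_lit 19892512410) (nat_lit 76) (nat_lit 14444158208) (nat_lit 4) (nat_lit 4) (nat_lit 5) (nat_lit 5) (nat_lit 5) (nat_lit 4) (nat_lit 388) (nat_lit 275) (nat_lit 237))))))) (XT.nd (nat_lit 858) (nat_lit 0) (nat_lit 0)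 (XT.nd (nat_lit 390) (nat_lit 152) (nat_lit 0) (XT.nd (nat_lit 156) (nat_lit 0) (nat_lit 0) (XT.nd (nat_lit 78) (nat_lit 0) (nat_lit 0) (XT.lf (nat_lit 0) (nat_lit 54895394454) (nat_lit 76) (nat_lit 17312986973) (nat_lit 76) (nat_lit 11816457758) (nat_lit 4) (nat_lit 4) (nat_lit 5) (nat_lit 5) (nat_lit 5) (nat_lit 4) (nat_lit 389) (nat_lit 275) (nat_lit 236)) (XT.lf (nat_lit 0) (nat_lit 64313311484) (nat_lit 76) (nat_lit 14640736908) (nat_lit 76) (nat_lit 9098326728) (nat_lit 4) (nat_lit 4) (nat_lit 5) (nat_lit 5) (nat_lit 5) (nat_lit 4) (nat_lit 390) (nat_lit 275) (nat_lit 235))) (XT.nd (nat_lit 78) (nat_lit 0) (nat_lit 0) (XT.lf (nat_lit 0) (nat_lit 74130460219) (nat_lit 76) (nat_lit 11869399715) (nat_lit 76) (nat_lit 6283293379) (nat_lit 4) (nat_lit 4) (nat_lit 5) (nat_lit 5) (nat_lit 5) (nat_lit 4) (nat_lit 391) (nat_lit 275) (nat_lit 234)) (XT.nd (nat_lit 78) (nat_lit 0) (nat_lit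 0) (XT.lf (nat_lit 0) (nat_lit 84370214823) (nat_lit 76) (nat_lit 8992376973) (nat_lit 76) (nat_lit 3364655249) (nat_lit 4) (nat_lit 4) (nat_lit 5) (nat_lit 5) (nat_lit 5) (nat_lit 4) (nat_lit 392) (nat_lit 275) (nat_lit 233)) (XT.lf (nat_lit 0) (nat_lit 95056955662) (nat_lit 76) (nat_lit 6002818628) (nat_lit 76) (nat_lit 335463201) (nat_lit 4) (nat_lit 4) (nat_lit 5) (nat_lit 5) (nat_lit 5) (nat_lit 4) (nat_lit 393) (nat_lit 275) (nat_lit 232))))) (XT.nd (nat_lit 234) (nat_lit 0) (nat_lit 0) (XT.nd (nat_lit 78) (nat_lit 76) (nat_lit 0) (XT.lf (nat_lit 0) (nat_lit 2721509724) (nat_lit 152) (nat_lit 126006873) (nat_lit 76) (nat_lit 103448527551) (nat_lit 3) (nat_lit 5) (nat_lit 5) (nat_lit 5) (nat_lit 4) (nat_lit 4) (nat_lit 394) (nat_lit 275) (nat_lit 231)) (XT.nd (nat_lit 78) (nat_lit 0) (nat_lit 0) (XT.lf (nat_lit 0) (nat_lit 5999696008) (nat_lit 152) (nat_lit 104905916285) (nat_lit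 0) (nat_lit 532028630) (nat_lit 2) (nat_lit 5) (nat_lit 4) (nat_lit 4) (nat_lit 2) (nat_lit 4) (nat_lit 395) (nat_lit 275) (nat_lit 230)) (XT.lf (nat_lit 0) (nat_lit 9459691662) (nat_lit 152) (nat_lit 103416319691) (nat_lit 0) (nat_lit 3959417540) (nat_lit 2) (nat_lit 5) (nat_lit 4) (nat_lit 4) (nat_lit 2) (nat_lit 4) (nat_lit 396) (nat_lit 275) (nat_lit 229)))) (XT.nd (nat_lit 78) (nat_lit 0) (nat_lit 0) (XT.lf (nat_lit 0) (nat_lit 13063211372) (nat_lit 152) (nat_lit 101909491526) (nat_lit 0) (nat_lit 7531883206) (nat_lit 2) (nat_lit 5) (nat_lit 4) (nat_lit 4) (nat_lit 2) (nat_lit 4) (nat_lit 397) (nat_lit 275) (nat_lit 228)) (XT.nd (nat_lit 78) (nat_lit 0) (nat_lit 0) (XT.lf (nat_lit 0) (nat_lit 16818834945) (nat_lit 152) (nat_lit 100381844103) (nat_lit 0) (nat_lit 11257931501) (nat_lit 2) (nat_lit 5) (nat_lit 4) (nat_lit 4) (nat_lit 2) (nat_lit 4) (nat_lit 398) (nat_lit 275) (nat_lit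 227)) (XT.lf (nat_lit 0) (nat_lit 20735504344) (nat_lit 152) (nat_lit 98829740168) (nat_lit 0) (nat_lit 15146433967) (nat_lit 2) (nat_lit 5) (nat_lit 4) (nat_lit 4) (nat_lit 2) (nat_lit 4) (nat_lit 399) (nat_lit 275) (nat_lit 226)))))) (XT.nd (nat_lit 468) (nat_lit 0) (nat_lit 0) (XT.nd (nat_lit 234) (nat_lit 0) (nat_lit 0) (XT.nd (nat_lit 78) (nat_lit 0) (nat_lit 0) (XT.lf (nat_lit 0) (nat_lit 24822544970) (nat_lit 152) (nat_lit 97249484234) (nat_lit 0) (nat_lit 19206648944) (nat_lit 2) (nat_lit 5) (nat_lit 4) (nat_lit 4) (nat_lit 2) (nat_lit 4) (nat_lit 400) (nat_lit 275) (nat_lit 225)) (XT.nd (nat_lit 78) (nat_lit 0) (nat_lit 0) (XT.lf (nat_lit 0) (nat_lit 29089687874) (nat_lit 152) (nat_lit 95637313788) (nat_lit 0) (nat_lit 23448243610) (nat_lit 2) (nat_lit 5) (nat_lit 4) (nat_lit 4) (nat_lit 2) (nat_lit 4) (nat_lit 401) (nat_lit 275) (nat_lit 224)) (XT.lf (nat_lit 0) (nat_lit 33547092920)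 (nat_lit 152) (nat_lit 93989390328) (nat_lit 0) (nat_lit 27881317000) (nat_lit 2) (nat_lit 5) (nat_lit 4) (nat_lit 4) (nat_lit 2) (nat_lit 4) (nat_lit 402) (nat_lit 275) (nat_lit 223)))) (XT.nd (nat_lit 78) (nat_lit 0) (nat_lit 0) (XT.lf (nat_lit 0) (nat_lit 38205372975) (nat_lit 152) (nat_lit 92301790227) (nat_lit 0) (nat_lit 32516424051) (nat_lit 2) (nat_lit 5) (nat_lit 4) (nat_lit 4) (nat_lit 2) (nat_lit 4) (nat_lit 403) (nat_lit 275) (nat_lit 222)) (XT.nd (nat_lit 78) (nat_lit 0) (nat_lit 0) (XT.lf (nat_lit 0) (nat_lit 43075619185) (nat_lit 152) (nat_lit 90570495389) (nat_lit 0) (nat_lit 37364600732) (nat_lit 2) (nat_lit 5) (nat_lit 4) (nat_lit 4) (nat_lit 2) (nat_lit 4) (nat_lit 404) (nat_lit 275) (nat_lit 221)) (XT.lf (nat_lit 0) (nat_lit 48169427372) (nat_lit 152) (nat_lit 88791383685) (nat_lit 0) (nat_lit 42437390320) (nat_lit 2) (nat_lit 5) (nat_lit 4) (nat_lit 4) (nat_lit 2)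 (nat_lit 4) (nat_lit 405) (nat_lit 275) (nat_lit 220))))) (XT.nd (nat_lit 234) (nat_lit 0) (nat_lit 0) (XT.nd (nat_lit 78) (nat_lit 0) (nat_lit 0) (XT.lf (nat_lit 0) (nat_lit 53498925652) (nat_lit 152) (nat_lit 86960219133) (nat_lit 0) (nat_lit 47746870887) (nat_lit 2) (nat_lit 5) (nat_lit 4) (nat_lit 4) (nat_lit 2) (nat_lit 4) (nat_lit 406) (nat_lit 275) (nat_lit 219)) (XT.nd (nat_lit 78) (nat_lit 0) (nat_lit 0) (XT.lf (nat_lit 0) (nat_lit 59076803306) (nat_lit 152) (nat_lit 85072641818) (nat_lit 0) (nat_lit 53305684053) (nat_lit 2) (nat_lit 5) (nat_lit 4) (nat_lit 4) (nat_lit 2) (nat_lit 4) (nat_lit 407) (nat_lit 275) (nat_lit 218)) (XT.lf (nat_lit 0) (nat_lit 64916340995) (nat_lit 152) (nat_lit 83124157509) (nat_lit 0) (nat_lit 59127065086) (nat_lit 2) (nat_lit 5) (nat_lit 4) (nat_lit 4) (nat_lit 2) (nat_lit 4) (nat_lit 408) (nat_lit 275) (nat_lit 217)))) (XT.nd (nat_lit 78) (nat_lit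 0) (nat_lit 0) (XT.lf (nat_lit 0) (nat_lit 71031442380) (nat_lit 152) (nat_lit 81110126956) (nat_lit 0) (nat_lit 65224874419) (nat_lit 2) (nat_lit 5) (nat_lit 4) (nat_lit 4) (nat_lit 2) (nat_lit 4) (nat_lit 409) (nat_lit 275) (nat_lit 216)) (XT.nd (nat_lit 78) (nat_lit 0) (nat_lit 0) (XT.lf (nat_lit 0) (nat_lit 77436667228) (nat_lit 152) (nat_lit 79025754850) (nat_lit 0) (nat_lit 71613630644) (nat_lit 2) (nat_lit 5) (nat_lit 4) (nat_lit 4) (nat_lit 2) (nat_lit 4) (nat_lit 410) (nat_lit 275) (nat_lit 215)) (XT.lf (nat_lit 0) (nat_lit 84147266072) (nat_lit 152) (nat_lit 76866078400) (nat_lit 0) (nat_lit 78308545086) (nat_lit 2) (nat_lit 5) (nat_lit 4) (nat_lit 4) (nat_lit 2) (nat_lit 4) (nat_lit 411) (nat_lit 275) (nat_lit 214))))))))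
noncomputable def xc42 : XT := (XT.nd (nat_lit 1794) (nat_lit 0) (nat_lit 0) (XT.nd (nat_lit 858) (nat_lit 76) (nat_lit 0) (XT.nd (nat_lit 390) (nat_lit 0) (nat_lit 0) (XT.nd (nat_lit 156) (nat_lit 0) (nat_lit 0) (XT.nd (nat_lit 78) (nat_lit 0) (nat_lit 0) (XT.lf (nat_lit 0) (nat_lit 91179216529) (nat_lit 152) (nat_lit 74625955518) (nat_lit 0) (nat_lit 85325558018) (nat_lit 2) (nat_lit 5) (nat_lit 4) (nat_lit 4) (nat_lit 2) (nat_lit 4) (nat_lit 412) (nat_lit 275) (nat_lit 213)) (XT.lf (nat_lit 0) (nat_lit 98549261339) (nat_lit 152) (nat_lit 72300052579) (nat_lit 0) (nat_lit 92681376613) (nat_lit 2) (nat_lit 5) (nat_lit 4) (nat_lit 4) (nat_lit 2) (nat_lit 4) (nat_lit 413) (nat_lit 275) (nat_lit 212))) (XT.nd (nat_lit 78) (nat_lit 0) (nat_lit 0) (XT.lf (nat_lit 0) (nat_lit 106274948227) (nat_lit 152) (nat_lit 69882831719) (nat_lit 0) (nat_lit 100393514725) (nat_lit 2) (nat_lit 5) (nat_lit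 4) (nat_lit 4) (nat_lit 2) (nat_lit 4) (nat_lit 414) (nat_lit 275) (nat_lit 211)) (XT.nd (nat_lit 78) (nat_lit 0) (nat_lit 0) (XT.lf (nat_lit 0) (nat_lit 114374671686) (nat_lit 152) (nat_lit 67368537649) (nat_lit 0) (nat_lit 108480334588) (nat_lit 2) (nat_lit 5) (nat_lit 4) (nat_lit 4) (nat_lit 2) (nat_lit 4) (nat_lit 415) (nat_lit 275) (nat_lit 210)) (XT.lf (nat_lit 0) (nat_lit 122867716772) (nat_lit 152) (nat_lit 64751183956) (nat_lit 0) (nat_lit 116961090534) (nat_lit 2) (nat_lit 5) (nat_lit 4) (nat_lit 4) (nat_lit 2) (nat_lit 4) (nat_lit 416) (nat_lit 275) (nat_lit 209))))) (XT.nd (nat_lit 234) (nat_lit 0) (nat_lit 0) (XT.nd (nat_lit 78) (nat_lit 0) (nat_lit 0) (XT.lf (nat_lit 0) (nat_lit 131774305020) (nat_lit 152) (nat_lit 62024538845) (nat_lit 0) (nat_lit 125855974840) (nat_lit 2) (nat_lit 5) (nat_lit 4) (nat_lit 4) (nat_lit 2) (nat_lit 4) (nat_lit 417) (nat_lit 275) (nat_lit 208))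 (XT.nd (nat_lit 78) (nat_lit 0) (nat_lit 0) (XT.lf (nat_lit 0) (nat_lit 141115642593) (nat_lit 152) (nat_lit 59182110304) (nat_lit 0) (nat_lit 135186165802) (nat_lit 2) (nat_lit 5) (nat_lit 4) (nat_lit 4) (nat_lit 2) (nat_lit 4) (nat_lit 418) (nat_lit 275) (nat_lit 207)) (XT.lf (nat_lit 0) (nat_lit 150913970771) (nat_lit 152) (nat_lit 56217130646) (nat_lit 0) (nat_lit 144973878159) (nat_lit 2) (nat_lit 5) (nat_lit 4) (nat_lit 4) (nat_lit 2) (nat_lit 4) (nat_lit 419) (nat_lit 275) (nat_lit 206)))) (XT.nd (nat_lit 78) (nat_lit 0) (nat_lit 0) (XT.lf (nat_lit 0) (nat_lit 161192618907) (nat_lit 152) (nat_lit 53122540395) (nat_lit 0) (nat_lit 155242415990) (nat_lit 2) (nat_lit 5) (nat_lit 4) (nat_lit 4) (nat_lit 2) (nat_lit 4) (nat_lit 420) (nat_lit 275) (nat_lit 205)) (XT.nd (nat_lit 78) (nat_lit 0) (nat_lit 0) (XT.lf (nat_lit 0) (nat_lit 171976059973) (nat_lit 152) (nat_lit 49890971479) (nat_lit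 0) (nat_lit 166016228193) (nat_lit 2) (nat_lit 5) (nat_lit 4) (nat_lit 4) (nat_lit 2) (nat_lit 4) (nat_lit 421) (nat_lit 275) (nat_lit 204)) (XT.lf (nat_lit 0) (nat_lit 183289968827) (nat_lit 152) (nat_lit 46514729687) (nat_lit 0) (nat_lit 177320966703) (nat_lit 2) (nat_lit 5) (nat_lit 4) (nat_lit 4) (nat_lit 2) (nat_lit 4) (nat_lit 422) (nat_lit 275) (nat_lit 203)))))) (XT.nd (nat_lit 468) (nat_lit 76) (nat_lit 0) (XT.nd (nat_lit 234) (nat_lit 0) (nat_lit 0) (XT.nd (nat_lit 78) (nat_lit 0) (nat_lit 0) (XT.lf (nat_lit 0) (nat_lit 195161283350) (nat_lit 152) (nat_lit 42985776348) (nat_lit 0) (nat_lit 189183547564) (nat_lit 2) (nat_lit 5) (nat_lit 4) (nat_lit 4) (nat_lit 2) (nat_lit 4) (nat_lit 423) (nat_lit 275) (nat_lit 202)) (XT.nd (nat_lit 78) (nat_lit 0) (nat_lit 0) (XT.lf (nat_lit 0) (nat_lit 207618268574) (nat_lit 152) (nat_lit 39295709191) (nat_lit 0) (nat_lit 201632215015) (nat_lit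 2) (nat_lit 5) (nat_lit 4) (nat_lit 4) (nat_lit 2) (nat_lit 4) (nat_lit 424) (nat_lit 275) (nat_lit 201)) (XT.lf (nat_lit 0) (nat_lit 220690583989) (nat_lit 152) (nat_lit 35435742343) (nat_lit 0) (nat_lit 214696608741) (nat_lit 2) (nat_lit 5) (nat_lit 4) (nat_lit 4) (nat_lit 2) (nat_lit 4) (nat_lit 425) (nat_lit 275) (nat_lit 200)))) (XT.nd (nat_lit 78) (nat_lit 0) (nat_lit 0) (XT.lf (nat_lit 0) (nat_lit 234409354155) (nat_lit 152) (nat_lit 31396685407) (nat_lit 0) (nat_lit 228407834441) (nat_lit 2) (nat_lit 5) (nat_lit 4) (nat_lit 4) (nat_lit 2) (nat_lit 4) (nat_lit 426) (nat_lit 275) (nat_lit 199)) (XT.nd (nat_lit 78) (nat_lit 0) (nat_lit 0) (XT.lf (nat_lit 0) (nat_lit 248807242811) (nat_lit 152) (nat_lit 27168921580) (nat_lit 0) (nat_lit 242798537892) (nat_lit 2) (nat_lit 5) (nat_lit 4) (nat_lit 4) (nat_lit 2) (nat_lit 4) (nat_lit 427) (nat_lit 275) (nat_lit 198)) (XT.lf (nat_lit 0)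 (nat_lit 263918530643) (nat_lit 152) (nat_lit 22742384758) (nat_lit 0) (nat_lit 257902982672) (nat_lit 2) (nat_lit 5) (nat_lit 4) (nat_lit 4) (nat_lit 2) (nat_lit 4) (nat_lit 428) (nat_lit 275) (nat_lit 197))))) (XT.nd (nat_lit 234) (nat_lit 76) (nat_lit 0) (XT.nd (nat_lit 78) (nat_lit 0) (nat_lit 0) (XT.lf (nat_lit 0) (nat_lit 279779196909) (nat_lit 152) (nat_lit 18106535567) (nat_lit 0) (nat_lit 273757131745) (nat_lit 2) (nat_lit 5) (nat_lit 4) (nat_lit 4) (nat_lit 2) (nat_lit 4) (nat_lit 429) (nat_lit 275) (nat_lit 196)) (XT.nd (nat_lit 78) (nat_lit 0) (nat_lit 0) (XT.lf (nat_lit 0) (nat_lit 296427005101) (nat_lit 152) (nat_lit 13250336271) (nat_lit 0) (nat_lit 290398733086) (nat_lit 2) (nat_lit 5) (nat_lit 4) (nat_lit 4) (nat_lit 2) (nat_lit 4) (nat_lit 430) (nat_lit 275) (nat_lit 195)) (XT.lf (nat_lit 0) (nat_lit 313901592855) (nat_lit 152) (nat_lit 8162224492) (nat_lit 0) (nat_lit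 307867409554) (nat_lit 2) (nat_lit 5) (nat_lit 4) (nat_lit 4) (nat_lit 2) (nat_lit 4) (nat_lit 431) (nat_lit 275) (nat_lit 194)))) (XT.nd (nat_lit 78) (nat_lit 76) (nat_lit 0) (XT.lf (nat_lit 0) (nat_lit 332244566334) (nat_lit 152) (nat_lit 2830085677) (nat_lit 0) (nat_lit 326204753237) (nat_lit 2) (nat_lit 5) (nat_lit 4) (nat_lit 4) (nat_lit 2) (nat_lit 4) (nat_lit 432) (nat_lit 275) (nat_lit 193)) (XT.nd (nat_lit 78) (nat_lit 0) (nat_lit 0) (XT.lf (nat_lit 0) (nat_lit 2849993327) (nat_lit 76) (nat_lit 348694102340) (nat_lit 76) (nat_lit 342648927532) (nat_lit 1) (nat_lit 4) (nat_lit 2) (nat_lit 5) (nat_lit 2) (nat_lit 4) (nat_lit 433) (nat_lit 275) (nat_lit 192)) (XT.lf (nat_lit 0) (nat_lit 8902605555) (nat_lit 76) (nat_lit 362948926089) (nat_lit 76) (nat_lit 356898644890) (nat_lit 1) (nat_lit 4) (nat_lit 2) (nat_lit 5) (nat_lit 2) (nat_lit 4) (nat_lit 434) (nat_lit 275) (nat_lit 191)))))))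 (XT.nd (nat_lit 40872) (nat_lit 0) (nat_lit 532) (XT.nd (nat_lit 40404) (nat_lit 0) (nat_lit 988) (XT.nd (nat_lit 40170) (nat_lit 0) (nat_lit 1216) (XT.nd (nat_lit 40092) (nat_lit 0) (nat_lit 1444) (XT.lf (nat_lit 0) (nat_lit 15248586573) (nat_lit 76) (nat_lit 377920992187) (nat_lit 76) (nat_lit 371865847758) (nat_lit 1) (nat_lit 4) (nat_lit 2) (nat_lit 5) (nat_lit 2) (nat_lit 4) (nat_lit 435) (nat_lit 275) (nat_lit 190)) (XT.lf (nat_lit 0) (nat_lit 1528579102) (nat_lit 152) (nat_lit 4635646333) (nat_lit 0) (nat_lit 1528579102) (nat_lit 20) (nat_lit 5) (nat_lit 22) (nat_lit 4) (nat_lit 20) (nat_lit 4) (nat_lit 348) (nat_lit 276) (nat_lit 276))) (XT.nd (nat_lit 78) (nat_lit 228) (nat_lit 0) (XT.lf (nat_lit 0) (nat_lit 7929586677) (nat_lit 152) (nat_lit 447904220) (nat_lit 0) (nat_lit 7517345851) (nat_lit 20) (nat_lit 5) (nat_lit 22) (nat_lit 4) (nat_lit 20) (nat_lit 4) (nat_lit 349) (nat_lit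 276) (nat_lit 275)) (XT.nd (nat_lit 78) (nat_lit 152) (nat_lit 0) (XT.lf (nat_lit 0) (nat_lit 8806056145) (nat_lit 76) (nat_lit 4214817749) (nat_lit 76) (nat_lit 3409966614) (nat_lit 19) (nat_lit 4) (nat_lit 20) (nat_lit 5) (nat_lit 20) (nat_lit 4) (nat_lit 350) (nat_lit 276) (nat_lit 274)) (XT.lf (nat_lit 0) (nat_lit 1196179944) (nat_lit 152) (nat_lit 15729563849) (nat_lit 0) (nat_lit 73545929) (nat_lit 17) (nat_lit 5) (nat_lit 19) (nat_lit 4) (nat_lit 17) (nat_lit 4) (nat_lit 351) (nat_lit 276) (nat_lit 273))))) (XT.nd (nat_lit 234) (nat_lit 152) (nat_lit 0) (XT.nd (nat_lit 78) (nat_lit 76) (nat_lit 0) (XT.lf (nat_lit 0) (nat_lit 5957853140) (nat_lit 152) (nat_lit 7137520944) (nat_lit 0) (nat_lit 4496067576) (nat_lit 17) (nat_lit 5) (nat_lit 19) (nat_lit 4) (nat_lit 17) (nat_lit 4) (nat_lit 352) (nat_lit 276) (nat_lit 272)) (XT.nd (nat_lit 78) (nat_lit 0) (nat_lit 0) (XT.lf (nat_lit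 0) (nat_lit 1656790218) (nat_lit 76) (nat_lit 9173805853) (nat_lit 76) (nat_lit 7389018816) (nat_lit 16) (nat_lit 4) (nat_lit 17) (nat_lit 5) (nat_lit 17) (nat_lit 4) (nat_lit 353) (nat_lit 276) (nat_lit 271)) (XT.lf (nat_lit 0) (nat_lit 10862775989) (nat_lit 76) (nat_lit 5055169892) (nat_lit 76) (nat_lit 2962762404) (nat_lit 16) (nat_lit 4) (nat_lit 17) (nat_lit 5) (nat_lit 17) (nat_lit 4) (nat_lit 354) (nat_lit 276) (nat_lit 270)))) (XT.nd (nat_lit 78) (nat_lit 0) (nat_lit 0) (XT.lf (nat_lit 0) (nat_lit 682175442) (nat_lit 76) (nat_lit 814192746) (nat_lit 152) (nat_lit 18083953068) (nat_lit 14) (nat_lit 5) (nat_lit 15) (nat_lit 5) (nat_lit 16) (nat_lit 4) (nat_lit 355) (nat_lit 276) (nat_lit 269)) (XT.nd (nat_lit 78) (nat_lit 0) (nat_lit 0) (XT.lf (nat_lit 0) (nat_lit 6129463440) (nat_lit 152) (nat_lit 10588606477) (nat_lit 0) (nat_lit 3591939475) (nat_lit 14) (nat_lit 5) (nat_lit 16)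 (nat_lit 4) (nat_lit 14) (nat_lit 4) (nat_lit 356) (nat_lit 276) (nat_lit 268)) (XT.lf (nat_lit 0) (nat_lit 10870180302) (nat_lit 152) (nat_lit 2132676417) (nat_lit 0) (nat_lit 8079576230) (nat_lit 14) (nat_lit 5) (nat_lit 16) (nat_lit 4) (nat_lit 14) (nat_lit 4) (nat_lit 357) (nat_lit 276) (nat_lit 267)))))) (XT.nd (nat_lit 468) (nat_lit 152) (nat_lit 0) (XT.nd (nat_lit 234) (nat_lit 76) (nat_lit 0) (XT.nd (nat_lit 78) (nat_lit 152) (nat_lit 0) (XT.lf (nat_lit 0) (nat_lit 6717491025) (nat_lit 76) (nat_lit 9104482201) (nat_lit 76) (nat_lit 6072849457) (nat_lit 13) (nat_lit 4) (nat_lit 14) (nat_lit 5) (nat_lit 14) (nat_lit 4) (nat_lit 358) (nat_lit 276) (nat_lit 266)) (XT.nd (nat_lit 78) (nat_lit 152) (nat_lit 0) (XT.lf (nat_lit 0) (nat_lit 15844576166) (nat_lit 76) (nat_lit 5084547976) (nat_lit 76) (nat_lit 1823364114) (nat_lit 13) (nat_lit 4) (nat_lit 14) (nat_lit 5) (nat_lit 14) (nat_lit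 4) (nat_lit 359) (nat_lit 276) (nat_lit 265)) (XT.lf (nat_lit 0) (nat_lit 1551054746) (nat_lit 76) (nat_lit 903022677) (nat_lit 152) (nat_lit 21201943825) (nat_lit 11) (nat_lit 5) (nat_lit 12) (nat_lit 5) (nat_lit 13) (nat_lit 4) (nat_lit 360) (nat_lit 276) (nat_lit 264)))) (XT.nd (nat_lit 78) (nat_lit 76) (nat_lit 0) (XT.lf (nat_lit 0) (nat_lit 6933871824) (nat_lit 152) (nat_lit 14245437372) (nat_lit 0) (nat_lit 3421477917) (nat_lit 11) (nat_lit 5) (nat_lit 13) (nat_lit 4) (nat_lit 11) (nat_lit 4) (nat_lit 361) (nat_lit 276) (nat_lit 263)) (XT.nd (nat_lit 78) (nat_lit 76) (nat_lit 0) (XT.lf (nat_lit 0) (nat_lit 11534745513) (nat_lit 152) (nat_lit 6229728781) (nat_lit 0) (nat_lit 7833499333) (nat_lit 11) (nat_lit 5) (nat_lit 13) (nat_lit 4) (nat_lit 11) (nat_lit 4) (nat_lit 362) (nat_lit 276) (nat_lit 262)) (XT.lf (nat_lit 0) (nat_lit 2040656766) (nat_lit 76) (nat_lit 14244757838) (nat_lit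 76) (nat_lit 10363652352) (nat_lit 10) (nat_lit 4) (nat_lit 11) (nat_lit 5) (nat_lit 11) (nat_lit 4) (nat_lit 363) (nat_lit 276) (nat_lit 261))))) (XT.nd (nat_lit 234) (nat_lit 76) (nat_lit 0) (XT.nd (nat_lit 78) (nat_lit 76) (nat_lit 0) (XT.lf (nat_lit 0) (nat_lit 10732831510) (nat_lit 76) (nat_lit 10536271316) (nat_lit 76) (nat_lit 6483871252) (nat_lit 10) (nat_lit 4) (nat_lit 11) (nat_lit 5) (nat_lit 11) (nat_lit 4) (nat_lit 364) (nat_lit 276) (nat_lit 260)) (XT.nd (nat_lit 78) (nat_lit 76) (nat_lit 0) (XT.lf (nat_lit 0) (nat_lit 19661508137) (nat_lit 76) (nat_lit 6735688468) (nat_lit 76) (nat_lit 2520150711) (nat_lit 10) (nat_lit 4) (nat_lit 11) (nat_lit 5) (nat_lit 11) (nat_lit 4) (nat_lit 365) (nat_lit 276) (nat_lit 259)) (XT.lf (nat_lit 0) (nat_lit 1487754807) (nat_lit 152) (nat_lit 1321009633) (nat_lit 76) (nat_lit 27334994744) (nat_lit 9) (nat_lit 5) (nat_lit 11) (nat_lit 5) (nat_lit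 10) (nat_lit 4) (nat_lit 366) (nat_lit 276) (nat_lit 258)))) (XT.nd (nat_lit 78) (nat_lit 0) (nat_lit 0) (XT.lf (nat_lit 0) (nat_lit 5645843198) (nat_lit 152) (nat_lit 24439736011) (nat_lit 0) (nat_lit 1342150164) (nat_lit 8) (nat_lit 5) (nat_lit 10) (nat_lit 4) (nat_lit 8) (nat_lit 4) (nat_lit 367) (nat_lit 276) (nat_lit 257)) (XT.nd (nat_lit 78) (nat_lit 0) (nat_lit 0) (XT.lf (nat_lit 0) (nat_lit 9984458903) (nat_lit 152) (nat_lit 17246282116) (nat_lit 0) (nat_lit 5546552085) (nat_lit 8) (nat_lit 5) (nat_lit 10) (nat_lit 4) (nat_lit 8) (nat_lit 4) (nat_lit 368) (nat_lit 276) (nat_lit 256)) (XT.lf (nat_lit 0) (nat_lit 14448423379) (nat_lit 152) (nat_lit 9867821761) (nat_lit 0) (nat_lit 9882693910) (nat_lit 8) (nat_lit 5) (nat_lit 10) (nat_lit 4) (nat_lit 8) (nat_lit 4) (nat_lit 369) (nat_lit 276) (nat_lit 255))))))))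
noncomputable def xc43 : XT := (XT.nd (nat_lit 1794) (nat_lit 152) (nat_lit 0) (XT.nd (nat_lit 858) (nat_lit 76) (nat_lit 0) (XT.nd (nat_lit 390) (nat_lit 152) (nat_lit 0) (XT.nd (nat_lit 156) (nat_lit 0) (nat_lit 0) (XT.nd (nat_lit 78) (nat_lit 76) (nat_lit 0) (XT.lf (nat_lit 0) (nat_lit 19048365114) (nat_lit 152) (nat_lit 2286787185) (nat_lit 0) (nat_lit 14360899786) (nat_lit 8) (nat_lit 5) (nat_lit 10) (nat_lit 4) (nat_lit 8) (nat_lit 4) (nat_lit 370) (nat_lit 276) (nat_lit 254)) (XT.lf (nat_lit 0) (nat_lit 5697218258) (nat_lit 76) (nat_lit 18186967634) (nat_lit 76) (nat_lit 13383563394) (nat_lit 7) (nat_lit 4) (nat_lit 8) (nat_lit 5) (nat_lit 8) (nat_lit 4) (nat_lit 371) (nat_lit 276) (nat_lit 253))) (XT.nd (nat_lit 78) (nat_lit 0) (nat_lit 0) (XT.lf (nat_lit 0) (nat_lit 14003943918) (nat_lit 76) (nat_lit 14915036051) (nat_lit 76) (nat_lit 10001213799) (nat_lit 7) (nat_lit 4) (nat_lit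 8) (nat_lit 5) (nat_lit 8) (nat_lit 4) (nat_lit 372) (nat_lit 276) (nat_lit 252)) (XT.nd (nat_lit 78) (nat_lit 0) (nat_lit 0) (XT.lf (nat_lit 0) (nat_lit 22577556200) (nat_lit 76) (nat_lit 11550295086) (nat_lit 76) (nat_lit 6531312822) (nat_lit 7) (nat_lit 4) (nat_lit 8) (nat_lit 5) (nat_lit 8) (nat_lit 4) (nat_lit 373) (nat_lit 276) (nat_lit 251)) (XT.lf (nat_lit 0) (nat_lit 31438468468) (nat_lit 76) (nat_lit 8084733449) (nat_lit 76) (nat_lit 2965598793) (nat_lit 7) (nat_lit 4) (nat_lit 8) (nat_lit 5) (nat_lit 8) (nat_lit 4) (nat_lit 374) (nat_lit 276) (nat_lit 250))))) (XT.nd (nat_lit 234) (nat_lit 0) (nat_lit 0) (XT.nd (nat_lit 78) (nat_lit 76) (nat_lit 0) (XT.lf (nat_lit 0) (nat_lit 681872303) (nat_lit 152) (nat_lit 3816679663) (nat_lit 76) (nat_lit 39914357989) (nat_lit 6) (nat_lit 5) (nat_lit 8) (nat_lit 5) (nat_lit 7) (nat_lit 4) (nat_lit 375) (nat_lit 276) (nat_lit 249)) (XT.nd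 (nat_lit 78) (nat_lit 0) (nat_lit 0) (XT.lf (nat_lit 0) (nat_lit 3718547486) (nat_lit 76) (nat_lit 683358144) (nat_lit 152) (nat_lit 42029412474) (nat_lit 5) (nat_lit 5) (nat_lit 6) (nat_lit 5) (nat_lit 7) (nat_lit 4) (nat_lit 376) (nat_lit 276) (nat_lit 248)) (XT.lf (nat_lit 0) (nat_lit 8357591716) (nat_lit 152) (nat_lit 36968115279) (nat_lit 0) (nat_lit 3222473183) (nat_lit 5) (nat_lit 5) (nat_lit 7) (nat_lit 4) (nat_lit 5) (nat_lit 4) (nat_lit 377) (nat_lit 276) (nat_lit 247)))) (XT.nd (nat_lit 78) (nat_lit 0) (nat_lit 0) (XT.lf (nat_lit 0) (nat_lit 12457578144) (nat_lit 152) (nat_lit 31072009120) (nat_lit 0) (nat_lit 7243987591) (nat_lit 5) (nat_lit 5) (nat_lit 7) (nat_lit 4) (nat_lit 5) (nat_lit 4) (nat_lit 378) (nat_lit 276) (nat_lit 246)) (XT.nd (nat_lit 78) (nat_lit 0) (nat_lit 0) (XT.lf (nat_lit 0) (nat_lit 16700957654) (nat_lit 152) (nat_lit 24999744658) (nat_lit 0) (nat_lit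 11412631844) (nat_lit 5) (nat_lit 5) (nat_lit 7) (nat_lit 4) (nat_lit 5) (nat_lit 4) (nat_lit 379) (nat_lit 276) (nat_lit 245)) (XT.lf (nat_lit 0) (nat_lit 21097833529) (nat_lit 152) (nat_lit 18736864120) (nat_lit 0) (nat_lit 15738331284) (nat_lit 5) (nat_lit 5) (nat_lit 7) (nat_lit 4) (nat_lit 5) (nat_lit 4) (nat_lit 380) (nat_lit 276) (nat_lit 244)))))) (XT.nd (nat_lit 468) (nat_lit 0) (nat_lit 0) (XT.nd (nat_lit 234) (nat_lit 0) (nat_lit 0) (XT.nd (nat_lit 78) (nat_lit 76) (nat_lit 0) (XT.lf (nat_lit 0) (nat_lit 25658674522) (nat_lit 152) (nat_lit 12268455887) (nat_lit 0) (nat_lit 20231385196) (nat_lit 5) (nat_lit 5) (nat_lit 7) (nat_lit 4) (nat_lit 5) (nat_lit 4) (nat_lit 381) (nat_lit 276) (nat_lit 243)) (XT.nd (nat_lit 78) (nat_lit 76) (nat_lit 0) (XT.lf (nat_lit 0) (nat_lit 30394339778) (nat_lit 152) (nat_lit 5579118986) (nat_lit 0) (nat_lit 24902491327) (nat_lit 5) (nat_lit 5)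 (nat_lit 7) (nat_lit 4) (nat_lit 5) (nat_lit 4) (nat_lit 382) (nat_lit 276) (nat_lit 242)) (XT.lf (nat_lit 0) (nat_lit 1391613911) (nat_lit 76) (nat_lit 33946217771) (nat_lit 76) (nat_lit 28392884439) (nat_lit 4) (nat_lit 4) (nat_lit 5) (nat_lit 5) (nat_lit 5) (nat_lit 4) (nat_lit 383) (nat_lit 276) (nat_lit 241)))) (XT.nd (nat_lit 78) (nat_lit 0) (nat_lit 0) (XT.lf (nat_lit 0) (nat_lit 8808541057) (nat_lit 76) (nat_lit 31764672700) (nat_lit 76) (nat_lit 26152782339) (nat_lit 4) (nat_lit 4) (nat_lit 5) (nat_lit 5) (nat_lit 5) (nat_lit 4) (nat_lit 384) (nat_lit 276) (nat_lit 240)) (XT.nd (nat_lit 78) (nat_lit 0) (nat_lit 0) (XT.lf (nat_lit 0) (nat_lit 16504850930) (nat_lit 76) (nat_lit 29518114476) (nat_lit 76) (nat_lit 23850455516) (nat_lit 4) (nat_lit 4) (nat_lit 5) (nat_lit 5) (nat_lit 5) (nat_lit 4) (nat_lit 385) (nat_lit 276) (nat_lit 239)) (XT.lf (nat_lit 0) (nat_lit 24498868079)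 (nat_lit 76) (nat_lit 27201194151) (nat_lit 76) (nat_lit 21480422239) (nat_lit 4) (nat_lit 4) (nat_lit 5) (nat_lit 5) (nat_lit 5) (nat_lit 4) (nat_lit 386) (nat_lit 276) (nat_lit 238))))) (XT.nd (nat_lit 234) (nat_lit 0) (nat_lit 0) (XT.nd (nat_lit 78) (nat_lit 0) (nat_lit 0) (XT.lf (nat_lit 0) (nat_lit 32809625878) (nat_lit 76) (nat_lit 24808395248) (nat_lit 76) (nat_lit 19037039572) (nat_lit 4) (nat_lit 4) (nat_lit 5) (nat_lit 5) (nat_lit 5) (nat_lit 4) (nat_lit 387) (nat_lit 276) (nat_lit 237)) (XT.nd (nat_lit 78) (nat_lit 0) (nat_lit 0) (XT.lf (nat_lit 0) (nat_lit 41456911844) (nat_lit 76) (nat_lit 22334020626) (nat_lit 76) (nat_lit 16514489937) (nat_lit 4) (nat_lit 4) (nat_lit 5) (nat_lit 5) (nat_lit 5) (nat_lit 4) (nat_lit 388) (nat_lit 276) (nat_lit 236)) (XT.lf (nat_lit 0) (nat_lit 50461314755) (nat_lit 76) (nat_lit 19772178917) (nat_lit 76) (nat_lit 13906767264) (nat_lit 4) (nat_lit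 4) (nat_lit 5) (nat_lit 5) (nat_lit 5) (nat_lit 4) (nat_lit 389) (nat_lit 276) (nat_lit 235)))) (XT.nd (nat_lit 78) (nat_lit 0) (nat_lit 0) (XT.lf (nat_lit 0) (nat_lit 59844273665) (nat_lit 76) (nat_lit 17116770499) (nat_lit 76) (nat_lit 11207662689) (nat_lit 4) (nat_lit 4) (nat_lit 5) (nat_lit 5) (nat_lit 5) (nat_lit 4) (nat_lit 390) (nat_lit 276) (nat_lit 234)) (XT.nd (nat_lit 78) (nat_lit 0) (nat_lit 0) (XT.lf (nat_lit 0) (nat_lit 69628128952) (nat_lit 76) (nat_lit 14361472970) (nat_lit 76) (nat_lit 8410749772) (nat_lit 4) (nat_lit 4) (nat_lit 5) (nat_lit 5) (nat_lit 5) (nat_lit 4) (nat_lit 391) (nat_lit 276) (nat_lit 233)) (XT.lf (nat_lit 0) (nat_lit 79836175510) (nat_lit 76) (nat_lit 11499726098) (nat_lit 76) (nat_lit 5509369198) (nat_lit 4) (nat_lit 4) (nat_lit 5) (nat_lit 5) (nat_lit 5) (nat_lit 4) (nat_lit 392) (nat_lit 276) (nat_lit 232))))))) (XT.nd (nat_lit 858) (nat_lit 0)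 (nat_lit 0) (XT.nd (nat_lit 390) (nat_lit 0) (nat_lit 0) (XT.nd (nat_lit 156) (nat_lit 76) (nat_lit 0) (XT.nd (nat_lit 78) (nat_lit 76) (nat_lit 0) (XT.lf (nat_lit 0) (nat_lit 90492718211) (nat_lit 76) (nat_lit 8524716200) (nat_lit 76) (nat_lit 2496612916) (nat_lit 4) (nat_lit 4) (nat_lit 5) (nat_lit 5) (nat_lit 5) (nat_lit 4) (nat_lit 393) (nat_lit 276) (nat_lit 231)) (XT.lf (nat_lit 0) (nat_lit 614378182) (nat_lit 152) (nat_lit 4804576944) (nat_lit 76) (nat_lit 100998346801) (nat_lit 3) (nat_lit 5) (nat_lit 5) (nat_lit 5) (nat_lit 4) (nat_lit 4) (nat_lit 394) (nat_lit 276) (nat_lit 230))) (XT.nd (nat_lit 78) (nat_lit 0) (nat_lit 0) (XT.lf (nat_lit 0) (nat_lit 1678677694) (nat_lit 76) (nat_lit 2114964742) (nat_lit 152) (nat_lit 107770205470) (nat_lit 2) (nat_lit 5) (nat_lit 3) (nat_lit 5) (nat_lit 4) (nat_lit 4) (nat_lit 395) (nat_lit 276) (nat_lit 229)) (XT.nd (nat_lit 78) (nat_lit 0)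 (nat_lit 0) (XT.lf (nat_lit 0) (nat_lit 7206239161) (nat_lit 152) (nat_lit 108390479072) (nat_lit 0) (nat_lit 1367290544) (nat_lit 2) (nat_lit 5) (nat_lit 4) (nat_lit 4) (nat_lit 2) (nat_lit 4) (nat_lit 396) (nat_lit 276) (nat_lit 228)) (XT.lf (nat_lit 0) (nat_lit 10796065153) (nat_lit 152) (nat_lit 106910247078) (nat_lit 0) (nat_lit 4927541257) (nat_lit 2) (nat_lit 5) (nat_lit 4) (nat_lit 4) (nat_lit 2) (nat_lit 4) (nat_lit 397) (nat_lit 276) (nat_lit 227))))) (XT.nd (nat_lit 234) (nat_lit 0) (nat_lit 0) (XT.nd (nat_lit 78) (nat_lit 0) (nat_lit 0) (XT.lf (nat_lit 0) (nat_lit 14538647090) (nat_lit 152) (nat_lit 105407929342) (nat_lit 0) (nat_lit 8641956262) (nat_lit 2) (nat_lit 5) (nat_lit 4) (nat_lit 4) (nat_lit 2) (nat_lit 4) (nat_lit 398) (nat_lit 276) (nat_lit 226)) (XT.nd (nat_lit 78) (nat_lit 0) (nat_lit 0) (XT.lf (nat_lit 0) (nat_lit 18442895883) (nat_lit 152) (nat_lit 103879948918)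 (nat_lit 0) (nat_lit 12519379405) (nat_lit 2) (nat_lit 5) (nat_lit 4) (nat_lit 4) (nat_lit 2) (nat_lit 4) (nat_lit 399) (nat_lit 276) (nat_lit 225)) (XT.lf (nat_lit 0) (nat_lit 22518107361) (nat_lit 152) (nat_lit 102322667757) (nat_lit 0) (nat_lit 16569042646) (nat_lit 2) (nat_lit 5) (nat_lit 4) (nat_lit 4) (nat_lit 2) (nat_lit 4) (nat_lit 400) (nat_lit 276) (nat_lit 224)))) (XT.nd (nat_lit 78) (nat_lit 0) (nat_lit 0) (XT.lf (nat_lit 0) (nat_lit 26773984410) (nat_lit 152) (nat_lit 100732378047) (nat_lit 0) (nat_lit 20800588039) (nat_lit 2) (nat_lit 5) (nat_lit 4) (nat_lit 4) (nat_lit 2) (nat_lit 4) (nat_lit 401) (nat_lit 276) (nat_lit 223)) (XT.nd (nat_lit 78) (nat_lit 0) (nat_lit 0) (XT.lf (nat_lit 0) (nat_lit 31220660069) (nat_lit 152) (nat_lit 99105293383) (nat_lit 0) (nat_lit 25224090693) (nat_lit 2) (nat_lit 5) (nat_lit 4) (nat_lit 4) (nat_lit 2) (nat_lit 4) (nat_lit 402) (nat_lit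 276) (nat_lit 222)) (XT.lf (nat_lit 0) (nat_lit 35868721661) (nat_lit 152) (nat_lit 97437539754) (nat_lit 0) (nat_lit 29850082757) (nat_lit 2) (nat_lit 5) (nat_lit 4) (nat_lit 4) (nat_lit 2) (nat_lit 4) (nat_lit 403) (nat_lit 276) (nat_lit 221)))))) (XT.nd (nat_lit 468) (nat_lit 0) (nat_lit 0) (XT.nd (nat_lit 234) (nat_lit 0) (nat_lit 0) (XT.nd (nat_lit 78) (nat_lit 0) (nat_lit 0) (XT.lf (nat_lit 0) (nat_lit 40729236001) (nat_lit 152) (nat_lit 95725146319) (nat_lit 0) (nat_lit 34689578499) (nat_lit 2) (nat_lit 5) (nat_lit 4) (nat_lit 4) (nat_lit 2) (nat_lit 4) (nat_lit 404) (nat_lit 276) (nat_lit 220)) (XT.nd (nat_lit 78) (nat_lit 0) (nat_lit 0) (XT.lf (nat_lit 0) (nat_lit 45813775741) (nat_lit 152) (nat_lit 93964035950) (nat_lit 0) (nat_lit 39754100526) (nat_lit 2) (nat_lit 5) (nat_lit 4) (nat_lit 4) (nat_lit 2) (nat_lit 4) (nat_lit 405) (nat_lit 276) (nat_lit 219)) (XT.lf (nat_lit 0)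 (nat_lit 51134446928) (nat_lit 152) (nat_lit 92150015527) (nat_lit 0) (nat_lit 45055707224) (nat_lit 2) (nat_lit 5) (nat_lit 4) (nat_lit 4) (nat_lit 2) (nat_lit 4) (nat_lit 406) (nat_lit 276) (nat_lit 218)))) (XT.nd (nat_lit 78) (nat_lit 0) (nat_lit 0) (XT.lf (nat_lit 0) (nat_lit 56703917827) (nat_lit 152) (nat_lit 90278765954) (nat_lit 0) (nat_lit 50607021468) (nat_lit 2) (nat_lit 5) (nat_lit 4) (nat_lit 4) (nat_lit 2) (nat_lit 4) (nat_lit 407) (nat_lit 276) (nat_lit 217)) (XT.nd (nat_lit 78) (nat_lit 0) (nat_lit 0) (XT.lf (nat_lit 0) (nat_lit 62535449083) (nat_lit 152) (nat_lit 88345831876) (nat_lit 0) (nat_lit 56421260671) (nat_lit 2) (nat_lit 5) (nat_lit 4) (nat_lit 4) (nat_lit 2) (nat_lit 4) (nat_lit 408) (nat_lit 276) (nat_lit 216)) (XT.lf (nat_lit 0) (nat_lit 68642925295) (nat_lit 152) (nat_lit 86346611067) (nat_lit 0) (nat_lit 62512268260) (nat_lit 2) (nat_lit 5) (nat_lit 4) (nat_lit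 4) (nat_lit 2) (nat_lit 4) (nat_lit 409) (nat_lit 276) (nat_lit 215))))) (XT.nd (nat_lit 234) (nat_lit 0) (nat_lit 0) (XT.nd (nat_lit 78) (nat_lit 0) (nat_lit 0) (XT.lf (nat_lit 0) (nat_lit 75040888071) (nat_lit 152) (nat_lit 84276343478) (nat_lit 0) (nat_lit 68894546634) (nat_lit 2) (nat_lit 5) (nat_lit 4) (nat_lit 4) (nat_lit 2) (nat_lit 4) (nat_lit 410) (nat_lit 276) (nat_lit 214)) (XT.nd (nat_lit 78) (nat_lit 0) (nat_lit 0) (XT.lf (nat_lit 0) (nat_lit 81744570657) (nat_lit 152) (nat_lit 82130099901) (nat_lit 0) (nat_lit 75583291695) (nat_lit 2) (nat_lit 5) (nat_lit 4) (nat_lit 4) (nat_lit 2) (nat_lit 4) (nat_lit 411) (nat_lit 276) (nat_lit 213)) (XT.lf (nat_lit 0) (nat_lit 88769934202) (nat_lit 152) (nat_lit 79902770233) (nat_lit 0) (nat_lit 82594429025) (nat_lit 2) (nat_lit 5) (nat_lit 4) (nat_lit 4) (nat_lit 2) (nat_lit 4) (nat_lit 412) (nat_lit 276) (nat_lit 212)))) (XT.nd (nat_lit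 78) (nat_lit 0) (nat_lit 0) (XT.lf (nat_lit 0) (nat_lit 96133705762) (nat_lit 152) (nat_lit 77589051306) (nat_lit 0) (nat_lit 89944651809) (nat_lit 2) (nat_lit 5) (nat_lit 4) (nat_lit 4) (nat_lit 2) (nat_lit 4) (nat_lit 413) (nat_lit 276) (nat_lit 211)) (XT.nd (nat_lit 78) (nat_lit 0) (nat_lit 0) (XT.lf (nat_lit 0) (nat_lit 103853418127) (nat_lit 152) (nat_lit 75183434267) (nat_lit 0) (nat_lit 97651460577) (nat_lit 2) (nat_lit 5) (nat_lit 4) (nat_lit 4) (nat_lit 2) (nat_lit 4) (nat_lit 414) (nat_lit 276) (nat_lit 210)) (XT.lf (nat_lit 0) (nat_lit 111947451563) (nat_lit 152) (nat_lit 72680191456) (nat_lit 0) (nat_lit 105733204874) (nat_lit 2) (nat_lit 5) (nat_lit 4) (nat_lit 4) (nat_lit 2) (nat_lit 4) (nat_lit 415) (nat_lit 276) (nat_lit 209))))))))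
noncomputable def xc44 : XT := (XT.nd (nat_lit 41652) (nat_lit 0) (nat_lit 456) (XT.nd (nat_lit 858) (nat_lit 76) (nat_lit 0) (XT.nd (nat_lit 390) (nat_lit 0) (nat_lit 0) (XT.nd (nat_lit 156) (nat_lit 0) (nat_lit 0) (XT.nd (nat_lit 78) (nat_lit 0) (nat_lit 0) (XT.lf (nat_lit 0) (nat_lit 120435077579) (nat_lit 152) (nat_lit 70073362772) (nat_lit 0) (nat_lit 114209126949) (nat_lit 2) (nat_lit 5) (nat_lit 4) (nat_lit 4) (nat_lit 2) (nat_lit 4) (nat_lit 416) (nat_lit 276) (nat_lit 208)) (XT.lf (nat_lit 0) (nat_lit 129336504809) (nat_lit 152) (nat_lit 67356741478) (nat_lit 0) (nat_lit 123099407567) (nat_lit 2) (nat_lit 5) (nat_lit 4) (nat_lit 4) (nat_lit 2) (nat_lit 4) (nat_lit 417) (nat_lit 276) (nat_lit 207))) (XT.nd (nat_lit 78) (nat_lit 0) (nat_lit 0) (XT.lf (nat_lit 0) (nat_lit 138672927127) (nat_lit 152) (nat_lit 64523859429) (nat_lit 0) (nat_lit 132425214064) (nat_lit 2) (nat_lit 5)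 (nat_lit 4) (nat_lit 4) (nat_lit 2) (nat_lit 4) (nat_lit 418) (nat_lit 276) (nat_lit 206)) (XT.nd (nat_lit 78) (nat_lit 0) (nat_lit 0) (XT.lf (nat_lit 0) (nat_lit 148466574109) (nat_lit 152) (nat_lit 61567971668) (nat_lit 0) (nat_lit 142208750741) (nat_lit 2) (nat_lit 5) (nat_lit 4) (nat_lit 4) (nat_lit 2) (nat_lit 4) (nat_lit 419) (nat_lit 276) (nat_lit 205)) (XT.lf (nat_lit 0) (nat_lit 158740763964) (nat_lit 152) (nat_lit 58482040367) (nat_lit 0) (nat_lit 152473311733) (nat_lit 2) (nat_lit 5) (nat_lit 4) (nat_lit 4) (nat_lit 2) (nat_lit 4) (nat_lit 420) (nat_lit 276) (nat_lit 204))))) (XT.nd (nat_lit 234) (nat_lit 0) (nat_lit 0) (XT.nd (nat_lit 78) (nat_lit 0) (nat_lit 0) (XT.lf (nat_lit 0) (nat_lit 169519959047) (nat_lit 152) (nat_lit 55258718071) (nat_lit 0) (nat_lit 163243336472) (nat_lit 2) (nat_lit 5) (nat_lit 4) (nat_lit 4) (nat_lit 2) (nat_lit 4) (nat_lit 421) (nat_lit 276) (nat_lit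 203)) (XT.nd (nat_lit 78) (nat_lit 0) (nat_lit 0) (XT.lf (nat_lit 0) (nat_lit 180829824109) (nat_lit 152) (nat_lit 51890330202) (nat_lit 0) (nat_lit 174544467872) (nat_lit 2) (nat_lit 5) (nat_lit 4) (nat_lit 4) (nat_lit 2) (nat_lit 4) (nat_lit 422) (nat_lit 276) (nat_lit 202)) (XT.lf (nat_lit 0) (nat_lit 192697287400) (nat_lit 152) (nat_lit 48368856790) (nat_lit 0) (nat_lit 186403613389) (nat_lit 2) (nat_lit 5) (nat_lit 4) (nat_lit 4) (nat_lit 2) (nat_lit 4) (nat_lit 423) (nat_lit 276) (nat_lit 201)))) (XT.nd (nat_lit 78) (nat_lit 0) (nat_lit 0) (XT.lf (nat_lit 0) (nat_lit 205150604785) (nat_lit 152) (nat_lit 44685913373) (nat_lit 0) (nat_lit 198849009086) (nat_lit 2) (nat_lit 5) (nat_lit 4) (nat_lit 4) (nat_lit 2) (nat_lit 4) (nat_lit 424) (nat_lit 276) (nat_lit 200)) (XT.nd (nat_lit 78) (nat_lit 0) (nat_lit 0) (XT.lf (nat_lit 0) (nat_lit 218219427019) (nat_lit 152) (nat_lit 40832731039)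 (nat_lit 0) (nat_lit 211910286855) (nat_lit 2) (nat_lit 5) (nat_lit 4) (nat_lit 4) (nat_lit 2) (nat_lit 4) (nat_lit 425) (nat_lit 276) (nat_lit 199)) (XT.lf (nat_lit 0) (nat_lit 231934870347) (nat_lit 152) (nat_lit 36800135545) (nat_lit 0) (nat_lit 225618544977) (nat_lit 2) (nat_lit 5) (nat_lit 4) (nat_lit 4) (nat_lit 2) (nat_lit 4) (nat_lit 426) (nat_lit 276) (nat_lit 198)))))) (XT.nd (nat_lit 468) (nat_lit 76) (nat_lit 0) (XT.nd (nat_lit 234) (nat_lit 0) (nat_lit 0) (XT.nd (nat_lit 78) (nat_lit 0) (nat_lit 0) (XT.lf (nat_lit 0) (nat_lit 246329590585) (nat_lit 152) (nat_lit 32578525472) (nat_lit 0) (nat_lit 240006422163) (nat_lit 2) (nat_lit 5) (nat_lit 4) (nat_lit 4) (nat_lit 2) (nat_lit 4) (nat_lit 427) (nat_lit 276) (nat_lit 197)) (XT.nd (nat_lit 78) (nat_lit 0) (nat_lit 0) (XT.lf (nat_lit 0) (nat_lit 261437860877) (nat_lit 152) (nat_lit 28157849368) (nat_lit 0) (nat_lit 255108175262)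 (nat_lit 2) (nat_lit 5) (nat_lit 4) (nat_lit 4) (nat_lit 2) (nat_lit 4) (nat_lit 428) (nat_lit 276) (nat_lit 196)) (XT.lf (nat_lit 0) (nat_lit 277295653296) (nat_lit 152) (nat_lit 23527581814) (nat_lit 0) (nat_lit 270959760830) (nat_lit 2) (nat_lit 5) (nat_lit 4) (nat_lit 4) (nat_lit 2) (nat_lit 4) (nat_lit 429) (nat_lit 276) (nat_lit 195)))) (XT.nd (nat_lit 78) (nat_lit 0) (nat_lit 0) (XT.lf (nat_lit 0) (nat_lit 293940724489) (nat_lit 152) (nat_lit 18676698363) (nat_lit 0) (nat_lit 287598920737) (nat_lit 2) (nat_lit 5) (nat_lit 4) (nat_lit 4) (nat_lit 2) (nat_lit 4) (nat_lit 430) (nat_lit 276) (nat_lit 194)) (XT.nd (nat_lit 78) (nat_lit 0) (nat_lit 0) (XT.lf (nat_lit 0) (nat_lit 311412705578) (nat_lit 152) (nat_lit 13593649292) (nat_lit 0) (nat_lit 305065272030) (nat_lit 2) (nat_lit 5) (nat_lit 4) (nat_lit 4) (nat_lit 2) (nat_lit 4) (nat_lit 431) (nat_lit 276) (nat_lit 193)) (XT.lf (nat_lit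 0) (nat_lit 329753196519) (nat_lit 152) (nat_lit 8266332104) (nat_lit 0) (nat_lit 323400401260) (nat_lit 2) (nat_lit 5) (nat_lit 4) (nat_lit 4) (nat_lit 2) (nat_lit 4) (nat_lit 432) (nat_lit 276) (nat_lit 192))))) (XT.nd (nat_lit 40092) (nat_lit 0) (nat_lit 1444) (XT.nd (nat_lit 78) (nat_lit 76) (nat_lit 0) (XT.lf (nat_lit 0) (nat_lit 349005865147) (nat_lit 152) (nat_lit 2682062711) (nat_lit 0) (nat_lit 342647963497) (nat_lit 2) (nat_lit 5) (nat_lit 4) (nat_lit 4) (nat_lit 2) (nat_lit 4) (nat_lit 433) (nat_lit 276) (nat_lit 191)) (XT.nd (nat_lit 78) (nat_lit 0) (nat_lit 0) (XT.lf (nat_lit 0) (nat_lit 3277350449) (nat_lit 76) (nat_lit 365990369326) (nat_lit 76) (nat_lit 359627604446) (nat_lit 1) (nat_lit 4) (nat_lit 2) (nat_lit 5) (nat_lit 2) (nat_lit 4) (nat_lit 434) (nat_lit 276) (nat_lit 190)) (XT.lf (nat_lit 0) (nat_lit 9619028647) (nat_lit 76) (nat_lit 380964526555) (nat_lit 76) (nat_lit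 374597130028) (nat_lit 1) (nat_lit 4) (nat_lit 2) (nat_lit 5) (nat_lit 2) (nat_lit 4) (nat_lit 435) (nat_lit 276) (nat_lit 189)))) (XT.nd (nat_lit 78) (nat_lit 152) (nat_lit 0) (XT.lf (nat_lit 0) (nat_lit 1346640087) (nat_lit 152) (nat_lit 2936712401) (nat_lit 152) (nat_lit 2936712401) (nat_lit 22) (nat_lit 4) (nat_lit 24) (nat_lit 5) (nat_lit 24) (nat_lit 4) (nat_lit 346) (nat_lit 277) (nat_lit 277)) (XT.nd (nat_lit 78) (nat_lit 152) (nat_lit 0) (XT.lf (nat_lit 0) (nat_lit 11895182654) (nat_lit 152) (nat_lit 1731658604) (nat_lit 152) (nat_lit 1277163094) (nat_lit 22) (nat_lit 4) (nat_lit 24) (nat_lit 5) (nat_lit 24) (nat_lit 4) (nat_lit 347) (nat_lit 277) (nat_lit 276)) (XT.lf (nat_lit 0) (nat_lit 3406907468) (nat_lit 152) (nat_lit 9421082232) (nat_lit 0) (nat_lit 2561813776) (nat_lit 20) (nat_lit 5) (nat_lit 22) (nat_lit 4) (nat_lit 20) (nat_lit 4) (nat_lit 348) (nat_lit 277) (nat_lit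 275))))))) (XT.nd (nat_lit 858) (nat_lit 456) (nat_lit 0) (XT.nd (nat_lit 390) (nat_lit 228) (nat_lit 0) (XT.nd (nat_lit 156) (nat_lit 228) (nat_lit 0) (XT.nd (nat_lit 78) (nat_lit 76) (nat_lit 0) (XT.lf (nat_lit 0) (nat_lit 8200189650) (nat_lit 152) (nat_lit 740350515) (nat_lit 0) (nat_lit 6962485648) (nat_lit 20) (nat_lit 5) (nat_lit 22) (nat_lit 4) (nat_lit 20) (nat_lit 4) (nat_lit 349) (nat_lit 277) (nat_lit 274)) (XT.lf (nat_lit 0) (nat_lit 8363584440) (nat_lit 76) (nat_lit 4845606786) (nat_lit 76) (nat_lit 3233988203) (nat_lit 19) (nat_lit 4) (nat_lit 20) (nat_lit 5) (nat_lit 20) (nat_lit 4) (nat_lit 350) (nat_lit 277) (nat_lit 273))) (XT.nd (nat_lit 78) (nat_lit 76) (nat_lit 0) (XT.lf (nat_lit 0) (nat_lit 657593091) (nat_lit 76) (nat_lit 623051201) (nat_lit 152) (nat_lit 15735173325) (nat_lit 17) (nat_lit 5) (nat_lit 18) (nat_lit 5) (nat_lit 19) (nat_lit 4) (nat_lit 351) (nat_lit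 277) (nat_lit 272)) (XT.nd (nat_lit 78) (nat_lit 76) (nat_lit 0) (XT.lf (nat_lit 0) (nat_lit 5958013784) (nat_lit 152) (nat_lit 7893215763) (nat_lit 0) (nat_lit 3760985922) (nat_lit 17) (nat_lit 5) (nat_lit 19) (nat_lit 4) (nat_lit 17) (nat_lit 4) (nat_lit 352) (nat_lit 277) (nat_lit 271)) (XT.lf (nat_lit 0) (nat_lit 741552832) (nat_lit 76) (nat_lit 10003889580) (nat_lit 76) (nat_lit 7499241266) (nat_lit 16) (nat_lit 4) (nat_lit 17) (nat_lit 5) (nat_lit 17) (nat_lit 4) (nat_lit 353) (nat_lit 277) (nat_lit 270))))) (XT.nd (nat_lit 234) (nat_lit 76) (nat_lit 0) (XT.nd (nat_lit 78) (nat_lit 152) (nat_lit 0) (XT.lf (nat_lit 0) (nat_lit 9819390143) (nat_lit 76) (nat_lit 5943758576) (nat_lit 76) (nat_lit 3146138404) (nat_lit 16) (nat_lit 4) (nat_lit 17) (nat_lit 5) (nat_lit 17) (nat_lit 4) (nat_lit 354) (nat_lit 277) (nat_lit 269)) (XT.nd (nat_lit 78) (nat_lit 76) (nat_lit 0) (XT.lf (nat_lit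 0) (nat_lit 1240770524) (nat_lit 152) (nat_lit 533061412) (nat_lit 76) (nat_lit 17839141132) (nat_lit 15) (nat_lit 5) (nat_lit 17) (nat_lit 5) (nat_lit 16) (nat_lit 4) (nat_lit 355) (nat_lit 277) (nat_lit 268)) (XT.lf (nat_lit 0) (nat_lit 5783129493) (nat_lit 152) (nat_lit 11964177492) (nat_lit 0) (nat_lit 2599915111) (nat_lit 14) (nat_lit 5) (nat_lit 16) (nat_lit 4) (nat_lit 14) (nat_lit 4) (nat_lit 356) (nat_lit 277) (nat_lit 267)))) (XT.nd (nat_lit 78) (nat_lit 76) (nat_lit 0) (XT.lf (nat_lit 0) (nat_lit 10460022627) (nat_lit 152) (nat_lit 3627057571) (nat_lit 0) (nat_lit 7035779573) (nat_lit 14) (nat_lit 5) (nat_lit 16) (nat_lit 4) (nat_lit 14) (nat_lit 4) (nat_lit 357) (nat_lit 277) (nat_lit 266)) (XT.nd (nat_lit 78) (nat_lit 0) (nat_lit 0) (XT.lf (nat_lit 0) (nat_lit 5056805036) (nat_lit 76) (nat_lit 10268298051) (nat_lit 76) (nat_lit 6614503879) (nat_lit 13) (nat_lit 4) (nat_lit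 14) (nat_lit 5) (nat_lit 14) (nat_lit 4) (nat_lit 358) (nat_lit 277) (nat_lit 265)) (XT.lf (nat_lit 0) (nat_lit 14072562704) (nat_lit 76) (nat_lit 6300063162) (nat_lit 76) (nat_lit 2427648879) (nat_lit 13) (nat_lit 4) (nat_lit 14) (nat_lit 5) (nat_lit 14) (nat_lit 4) (nat_lit 359) (nat_lit 277) (nat_lit 264)))))) (XT.nd (nat_lit 468) (nat_lit 228) (nat_lit 0) (XT.nd (nat_lit 234) (nat_lit 76) (nat_lit 0) (XT.nd (nat_lit 78) (nat_lit 76) (nat_lit 0) (XT.lf (nat_lit 0) (nat_lit 1787178396) (nat_lit 152) (nat_lit 416908200) (nat_lit 76) (nat_lit 21504309492) (nat_lit 12) (nat_lit 5) (nat_lit 14) (nat_lit 5) (nat_lit 13) (nat_lit 4) (nat_lit 360) (nat_lit 277) (nat_lit 263)) (XT.nd (nat_lit 78) (nat_lit 0) (nat_lit 0) (XT.lf (nat_lit 0) (nat_lit 6182403478) (nat_lit 152) (nat_lit 16367762191) (nat_lit 0) (nat_lit 2107242718) (nat_lit 11) (nat_lit 5) (nat_lit 13) (nat_lit 4) (nat_lit 11) (nat_lit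 4) (nat_lit 361) (nat_lit 277) (nat_lit 262)) (XT.lf (nat_lit 0) (nat_lit 10728590019) (nat_lit 152) (nat_lit 8455186396) (nat_lit 0) (nat_lit 6473569952) (nat_lit 11) (nat_lit 5) (nat_lit 13) (nat_lit 4) (nat_lit 11) (nat_lit 4) (nat_lit 362) (nat_lit 277) (nat_lit 261)))) (XT.nd (nat_lit 78) (nat_lit 76) (nat_lit 0) (XT.lf (nat_lit 0) (nat_lit 15395315744) (nat_lit 152) (nat_lit 348336320) (nat_lit 0) (nat_lit 10969001099) (nat_lit 11) (nat_lit 5) (nat_lit 13) (nat_lit 4) (nat_lit 11) (nat_lit 4) (nat_lit 363) (nat_lit 277) (nat_lit 260)) (XT.nd (nat_lit 78) (nat_lit 0) (nat_lit 0) (XT.lf (nat_lit 0) (nat_lit 8235683360) (nat_lit 76) (nat_lit 12086590641) (nat_lit 76) (nat_lit 7497138303) (nat_lit 10) (nat_lit 4) (nat_lit 11) (nat_lit 5) (nat_lit 11) (nat_lit 4) (nat_lit 364) (nat_lit 277) (nat_lit 259)) (XT.lf (nat_lit 0) (nat_lit 17072324282) (nat_lit 76) (nat_lit 8329365749) (nat_lit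 76) (nat_lit 3584544179) (nat_lit 10) (nat_lit 4) (nat_lit 11) (nat_lit 5) (nat_lit 11) (nat_lit 4) (nat_lit 365) (nat_lit 277) (nat_lit 258))))) (XT.nd (nat_lit 234) (nat_lit 76) (nat_lit 0) (XT.nd (nat_lit 78) (nat_lit 76) (nat_lit 0) (XT.lf (nat_lit 0) (nat_lit 410295193) (nat_lit 152) (nat_lit 4051687119) (nat_lit 76) (nat_lit 25753864750) (nat_lit 9) (nat_lit 5) (nat_lit 11) (nat_lit 5) (nat_lit 10) (nat_lit 4) (nat_lit 366) (nat_lit 277) (nat_lit 257)) (XT.nd (nat_lit 78) (nat_lit 0) (nat_lit 0) (XT.lf (nat_lit 0) (nat_lit 4101971518) (nat_lit 76) (nat_lit 354461778) (nat_lit 152) (nat_lit 27048994240) (nat_lit 8) (nat_lit 5) (nat_lit 9) (nat_lit 5) (nat_lit 10) (nat_lit 4) (nat_lit 367) (nat_lit 277) (nat_lit 256)) (XT.lf (nat_lit 0) (nat_lit 8744840706) (nat_lit 152) (nat_lit 20289671023) (nat_lit 0) (nat_lit 3823002112) (nat_lit 8) (nat_lit 5) (nat_lit 10) (nat_lit 4) (nat_lit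 8) (nat_lit 4) (nat_lit 368) (nat_lit 277) (nat_lit 255)))) (XT.nd (nat_lit 78) (nat_lit 76) (nat_lit 0) (XT.lf (nat_lit 0) (nat_lit 13166258370) (nat_lit 152) (nat_lit 12992356423) (nat_lit 0) (nat_lit 8122683918) (nat_lit 8) (nat_lit 5) (nat_lit 10) (nat_lit 4) (nat_lit 8) (nat_lit 4) (nat_lit 369) (nat_lit 277) (nat_lit 254)) (XT.nd (nat_lit 78) (nat_lit 76) (nat_lit 0) (XT.lf (nat_lit 0) (nat_lit 17725679331) (nat_lit 152) (nat_lit 5488603517) (nat_lit 0) (nat_lit 12566165966) (nat_lit 8) (nat_lit 5) (nat_lit 10) (nat_lit 4) (nat_lit 8) (nat_lit 4) (nat_lit 370) (nat_lit 277) (nat_lit 253)) (XT.lf (nat_lit 0) (nat_lit 2313500226) (nat_lit 76) (nat_lit 20156579348) (nat_lit 76) (nat_lit 14886647971) (nat_lit 7) (nat_lit 4) (nat_lit 8) (nat_lit 5) (nat_lit 8) (nat_lit 4) (nat_lit 371) (nat_lit 277) (nat_lit 252))))))))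
noncomputable def xc45 : XT := (XT.nd (nat_lit 1794) (nat_lit 152) (nat_lit 0) (XT.nd (nat_lit 858) (nat_lit 76) (nat_lit 0) (XT.nd (nat_lit 390) (nat_lit 76) (nat_lit 0) (XT.nd (nat_lit 156) (nat_lit 76) (nat_lit 0) (XT.nd (nat_lit 78) (nat_lit 0) (nat_lit 0) (XT.lf (nat_lit 0) (nat_lit 10547811418) (nat_lit 76) (nat_lit 16919178105) (nat_lit 76) (nat_lit 11544086717) (nat_lit 7) (nat_lit 4) (nat_lit 8) (nat_lit 5) (nat_lit 8) (nat_lit 4) (nat_lit 372) (nat_lit 277) (nat_lit 251)) (XT.lf (nat_lit 0) (nat_lit 19052457540) (nat_lit 76) (nat_lit 13587323177) (nat_lit 76) (nat_lit 8112079397) (nat_lit 7) (nat_lit 4) (nat_lit 8) (nat_lit 5) (nat_lit 8) (nat_lit 4) (nat_lit 373) (nat_lit 277) (nat_lit 250))) (XT.nd (nat_lit 78) (nat_lit 76) (nat_lit 0) (XT.lf (nat_lit 0) (nat_lit 27847687749) (nat_lit 76) (nat_lit 10153081577) (nat_lit 76) (nat_lit 4582454566) (nat_lit 7) (nat_lit 4) (nat_lit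 8) (nat_lit 5) (nat_lit 8) (nat_lit 4) (nat_lit 374) (nat_lit 277) (nat_lit 249)) (XT.nd (nat_lit 78) (nat_lit 76) (nat_lit 0) (XT.lf (nat_lit 0) (nat_lit 36954443071) (nat_lit 76) (nat_lit 6608276537) (nat_lit 76) (nat_lit 946808354) (nat_lit 7) (nat_lit 4) (nat_lit 8) (nat_lit 5) (nat_lit 8) (nat_lit 4) (nat_lit 375) (nat_lit 277) (nat_lit 248)) (XT.lf (nat_lit 0) (nat_lit 2713785531) (nat_lit 152) (nat_lit 184723245) (nat_lit 76) (nat_lit 43634661453) (nat_lit 6) (nat_lit 5) (nat_lit 8) (nat_lit 5) (nat_lit 7) (nat_lit 4) (nat_lit 376) (nat_lit 277) (nat_lit 247))))) (XT.nd (nat_lit 234) (nat_lit 0) (nat_lit 0) (XT.nd (nat_lit 78) (nat_lit 0) (nat_lit 0) (XT.lf (nat_lit 0) (nat_lit 6600304240) (nat_lit 152) (nat_lit 41005631756) (nat_lit 0) (nat_lit 1047562140) (nat_lit 5) (nat_lit 5) (nat_lit 7) (nat_lit 4) (nat_lit 5) (nat_lit 4) (nat_lit 377) (nat_lit 277) (nat_lit 246)) (XT.nd (nat_lit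 78) (nat_lit 0) (nat_lit 0) (XT.lf (nat_lit 0) (nat_lit 10670238844) (nat_lit 152) (nat_lit 35167402185) (nat_lit 0) (nat_lit 5042761487) (nat_lit 5) (nat_lit 5) (nat_lit 7) (nat_lit 4) (nat_lit 5) (nat_lit 4) (nat_lit 378) (nat_lit 277) (nat_lit 245)) (XT.lf (nat_lit 0) (nat_lit 14884997568) (nat_lit 152) (nat_lit 29150258283) (nat_lit 0) (nat_lit 9186343776) (nat_lit 5) (nat_lit 5) (nat_lit 7) (nat_lit 4) (nat_lit 5) (nat_lit 4) (nat_lit 379) (nat_lit 277) (nat_lit 244)))) (XT.nd (nat_lit 78) (nat_lit 0) (nat_lit 0) (XT.lf (nat_lit 0) (nat_lit 19254615553) (nat_lit 152) (nat_lit 22939873516) (nat_lit 0) (nat_lit 13488174679) (nat_lit 5) (nat_lit 5) (nat_lit 7) (nat_lit 4) (nat_lit 5) (nat_lit 4) (nat_lit 380) (nat_lit 277) (nat_lit 243)) (XT.nd (nat_lit 78) (nat_lit 0) (nat_lit 0) (XT.lf (nat_lit 0) (nat_lit 23789496650) (nat_lit 152) (nat_lit 16521461256) (nat_lit 0) (nat_lit 17958496651)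 (nat_lit 5) (nat_lit 5) (nat_lit 7) (nat_lit 4) (nat_lit 5) (nat_lit 4) (nat_lit 381) (nat_lit 277) (nat_lit 242)) (XT.lf (nat_lit 0) (nat_lit 28500438195) (nat_lit 152) (nat_lit 9879739566) (nat_lit 0) (nat_lit 22607953315) (nat_lit 5) (nat_lit 5) (nat_lit 7) (nat_lit 4) (nat_lit 5) (nat_lit 4) (nat_lit 382) (nat_lit 277) (nat_lit 241)))))) (XT.nd (nat_lit 468) (nat_lit 0) (nat_lit 0) (XT.nd (nat_lit 234) (nat_lit 0) (nat_lit 0) (XT.nd (nat_lit 78) (nat_lit 76) (nat_lit 0) (XT.lf (nat_lit 0) (nat_lit 33398656716) (nat_lit 152) (nat_lit 2998894825) (nat_lit 0) (nat_lit 27447614807) (nat_lit 5) (nat_lit 5) (nat_lit 7) (nat_lit 4) (nat_lit 5) (nat_lit 4) (nat_lit 383) (nat_lit 277) (nat_lit 240)) (XT.nd (nat_lit 78) (nat_lit 0) (nat_lit 0) (XT.lf (nat_lit 0) (nat_lit 4274258908) (nat_lit 76) (nat_lit 34288288888) (nat_lit 76) (nat_lit 28281478381) (nat_lit 4) (nat_lit 4) (nat_lit 5) (nat_lit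 5) (nat_lit 5) (nat_lit 4) (nat_lit 384) (nat_lit 277) (nat_lit 239)) (XT.lf (nat_lit 0) (nat_lit 11928076968) (nat_lit 76) (nat_lit 32062201791) (nat_lit 76) (nat_lit 26002278332) (nat_lit 4) (nat_lit 4) (nat_lit 5) (nat_lit 5) (nat_lit 5) (nat_lit 4) (nat_lit 385) (nat_lit 277) (nat_lit 238)))) (XT.nd (nat_lit 78) (nat_lit 0) (nat_lit 0) (XT.lf (nat_lit 0) (nat_lit 19881625723) (nat_lit 76) (nat_lit 29764777777) (nat_lit 76) (nat_lit 23654270554) (nat_lit 4) (nat_lit 4) (nat_lit 5) (nat_lit 5) (nat_lit 5) (nat_lit 4) (nat_lit 386) (nat_lit 277) (nat_lit 237)) (XT.nd (nat_lit 78) (nat_lit 0) (nat_lit 0) (XT.lf (nat_lit 0) (nat_lit 28153842194) (nat_lit 76) (nat_lit 27390546790) (nat_lit 76) (nat_lit 21231864553) (nat_lit 4) (nat_lit 4) (nat_lit 5) (nat_lit 5) (nat_lit 5) (nat_lit 4) (nat_lit 387) (nat_lit 277) (nat_lit 236)) (XT.lf (nat_lit 0) (nat_lit 36764422134) (nat_lit 76) (nat_lit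 24933855897) (nat_lit 76) (nat_lit 18729292696) (nat_lit 4) (nat_lit 4) (nat_lit 5) (nat_lit 5) (nat_lit 5) (nat_lit 4) (nat_lit 388) (nat_lit 277) (nat_lit 235))))) (XT.nd (nat_lit 234) (nat_lit 0) (nat_lit 0) (XT.nd (nat_lit 78) (nat_lit 0) (nat_lit 0) (XT.lf (nat_lit 0) (nat_lit 45733866925) (nat_lit 76) (nat_lit 22388855835) (nat_lit 76) (nat_lit 16140596477) (nat_lit 4) (nat_lit 4) (nat_lit 5) (nat_lit 5) (nat_lit 5) (nat_lit 4) (nat_lit 389) (nat_lit 277) (nat_lit 234)) (XT.nd (nat_lit 78) (nat_lit 0) (nat_lit 0) (XT.lf (nat_lit 0) (nat_lit 55083532387) (nat_lit 76) (nat_lit 19749487080) (nat_lit 76) (nat_lit 13459612335) (nat_lit 4) (nat_lit 4) (nat_lit 5) (nat_lit 5) (nat_lit 5) (nat_lit 4) (nat_lit 390) (nat_lit 277) (nat_lit 233)) (XT.lf (nat_lit 0) (nat_lit 64835679628) (nat_lit 76) (nat_lit 17009465421) (nat_lit 76) (nat_lit 10679956973) (nat_lit 4) (nat_lit 4) (nat_lit 5)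 (nat_lit 5) (nat_lit 5) (nat_lit 4) (nat_lit 391) (nat_lit 277) (nat_lit 232)))) (XT.nd (nat_lit 78) (nat_lit 0) (nat_lit 0) (XT.lf (nat_lit 0) (nat_lit 75013528047) (nat_lit 76) (nat_lit 14162266997) (nat_lit 76) (nat_lit 7795012166) (nat_lit 4) (nat_lit 4) (nat_lit 5) (nat_lit 5) (nat_lit 5) (nat_lit 4) (nat_lit 392) (nat_lit 277) (nat_lit 231)) (XT.nd (nat_lit 78) (nat_lit 0) (nat_lit 0) (XT.lf (nat_lit 0) (nat_lit 85641310616) (nat_lit 76) (nat_lit 11201112763) (nat_lit 76) (nat_lit 4797908996) (nat_lit 4) (nat_lit 4) (nat_lit 5) (nat_lit 5) (nat_lit 5) (nat_lit 4) (nat_lit 393) (nat_lit 277) (nat_lit 230)) (XT.lf (nat_lit 0) (nat_lit 96744331579) (nat_lit 76) (nat_lit 8118952353) (nat_lit 76) (nat_lit 1681511503) (nat_lit 4) (nat_lit 4) (nat_lit 5) (nat_lit 5) (nat_lit 5) (nat_lit 4) (nat_lit 394) (nat_lit 277) (nat_lit 229))))))) (XT.nd (nat_lit 858) (nat_lit 0) (nat_lit 0) (XT.nd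 (nat_lit 390) (nat_lit 0) (nat_lit 0) (XT.nd (nat_lit 156) (nat_lit 0) (nat_lit 0) (XT.nd (nat_lit 78) (nat_lit 76) (nat_lit 0) (XT.lf (nat_lit 0) (nat_lit 1511619342) (nat_lit 152) (nat_lit 3371227942) (nat_lit 76) (nat_lit 106811807353) (nat_lit 3) (nat_lit 5) (nat_lit 5) (nat_lit 5) (nat_lit 4) (nat_lit 4) (nat_lit 395) (nat_lit 277) (nat_lit 228)) (XT.lf (nat_lit 0) (nat_lit 3409196238) (nat_lit 76) (nat_lit 1425095408) (nat_lit 152) (nat_lit 112265022897) (nat_lit 2) (nat_lit 5) (nat_lit 3) (nat_lit 5) (nat_lit 4) (nat_lit 4) (nat_lit 396) (nat_lit 277) (nat_lit 227))) (XT.nd (nat_lit 78) (nat_lit 0) (nat_lit 0) (XT.lf (nat_lit 0) (nat_lit 8388826269) (nat_lit 152) (nat_lit 112212966265) (nat_lit 0) (nat_lit 2169133967) (nat_lit 2) (nat_lit 5) (nat_lit 4) (nat_lit 4) (nat_lit 2) (nat_lit 4) (nat_lit 397) (nat_lit 277) (nat_lit 226)) (XT.nd (nat_lit 78) (nat_lit 0) (nat_lit 0) (XT.lf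 (nat_lit 0) (nat_lit 12118987601) (nat_lit 152) (nat_lit 110734772041) (nat_lit 0) (nat_lit 5872469649) (nat_lit 2) (nat_lit 5) (nat_lit 4) (nat_lit 4) (nat_lit 2) (nat_lit 4) (nat_lit 398) (nat_lit 277) (nat_lit 225)) (XT.lf (nat_lit 0) (nat_lit 16011407245) (nat_lit 152) (nat_lit 109229766390) (nat_lit 0) (nat_lit 9739341056) (nat_lit 2) (nat_lit 5) (nat_lit 4) (nat_lit 4) (nat_lit 2) (nat_lit 4) (nat_lit 399) (nat_lit 277) (nat_lit 224))))) (XT.nd (nat_lit 234) (nat_lit 0) (nat_lit 0) (XT.nd (nat_lit 78) (nat_lit 0) (nat_lit 0) (XT.lf (nat_lit 0) (nat_lit 20075352868) (nat_lit 152) (nat_lit 107694365965) (nat_lit 0) (nat_lit 13778955023) (nat_lit 2) (nat_lit 5) (nat_lit 4) (nat_lit 4) (nat_lit 2) (nat_lit 4) (nat_lit 400) (nat_lit 277) (nat_lit 223)) (XT.nd (nat_lit 78) (nat_lit 0) (nat_lit 0) (XT.lf (nat_lit 0) (nat_lit 24320500530) (nat_lit 152) (nat_lit 106124915050) (nat_lit 0)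 (nat_lit 18000929681) (nat_lit 2) (nat_lit 5) (nat_lit 4) (nat_lit 4) (nat_lit 2) (nat_lit 4) (nat_lit 401) (nat_lit 277) (nat_lit 222)) (XT.lf (nat_lit 0) (nat_lit 28756957726) (nat_lit 152) (nat_lit 104517676859) (nat_lit 0) (nat_lit 22415317348) (nat_lit 2) (nat_lit 5) (nat_lit 4) (nat_lit 4) (nat_lit 2) (nat_lit 4) (nat_lit 402) (nat_lit 277) (nat_lit 221)))) (XT.nd (nat_lit 78) (nat_lit 0) (nat_lit 0) (XT.lf (nat_lit 0) (nat_lit 33395287449) (nat_lit 152) (nat_lit 102868824633) (nat_lit 0) (nat_lit 27032628473) (nat_lit 2) (nat_lit 5) (nat_lit 4) (nat_lit 4) (nat_lit 2) (nat_lit 4) (nat_lit 403) (nat_lit 277) (nat_lit 220)) (XT.nd (nat_lit 78) (nat_lit 0) (nat_lit 0) (XT.lf (nat_lit 0) (nat_lit 38246533342) (nat_lit 152) (nat_lit 101174432533) (nat_lit 0) (nat_lit 31863856653) (nat_lit 2) (nat_lit 5) (nat_lit 4) (nat_lit 4) (nat_lit 2) (nat_lit 4) (nat_lit 404) (nat_lit 277) (nat_lit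 219)) (XT.lf (nat_lit 0) (nat_lit 43322245989) (nat_lit 152) (nat_lit 99430466293) (nat_lit 0) (nat_lit 36920504811) (nat_lit 2) (nat_lit 5) (nat_lit 4) (nat_lit 4) (nat_lit 2) (nat_lit 4) (nat_lit 405) (nat_lit 277) (nat_lit 218)))))) (XT.nd (nat_lit 468) (nat_lit 0) (nat_lit 0) (XT.nd (nat_lit 234) (nat_lit 0) (nat_lit 0) (XT.nd (nat_lit 78) (nat_lit 0) (nat_lit 0) (XT.lf (nat_lit 0) (nat_lit 48634510421) (nat_lit 152) (nat_lit 97632773612) (nat_lit 0) (nat_lit 42214612588) (nat_lit 2) (nat_lit 5) (nat_lit 4) (nat_lit 4) (nat_lit 2) (nat_lit 4) (nat_lit 406) (nat_lit 277) (nat_lit 217)) (XT.nd (nat_lit 78) (nat_lit 0) (nat_lit 0) (XT.lf (nat_lit 0) (nat_lit 54195974887) (nat_lit 152) (nat_lit 95777074270) (nat_lit 0) (nat_lit 47758785001) (nat_lit 2) (nat_lit 5) (nat_lit 4) (nat_lit 4) (nat_lit 2) (nat_lit 4) (nat_lit 407) (nat_lit 277) (nat_lit 216)) (XT.lf (nat_lit 0) (nat_lit 60019880969)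 (nat_lit 152) (nat_lit 93858949935) (nat_lit 0) (nat_lit 53566222460) (nat_lit 2) (nat_lit 5) (nat_lit 4) (nat_lit 4) (nat_lit 2) (nat_lit 4) (nat_lit 408) (nat_lit 277) (nat_lit 215)))) (XT.nd (nat_lit 78) (nat_lit 0) (nat_lit 0) (XT.lf (nat_lit 0) (nat_lit 66120095109) (nat_lit 152) (nat_lit 91873833643) (nat_lit 0) (nat_lit 59650752199) (nat_lit 2) (nat_lit 5) (nat_lit 4) (nat_lit 4) (nat_lit 2) (nat_lit 4) (nat_lit 409) (nat_lit 277) (nat_lit 214)) (XT.nd (nat_lit 78) (nat_lit 0) (nat_lit 0) (XT.lf (nat_lit 0) (nat_lit 72511141627) (nat_lit 152) (nat_lit 89816998928) (nat_lit 0) (nat_lit 66026861191) (nat_lit 2) (nat_lit 5) (nat_lit 4) (nat_lit 4) (nat_lit 2) (nat_lit 4) (nat_lit 410) (nat_lit 277) (nat_lit 213)) (XT.lf (nat_lit 0) (nat_lit 79208237301) (nat_lit 152) (nat_lit 87683548565) (nat_lit 0) (nat_lit 72709730650) (nat_lit 2) (nat_lit 5) (nat_lit 4) (nat_lit 4) (nat_lit 2)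 (nat_lit 4) (nat_lit 411) (nat_lit 277) (nat_lit 212))))) (XT.nd (nat_lit 234) (nat_lit 0) (nat_lit 0) (XT.nd (nat_lit 78) (nat_lit 0) (nat_lit 0) (XT.lf (nat_lit 0) (nat_lit 86227327596) (nat_lit 152) (nat_lit 85468402909) (nat_lit 0) (nat_lit 79715272170) (nat_lit 2) (nat_lit 5) (nat_lit 4) (nat_lit 4) (nat_lit 2) (nat_lit 4) (nat_lit 412) (nat_lit 277) (nat_lit 211)) (XT.nd (nat_lit 78) (nat_lit 0) (nat_lit 0) (XT.lf (nat_lit 0) (nat_lit 93585124633) (nat_lit 152) (nat_lit 83166287804) (nat_lit 0) (nat_lit 87060165610) (nat_lit 2) (nat_lit 5) (nat_lit 4) (nat_lit 4) (nat_lit 2) (nat_lit 4) (nat_lit 413) (nat_lit 277) (nat_lit 210)) (XT.lf (nat_lit 0) (nat_lit 101299146974) (nat_lit 152) (nat_lit 80771722023) (nat_lit 0) (nat_lit 94761898812) (nat_lit 2) (nat_lit 5) (nat_lit 4) (nat_lit 4) (nat_lit 2) (nat_lit 4) (nat_lit 414) (nat_lit 277) (nat_lit 209)))) (XT.nd (nat_lit 78) (nat_lit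 0) (nat_lit 0) (XT.lf (nat_lit 0) (nat_lit 109387761342) (nat_lit 152) (nat_lit 78279004220) (nat_lit 0) (nat_lit 102838809237) (nat_lit 2) (nat_lit 5) (nat_lit 4) (nat_lit 4) (nat_lit 2) (nat_lit 4) (nat_lit 415) (nat_lit 277) (nat_lit 208)) (XT.nd (nat_lit 78) (nat_lit 0) (nat_lit 0) (XT.lf (nat_lit 0) (nat_lit 117870226340) (nat_lit 152) (nat_lit 75682199353) (nat_lit 0) (nat_lit 111310127624) (nat_lit 2) (nat_lit 5) (nat_lit 4) (nat_lit 4) (nat_lit 2) (nat_lit 4) (nat_lit 416) (nat_lit 277) (nat_lit 207)) (XT.lf (nat_lit 0) (nat_lit 126766738314) (nat_lit 152) (nat_lit 72975124552) (nat_lit 0) (nat_lit 120196023778) (nat_lit 2) (nat_lit 5) (nat_lit 4) (nat_lit 4) (nat_lit 2) (nat_lit 4) (nat_lit 417) (nat_lit 277) (nat_lit 206))))))))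
noncomputable def xc46 : XT := (XT.nd (nat_lit 41496) (nat_lit 0) (nat_lit 532) (XT.nd (nat_lit 858) (nat_lit 76) (nat_lit 0) (XT.nd (nat_lit 390) (nat_lit 0) (nat_lit 0) (XT.nd (nat_lit 156) (nat_lit 0) (nat_lit 0) (XT.nd (nat_lit 78) (nat_lit 0) (nat_lit 0) (XT.lf (nat_lit 0) (nat_lit 136098479436) (nat_lit 152) (nat_lit 70151334401) (nat_lit 0) (nat_lit 129517654594) (nat_lit 2) (nat_lit 5) (nat_lit 4) (nat_lit 4) (nat_lit 2) (nat_lit 4) (nat_lit 418) (nat_lit 277) (nat_lit 205)) (XT.lf (nat_lit 0) (nat_lit 145887668137) (nat_lit 152) (nat_lit 67204105590) (nat_lit 0) (nat_lit 139297214433) (nat_lit 2) (nat_lit 5) (nat_lit 4) (nat_lit 4) (nat_lit 2) (nat_lit 4) (nat_lit 419) (nat_lit 277) (nat_lit 204))) (XT.nd (nat_lit 78) (nat_lit 0) (nat_lit 0) (XT.lf (nat_lit 0) (nat_lit 156157612009) (nat_lit 152) (nat_lit 64126420908) (nat_lit 0) (nat_lit 149557987960) (nat_lit 2) (nat_lit 5)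 (nat_lit 4) (nat_lit 4) (nat_lit 2) (nat_lit 4) (nat_lit 420) (nat_lit 277) (nat_lit 203)) (XT.nd (nat_lit 78) (nat_lit 0) (nat_lit 0) (XT.lf (nat_lit 0) (nat_lit 166932763299) (nat_lit 152) (nat_lit 60910952535) (nat_lit 0) (nat_lit 160324405589) (nat_lit 2) (nat_lit 5) (nat_lit 4) (nat_lit 4) (nat_lit 2) (nat_lit 4) (nat_lit 421) (nat_lit 277) (nat_lit 202)) (XT.lf (nat_lit 0) (nat_lit 178238777130) (nat_lit 152) (nat_lit 57550044593) (nat_lit 0) (nat_lit 171622101646) (nat_lit 2) (nat_lit 5) (nat_lit 4) (nat_lit 4) (nat_lit 2) (nat_lit 4) (nat_lit 422) (nat_lit 277) (nat_lit 201))))) (XT.nd (nat_lit 234) (nat_lit 0) (nat_lit 0) (XT.nd (nat_lit 78) (nat_lit 0) (nat_lit 0) (XT.lf (nat_lit 0) (nat_lit 190102572582) (nat_lit 152) (nat_lit 54035694920) (nat_lit 0) (nat_lit 183477975409) (nat_lit 2) (nat_lit 5) (nat_lit 4) (nat_lit 4) (nat_lit 2) (nat_lit 4) (nat_lit 423) (nat_lit 277) (nat_lit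 200)) (XT.nd (nat_lit 78) (nat_lit 0) (nat_lit 0) (XT.lf (nat_lit 0) (nat_lit 202552396786) (nat_lit 152) (nat_lit 50359536017) (nat_lit 0) (nat_lit 195920255148) (nat_lit 2) (nat_lit 5) (nat_lit 4) (nat_lit 4) (nat_lit 2) (nat_lit 4) (nat_lit 424) (nat_lit 277) (nat_lit 199)) (XT.lf (nat_lit 0) (nat_lit 215617892183) (nat_lit 152) (nat_lit 46512815126) (nat_lit 0) (nat_lit 208978565339) (nat_lit 2) (nat_lit 5) (nat_lit 4) (nat_lit 4) (nat_lit 2) (nat_lit 4) (nat_lit 425) (nat_lit 277) (nat_lit 198)))) (XT.nd (nat_lit 78) (nat_lit 0) (nat_lit 0) (XT.lf (nat_lit 0) (nat_lit 229330167093) (nat_lit 152) (nat_lit 42486373386) (nat_lit 0) (nat_lit 222683997197) (nat_lit 2) (nat_lit 5) (nat_lit 4) (nat_lit 4) (nat_lit 2) (nat_lit 4) (nat_lit 426) (nat_lit 277) (nat_lit 197)) (XT.nd (nat_lit 78) (nat_lit 0) (nat_lit 0) (XT.lf (nat_lit 0) (nat_lit 243721869791) (nat_lit 152) (nat_lit 38270624031)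 (nat_lit 0) (nat_lit 237069182701) (nat_lit 2) (nat_lit 5) (nat_lit 4) (nat_lit 4) (nat_lit 2) (nat_lit 4) (nat_lit 427) (nat_lit 277) (nat_lit 196)) (XT.lf (nat_lit 0) (nat_lit 258827266235) (nat_lit 152) (nat_lit 33855529564) (nat_lit 0) (nat_lit 252168372295) (nat_lit 2) (nat_lit 5) (nat_lit 4) (nat_lit 4) (nat_lit 2) (nat_lit 4) (nat_lit 428) (nat_lit 277) (nat_lit 195)))))) (XT.nd (nat_lit 468) (nat_lit 76) (nat_lit 0) (XT.nd (nat_lit 234) (nat_lit 0) (nat_lit 0) (XT.nd (nat_lit 78) (nat_lit 0) (nat_lit 0) (XT.lf (nat_lit 0) (nat_lit 274682321655) (nat_lit 152) (nat_lit 29230577854) (nat_lit 0) (nat_lit 268017516429) (nat_lit 2) (nat_lit 5) (nat_lit 4) (nat_lit 4) (nat_lit 2) (nat_lit 4) (nat_lit 429) (nat_lit 277) (nat_lit 194)) (XT.nd (nat_lit 78) (nat_lit 0) (nat_lit 0) (XT.lf (nat_lit 0) (nat_lit 291324786183) (nat_lit 152) (nat_lit 24384757111) (nat_lit 0) (nat_lit 284654351161)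 (nat_lit 2) (nat_lit 5) (nat_lit 4) (nat_lit 4) (nat_lit 2) (nat_lit 4) (nat_lit 430) (nat_lit 277) (nat_lit 193)) (XT.lf (nat_lit 0) (nat_lit 308794284734) (nat_lit 152) (nat_lit 19306529668) (nat_lit 0) (nat_lit 302118488002) (nat_lit 2) (nat_lit 5) (nat_lit 4) (nat_lit 4) (nat_lit 2) (nat_lit 4) (nat_lit 431) (nat_lit 277) (nat_lit 192)))) (XT.nd (nat_lit 78) (nat_lit 0) (nat_lit 0) (XT.lf (nat_lit 0) (nat_lit 327132411354) (nat_lit 152) (nat_lit 13983804507) (nat_lit 0) (nat_lit 320451508230) (nat_lit 2) (nat_lit 5) (nat_lit 4) (nat_lit 4) (nat_lit 2) (nat_lit 4) (nat_lit 432) (nat_lit 277) (nat_lit 191)) (XT.nd (nat_lit 78) (nat_lit 0) (nat_lit 0) (XT.lf (nat_lit 0) (nat_lit 346382828247) (nat_lit 152) (nat_lit 8403908471) (nat_lit 0) (nat_lit 339697061893) (nat_lit 2) (nat_lit 5) (nat_lit 4) (nat_lit 4) (nat_lit 2) (nat_lit 4) (nat_lit 433) (nat_lit 277) (nat_lit 190)) (XT.lf (nat_lit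 0) (nat_lit 366591369740) (nat_lit 152) (nat_lit 2553556096) (nat_lit 0) (nat_lit 359900971739) (nat_lit 2) (nat_lit 5) (nat_lit 4) (nat_lit 4) (nat_lit 2) (nat_lit 4) (nat_lit 434) (nat_lit 277) (nat_lit 189))))) (XT.nd (nat_lit 39936) (nat_lit 0) (nat_lit 1444) (XT.nd (nat_lit 39780) (nat_lit 0) (nat_lit 1748) (XT.lf (nat_lit 0) (nat_lit 3699592081) (nat_lit 76) (nat_lit 384164320327) (nat_lit 76) (nat_lit 377469511233) (nat_lit 1) (nat_lit 4) (nat_lit 2) (nat_lit 5) (nat_lit 2) (nat_lit 4) (nat_lit 435) (nat_lit 277) (nat_lit 188)) (XT.nd (nat_lit 78) (nat_lit 152) (nat_lit 0) (XT.lf (nat_lit 0) (nat_lit 6275180097) (nat_lit 152) (nat_lit 258452936) (nat_lit 152) (nat_lit 258452936) (nat_lit 26) (nat_lit 4) (nat_lit 28) (nat_lit 5) (nat_lit 28) (nat_lit 4) (nat_lit 344) (nat_lit 278) (nat_lit 278)) (XT.lf (nat_lit 0) (nat_lit 4163099103) (nat_lit 152) (nat_lit 6152533411) (nat_lit 0)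 (nat_lit 3685878817) (nat_lit 24) (nat_lit 5) (nat_lit 26) (nat_lit 4) (nat_lit 24) (nat_lit 4) (nat_lit 345) (nat_lit 278) (nat_lit 277)))) (XT.nd (nat_lit 78) (nat_lit 152) (nat_lit 0) (XT.lf (nat_lit 0) (nat_lit 2547034392) (nat_lit 152) (nat_lit 6414487301) (nat_lit 152) (nat_lit 5482771505) (nat_lit 22) (nat_lit 4) (nat_lit 24) (nat_lit 5) (nat_lit 24) (nat_lit 4) (nat_lit 346) (nat_lit 278) (nat_lit 276)) (XT.nd (nat_lit 78) (nat_lit 152) (nat_lit 0) (XT.lf (nat_lit 0) (nat_lit 11609655175) (nat_lit 152) (nat_lit 2333523209) (nat_lit 152) (nat_lit 968954546) (nat_lit 22) (nat_lit 4) (nat_lit 24) (nat_lit 5) (nat_lit 24) (nat_lit 4) (nat_lit 347) (nat_lit 278) (nat_lit 275)) (XT.lf (nat_lit 0) (nat_lit 3611894301) (nat_lit 152) (nat_lit 9870807571) (nat_lit 0) (nat_lit 1919694789) (nat_lit 20) (nat_lit 5) (nat_lit 22) (nat_lit 4) (nat_lit 20) (nat_lit 4) (nat_lit 348) (nat_lit 278)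 (nat_lit 274))))))) (XT.nd (nat_lit 858) (nat_lit 380) (nat_lit 0) (XT.nd (nat_lit 390) (nat_lit 304) (nat_lit 0) (XT.nd (nat_lit 156) (nat_lit 152) (nat_lit 0) (XT.nd (nat_lit 78) (nat_lit 76) (nat_lit 0) (XT.lf (nat_lit 0) (nat_lit 8329799066) (nat_lit 152) (nat_lit 1325939406) (nat_lit 0) (nat_lit 6263684972) (nat_lit 20) (nat_lit 5) (nat_lit 22) (nat_lit 4) (nat_lit 20) (nat_lit 4) (nat_lit 349) (nat_lit 278) (nat_lit 273)) (XT.lf (nat_lit 0) (nat_lit 7624961131) (nat_lit 76) (nat_lit 5630519513) (nat_lit 76) (nat_lit 3208296294) (nat_lit 19) (nat_lit 4) (nat_lit 20) (nat_lit 5) (nat_lit 20) (nat_lit 4) (nat_lit 350) (nat_lit 278) (nat_lit 272))) (XT.nd (nat_lit 78) (nat_lit 76) (nat_lit 0) (XT.lf (nat_lit 0) (nat_lit 1223705241) (nat_lit 152) (nat_lit 252779019) (nat_lit 76) (nat_lit 15564031971) (nat_lit 18) (nat_lit 5) (nat_lit 20) (nat_lit 5) (nat_lit 19) (nat_lit 4) (nat_lit 351)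 (nat_lit 278) (nat_lit 271)) (XT.nd (nat_lit 78) (nat_lit 0) (nat_lit 0) (XT.lf (nat_lit 0) (nat_lit 5812581450) (nat_lit 152) (nat_lit 8953706295) (nat_lit 0) (nat_lit 2875080270) (nat_lit 17) (nat_lit 5) (nat_lit 19) (nat_lit 4) (nat_lit 17) (nat_lit 4) (nat_lit 352) (nat_lit 278) (nat_lit 270)) (XT.lf (nat_lit 0) (nat_lit 10520789614) (nat_lit 152) (nat_lit 466718930) (nat_lit 0) (nat_lit 7290316575) (nat_lit 17) (nat_lit 5) (nat_lit 19) (nat_lit 4) (nat_lit 17) (nat_lit 4) (nat_lit 353) (nat_lit 278) (nat_lit 269))))) (XT.nd (nat_lit 234) (nat_lit 76) (nat_lit 0) (XT.nd (nat_lit 78) (nat_lit 152) (nat_lit 0) (XT.lf (nat_lit 0) (nat_lit 8473640392) (nat_lit 76) (nat_lit 6991000659) (nat_lit 76) (nat_lit 3481506803) (nat_lit 16) (nat_lit 4) (nat_lit 17) (nat_lit 5) (nat_lit 17) (nat_lit 4) (nat_lit 354) (nat_lit 278) (nat_lit 268)) (XT.nd (nat_lit 78) (nat_lit 76) (nat_lit 0) (XT.lf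 (nat_lit 0) (nat_lit 851907274) (nat_lit 152) (nat_lit 2028818054) (nat_lit 76) (nat_lit 16772605787) (nat_lit 15) (nat_lit 5) (nat_lit 17) (nat_lit 5) (nat_lit 16) (nat_lit 4) (nat_lit 355) (nat_lit 278) (nat_lit 267)) (XT.lf (nat_lit 0) (nat_lit 5288640207) (nat_lit 152) (nat_lit 13652087842) (nat_lit 0) (nat_lit 1452156326) (nat_lit 14) (nat_lit 5) (nat_lit 16) (nat_lit 4) (nat_lit 14) (nat_lit 4) (nat_lit 356) (nat_lit 278) (nat_lit 266)))) (XT.nd (nat_lit 78) (nat_lit 76) (nat_lit 0) (XT.lf (nat_lit 0) (nat_lit 9904748839) (nat_lit 152) (nat_lit 5428120434) (nat_lit 0) (nat_lit 5838713842) (nat_lit 14) (nat_lit 5) (nat_lit 16) (nat_lit 4) (nat_lit 14) (nat_lit 4) (nat_lit 357) (nat_lit 278) (nat_lit 265)) (XT.nd (nat_lit 78) (nat_lit 0) (nat_lit 0) (XT.lf (nat_lit 0) (nat_lit 3084863429) (nat_lit 76) (nat_lit 11596288333) (nat_lit 76) (nat_lit 7311633224) (nat_lit 13) (nat_lit 4)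 (nat_lit 14) (nat_lit 5) (nat_lit 14) (nat_lit 4) (nat_lit 358) (nat_lit 278) (nat_lit 264)) (XT.lf (nat_lit 0) (nat_lit 11994594933) (nat_lit 76) (nat_lit 7677290906) (nat_lit 76) (nat_lit 3184426168) (nat_lit 13) (nat_lit 4) (nat_lit 14) (nat_lit 5) (nat_lit 14) (nat_lit 4) (nat_lit 359) (nat_lit 278) (nat_lit 263)))))) (XT.nd (nat_lit 468) (nat_lit 152) (nat_lit 0) (XT.nd (nat_lit 234) (nat_lit 76) (nat_lit 0) (XT.nd (nat_lit 78) (nat_lit 76) (nat_lit 0) (XT.lf (nat_lit 0) (nat_lit 999633337) (nat_lit 152) (nat_lit 2641911282) (nat_lit 76) (nat_lit 20126246938) (nat_lit 12) (nat_lit 5) (nat_lit 14) (nat_lit 5) (nat_lit 13) (nat_lit 4) (nat_lit 360) (nat_lit 278) (nat_lit 262)) (XT.nd (nat_lit 78) (nat_lit 0) (nat_lit 0) (XT.lf (nat_lit 0) (nat_lit 5281253064) (nat_lit 152) (nat_lit 18807625484) (nat_lit 0) (nat_lit 633622686) (nat_lit 11) (nat_lit 5) (nat_lit 13) (nat_lit 4) (nat_lit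 11) (nat_lit 4) (nat_lit 361) (nat_lit 278) (nat_lit 261)) (XT.lf (nat_lit 0) (nat_lit 9775356608) (nat_lit 152) (nat_lit 10993271401) (nat_lit 0) (nat_lit 4956431653) (nat_lit 11) (nat_lit 5) (nat_lit 13) (nat_lit 4) (nat_lit 11) (nat_lit 4) (nat_lit 362) (nat_lit 278) (nat_lit 260)))) (XT.nd (nat_lit 78) (nat_lit 76) (nat_lit 0) (XT.lf (nat_lit 0) (nat_lit 14392479479) (nat_lit 152) (nat_lit 2979965812) (nat_lit 0) (nat_lit 9410416830) (nat_lit 11) (nat_lit 5) (nat_lit 13) (nat_lit 4) (nat_lit 11) (nat_lit 4) (nat_lit 363) (nat_lit 278) (nat_lit 259)) (XT.nd (nat_lit 78) (nat_lit 0) (nat_lit 0) (XT.lf (nat_lit 0) (nat_lit 5425004608) (nat_lit 76) (nat_lit 13803309742) (nat_lit 76) (nat_lit 8665877862) (nat_lit 10) (nat_lit 4) (nat_lit 11) (nat_lit 5) (nat_lit 11) (nat_lit 4) (nat_lit 364) (nat_lit 278) (nat_lit 258)) (XT.lf (nat_lit 0) (nat_lit 14173992477) (nat_lit 76) (nat_lit 10087378142)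 (nat_lit 76) (nat_lit 4801975565) (nat_lit 10) (nat_lit 4) (nat_lit 11) (nat_lit 5) (nat_lit 11) (nat_lit 4) (nat_lit 365) (nat_lit 278) (nat_lit 257))))) (XT.nd (nat_lit 234) (nat_lit 0) (nat_lit 0) (XT.nd (nat_lit 78) (nat_lit 152) (nat_lit 0) (XT.lf (nat_lit 0) (nat_lit 23189297590) (nat_lit 76) (nat_lit 6266270197) (nat_lit 76) (nat_lit 839943148) (nat_lit 10) (nat_lit 4) (nat_lit 11) (nat_lit 5) (nat_lit 11) (nat_lit 4) (nat_lit 366) (nat_lit 278) (nat_lit 256)) (XT.nd (nat_lit 78) (nat_lit 0) (nat_lit 0) (XT.lf (nat_lit 0) (nat_lit 876390815) (nat_lit 76) (nat_lit 2263575842) (nat_lit 152) (nat_lit 28450448190) (nat_lit 8) (nat_lit 5) (nat_lit 9) (nat_lit 5) (nat_lit 10) (nat_lit 4) (nat_lit 367) (nat_lit 278) (nat_lit 255)) (XT.lf (nat_lit 0) (nat_lit 7356020634) (nat_lit 152) (nat_lit 23651578171) (nat_lit 0) (nat_lit 1938531601) (nat_lit 8) (nat_lit 5) (nat_lit 10) (nat_lit 4)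 (nat_lit 8) (nat_lit 4) (nat_lit 368) (nat_lit 278) (nat_lit 254)))) (XT.nd (nat_lit 78) (nat_lit 0) (nat_lit 0) (XT.lf (nat_lit 0) (nat_lit 11736917524) (nat_lit 152) (nat_lit 16431545241) (nat_lit 0) (nat_lit 6203489579) (nat_lit 8) (nat_lit 5) (nat_lit 10) (nat_lit 4) (nat_lit 8) (nat_lit 4) (nat_lit 369) (nat_lit 278) (nat_lit 253)) (XT.nd (nat_lit 78) (nat_lit 0) (nat_lit 0) (XT.lf (nat_lit 0) (nat_lit 16257747272) (nat_lit 152) (nat_lit 9001393927) (nat_lit 0) (nat_lit 10613901314) (nat_lit 8) (nat_lit 5) (nat_lit 10) (nat_lit 4) (nat_lit 8) (nat_lit 4) (nat_lit 370) (nat_lit 278) (nat_lit 252)) (XT.lf (nat_lit 0) (nat_lit 20929273758) (nat_lit 152) (nat_lit 1343433391) (nat_lit 0) (nat_lit 15180267789) (nat_lit 8) (nat_lit 5) (nat_lit 10) (nat_lit 4) (nat_lit 8) (nat_lit 4) (nat_lit 371) (nat_lit 278) (nat_lit 251))))))))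
noncomputable def xc47 : XT := (XT.nd (nat_lit 1794) (nat_lit 152) (nat_lit 0) (XT.nd (nat_lit 858) (nat_lit 76) (nat_lit 0) (XT.nd (nat_lit 390) (nat_lit 76) (nat_lit 0) (XT.nd (nat_lit 156) (nat_lit 76) (nat_lit 0) (XT.nd (nat_lit 78) (nat_lit 0) (nat_lit 0) (XT.lf (nat_lit 0) (nat_lit 6777491663) (nat_lit 76) (nat_lit 19090943639) (nat_lit 76) (nat_lit 13241785278) (nat_lit 7) (nat_lit 4) (nat_lit 8) (nat_lit 5) (nat_lit 8) (nat_lit 4) (nat_lit 372) (nat_lit 278) (nat_lit 250)) (XT.lf (nat_lit 0) (nat_lit 15216455728) (nat_lit 76) (nat_lit 15790408747) (nat_lit 76) (nat_lit 9845867155) (nat_lit 7) (nat_lit 4) (nat_lit 8) (nat_lit 5) (nat_lit 8) (nat_lit 4) (nat_lit 373) (nat_lit 278) (nat_lit 249))) (XT.nd (nat_lit 78) (nat_lit 76) (nat_lit 0) (XT.lf (nat_lit 0) (nat_lit 23949131597) (nat_lit 76) (nat_lit 12385995752) (nat_lit 76) (nat_lit 6350612988) (nat_lit 7) (nat_lit 4) (nat_lit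 8) (nat_lit 5) (nat_lit 8) (nat_lit 4) (nat_lit 374) (nat_lit 278) (nat_lit 248)) (XT.nd (nat_lit 78) (nat_lit 76) (nat_lit 0) (XT.lf (nat_lit 0) (nat_lit 32996311356) (nat_lit 76) (nat_lit 8869598909) (nat_lit 76) (nat_lit 2747700743) (nat_lit 7) (nat_lit 4) (nat_lit 8) (nat_lit 5) (nat_lit 8) (nat_lit 4) (nat_lit 375) (nat_lit 278) (nat_lit 247)) (XT.lf (nat_lit 0) (nat_lit 940355541) (nat_lit 152) (nat_lit 4276564926) (nat_lit 76) (nat_lit 41423254992) (nat_lit 6) (nat_lit 5) (nat_lit 8) (nat_lit 5) (nat_lit 7) (nat_lit 4) (nat_lit 376) (nat_lit 278) (nat_lit 246))))) (XT.nd (nat_lit 234) (nat_lit 0) (nat_lit 0) (XT.nd (nat_lit 78) (nat_lit 0) (nat_lit 0) (XT.lf (nat_lit 0) (nat_lit 3381658361) (nat_lit 76) (nat_lit 1332694890) (nat_lit 152) (nat_lit 44051783274) (nat_lit 5) (nat_lit 5) (nat_lit 6) (nat_lit 5) (nat_lit 7) (nat_lit 4) (nat_lit 377) (nat_lit 278) (nat_lit 245)) (XT.nd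 (nat_lit 78) (nat_lit 0) (nat_lit 0) (XT.lf (nat_lit 0) (nat_lit 8734859969) (nat_lit 152) (nat_lit 39580562051) (nat_lit 0) (nat_lit 2680097052) (nat_lit 5) (nat_lit 5) (nat_lit 7) (nat_lit 4) (nat_lit 5) (nat_lit 4) (nat_lit 378) (nat_lit 278) (nat_lit 244)) (XT.lf (nat_lit 0) (nat_lit 12922360802) (nat_lit 152) (nat_lit 33615913920) (nat_lit 0) (nat_lit 6799810804) (nat_lit 5) (nat_lit 5) (nat_lit 7) (nat_lit 4) (nat_lit 5) (nat_lit 4) (nat_lit 379) (nat_lit 278) (nat_lit 243)))) (XT.nd (nat_lit 78) (nat_lit 0) (nat_lit 0) (XT.lf (nat_lit 0) (nat_lit 17266018891) (nat_lit 152) (nat_lit 27455525126) (nat_lit 0) (nat_lit 11078909768) (nat_lit 5) (nat_lit 5) (nat_lit 7) (nat_lit 4) (nat_lit 5) (nat_lit 4) (nat_lit 380) (nat_lit 278) (nat_lit 242)) (XT.nd (nat_lit 78) (nat_lit 0) (nat_lit 0) (XT.lf (nat_lit 0) (nat_lit 21776176277) (nat_lit 152) (nat_lit 21084728077) (nat_lit 0) (nat_lit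 15527582273) (nat_lit 5) (nat_lit 5) (nat_lit 7) (nat_lit 4) (nat_lit 5) (nat_lit 4) (nat_lit 381) (nat_lit 278) (nat_lit 241)) (XT.lf (nat_lit 0) (nat_lit 26463571431) (nat_lit 152) (nat_lit 14488354209) (nat_lit 0) (nat_lit 20156420398) (nat_lit 5) (nat_lit 5) (nat_lit 7) (nat_lit 4) (nat_lit 5) (nat_lit 4) (nat_lit 382) (nat_lit 278) (nat_lit 240)))))) (XT.nd (nat_lit 468) (nat_lit 0) (nat_lit 0) (XT.nd (nat_lit 234) (nat_lit 0) (nat_lit 0) (XT.nd (nat_lit 78) (nat_lit 76) (nat_lit 0) (XT.lf (nat_lit 0) (nat_lit 31339364818) (nat_lit 152) (nat_lit 7650697868) (nat_lit 0) (nat_lit 24976445185) (nat_lit 5) (nat_lit 5) (nat_lit 7) (nat_lit 4) (nat_lit 5) (nat_lit 4) (nat_lit 383) (nat_lit 278) (nat_lit 239)) (XT.nd (nat_lit 78) (nat_lit 76) (nat_lit 0) (XT.lf (nat_lit 0) (nat_lit 36415165469) (nat_lit 152) (nat_lit 555478923) (nat_lit 0) (nat_lit 29999132884) (nat_lit 5) (nat_lit 5) (nat_lit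 7) (nat_lit 4) (nat_lit 5) (nat_lit 4) (nat_lit 384) (nat_lit 278) (nat_lit 238)) (XT.lf (nat_lit 0) (nat_lit 7039504100) (nat_lit 76) (nat_lit 34773460910) (nat_lit 76) (nat_lit 28306844562) (nat_lit 4) (nat_lit 4) (nat_lit 5) (nat_lit 5) (nat_lit 5) (nat_lit 4) (nat_lit 385) (nat_lit 278) (nat_lit 237)))) (XT.nd (nat_lit 78) (nat_lit 0) (nat_lit 0) (XT.lf (nat_lit 0) (nat_lit 14954511527) (nat_lit 76) (nat_lit 32494604812) (nat_lit 76) (nat_lit 25979813451) (nat_lit 4) (nat_lit 4) (nat_lit 5) (nat_lit 5) (nat_lit 5) (nat_lit 4) (nat_lit 386) (nat_lit 278) (nat_lit 236)) (XT.nd (nat_lit 78) (nat_lit 0) (nat_lit 0) (XT.lf (nat_lit 0) (nat_lit 23190021972) (nat_lit 76) (nat_lit 30138057553) (nat_lit 76) (nat_lit 23577385227) (nat_lit 4) (nat_lit 4) (nat_lit 5) (nat_lit 5) (nat_lit 5) (nat_lit 4) (nat_lit 387) (nat_lit 278) (nat_lit 235)) (XT.lf (nat_lit 0) (nat_lit 31765643792) (nat_lit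 76) (nat_lit 27698208307) (nat_lit 76) (nat_lit 21093839824) (nat_lit 4) (nat_lit 4) (nat_lit 5) (nat_lit 5) (nat_lit 5) (nat_lit 4) (nat_lit 388) (nat_lit 278) (nat_lit 234))))) (XT.nd (nat_lit 234) (nat_lit 0) (nat_lit 0) (XT.nd (nat_lit 78) (nat_lit 0) (nat_lit 0) (XT.lf (nat_lit 0) (nat_lit 40701795134) (nat_lit 76) (nat_lit 25169247908) (nat_lit 76) (nat_lit 18523264038) (nat_lit 4) (nat_lit 4) (nat_lit 5) (nat_lit 5) (nat_lit 5) (nat_lit 4) (nat_lit 389) (nat_lit 278) (nat_lit 233)) (XT.nd (nat_lit 78) (nat_lit 0) (nat_lit 0) (XT.lf (nat_lit 0) (nat_lit 50019752551) (nat_lit 76) (nat_lit 22545155024) (nat_lit 76) (nat_lit 15859537451) (nat_lit 4) (nat_lit 4) (nat_lit 5) (nat_lit 5) (nat_lit 5) (nat_lit 4) (nat_lit 390) (nat_lit 278) (nat_lit 232)) (XT.lf (nat_lit 0) (nat_lit 59741701653) (nat_lit 76) (nat_lit 19819681812) (nat_lit 76) (nat_lit 13096317857) (nat_lit 4) (nat_lit 4)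 (nat_lit 5) (nat_lit 5) (nat_lit 5) (nat_lit 4) (nat_lit 391) (nat_lit 278) (nat_lit 231)))) (XT.nd (nat_lit 78) (nat_lit 0) (nat_lit 0) (XT.lf (nat_lit 0) (nat_lit 69890789940) (nat_lit 76) (nat_lit 16986339052) (nat_lit 76) (nat_lit 10227026160) (nat_lit 4) (nat_lit 4) (nat_lit 5) (nat_lit 5) (nat_lit 5) (nat_lit 4) (nat_lit 392) (nat_lit 278) (nat_lit 230)) (XT.nd (nat_lit 78) (nat_lit 0) (nat_lit 0) (XT.lf (nat_lit 0) (nat_lit 80491181907) (nat_lit 76) (nat_lit 14038380689) (nat_lit 76) (nat_lit 7244830715) (nat_lit 4) (nat_lit 4) (nat_lit 5) (nat_lit 5) (nat_lit 5) (nat_lit 4) (nat_lit 393) (nat_lit 278) (nat_lit 229)) (XT.lf (nat_lit 0) (nat_lit 91568116583) (nat_lit 76) (nat_lit 10968787775) (nat_lit 76) (nat_lit 4142631056) (nat_lit 4) (nat_lit 4) (nat_lit 5) (nat_lit 5) (nat_lit 5) (nat_lit 4) (nat_lit 394) (nat_lit 278) (nat_lit 228))))))) (XT.nd (nat_lit 858) (nat_lit 0) (nat_lit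 0) (XT.nd (nat_lit 390) (nat_lit 0) (nat_lit 0) (XT.nd (nat_lit 156) (nat_lit 76) (nat_lit 0) (XT.nd (nat_lit 78) (nat_lit 76) (nat_lit 0) (XT.lf (nat_lit 0) (nat_lit 103147967621) (nat_lit 76) (nat_lit 7770251756) (nat_lit 76) (nat_lit 913040993) (nat_lit 4) (nat_lit 4) (nat_lit 5) (nat_lit 5) (nat_lit 5) (nat_lit 4) (nat_lit 395) (nat_lit 278) (nat_lit 227)) (XT.lf (nat_lit 0) (nat_lit 2373161534) (nat_lit 152) (nat_lit 2021804894) (nat_lit 76) (nat_lit 112844953922) (nat_lit 3) (nat_lit 5) (nat_lit 5) (nat_lit 5) (nat_lit 4) (nat_lit 4) (nat_lit 396) (nat_lit 278) (nat_lit 226))) (XT.nd (nat_lit 78) (nat_lit 0) (nat_lit 0) (XT.lf (nat_lit 0) (nat_lit 5073156874) (nat_lit 76) (nat_lit 774701588) (nat_lit 152) (nat_lit 117067668285) (nat_lit 2) (nat_lit 5) (nat_lit 3) (nat_lit 5) (nat_lit 4) (nat_lit 4) (nat_lit 397) (nat_lit 278) (nat_lit 225)) (XT.nd (nat_lit 78) (nat_lit 0) (nat_lit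 0) (XT.lf (nat_lit 0) (nat_lit 9554095382) (nat_lit 152) (nat_lit 116375055159) (nat_lit 0) (nat_lit 2942877646) (nat_lit 2) (nat_lit 5) (nat_lit 4) (nat_lit 4) (nat_lit 2) (nat_lit 4) (nat_lit 398) (nat_lit 278) (nat_lit 224)) (XT.lf (nat_lit 0) (nat_lit 13435249171) (nat_lit 152) (nat_lit 114891930244) (nat_lit 0) (nat_lit 6799699780) (nat_lit 2) (nat_lit 5) (nat_lit 4) (nat_lit 4) (nat_lit 2) (nat_lit 4) (nat_lit 399) (nat_lit 278) (nat_lit 223))))) (XT.nd (nat_lit 234) (nat_lit 0) (nat_lit 0) (XT.nd (nat_lit 78) (nat_lit 0) (nat_lit 0) (XT.lf (nat_lit 0) (nat_lit 17488465408) (nat_lit 152) (nat_lit 113377368615) (nat_lit 0) (nat_lit 10829743011) (nat_lit 2) (nat_lit 5) (nat_lit 4) (nat_lit 4) (nat_lit 2) (nat_lit 4) (nat_lit 400) (nat_lit 278) (nat_lit 222)) (XT.nd (nat_lit 78) (nat_lit 0) (nat_lit 0) (XT.lf (nat_lit 0) (nat_lit 21723394607) (nat_lit 152) (nat_lit 111827764173) (nat_lit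 0) (nat_lit 15042602682) (nat_lit 2) (nat_lit 5) (nat_lit 4) (nat_lit 4) (nat_lit 2) (nat_lit 4) (nat_lit 401) (nat_lit 278) (nat_lit 221)) (XT.lf (nat_lit 0) (nat_lit 26150119934) (nat_lit 152) (nat_lit 110239427384) (nat_lit 0) (nat_lit 19448309410) (nat_lit 2) (nat_lit 5) (nat_lit 4) (nat_lit 4) (nat_lit 2) (nat_lit 4) (nat_lit 402) (nat_lit 278) (nat_lit 220)))) (XT.nd (nat_lit 78) (nat_lit 0) (nat_lit 0) (XT.lf (nat_lit 0) (nat_lit 30779181210) (nat_lit 152) (nat_lit 108608576493) (nat_lit 0) (nat_lit 24057352973) (nat_lit 2) (nat_lit 5) (nat_lit 4) (nat_lit 4) (nat_lit 2) (nat_lit 4) (nat_lit 403) (nat_lit 278) (nat_lit 219)) (XT.nd (nat_lit 78) (nat_lit 0) (nat_lit 0) (XT.lf (nat_lit 0) (nat_lit 35621600010) (nat_lit 152) (nat_lit 106931328522) (nat_lit 0) (nat_lit 28880707284) (nat_lit 2) (nat_lit 5) (nat_lit 4) (nat_lit 4) (nat_lit 2) (nat_lit 4) (nat_lit 404) (nat_lit 278) (nat_lit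 218)) (XT.lf (nat_lit 0) (nat_lit 40688905902) (nat_lit 152) (nat_lit 105203690025) (nat_lit 0) (nat_lit 33929856521) (nat_lit 2) (nat_lit 5) (nat_lit 4) (nat_lit 4) (nat_lit 2) (nat_lit 4) (nat_lit 405) (nat_lit 278) (nat_lit 217)))))) (XT.nd (nat_lit 468) (nat_lit 0) (nat_lit 0) (XT.nd (nat_lit 234) (nat_lit 0) (nat_lit 0) (XT.nd (nat_lit 78) (nat_lit 0) (nat_lit 0) (XT.lf (nat_lit 0) (nat_lit 45993163901) (nat_lit 152) (nat_lit 103421547574) (nat_lit 0) (nat_lit 39216822467) (nat_lit 2) (nat_lit 5) (nat_lit 4) (nat_lit 4) (nat_lit 2) (nat_lit 4) (nat_lit 406) (nat_lit 278) (nat_lit 216)) (XT.nd (nat_lit 78) (nat_lit 0) (nat_lit 0) (XT.lf (nat_lit 0) (nat_lit 51547003193) (nat_lit 152) (nat_lit 101580657976) (nat_lit 0) (nat_lit 44754193137) (nat_lit 2) (nat_lit 5) (nat_lit 4) (nat_lit 4) (nat_lit 2) (nat_lit 4) (nat_lit 407) (nat_lit 278) (nat_lit 215)) (XT.lf (nat_lit 0) (nat_lit 57363647203)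 (nat_lit 152) (nat_lit 99676638158) (nat_lit 0) (nat_lit 50555152745) (nat_lit 2) (nat_lit 5) (nat_lit 4) (nat_lit 4) (nat_lit 2) (nat_lit 4) (nat_lit 408) (nat_lit 278) (nat_lit 214)))) (XT.nd (nat_lit 78) (nat_lit 0) (nat_lit 0) (XT.lf (nat_lit 0) (nat_lit 63456945085) (nat_lit 152) (nat_lit 97704954740) (nat_lit 0) (nat_lit 56633513102) (nat_lit 2) (nat_lit 5) (nat_lit 4) (nat_lit 4) (nat_lit 2) (nat_lit 4) (nat_lit 409) (nat_lit 278) (nat_lit 213)) (XT.nd (nat_lit 78) (nat_lit 0) (nat_lit 0) (XT.lf (nat_lit 0) (nat_lit 69841404691) (nat_lit 152) (nat_lit 95660913238) (nat_lit 0) (nat_lit 63003746493) (nat_lit 2) (nat_lit 5) (nat_lit 4) (nat_lit 4) (nat_lit 2) (nat_lit 4) (nat_lit 410) (nat_lit 278) (nat_lit 212)) (XT.lf (nat_lit 0) (nat_lit 76532227115) (nat_lit 152) (nat_lit 93539646887) (nat_lit 0) (nat_lit 69681020141) (nat_lit 2) (nat_lit 5) (nat_lit 4) (nat_lit 4) (nat_lit 2)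 (nat_lit 4) (nat_lit 411) (nat_lit 278) (nat_lit 211))))) (XT.nd (nat_lit 234) (nat_lit 0) (nat_lit 0) (XT.nd (nat_lit 78) (nat_lit 0) (nat_lit 0) (XT.lf (nat_lit 0) (nat_lit 83545342887) (nat_lit 152) (nat_lit 91336105052) (nat_lit 0) (nat_lit 76681232316) (nat_lit 2) (nat_lit 5) (nat_lit 4) (nat_lit 4) (nat_lit 2) (nat_lit 4) (nat_lit 412) (nat_lit 278) (nat_lit 210)) (XT.nd (nat_lit 78) (nat_lit 0) (nat_lit 0) (XT.lf (nat_lit 0) (nat_lit 90897449900) (nat_lit 152) (nat_lit 89045041206) (nat_lit 0) (nat_lit 84021050191) (nat_lit 2) (nat_lit 5) (nat_lit 4) (nat_lit 4) (nat_lit 2) (nat_lit 4) (nat_lit 413) (nat_lit 278) (nat_lit 209)) (XT.lf (nat_lit 0) (nat_lit 98606053173) (nat_lit 152) (nat_lit 86661000433) (nat_lit 0) (nat_lit 91717949521) (nat_lit 2) (nat_lit 5) (nat_lit 4) (nat_lit 4) (nat_lit 2) (nat_lit 4) (nat_lit 414) (nat_lit 278) (nat_lit 208)))) (XT.nd (nat_lit 78) (nat_lit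 0) (nat_lit 0) (XT.lf (nat_lit 0) (nat_lit 106689506522) (nat_lit 152) (nat_lit 84178306448) (nat_lit 0) (nat_lit 99790256259) (nat_lit 2) (nat_lit 5) (nat_lit 4) (nat_lit 4) (nat_lit 2) (nat_lit 4) (nat_lit 415) (nat_lit 278) (nat_lit 207)) (XT.nd (nat_lit 78) (nat_lit 0) (nat_lit 0) (XT.lf (nat_lit 0) (nat_lit 115167056265) (nat_lit 152) (nat_lit 81591048073) (nat_lit 0) (nat_lit 108257190181) (nat_lit 2) (nat_lit 5) (nat_lit 4) (nat_lit 4) (nat_lit 2) (nat_lit 4) (nat_lit 416) (nat_lit 278) (nat_lit 206)) (XT.lf (nat_lit 0) (nat_lit 124058887044) (nat_lit 152) (nat_lit 78893065169) (nat_lit 0) (nat_lit 117138910654) (nat_lit 2) (nat_lit 5) (nat_lit 4) (nat_lit 4) (nat_lit 2) (nat_lit 4) (nat_lit 417) (nat_lit 278) (nat_lit 205))))))))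
noncomputable def xc48 : XT := (XT.nd (nat_lit 41262) (nat_lit 0) (nat_lit 456) (XT.nd (nat_lit 858) (nat_lit 0) (nat_lit 0) (XT.nd (nat_lit 390) (nat_lit 0) (nat_lit 0) (XT.nd (nat_lit 156) (nat_lit 0) (nat_lit 0) (XT.nd (nat_lit 78) (nat_lit 0) (nat_lit 0) (XT.lf (nat_lit 0) (nat_lit 133386169884) (nat_lit 152) (nat_lit 76077933969) (nat_lit 0) (nat_lit 126456564633) (nat_lit 2) (nat_lit 5) (nat_lit 4) (nat_lit 4) (nat_lit 2) (nat_lit 4) (nat_lit 418) (nat_lit 278) (nat_lit 204)) (XT.lf (nat_lit 0) (nat_lit 143171112603) (nat_lit 152) (nat_lit 73138951777) (nat_lit 0) (nat_lit 136232337006) (nat_lit 2) (nat_lit 5) (nat_lit 4) (nat_lit 4) (nat_lit 2) (nat_lit 4) (nat_lit 419) (nat_lit 278) (nat_lit 203))) (XT.nd (nat_lit 78) (nat_lit 0) (nat_lit 0) (XT.lf (nat_lit 0) (nat_lit 153437012682) (nat_lit 152) (nat_lit 70069121019) (nat_lit 0) (nat_lit 146489503423) (nat_lit 2) (nat_lit 5) (nat_lit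 4) (nat_lit 4) (nat_lit 2) (nat_lit 4) (nat_lit 420) (nat_lit 278) (nat_lit 202)) (XT.nd (nat_lit 78) (nat_lit 0) (nat_lit 0) (XT.lf (nat_lit 0) (nat_lit 164208312741) (nat_lit 152) (nat_lit 66861132572) (nat_lit 0) (nat_lit 157252485709) (nat_lit 2) (nat_lit 5) (nat_lit 4) (nat_lit 4) (nat_lit 2) (nat_lit 4) (nat_lit 421) (nat_lit 278) (nat_lit 201)) (XT.lf (nat_lit 0) (nat_lit 175510658732) (nat_lit 152) (nat_lit 63507348370) (nat_lit 0) (nat_lit 168546910012) (nat_lit 2) (nat_lit 5) (nat_lit 4) (nat_lit 4) (nat_lit 2) (nat_lit 4) (nat_lit 422) (nat_lit 278) (nat_lit 200))))) (XT.nd (nat_lit 234) (nat_lit 0) (nat_lit 0) (XT.nd (nat_lit 78) (nat_lit 0) (nat_lit 0) (XT.lf (nat_lit 0) (nat_lit 187370961003) (nat_lit 152) (nat_lit 59999783211) (nat_lit 0) (nat_lit 180399667818) (nat_lit 2) (nat_lit 5) (nat_lit 4) (nat_lit 4) (nat_lit 2) (nat_lit 4) (nat_lit 423) (nat_lit 278) (nat_lit 199))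 (XT.nd (nat_lit 78) (nat_lit 0) (nat_lit 0) (XT.lf (nat_lit 0) (nat_lit 199817458370) (nat_lit 152) (nat_lit 56330085750) (nat_lit 0) (nat_lit 192838979979) (nat_lit 2) (nat_lit 5) (nat_lit 4) (nat_lit 4) (nat_lit 2) (nat_lit 4) (nat_lit 424) (nat_lit 278) (nat_lit 198)) (XT.lf (nat_lit 0) (nat_lit 212879785348) (nat_lit 152) (nat_lit 52489518613) (nat_lit 0) (nat_lit 205894463905) (nat_lit 2) (nat_lit 5) (nat_lit 4) (nat_lit 4) (nat_lit 2) (nat_lit 4) (nat_lit 425) (nat_lit 278) (nat_lit 197)))) (XT.nd (nat_lit 78) (nat_lit 0) (nat_lit 0) (XT.lf (nat_lit 0) (nat_lit 226589042718) (nat_lit 152) (nat_lit 48468937591) (nat_lit 0) (nat_lit 219597204082) (nat_lit 2) (nat_lit 5) (nat_lit 4) (nat_lit 4) (nat_lit 2) (nat_lit 4) (nat_lit 426) (nat_lit 278) (nat_lit 196)) (XT.nd (nat_lit 78) (nat_lit 0) (nat_lit 0) (XT.lf (nat_lit 0) (nat_lit 240977871568) (nat_lit 152) (nat_lit 44258769873) (nat_lit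 0) (nat_lit 233979826081) (nat_lit 2) (nat_lit 5) (nat_lit 4) (nat_lit 4) (nat_lit 2) (nat_lit 4) (nat_lit 427) (nat_lit 278) (nat_lit 195)) (XT.lf (nat_lit 0) (nat_lit 256080531014) (nat_lit 152) (nat_lit 39848991250) (nat_lit 0) (nat_lit 249076574241) (nat_lit 2) (nat_lit 5) (nat_lit 4) (nat_lit 4) (nat_lit 2) (nat_lit 4) (nat_lit 428) (nat_lit 278) (nat_lit 194)))))) (XT.nd (nat_lit 390) (nat_lit 0) (nat_lit 0) (XT.nd (nat_lit 156) (nat_lit 0) (nat_lit 0) (XT.nd (nat_lit 78) (nat_lit 0) (nat_lit 0) (XT.lf (nat_lit 0) (nat_lit 271932979769) (nat_lit 152) (nat_lit 35229102249) (nat_lit 0) (nat_lit 264923393200) (nat_lit 2) (nat_lit 5) (nat_lit 4) (nat_lit 4) (nat_lit 2) (nat_lit 4) (nat_lit 429) (nat_lit 278) (nat_lit 193)) (XT.lf (nat_lit 0) (nat_lit 288572961759) (nat_lit 152) (nat_lit 30388103134) (nat_lit 0) (nat_lit 281558013479) (nat_lit 2) (nat_lit 5) (nat_lit 4) (nat_lit 4) (nat_lit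 2) (nat_lit 4) (nat_lit 430) (nat_lit 278) (nat_lit 192))) (XT.nd (nat_lit 78) (nat_lit 0) (nat_lit 0) (XT.lf (nat_lit 0) (nat_lit 306040095989) (nat_lit 152) (nat_lit 25314467717) (nat_lit 0) (nat_lit 299020041317) (nat_lit 2) (nat_lit 5) (nat_lit 4) (nat_lit 4) (nat_lit 2) (nat_lit 4) (nat_lit 431) (nat_lit 278) (nat_lit 191)) (XT.nd (nat_lit 78) (nat_lit 0) (nat_lit 0) (XT.lf (nat_lit 0) (nat_lit 324375970873) (nat_lit 152) (nat_lit 19996115914) (nat_lit 0) (nat_lit 317351052972) (nat_lit 2) (nat_lit 5) (nat_lit 4) (nat_lit 4) (nat_lit 2) (nat_lit 4) (nat_lit 432) (nat_lit 278) (nat_lit 190)) (XT.lf (nat_lit 0) (nat_lit 343624243256) (nat_lit 152) (nat_lit 14420384982) (nat_lit 0) (nat_lit 336594693708) (nat_lit 2) (nat_lit 5) (nat_lit 4) (nat_lit 4) (nat_lit 2) (nat_lit 4) (nat_lit 433) (nat_lit 278) (nat_lit 189))))) (XT.nd (nat_lit 39780) (nat_lit 0) (nat_lit 1672) (XT.nd (nat_lit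 78) (nat_lit 0) (nat_lit 0) (XT.lf (nat_lit 0) (nat_lit 363830742359) (nat_lit 152) (nat_lit 8573999371) (nat_lit 0) (nat_lit 356796781718) (nat_lit 2) (nat_lit 5) (nat_lit 4) (nat_lit 4) (nat_lit 2) (nat_lit 4) (nat_lit 434) (nat_lit 278) (nat_lit 188)) (XT.nd (nat_lit 39624) (nat_lit 0) (nat_lit 1976) (XT.lf (nat_lit 0) (nat_lit 385043578893) (nat_lit 152) (nat_lit 2443039116) (nat_lit 0) (nat_lit 378005417211) (nat_lit 2) (nat_lit 5) (nat_lit 4) (nat_lit 4) (nat_lit 2) (nat_lit 4) (nat_lit 435) (nat_lit 278) (nat_lit 187)) (XT.lf (nat_lit 0) (nat_lit 1943137875) (nat_lit 152) (nat_lit 2513972928) (nat_lit 0) (nat_lit 1943137875) (nat_lit 28) (nat_lit 5) (nat_lit 30) (nat_lit 4) (nat_lit 28) (nat_lit 4) (nat_lit 342) (nat_lit 279) (nat_lit 279)))) (XT.nd (nat_lit 78) (nat_lit 152) (nat_lit 0) (XT.lf (nat_lit 0) (nat_lit 3532389416) (nat_lit 152) (nat_lit 5088269587) (nat_lit 152) (nat_lit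 4562134222) (nat_lit 26) (nat_lit 4) (nat_lit 28) (nat_lit 5) (nat_lit 28) (nat_lit 4) (nat_lit 343) (nat_lit 279) (nat_lit 278)) (XT.nd (nat_lit 78) (nat_lit 152) (nat_lit 0) (XT.lf (nat_lit 0) (nat_lit 12412321923) (nat_lit 152) (nat_lit 1101545527) (nat_lit 152) (nat_lit 74328862) (nat_lit 26) (nat_lit 4) (nat_lit 28) (nat_lit 5) (nat_lit 28) (nat_lit 4) (nat_lit 344) (nat_lit 279) (nat_lit 277)) (XT.lf (nat_lit 0) (nat_lit 4499933863) (nat_lit 152) (nat_lit 6442741668) (nat_lit 0) (nat_lit 3067136767) (nat_lit 24) (nat_lit 5) (nat_lit 26) (nat_lit 4) (nat_lit 24) (nat_lit 4) (nat_lit 345) (nat_lit 279) (nat_lit 276))))))) (XT.nd (nat_lit 858) (nat_lit 456) (nat_lit 0) (XT.nd (nat_lit 390) (nat_lit 380) (nat_lit 0) (XT.nd (nat_lit 156) (nat_lit 228) (nat_lit 0) (XT.nd (nat_lit 78) (nat_lit 0) (nat_lit 0) (XT.lf (nat_lit 0) (nat_lit 2107948843) (nat_lit 152) (nat_lit 7107247243) (nat_lit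 152) (nat_lit 5241597280) (nat_lit 22) (nat_lit 4) (nat_lit 24) (nat_lit 5) (nat_lit 24) (nat_lit 4) (nat_lit 346) (nat_lit 279) (nat_lit 275)) (XT.lf (nat_lit 0) (nat_lit 11037920390) (nat_lit 152) (nat_lit 3084189919) (nat_lit 152) (nat_lit 806299131) (nat_lit 22) (nat_lit 4) (nat_lit 24) (nat_lit 5) (nat_lit 24) (nat_lit 4) (nat_lit 347) (nat_lit 279) (nat_lit 274))) (XT.nd (nat_lit 78) (nat_lit 76) (nat_lit 0) (XT.lf (nat_lit 0) (nat_lit 3672606769) (nat_lit 152) (nat_lit 10621539458) (nat_lit 0) (nat_lit 1129272390) (nat_lit 20) (nat_lit 5) (nat_lit 22) (nat_lit 4) (nat_lit 20) (nat_lit 4) (nat_lit 348) (nat_lit 279) (nat_lit 273)) (XT.nd (nat_lit 78) (nat_lit 76) (nat_lit 0) (XT.lf (nat_lit 0) (nat_lit 8318723516) (nat_lit 152) (nat_lit 2206065152) (nat_lit 0) (nat_lit 5419280012) (nat_lit 20) (nat_lit 5) (nat_lit 22) (nat_lit 4) (nat_lit 20) (nat_lit 4) (nat_lit 349) (nat_lit 279)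 (nat_lit 272)) (XT.lf (nat_lit 0) (nat_lit 6588427592) (nat_lit 76) (nat_lit 6571424768) (nat_lit 76) (nat_lit 3332829717) (nat_lit 19) (nat_lit 4) (nat_lit 20) (nat_lit 5) (nat_lit 20) (nat_lit 4) (nat_lit 350) (nat_lit 279) (nat_lit 271))))) (XT.nd (nat_lit 234) (nat_lit 228) (nat_lit 0) (XT.nd (nat_lit 78) (nat_lit 76) (nat_lit 0) (XT.lf (nat_lit 0) (nat_lit 1035022632) (nat_lit 152) (nat_lit 1439800129) (nat_lit 76) (nat_lit 14598131843) (nat_lit 18) (nat_lit 5) (nat_lit 20) (nat_lit 5) (nat_lit 19) (nat_lit 4) (nat_lit 351) (nat_lit 279) (nat_lit 270)) (XT.nd (nat_lit 78) (nat_lit 0) (nat_lit 0) (XT.lf (nat_lit 0) (nat_lit 5521209870) (nat_lit 152) (nat_lit 10321517518) (nat_lit 0) (nat_lit 1836241321) (nat_lit 17) (nat_lit 5) (nat_lit 19) (nat_lit 4) (nat_lit 17) (nat_lit 4) (nat_lit 352) (nat_lit 279) (nat_lit 269)) (XT.lf (nat_lit 0) (nat_lit 10164996371) (nat_lit 152) (nat_lit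 1952670066) (nat_lit 0) (nat_lit 6201007005) (nat_lit 17) (nat_lit 5) (nat_lit 19) (nat_lit 4) (nat_lit 17) (nat_lit 4) (nat_lit 353) (nat_lit 279) (nat_lit 268)))) (XT.nd (nat_lit 78) (nat_lit 152) (nat_lit 0) (XT.lf (nat_lit 0) (nat_lit 6822322570) (nat_lit 76) (nat_lit 8199389574) (nat_lit 76) (nat_lit 3969666096) (nat_lit 16) (nat_lit 4) (nat_lit 17) (nat_lit 5) (nat_lit 17) (nat_lit 4) (nat_lit 354) (nat_lit 279) (nat_lit 267)) (XT.nd (nat_lit 78) (nat_lit 76) (nat_lit 0) (XT.lf (nat_lit 0) (nat_lit 318201904) (nat_lit 152) (nat_lit 3830489680) (nat_lit 76) (nat_lit 15553332437) (nat_lit 15) (nat_lit 5) (nat_lit 17) (nat_lit 5) (nat_lit 16) (nat_lit 4) (nat_lit 355) (nat_lit 279) (nat_lit 266)) (XT.lf (nat_lit 0) (nat_lit 4644818226) (nat_lit 152) (nat_lit 15656356361) (nat_lit 0) (nat_lit 145930362) (nat_lit 14) (nat_lit 5) (nat_lit 16) (nat_lit 4) (nat_lit 14) (nat_lit 4) (nat_lit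 356) (nat_lit 279) (nat_lit 265)))))) (XT.nd (nat_lit 468) (nat_lit 228) (nat_lit 0) (XT.nd (nat_lit 234) (nat_lit 152) (nat_lit 0) (XT.nd (nat_lit 78) (nat_lit 76) (nat_lit 0) (XT.lf (nat_lit 0) (nat_lit 9203036856) (nat_lit 152) (nat_lit 7540153250) (nat_lit 0) (nat_lit 4485528881) (nat_lit 14) (nat_lit 5) (nat_lit 16) (nat_lit 4) (nat_lit 14) (nat_lit 4) (nat_lit 357) (nat_lit 279) (nat_lit 264)) (XT.nd (nat_lit 78) (nat_lit 0) (nat_lit 0) (XT.lf (nat_lit 0) (nat_lit 796971105) (nat_lit 76) (nat_lit 13091614928) (nat_lit 76) (nat_lit 8165897322) (nat_lit 13) (nat_lit 4) (nat_lit 14) (nat_lit 5) (nat_lit 14) (nat_lit 4) (nat_lit 358) (nat_lit 279) (nat_lit 263)) (XT.lf (nat_lit 0) (nat_lit 9605725310) (nat_lit 76) (nat_lit 9219510323) (nat_lit 76) (nat_lit 4095497832) (nat_lit 13) (nat_lit 4) (nat_lit 14) (nat_lit 5) (nat_lit 14) (nat_lit 4) (nat_lit 359) (nat_lit 279) (nat_lit 262))))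 (XT.nd (nat_lit 78) (nat_lit 76) (nat_lit 0) (XT.lf (nat_lit 0) (nat_lit 65350827) (nat_lit 152) (nat_lit 5178895565) (nat_lit 76) (nat_lit 18591313494) (nat_lit 12) (nat_lit 5) (nat_lit 14) (nat_lit 5) (nat_lit 13) (nat_lit 4) (nat_lit 360) (nat_lit 279) (nat_lit 261)) (XT.nd (nat_lit 78) (nat_lit 0) (nat_lit 0) (XT.lf (nat_lit 0) (nat_lit 3208399749) (nat_lit 76) (nat_lit 1036050894) (nat_lit 152) (nat_lit 20550961214) (nat_lit 11) (nat_lit 5) (nat_lit 12) (nat_lit 5) (nat_lit 13) (nat_lit 4) (nat_lit 361) (nat_lit 279) (nat_lit 260)) (XT.lf (nat_lit 0) (nat_lit 8672775675) (nat_lit 152) (nat_lit 13850026855) (nat_lit 0) (nat_lit 3278472201) (nat_lit 11) (nat_lit 5) (nat_lit 13) (nat_lit 4) (nat_lit 11) (nat_lit 4) (nat_lit 362) (nat_lit 279) (nat_lit 259))))) (XT.nd (nat_lit 234) (nat_lit 152) (nat_lit 0) (XT.nd (nat_lit 78) (nat_lit 76) (nat_lit 0) (XT.lf (nat_lit 0) (nat_lit 13242657732)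 (nat_lit 152) (nat_lit 5925811253) (nat_lit 0) (nat_lit 7692985027) (nat_lit 11) (nat_lit 5) (nat_lit 13) (nat_lit 4) (nat_lit 11) (nat_lit 4) (nat_lit 363) (nat_lit 279) (nat_lit 258)) (XT.nd (nat_lit 78) (nat_lit 0) (nat_lit 0) (XT.lf (nat_lit 0) (nat_lit 2294103161) (nat_lit 76) (nat_lit 15690516046) (nat_lit 76) (nat_lit 9992872644) (nat_lit 10) (nat_lit 4) (nat_lit 11) (nat_lit 5) (nat_lit 11) (nat_lit 4) (nat_lit 364) (nat_lit 279) (nat_lit 257)) (XT.lf (nat_lit 0) (nat_lit 10959611932) (nat_lit 76) (nat_lit 12013911390) (nat_lit 76) (nat_lit 6175343515) (nat_lit 10) (nat_lit 4) (nat_lit 11) (nat_lit 5) (nat_lit 11) (nat_lit 4) (nat_lit 365) (nat_lit 279) (nat_lit 256)))) (XT.nd (nat_lit 78) (nat_lit 152) (nat_lit 0) (XT.lf (nat_lit 0) (nat_lit 19895413142) (nat_lit 76) (nat_lit 8230257678) (nat_lit 76) (nat_lit 2257476019) (nat_lit 10) (nat_lit 4) (nat_lit 11) (nat_lit 5) (nat_lit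 11) (nat_lit 4) (nat_lit 366) (nat_lit 279) (nat_lit 255)) (XT.nd (nat_lit 78) (nat_lit 76) (nat_lit 0) (XT.lf (nat_lit 0) (nat_lit 1713405185) (nat_lit 152) (nat_lit 2588123680) (nat_lit 76) (nat_lit 27380359978) (nat_lit 9) (nat_lit 5) (nat_lit 11) (nat_lit 5) (nat_lit 10) (nat_lit 4) (nat_lit 367) (nat_lit 279) (nat_lit 254)) (XT.lf (nat_lit 0) (nat_lit 5701459987) (nat_lit 76) (nat_lit 115027893) (nat_lit 152) (nat_lit 27226776116) (nat_lit 8) (nat_lit 5) (nat_lit 9) (nat_lit 5) (nat_lit 10) (nat_lit 4) (nat_lit 368) (nat_lit 279) (nat_lit 253))))))))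
noncomputable def xc49 : XT := (XT.nd (nat_lit 1794) (nat_lit 152) (nat_lit 0) (XT.nd (nat_lit 858) (nat_lit 76) (nat_lit 0) (XT.nd (nat_lit 390) (nat_lit 152) (nat_lit 0) (XT.nd (nat_lit 156) (nat_lit 76) (nat_lit 0) (XT.nd (nat_lit 78) (nat_lit 0) (nat_lit 0) (XT.lf (nat_lit 0) (nat_lit 10156997650) (nat_lit 152) (nat_lit 20193576763) (nat_lit 0) (nat_lit 4120541382) (nat_lit 8) (nat_lit 5) (nat_lit 10) (nat_lit 4) (nat_lit 8) (nat_lit 4) (nat_lit 369) (nat_lit 279) (nat_lit 252)) (XT.lf (nat_lit 0) (nat_lit 14641073862) (nat_lit 152) (nat_lit 12833522202) (nat_lit 0) (nat_lit 8499457582) (nat_lit 8) (nat_lit 5) (nat_lit 10) (nat_lit 4) (nat_lit 8) (nat_lit 4) (nat_lit 370) (nat_lit 279) (nat_lit 251))) (XT.nd (nat_lit 78) (nat_lit 76) (nat_lit 0) (XT.lf (nat_lit 0) (nat_lit 19277596980) (nat_lit 152) (nat_lit 5242320479) (nat_lit 0) (nat_lit 13035828308) (nat_lit 8) (nat_lit 5) (nat_lit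 10) (nat_lit 4) (nat_lit 8) (nat_lit 4) (nat_lit 371) (nat_lit 279) (nat_lit 250)) (XT.nd (nat_lit 78) (nat_lit 0) (nat_lit 0) (XT.lf (nat_lit 0) (nat_lit 2684007703) (nat_lit 76) (nat_lit 21435503524) (nat_lit 76) (nat_lit 15098351622) (nat_lit 7) (nat_lit 4) (nat_lit 8) (nat_lit 5) (nat_lit 8) (nat_lit 4) (nat_lit 372) (nat_lit 279) (nat_lit 249)) (XT.lf (nat_lit 0) (nat_lit 11060417427) (nat_lit 76) (nat_lit 18164797237) (nat_lit 76) (nat_lit 11736804163) (nat_lit 7) (nat_lit 4) (nat_lit 8) (nat_lit 5) (nat_lit 8) (nat_lit 4) (nat_lit 373) (nat_lit 279) (nat_lit 248))))) (XT.nd (nat_lit 234) (nat_lit 152) (nat_lit 0) (XT.nd (nat_lit 78) (nat_lit 0) (nat_lit 0) (XT.lf (nat_lit 0) (nat_lit 19733517733) (nat_lit 76) (nat_lit 14788792438) (nat_lit 76) (nat_lit 8274283962) (nat_lit 7) (nat_lit 4) (nat_lit 8) (nat_lit 5) (nat_lit 8) (nat_lit 4) (nat_lit 374) (nat_lit 279) (nat_lit 247)) (XT.nd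 (nat_lit 78) (nat_lit 0) (nat_lit 0) (XT.lf (nat_lit 0) (nat_lit 28723958861) (nat_lit 76) (nat_lit 11299451019) (nat_lit 76) (nat_lit 4702546923) (nat_lit 7) (nat_lit 4) (nat_lit 8) (nat_lit 5) (nat_lit 8) (nat_lit 4) (nat_lit 375) (nat_lit 279) (nat_lit 246)) (XT.lf (nat_lit 0) (nat_lit 38053146623) (nat_lit 76) (nat_lit 7688465025) (nat_lit 76) (nat_lit 1013088909) (nat_lit 7) (nat_lit 4) (nat_lit 8) (nat_lit 5) (nat_lit 8) (nat_lit 4) (nat_lit 376) (nat_lit 279) (nat_lit 245)))) (XT.nd (nat_lit 78) (nat_lit 76) (nat_lit 0) (XT.lf (nat_lit 0) (nat_lit 2713165014) (nat_lit 152) (nat_lit 1188123093) (nat_lit 76) (nat_lit 44984179594) (nat_lit 6) (nat_lit 5) (nat_lit 8) (nat_lit 5) (nat_lit 7) (nat_lit 4) (nat_lit 377) (nat_lit 279) (nat_lit 244)) (XT.nd (nat_lit 78) (nat_lit 0) (nat_lit 0) (XT.lf (nat_lit 0) (nat_lit 6646833474) (nat_lit 152) (nat_lit 44321996241) (nat_lit 0) (nat_lit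 150368894) (nat_lit 5) (nat_lit 5) (nat_lit 7) (nat_lit 4) (nat_lit 5) (nat_lit 4) (nat_lit 378) (nat_lit 279) (nat_lit 243)) (XT.lf (nat_lit 0) (nat_lit 10808374411) (nat_lit 152) (nat_lit 38407344082) (nat_lit 0) (nat_lit 4247350707) (nat_lit 5) (nat_lit 5) (nat_lit 7) (nat_lit 4) (nat_lit 5) (nat_lit 4) (nat_lit 379) (nat_lit 279) (nat_lit 242)))))) (XT.nd (nat_lit 468) (nat_lit 0) (nat_lit 0) (XT.nd (nat_lit 234) (nat_lit 76) (nat_lit 0) (XT.nd (nat_lit 78) (nat_lit 0) (nat_lit 0) (XT.lf (nat_lit 0) (nat_lit 15127308789) (nat_lit 152) (nat_lit 32294570501) (nat_lit 0) (nat_lit 8504800204) (nat_lit 5) (nat_lit 5) (nat_lit 7) (nat_lit 4) (nat_lit 5) (nat_lit 4) (nat_lit 380) (nat_lit 279) (nat_lit 241)) (XT.nd (nat_lit 78) (nat_lit 0) (nat_lit 0) (XT.lf (nat_lit 0) (nat_lit 19613919784) (nat_lit 152) (nat_lit 25969121273) (nat_lit 0) (nat_lit 12932854170) (nat_lit 5) (nat_lit 5) (nat_lit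 7) (nat_lit 4) (nat_lit 5) (nat_lit 4) (nat_lit 381) (nat_lit 279) (nat_lit 240)) (XT.lf (nat_lit 0) (nat_lit 24278889804) (nat_lit 152) (nat_lit 19415935805) (nat_lit 0) (nat_lit 17542055590) (nat_lit 5) (nat_lit 5) (nat_lit 7) (nat_lit 4) (nat_lit 5) (nat_lit 4) (nat_lit 382) (nat_lit 279) (nat_lit 239)))) (XT.nd (nat_lit 78) (nat_lit 76) (nat_lit 0) (XT.lf (nat_lit 0) (nat_lit 29133325920) (nat_lit 152) (nat_lit 12619411275) (nat_lit 0) (nat_lit 22343378755) (nat_lit 5) (nat_lit 5) (nat_lit 7) (nat_lit 4) (nat_lit 5) (nat_lit 4) (nat_lit 383) (nat_lit 279) (nat_lit 238)) (XT.nd (nat_lit 78) (nat_lit 76) (nat_lit 0) (XT.lf (nat_lit 0) (nat_lit 34188786313) (nat_lit 152) (nat_lit 5563365482) (nat_lit 0) (nat_lit 27348255384) (nat_lit 5) (nat_lit 5) (nat_lit 7) (nat_lit 4) (nat_lit 5) (nat_lit 4) (nat_lit 384) (nat_lit 279) (nat_lit 237)) (XT.lf (nat_lit 0) (nat_lit 1827492867) (nat_lit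 76) (nat_lit 37658347212) (nat_lit 76) (nat_lit 30769641270) (nat_lit 4) (nat_lit 4) (nat_lit 5) (nat_lit 5) (nat_lit 5) (nat_lit 4) (nat_lit 385) (nat_lit 279) (nat_lit 236))))) (XT.nd (nat_lit 234) (nat_lit 0) (nat_lit 0) (XT.nd (nat_lit 78) (nat_lit 0) (nat_lit 0) (XT.lf (nat_lit 0) (nat_lit 9705794268) (nat_lit 76) (nat_lit 35397174842) (nat_lit 76) (nat_lit 28462587936) (nat_lit 4) (nat_lit 4) (nat_lit 5) (nat_lit 5) (nat_lit 5) (nat_lit 4) (nat_lit 386) (nat_lit 279) (nat_lit 235)) (XT.nd (nat_lit 78) (nat_lit 0) (nat_lit 0) (XT.lf (nat_lit 0) (nat_lit 17906346592) (nat_lit 76) (nat_lit 33057469230) (nat_lit 76) (nat_lit 26079186167) (nat_lit 4) (nat_lit 4) (nat_lit 5) (nat_lit 5) (nat_lit 5) (nat_lit 4) (nat_lit 387) (nat_lit 279) (nat_lit 234)) (XT.lf (nat_lit 0) (nat_lit 26448674964) (nat_lit 76) (nat_lit 30633659647) (nat_lit 76) (nat_lit 23613761196) (nat_lit 4) (nat_lit 4)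 (nat_lit 5) (nat_lit 5) (nat_lit 5) (nat_lit 4) (nat_lit 388) (nat_lit 279) (nat_lit 233)))) (XT.nd (nat_lit 78) (nat_lit 0) (nat_lit 0) (XT.lf (nat_lit 0) (nat_lit 35353118261) (nat_lit 76) (nat_lit 28119975119) (nat_lit 76) (nat_lit 21060442966) (nat_lit 4) (nat_lit 4) (nat_lit 5) (nat_lit 5) (nat_lit 5) (nat_lit 4) (nat_lit 389) (nat_lit 279) (nat_lit 232)) (XT.nd (nat_lit 78) (nat_lit 0) (nat_lit 0) (XT.lf (nat_lit 0) (nat_lit 44640877538) (nat_lit 76) (nat_lit 25510430682) (nat_lit 76) (nat_lit 18413152145) (nat_lit 4) (nat_lit 4) (nat_lit 5) (nat_lit 5) (nat_lit 5) (nat_lit 4) (nat_lit 390) (nat_lit 279) (nat_lit 231)) (XT.lf (nat_lit 0) (nat_lit 54334066509) (nat_lit 76) (nat_lit 22798813135) (nat_lit 76) (nat_lit 15665585662) (nat_lit 4) (nat_lit 4) (nat_lit 5) (nat_lit 5) (nat_lit 5) (nat_lit 4) (nat_lit 391) (nat_lit 279) (nat_lit 230))))))) (XT.nd (nat_lit 858) (nat_lit 0) (nat_lit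 0) (XT.nd (nat_lit 390) (nat_lit 152) (nat_lit 0) (XT.nd (nat_lit 156) (nat_lit 0) (nat_lit 0) (XT.nd (nat_lit 78) (nat_lit 0) (nat_lit 0) (XT.lf (nat_lit 0) (nat_lit 64455764194) (nat_lit 76) (nat_lit 19978666246) (nat_lit 76) (nat_lit 12811201690) (nat_lit 4) (nat_lit 4) (nat_lit 5) (nat_lit 5) (nat_lit 5) (nat_lit 4) (nat_lit 392) (nat_lit 279) (nat_lit 229)) (XT.lf (nat_lit 0) (nat_lit 75030069873) (nat_lit 76) (nat_lit 17043275379) (nat_lit 76) (nat_lit 9843204079) (nat_lit 4) (nat_lit 4) (nat_lit 5) (nat_lit 5) (nat_lit 5) (nat_lit 4) (nat_lit 393) (nat_lit 279) (nat_lit 228))) (XT.nd (nat_lit 78) (nat_lit 0) (nat_lit 0) (XT.lf (nat_lit 0) (nat_lit 86082160465) (nat_lit 76) (nat_lit 13985651509) (nat_lit 76) (nat_lit 6754526166) (nat_lit 4) (nat_lit 4) (nat_lit 5) (nat_lit 5) (nat_lit 5) (nat_lit 4) (nat_lit 394) (nat_lit 279) (nat_lit 227)) (XT.nd (nat_lit 78) (nat_lit 0) (nat_lit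 0) (XT.lf (nat_lit 0) (nat_lit 97638350472) (nat_lit 76) (nat_lit 10798514578) (nat_lit 76) (nat_lit 3537813956) (nat_lit 4) (nat_lit 4) (nat_lit 5) (nat_lit 5) (nat_lit 5) (nat_lit 4) (nat_lit 395) (nat_lit 279) (nat_lit 226)) (XT.lf (nat_lit 0) (nat_lit 109726154631) (nat_lit 76) (nat_lit 7474276166) (nat_lit 76) (nat_lit 185408612) (nat_lit 4) (nat_lit 4) (nat_lit 5) (nat_lit 5) (nat_lit 5) (nat_lit 4) (nat_lit 396) (nat_lit 279) (nat_lit 225))))) (XT.nd (nat_lit 234) (nat_lit 0) (nat_lit 0) (XT.nd (nat_lit 78) (nat_lit 76) (nat_lit 0) (XT.lf (nat_lit 0) (nat_lit 3204709611) (nat_lit 152) (nat_lit 746038500) (nat_lit 76) (nat_lit 119115370508) (nat_lit 3) (nat_lit 5) (nat_lit 5) (nat_lit 5) (nat_lit 4) (nat_lit 4) (nat_lit 397) (nat_lit 279) (nat_lit 224)) (XT.nd (nat_lit 78) (nat_lit 0) (nat_lit 0) (XT.lf (nat_lit 0) (nat_lit 6681463991) (nat_lit 76) (nat_lit 158880122) (nat_lit 152)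 (nat_lit 122185808383) (nat_lit 2) (nat_lit 5) (nat_lit 3) (nat_lit 5) (nat_lit 4) (nat_lit 4) (nat_lit 398) (nat_lit 279) (nat_lit 223)) (XT.lf (nat_lit 0) (nat_lit 10708287952) (nat_lit 152) (nat_lit 120879921822) (nat_lit 0) (nat_lit 3693456431) (nat_lit 2) (nat_lit 5) (nat_lit 4) (nat_lit 4) (nat_lit 2) (nat_lit 4) (nat_lit 399) (nat_lit 279) (nat_lit 222)))) (XT.nd (nat_lit 78) (nat_lit 0) (nat_lit 0) (XT.lf (nat_lit 0) (nat_lit 14751285726) (nat_lit 152) (nat_lit 119385206666) (nat_lit 0) (nat_lit 7714384676) (nat_lit 2) (nat_lit 5) (nat_lit 4) (nat_lit 4) (nat_lit 2) (nat_lit 4) (nat_lit 400) (nat_lit 279) (nat_lit 221)) (XT.nd (nat_lit 78) (nat_lit 0) (nat_lit 0) (XT.lf (nat_lit 0) (nat_lit 18976483055) (nat_lit 152) (nat_lit 117854503626) (nat_lit 0) (nat_lit 11918563407) (nat_lit 2) (nat_lit 5) (nat_lit 4) (nat_lit 4) (nat_lit 2) (nat_lit 4) (nat_lit 401) (nat_lit 279) (nat_lit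 220)) (XT.lf (nat_lit 0) (nat_lit 23393939935) (nat_lit 152) (nat_lit 116284168173) (nat_lit 0) (nat_lit 16316002573) (nat_lit 2) (nat_lit 5) (nat_lit 4) (nat_lit 4) (nat_lit 2) (nat_lit 4) (nat_lit 402) (nat_lit 279) (nat_lit 219)))))) (XT.nd (nat_lit 468) (nat_lit 0) (nat_lit 0) (XT.nd (nat_lit 234) (nat_lit 0) (nat_lit 0) (XT.nd (nat_lit 78) (nat_lit 0) (nat_lit 0) (XT.lf (nat_lit 0) (nat_lit 28014174118) (nat_lit 152) (nat_lit 114670461411) (nat_lit 0) (nat_lit 20917172268) (nat_lit 2) (nat_lit 5) (nat_lit 4) (nat_lit 4) (nat_lit 2) (nat_lit 4) (nat_lit 403) (nat_lit 279) (nat_lit 218)) (XT.nd (nat_lit 78) (nat_lit 0) (nat_lit 0) (XT.lf (nat_lit 0) (nat_lit 32848186163) (nat_lit 152) (nat_lit 113009541183) (nat_lit 0) (nat_lit 25733027658) (nat_lit 2) (nat_lit 5) (nat_lit 4) (nat_lit 4) (nat_lit 2) (nat_lit 4) (nat_lit 404) (nat_lit 279) (nat_lit 217)) (XT.lf (nat_lit 0) (nat_lit 37907485623)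 (nat_lit 152) (nat_lit 111297452915) (nat_lit 0) (nat_lit 30775035064) (nat_lit 2) (nat_lit 5) (nat_lit 4) (nat_lit 4) (nat_lit 2) (nat_lit 4) (nat_lit 405) (nat_lit 279) (nat_lit 216)))) (XT.nd (nat_lit 78) (nat_lit 0) (nat_lit 0) (XT.lf (nat_lit 0) (nat_lit 43204118447) (nat_lit 152) (nat_lit 109530120208) (nat_lit 0) (nat_lit 36055199267) (nat_lit 2) (nat_lit 5) (nat_lit 4) (nat_lit 4) (nat_lit 2) (nat_lit 4) (nat_lit 406) (nat_lit 279) (nat_lit 215)) (XT.nd (nat_lit 78) (nat_lit 0) (nat_lit 0) (XT.lf (nat_lit 0) (nat_lit 48750695668) (nat_lit 152) (nat_lit 107703335127) (nat_lit 0) (nat_lit 41586092085) (nat_lit 2) (nat_lit 5) (nat_lit 4) (nat_lit 4) (nat_lit 2) (nat_lit 4) (nat_lit 407) (nat_lit 279) (nat_lit 214)) (XT.lf (nat_lit 0) (nat_lit 54560423420) (nat_lit 152) (nat_lit 105812748183) (nat_lit 0) (nat_lit 47380882312) (nat_lit 2) (nat_lit 5) (nat_lit 4) (nat_lit 4) (nat_lit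 2) (nat_lit 4) (nat_lit 408) (nat_lit 279) (nat_lit 213))))) (XT.nd (nat_lit 234) (nat_lit 0) (nat_lit 0) (XT.nd (nat_lit 78) (nat_lit 0) (nat_lit 0) (XT.lf (nat_lit 0) (nat_lit 60647134390) (nat_lit 152) (nat_lit 103853857978) (nat_lit 0) (nat_lit 53453367067) (nat_lit 2) (nat_lit 5) (nat_lit 4) (nat_lit 4) (nat_lit 2) (nat_lit 4) (nat_lit 409) (nat_lit 279) (nat_lit 212)) (XT.nd (nat_lit 78) (nat_lit 0) (nat_lit 0) (XT.lf (nat_lit 0) (nat_lit 67025320746) (nat_lit 152) (nat_lit 101822000489) (nat_lit 0) (nat_lit 59818004647) (nat_lit 2) (nat_lit 5) (nat_lit 4) (nat_lit 4) (nat_lit 2) (nat_lit 4) (nat_lit 410) (nat_lit 279) (nat_lit 211)) (XT.lf (nat_lit 0) (nat_lit 73710168646) (nat_lit 152) (nat_lit 99712337959) (nat_lit 0) (nat_lit 66489948951) (nat_lit 2) (nat_lit 5) (nat_lit 4) (nat_lit 4) (nat_lit 2) (nat_lit 4) (nat_lit 411) (nat_lit 279) (nat_lit 210)))) (XT.nd (nat_lit 78) (nat_lit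 0) (nat_lit 0) (XT.lf (nat_lit 0) (nat_lit 80717594395) (nat_lit 152) (nat_lit 97519847383) (nat_lit 0) (nat_lit 73485085561) (nat_lit 2) (nat_lit 5) (nat_lit 4) (nat_lit 4) (nat_lit 2) (nat_lit 4) (nat_lit 412) (nat_lit 279) (nat_lit 209)) (XT.nd (nat_lit 78) (nat_lit 0) (nat_lit 0) (XT.lf (nat_lit 0) (nat_lit 88064282340) (nat_lit 152) (nat_lit 95239308545) (nat_lit 0) (nat_lit 80820069563) (nat_lit 2) (nat_lit 5) (nat_lit 4) (nat_lit 4) (nat_lit 2) (nat_lit 4) (nat_lit 413) (nat_lit 279) (nat_lit 208)) (XT.lf (nat_lit 0) (nat_lit 95767724594) (nat_lit 152) (nat_lit 92865291590) (nat_lit 0) (nat_lit 88512365206) (nat_lit 2) (nat_lit 5) (nat_lit 4) (nat_lit 4) (nat_lit 2) (nat_lit 4) (nat_lit 414) (nat_lit 279) (nat_lit 207))))))))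
noncomputable def xc50 : XT := (XT.nd (nat_lit 41184) (nat_lit 0) (nat_lit 684) (XT.nd (nat_lit 858) (nat_lit 0) (nat_lit 0) (XT.nd (nat_lit 390) (nat_lit 0) (nat_lit 0) (XT.nd (nat_lit 156) (nat_lit 0) (nat_lit 0) (XT.nd (nat_lit 78) (nat_lit 0) (nat_lit 0) (XT.lf (nat_lit 0) (nat_lit 103846262688) (nat_lit 152) (nat_lit 90392144097) (nat_lit 0) (nat_lit 96580287479) (nat_lit 2) (nat_lit 5) (nat_lit 4) (nat_lit 4) (nat_lit 2) (nat_lit 4) (nat_lit 415) (nat_lit 279) (nat_lit 206)) (XT.lf (nat_lit 0) (nat_lit 112319131235) (nat_lit 152) (nat_lit 87813977619) (nat_lit 0) (nat_lit 105043045721) (nat_lit 2) (nat_lit 5) (nat_lit 4) (nat_lit 4) (nat_lit 2) (nat_lit 4) (nat_lit 416) (nat_lit 279) (nat_lit 205))) (XT.nd (nat_lit 78) (nat_lit 0) (nat_lit 0) (XT.lf (nat_lit 0) (nat_lit 121206503732) (nat_lit 152) (nat_lit 85124653666) (nat_lit 0) (nat_lit 113920789356) (nat_lit 2) (nat_lit 5) (nat_lit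 4) (nat_lit 4) (nat_lit 2) (nat_lit 4) (nat_lit 417) (nat_lit 279) (nat_lit 204)) (XT.nd (nat_lit 78) (nat_lit 0) (nat_lit 0) (XT.lf (nat_lit 0) (nat_lit 130529540590) (nat_lit 152) (nat_lit 82317769085) (nat_lit 0) (nat_lit 123234655869) (nat_lit 2) (nat_lit 5) (nat_lit 4) (nat_lit 4) (nat_lit 2) (nat_lit 4) (nat_lit 418) (nat_lit 279) (nat_lit 203)) (XT.lf (nat_lit 0) (nat_lit 140310439516) (nat_lit 152) (nat_lit 79386640816) (nat_lit 0) (nat_lit 133006821133) (nat_lit 2) (nat_lit 5) (nat_lit 4) (nat_lit 4) (nat_lit 2) (nat_lit 4) (nat_lit 419) (nat_lit 279) (nat_lit 202))))) (XT.nd (nat_lit 234) (nat_lit 0) (nat_lit 0) (XT.nd (nat_lit 78) (nat_lit 0) (nat_lit 0) (XT.lf (nat_lit 0) (nat_lit 150572488364) (nat_lit 152) (nat_lit 76324289985) (nat_lit 0) (nat_lit 143260552207) (nat_lit 2) (nat_lit 5) (nat_lit 4) (nat_lit 4) (nat_lit 2) (nat_lit 4) (nat_lit 420) (nat_lit 279) (nat_lit 201))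 (XT.nd (nat_lit 78) (nat_lit 0) (nat_lit 0) (XT.lf (nat_lit 0) (nat_lit 161340120583) (nat_lit 152) (nat_lit 73123425278) (nat_lit 0) (nat_lit 154020262738) (nat_lit 2) (nat_lit 5) (nat_lit 4) (nat_lit 4) (nat_lit 2) (nat_lit 4) (nat_lit 421) (nat_lit 279) (nat_lit 200)) (XT.lf (nat_lit 0) (nat_lit 172638973394) (nat_lit 152) (nat_lit 69776425589) (nat_lit 0) (nat_lit 165311571084) (nat_lit 2) (nat_lit 5) (nat_lit 4) (nat_lit 4) (nat_lit 2) (nat_lit 4) (nat_lit 422) (nat_lit 279) (nat_lit 199)))) (XT.nd (nat_lit 78) (nat_lit 0) (nat_lit 0) (XT.lf (nat_lit 0) (nat_lit 184495948827) (nat_lit 152) (nat_lit 66275321873) (nat_lit 0) (nat_lit 177161361312) (nat_lit 2) (nat_lit 5) (nat_lit 4) (nat_lit 4) (nat_lit 2) (nat_lit 4) (nat_lit 423) (nat_lit 279) (nat_lit 198)) (XT.nd (nat_lit 78) (nat_lit 0) (nat_lit 0) (XT.lf (nat_lit 0) (nat_lit 196939277776) (nat_lit 152) (nat_lit 62611778166) (nat_lit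 0) (nat_lit 189597847208) (nat_lit 2) (nat_lit 5) (nat_lit 4) (nat_lit 4) (nat_lit 2) (nat_lit 4) (nat_lit 424) (nat_lit 279) (nat_lit 197)) (XT.lf (nat_lit 0) (nat_lit 209998587214) (nat_lit 152) (nat_lit 58777071747) (nat_lit 0) (nat_lit 202650639453) (nat_lit 2) (nat_lit 5) (nat_lit 4) (nat_lit 4) (nat_lit 2) (nat_lit 4) (nat_lit 425) (nat_lit 279) (nat_lit 196)))))) (XT.nd (nat_lit 468) (nat_lit 0) (nat_lit 0) (XT.nd (nat_lit 234) (nat_lit 0) (nat_lit 0) (XT.nd (nat_lit 78) (nat_lit 0) (nat_lit 0) (XT.lf (nat_lit 0) (nat_lit 223704970736) (nat_lit 152) (nat_lit 54762072362) (nat_lit 0) (nat_lit 216350816124) (nat_lit 2) (nat_lit 5) (nat_lit 4) (nat_lit 4) (nat_lit 2) (nat_lit 4) (nat_lit 426) (nat_lit 279) (nat_lit 195)) (XT.nd (nat_lit 78) (nat_lit 0) (nat_lit 0) (XT.lf (nat_lit 0) (nat_lit 238091062588) (nat_lit 152) (nat_lit 50557220488) (nat_lit 0) (nat_lit 230730996690) (nat_lit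 2) (nat_lit 5) (nat_lit 4) (nat_lit 4) (nat_lit 2) (nat_lit 4) (nat_lit 427) (nat_lit 279) (nat_lit 194)) (XT.lf (nat_lit 0) (nat_lit 253191115369) (nat_lit 152) (nat_lit 46152504574) (nat_lit 0) (nat_lit 245825419675) (nat_lit 2) (nat_lit 5) (nat_lit 4) (nat_lit 4) (nat_lit 2) (nat_lit 4) (nat_lit 428) (nat_lit 279) (nat_lit 193)))) (XT.nd (nat_lit 78) (nat_lit 0) (nat_lit 0) (XT.lf (nat_lit 0) (nat_lit 269041081586) (nat_lit 152) (nat_lit 41537437200) (nat_lit 0) (nat_lit 261670024181) (nat_lit 2) (nat_lit 5) (nat_lit 4) (nat_lit 4) (nat_lit 2) (nat_lit 4) (nat_lit 429) (nat_lit 279) (nat_lit 192)) (XT.nd (nat_lit 78) (nat_lit 0) (nat_lit 0) (XT.lf (nat_lit 0) (nat_lit 285678699254) (nat_lit 152) (nat_lit 36701030111) (nat_lit 0) (nat_lit 278302535458) (nat_lit 2) (nat_lit 5) (nat_lit 4) (nat_lit 4) (nat_lit 2) (nat_lit 4) (nat_lit 430) (nat_lit 279) (nat_lit 191)) (XT.lf (nat_lit 0)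 (nat_lit 303143581748) (nat_lit 152) (nat_lit 31631768053) (nat_lit 0) (nat_lit 295762554723) (nat_lit 2) (nat_lit 5) (nat_lit 4) (nat_lit 4) (nat_lit 2) (nat_lit 4) (nat_lit 431) (nat_lit 279) (nat_lit 190))))) (XT.nd (nat_lit 234) (nat_lit 0) (nat_lit 0) (XT.nd (nat_lit 78) (nat_lit 0) (nat_lit 0) (XT.lf (nat_lit 0) (nat_lit 321477312123) (nat_lit 152) (nat_lit 26317581352) (nat_lit 0) (nat_lit 314091653450) (nat_lit 2) (nat_lit 5) (nat_lit 4) (nat_lit 4) (nat_lit 2) (nat_lit 4) (nat_lit 432) (nat_lit 279) (nat_lit 189)) (XT.nd (nat_lit 78) (nat_lit 0) (nat_lit 0) (XT.lf (nat_lit 0) (nat_lit 340723542116) (nat_lit 152) (nat_lit 20745817185) (nat_lit 0) (nat_lit 333333472350) (nat_lit 2) (nat_lit 5) (nat_lit 4) (nat_lit 4) (nat_lit 2) (nat_lit 4) (nat_lit 433) (nat_lit 279) (nat_lit 188)) (XT.lf (nat_lit 0) (nat_lit 360928096085) (nat_lit 152) (nat_lit 14903209446) (nat_lit 0) (nat_lit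 353533825279) (nat_lit 2) (nat_lit 5) (nat_lit 4) (nat_lit 4) (nat_lit 2) (nat_lit 4) (nat_lit 434) (nat_lit 279) (nat_lit 187)))) (XT.nd (nat_lit 39468) (nat_lit 0) (nat_lit 2128) (XT.lf (nat_lit 0) (nat_lit 382139080111) (nat_lit 152) (nat_lit 8775847163) (nat_lit 0) (nat_lit 374740808314) (nat_lit 2) (nat_lit 5) (nat_lit 4) (nat_lit 4) (nat_lit 2) (nat_lit 4) (nat_lit 435) (nat_lit 279) (nat_lit 186)) (XT.nd (nat_lit 78) (nat_lit 0) (nat_lit 0) (XT.lf (nat_lit 0) (nat_lit 1467033019) (nat_lit 152) (nat_lit 2288898857) (nat_lit 152) (nat_lit 2288898857) (nat_lit 30) (nat_lit 4) (nat_lit 32) (nat_lit 5) (nat_lit 32) (nat_lit 4) (nat_lit 340) (nat_lit 280) (nat_lit 280)) (XT.lf (nat_lit 0) (nat_lit 11549898150) (nat_lit 152) (nat_lit 735274965) (nat_lit 152) (nat_lit 155210726) (nat_lit 30) (nat_lit 4) (nat_lit 32) (nat_lit 5) (nat_lit 32) (nat_lit 4) (nat_lit 341) (nat_lit 280) (nat_lit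 279))))))) (XT.nd (nat_lit 858) (nat_lit 456) (nat_lit 0) (XT.nd (nat_lit 390) (nat_lit 380) (nat_lit 0) (XT.nd (nat_lit 156) (nat_lit 304) (nat_lit 0) (XT.nd (nat_lit 78) (nat_lit 152) (nat_lit 0) (XT.lf (nat_lit 0) (nat_lit 4357470124) (nat_lit 152) (nat_lit 5168247051) (nat_lit 0) (nat_lit 3278892625) (nat_lit 28) (nat_lit 5) (nat_lit 30) (nat_lit 4) (nat_lit 28) (nat_lit 4) (nat_lit 342) (nat_lit 280) (nat_lit 278)) (XT.lf (nat_lit 0) (nat_lit 3249410959) (nat_lit 152) (nat_lit 5760645512) (nat_lit 152) (nat_lit 4180986714) (nat_lit 26) (nat_lit 4) (nat_lit 28) (nat_lit 5) (nat_lit 28) (nat_lit 4) (nat_lit 343) (nat_lit 280) (nat_lit 277))) (XT.nd (nat_lit 78) (nat_lit 228) (nat_lit 0) (XT.lf (nat_lit 0) (nat_lit 219966185) (nat_lit 228) (nat_lit 1605948402) (nat_lit 76) (nat_lit 11774187026) (nat_lit 25) (nat_lit 5) (nat_lit 28) (nat_lit 5) (nat_lit 26) (nat_lit 4) (nat_lit 344) (nat_lit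 280) (nat_lit 276)) (XT.nd (nat_lit 78) (nat_lit 152) (nat_lit 0) (XT.lf (nat_lit 0) (nat_lit 4697185086) (nat_lit 152) (nat_lit 7023849154) (nat_lit 0) (nat_lit 2305399759) (nat_lit 24) (nat_lit 5) (nat_lit 26) (nat_lit 4) (nat_lit 24) (nat_lit 4) (nat_lit 345) (nat_lit 280) (nat_lit 275)) (XT.lf (nat_lit 0) (nat_lit 1374978083) (nat_lit 152) (nat_lit 7953354056) (nat_lit 152) (nat_lit 5149327903) (nat_lit 22) (nat_lit 4) (nat_lit 24) (nat_lit 5) (nat_lit 24) (nat_lit 4) (nat_lit 346) (nat_lit 280) (nat_lit 274))))) (XT.nd (nat_lit 234) (nat_lit 228) (nat_lit 0) (XT.nd (nat_lit 78) (nat_lit 152) (nat_lit 0) (XT.lf (nat_lit 0) (nat_lit 10178617026) (nat_lit 152) (nat_lit 3985446036) (nat_lit 152) (nat_lit 788809573) (nat_lit 22) (nat_lit 4) (nat_lit 24) (nat_lit 5) (nat_lit 24) (nat_lit 4) (nat_lit 347) (nat_lit 280) (nat_lit 273)) (XT.nd (nat_lit 78) (nat_lit 0) (nat_lit 0) (XT.lf (nat_lit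 0) (nat_lit 3589189424) (nat_lit 152) (nat_lit 11675065350) (nat_lit 0) (nat_lit 188664620) (nat_lit 20) (nat_lit 5) (nat_lit 22) (nat_lit 4) (nat_lit 20) (nat_lit 4) (nat_lit 348) (nat_lit 280) (nat_lit 272)) (XT.lf (nat_lit 0) (nat_lit 8166936630) (nat_lit 152) (nat_lit 3382823290) (nat_lit 0) (nat_lit 4427260279) (nat_lit 20) (nat_lit 5) (nat_lit 22) (nat_lit 4) (nat_lit 20) (nat_lit 4) (nat_lit 349) (nat_lit 280) (nat_lit 271)))) (XT.nd (nat_lit 78) (nat_lit 152) (nat_lit 0) (XT.lf (nat_lit 0) (nat_lit 5251515886) (nat_lit 76) (nat_lit 7670562803) (nat_lit 76) (nat_lit 3607884978) (nat_lit 19) (nat_lit 4) (nat_lit 20) (nat_lit 5) (nat_lit 20) (nat_lit 4) (nat_lit 350) (nat_lit 280) (nat_lit 270)) (XT.nd (nat_lit 78) (nat_lit 76) (nat_lit 0) (XT.lf (nat_lit 0) (nat_lit 703880347) (nat_lit 152) (nat_lit 2927343564) (nat_lit 76) (nat_lit 13482499400) (nat_lit 18) (nat_lit 5) (nat_lit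 20) (nat_lit 5) (nat_lit 19) (nat_lit 4) (nat_lit 351) (nat_lit 280) (nat_lit 269)) (XT.lf (nat_lit 0) (nat_lit 5083205301) (nat_lit 152) (nat_lit 11999906124) (nat_lit 0) (nat_lit 641995650) (nat_lit 17) (nat_lit 5) (nat_lit 19) (nat_lit 4) (nat_lit 17) (nat_lit 4) (nat_lit 352) (nat_lit 280) (nat_lit 268)))))) (XT.nd (nat_lit 468) (nat_lit 228) (nat_lit 0) (XT.nd (nat_lit 234) (nat_lit 152) (nat_lit 0) (XT.nd (nat_lit 78) (nat_lit 76) (nat_lit 0) (XT.lf (nat_lit 0) (nat_lit 9665637838) (nat_lit 152) (nat_lit 3743572875) (nat_lit 0) (nat_lit 4958694074) (nat_lit 17) (nat_lit 5) (nat_lit 19) (nat_lit 4) (nat_lit 17) (nat_lit 4) (nat_lit 353) (nat_lit 280) (nat_lit 267)) (XT.nd (nat_lit 78) (nat_lit 0) (nat_lit 0) (XT.lf (nat_lit 0) (nat_lit 4861504967) (nat_lit 76) (nat_lit 9571802438) (nat_lit 76) (nat_lit 4611778568) (nat_lit 16) (nat_lit 4) (nat_lit 17) (nat_lit 5) (nat_lit 17) (nat_lit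 4) (nat_lit 354) (nat_lit 280) (nat_lit 266)) (XT.lf (nat_lit 0) (nat_lit 13810677586) (nat_lit 76) (nat_lit 5574625525) (nat_lit 76) (nat_lit 373572982) (nat_lit 16) (nat_lit 4) (nat_lit 17) (nat_lit 5) (nat_lit 17) (nat_lit 4) (nat_lit 355) (nat_lit 280) (nat_lit 265)))) (XT.nd (nat_lit 78) (nat_lit 0) (nat_lit 0) (XT.lf (nat_lit 0) (nat_lit 2505871244) (nat_lit 76) (nat_lit 1365579928) (nat_lit 152) (nat_lit 16637495717) (nat_lit 14) (nat_lit 5) (nat_lit 15) (nat_lit 5) (nat_lit 16) (nat_lit 4) (nat_lit 356) (nat_lit 280) (nat_lit 264)) (XT.nd (nat_lit 78) (nat_lit 0) (nat_lit 0) (XT.lf (nat_lit 0) (nat_lit 8353215937) (nat_lit 152) (nat_lit 9968184670) (nat_lit 0) (nat_lit 2973002822) (nat_lit 14) (nat_lit 5) (nat_lit 16) (nat_lit 4) (nat_lit 14) (nat_lit 4) (nat_lit 357) (nat_lit 280) (nat_lit 263)) (XT.lf (nat_lit 0) (nat_lit 12973814223) (nat_lit 152) (nat_lit 1754313762) (nat_lit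 0) (nat_lit 7395306222) (nat_lit 14) (nat_lit 5) (nat_lit 16) (nat_lit 4) (nat_lit 14) (nat_lit 4) (nat_lit 358) (nat_lit 280) (nat_lit 262))))) (XT.nd (nat_lit 234) (nat_lit 0) (nat_lit 0) (XT.nd (nat_lit 78) (nat_lit 152) (nat_lit 0) (XT.lf (nat_lit 0) (nat_lit 6900266051) (nat_lit 76) (nat_lit 10930393363) (nat_lit 76) (nat_lit 5163033090) (nat_lit 13) (nat_lit 4) (nat_lit 14) (nat_lit 5) (nat_lit 14) (nat_lit 4) (nat_lit 359) (nat_lit 280) (nat_lit 261)) (XT.nd (nat_lit 78) (nat_lit 152) (nat_lit 0) (XT.lf (nat_lit 0) (nat_lit 15860722424) (nat_lit 76) (nat_lit 6998769353) (nat_lit 76) (nat_lit 1051549773) (nat_lit 13) (nat_lit 4) (nat_lit 14) (nat_lit 5) (nat_lit 14) (nat_lit 4) (nat_lit 360) (nat_lit 280) (nat_lit 260)) (XT.lf (nat_lit 0) (nat_lit 167243705) (nat_lit 76) (nat_lit 2898979642) (nat_lit 152) (nat_lit 21810255718) (nat_lit 11) (nat_lit 5) (nat_lit 12) (nat_lit 5) (nat_lit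 13) (nat_lit 4) (nat_lit 361) (nat_lit 280) (nat_lit 259)))) (XT.nd (nat_lit 78) (nat_lit 0) (nat_lit 0) (XT.lf (nat_lit 0) (nat_lit 7418222028) (nat_lit 152) (nat_lit 17032254555) (nat_lit 0) (nat_lit 1435696455) (nat_lit 11) (nat_lit 5) (nat_lit 13) (nat_lit 4) (nat_lit 11) (nat_lit 4) (nat_lit 362) (nat_lit 280) (nat_lit 258)) (XT.nd (nat_lit 78) (nat_lit 0) (nat_lit 0) (XT.lf (nat_lit 0) (nat_lit 11943112834) (nat_lit 152) (nat_lit 9192886561) (nat_lit 0) (nat_lit 5812616565) (nat_lit 11) (nat_lit 5) (nat_lit 13) (nat_lit 4) (nat_lit 11) (nat_lit 4) (nat_lit 363) (nat_lit 280) (nat_lit 257)) (XT.lf (nat_lit 0) (nat_lit 16606408118) (nat_lit 152) (nat_lit 1127205019) (nat_lit 0) (nat_lit 10334987376) (nat_lit 11) (nat_lit 5) (nat_lit 13) (nat_lit 4) (nat_lit 11) (nat_lit 4) (nat_lit 364) (nat_lit 280) (nat_lit 256))))))))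
noncomputable def xc51 : XT := (XT.nd (nat_lit 1794) (nat_lit 152) (nat_lit 0) (XT.nd (nat_lit 858) (nat_lit 228) (nat_lit 0) (XT.nd (nat_lit 390) (nat_lit 76) (nat_lit 0) (XT.nd (nat_lit 156) (nat_lit 152) (nat_lit 0) (XT.nd (nat_lit 78) (nat_lit 0) (nat_lit 0) (XT.lf (nat_lit 0) (nat_lit 7421529360) (nat_lit 76) (nat_lit 14113552477) (nat_lit 76) (nat_lit 7707917952) (nat_lit 10) (nat_lit 4) (nat_lit 11) (nat_lit 5) (nat_lit 11) (nat_lit 4) (nat_lit 365) (nat_lit 280) (nat_lit 255)) (XT.lf (nat_lit 0) (nat_lit 16281612568) (nat_lit 76) (nat_lit 10365569463) (nat_lit 76) (nat_lit 3832112286) (nat_lit 10) (nat_lit 4) (nat_lit 11) (nat_lit 5) (nat_lit 11) (nat_lit 4) (nat_lit 366) (nat_lit 280) (nat_lit 254))) (XT.nd (nat_lit 78) (nat_lit 76) (nat_lit 0) (XT.lf (nat_lit 0) (nat_lit 150390360) (nat_lit 152) (nat_lit 6346892795) (nat_lit 76) (nat_lit 25283932257) (nat_lit 9) (nat_lit 5) (nat_lit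 11) (nat_lit 5) (nat_lit 10) (nat_lit 4) (nat_lit 367) (nat_lit 280) (nat_lit 253)) (XT.nd (nat_lit 78) (nat_lit 0) (nat_lit 0) (XT.lf (nat_lit 0) (nat_lit 1746187402) (nat_lit 76) (nat_lit 2408602524) (nat_lit 152) (nat_lit 28992745301) (nat_lit 8) (nat_lit 5) (nat_lit 9) (nat_lit 5) (nat_lit 10) (nat_lit 4) (nat_lit 368) (nat_lit 280) (nat_lit 252)) (XT.lf (nat_lit 0) (nat_lit 8422737032) (nat_lit 152) (nat_lit 24287408205) (nat_lit 0) (nat_lit 1868879927) (nat_lit 8) (nat_lit 5) (nat_lit 10) (nat_lit 4) (nat_lit 8) (nat_lit 4) (nat_lit 369) (nat_lit 280) (nat_lit 251))))) (XT.nd (nat_lit 234) (nat_lit 76) (nat_lit 0) (XT.nd (nat_lit 78) (nat_lit 0) (nat_lit 0) (XT.lf (nat_lit 0) (nat_lit 12871809876) (nat_lit 152) (nat_lit 16994112457) (nat_lit 0) (nat_lit 6217800379) (nat_lit 8) (nat_lit 5) (nat_lit 10) (nat_lit 4) (nat_lit 8) (nat_lit 4) (nat_lit 370) (nat_lit 280) (nat_lit 250))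 (XT.nd (nat_lit 78) (nat_lit 0) (nat_lit 0) (XT.lf (nat_lit 0) (nat_lit 17474996453) (nat_lit 152) (nat_lit 9466490555) (nat_lit 0) (nat_lit 10725603726) (nat_lit 8) (nat_lit 5) (nat_lit 10) (nat_lit 4) (nat_lit 8) (nat_lit 4) (nat_lit 371) (nat_lit 280) (nat_lit 249)) (XT.lf (nat_lit 0) (nat_lit 22243256732) (nat_lit 152) (nat_lit 1686619592) (nat_lit 0) (nat_lit 15403022833) (nat_lit 8) (nat_lit 5) (nat_lit 10) (nat_lit 4) (nat_lit 8) (nat_lit 4) (nat_lit 372) (nat_lit 280) (nat_lit 248)))) (XT.nd (nat_lit 78) (nat_lit 0) (nat_lit 0) (XT.lf (nat_lit 0) (nat_lit 6574447307) (nat_lit 76) (nat_lit 20716141953) (nat_lit 76) (nat_lit 13789392652) (nat_lit 7) (nat_lit 4) (nat_lit 8) (nat_lit 5) (nat_lit 8) (nat_lit 4) (nat_lit 373) (nat_lit 280) (nat_lit 247)) (XT.nd (nat_lit 78) (nat_lit 0) (nat_lit 0) (XT.lf (nat_lit 0) (nat_lit 15190808983) (nat_lit 76) (nat_lit 17367192578) (nat_lit 76)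 (nat_lit 10358047656) (nat_lit 7) (nat_lit 4) (nat_lit 8) (nat_lit 5) (nat_lit 8) (nat_lit 4) (nat_lit 374) (nat_lit 280) (nat_lit 246)) (XT.lf (nat_lit 0) (nat_lit 24127213319) (nat_lit 76) (nat_lit 13903618230) (nat_lit 76) (nat_lit 6816001289) (nat_lit 7) (nat_lit 4) (nat_lit 8) (nat_lit 5) (nat_lit 8) (nat_lit 4) (nat_lit 375) (nat_lit 280) (nat_lit 245)))))) (XT.nd (nat_lit 468) (nat_lit 76) (nat_lit 0) (XT.nd (nat_lit 234) (nat_lit 0) (nat_lit 0) (XT.nd (nat_lit 78) (nat_lit 152) (nat_lit 0) (XT.lf (nat_lit 0) (nat_lit 33404937470) (nat_lit 76) (nat_lit 10317172304) (nat_lit 76) (nat_lit 3154820105) (nat_lit 7) (nat_lit 4) (nat_lit 8) (nat_lit 5) (nat_lit 8) (nat_lit 4) (nat_lit 376) (nat_lit 280) (nat_lit 244)) (XT.nd (nat_lit 78) (nat_lit 76) (nat_lit 0) (XT.lf (nat_lit 0) (nat_lit 613914215) (nat_lit 152) (nat_lit 5975004492) (nat_lit 76) (nat_lit 42421760106) (nat_lit 6) (nat_lit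 5) (nat_lit 8) (nat_lit 5) (nat_lit 7) (nat_lit 4) (nat_lit 377) (nat_lit 280) (nat_lit 243)) (XT.lf (nat_lit 0) (nat_lit 1805514809) (nat_lit 76) (nat_lit 2636841543) (nat_lit 152) (nat_lit 46807320827) (nat_lit 5) (nat_lit 5) (nat_lit 6) (nat_lit 5) (nat_lit 7) (nat_lit 4) (nat_lit 378) (nat_lit 280) (nat_lit 242)))) (XT.nd (nat_lit 78) (nat_lit 0) (nat_lit 0) (XT.lf (nat_lit 0) (nat_lit 8538005094) (nat_lit 152) (nat_lit 43535956938) (nat_lit 0) (nat_lit 1522886199) (nat_lit 5) (nat_lit 5) (nat_lit 7) (nat_lit 4) (nat_lit 5) (nat_lit 4) (nat_lit 379) (nat_lit 280) (nat_lit 241)) (XT.nd (nat_lit 78) (nat_lit 0) (nat_lit 0) (XT.lf (nat_lit 0) (nat_lit 12833393081) (nat_lit 152) (nat_lit 37468531177) (nat_lit 0) (nat_lit 5759717156) (nat_lit 5) (nat_lit 5) (nat_lit 7) (nat_lit 4) (nat_lit 5) (nat_lit 4) (nat_lit 380) (nat_lit 280) (nat_lit 240)) (XT.lf (nat_lit 0) (nat_lit 17297578942)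 (nat_lit 152) (nat_lit 31186270350) (nat_lit 0) (nat_lit 10168134418) (nat_lit 5) (nat_lit 5) (nat_lit 7) (nat_lit 4) (nat_lit 5) (nat_lit 4) (nat_lit 381) (nat_lit 280) (nat_lit 239))))) (XT.nd (nat_lit 234) (nat_lit 76) (nat_lit 0) (XT.nd (nat_lit 78) (nat_lit 0) (nat_lit 0) (XT.lf (nat_lit 0) (nat_lit 21941191691) (nat_lit 152) (nat_lit 24674216692) (nat_lit 0) (nat_lit 14758634215) (nat_lit 5) (nat_lit 5) (nat_lit 7) (nat_lit 4) (nat_lit 5) (nat_lit 4) (nat_lit 382) (nat_lit 280) (nat_lit 238)) (XT.nd (nat_lit 78) (nat_lit 0) (nat_lit 0) (XT.lf (nat_lit 0) (nat_lit 26775287549) (nat_lit 152) (nat_lit 17916865315) (nat_lit 0) (nat_lit 19542146310) (nat_lit 5) (nat_lit 5) (nat_lit 7) (nat_lit 4) (nat_lit 5) (nat_lit 4) (nat_lit 383) (nat_lit 280) (nat_lit 237)) (XT.lf (nat_lit 0) (nat_lit 31811376268) (nat_lit 152) (nat_lit 10898127287) (nat_lit 0) (nat_lit 24530060016) (nat_lit 5) (nat_lit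 5) (nat_lit 7) (nat_lit 4) (nat_lit 5) (nat_lit 4) (nat_lit 384) (nat_lit 280) (nat_lit 236)))) (XT.nd (nat_lit 78) (nat_lit 76) (nat_lit 0) (XT.lf (nat_lit 0) (nat_lit 37061448536) (nat_lit 152) (nat_lit 3601291326) (nat_lit 0) (nat_lit 29734251319) (nat_lit 5) (nat_lit 5) (nat_lit 7) (nat_lit 4) (nat_lit 5) (nat_lit 4) (nat_lit 385) (nat_lit 280) (nat_lit 235)) (XT.nd (nat_lit 78) (nat_lit 0) (nat_lit 0) (XT.lf (nat_lit 0) (nat_lit 4122976999) (nat_lit 76) (nat_lit 38479398750) (nat_lit 76) (nat_lit 31108505377) (nat_lit 4) (nat_lit 4) (nat_lit 5) (nat_lit 5) (nat_lit 5) (nat_lit 4) (nat_lit 386) (nat_lit 280) (nat_lit 234)) (XT.lf (nat_lit 0) (nat_lit 12290235875) (nat_lit 76) (nat_lit 36155732801) (nat_lit 76) (nat_lit 28743224040) (nat_lit 4) (nat_lit 4) (nat_lit 5) (nat_lit 5) (nat_lit 5) (nat_lit 4) (nat_lit 387) (nat_lit 280) (nat_lit 233))))))) (XT.nd (nat_lit 858) (nat_lit 0)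 (nat_lit 0) (XT.nd (nat_lit 390) (nat_lit 152) (nat_lit 0) (XT.nd (nat_lit 156) (nat_lit 0) (nat_lit 0) (XT.nd (nat_lit 78) (nat_lit 0) (nat_lit 0) (XT.lf (nat_lit 0) (nat_lit 20800856201) (nat_lit 76) (nat_lit 33747199089) (nat_lit 76) (nat_lit 26295056625) (nat_lit 4) (nat_lit 4) (nat_lit 5) (nat_lit 5) (nat_lit 5) (nat_lit 4) (nat_lit 388) (nat_lit 280) (nat_lit 232)) (XT.lf (nat_lit 0) (nat_lit 29675101359) (nat_lit 76) (nat_lit 31248063008) (nat_lit 76) (nat_lit 23758174161) (nat_lit 4) (nat_lit 4) (nat_lit 5) (nat_lit 5) (nat_lit 5) (nat_lit 4) (nat_lit 389) (nat_lit 280) (nat_lit 231))) (XT.nd (nat_lit 78) (nat_lit 0) (nat_lit 0) (XT.lf (nat_lit 0) (nat_lit 38934100505) (nat_lit 76) (nat_lit 28652374235) (nat_lit 76) (nat_lit 21126536452) (nat_lit 4) (nat_lit 4) (nat_lit 5) (nat_lit 5) (nat_lit 5) (nat_lit 4) (nat_lit 390) (nat_lit 280) (nat_lit 230)) (XT.nd (nat_lit 78) (nat_lit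 0) (nat_lit 0) (XT.lf (nat_lit 0) (nat_lit 48599898873) (nat_lit 76) (nat_lit 25953952559) (nat_lit 76) (nat_lit 18393877694) (nat_lit 4) (nat_lit 4) (nat_lit 5) (nat_lit 5) (nat_lit 5) (nat_lit 4) (nat_lit 391) (nat_lit 280) (nat_lit 229)) (XT.lf (nat_lit 0) (nat_lit 58695510270) (nat_lit 76) (nat_lit 23146373166) (nat_lit 76) (nat_lit 15553691556) (nat_lit 4) (nat_lit 4) (nat_lit 5) (nat_lit 5) (nat_lit 5) (nat_lit 4) (nat_lit 392) (nat_lit 280) (nat_lit 228))))) (XT.nd (nat_lit 234) (nat_lit 152) (nat_lit 0) (XT.nd (nat_lit 78) (nat_lit 0) (nat_lit 0) (XT.lf (nat_lit 0) (nat_lit 69244971866) (nat_lit 76) (nat_lit 20222951343) (nat_lit 76) (nat_lit 12599215690) (nat_lit 4) (nat_lit 4) (nat_lit 5) (nat_lit 5) (nat_lit 5) (nat_lit 4) (nat_lit 393) (nat_lit 280) (nat_lit 227)) (XT.nd (nat_lit 78) (nat_lit 0) (nat_lit 0) (XT.lf (nat_lit 0) (nat_lit 80273401427) (nat_lit 76) (nat_lit 17176726562)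 (nat_lit 76) (nat_lit 9523415630) (nat_lit 4) (nat_lit 4) (nat_lit 5) (nat_lit 5) (nat_lit 5) (nat_lit 4) (nat_lit 394) (nat_lit 280) (nat_lit 226)) (XT.lf (nat_lit 0) (nat_lit 91807057117) (nat_lit 76) (nat_lit 14000445907) (nat_lit 76) (nat_lit 6318968043) (nat_lit 4) (nat_lit 4) (nat_lit 5) (nat_lit 5) (nat_lit 5) (nat_lit 4) (nat_lit 395) (nat_lit 280) (nat_lit 225)))) (XT.nd (nat_lit 78) (nat_lit 152) (nat_lit 0) (XT.lf (nat_lit 0) (nat_lit 103873400022) (nat_lit 76) (nat_lit 10686546806) (nat_lit 76) (nat_lit 2978243291) (nat_lit 4) (nat_lit 4) (nat_lit 5) (nat_lit 5) (nat_lit 5) (nat_lit 4) (nat_lit 396) (nat_lit 280) (nat_lit 224)) (XT.nd (nat_lit 78) (nat_lit 76) (nat_lit 0) (XT.lf (nat_lit 0) (nat_lit 490494759) (nat_lit 152) (nat_lit 6728337495) (nat_lit 76) (nat_lit 116002358005) (nat_lit 3) (nat_lit 5) (nat_lit 5) (nat_lit 5) (nat_lit 4) (nat_lit 4) (nat_lit 397) (nat_lit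 280) (nat_lit 223)) (XT.lf (nat_lit 0) (nat_lit 480900967) (nat_lit 76) (nat_lit 3538164581) (nat_lit 152) (nat_lit 125167513979) (nat_lit 2) (nat_lit 5) (nat_lit 3) (nat_lit 5) (nat_lit 4) (nat_lit 4) (nat_lit 398) (nat_lit 280) (nat_lit 222)))))) (XT.nd (nat_lit 468) (nat_lit 0) (nat_lit 0) (XT.nd (nat_lit 234) (nat_lit 0) (nat_lit 0) (XT.nd (nat_lit 78) (nat_lit 0) (nat_lit 0) (XT.lf (nat_lit 0) (nat_lit 7824030823) (nat_lit 152) (nat_lit 127207998248) (nat_lit 0) (nat_lit 413215192) (nat_lit 2) (nat_lit 5) (nat_lit 4) (nat_lit 4) (nat_lit 2) (nat_lit 4) (nat_lit 399) (nat_lit 280) (nat_lit 221)) (XT.nd (nat_lit 78) (nat_lit 0) (nat_lit 0) (XT.lf (nat_lit 0) (nat_lit 11857296727) (nat_lit 152) (nat_lit 125732184494) (nat_lit 0) (nat_lit 4425462498) (nat_lit 2) (nat_lit 5) (nat_lit 4) (nat_lit 4) (nat_lit 2) (nat_lit 4) (nat_lit 400) (nat_lit 280) (nat_lit 220)) (XT.lf (nat_lit 0) (nat_lit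 16073225609) (nat_lit 152) (nat_lit 124219482790) (nat_lit 0) (nat_lit 8621373667) (nat_lit 2) (nat_lit 5) (nat_lit 4) (nat_lit 4) (nat_lit 2) (nat_lit 4) (nat_lit 401) (nat_lit 280) (nat_lit 219)))) (XT.nd (nat_lit 78) (nat_lit 0) (nat_lit 0) (XT.lf (nat_lit 0) (nat_lit 20481855396) (nat_lit 152) (nat_lit 122666291466) (nat_lit 0) (nat_lit 13010938965) (nat_lit 2) (nat_lit 5) (nat_lit 4) (nat_lit 4) (nat_lit 2) (nat_lit 4) (nat_lit 402) (nat_lit 280) (nat_lit 218)) (XT.nd (nat_lit 78) (nat_lit 0) (nat_lit 0) (XT.lf (nat_lit 0) (nat_lit 25093682825) (nat_lit 152) (nat_lit 121068912446) (nat_lit 0) (nat_lit 17604609738) (nat_lit 2) (nat_lit 5) (nat_lit 4) (nat_lit 4) (nat_lit 2) (nat_lit 4) (nat_lit 403) (nat_lit 280) (nat_lit 217)) (XT.lf (nat_lit 0) (nat_lit 29919688437) (nat_lit 152) (nat_lit 119423542448) (nat_lit 0) (nat_lit 22413323297) (nat_lit 2) (nat_lit 5) (nat_lit 4) (nat_lit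 4) (nat_lit 2) (nat_lit 4) (nat_lit 404) (nat_lit 280) (nat_lit 216))))) (XT.nd (nat_lit 234) (nat_lit 0) (nat_lit 0) (XT.nd (nat_lit 78) (nat_lit 0) (nat_lit 0) (XT.lf (nat_lit 0) (nat_lit 34971362721) (nat_lit 152) (nat_lit 117726263924) (nat_lit 0) (nat_lit 27448528960) (nat_lit 2) (nat_lit 5) (nat_lit 4) (nat_lit 4) (nat_lit 2) (nat_lit 4) (nat_lit 405) (nat_lit 280) (nat_lit 215)) (XT.nd (nat_lit 78) (nat_lit 0) (nat_lit 0) (XT.lf (nat_lit 0) (nat_lit 40260733475) (nat_lit 152) (nat_lit 115973035735) (nat_lit 0) (nat_lit 32722215312) (nat_lit 2) (nat_lit 5) (nat_lit 4) (nat_lit 4) (nat_lit 2) (nat_lit 4) (nat_lit 406) (nat_lit 280) (nat_lit 214)) (XT.lf (nat_lit 0) (nat_lit 45800394438) (nat_lit 152) (nat_lit 114159683527) (nat_lit 0) (nat_lit 38246938749) (nat_lit 2) (nat_lit 5) (nat_lit 4) (nat_lit 4) (nat_lit 2) (nat_lit 4) (nat_lit 407) (nat_lit 280) (nat_lit 213)))) (XT.nd (nat_lit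 78) (nat_lit 0) (nat_lit 0) (XT.lf (nat_lit 0) (nat_lit 51603535278) (nat_lit 152) (nat_lit 112281889796) (nat_lit 0) (nat_lit 44035853374) (nat_lit 2) (nat_lit 5) (nat_lit 4) (nat_lit 4) (nat_lit 2) (nat_lit 4) (nat_lit 408) (nat_lit 280) (nat_lit 212)) (XT.nd (nat_lit 78) (nat_lit 0) (nat_lit 0) (XT.lf (nat_lit 0) (nat_lit 57683972998) (nat_lit 152) (nat_lit 110335183604) (nat_lit 0) (nat_lit 50102742318) (nat_lit 2) (nat_lit 5) (nat_lit 4) (nat_lit 4) (nat_lit 2) (nat_lit 4) (nat_lit 409) (nat_lit 280) (nat_lit 211)) (XT.lf (nat_lit 0) (nat_lit 64056184830) (nat_lit 152) (nat_lit 108314929936) (nat_lit 0) (nat_lit 56462050554) (nat_lit 2) (nat_lit 5) (nat_lit 4) (nat_lit 4) (nat_lit 2) (nat_lit 4) (nat_lit 410) (nat_lit 280) (nat_lit 210))))))))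
noncomputable def xc52 : XT := (XT.nd (nat_lit 1716) (nat_lit 0) (nat_lit 0) (XT.nd (nat_lit 858) (nat_lit 0) (nat_lit 0) (XT.nd (nat_lit 390) (nat_lit 0) (nat_lit 0) (XT.nd (nat_lit 156) (nat_lit 0) (nat_lit 0) (XT.nd (nat_lit 78) (nat_lit 0) (nat_lit 0) (XT.lf (nat_lit 0) (nat_lit 70735342708) (nat_lit 152) (nat_lit 106216318665) (nat_lit 0) (nat_lit 63128919292) (nat_lit 2) (nat_lit 5) (nat_lit 4) (nat_lit 4) (nat_lit 2) (nat_lit 4) (nat_lit 411) (nat_lit 280) (nat_lit 209)) (XT.lf (nat_lit 0) (nat_lit 77737349387) (nat_lit 152) (nat_lit 104034353097) (nat_lit 0) (nat_lit 70119222030) (nat_lit 2) (nat_lit 5) (nat_lit 4) (nat_lit 4) (nat_lit 2) (nat_lit 4) (nat_lit 412) (nat_lit 280) (nat_lit 208))) (XT.nd (nat_lit 78) (nat_lit 0) (nat_lit 0) (XT.lf (nat_lit 0) (nat_lit 85078876314) (nat_lit 152) (nat_lit 101763838076) (nat_lit 0) (nat_lit 77449602344) (nat_lit 2) (nat_lit 5) (nat_lit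 4) (nat_lit 4) (nat_lit 2) (nat_lit 4) (nat_lit 413) (nat_lit 280) (nat_lit 207)) (XT.nd (nat_lit 78) (nat_lit 0) (nat_lit 0) (XT.lf (nat_lit 0) (nat_lit 92777403313) (nat_lit 152) (nat_lit 99399367613) (nat_lit 0) (nat_lit 85137513523) (nat_lit 2) (nat_lit 5) (nat_lit 4) (nat_lit 4) (nat_lit 2) (nat_lit 4) (nat_lit 414) (nat_lit 280) (nat_lit 206)) (XT.lf (nat_lit 0) (nat_lit 100851260211) (nat_lit 152) (nat_lit 96935312018) (nat_lit 0) (nat_lit 93201260116) (nat_lit 2) (nat_lit 5) (nat_lit 4) (nat_lit 4) (nat_lit 2) (nat_lit 4) (nat_lit 415) (nat_lit 280) (nat_lit 205))))) (XT.nd (nat_lit 234) (nat_lit 0) (nat_lit 0) (XT.nd (nat_lit 78) (nat_lit 0) (nat_lit 0) (XT.lf (nat_lit 0) (nat_lit 109319670476) (nat_lit 152) (nat_lit 94365804491) (nat_lit 0) (nat_lit 101660041519) (nat_lit 2) (nat_lit 5) (nat_lit 4) (nat_lit 4) (nat_lit 2) (nat_lit 4) (nat_lit 416) (nat_lit 280) (nat_lit 204))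 (XT.nd (nat_lit 78) (nat_lit 0) (nat_lit 0) (XT.lf (nat_lit 0) (nat_lit 118202796991) (nat_lit 152) (nat_lit 91684727157) (nat_lit 0) (nat_lit 110533997689) (nat_lit 2) (nat_lit 5) (nat_lit 4) (nat_lit 4) (nat_lit 2) (nat_lit 4) (nat_lit 417) (nat_lit 280) (nat_lit 203)) (XT.lf (nat_lit 0) (nat_lit 127521790056) (nat_lit 152) (nat_lit 88885696499) (nat_lit 0) (nat_lit 119844257092) (nat_lit 2) (nat_lit 5) (nat_lit 4) (nat_lit 4) (nat_lit 2) (nat_lit 4) (nat_lit 418) (nat_lit 280) (nat_lit 202)))) (XT.nd (nat_lit 78) (nat_lit 0) (nat_lit 0) (XT.lf (nat_lit 0) (nat_lit 137298837750) (nat_lit 152) (nat_lit 85962048157) (nat_lit 0) (nat_lit 129612987013) (nat_lit 2) (nat_lit 5) (nat_lit 4) (nat_lit 4) (nat_lit 2) (nat_lit 4) (nat_lit 419) (nat_lit 280) (nat_lit 201)) (XT.nd (nat_lit 78) (nat_lit 0) (nat_lit 0) (XT.lf (nat_lit 0) (nat_lit 147557218759) (nat_lit 152) (nat_lit 82906821065) (nat_lit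 0) (nat_lit 139863446333) (nat_lit 2) (nat_lit 5) (nat_lit 4) (nat_lit 4) (nat_lit 2) (nat_lit 4) (nat_lit 420) (nat_lit 280) (nat_lit 200)) (XT.lf (nat_lit 0) (nat_lit 158321357798) (nat_lit 152) (nat_lit 79712740872) (nat_lit 0) (nat_lit 150620040907) (nat_lit 2) (nat_lit 5) (nat_lit 4) (nat_lit 4) (nat_lit 2) (nat_lit 4) (nat_lit 421) (nat_lit 280) (nat_lit 199)))))) (XT.nd (nat_lit 390) (nat_lit 0) (nat_lit 0) (XT.nd (nat_lit 156) (nat_lit 0) (nat_lit 0) (XT.nd (nat_lit 78) (nat_lit 0) (nat_lit 0) (XT.lf (nat_lit 0) (nat_lit 169616883771) (nat_lit 152) (nat_lit 76372202626) (nat_lit 0) (nat_lit 161908381674) (nat_lit 2) (nat_lit 5) (nat_lit 4) (nat_lit 4) (nat_lit 2) (nat_lit 4) (nat_lit 422) (nat_lit 280) (nat_lit 198)) (XT.lf (nat_lit 0) (nat_lit 181470690787) (nat_lit 152) (nat_lit 72877252663) (nat_lit 0) (nat_lit 173755345637) (nat_lit 2) (nat_lit 5) (nat_lit 4) (nat_lit 4) (nat_lit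 2) (nat_lit 4) (nat_lit 423) (nat_lit 280) (nat_lit 197))) (XT.nd (nat_lit 78) (nat_lit 0) (nat_lit 0) (XT.lf (nat_lit 0) (nat_lit 193911002195) (nat_lit 152) (nat_lit 69219569675) (nat_lit 0) (nat_lit 186189139853) (nat_lit 2) (nat_lit 5) (nat_lit 4) (nat_lit 4) (nat_lit 2) (nat_lit 4) (nat_lit 424) (nat_lit 280) (nat_lit 196)) (XT.nd (nat_lit 78) (nat_lit 0) (nat_lit 0) (XT.lf (nat_lit 0) (nat_lit 206967437785) (nat_lit 152) (nat_lit 65390444893) (nat_lit 0) (nat_lit 199239368592) (nat_lit 2) (nat_lit 5) (nat_lit 4) (nat_lit 4) (nat_lit 2) (nat_lit 4) (nat_lit 425) (nat_lit 280) (nat_lit 195)) (XT.lf (nat_lit 0) (nat_lit 220671084309) (nat_lit 152) (nat_lit 61380761352) (nat_lit 0) (nat_lit 212937103830) (nat_lit 2) (nat_lit 5) (nat_lit 4) (nat_lit 4) (nat_lit 2) (nat_lit 4) (nat_lit 426) (nat_lit 280) (nat_lit 194))))) (XT.nd (nat_lit 234) (nat_lit 0) (nat_lit 0) (XT.nd (nat_lit 78)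 (nat_lit 0) (nat_lit 0) (XT.lf (nat_lit 0) (nat_lit 235054569495) (nat_lit 152) (nat_lit 57180972187) (nat_lit 0) (nat_lit 227314959220) (nat_lit 2) (nat_lit 5) (nat_lit 4) (nat_lit 4) (nat_lit 2) (nat_lit 4) (nat_lit 427) (nat_lit 280) (nat_lit 193)) (XT.nd (nat_lit 78) (nat_lit 0) (nat_lit 0) (XT.lf (nat_lit 0) (nat_lit 250152139738) (nat_lit 152) (nat_lit 52781077900) (nat_lit 0) (nat_lit 242407167753) (nat_lit 2) (nat_lit 5) (nat_lit 4) (nat_lit 4) (nat_lit 2) (nat_lit 4) (nat_lit 428) (nat_lit 280) (nat_lit 192)) (XT.lf (nat_lit 0) (nat_lit 265999741634) (nat_lit 152) (nat_lit 48170602553) (nat_lit 0) (nat_lit 258249663257) (nat_lit 2) (nat_lit 5) (nat_lit 4) (nat_lit 4) (nat_lit 2) (nat_lit 4) (nat_lit 429) (nat_lit 280) (nat_lit 191)))) (XT.nd (nat_lit 78) (nat_lit 0) (nat_lit 0) (XT.lf (nat_lit 0) (nat_lit 282635107567) (nat_lit 152) (nat_lit 43338568822) (nat_lit 0) (nat_lit 274880165960)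 (nat_lit 2) (nat_lit 5) (nat_lit 4) (nat_lit 4) (nat_lit 2) (nat_lit 4) (nat_lit 430) (nat_lit 280) (nat_lit 190)) (XT.nd (nat_lit 78) (nat_lit 0) (nat_lit 0) (XT.lf (nat_lit 0) (nat_lit 300097845551) (nat_lit 152) (nat_lit 38273471867) (nat_lit 0) (nat_lit 292338272297) (nat_lit 2) (nat_lit 5) (nat_lit 4) (nat_lit 4) (nat_lit 2) (nat_lit 4) (nat_lit 431) (nat_lit 280) (nat_lit 189)) (XT.lf (nat_lit 0) (nat_lit 318429533536) (nat_lit 152) (nat_lit 32963251931) (nat_lit 0) (nat_lit 310665549189) (nat_lit 2) (nat_lit 5) (nat_lit 4) (nat_lit 4) (nat_lit 2) (nat_lit 4) (nat_lit 432) (nat_lit 280) (nat_lit 188))))))) (XT.nd (nat_lit 40092) (nat_lit 0) (nat_lit 912) (XT.nd (nat_lit 39624) (nat_lit 0) (nat_lit 1672) (XT.nd (nat_lit 156) (nat_lit 0) (nat_lit 0) (XT.nd (nat_lit 78) (nat_lit 0) (nat_lit 0) (XT.lf (nat_lit 0) (nat_lit 337673818395) (nat_lit 152) (nat_lit 27395265635) (nat_lit 0)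 (nat_lit 329905633008) (nat_lit 2) (nat_lit 5) (nat_lit 4) (nat_lit 4) (nat_lit 2) (nat_lit 4) (nat_lit 433) (nat_lit 280) (nat_lit 187)) (XT.lf (nat_lit 0) (nat_lit 357876519857) (nat_lit 152) (nat_lit 21556255868) (nat_lit 0) (nat_lit 350104333478) (nat_lit 2) (nat_lit 5) (nat_lit 4) (nat_lit 4) (nat_lit 2) (nat_lit 4) (nat_lit 434) (nat_lit 280) (nat_lit 186))) (XT.nd (nat_lit 39312) (nat_lit 0) (nat_lit 2280) (XT.lf (nat_lit 0) (nat_lit 379085739589) (nat_lit 152) (nat_lit 15432320226) (nat_lit 0) (nat_lit 371309742743) (nat_lit 2) (nat_lit 5) (nat_lit 4) (nat_lit 4) (nat_lit 2) (nat_lit 4) (nat_lit 435) (nat_lit 280) (nat_lit 185)) (XT.nd (nat_lit 78) (nat_lit 228) (nat_lit 0) (XT.lf (nat_lit 0) (nat_lit 4808152241) (nat_lit 152) (nat_lit 456815354) (nat_lit 152) (nat_lit 456815354) (nat_lit 35) (nat_lit 4) (nat_lit 37) (nat_lit 5) (nat_lit 37) (nat_lit 4) (nat_lit 338) (nat_lit 281)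 (nat_lit 281)) (XT.lf (nat_lit 0) (nat_lit 3503725130) (nat_lit 228) (nat_lit 5360924957) (nat_lit 0) (nat_lit 2894657678) (nat_lit 32) (nat_lit 5) (nat_lit 35) (nat_lit 4) (nat_lit 32) (nat_lit 4) (nat_lit 339) (nat_lit 281) (nat_lit 280))))) (XT.nd (nat_lit 234) (nat_lit 304) (nat_lit 0) (XT.nd (nat_lit 78) (nat_lit 152) (nat_lit 0) (XT.lf (nat_lit 0) (nat_lit 2797467187) (nat_lit 152) (nat_lit 5242709444) (nat_lit 152) (nat_lit 4053577752) (nat_lit 30) (nat_lit 4) (nat_lit 32) (nat_lit 5) (nat_lit 32) (nat_lit 4) (nat_lit 340) (nat_lit 281) (nat_lit 279)) (XT.nd (nat_lit 78) (nat_lit 76) (nat_lit 0) (XT.lf (nat_lit 0) (nat_lit 278977836) (nat_lit 228) (nat_lit 1169669259) (nat_lit 76) (nat_lit 10999502692) (nat_lit 29) (nat_lit 5) (nat_lit 32) (nat_lit 5) (nat_lit 30) (nat_lit 4) (nat_lit 341) (nat_lit 281) (nat_lit 278)) (XT.lf (nat_lit 0) (nat_lit 4693597637) (nat_lit 152) (nat_lit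 5589484685) (nat_lit 0) (nat_lit 2533874599) (nat_lit 28) (nat_lit 5) (nat_lit 30) (nat_lit 4) (nat_lit 28) (nat_lit 4) (nat_lit 342) (nat_lit 281) (nat_lit 277)))) (XT.nd (nat_lit 78) (nat_lit 152) (nat_lit 0) (XT.lf (nat_lit 0) (nat_lit 2682780286) (nat_lit 152) (nat_lit 6580862893) (nat_lit 152) (nat_lit 3943919569) (nat_lit 26) (nat_lit 4) (nat_lit 28) (nat_lit 5) (nat_lit 28) (nat_lit 4) (nat_lit 343) (nat_lit 281) (nat_lit 276)) (XT.nd (nat_lit 78) (nat_lit 76) (nat_lit 0) (XT.lf (nat_lit 0) (nat_lit 376081561) (nat_lit 228) (nat_lit 2320471632) (nat_lit 76) (nat_lit 10923592306) (nat_lit 25) (nat_lit 5) (nat_lit 28) (nat_lit 5) (nat_lit 26) (nat_lit 4) (nat_lit 344) (nat_lit 281) (nat_lit 275)) (XT.lf (nat_lit 0) (nat_lit 4755322417) (nat_lit 152) (nat_lit 7897239459) (nat_lit 0) (nat_lit 1398854131) (nat_lit 24) (nat_lit 5) (nat_lit 26) (nat_lit 4) (nat_lit 24) (nat_lit 4) (nat_lit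 345) (nat_lit 281) (nat_lit 274)))))) (XT.nd (nat_lit 468) (nat_lit 304) (nat_lit 0) (XT.nd (nat_lit 234) (nat_lit 152) (nat_lit 0) (XT.nd (nat_lit 78) (nat_lit 152) (nat_lit 0) (XT.lf (nat_lit 0) (nat_lit 346376946) (nat_lit 152) (nat_lit 8954822283) (nat_lit 152) (nat_lit 5205743686) (nat_lit 22) (nat_lit 4) (nat_lit 24) (nat_lit 5) (nat_lit 24) (nat_lit 4) (nat_lit 346) (nat_lit 281) (nat_lit 273)) (XT.nd (nat_lit 78) (nat_lit 152) (nat_lit 0) (XT.lf (nat_lit 0) (nat_lit 9029699122) (nat_lit 152) (nat_lit 5039437408) (nat_lit 152) (nat_lit 916444231) (nat_lit 22) (nat_lit 4) (nat_lit 24) (nat_lit 5) (nat_lit 24) (nat_lit 4) (nat_lit 347) (nat_lit 281) (nat_lit 272)) (XT.lf (nat_lit 0) (nat_lit 2441759682) (nat_lit 76) (nat_lit 934270554) (nat_lit 152) (nat_lit 12114209670) (nat_lit 20) (nat_lit 5) (nat_lit 21) (nat_lit 5) (nat_lit 22) (nat_lit 4) (nat_lit 348) (nat_lit 281) (nat_lit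 271)))) (XT.nd (nat_lit 78) (nat_lit 152) (nat_lit 0) (XT.lf (nat_lit 0) (nat_lit 7874077012) (nat_lit 152) (nat_lit 4859015627) (nat_lit 0) (nat_lit 3285263822) (nat_lit 20) (nat_lit 5) (nat_lit 22) (nat_lit 4) (nat_lit 20) (nat_lit 4) (nat_lit 349) (nat_lit 281) (nat_lit 270)) (XT.nd (nat_lit 78) (nat_lit 76) (nat_lit 0) (XT.lf (nat_lit 0) (nat_lit 3611042888) (nat_lit 76) (nat_lit 8930550613) (nat_lit 76) (nat_lit 4034116972) (nat_lit 19) (nat_lit 4) (nat_lit 20) (nat_lit 5) (nat_lit 20) (nat_lit 4) (nat_lit 350) (nat_lit 281) (nat_lit 269)) (XT.lf (nat_lit 0) (nat_lit 229489953) (nat_lit 152) (nat_lit 4718951093) (nat_lit 76) (nat_lit 12214478374) (nat_lit 18) (nat_lit 5) (nat_lit 20) (nat_lit 5) (nat_lit 19) (nat_lit 4) (nat_lit 351) (nat_lit 281) (nat_lit 268))))) (XT.nd (nat_lit 234) (nat_lit 152) (nat_lit 0) (XT.nd (nat_lit 78) (nat_lit 76) (nat_lit 0) (XT.lf (nat_lit 0) (nat_lit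 3774992027) (nat_lit 76) (nat_lit 733992530) (nat_lit 152) (nat_lit 13270335426) (nat_lit 17) (nat_lit 5) (nat_lit 18) (nat_lit 5) (nat_lit 19) (nat_lit 4) (nat_lit 352) (nat_lit 281) (nat_lit 267)) (XT.nd (nat_lit 78) (nat_lit 76) (nat_lit 0) (XT.lf (nat_lit 0) (nat_lit 9021525066) (nat_lit 152) (nat_lit 5843691412) (nat_lit 0) (nat_lit 3560419896) (nat_lit 17) (nat_lit 5) (nat_lit 19) (nat_lit 4) (nat_lit 17) (nat_lit 4) (nat_lit 353) (nat_lit 281) (nat_lit 266)) (XT.lf (nat_lit 0) (nat_lit 2586518971) (nat_lit 76) (nat_lit 11111506900) (nat_lit 76) (nat_lit 5409373058) (nat_lit 16) (nat_lit 4) (nat_lit 17) (nat_lit 5) (nat_lit 17) (nat_lit 4) (nat_lit 354) (nat_lit 281) (nat_lit 265)))) (XT.nd (nat_lit 78) (nat_lit 152) (nat_lit 0) (XT.lf (nat_lit 0) (nat_lit 11435283919) (nat_lit 76) (nat_lit 7160170153) (nat_lit 76) (nat_lit 1228485193) (nat_lit 16) (nat_lit 4) (nat_lit 17) (nat_lit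 5) (nat_lit 17) (nat_lit 4) (nat_lit 355) (nat_lit 281) (nat_lit 264)) (XT.nd (nat_lit 78) (nat_lit 76) (nat_lit 0) (XT.lf (nat_lit 0) (nat_lit 2951936680) (nat_lit 152) (nat_lit 98834876) (nat_lit 76) (nat_lit 17528523931) (nat_lit 15) (nat_lit 5) (nat_lit 17) (nat_lit 5) (nat_lit 16) (nat_lit 4) (nat_lit 356) (nat_lit 281) (nat_lit 263)) (XT.lf (nat_lit 0) (nat_lit 7353262698) (nat_lit 152) (nat_lit 12717995721) (nat_lit 0) (nat_lit 1297534411) (nat_lit 14) (nat_lit 5) (nat_lit 16) (nat_lit 4) (nat_lit 14) (nat_lit 4) (nat_lit 357) (nat_lit 281) (nat_lit 262))))))))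
noncomputable def xc53 : XT := (XT.nd (nat_lit 1794) (nat_lit 228) (nat_lit 0) (XT.nd (nat_lit 858) (nat_lit 304) (nat_lit 0) (XT.nd (nat_lit 390) (nat_lit 152) (nat_lit 0) (XT.nd (nat_lit 156) (nat_lit 152) (nat_lit 0) (XT.nd (nat_lit 78) (nat_lit 76) (nat_lit 0) (XT.lf (nat_lit 0) (nat_lit 11923853423) (nat_lit 152) (nat_lit 4597215664) (nat_lit 0) (nat_lit 5679272864) (nat_lit 14) (nat_lit 5) (nat_lit 16) (nat_lit 4) (nat_lit 14) (nat_lit 4) (nat_lit 358) (nat_lit 281) (nat_lit 261)) (XT.lf (nat_lit 0) (nat_lit 3871775585) (nat_lit 76) (nat_lit 12814013558) (nat_lit 76) (nat_lit 6389573692) (nat_lit 13) (nat_lit 4) (nat_lit 14) (nat_lit 5) (nat_lit 14) (nat_lit 4) (nat_lit 359) (nat_lit 281) (nat_lit 260))) (XT.nd (nat_lit 78) (nat_lit 152) (nat_lit 0) (XT.lf (nat_lit 0) (nat_lit 12745003971) (nat_lit 76) (nat_lit 8922897330) (nat_lit 76) (nat_lit 2327162887) (nat_lit 13) (nat_lit 4)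 (nat_lit 14) (nat_lit 5) (nat_lit 14) (nat_lit 4) (nat_lit 360) (nat_lit 281) (nat_lit 259)) (XT.nd (nat_lit 78) (nat_lit 76) (nat_lit 0) (XT.lf (nat_lit 0) (nat_lit 1783586787) (nat_lit 152) (nat_lit 3102519223) (nat_lit 76) (nat_lit 20077798822) (nat_lit 12) (nat_lit 5) (nat_lit 14) (nat_lit 5) (nat_lit 13) (nat_lit 4) (nat_lit 361) (nat_lit 281) (nat_lit 258)) (XT.lf (nat_lit 0) (nat_lit 5422665854) (nat_lit 76) (nat_lit 595337668) (nat_lit 152) (nat_lit 19961488456) (nat_lit 11) (nat_lit 5) (nat_lit 12) (nat_lit 5) (nat_lit 13) (nat_lit 4) (nat_lit 362) (nat_lit 281) (nat_lit 257))))) (XT.nd (nat_lit 234) (nat_lit 76) (nat_lit 0) (XT.nd (nat_lit 78) (nat_lit 76) (nat_lit 0) (XT.lf (nat_lit 0) (nat_lit 10490750629) (nat_lit 152) (nat_lit 12788970486) (nat_lit 0) (nat_lit 3764834377) (nat_lit 11) (nat_lit 5) (nat_lit 13) (nat_lit 4) (nat_lit 11) (nat_lit 4) (nat_lit 363) (nat_lit 281)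 (nat_lit 256)) (XT.nd (nat_lit 78) (nat_lit 76) (nat_lit 0) (XT.lf (nat_lit 0) (nat_lit 15113237523) (nat_lit 152) (nat_lit 4800248226) (nat_lit 0) (nat_lit 8253107487) (nat_lit 11) (nat_lit 5) (nat_lit 13) (nat_lit 4) (nat_lit 11) (nat_lit 4) (nat_lit 364) (nat_lit 281) (nat_lit 255)) (XT.lf (nat_lit 0) (nat_lit 3551320755) (nat_lit 76) (nat_lit 16391300550) (nat_lit 76) (nat_lit 9403347862) (nat_lit 10) (nat_lit 4) (nat_lit 11) (nat_lit 5) (nat_lit 11) (nat_lit 4) (nat_lit 365) (nat_lit 281) (nat_lit 254)))) (XT.nd (nat_lit 78) (nat_lit 76) (nat_lit 0) (XT.lf (nat_lit 0) (nat_lit 12339291580) (nat_lit 76) (nat_lit 12677289629) (nat_lit 76) (nat_lit 5567601083) (nat_lit 10) (nat_lit 4) (nat_lit 11) (nat_lit 5) (nat_lit 11) (nat_lit 4) (nat_lit 366) (nat_lit 281) (nat_lit 253)) (XT.nd (nat_lit 78) (nat_lit 76) (nat_lit 0) (XT.lf (nat_lit 0) (nat_lit 21425870104) (nat_lit 76) (nat_lit 8843904630)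 (nat_lit 76) (nat_lit 1618277171) (nat_lit 10) (nat_lit 4) (nat_lit 11) (nat_lit 5) (nat_lit 11) (nat_lit 4) (nat_lit 367) (nat_lit 281) (nat_lit 252)) (XT.lf (nat_lit 0) (nat_lit 2375482834) (nat_lit 152) (nat_lit 2466305659) (nat_lit 76) (nat_lit 28416978250) (nat_lit 9) (nat_lit 5) (nat_lit 11) (nat_lit 5) (nat_lit 10) (nat_lit 4) (nat_lit 368) (nat_lit 281) (nat_lit 251)))))) (XT.nd (nat_lit 468) (nat_lit 152) (nat_lit 0) (XT.nd (nat_lit 234) (nat_lit 76) (nat_lit 0) (XT.nd (nat_lit 78) (nat_lit 0) (nat_lit 0) (XT.lf (nat_lit 0) (nat_lit 5963719972) (nat_lit 76) (nat_lit 575268054) (nat_lit 152) (nat_lit 28156500278) (nat_lit 8) (nat_lit 5) (nat_lit 9) (nat_lit 5) (nat_lit 10) (nat_lit 4) (nat_lit 369) (nat_lit 281) (nat_lit 250)) (XT.nd (nat_lit 78) (nat_lit 0) (nat_lit 0) (XT.lf (nat_lit 0) (nat_lit 10945742783) (nat_lit 152) (nat_lit 21493070859) (nat_lit 0) (nat_lit 3763497188)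 (nat_lit 8) (nat_lit 5) (nat_lit 10) (nat_lit 4) (nat_lit 8) (nat_lit 4) (nat_lit 370) (nat_lit 281) (nat_lit 249)) (XT.lf (nat_lit 0) (nat_lit 15517180273) (nat_lit 152) (nat_lit 14026001169) (nat_lit 0) (nat_lit 8244093507) (nat_lit 8) (nat_lit 5) (nat_lit 10) (nat_lit 4) (nat_lit 8) (nat_lit 4) (nat_lit 371) (nat_lit 281) (nat_lit 248)))) (XT.nd (nat_lit 78) (nat_lit 76) (nat_lit 0) (XT.lf (nat_lit 0) (nat_lit 20255203327) (nat_lit 152) (nat_lit 6303798978) (nat_lit 0) (nat_lit 12895601159) (nat_lit 8) (nat_lit 5) (nat_lit 10) (nat_lit 4) (nat_lit 8) (nat_lit 4) (nat_lit 372) (nat_lit 281) (nat_lit 247)) (XT.nd (nat_lit 78) (nat_lit 0) (nat_lit 0) (XT.lf (nat_lit 0) (nat_lit 1747864488) (nat_lit 76) (nat_lit 23450517525) (nat_lit 76) (nat_lit 16008519736) (nat_lit 7) (nat_lit 4) (nat_lit 8) (nat_lit 5) (nat_lit 8) (nat_lit 4) (nat_lit 373) (nat_lit 281) (nat_lit 246)) (XT.lf (nat_lit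 0) (nat_lit 10310189372) (nat_lit 76) (nat_lit 20127335221) (nat_lit 76) (nat_lit 12606865413) (nat_lit 7) (nat_lit 4) (nat_lit 8) (nat_lit 5) (nat_lit 8) (nat_lit 4) (nat_lit 374) (nat_lit 281) (nat_lit 245))))) (XT.nd (nat_lit 234) (nat_lit 152) (nat_lit 0) (XT.nd (nat_lit 78) (nat_lit 0) (nat_lit 0) (XT.lf (nat_lit 0) (nat_lit 19195130098) (nat_lit 76) (nat_lit 16688300941) (nat_lit 76) (nat_lit 9093095876) (nat_lit 7) (nat_lit 4) (nat_lit 8) (nat_lit 5) (nat_lit 8) (nat_lit 4) (nat_lit 375) (nat_lit 281) (nat_lit 244)) (XT.nd (nat_lit 78) (nat_lit 0) (nat_lit 0) (XT.lf (nat_lit 0) (nat_lit 28423841287) (nat_lit 76) (nat_lit 13125226508) (nat_lit 76) (nat_lit 5458845007) (nat_lit 7) (nat_lit 4) (nat_lit 8) (nat_lit 5) (nat_lit 8) (nat_lit 4) (nat_lit 376) (nat_lit 281) (nat_lit 243)) (XT.lf (nat_lit 0) (nat_lit 38018296060) (nat_lit 76) (nat_lit 9429628410) (nat_lit 76) (nat_lit 1695459829)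 (nat_lit 7) (nat_lit 4) (nat_lit 8) (nat_lit 5) (nat_lit 8) (nat_lit 4) (nat_lit 377) (nat_lit 281) (nat_lit 242)))) (XT.nd (nat_lit 78) (nat_lit 76) (nat_lit 0) (XT.lf (nat_lit 0) (nat_lit 2135413680) (nat_lit 152) (nat_lit 3421129662) (nat_lit 76) (nat_lit 45829760413) (nat_lit 6) (nat_lit 5) (nat_lit 8) (nat_lit 5) (nat_lit 7) (nat_lit 4) (nat_lit 378) (nat_lit 281) (nat_lit 241)) (XT.nd (nat_lit 78) (nat_lit 0) (nat_lit 0) (XT.lf (nat_lit 0) (nat_lit 4702405523) (nat_lit 76) (nat_lit 1425700871) (nat_lit 152) (nat_lit 47610521783) (nat_lit 5) (nat_lit 5) (nat_lit 6) (nat_lit 5) (nat_lit 7) (nat_lit 4) (nat_lit 379) (nat_lit 281) (nat_lit 240)) (XT.lf (nat_lit 0) (nat_lit 10378810062) (nat_lit 152) (nat_lit 42989726109) (nat_lit 0) (nat_lit 2837124713) (nat_lit 5) (nat_lit 5) (nat_lit 7) (nat_lit 4) (nat_lit 5) (nat_lit 4) (nat_lit 380) (nat_lit 281) (nat_lit 239))))))) (XT.nd (nat_lit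 858) (nat_lit 152) (nat_lit 0) (XT.nd (nat_lit 390) (nat_lit 76) (nat_lit 0) (XT.nd (nat_lit 156) (nat_lit 0) (nat_lit 0) (XT.nd (nat_lit 78) (nat_lit 0) (nat_lit 0) (XT.lf (nat_lit 0) (nat_lit 14821638652) (nat_lit 152) (nat_lit 36748597092) (nat_lit 0) (nat_lit 7226840351) (nat_lit 5) (nat_lit 5) (nat_lit 7) (nat_lit 4) (nat_lit 5) (nat_lit 4) (nat_lit 381) (nat_lit 281) (nat_lit 238)) (XT.lf (nat_lit 0) (nat_lit 19444911143) (nat_lit 152) (nat_lit 30275716587) (nat_lit 0) (nat_lit 11799529079) (nat_lit 5) (nat_lit 5) (nat_lit 7) (nat_lit 4) (nat_lit 5) (nat_lit 4) (nat_lit 382) (nat_lit 281) (nat_lit 237))) (XT.nd (nat_lit 78) (nat_lit 0) (nat_lit 0) (XT.lf (nat_lit 0) (nat_lit 24259635328) (nat_lit 152) (nat_lit 23555672975) (nat_lit 0) (nat_lit 16566078250) (nat_lit 5) (nat_lit 5) (nat_lit 7) (nat_lit 4) (nat_lit 5) (nat_lit 4) (nat_lit 383) (nat_lit 281) (nat_lit 236)) (XT.nd (nat_lit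 78) (nat_lit 0) (nat_lit 0) (XT.lf (nat_lit 0) (nat_lit 29277274833) (nat_lit 152) (nat_lit 16572466151) (nat_lit 0) (nat_lit 21537836791) (nat_lit 5) (nat_lit 5) (nat_lit 7) (nat_lit 4) (nat_lit 5) (nat_lit 4) (nat_lit 384) (nat_lit 281) (nat_lit 235)) (XT.lf (nat_lit 0) (nat_lit 34509776421) (nat_lit 152) (nat_lit 9309469432) (nat_lit 0) (nat_lit 26726642222) (nat_lit 5) (nat_lit 5) (nat_lit 7) (nat_lit 4) (nat_lit 5) (nat_lit 4) (nat_lit 385) (nat_lit 281) (nat_lit 234))))) (XT.nd (nat_lit 234) (nat_lit 0) (nat_lit 0) (XT.nd (nat_lit 78) (nat_lit 76) (nat_lit 0) (XT.lf (nat_lit 0) (nat_lit 39969598429) (nat_lit 152) (nat_lit 1749389968) (nat_lit 0) (nat_lit 32144848842) (nat_lit 5) (nat_lit 5) (nat_lit 7) (nat_lit 4) (nat_lit 5) (nat_lit 4) (nat_lit 386) (nat_lit 281) (nat_lit 233)) (XT.nd (nat_lit 78) (nat_lit 0) (nat_lit 0) (XT.lf (nat_lit 0) (nat_lit 6328318128) (nat_lit 76) (nat_lit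 39440225085) (nat_lit 76) (nat_lit 31575841796) (nat_lit 4) (nat_lit 4) (nat_lit 5) (nat_lit 5) (nat_lit 5) (nat_lit 4) (nat_lit 387) (nat_lit 281) (nat_lit 232)) (XT.lf (nat_lit 0) (nat_lit 14808740316) (nat_lit 76) (nat_lit 37046239820) (nat_lit 76) (nat_lit 29144110147) (nat_lit 4) (nat_lit 4) (nat_lit 5) (nat_lit 5) (nat_lit 5) (nat_lit 4) (nat_lit 388) (nat_lit 281) (nat_lit 231)))) (XT.nd (nat_lit 78) (nat_lit 0) (nat_lit 0) (XT.lf (nat_lit 0) (nat_lit 23654225342) (nat_lit 76) (nat_lit 34560959403) (nat_lit 76) (nat_lit 26622880795) (nat_lit 4) (nat_lit 4) (nat_lit 5) (nat_lit 5) (nat_lit 5) (nat_lit 4) (nat_lit 389) (nat_lit 281) (nat_lit 230)) (XT.nd (nat_lit 78) (nat_lit 0) (nat_lit 0) (XT.lf (nat_lit 0) (nat_lit 32885833885) (nat_lit 76) (nat_lit 31978466501) (nat_lit 76) (nat_lit 24006150810) (nat_lit 4) (nat_lit 4) (nat_lit 5) (nat_lit 5) (nat_lit 5) (nat_lit 4) (nat_lit 390)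 (nat_lit 281) (nat_lit 229)) (XT.lf (nat_lit 0) (nat_lit 42525545966) (nat_lit 76) (nat_lit 29292612321) (nat_lit 76) (nat_lit 21287689885) (nat_lit 4) (nat_lit 4) (nat_lit 5) (nat_lit 5) (nat_lit 5) (nat_lit 4) (nat_lit 391) (nat_lit 281) (nat_lit 228)))))) (XT.nd (nat_lit 468) (nat_lit 152) (nat_lit 0) (XT.nd (nat_lit 234) (nat_lit 0) (nat_lit 0) (XT.nd (nat_lit 78) (nat_lit 0) (nat_lit 0) (XT.lf (nat_lit 0) (nat_lit 52596313280) (nat_lit 76) (nat_lit 26497001972) (nat_lit 76) (nat_lit 18461025493) (nat_lit 4) (nat_lit 4) (nat_lit 5) (nat_lit 5) (nat_lit 5) (nat_lit 4) (nat_lit 392) (nat_lit 281) (nat_lit 227)) (XT.nd (nat_lit 78) (nat_lit 0) (nat_lit 0) (XT.lf (nat_lit 0) (nat_lit 63122113844) (nat_lit 76) (nat_lit 23584979238) (nat_lit 76) (nat_lit 15519427481) (nat_lit 4) (nat_lit 4) (nat_lit 5) (nat_lit 5) (nat_lit 5) (nat_lit 4) (nat_lit 393) (nat_lit 281) (nat_lit 226)) (XT.lf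 (nat_lit 0) (nat_lit 74128009088) (nat_lit 76) (nat_lit 20549610733) (nat_lit 76) (nat_lit 12455892043) (nat_lit 4) (nat_lit 4) (nat_lit 5) (nat_lit 5) (nat_lit 5) (nat_lit 4) (nat_lit 394) (nat_lit 281) (nat_lit 225)))) (XT.nd (nat_lit 78) (nat_lit 0) (nat_lit 0) (XT.lf (nat_lit 0) (nat_lit 85640203525) (nat_lit 76) (nat_lit 17383669389) (nat_lit 76) (nat_lit 9263125049) (nat_lit 4) (nat_lit 4) (nat_lit 5) (nat_lit 5) (nat_lit 5) (nat_lit 4) (nat_lit 395) (nat_lit 281) (nat_lit 224)) (XT.nd (nat_lit 78) (nat_lit 0) (nat_lit 0) (XT.lf (nat_lit 0) (nat_lit 97686107141) (nat_lit 76) (nat_lit 14079617249) (nat_lit 76) (nat_lit 5933524671) (nat_lit 4) (nat_lit 4) (nat_lit 5) (nat_lit 5) (nat_lit 5) (nat_lit 4) (nat_lit 396) (nat_lit 281) (nat_lit 223)) (XT.lf (nat_lit 0) (nat_lit 110294400660) (nat_lit 76) (nat_lit 10629587523) (nat_lit 76) (nat_lit 2459163290) (nat_lit 4) (nat_lit 4) (nat_lit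 5) (nat_lit 5) (nat_lit 5) (nat_lit 4) (nat_lit 397) (nat_lit 281) (nat_lit 222))))) (XT.nd (nat_lit 234) (nat_lit 0) (nat_lit 0) (XT.nd (nat_lit 78) (nat_lit 76) (nat_lit 0) (XT.lf (nat_lit 0) (nat_lit 1130840682) (nat_lit 152) (nat_lit 5875373838) (nat_lit 76) (nat_lit 122345111811) (nat_lit 3) (nat_lit 5) (nat_lit 5) (nat_lit 5) (nat_lit 4) (nat_lit 4) (nat_lit 398) (nat_lit 281) (nat_lit 221)) (XT.nd (nat_lit 78) (nat_lit 0) (nat_lit 0) (XT.lf (nat_lit 0) (nat_lit 1675142991) (nat_lit 76) (nat_lit 3149642256) (nat_lit 152) (nat_lit 130790758857) (nat_lit 2) (nat_lit 5) (nat_lit 3) (nat_lit 5) (nat_lit 4) (nat_lit 4) (nat_lit 399) (nat_lit 281) (nat_lit 220)) (XT.lf (nat_lit 0) (nat_lit 8799607962) (nat_lit 152) (nat_lit 132433413952) (nat_lit 0) (nat_lit 955145709) (nat_lit 2) (nat_lit 5) (nat_lit 4) (nat_lit 4) (nat_lit 2) (nat_lit 4) (nat_lit 400) (nat_lit 281) (nat_lit 219)))) (XT.nd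 (nat_lit 78) (nat_lit 0) (nat_lit 0) (XT.lf (nat_lit 0) (nat_lit 13006709751) (nat_lit 152) (nat_lit 130937856377) (nat_lit 0) (nat_lit 5143183010) (nat_lit 2) (nat_lit 5) (nat_lit 4) (nat_lit 4) (nat_lit 2) (nat_lit 4) (nat_lit 401) (nat_lit 281) (nat_lit 218)) (XT.nd (nat_lit 78) (nat_lit 0) (nat_lit 0) (XT.lf (nat_lit 0) (nat_lit 17406932783) (nat_lit 152) (nat_lit 129400992795) (nat_lit 0) (nat_lit 9525249386) (nat_lit 2) (nat_lit 5) (nat_lit 4) (nat_lit 4) (nat_lit 2) (nat_lit 4) (nat_lit 402) (nat_lit 281) (nat_lit 217)) (XT.lf (nat_lit 0) (nat_lit 22010753778) (nat_lit 152) (nat_lit 127819164006) (nat_lit 0) (nat_lit 14111778329) (nat_lit 2) (nat_lit 5) (nat_lit 4) (nat_lit 4) (nat_lit 2) (nat_lit 4) (nat_lit 403) (nat_lit 281) (nat_lit 216))))))))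
noncomputable def xc54 : XT := (XT.nd (nat_lit 1794) (nat_lit 0) (nat_lit 0) (XT.nd (nat_lit 858) (nat_lit 0) (nat_lit 0) (XT.nd (nat_lit 390) (nat_lit 0) (nat_lit 0) (XT.nd (nat_lit 156) (nat_lit 0) (nat_lit 0) (XT.nd (nat_lit 78) (nat_lit 0) (nat_lit 0) (XT.lf (nat_lit 0) (nat_lit 26829134216) (nat_lit 152) (nat_lit 126188603751) (nat_lit 0) (nat_lit 18913690144) (nat_lit 2) (nat_lit 5) (nat_lit 4) (nat_lit 4) (nat_lit 2) (nat_lit 4) (nat_lit 404) (nat_lit 281) (nat_lit 215)) (XT.lf (nat_lit 0) (nat_lit 31873546430) (nat_lit 152) (nat_lit 124505429745) (nat_lit 0) (nat_lit 23942417956) (nat_lit 2) (nat_lit 5) (nat_lit 4) (nat_lit 4) (nat_lit 2) (nat_lit 4) (nat_lit 405) (nat_lit 281) (nat_lit 214))) (XT.nd (nat_lit 78) (nat_lit 0) (nat_lit 0) (XT.lf (nat_lit 0) (nat_lit 37156000926) (nat_lit 152) (nat_lit 122765634429) (nat_lit 0) (nat_lit 29209934926) (nat_lit 2) (nat_lit 5) (nat_lit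 4) (nat_lit 4) (nat_lit 2) (nat_lit 4) (nat_lit 406) (nat_lit 281) (nat_lit 213)) (XT.nd (nat_lit 78) (nat_lit 0) (nat_lit 0) (XT.lf (nat_lit 0) (nat_lit 42689074976) (nat_lit 152) (nat_lit 120965075434) (nat_lit 0) (nat_lit 34728782762) (nat_lit 2) (nat_lit 5) (nat_lit 4) (nat_lit 4) (nat_lit 2) (nat_lit 4) (nat_lit 407) (nat_lit 281) (nat_lit 212)) (XT.lf (nat_lit 0) (nat_lit 48485942566) (nat_lit 152) (nat_lit 119099465716) (nat_lit 0) (nat_lit 40512101576) (nat_lit 2) (nat_lit 5) (nat_lit 4) (nat_lit 4) (nat_lit 2) (nat_lit 4) (nat_lit 408) (nat_lit 281) (nat_lit 211))))) (XT.nd (nat_lit 234) (nat_lit 0) (nat_lit 0) (XT.nd (nat_lit 78) (nat_lit 0) (nat_lit 0) (XT.lf (nat_lit 0) (nat_lit 54560405762) (nat_lit 152) (nat_lit 117164363345) (nat_lit 0) (nat_lit 46573661176) (nat_lit 2) (nat_lit 5) (nat_lit 4) (nat_lit 4) (nat_lit 2) (nat_lit 4) (nat_lit 409) (nat_lit 281) (nat_lit 210))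 (XT.nd (nat_lit 78) (nat_lit 0) (nat_lit 0) (XT.lf (nat_lit 0) (nat_lit 60926927572) (nat_lit 152) (nat_lit 115155160936) (nat_lit 0) (nat_lit 52927893846) (nat_lit 2) (nat_lit 5) (nat_lit 4) (nat_lit 4) (nat_lit 2) (nat_lit 4) (nat_lit 410) (nat_lit 281) (nat_lit 209)) (XT.lf (nat_lit 0) (nat_lit 67600666380) (nat_lit 152) (nat_lit 113067074673) (nat_lit 0) (nat_lit 59589928713) (nat_lit 2) (nat_lit 5) (nat_lit 4) (nat_lit 4) (nat_lit 2) (nat_lit 4) (nat_lit 411) (nat_lit 281) (nat_lit 208)))) (XT.nd (nat_lit 78) (nat_lit 0) (nat_lit 0) (XT.lf (nat_lit 0) (nat_lit 74597512042) (nat_lit 152) (nat_lit 110895132922) (nat_lit 0) (nat_lit 66575627763) (nat_lit 2) (nat_lit 5) (nat_lit 4) (nat_lit 4) (nat_lit 2) (nat_lit 4) (nat_lit 412) (nat_lit 281) (nat_lit 207)) (XT.nd (nat_lit 78) (nat_lit 0) (nat_lit 0) (XT.lf (nat_lit 0) (nat_lit 81934123713) (nat_lit 152) (nat_lit 108634164393) (nat_lit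 0) (nat_lit 73901623613) (nat_lit 2) (nat_lit 5) (nat_lit 4) (nat_lit 4) (nat_lit 2) (nat_lit 4) (nat_lit 413) (nat_lit 281) (nat_lit 206)) (XT.lf (nat_lit 0) (nat_lit 89627969516) (nat_lit 152) (nat_lit 106278785829) (nat_lit 0) (nat_lit 81585359111) (nat_lit 2) (nat_lit 5) (nat_lit 4) (nat_lit 4) (nat_lit 2) (nat_lit 4) (nat_lit 414) (nat_lit 281) (nat_lit 205)))))) (XT.nd (nat_lit 468) (nat_lit 0) (nat_lit 0) (XT.nd (nat_lit 234) (nat_lit 0) (nat_lit 0) (XT.nd (nat_lit 78) (nat_lit 0) (nat_lit 0) (XT.lf (nat_lit 0) (nat_lit 97697368132) (nat_lit 152) (nat_lit 103823389184) (nat_lit 0) (nat_lit 89645128865) (nat_lit 2) (nat_lit 5) (nat_lit 4) (nat_lit 4) (nat_lit 2) (nat_lit 4) (nat_lit 415) (nat_lit 281) (nat_lit 204)) (XT.nd (nat_lit 78) (nat_lit 0) (nat_lit 0) (XT.lf (nat_lit 0) (nat_lit 106161532415) (nat_lit 152) (nat_lit 101262128276) (nat_lit 0) (nat_lit 98100122803) (nat_lit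 2) (nat_lit 5) (nat_lit 4) (nat_lit 4) (nat_lit 2) (nat_lit 4) (nat_lit 416) (nat_lit 281) (nat_lit 203)) (XT.lf (nat_lit 0) (nat_lit 115040615137) (nat_lit 152) (nat_lit 98588904865) (nat_lit 0) (nat_lit 106970471863) (nat_lit 2) (nat_lit 5) (nat_lit 4) (nat_lit 4) (nat_lit 2) (nat_lit 4) (nat_lit 417) (nat_lit 281) (nat_lit 202)))) (XT.nd (nat_lit 78) (nat_lit 0) (nat_lit 0) (XT.lf (nat_lit 0) (nat_lit 124355756971) (nat_lit 152) (nat_lit 95797354133) (nat_lit 0) (nat_lit 116277295924) (nat_lit 2) (nat_lit 5) (nat_lit 4) (nat_lit 4) (nat_lit 2) (nat_lit 4) (nat_lit 418) (nat_lit 281) (nat_lit 201)) (XT.nd (nat_lit 78) (nat_lit 0) (nat_lit 0) (XT.lf (nat_lit 0) (nat_lit 134129136826) (nat_lit 152) (nat_lit 92880829531) (nat_lit 0) (nat_lit 126042754090) (nat_lit 2) (nat_lit 5) (nat_lit 4) (nat_lit 4) (nat_lit 2) (nat_lit 4) (nat_lit 419) (nat_lit 281) (nat_lit 200)) (XT.lf (nat_lit 0)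 (nat_lit 144384024655) (nat_lit 152) (nat_lit 89832386953) (nat_lit 0) (nat_lit 136290097453) (nat_lit 2) (nat_lit 5) (nat_lit 4) (nat_lit 4) (nat_lit 2) (nat_lit 4) (nat_lit 420) (nat_lit 281) (nat_lit 199))))) (XT.nd (nat_lit 234) (nat_lit 0) (nat_lit 0) (XT.nd (nat_lit 78) (nat_lit 0) (nat_lit 0) (XT.lf (nat_lit 0) (nat_lit 155144836856) (nat_lit 152) (nat_lit 86644768203) (nat_lit 0) (nat_lit 147043724449) (nat_lit 2) (nat_lit 5) (nat_lit 4) (nat_lit 4) (nat_lit 2) (nat_lit 4) (nat_lit 421) (nat_lit 281) (nat_lit 198)) (XT.nd (nat_lit 78) (nat_lit 0) (nat_lit 0) (XT.lf (nat_lit 0) (nat_lit 166437194411) (nat_lit 152) (nat_lit 83310383710) (nat_lit 0) (nat_lit 158329238952) (nat_lit 2) (nat_lit 5) (nat_lit 4) (nat_lit 4) (nat_lit 2) (nat_lit 4) (nat_lit 422) (nat_lit 281) (nat_lit 197)) (XT.lf (nat_lit 0) (nat_lit 178287983886) (nat_lit 152) (nat_lit 79821294466) (nat_lit 0) (nat_lit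 170173511234) (nat_lit 2) (nat_lit 5) (nat_lit 4) (nat_lit 4) (nat_lit 2) (nat_lit 4) (nat_lit 423) (nat_lit 281) (nat_lit 196)))) (XT.nd (nat_lit 78) (nat_lit 0) (nat_lit 0) (XT.lf (nat_lit 0) (nat_lit 190725421446) (nat_lit 152) (nat_lit 76169193115) (nat_lit 0) (nat_lit 182604741943) (nat_lit 2) (nat_lit 5) (nat_lit 4) (nat_lit 4) (nat_lit 2) (nat_lit 4) (nat_lit 424) (nat_lit 281) (nat_lit 195)) (XT.nd (nat_lit 78) (nat_lit 0) (nat_lit 0) (XT.lf (nat_lit 0) (nat_lit 203779120038) (nat_lit 152) (nat_lit 72345384176) (nat_lit 0) (nat_lit 195652529249) (nat_lit 2) (nat_lit 5) (nat_lit 4) (nat_lit 4) (nat_lit 2) (nat_lit 4) (nat_lit 425) (nat_lit 281) (nat_lit 194)) (XT.lf (nat_lit 0) (nat_lit 217480159897) (nat_lit 152) (nat_lit 68340763344) (nat_lit 0) (nat_lit 209347939312) (nat_lit 2) (nat_lit 5) (nat_lit 4) (nat_lit 4) (nat_lit 2) (nat_lit 4) (nat_lit 426) (nat_lit 281) (nat_lit 193)))))))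 (XT.nd (nat_lit 39936) (nat_lit 0) (nat_lit 1368) (XT.nd (nat_lit 390) (nat_lit 0) (nat_lit 0) (XT.nd (nat_lit 156) (nat_lit 0) (nat_lit 0) (XT.nd (nat_lit 78) (nat_lit 0) (nat_lit 0) (XT.lf (nat_lit 0) (nat_lit 231861162545) (nat_lit 152) (nat_lit 64145795807) (nat_lit 0) (nat_lit 223723580250) (nat_lit 2) (nat_lit 5) (nat_lit 4) (nat_lit 4) (nat_lit 2) (nat_lit 4) (nat_lit 427) (nat_lit 281) (nat_lit 192)) (XT.lf (nat_lit 0) (nat_lit 246956368467) (nat_lit 152) (nat_lit 59750493546) (nat_lit 0) (nat_lit 238813679780) (nat_lit 2) (nat_lit 5) (nat_lit 4) (nat_lit 4) (nat_lit 2) (nat_lit 4) (nat_lit 428) (nat_lit 281) (nat_lit 191))) (XT.nd (nat_lit 78) (nat_lit 0) (nat_lit 0) (XT.lf (nat_lit 0) (nat_lit 262801718627) (nat_lit 152) (nat_lit 55144391557) (nat_lit 0) (nat_lit 254654166710) (nat_lit 2) (nat_lit 5) (nat_lit 4) (nat_lit 4) (nat_lit 2) (nat_lit 4) (nat_lit 429) (nat_lit 281)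 (nat_lit 190)) (XT.nd (nat_lit 78) (nat_lit 0) (nat_lit 0) (XT.lf (nat_lit 0) (nat_lit 279434940050) (nat_lit 152) (nat_lit 50316522930) (nat_lit 0) (nat_lit 271282756486) (nat_lit 2) (nat_lit 5) (nat_lit 4) (nat_lit 4) (nat_lit 2) (nat_lit 4) (nat_lit 430) (nat_lit 281) (nat_lit 189)) (XT.lf (nat_lit 0) (nat_lit 296895635645) (nat_lit 152) (nat_lit 45255392739) (nat_lit 0) (nat_lit 288739040988) (nat_lit 2) (nat_lit 5) (nat_lit 4) (nat_lit 4) (nat_lit 2) (nat_lit 4) (nat_lit 431) (nat_lit 281) (nat_lit 188))))) (XT.nd (nat_lit 234) (nat_lit 0) (nat_lit 0) (XT.nd (nat_lit 78) (nat_lit 0) (nat_lit 0) (XT.lf (nat_lit 0) (nat_lit 315225378495) (nat_lit 152) (nat_lit 39948950675) (nat_lit 0) (nat_lit 307064582798) (nat_lit 2) (nat_lit 5) (nat_lit 4) (nat_lit 4) (nat_lit 2) (nat_lit 4) (nat_lit 432) (nat_lit 281) (nat_lit 187)) (XT.nd (nat_lit 78) (nat_lit 0) (nat_lit 0) (XT.lf (nat_lit 0)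 (nat_lit 334467810847) (nat_lit 152) (nat_lit 34384562351) (nat_lit 0) (nat_lit 326303014158) (nat_lit 2) (nat_lit 5) (nat_lit 4) (nat_lit 4) (nat_lit 2) (nat_lit 4) (nat_lit 433) (nat_lit 281) (nat_lit 186)) (XT.lf (nat_lit 0) (nat_lit 354668748015) (nat_lit 152) (nat_lit 28548979225) (nat_lit 0) (nat_lit 346500140859) (nat_lit 2) (nat_lit 5) (nat_lit 4) (nat_lit 4) (nat_lit 2) (nat_lit 4) (nat_lit 434) (nat_lit 281) (nat_lit 185)))) (XT.nd (nat_lit 39156) (nat_lit 0) (nat_lit 2508) (XT.lf (nat_lit 0) (nat_lit 375876287468) (nat_lit 152) (nat_lit 22428307051) (nat_lit 0) (nat_lit 367704051295) (nat_lit 2) (nat_lit 5) (nat_lit 4) (nat_lit 4) (nat_lit 2) (nat_lit 4) (nat_lit 435) (nat_lit 281) (nat_lit 184)) (XT.nd (nat_lit 78) (nat_lit 152) (nat_lit 0) (XT.lf (nat_lit 0) (nat_lit 1088895136) (nat_lit 228) (nat_lit 3248020382) (nat_lit 0) (nat_lit 1088895136) (nat_lit 37) (nat_lit 5) (nat_lit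 40) (nat_lit 4) (nat_lit 37) (nat_lit 4) (nat_lit 336) (nat_lit 282) (nat_lit 282)) (XT.lf (nat_lit 0) (nat_lit 1319447002) (nat_lit 152) (nat_lit 5246536321) (nat_lit 152) (nat_lit 4575039455) (nat_lit 35) (nat_lit 4) (nat_lit 37) (nat_lit 5) (nat_lit 37) (nat_lit 4) (nat_lit 337) (nat_lit 282) (nat_lit 281)))))) (XT.nd (nat_lit 468) (nat_lit 456) (nat_lit 0) (XT.nd (nat_lit 234) (nat_lit 304) (nat_lit 0) (XT.nd (nat_lit 78) (nat_lit 380) (nat_lit 0) (XT.lf (nat_lit 0) (nat_lit 9487797298) (nat_lit 152) (nat_lit 1635379937) (nat_lit 152) (nat_lit 324362247) (nat_lit 35) (nat_lit 4) (nat_lit 37) (nat_lit 5) (nat_lit 37) (nat_lit 4) (nat_lit 338) (nat_lit 282) (nat_lit 280)) (XT.nd (nat_lit 78) (nat_lit 152) (nat_lit 0) (XT.lf (nat_lit 0) (nat_lit 3982071092) (nat_lit 228) (nat_lit 5631989970) (nat_lit 0) (nat_lit 2153418576) (nat_lit 32) (nat_lit 5) (nat_lit 35) (nat_lit 4) (nat_lit 32)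 (nat_lit 4) (nat_lit 339) (nat_lit 282) (nat_lit 279)) (XT.lf (nat_lit 0) (nat_lit 2387345397) (nat_lit 152) (nat_lit 6049896062) (nat_lit 152) (nat_lit 3668801413) (nat_lit 30) (nat_lit 4) (nat_lit 32) (nat_lit 5) (nat_lit 32) (nat_lit 4) (nat_lit 340) (nat_lit 282) (nat_lit 278)))) (XT.nd (nat_lit 78) (nat_lit 228) (nat_lit 0) (XT.lf (nat_lit 0) (nat_lit 576942930) (nat_lit 228) (nat_lit 1724497006) (nat_lit 76) (nat_lit 10162470439) (nat_lit 29) (nat_lit 5) (nat_lit 32) (nat_lit 5) (nat_lit 30) (nat_lit 4) (nat_lit 341) (nat_lit 282) (nat_lit 277)) (XT.nd (nat_lit 78) (nat_lit 152) (nat_lit 0) (XT.lf (nat_lit 0) (nat_lit 4895458595) (nat_lit 152) (nat_lit 6292661704) (nat_lit 0) (nat_lit 1649447819) (nat_lit 28) (nat_lit 5) (nat_lit 30) (nat_lit 4) (nat_lit 28) (nat_lit 4) (nat_lit 342) (nat_lit 282) (nat_lit 276)) (XT.lf (nat_lit 0) (nat_lit 1831148278) (nat_lit 152) (nat_lit 7550874627)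 (nat_lit 152) (nat_lit 3850368341) (nat_lit 26) (nat_lit 4) (nat_lit 28) (nat_lit 5) (nat_lit 28) (nat_lit 4) (nat_lit 343) (nat_lit 282) (nat_lit 275))))) (XT.nd (nat_lit 234) (nat_lit 304) (nat_lit 0) (XT.nd (nat_lit 78) (nat_lit 76) (nat_lit 0) (XT.lf (nat_lit 0) (nat_lit 396767956) (nat_lit 228) (nat_lit 3319984842) (nat_lit 76) (nat_lit 9931680920) (nat_lit 25) (nat_lit 5) (nat_lit 28) (nat_lit 5) (nat_lit 26) (nat_lit 4) (nat_lit 344) (nat_lit 282) (nat_lit 274)) (XT.nd (nat_lit 78) (nat_lit 0) (nat_lit 0) (XT.lf (nat_lit 0) (nat_lit 4674484279) (nat_lit 152) (nat_lit 9064992083) (nat_lit 0) (nat_lit 345341442) (nat_lit 24) (nat_lit 5) (nat_lit 26) (nat_lit 4) (nat_lit 24) (nat_lit 4) (nat_lit 345) (nat_lit 282) (nat_lit 273)) (XT.lf (nat_lit 0) (nat_lit 9149038037) (nat_lit 152) (nat_lit 948927781) (nat_lit 0) (nat_lit 4445980620) (nat_lit 24) (nat_lit 5) (nat_lit 26) (nat_lit 4)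 (nat_lit 24) (nat_lit 4) (nat_lit 346) (nat_lit 282) (nat_lit 272)))) (XT.nd (nat_lit 78) (nat_lit 152) (nat_lit 0) (XT.lf (nat_lit 0) (nat_lit 7588431160) (nat_lit 152) (nat_lit 6248673539) (nat_lit 152) (nat_lit 1189506997) (nat_lit 22) (nat_lit 4) (nat_lit 24) (nat_lit 5) (nat_lit 24) (nat_lit 4) (nat_lit 347) (nat_lit 282) (nat_lit 271)) (XT.nd (nat_lit 78) (nat_lit 0) (nat_lit 0) (XT.lf (nat_lit 0) (nat_lit 799946680) (nat_lit 76) (nat_lit 2223597109) (nat_lit 152) (nat_lit 12512379113) (nat_lit 20) (nat_lit 5) (nat_lit 21) (nat_lit 5) (nat_lit 22) (nat_lit 4) (nat_lit 348) (nat_lit 282) (nat_lit 270)) (XT.lf (nat_lit 0) (nat_lit 7439447377) (nat_lit 152) (nat_lit 6638156904) (nat_lit 0) (nat_lit 1990571603) (nat_lit 20) (nat_lit 5) (nat_lit 22) (nat_lit 4) (nat_lit 20) (nat_lit 4) (nat_lit 349) (nat_lit 282) (nat_lit 269))))))))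
noncomputable def xc55 : XT := (XT.nd (nat_lit 1794) (nat_lit 304) (nat_lit 0) (XT.nd (nat_lit 858) (nat_lit 380) (nat_lit 0) (XT.nd (nat_lit 390) (nat_lit 304) (nat_lit 0) (XT.nd (nat_lit 156) (nat_lit 152) (nat_lit 0) (XT.nd (nat_lit 78) (nat_lit 0) (nat_lit 0) (XT.lf (nat_lit 0) (nat_lit 1663102712) (nat_lit 76) (nat_lit 10354388169) (nat_lit 76) (nat_lit 4612540536) (nat_lit 19) (nat_lit 4) (nat_lit 20) (nat_lit 5) (nat_lit 20) (nat_lit 4) (nat_lit 350) (nat_lit 282) (nat_lit 268)) (XT.lf (nat_lit 0) (nat_lit 10395179005) (nat_lit 76) (nat_lit 6423017789) (nat_lit 76) (nat_lit 402149339) (nat_lit 19) (nat_lit 4) (nat_lit 20) (nat_lit 5) (nat_lit 20) (nat_lit 4) (nat_lit 351) (nat_lit 282) (nat_lit 267))) (XT.nd (nat_lit 78) (nat_lit 0) (nat_lit 0) (XT.lf (nat_lit 0) (nat_lit 1500635289) (nat_lit 76) (nat_lit 2298017320) (nat_lit 152) (nat_lit 14043010295) (nat_lit 17) (nat_lit 5) (nat_lit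 18) (nat_lit 5) (nat_lit 19) (nat_lit 4) (nat_lit 352) (nat_lit 282) (nat_lit 266)) (XT.nd (nat_lit 78) (nat_lit 0) (nat_lit 0) (XT.lf (nat_lit 0) (nat_lit 8231124454) (nat_lit 152) (nat_lit 8258025960) (nat_lit 0) (nat_lit 2002855246) (nat_lit 17) (nat_lit 5) (nat_lit 19) (nat_lit 4) (nat_lit 17) (nat_lit 4) (nat_lit 353) (nat_lit 282) (nat_lit 265)) (XT.lf (nat_lit 0) (nat_lit 12814242589) (nat_lit 152) (nat_lit 7794334) (nat_lit 0) (nat_lit 6356422264) (nat_lit 17) (nat_lit 5) (nat_lit 19) (nat_lit 4) (nat_lit 17) (nat_lit 4) (nat_lit 354) (nat_lit 282) (nat_lit 264))))) (XT.nd (nat_lit 234) (nat_lit 76) (nat_lit 0) (XT.nd (nat_lit 78) (nat_lit 152) (nat_lit 0) (XT.lf (nat_lit 0) (nat_lit 8745086542) (nat_lit 76) (nat_lit 8914489477) (nat_lit 76) (nat_lit 2238049040) (nat_lit 16) (nat_lit 4) (nat_lit 17) (nat_lit 5) (nat_lit 17) (nat_lit 4) (nat_lit 355) (nat_lit 282) (nat_lit 263))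 (XT.nd (nat_lit 78) (nat_lit 76) (nat_lit 0) (XT.lf (nat_lit 0) (nat_lit 1924360286) (nat_lit 152) (nat_lit 2939711479) (nat_lit 76) (nat_lit 15792232734) (nat_lit 15) (nat_lit 5) (nat_lit 17) (nat_lit 5) (nat_lit 16) (nat_lit 4) (nat_lit 356) (nat_lit 282) (nat_lit 262)) (XT.lf (nat_lit 0) (nat_lit 5646703176) (nat_lit 76) (nat_lit 562881276) (nat_lit 152) (nat_lit 15242040449) (nat_lit 14) (nat_lit 5) (nat_lit 15) (nat_lit 5) (nat_lit 16) (nat_lit 4) (nat_lit 357) (nat_lit 282) (nat_lit 261)))) (XT.nd (nat_lit 78) (nat_lit 76) (nat_lit 0) (XT.lf (nat_lit 0) (nat_lit 10723760775) (nat_lit 152) (nat_lit 7764011469) (nat_lit 0) (nat_lit 3798239610) (nat_lit 14) (nat_lit 5) (nat_lit 16) (nat_lit 4) (nat_lit 14) (nat_lit 4) (nat_lit 358) (nat_lit 282) (nat_lit 260)) (XT.nd (nat_lit 78) (nat_lit 0) (nat_lit 0) (XT.lf (nat_lit 0) (nat_lit 513043221) (nat_lit 76) (nat_lit 14874855717) (nat_lit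 76) (nat_lit 7778039973) (nat_lit 13) (nat_lit 4) (nat_lit 14) (nat_lit 5) (nat_lit 14) (nat_lit 4) (nat_lit 359) (nat_lit 282) (nat_lit 259)) (XT.lf (nat_lit 0) (nat_lit 9303197333) (nat_lit 76) (nat_lit 11022318330) (nat_lit 76) (nat_lit 3762364893) (nat_lit 13) (nat_lit 4) (nat_lit 14) (nat_lit 5) (nat_lit 14) (nat_lit 4) (nat_lit 360) (nat_lit 282) (nat_lit 258)))))) (XT.nd (nat_lit 468) (nat_lit 152) (nat_lit 0) (XT.nd (nat_lit 234) (nat_lit 76) (nat_lit 0) (XT.nd (nat_lit 78) (nat_lit 76) (nat_lit 0) (XT.lf (nat_lit 0) (nat_lit 351234598) (nat_lit 152) (nat_lit 6695291742) (nat_lit 76) (nat_lit 18013483594) (nat_lit 12) (nat_lit 5) (nat_lit 14) (nat_lit 5) (nat_lit 13) (nat_lit 4) (nat_lit 361) (nat_lit 282) (nat_lit 257)) (XT.nd (nat_lit 78) (nat_lit 0) (nat_lit 0) (XT.lf (nat_lit 0) (nat_lit 1631842319) (nat_lit 76) (nat_lit 2853589721) (nat_lit 152) (nat_lit 21595189413) (nat_lit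 11) (nat_lit 5) (nat_lit 12) (nat_lit 5) (nat_lit 13) (nat_lit 4) (nat_lit 362) (nat_lit 282) (nat_lit 256)) (XT.lf (nat_lit 0) (nat_lit 8882113112) (nat_lit 152) (nat_lit 16722625134) (nat_lit 0) (nat_lit 1544762791) (nat_lit 11) (nat_lit 5) (nat_lit 13) (nat_lit 4) (nat_lit 11) (nat_lit 4) (nat_lit 363) (nat_lit 282) (nat_lit 255)))) (XT.nd (nat_lit 78) (nat_lit 76) (nat_lit 0) (XT.lf (nat_lit 0) (nat_lit 13465734872) (nat_lit 152) (nat_lit 8807197427) (nat_lit 0) (nat_lit 6000561899) (nat_lit 11) (nat_lit 5) (nat_lit 13) (nat_lit 4) (nat_lit 11) (nat_lit 4) (nat_lit 364) (nat_lit 282) (nat_lit 254)) (XT.nd (nat_lit 78) (nat_lit 76) (nat_lit 0) (XT.lf (nat_lit 0) (nat_lit 18202658172) (nat_lit 152) (nat_lit 639097224) (nat_lit 0) (nat_lit 10615749340) (nat_lit 11) (nat_lit 5) (nat_lit 13) (nat_lit 4) (nat_lit 11) (nat_lit 4) (nat_lit 365) (nat_lit 282) (nat_lit 253)) (XT.lf (nat_lit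 0) (nat_lit 8059063700) (nat_lit 76) (nat_lit 15170922270) (nat_lit 76) (nat_lit 7468074526) (nat_lit 10) (nat_lit 4) (nat_lit 11) (nat_lit 5) (nat_lit 11) (nat_lit 4) (nat_lit 366) (nat_lit 282) (nat_lit 252))))) (XT.nd (nat_lit 234) (nat_lit 0) (nat_lit 0) (XT.nd (nat_lit 78) (nat_lit 152) (nat_lit 0) (XT.lf (nat_lit 0) (nat_lit 17080234166) (nat_lit 76) (nat_lit 11368350961) (nat_lit 76) (nat_lit 3555085205) (nat_lit 10) (nat_lit 4) (nat_lit 11) (nat_lit 5) (nat_lit 11) (nat_lit 4) (nat_lit 367) (nat_lit 282) (nat_lit 251)) (XT.nd (nat_lit 78) (nat_lit 76) (nat_lit 0) (XT.lf (nat_lit 0) (nat_lit 467167938) (nat_lit 152) (nat_lit 6960731494) (nat_lit 76) (nat_lit 25949682057) (nat_lit 9) (nat_lit 5) (nat_lit 11) (nat_lit 5) (nat_lit 10) (nat_lit 4) (nat_lit 368) (nat_lit 282) (nat_lit 250)) (XT.lf (nat_lit 0) (nat_lit 1258300398) (nat_lit 76) (nat_lit 3267006215) (nat_lit 152) (nat_lit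 30294273837) (nat_lit 8) (nat_lit 5) (nat_lit 9) (nat_lit 5) (nat_lit 10) (nat_lit 4) (nat_lit 369) (nat_lit 282) (nat_lit 249)))) (XT.nd (nat_lit 78) (nat_lit 0) (nat_lit 0) (XT.lf (nat_lit 0) (nat_lit 8858286707) (nat_lit 152) (nat_lit 26341109214) (nat_lit 0) (nat_lit 1130704431) (nat_lit 8) (nat_lit 5) (nat_lit 10) (nat_lit 4) (nat_lit 8) (nat_lit 4) (nat_lit 370) (nat_lit 282) (nat_lit 248)) (XT.nd (nat_lit 78) (nat_lit 0) (nat_lit 0) (XT.lf (nat_lit 0) (nat_lit 13399486973) (nat_lit 152) (nat_lit 18931708296) (nat_lit 0) (nat_lit 5585389295) (nat_lit 8) (nat_lit 5) (nat_lit 10) (nat_lit 4) (nat_lit 8) (nat_lit 4) (nat_lit 371) (nat_lit 282) (nat_lit 247)) (XT.lf (nat_lit 0) (nat_lit 18108712669) (nat_lit 152) (nat_lit 11264428745) (nat_lit 0) (nat_lit 10212219370) (nat_lit 8) (nat_lit 5) (nat_lit 10) (nat_lit 4) (nat_lit 8) (nat_lit 4) (nat_lit 372) (nat_lit 282) (nat_lit 246)))))))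 (XT.nd (nat_lit 858) (nat_lit 76) (nat_lit 0) (XT.nd (nat_lit 390) (nat_lit 152) (nat_lit 0) (XT.nd (nat_lit 156) (nat_lit 0) (nat_lit 0) (XT.nd (nat_lit 78) (nat_lit 76) (nat_lit 0) (XT.lf (nat_lit 0) (nat_lit 22997176238) (nat_lit 152) (nat_lit 3321015134) (nat_lit 0) (nat_lit 15022210919) (nat_lit 8) (nat_lit 5) (nat_lit 10) (nat_lit 4) (nat_lit 8) (nat_lit 4) (nat_lit 373) (nat_lit 282) (nat_lit 245)) (XT.lf (nat_lit 0) (nat_lit 5080038379) (nat_lit 76) (nat_lit 23075792135) (nat_lit 76) (nat_lit 15026091560) (nat_lit 7) (nat_lit 4) (nat_lit 8) (nat_lit 5) (nat_lit 8) (nat_lit 4) (nat_lit 374) (nat_lit 282) (nat_lit 244))) (XT.nd (nat_lit 78) (nat_lit 0) (nat_lit 0) (XT.lf (nat_lit 0) (nat_lit 13915966142) (nat_lit 76) (nat_lit 19660129348) (nat_lit 76) (nat_lit 11539252337) (nat_lit 7) (nat_lit 4) (nat_lit 8) (nat_lit 5) (nat_lit 8) (nat_lit 4) (nat_lit 375) (nat_lit 282) (nat_lit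 243)) (XT.nd (nat_lit 78) (nat_lit 0) (nat_lit 0) (XT.lf (nat_lit 0) (nat_lit 23097998319) (nat_lit 76) (nat_lit 16119313479) (nat_lit 76) (nat_lit 7930649388) (nat_lit 7) (nat_lit 4) (nat_lit 8) (nat_lit 5) (nat_lit 8) (nat_lit 4) (nat_lit 376) (nat_lit 282) (nat_lit 242)) (XT.lf (nat_lit 0) (nat_lit 32647996889) (nat_lit 76) (nat_lit 12444914015) (nat_lit 76) (nat_lit 4191690798) (nat_lit 7) (nat_lit 4) (nat_lit 8) (nat_lit 5) (nat_lit 8) (nat_lit 4) (nat_lit 377) (nat_lit 282) (nat_lit 241))))) (XT.nd (nat_lit 234) (nat_lit 0) (nat_lit 0) (XT.nd (nat_lit 78) (nat_lit 152) (nat_lit 0) (XT.lf (nat_lit 0) (nat_lit 42588699947) (nat_lit 76) (nat_lit 8628182385) (nat_lit 76) (nat_lit 313474288) (nat_lit 7) (nat_lit 4) (nat_lit 8) (nat_lit 5) (nat_lit 8) (nat_lit 4) (nat_lit 378) (nat_lit 282) (nat_lit 240)) (XT.nd (nat_lit 78) (nat_lit 76) (nat_lit 0) (XT.lf (nat_lit 0) (nat_lit 3594387315)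 (nat_lit 152) (nat_lit 1004771129) (nat_lit 76) (nat_lit 49288515827) (nat_lit 6) (nat_lit 5) (nat_lit 8) (nat_lit 5) (nat_lit 7) (nat_lit 4) (nat_lit 379) (nat_lit 282) (nat_lit 239)) (XT.lf (nat_lit 0) (nat_lit 7483208315) (nat_lit 76) (nat_lit 278860973) (nat_lit 152) (nat_lit 48596793827) (nat_lit 5) (nat_lit 5) (nat_lit 6) (nat_lit 5) (nat_lit 7) (nat_lit 4) (nat_lit 380) (nat_lit 282) (nat_lit 238)))) (XT.nd (nat_lit 78) (nat_lit 0) (nat_lit 0) (XT.lf (nat_lit 0) (nat_lit 12180203820) (nat_lit 152) (nat_lit 42669345134) (nat_lit 0) (nat_lit 4101968888) (nat_lit 5) (nat_lit 5) (nat_lit 7) (nat_lit 4) (nat_lit 5) (nat_lit 4) (nat_lit 381) (nat_lit 282) (nat_lit 237)) (XT.nd (nat_lit 78) (nat_lit 0) (nat_lit 0) (XT.lf (nat_lit 0) (nat_lit 16784104637) (nat_lit 152) (nat_lit 36233772394) (nat_lit 0) (nat_lit 8657694692) (nat_lit 5) (nat_lit 5) (nat_lit 7) (nat_lit 4) (nat_lit 5) (nat_lit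 4) (nat_lit 382) (nat_lit 282) (nat_lit 236)) (XT.lf (nat_lit 0) (nat_lit 21580379607) (nat_lit 152) (nat_lit 29549259986) (nat_lit 0) (nat_lit 13408088698) (nat_lit 5) (nat_lit 5) (nat_lit 7) (nat_lit 4) (nat_lit 5) (nat_lit 4) (nat_lit 383) (nat_lit 282) (nat_lit 235)))))) (XT.nd (nat_lit 468) (nat_lit 0) (nat_lit 0) (XT.nd (nat_lit 234) (nat_lit 76) (nat_lit 0) (XT.nd (nat_lit 78) (nat_lit 0) (nat_lit 0) (XT.lf (nat_lit 0) (nat_lit 26580448434) (nat_lit 152) (nat_lit 22599892404) (nat_lit 0) (nat_lit 18364461368) (nat_lit 5) (nat_lit 5) (nat_lit 7) (nat_lit 4) (nat_lit 5) (nat_lit 4) (nat_lit 384) (nat_lit 282) (nat_lit 234)) (XT.nd (nat_lit 78) (nat_lit 0) (nat_lit 0) (XT.lf (nat_lit 0) (nat_lit 31796216041) (nat_lit 152) (nat_lit 15369123535) (nat_lit 0) (nat_lit 23538613588) (nat_lit 5) (nat_lit 5) (nat_lit 7) (nat_lit 4) (nat_lit 5) (nat_lit 4) (nat_lit 385) (nat_lit 282) (nat_lit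 233)) (XT.lf (nat_lit 0) (nat_lit 37240100925) (nat_lit 152) (nat_lit 7839737262) (nat_lit 0) (nat_lit 28942864769) (nat_lit 5) (nat_lit 5) (nat_lit 7) (nat_lit 4) (nat_lit 5) (nat_lit 4) (nat_lit 386) (nat_lit 282) (nat_lit 232)))) (XT.nd (nat_lit 78) (nat_lit 0) (nat_lit 0) (XT.lf (nat_lit 0) (nat_lit 6398310) (nat_lit 76) (nat_lit 42918766300) (nat_lit 76) (nat_lit 34583783761) (nat_lit 4) (nat_lit 4) (nat_lit 5) (nat_lit 5) (nat_lit 5) (nat_lit 4) (nat_lit 387) (nat_lit 282) (nat_lit 231)) (XT.nd (nat_lit 78) (nat_lit 0) (nat_lit 0) (XT.lf (nat_lit 0) (nat_lit 8458060365) (nat_lit 76) (nat_lit 40538636699) (nat_lit 76) (nat_lit 32167705224) (nat_lit 4) (nat_lit 4) (nat_lit 5) (nat_lit 5) (nat_lit 5) (nat_lit 4) (nat_lit 388) (nat_lit 282) (nat_lit 230)) (XT.lf (nat_lit 0) (nat_lit 17276154789) (nat_lit 76) (nat_lit 38066552154) (nat_lit 76) (nat_lit 29661383596) (nat_lit 4) (nat_lit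 4) (nat_lit 5) (nat_lit 5) (nat_lit 5) (nat_lit 4) (nat_lit 389) (nat_lit 282) (nat_lit 229))))) (XT.nd (nat_lit 234) (nat_lit 0) (nat_lit 0) (XT.nd (nat_lit 78) (nat_lit 0) (nat_lit 0) (XT.lf (nat_lit 0) (nat_lit 26481677045) (nat_lit 76) (nat_lit 35496626748) (nat_lit 76) (nat_lit 27058851445) (nat_lit 4) (nat_lit 4) (nat_lit 5) (nat_lit 5) (nat_lit 5) (nat_lit 4) (nat_lit 390) (nat_lit 282) (nat_lit 228)) (XT.nd (nat_lit 78) (nat_lit 0) (nat_lit 0) (XT.lf (nat_lit 0) (nat_lit 36096545042) (nat_lit 76) (nat_lit 32822741611) (nat_lit 76) (nat_lit 24353912266) (nat_lit 4) (nat_lit 4) (nat_lit 5) (nat_lit 5) (nat_lit 5) (nat_lit 4) (nat_lit 391) (nat_lit 282) (nat_lit 227)) (XT.lf (nat_lit 0) (nat_lit 46143651324) (nat_lit 76) (nat_lit 30038530352) (nat_lit 76) (nat_lit 21540125727) (nat_lit 4) (nat_lit 4) (nat_lit 5) (nat_lit 5) (nat_lit 5) (nat_lit 4) (nat_lit 392) (nat_lit 282) (nat_lit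 226)))) (XT.nd (nat_lit 78) (nat_lit 0) (nat_lit 0) (XT.lf (nat_lit 0) (nat_lit 56646917572) (nat_lit 76) (nat_lit 27137363894) (nat_lit 76) (nat_lit 18610792337) (nat_lit 4) (nat_lit 4) (nat_lit 5) (nat_lit 5) (nat_lit 5) (nat_lit 4) (nat_lit 393) (nat_lit 282) (nat_lit 225)) (XT.nd (nat_lit 78) (nat_lit 0) (nat_lit 0) (XT.lf (nat_lit 0) (nat_lit 67631351563) (nat_lit 76) (nat_lit 24112334699) (nat_lit 76) (nat_lit 15558937492) (nat_lit 4) (nat_lit 4) (nat_lit 5) (nat_lit 5) (nat_lit 5) (nat_lit 4) (nat_lit 394) (nat_lit 282) (nat_lit 224)) (XT.lf (nat_lit 0) (nat_lit 79123106711) (nat_lit 76) (nat_lit 20956240316) (nat_lit 76) (nat_lit 12377294871) (nat_lit 4) (nat_lit 4) (nat_lit 5) (nat_lit 5) (nat_lit 5) (nat_lit 4) (nat_lit 395) (nat_lit 282) (nat_lit 223))))))))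
noncomputable def xc56 : XT := (XT.nd (nat_lit 1716) (nat_lit 0) (nat_lit 0) (XT.nd (nat_lit 858) (nat_lit 0) (nat_lit 0) (XT.nd (nat_lit 390) (nat_lit 0) (nat_lit 0) (XT.nd (nat_lit 156) (nat_lit 152) (nat_lit 0) (XT.nd (nat_lit 78) (nat_lit 0) (nat_lit 0) (XT.lf (nat_lit 0) (nat_lit 91149544338) (nat_lit 76) (nat_lit 17661566235) (nat_lit 76) (nat_lit 9058289135) (nat_lit 4) (nat_lit 4) (nat_lit 5) (nat_lit 5) (nat_lit 5) (nat_lit 4) (nat_lit 396) (nat_lit 282) (nat_lit 222)) (XT.lf (nat_lit 0) (nat_lit 103739298819) (nat_lit 76) (nat_lit 14220467994) (nat_lit 76) (nat_lit 5594017889) (nat_lit 4) (nat_lit 4) (nat_lit 5) (nat_lit 5) (nat_lit 5) (nat_lit 4) (nat_lit 397) (nat_lit 282) (nat_lit 221))) (XT.nd (nat_lit 78) (nat_lit 152) (nat_lit 0) (XT.lf (nat_lit 0) (nat_lit 116922345761) (nat_lit 76) (nat_lit 10624752502) (nat_lit 76) (nat_lit 1976232869) (nat_lit 4) (nat_lit 4) (nat_lit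 5) (nat_lit 5) (nat_lit 5) (nat_lit 4) (nat_lit 398) (nat_lit 282) (nat_lit 220)) (XT.nd (nat_lit 78) (nat_lit 76) (nat_lit 0) (XT.lf (nat_lit 0) (nat_lit 1745950685) (nat_lit 152) (nat_lit 5090339326) (nat_lit 76) (nat_lit 128954554164) (nat_lit 3) (nat_lit 5) (nat_lit 5) (nat_lit 5) (nat_lit 4) (nat_lit 4) (nat_lit 399) (nat_lit 282) (nat_lit 219)) (XT.lf (nat_lit 0) (nat_lit 2820303293) (nat_lit 76) (nat_lit 2794262188) (nat_lit 152) (nat_lit 136754214422) (nat_lit 2) (nat_lit 5) (nat_lit 3) (nat_lit 5) (nat_lit 4) (nat_lit 4) (nat_lit 400) (nat_lit 282) (nat_lit 218))))) (XT.nd (nat_lit 234) (nat_lit 0) (nat_lit 0) (XT.nd (nat_lit 78) (nat_lit 0) (nat_lit 0) (XT.lf (nat_lit 0) (nat_lit 9769634253) (nat_lit 152) (nat_lit 138025620515) (nat_lit 0) (nat_lit 1475710031) (nat_lit 2) (nat_lit 5) (nat_lit 4) (nat_lit 4) (nat_lit 2) (nat_lit 4) (nat_lit 401) (nat_lit 282) (nat_lit 217)) (XT.nd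 (nat_lit 78) (nat_lit 0) (nat_lit 0) (XT.lf (nat_lit 0) (nat_lit 14161850851) (nat_lit 152) (nat_lit 136504307163) (nat_lit 0) (nat_lit 5850634576) (nat_lit 2) (nat_lit 5) (nat_lit 4) (nat_lit 4) (nat_lit 2) (nat_lit 4) (nat_lit 402) (nat_lit 282) (nat_lit 216)) (XT.lf (nat_lit 0) (nat_lit 18758046672) (nat_lit 152) (nat_lit 134937288117) (nat_lit 0) (nat_lit 10430361775) (nat_lit 2) (nat_lit 5) (nat_lit 4) (nat_lit 4) (nat_lit 2) (nat_lit 4) (nat_lit 403) (nat_lit 282) (nat_lit 215)))) (XT.nd (nat_lit 78) (nat_lit 0) (nat_lit 0) (XT.lf (nat_lit 0) (nat_lit 23569165039) (nat_lit 152) (nat_lit 133320832380) (nat_lit 0) (nat_lit 15225795740) (nat_lit 2) (nat_lit 5) (nat_lit 4) (nat_lit 4) (nat_lit 2) (nat_lit 4) (nat_lit 404) (nat_lit 282) (nat_lit 214)) (XT.nd (nat_lit 78) (nat_lit 0) (nat_lit 0) (XT.lf (nat_lit 0) (nat_lit 28606660995) (nat_lit 152) (nat_lit 131651091247) (nat_lit 0) (nat_lit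 20248354170) (nat_lit 2) (nat_lit 5) (nat_lit 4) (nat_lit 4) (nat_lit 2) (nat_lit 4) (nat_lit 405) (nat_lit 282) (nat_lit 213)) (XT.lf (nat_lit 0) (nat_lit 33882528578) (nat_lit 152) (nat_lit 129924089145) (nat_lit 0) (nat_lit 25509995539) (nat_lit 2) (nat_lit 5) (nat_lit 4) (nat_lit 4) (nat_lit 2) (nat_lit 4) (nat_lit 406) (nat_lit 282) (nat_lit 212)))))) (XT.nd (nat_lit 390) (nat_lit 0) (nat_lit 0) (XT.nd (nat_lit 156) (nat_lit 0) (nat_lit 0) (XT.nd (nat_lit 78) (nat_lit 0) (nat_lit 0) (XT.lf (nat_lit 0) (nat_lit 39409329378) (nat_lit 152) (nat_lit 128135714163) (nat_lit 0) (nat_lit 31023247563) (nat_lit 2) (nat_lit 5) (nat_lit 4) (nat_lit 4) (nat_lit 2) (nat_lit 4) (nat_lit 407) (nat_lit 282) (nat_lit 211)) (XT.lf (nat_lit 0) (nat_lit 45200222445) (nat_lit 152) (nat_lit 126281708265) (nat_lit 0) (nat_lit 36801237033) (nat_lit 2) (nat_lit 5) (nat_lit 4) (nat_lit 4) (nat_lit 2) (nat_lit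 4) (nat_lit 408) (nat_lit 282) (nat_lit 210))) (XT.nd (nat_lit 78) (nat_lit 0) (nat_lit 0) (XT.lf (nat_lit 0) (nat_lit 51268995618) (nat_lit 152) (nat_lit 124357657153) (nat_lit 0) (nat_lit 42857721067) (nat_lit 2) (nat_lit 5) (nat_lit 4) (nat_lit 4) (nat_lit 2) (nat_lit 4) (nat_lit 409) (nat_lit 282) (nat_lit 209)) (XT.nd (nat_lit 78) (nat_lit 0) (nat_lit 0) (XT.lf (nat_lit 0) (nat_lit 57630098359) (nat_lit 152) (nat_lit 122358979752) (nat_lit 0) (nat_lit 49207119866) (nat_lit 2) (nat_lit 5) (nat_lit 4) (nat_lit 4) (nat_lit 2) (nat_lit 4) (nat_lit 410) (nat_lit 282) (nat_lit 208)) (XT.lf (nat_lit 0) (nat_lit 64298676149) (nat_lit 152) (nat_lit 120280917306) (nat_lit 0) (nat_lit 55864551044) (nat_lit 2) (nat_lit 5) (nat_lit 4) (nat_lit 4) (nat_lit 2) (nat_lit 4) (nat_lit 411) (nat_lit 282) (nat_lit 207))))) (XT.nd (nat_lit 234) (nat_lit 0) (nat_lit 0) (XT.nd (nat_lit 78) (nat_lit 0) (nat_lit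 0) (XT.lf (nat_lit 0) (nat_lit 71290606555) (nat_lit 152) (nat_lit 118118522048) (nat_lit 0) (nat_lit 62845865630) (nat_lit 2) (nat_lit 5) (nat_lit 4) (nat_lit 4) (nat_lit 2) (nat_lit 4) (nat_lit 412) (nat_lit 282) (nat_lit 206)) (XT.nd (nat_lit 78) (nat_lit 0) (nat_lit 0) (XT.lf (nat_lit 0) (nat_lit 78622537031) (nat_lit 152) (nat_lit 115866645417) (nat_lit 0) (nat_lit 70167685800) (nat_lit 2) (nat_lit 5) (nat_lit 4) (nat_lit 4) (nat_lit 2) (nat_lit 4) (nat_lit 413) (nat_lit 282) (nat_lit 205)) (XT.lf (nat_lit 0) (nat_lit 86311924552) (nat_lit 152) (nat_lit 113519925803) (nat_lit 0) (nat_lit 77847444459) (nat_lit 2) (nat_lit 5) (nat_lit 4) (nat_lit 4) (nat_lit 2) (nat_lit 4) (nat_lit 414) (nat_lit 282) (nat_lit 204)))) (XT.nd (nat_lit 78) (nat_lit 0) (nat_lit 0) (XT.lf (nat_lit 0) (nat_lit 94377077186) (nat_lit 152) (nat_lit 111072775777) (nat_lit 0) (nat_lit 85903426748) (nat_lit 2)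 (nat_lit 5) (nat_lit 4) (nat_lit 4) (nat_lit 2) (nat_lit 4) (nat_lit 415) (nat_lit 282) (nat_lit 203)) (XT.nd (nat_lit 78) (nat_lit 0) (nat_lit 0) (XT.lf (nat_lit 0) (nat_lit 102837197676) (nat_lit 152) (nat_lit 108519368792) (nat_lit 0) (nat_lit 94354813577) (nat_lit 2) (nat_lit 5) (nat_lit 4) (nat_lit 4) (nat_lit 2) (nat_lit 4) (nat_lit 416) (nat_lit 282) (nat_lit 202)) (XT.lf (nat_lit 0) (nat_lit 111712429167) (nat_lit 152) (nat_lit 105853625308) (nat_lit 0) (nat_lit 103221727294) (nat_lit 2) (nat_lit 5) (nat_lit 4) (nat_lit 4) (nat_lit 2) (nat_lit 4) (nat_lit 417) (nat_lit 282) (nat_lit 201))))))) (XT.nd (nat_lit 858) (nat_lit 0) (nat_lit 0) (XT.nd (nat_lit 390) (nat_lit 0) (nat_lit 0) (XT.nd (nat_lit 156) (nat_lit 0) (nat_lit 0) (XT.nd (nat_lit 78) (nat_lit 0) (nat_lit 0) (XT.lf (nat_lit 0) (nat_lit 121023903162) (nat_lit 152) (nat_lit 103069198316) (nat_lit 0) (nat_lit 112525279600)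 (nat_lit 2) (nat_lit 5) (nat_lit 4) (nat_lit 4) (nat_lit 2) (nat_lit 4) (nat_lit 418) (nat_lit 282) (nat_lit 200)) (XT.lf (nat_lit 0) (nat_lit 130793789836) (nat_lit 152) (nat_lit 100159458228) (nat_lit 0) (nat_lit 122287621809) (nat_lit 2) (nat_lit 5) (nat_lit 4) (nat_lit 4) (nat_lit 2) (nat_lit 4) (nat_lit 419) (nat_lit 282) (nat_lit 199))) (XT.nd (nat_lit 78) (nat_lit 0) (nat_lit 0) (XT.lf (nat_lit 0) (nat_lit 141045350826) (nat_lit 152) (nat_lit 97117477092) (nat_lit 0) (nat_lit 132531997594) (nat_lit 2) (nat_lit 5) (nat_lit 4) (nat_lit 4) (nat_lit 2) (nat_lit 4) (nat_lit 420) (nat_lit 282) (nat_lit 198)) (XT.nd (nat_lit 78) (nat_lit 0) (nat_lit 0) (XT.lf (nat_lit 0) (nat_lit 151802994610) (nat_lit 152) (nat_lit 93936012096) (nat_lit 0) (nat_lit 143282798325) (nat_lit 2) (nat_lit 5) (nat_lit 4) (nat_lit 4) (nat_lit 2) (nat_lit 4) (nat_lit 421) (nat_lit 282) (nat_lit 197)) (XT.lf (nat_lit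 0) (nat_lit 163092334625) (nat_lit 152) (nat_lit 90607488322) (nat_lit 0) (nat_lit 154565621147) (nat_lit 2) (nat_lit 5) (nat_lit 4) (nat_lit 4) (nat_lit 2) (nat_lit 4) (nat_lit 422) (nat_lit 282) (nat_lit 196))))) (XT.nd (nat_lit 234) (nat_lit 0) (nat_lit 0) (XT.nd (nat_lit 78) (nat_lit 0) (nat_lit 0) (XT.lf (nat_lit 0) (nat_lit 174940250252) (nat_lit 152) (nat_lit 87123980714) (nat_lit 0) (nat_lit 166407329923) (nat_lit 2) (nat_lit 5) (nat_lit 4) (nat_lit 4) (nat_lit 2) (nat_lit 4) (nat_lit 423) (nat_lit 282) (nat_lit 195)) (XT.nd (nat_lit 78) (nat_lit 0) (nat_lit 0) (XT.lf (nat_lit 0) (nat_lit 187374950814) (nat_lit 152) (nat_lit 83477195207) (nat_lit 0) (nat_lit 178836119199) (nat_lit 2) (nat_lit 5) (nat_lit 4) (nat_lit 4) (nat_lit 2) (nat_lit 4) (nat_lit 424) (nat_lit 282) (nat_lit 194)) (XT.lf (nat_lit 0) (nat_lit 200426042741) (nat_lit 152) (nat_lit 79658448977) (nat_lit 0) (nat_lit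 191881581330) (nat_lit 2) (nat_lit 5) (nat_lit 4) (nat_lit 4) (nat_lit 2) (nat_lit 4) (nat_lit 425) (nat_lit 282) (nat_lit 193)))) (XT.nd (nat_lit 78) (nat_lit 0) (nat_lit 0) (XT.lf (nat_lit 0) (nat_lit 214124600062) (nat_lit 152) (nat_lit 75658649773) (nat_lit 0) (nat_lit 205574776940) (nat_lit 2) (nat_lit 5) (nat_lit 4) (nat_lit 4) (nat_lit 2) (nat_lit 4) (nat_lit 426) (nat_lit 282) (nat_lit 192)) (XT.nd (nat_lit 78) (nat_lit 0) (nat_lit 0) (XT.lf (nat_lit 0) (nat_lit 228503238388) (nat_lit 152) (nat_lit 71468274262) (nat_lit 0) (nat_lit 219948308876) (nat_lit 2) (nat_lit 5) (nat_lit 4) (nat_lit 4) (nat_lit 2) (nat_lit 4) (nat_lit 427) (nat_lit 282) (nat_lit 191)) (XT.lf (nat_lit 0) (nat_lit 243596192574) (nat_lit 152) (nat_lit 67077345359) (nat_lit 0) (nat_lit 235036399832) (nat_lit 2) (nat_lit 5) (nat_lit 4) (nat_lit 4) (nat_lit 2) (nat_lit 4) (nat_lit 428) (nat_lit 282) (nat_lit 190))))))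 (XT.nd (nat_lit 468) (nat_lit 0) (nat_lit 0) (XT.nd (nat_lit 234) (nat_lit 0) (nat_lit 0) (XT.nd (nat_lit 78) (nat_lit 0) (nat_lit 0) (XT.lf (nat_lit 0) (nat_lit 259439398225) (nat_lit 152) (nat_lit 62475408473) (nat_lit 0) (nat_lit 250874973835) (nat_lit 2) (nat_lit 5) (nat_lit 4) (nat_lit 4) (nat_lit 2) (nat_lit 4) (nat_lit 429) (nat_lit 282) (nat_lit 189)) (XT.nd (nat_lit 78) (nat_lit 0) (nat_lit 0) (XT.lf (nat_lit 0) (nat_lit 276070577258) (nat_lit 152) (nat_lit 57651506611) (nat_lit 0) (nat_lit 267501741775) (nat_lit 2) (nat_lit 5) (nat_lit 4) (nat_lit 4) (nat_lit 2) (nat_lit 4) (nat_lit 430) (nat_lit 282) (nat_lit 188)) (XT.lf (nat_lit 0) (nat_lit 293529327719) (nat_lit 152) (nat_lit 52594154291) (nat_lit 0) (nat_lit 284956291196) (nat_lit 2) (nat_lit 5) (nat_lit 4) (nat_lit 4) (nat_lit 2) (nat_lit 4) (nat_lit 431) (nat_lit 282) (nat_lit 187)))) (XT.nd (nat_lit 78) (nat_lit 0) (nat_lit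 0) (XT.lf (nat_lit 0) (nat_lit 311857218062) (nat_lit 152) (nat_lit 47291310200) (nat_lit 0) (nat_lit 303280180547) (nat_lit 2) (nat_lit 5) (nat_lit 4) (nat_lit 4) (nat_lit 2) (nat_lit 4) (nat_lit 432) (nat_lit 282) (nat_lit 186)) (XT.nd (nat_lit 78) (nat_lit 0) (nat_lit 0) (XT.lf (nat_lit 0) (nat_lit 331097886120) (nat_lit 152) (nat_lit 41730348517) (nat_lit 0) (nat_lit 322517038138) (nat_lit 2) (nat_lit 5) (nat_lit 4) (nat_lit 4) (nat_lit 2) (nat_lit 4) (nat_lit 433) (nat_lit 282) (nat_lit 185)) (XT.lf (nat_lit 0) (nat_lit 351297143008) (nat_lit 152) (nat_lit 35898028858) (nat_lit 0) (nat_lit 342712666009) (nat_lit 2) (nat_lit 5) (nat_lit 4) (nat_lit 4) (nat_lit 2) (nat_lit 4) (nat_lit 434) (nat_lit 282) (nat_lit 184))))) (XT.nd (nat_lit 39156) (nat_lit 0) (nat_lit 2432) (XT.nd (nat_lit 39000) (nat_lit 0) (nat_lit 2888) (XT.lf (nat_lit 0) (nat_lit 372503082195) (nat_lit 152) (nat_lit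 29780464747) (nat_lit 0) (nat_lit 363915148990) (nat_lit 2) (nat_lit 5) (nat_lit 4) (nat_lit 4) (nat_lit 2) (nat_lit 4) (nat_lit 435) (nat_lit 282) (nat_lit 183)) (XT.nd (nat_lit 78) (nat_lit 152) (nat_lit 0) (XT.lf (nat_lit 0) (nat_lit 2396187294) (nat_lit 228) (nat_lit 364057179) (nat_lit 0) (nat_lit 2396187294) (nat_lit 42) (nat_lit 5) (nat_lit 45) (nat_lit 4) (nat_lit 42) (nat_lit 4) (nat_lit 334) (nat_lit 283) (nat_lit 283)) (XT.lf (nat_lit 0) (nat_lit 7063746312) (nat_lit 152) (nat_lit 2126958119) (nat_lit 152) (nat_lit 1386632824) (nat_lit 40) (nat_lit 4) (nat_lit 42) (nat_lit 5) (nat_lit 42) (nat_lit 4) (nat_lit 335) (nat_lit 283) (nat_lit 282)))) (XT.nd (nat_lit 78) (nat_lit 228) (nat_lit 0) (XT.lf (nat_lit 0) (nat_lit 2802801095) (nat_lit 228) (nat_lit 6626654624) (nat_lit 0) (nat_lit 1426232521) (nat_lit 37) (nat_lit 5) (nat_lit 40) (nat_lit 4) (nat_lit 37) (nat_lit 4) (nat_lit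 336) (nat_lit 283) (nat_lit 281)) (XT.nd (nat_lit 78) (nat_lit 76) (nat_lit 0) (XT.lf (nat_lit 0) (nat_lit 1056007275) (nat_lit 152) (nat_lit 6054625374) (nat_lit 152) (nat_lit 4038535975) (nat_lit 35) (nat_lit 4) (nat_lit 37) (nat_lit 5) (nat_lit 37) (nat_lit 4) (nat_lit 337) (nat_lit 283) (nat_lit 280)) (XT.lf (nat_lit 0) (nat_lit 129545119) (nat_lit 228) (nat_lit 2359589355) (nat_lit 76) (nat_lit 8970230748) (nat_lit 34) (nat_lit 5) (nat_lit 37) (nat_lit 5) (nat_lit 35) (nat_lit 4) (nat_lit 338) (nat_lit 283) (nat_lit 279))))))))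
noncomputable def xc57 : XT := (XT.nd (nat_lit 1794) (nat_lit 608) (nat_lit 0) (XT.nd (nat_lit 858) (nat_lit 532) (nat_lit 0) (XT.nd (nat_lit 390) (nat_lit 456) (nat_lit 0) (XT.nd (nat_lit 156) (nat_lit 304) (nat_lit 0) (XT.nd (nat_lit 78) (nat_lit 152) (nat_lit 0) (XT.lf (nat_lit 0) (nat_lit 4330834485) (nat_lit 228) (nat_lit 6174765388) (nat_lit 0) (nat_lit 1278242970) (nat_lit 32) (nat_lit 5) (nat_lit 35) (nat_lit 4) (nat_lit 32) (nat_lit 4) (nat_lit 339) (nat_lit 283) (nat_lit 278)) (XT.lf (nat_lit 0) (nat_lit 1702724187) (nat_lit 152) (nat_lit 7001279443) (nat_lit 152) (nat_lit 3422552563) (nat_lit 30) (nat_lit 4) (nat_lit 32) (nat_lit 5) (nat_lit 32) (nat_lit 4) (nat_lit 340) (nat_lit 283) (nat_lit 277))) (XT.nd (nat_lit 78) (nat_lit 228) (nat_lit 0) (XT.lf (nat_lit 0) (nat_lit 744361708) (nat_lit 228) (nat_lit 2553866677) (nat_lit 76) (nat_lit 9189595909) (nat_lit 29) (nat_lit 5)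 (nat_lit 32) (nat_lit 5) (nat_lit 30) (nat_lit 4) (nat_lit 341) (nat_lit 283) (nat_lit 276)) (XT.nd (nat_lit 78) (nat_lit 152) (nat_lit 0) (XT.lf (nat_lit 0) (nat_lit 4963533618) (nat_lit 152) (nat_lit 7279452339) (nat_lit 0) (nat_lit 623506507) (nat_lit 28) (nat_lit 5) (nat_lit 30) (nat_lit 4) (nat_lit 28) (nat_lit 4) (nat_lit 342) (nat_lit 283) (nat_lit 275)) (XT.lf (nat_lit 0) (nat_lit 692487238) (nat_lit 152) (nat_lit 8672990267) (nat_lit 152) (nat_lit 3900110290) (nat_lit 26) (nat_lit 4) (nat_lit 28) (nat_lit 5) (nat_lit 28) (nat_lit 4) (nat_lit 343) (nat_lit 283) (nat_lit 274))))) (XT.nd (nat_lit 234) (nat_lit 304) (nat_lit 0) (XT.nd (nat_lit 78) (nat_lit 76) (nat_lit 0) (XT.lf (nat_lit 0) (nat_lit 282074622) (nat_lit 228) (nat_lit 4606867826) (nat_lit 76) (nat_lit 8796091173) (nat_lit 25) (nat_lit 5) (nat_lit 28) (nat_lit 5) (nat_lit 26) (nat_lit 4) (nat_lit 344) (nat_lit 283) (nat_lit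 273)) (XT.nd (nat_lit 78) (nat_lit 0) (nat_lit 0) (XT.lf (nat_lit 0) (nat_lit 3582306867) (nat_lit 76) (nat_lit 886004342) (nat_lit 152) (nat_lit 9657716057) (nat_lit 24) (nat_lit 5) (nat_lit 25) (nat_lit 5) (nat_lit 26) (nat_lit 4) (nat_lit 345) (nat_lit 283) (nat_lit 272)) (XT.lf (nat_lit 0) (nat_lit 8866255635) (nat_lit 152) (nat_lit 2524742971) (nat_lit 0) (nat_lit 3198021641) (nat_lit 24) (nat_lit 5) (nat_lit 26) (nat_lit 4) (nat_lit 24) (nat_lit 4) (nat_lit 346) (nat_lit 283) (nat_lit 271)))) (XT.nd (nat_lit 78) (nat_lit 152) (nat_lit 0) (XT.lf (nat_lit 0) (nat_lit 5851381548) (nat_lit 152) (nat_lit 7616033561) (nat_lit 152) (nat_lit 1608648020) (nat_lit 22) (nat_lit 4) (nat_lit 24) (nat_lit 5) (nat_lit 24) (nat_lit 4) (nat_lit 347) (nat_lit 283) (nat_lit 270)) (XT.nd (nat_lit 78) (nat_lit 76) (nat_lit 0) (XT.lf (nat_lit 0) (nat_lit 2545776019) (nat_lit 228) (nat_lit 1111546175)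 (nat_lit 76) (nat_lit 11932010701) (nat_lit 21) (nat_lit 5) (nat_lit 24) (nat_lit 5) (nat_lit 22) (nat_lit 4) (nat_lit 348) (nat_lit 283) (nat_lit 269)) (XT.lf (nat_lit 0) (nat_lit 6862012892) (nat_lit 152) (nat_lit 8724483174) (nat_lit 0) (nat_lit 540101019) (nat_lit 20) (nat_lit 5) (nat_lit 22) (nat_lit 4) (nat_lit 20) (nat_lit 4) (nat_lit 349) (nat_lit 283) (nat_lit 268)))))) (XT.nd (nat_lit 468) (nat_lit 228) (nat_lit 0) (XT.nd (nat_lit 234) (nat_lit 152) (nat_lit 0) (XT.nd (nat_lit 78) (nat_lit 152) (nat_lit 0) (XT.lf (nat_lit 0) (nat_lit 11357842912) (nat_lit 152) (nat_lit 577836704) (nat_lit 0) (nat_lit 4756910222) (nat_lit 20) (nat_lit 5) (nat_lit 22) (nat_lit 4) (nat_lit 20) (nat_lit 4) (nat_lit 350) (nat_lit 283) (nat_lit 267)) (XT.nd (nat_lit 78) (nat_lit 76) (nat_lit 0) (XT.lf (nat_lit 0) (nat_lit 8035385441) (nat_lit 76) (nat_lit 8058716764) (nat_lit 76) (nat_lit 1192049962)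 (nat_lit 19) (nat_lit 4) (nat_lit 20) (nat_lit 5) (nat_lit 20) (nat_lit 4) (nat_lit 351) (nat_lit 283) (nat_lit 266)) (XT.lf (nat_lit 0) (nat_lit 2957219035) (nat_lit 152) (nat_lit 1057447885) (nat_lit 76) (nat_lit 13897282312) (nat_lit 18) (nat_lit 5) (nat_lit 20) (nat_lit 5) (nat_lit 19) (nat_lit 4) (nat_lit 352) (nat_lit 283) (nat_lit 265)))) (XT.nd (nat_lit 78) (nat_lit 76) (nat_lit 0) (XT.lf (nat_lit 0) (nat_lit 7292554095) (nat_lit 152) (nat_lit 10992324933) (nat_lit 0) (nat_lit 282291637) (nat_lit 17) (nat_lit 5) (nat_lit 19) (nat_lit 4) (nat_lit 17) (nat_lit 4) (nat_lit 353) (nat_lit 283) (nat_lit 264)) (XT.nd (nat_lit 78) (nat_lit 76) (nat_lit 0) (XT.lf (nat_lit 0) (nat_lit 11825196171) (nat_lit 152) (nat_lit 2834659021) (nat_lit 0) (nat_lit 4596313602) (nat_lit 17) (nat_lit 5) (nat_lit 19) (nat_lit 4) (nat_lit 17) (nat_lit 4) (nat_lit 354) (nat_lit 283) (nat_lit 263)) (XT.lf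 (nat_lit 0) (nat_lit 5733680224) (nat_lit 76) (nat_lit 10841760448) (nat_lit 76) (nat_lit 3404668249) (nat_lit 16) (nat_lit 4) (nat_lit 17) (nat_lit 5) (nat_lit 17) (nat_lit 4) (nat_lit 355) (nat_lit 283) (nat_lit 262))))) (XT.nd (nat_lit 234) (nat_lit 76) (nat_lit 0) (XT.nd (nat_lit 78) (nat_lit 76) (nat_lit 0) (XT.lf (nat_lit 0) (nat_lit 747151707) (nat_lit 152) (nat_lit 6103726084) (nat_lit 76) (nat_lit 13891235670) (nat_lit 15) (nat_lit 5) (nat_lit 17) (nat_lit 5) (nat_lit 16) (nat_lit 4) (nat_lit 356) (nat_lit 283) (nat_lit 261)) (XT.nd (nat_lit 78) (nat_lit 0) (nat_lit 0) (XT.lf (nat_lit 0) (nat_lit 2291158155) (nat_lit 76) (nat_lit 2643182094) (nat_lit 152) (nat_lit 16608012506) (nat_lit 14) (nat_lit 5) (nat_lit 15) (nat_lit 5) (nat_lit 16) (nat_lit 4) (nat_lit 357) (nat_lit 283) (nat_lit 260)) (XT.lf (nat_lit 0) (nat_lit 9370678915) (nat_lit 152) (nat_lit 11262241166) (nat_lit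 0) (nat_lit 1747727807) (nat_lit 14) (nat_lit 5) (nat_lit 16) (nat_lit 4) (nat_lit 14) (nat_lit 4) (nat_lit 358) (nat_lit 283) (nat_lit 259)))) (XT.nd (nat_lit 78) (nat_lit 76) (nat_lit 0) (XT.lf (nat_lit 0) (nat_lit 13983608625) (nat_lit 152) (nat_lit 3082022440) (nat_lit 0) (nat_lit 6197519824) (nat_lit 14) (nat_lit 5) (nat_lit 16) (nat_lit 4) (nat_lit 14) (nat_lit 4) (nat_lit 359) (nat_lit 283) (nat_lit 258)) (XT.nd (nat_lit 78) (nat_lit 0) (nat_lit 0) (XT.lf (nat_lit 0) (nat_lit 5527107734) (nat_lit 76) (nat_lit 13302030973) (nat_lit 76) (nat_lit 5360572940) (nat_lit 13) (nat_lit 4) (nat_lit 14) (nat_lit 5) (nat_lit 14) (nat_lit 4) (nat_lit 360) (nat_lit 283) (nat_lit 257)) (XT.lf (nat_lit 0) (nat_lit 14519226106) (nat_lit 76) (nat_lit 9367179456) (nat_lit 76) (nat_lit 1277750727) (nat_lit 13) (nat_lit 4) (nat_lit 14) (nat_lit 5) (nat_lit 14) (nat_lit 4) (nat_lit 361) (nat_lit 283)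 (nat_lit 256))))))) (XT.nd (nat_lit 858) (nat_lit 228) (nat_lit 0) (XT.nd (nat_lit 390) (nat_lit 152) (nat_lit 0) (XT.nd (nat_lit 156) (nat_lit 76) (nat_lit 0) (XT.nd (nat_lit 78) (nat_lit 76) (nat_lit 0) (XT.lf (nat_lit 0) (nat_lit 2832785168) (nat_lit 152) (nat_lit 2423143607) (nat_lit 76) (nat_lit 20933077144) (nat_lit 12) (nat_lit 5) (nat_lit 14) (nat_lit 5) (nat_lit 13) (nat_lit 4) (nat_lit 362) (nat_lit 283) (nat_lit 255)) (XT.lf (nat_lit 0) (nat_lit 6246042113) (nat_lit 76) (nat_lit 881084276) (nat_lit 152) (nat_lit 20135888266) (nat_lit 11) (nat_lit 5) (nat_lit 12) (nat_lit 5) (nat_lit 13) (nat_lit 4) (nat_lit 363) (nat_lit 283) (nat_lit 254))) (XT.nd (nat_lit 78) (nat_lit 76) (nat_lit 0) (XT.lf (nat_lit 0) (nat_lit 11659977541) (nat_lit 152) (nat_lit 13157592977) (nat_lit 0) (nat_lit 3571987410) (nat_lit 11) (nat_lit 5) (nat_lit 13) (nat_lit 4) (nat_lit 11) (nat_lit 4) (nat_lit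 364) (nat_lit 283) (nat_lit 253)) (XT.nd (nat_lit 78) (nat_lit 76) (nat_lit 0) (XT.lf (nat_lit 0) (nat_lit 16361649018) (nat_lit 152) (nat_lit 5055973095) (nat_lit 0) (nat_lit 8157719974) (nat_lit 11) (nat_lit 5) (nat_lit 13) (nat_lit 4) (nat_lit 11) (nat_lit 4) (nat_lit 365) (nat_lit 283) (nat_lit 252)) (XT.lf (nat_lit 0) (nat_lit 3430737908) (nat_lit 76) (nat_lit 17852404608) (nat_lit 76) (nat_lit 9538057552) (nat_lit 10) (nat_lit 4) (nat_lit 11) (nat_lit 5) (nat_lit 11) (nat_lit 4) (nat_lit 366) (nat_lit 283) (nat_lit 251))))) (XT.nd (nat_lit 234) (nat_lit 76) (nat_lit 0) (XT.nd (nat_lit 78) (nat_lit 76) (nat_lit 0) (XT.lf (nat_lit 0) (nat_lit 12389614986) (nat_lit 76) (nat_lit 14079179670) (nat_lit 76) (nat_lit 5659672602) (nat_lit 10) (nat_lit 4) (nat_lit 11) (nat_lit 5) (nat_lit 11) (nat_lit 4) (nat_lit 367) (nat_lit 283) (nat_lit 250)) (XT.nd (nat_lit 78) (nat_lit 76) (nat_lit 0)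 (XT.lf (nat_lit 0) (nat_lit 21674815494) (nat_lit 76) (nat_lit 10174588782) (nat_lit 76) (nat_lit 1654929322) (nat_lit 10) (nat_lit 4) (nat_lit 11) (nat_lit 5) (nat_lit 11) (nat_lit 4) (nat_lit 368) (nat_lit 283) (nat_lit 249)) (XT.lf (nat_lit 0) (nat_lit 2406149231) (nat_lit 152) (nat_lit 3682436764) (nat_lit 76) (nat_lit 28861548520) (nat_lit 9) (nat_lit 5) (nat_lit 11) (nat_lit 5) (nat_lit 10) (nat_lit 4) (nat_lit 369) (nat_lit 283) (nat_lit 248)))) (XT.nd (nat_lit 78) (nat_lit 0) (nat_lit 0) (XT.lf (nat_lit 0) (nat_lit 4889057508) (nat_lit 76) (nat_lit 1742621208) (nat_lit 152) (nat_lit 29834356462) (nat_lit 8) (nat_lit 5) (nat_lit 9) (nat_lit 5) (nat_lit 10) (nat_lit 4) (nat_lit 370) (nat_lit 283) (nat_lit 247)) (XT.nd (nat_lit 78) (nat_lit 0) (nat_lit 0) (XT.lf (nat_lit 0) (nat_lit 11116874424) (nat_lit 152) (nat_lit 24195292193) (nat_lit 0) (nat_lit 2743160840) (nat_lit 8) (nat_lit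 5) (nat_lit 10) (nat_lit 4) (nat_lit 8) (nat_lit 4) (nat_lit 371) (nat_lit 283) (nat_lit 246)) (XT.lf (nat_lit 0) (nat_lit 15798674066) (nat_lit 152) (nat_lit 16580319919) (nat_lit 0) (nat_lit 7346488462) (nat_lit 8) (nat_lit 5) (nat_lit 10) (nat_lit 4) (nat_lit 8) (nat_lit 4) (nat_lit 372) (nat_lit 283) (nat_lit 245)))))) (XT.nd (nat_lit 468) (nat_lit 152) (nat_lit 0) (XT.nd (nat_lit 234) (nat_lit 0) (nat_lit 0) (XT.nd (nat_lit 78) (nat_lit 76) (nat_lit 0) (XT.lf (nat_lit 0) (nat_lit 20661017583) (nat_lit 152) (nat_lit 8686722762) (nat_lit 0) (nat_lit 12134096722) (nat_lit 8) (nat_lit 5) (nat_lit 10) (nat_lit 4) (nat_lit 8) (nat_lit 4) (nat_lit 373) (nat_lit 283) (nat_lit 244)) (XT.nd (nat_lit 78) (nat_lit 76) (nat_lit 0) (XT.lf (nat_lit 0) (nat_lit 25715481984) (nat_lit 152) (nat_lit 495706443) (nat_lit 0) (nat_lit 17117384688) (nat_lit 8) (nat_lit 5) (nat_lit 10) (nat_lit 4) (nat_lit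 8) (nat_lit 4) (nat_lit 374) (nat_lit 283) (nat_lit 243)) (XT.lf (nat_lit 0) (nat_lit 8277152014) (nat_lit 76) (nat_lit 22826179233) (nat_lit 76) (nat_lit 14160294856) (nat_lit 7) (nat_lit 4) (nat_lit 8) (nat_lit 5) (nat_lit 8) (nat_lit 4) (nat_lit 375) (nat_lit 283) (nat_lit 242)))) (XT.nd (nat_lit 78) (nat_lit 0) (nat_lit 0) (XT.lf (nat_lit 0) (nat_lit 17414727988) (nat_lit 76) (nat_lit 19306561998) (nat_lit 76) (nat_lit 10576118495) (nat_lit 7) (nat_lit 4) (nat_lit 8) (nat_lit 5) (nat_lit 8) (nat_lit 4) (nat_lit 376) (nat_lit 283) (nat_lit 241)) (XT.nd (nat_lit 78) (nat_lit 0) (nat_lit 0) (XT.lf (nat_lit 0) (nat_lit 26922387319) (nat_lit 76) (nat_lit 15652351708) (nat_lit 76) (nat_lit 6860423325) (nat_lit 7) (nat_lit 4) (nat_lit 8) (nat_lit 5) (nat_lit 8) (nat_lit 4) (nat_lit 377) (nat_lit 283) (nat_lit 240)) (XT.lf (nat_lit 0) (nat_lit 36822767291) (nat_lit 76) (nat_lit 11854847863)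 (nat_lit 76) (nat_lit 3004362450) (nat_lit 7) (nat_lit 4) (nat_lit 8) (nat_lit 5) (nat_lit 8) (nat_lit 4) (nat_lit 378) (nat_lit 283) (nat_lit 239))))) (XT.nd (nat_lit 234) (nat_lit 0) (nat_lit 0) (XT.nd (nat_lit 78) (nat_lit 76) (nat_lit 0) (XT.lf (nat_lit 0) (nat_lit 969199124) (nat_lit 152) (nat_lit 6919395807) (nat_lit 76) (nat_lit 46153827256) (nat_lit 6) (nat_lit 5) (nat_lit 8) (nat_lit 5) (nat_lit 7) (nat_lit 4) (nat_lit 379) (nat_lit 283) (nat_lit 238)) (XT.nd (nat_lit 78) (nat_lit 0) (nat_lit 0) (XT.lf (nat_lit 0) (nat_lit 1334566468) (nat_lit 76) (nat_lit 3686864474) (nat_lit 152) (nat_lit 51497957408) (nat_lit 5) (nat_lit 5) (nat_lit 6) (nat_lit 5) (nat_lit 7) (nat_lit 4) (nat_lit 380) (nat_lit 283) (nat_lit 237)) (XT.lf (nat_lit 0) (nat_lit 9366985313) (nat_lit 152) (nat_lit 48962611496) (nat_lit 0) (nat_lit 786079859) (nat_lit 5) (nat_lit 5) (nat_lit 7) (nat_lit 4) (nat_lit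 5) (nat_lit 4) (nat_lit 381) (nat_lit 283) (nat_lit 236)))) (XT.nd (nat_lit 78) (nat_lit 0) (nat_lit 0) (XT.lf (nat_lit 0) (nat_lit 13952436917) (nat_lit 152) (nat_lit 42562569960) (nat_lit 0) (nat_lit 5325650498) (nat_lit 5) (nat_lit 5) (nat_lit 7) (nat_lit 4) (nat_lit 5) (nat_lit 4) (nat_lit 382) (nat_lit 283) (nat_lit 235)) (XT.nd (nat_lit 78) (nat_lit 0) (nat_lit 0) (XT.lf (nat_lit 0) (nat_lit 18731141208) (nat_lit 152) (nat_lit 35911896794) (nat_lit 0) (nat_lit 10060658632) (nat_lit 5) (nat_lit 5) (nat_lit 7) (nat_lit 4) (nat_lit 5) (nat_lit 4) (nat_lit 383) (nat_lit 283) (nat_lit 234)) (XT.lf (nat_lit 0) (nat_lit 23714476054) (nat_lit 152) (nat_lit 28994757062) (nat_lit 0) (nat_lit 15002378091) (nat_lit 5) (nat_lit 5) (nat_lit 7) (nat_lit 4) (nat_lit 5) (nat_lit 4) (nat_lit 384) (nat_lit 283) (nat_lit 233))))))))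
noncomputable def xc58 : XT := (XT.nd (nat_lit 1794) (nat_lit 0) (nat_lit 0) (XT.nd (nat_lit 858) (nat_lit 152) (nat_lit 0) (XT.nd (nat_lit 390) (nat_lit 0) (nat_lit 0) (XT.nd (nat_lit 156) (nat_lit 76) (nat_lit 0) (XT.nd (nat_lit 78) (nat_lit 0) (nat_lit 0) (XT.lf (nat_lit 0) (nat_lit 28914306538) (nat_lit 152) (nat_lit 21794681383) (nat_lit 0) (nat_lit 20162574872) (nat_lit 5) (nat_lit 5) (nat_lit 7) (nat_lit 4) (nat_lit 5) (nat_lit 4) (nat_lit 385) (nat_lit 283) (nat_lit 232)) (XT.lf (nat_lit 0) (nat_lit 34343013208) (nat_lit 152) (nat_lit 14294526720) (nat_lit 0) (nat_lit 25553535158) (nat_lit 5) (nat_lit 5) (nat_lit 7) (nat_lit 4) (nat_lit 5) (nat_lit 4) (nat_lit 386) (nat_lit 283) (nat_lit 231))) (XT.nd (nat_lit 78) (nat_lit 76) (nat_lit 0) (XT.lf (nat_lit 0) (nat_lit 40013521556) (nat_lit 152) (nat_lit 6476435561) (nat_lit 0) (nat_lit 31188094570) (nat_lit 5) (nat_lit 5) (nat_lit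 7) (nat_lit 4) (nat_lit 5) (nat_lit 4) (nat_lit 387) (nat_lit 283) (nat_lit 230)) (XT.nd (nat_lit 78) (nat_lit 0) (nat_lit 0) (XT.lf (nat_lit 0) (nat_lit 1733695683) (nat_lit 76) (nat_lit 44232704958) (nat_lit 76) (nat_lit 35373040890) (nat_lit 4) (nat_lit 4) (nat_lit 5) (nat_lit 5) (nat_lit 5) (nat_lit 4) (nat_lit 388) (nat_lit 283) (nat_lit 229)) (XT.lf (nat_lit 0) (nat_lit 10525703820) (nat_lit 76) (nat_lit 41773187908) (nat_lit 76) (nat_lit 32880917095) (nat_lit 4) (nat_lit 4) (nat_lit 5) (nat_lit 5) (nat_lit 5) (nat_lit 4) (nat_lit 389) (nat_lit 283) (nat_lit 228))))) (XT.nd (nat_lit 234) (nat_lit 0) (nat_lit 0) (XT.nd (nat_lit 78) (nat_lit 0) (nat_lit 0) (XT.lf (nat_lit 0) (nat_lit 19706381992) (nat_lit 76) (nat_lit 39215231546) (nat_lit 76) (nat_lit 30291906690) (nat_lit 4) (nat_lit 4) (nat_lit 5) (nat_lit 5) (nat_lit 5) (nat_lit 4) (nat_lit 390) (nat_lit 283) (nat_lit 227)) (XT.nd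 (nat_lit 78) (nat_lit 0) (nat_lit 0) (XT.lf (nat_lit 0) (nat_lit 29297588957) (nat_lit 76) (nat_lit 36552745499) (nat_lit 76) (nat_lit 27599845365) (nat_lit 4) (nat_lit 4) (nat_lit 5) (nat_lit 5) (nat_lit 5) (nat_lit 4) (nat_lit 391) (nat_lit 283) (nat_lit 226)) (XT.lf (nat_lit 0) (nat_lit 39322160923) (nat_lit 76) (nat_lit 33779390515) (nat_lit 76) (nat_lit 24798323448) (nat_lit 4) (nat_lit 4) (nat_lit 5) (nat_lit 5) (nat_lit 5) (nat_lit 4) (nat_lit 392) (nat_lit 283) (nat_lit 225)))) (XT.nd (nat_lit 78) (nat_lit 0) (nat_lit 0) (XT.lf (nat_lit 0) (nat_lit 49803965917) (nat_lit 76) (nat_lit 30888563367) (nat_lit 76) (nat_lit 21880670650) (nat_lit 4) (nat_lit 4) (nat_lit 5) (nat_lit 5) (nat_lit 5) (nat_lit 4) (nat_lit 393) (nat_lit 283) (nat_lit 224)) (XT.nd (nat_lit 78) (nat_lit 0) (nat_lit 0) (XT.lf (nat_lit 0) (nat_lit 60767960619) (nat_lit 76) (nat_lit 27873381134) (nat_lit 76) (nat_lit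 18839940179) (nat_lit 4) (nat_lit 4) (nat_lit 5) (nat_lit 5) (nat_lit 5) (nat_lit 4) (nat_lit 394) (nat_lit 283) (nat_lit 223)) (XT.lf (nat_lit 0) (nat_lit 72240249778) (nat_lit 76) (nat_lit 24726664811) (nat_lit 76) (nat_lit 15668892201) (nat_lit 4) (nat_lit 4) (nat_lit 5) (nat_lit 5) (nat_lit 5) (nat_lit 4) (nat_lit 395) (nat_lit 283) (nat_lit 222)))))) (XT.nd (nat_lit 468) (nat_lit 0) (nat_lit 0) (XT.nd (nat_lit 234) (nat_lit 152) (nat_lit 0) (XT.nd (nat_lit 78) (nat_lit 0) (nat_lit 0) (XT.lf (nat_lit 0) (nat_lit 84248148367) (nat_lit 76) (nat_lit 21440922215) (nat_lit 76) (nat_lit 12359976600) (nat_lit 4) (nat_lit 4) (nat_lit 5) (nat_lit 5) (nat_lit 5) (nat_lit 4) (nat_lit 396) (nat_lit 283) (nat_lit 221)) (XT.nd (nat_lit 78) (nat_lit 0) (nat_lit 0) (XT.lf (nat_lit 0) (nat_lit 96820246622) (nat_lit 76) (nat_lit 18008330150) (nat_lit 76) (nat_lit 8905315006) (nat_lit 4) (nat_lit 4)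 (nat_lit 5) (nat_lit 5) (nat_lit 5) (nat_lit 4) (nat_lit 397) (nat_lit 283) (nat_lit 220)) (XT.lf (nat_lit 0) (nat_lit 109986478110) (nat_lit 76) (nat_lit 14420715777) (nat_lit 76) (nat_lit 5296682035) (nat_lit 4) (nat_lit 4) (nat_lit 5) (nat_lit 5) (nat_lit 5) (nat_lit 4) (nat_lit 398) (nat_lit 283) (nat_lit 219)))) (XT.nd (nat_lit 78) (nat_lit 152) (nat_lit 0) (XT.lf (nat_lit 0) (nat_lit 123778191001) (nat_lit 76) (nat_lit 10669537159) (nat_lit 76) (nat_lit 1525485704) (nat_lit 4) (nat_lit 4) (nat_lit 5) (nat_lit 5) (nat_lit 5) (nat_lit 4) (nat_lit 399) (nat_lit 283) (nat_lit 218)) (XT.nd (nat_lit 78) (nat_lit 76) (nat_lit 0) (XT.lf (nat_lit 0) (nat_lit 2339885833) (nat_lit 152) (nat_lit 4366349984) (nat_lit 76) (nat_lit 135848709775) (nat_lit 3) (nat_lit 5) (nat_lit 5) (nat_lit 5) (nat_lit 4) (nat_lit 4) (nat_lit 400) (nat_lit 283) (nat_lit 217)) (XT.lf (nat_lit 0) (nat_lit 3924042405)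 (nat_lit 76) (nat_lit 2468794181) (nat_lit 152) (nat_lit 143069401445) (nat_lit 2) (nat_lit 5) (nat_lit 3) (nat_lit 5) (nat_lit 4) (nat_lit 4) (nat_lit 401) (nat_lit 283) (nat_lit 216))))) (XT.nd (nat_lit 234) (nat_lit 0) (nat_lit 0) (XT.nd (nat_lit 78) (nat_lit 0) (nat_lit 0) (XT.lf (nat_lit 0) (nat_lit 10738883215) (nat_lit 152) (nat_lit 143993147223) (nat_lit 0) (nat_lit 1978345451) (nat_lit 2) (nat_lit 5) (nat_lit 4) (nat_lit 4) (nat_lit 2) (nat_lit 4) (nat_lit 402) (nat_lit 283) (nat_lit 215)) (XT.nd (nat_lit 78) (nat_lit 0) (nat_lit 0) (XT.lf (nat_lit 0) (nat_lit 15327816965) (nat_lit 152) (nat_lit 142440232695) (nat_lit 0) (nat_lit 6551594800) (nat_lit 2) (nat_lit 5) (nat_lit 4) (nat_lit 4) (nat_lit 2) (nat_lit 4) (nat_lit 403) (nat_lit 283) (nat_lit 214)) (XT.lf (nat_lit 0) (nat_lit 20132019074) (nat_lit 152) (nat_lit 140837209831) (nat_lit 0) (nat_lit 11340859382) (nat_lit 2)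 (nat_lit 5) (nat_lit 4) (nat_lit 4) (nat_lit 2) (nat_lit 4) (nat_lit 404) (nat_lit 283) (nat_lit 213)))) (XT.nd (nat_lit 78) (nat_lit 0) (nat_lit 0) (XT.lf (nat_lit 0) (nat_lit 25162928118) (nat_lit 152) (nat_lit 139180261912) (nat_lit 0) (nat_lit 16357542211) (nat_lit 2) (nat_lit 5) (nat_lit 4) (nat_lit 4) (nat_lit 2) (nat_lit 4) (nat_lit 405) (nat_lit 283) (nat_lit 212)) (XT.nd (nat_lit 78) (nat_lit 0) (nat_lit 0) (XT.lf (nat_lit 0) (nat_lit 30432522451) (nat_lit 152) (nat_lit 137465443822) (nat_lit 0) (nat_lit 21613587769) (nat_lit 2) (nat_lit 5) (nat_lit 4) (nat_lit 4) (nat_lit 2) (nat_lit 4) (nat_lit 406) (nat_lit 283) (nat_lit 211)) (XT.lf (nat_lit 0) (nat_lit 35953348727) (nat_lit 152) (nat_lit 135688672661) (nat_lit 0) (nat_lit 27121510449) (nat_lit 2) (nat_lit 5) (nat_lit 4) (nat_lit 4) (nat_lit 2) (nat_lit 4) (nat_lit 407) (nat_lit 283) (nat_lit 210))))))) (XT.nd (nat_lit 858)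 (nat_lit 0) (nat_lit 0) (XT.nd (nat_lit 390) (nat_lit 0) (nat_lit 0) (XT.nd (nat_lit 156) (nat_lit 0) (nat_lit 0) (XT.nd (nat_lit 78) (nat_lit 0) (nat_lit 0) (XT.lf (nat_lit 0) (nat_lit 41738551771) (nat_lit 152) (nat_lit 133845718022) (nat_lit 0) (nat_lit 32894424353) (nat_lit 2) (nat_lit 5) (nat_lit 4) (nat_lit 4) (nat_lit 2) (nat_lit 4) (nat_lit 408) (nat_lit 283) (nat_lit 209)) (XT.lf (nat_lit 0) (nat_lit 47801905876) (nat_lit 152) (nat_lit 131932191918) (nat_lit 0) (nat_lit 38946074516) (nat_lit 2) (nat_lit 5) (nat_lit 4) (nat_lit 4) (nat_lit 2) (nat_lit 4) (nat_lit 409) (nat_lit 283) (nat_lit 208))) (XT.nd (nat_lit 78) (nat_lit 0) (nat_lit 0) (XT.lf (nat_lit 0) (nat_lit 54157847598) (nat_lit 152) (nat_lit 129943538335) (nat_lit 0) (nat_lit 45290869627) (nat_lit 2) (nat_lit 5) (nat_lit 4) (nat_lit 4) (nat_lit 2) (nat_lit 4) (nat_lit 410) (nat_lit 283) (nat_lit 207)) (XT.nd (nat_lit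 78) (nat_lit 0) (nat_lit 0) (XT.lf (nat_lit 0) (nat_lit 60821510133) (nat_lit 152) (nat_lit 127875022381) (nat_lit 0) (nat_lit 51943916341) (nat_lit 2) (nat_lit 5) (nat_lit 4) (nat_lit 4) (nat_lit 2) (nat_lit 4) (nat_lit 411) (nat_lit 283) (nat_lit 206)) (XT.lf (nat_lit 0) (nat_lit 67808759343) (nat_lit 152) (nat_lit 125721719021) (nat_lit 0) (nat_lit 58921055246) (nat_lit 2) (nat_lit 5) (nat_lit 4) (nat_lit 4) (nat_lit 2) (nat_lit 4) (nat_lit 412) (nat_lit 283) (nat_lit 205))))) (XT.nd (nat_lit 234) (nat_lit 0) (nat_lit 0) (XT.nd (nat_lit 78) (nat_lit 0) (nat_lit 0) (XT.lf (nat_lit 0) (nat_lit 75136231537) (nat_lit 152) (nat_lit 123478501340) (nat_lit 0) (nat_lit 66238898577) (nat_lit 2) (nat_lit 5) (nat_lit 4) (nat_lit 4) (nat_lit 2) (nat_lit 4) (nat_lit 413) (nat_lit 283) (nat_lit 204)) (XT.nd (nat_lit 78) (nat_lit 0) (nat_lit 0) (XT.lf (nat_lit 0) (nat_lit 82821373076) (nat_lit 152)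 (nat_lit 121140028345) (nat_lit 0) (nat_lit 73914869772) (nat_lit 2) (nat_lit 5) (nat_lit 4) (nat_lit 4) (nat_lit 2) (nat_lit 4) (nat_lit 414) (nat_lit 283) (nat_lit 203)) (XT.lf (nat_lit 0) (nat_lit 90882481917) (nat_lit 152) (nat_lit 118700732242) (nat_lit 0) (nat_lit 81967244951) (nat_lit 2) (nat_lit 5) (nat_lit 4) (nat_lit 4) (nat_lit 2) (nat_lit 4) (nat_lit 415) (nat_lit 283) (nat_lit 202)))) (XT.nd (nat_lit 78) (nat_lit 0) (nat_lit 0) (XT.lf (nat_lit 0) (nat_lit 99338751176) (nat_lit 152) (nat_lit 116154805184) (nat_lit 0) (nat_lit 90415196437) (nat_lit 2) (nat_lit 5) (nat_lit 4) (nat_lit 4) (nat_lit 2) (nat_lit 4) (nat_lit 416) (nat_lit 283) (nat_lit 201)) (XT.nd (nat_lit 78) (nat_lit 0) (nat_lit 0) (XT.lf (nat_lit 0) (nat_lit 108210314828) (nat_lit 152) (nat_lit 113496185439) (nat_lit 0) (nat_lit 99278838399) (nat_lit 2) (nat_lit 5) (nat_lit 4) (nat_lit 4) (nat_lit 2) (nat_lit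 4) (nat_lit 417) (nat_lit 283) (nat_lit 200)) (XT.lf (nat_lit 0) (nat_lit 117518295642) (nat_lit 152) (nat_lit 110718542962) (nat_lit 0) (nat_lit 108579274748) (nat_lit 2) (nat_lit 5) (nat_lit 4) (nat_lit 4) (nat_lit 2) (nat_lit 4) (nat_lit 418) (nat_lit 283) (nat_lit 199)))))) (XT.nd (nat_lit 468) (nat_lit 0) (nat_lit 0) (XT.nd (nat_lit 234) (nat_lit 0) (nat_lit 0) (XT.nd (nat_lit 78) (nat_lit 0) (nat_lit 0) (XT.lf (nat_lit 0) (nat_lit 127284855479) (nat_lit 152) (nat_lit 107815264316) (nat_lit 0) (nat_lit 118338649379) (nat_lit 2) (nat_lit 5) (nat_lit 4) (nat_lit 4) (nat_lit 2) (nat_lit 4) (nat_lit 419) (nat_lit 283) (nat_lit 198)) (XT.nd (nat_lit 78) (nat_lit 0) (nat_lit 0) (XT.lf (nat_lit 0) (nat_lit 137533248051) (nat_lit 152) (nat_lit 104779436934) (nat_lit 0) (nat_lit 128580198899) (nat_lit 2) (nat_lit 5) (nat_lit 4) (nat_lit 4) (nat_lit 2) (nat_lit 4) (nat_lit 420) (nat_lit 283)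 (nat_lit 197)) (XT.lf (nat_lit 0) (nat_lit 148287874294) (nat_lit 152) (nat_lit 101603832656) (nat_lit 0) (nat_lit 139328307949) (nat_lit 2) (nat_lit 5) (nat_lit 4) (nat_lit 4) (nat_lit 2) (nat_lit 4) (nat_lit 421) (nat_lit 283) (nat_lit 196)))) (XT.nd (nat_lit 78) (nat_lit 0) (nat_lit 0) (XT.lf (nat_lit 0) (nat_lit 159574340461) (nat_lit 152) (nat_lit 98280890519) (nat_lit 0) (nat_lit 150608567266) (nat_lit 2) (nat_lit 5) (nat_lit 4) (nat_lit 4) (nat_lit 2) (nat_lit 4) (nat_lit 422) (nat_lit 283) (nat_lit 195)) (XT.nd (nat_lit 78) (nat_lit 0) (nat_lit 0) (XT.lf (nat_lit 0) (nat_lit 171419519090) (nat_lit 152) (nat_lit 94802698755) (nat_lit 0) (nat_lit 162447834608) (nat_lit 2) (nat_lit 5) (nat_lit 4) (nat_lit 4) (nat_lit 2) (nat_lit 4) (nat_lit 423) (nat_lit 283) (nat_lit 194)) (XT.lf (nat_lit 0) (nat_lit 183851612987) (nat_lit 152) (nat_lit 91160975957) (nat_lit 0) (nat_lit 174874298709)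 (nat_lit 2) (nat_lit 5) (nat_lit 4) (nat_lit 4) (nat_lit 2) (nat_lit 4) (nat_lit 424) (nat_lit 283) (nat_lit 193))))) (XT.nd (nat_lit 234) (nat_lit 0) (nat_lit 0) (XT.nd (nat_lit 78) (nat_lit 0) (nat_lit 0) (XT.lf (nat_lit 0) (nat_lit 196900222376) (nat_lit 152) (nat_lit 87347051355) (nat_lit 0) (nat_lit 187917546388) (nat_lit 2) (nat_lit 5) (nat_lit 4) (nat_lit 4) (nat_lit 2) (nat_lit 4) (nat_lit 425) (nat_lit 283) (nat_lit 192)) (XT.nd (nat_lit 78) (nat_lit 0) (nat_lit 0) (XT.lf (nat_lit 0) (nat_lit 210596415375) (nat_lit 152) (nat_lit 83351844176) (nat_lit 0) (nat_lit 201608632995) (nat_lit 2) (nat_lit 5) (nat_lit 4) (nat_lit 4) (nat_lit 2) (nat_lit 4) (nat_lit 426) (nat_lit 283) (nat_lit 191)) (XT.lf (nat_lit 0) (nat_lit 224972801966) (nat_lit 152) (nat_lit 79165842023) (nat_lit 0) (nat_lit 215980156357) (nat_lit 2) (nat_lit 5) (nat_lit 4) (nat_lit 4) (nat_lit 2) (nat_lit 4) (nat_lit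 427) (nat_lit 283) (nat_lit 190)))) (XT.nd (nat_lit 78) (nat_lit 0) (nat_lit 0) (XT.lf (nat_lit 0) (nat_lit 240063611642) (nat_lit 152) (nat_lit 74779078224) (nat_lit 0) (nat_lit 231066334386) (nat_lit 2) (nat_lit 5) (nat_lit 4) (nat_lit 4) (nat_lit 2) (nat_lit 4) (nat_lit 428) (nat_lit 283) (nat_lit 189)) (XT.nd (nat_lit 78) (nat_lit 0) (nat_lit 0) (XT.lf (nat_lit 0) (nat_lit 255904774903) (nat_lit 152) (nat_lit 70181108103) (nat_lit 0) (nat_lit 246903086554) (nat_lit 2) (nat_lit 5) (nat_lit 4) (nat_lit 4) (nat_lit 2) (nat_lit 4) (nat_lit 429) (nat_lit 283) (nat_lit 188)) (XT.lf (nat_lit 0) (nat_lit 272534008802) (nat_lit 152) (nat_lit 65360984112) (nat_lit 0) (nat_lit 263528119413) (nat_lit 2) (nat_lit 5) (nat_lit 4) (nat_lit 4) (nat_lit 2) (nat_lit 4) (nat_lit 430) (nat_lit 283) (nat_lit 187))))))))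
noncomputable def xc59 : XT := (XT.nd (nat_lit 40560) (nat_lit 0) (nat_lit 456) (XT.nd (nat_lit 39624) (nat_lit 0) (nat_lit 1368) (XT.nd (nat_lit 39156) (nat_lit 0) (nat_lit 2508) (XT.nd (nat_lit 156) (nat_lit 0) (nat_lit 0) (XT.nd (nat_lit 78) (nat_lit 0) (nat_lit 0) (XT.lf (nat_lit 0) (nat_lit 289990906755) (nat_lit 152) (nat_lit 60307229765) (nat_lit 0) (nat_lit 280981016374) (nat_lit 2) (nat_lit 5) (nat_lit 4) (nat_lit 4) (nat_lit 2) (nat_lit 4) (nat_lit 431) (nat_lit 283) (nat_lit 186)) (XT.lf (nat_lit 0) (nat_lit 308317032805) (nat_lit 152) (nat_lit 55007812314) (nat_lit 0) (nat_lit 299303331956) (nat_lit 2) (nat_lit 5) (nat_lit 4) (nat_lit 4) (nat_lit 2) (nat_lit 4) (nat_lit 432) (nat_lit 283) (nat_lit 185))) (XT.nd (nat_lit 78) (nat_lit 0) (nat_lit 0) (XT.lf (nat_lit 0) (nat_lit 327556020584) (nat_lit 152) (nat_lit 49450114099) (nat_lit 0) (nat_lit 318538690718) (nat_lit 2) (nat_lit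 5) (nat_lit 4) (nat_lit 4) (nat_lit 2) (nat_lit 4) (nat_lit 433) (nat_lit 283) (nat_lit 184)) (XT.nd (nat_lit 78) (nat_lit 0) (nat_lit 0) (XT.lf (nat_lit 0) (nat_lit 347753677206) (nat_lit 152) (nat_lit 43620902504) (nat_lit 0) (nat_lit 338732891134) (nat_lit 2) (nat_lit 5) (nat_lit 4) (nat_lit 4) (nat_lit 2) (nat_lit 4) (nat_lit 434) (nat_lit 283) (nat_lit 183)) (XT.lf (nat_lit 0) (nat_lit 368958092330) (nat_lit 152) (nat_lit 37506298454) (nat_lit 0) (nat_lit 359934014632) (nat_lit 2) (nat_lit 5) (nat_lit 4) (nat_lit 4) (nat_lit 2) (nat_lit 4) (nat_lit 435) (nat_lit 283) (nat_lit 182))))) (XT.nd (nat_lit 234) (nat_lit 532) (nat_lit 0) (XT.nd (nat_lit 78) (nat_lit 228) (nat_lit 0) (XT.lf (nat_lit 0) (nat_lit 2177343284) (nat_lit 228) (nat_lit 1366618913) (nat_lit 228) (nat_lit 1366618913) (nat_lit 45) (nat_lit 4) (nat_lit 48) (nat_lit 5) (nat_lit 48) (nat_lit 4) (nat_lit 332) (nat_lit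 284) (nat_lit 284)) (XT.nd (nat_lit 78) (nat_lit 0) (nat_lit 0) (XT.lf (nat_lit 0) (nat_lit 1333900295) (nat_lit 228) (nat_lit 8173008796) (nat_lit 0) (nat_lit 556558736) (nat_lit 42) (nat_lit 5) (nat_lit 45) (nat_lit 4) (nat_lit 42) (nat_lit 4) (nat_lit 333) (nat_lit 284) (nat_lit 283)) (XT.lf (nat_lit 0) (nat_lit 5491881183) (nat_lit 228) (nat_lit 850730205) (nat_lit 0) (nat_lit 3974214329) (nat_lit 42) (nat_lit 5) (nat_lit 45) (nat_lit 4) (nat_lit 42) (nat_lit 4) (nat_lit 334) (nat_lit 284) (nat_lit 282)))) (XT.nd (nat_lit 78) (nat_lit 380) (nat_lit 0) (XT.lf (nat_lit 0) (nat_lit 6816438063) (nat_lit 152) (nat_lit 2995783250) (nat_lit 152) (nat_lit 773044687) (nat_lit 40) (nat_lit 4) (nat_lit 42) (nat_lit 5) (nat_lit 42) (nat_lit 4) (nat_lit 335) (nat_lit 284) (nat_lit 281)) (XT.nd (nat_lit 78) (nat_lit 152) (nat_lit 0) (XT.lf (nat_lit 0) (nat_lit 3302753108) (nat_lit 228) (nat_lit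 7018807187) (nat_lit 0) (nat_lit 546338415) (nat_lit 37) (nat_lit 5) (nat_lit 40) (nat_lit 4) (nat_lit 37) (nat_lit 4) (nat_lit 336) (nat_lit 284) (nat_lit 280)) (XT.lf (nat_lit 0) (nat_lit 528500583) (nat_lit 152) (nat_lit 7001230636) (nat_lit 152) (nat_lit 3635748491) (nat_lit 35) (nat_lit 4) (nat_lit 37) (nat_lit 5) (nat_lit 37) (nat_lit 4) (nat_lit 337) (nat_lit 284) (nat_lit 279)))))) (XT.nd (nat_lit 468) (nat_lit 608) (nat_lit 0) (XT.nd (nat_lit 234) (nat_lit 152) (nat_lit 0) (XT.nd (nat_lit 78) (nat_lit 304) (nat_lit 0) (XT.lf (nat_lit 0) (nat_lit 447244442) (nat_lit 228) (nat_lit 3028695277) (nat_lit 76) (nat_lit 8003084538) (nat_lit 34) (nat_lit 5) (nat_lit 37) (nat_lit 5) (nat_lit 35) (nat_lit 4) (nat_lit 338) (nat_lit 284) (nat_lit 278)) (XT.nd (nat_lit 78) (nat_lit 152) (nat_lit 0) (XT.lf (nat_lit 0) (nat_lit 4550845697) (nat_lit 228) (nat_lit 6990543534) (nat_lit 0) (nat_lit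 267047108) (nat_lit 32) (nat_lit 5) (nat_lit 35) (nat_lit 4) (nat_lit 32) (nat_lit 4) (nat_lit 339) (nat_lit 284) (nat_lit 277)) (XT.lf (nat_lit 0) (nat_lit 741973507) (nat_lit 152) (nat_lit 8099124785) (nat_lit 152) (nat_lit 3314244896) (nat_lit 30) (nat_lit 4) (nat_lit 32) (nat_lit 5) (nat_lit 32) (nat_lit 4) (nat_lit 340) (nat_lit 284) (nat_lit 276)))) (XT.nd (nat_lit 78) (nat_lit 76) (nat_lit 0) (XT.lf (nat_lit 0) (nat_lit 781632786) (nat_lit 228) (nat_lit 3659752963) (nat_lit 76) (nat_lit 8078562735) (nat_lit 29) (nat_lit 5) (nat_lit 32) (nat_lit 5) (nat_lit 30) (nat_lit 4) (nat_lit 341) (nat_lit 284) (nat_lit 275)) (XT.nd (nat_lit 78) (nat_lit 0) (nat_lit 0) (XT.lf (nat_lit 0) (nat_lit 4342339322) (nat_lit 76) (nat_lit 564458242) (nat_lit 152) (nat_lit 7996560627) (nat_lit 28) (nat_lit 5) (nat_lit 29) (nat_lit 5) (nat_lit 30) (nat_lit 4) (nat_lit 342) (nat_lit 284) (nat_lit 274))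 (XT.lf (nat_lit 0) (nat_lit 9225457264) (nat_lit 152) (nat_lit 712360089) (nat_lit 0) (nat_lit 3368839596) (nat_lit 28) (nat_lit 5) (nat_lit 30) (nat_lit 4) (nat_lit 28) (nat_lit 4) (nat_lit 343) (nat_lit 284) (nat_lit 273))))) (XT.nd (nat_lit 234) (nat_lit 304) (nat_lit 0) (XT.nd (nat_lit 78) (nat_lit 76) (nat_lit 0) (XT.lf (nat_lit 0) (nat_lit 31728482) (nat_lit 228) (nat_lit 6184184590) (nat_lit 76) (nat_lit 7514119279) (nat_lit 25) (nat_lit 5) (nat_lit 28) (nat_lit 5) (nat_lit 26) (nat_lit 4) (nat_lit 344) (nat_lit 284) (nat_lit 272)) (XT.nd (nat_lit 78) (nat_lit 0) (nat_lit 0) (XT.lf (nat_lit 0) (nat_lit 1844328095) (nat_lit 76) (nat_lit 2286145394) (nat_lit 152) (nat_lit 10044960965) (nat_lit 24) (nat_lit 5) (nat_lit 25) (nat_lit 5) (nat_lit 26) (nat_lit 4) (nat_lit 345) (nat_lit 284) (nat_lit 271)) (XT.lf (nat_lit 0) (nat_lit 8446770815) (nat_lit 152) (nat_lit 4395906791) (nat_lit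 0) (nat_lit 1799864449) (nat_lit 24) (nat_lit 5) (nat_lit 26) (nat_lit 4) (nat_lit 24) (nat_lit 4) (nat_lit 346) (nat_lit 284) (nat_lit 270)))) (XT.nd (nat_lit 78) (nat_lit 152) (nat_lit 0) (XT.lf (nat_lit 0) (nat_lit 3814414455) (nat_lit 152) (nat_lit 9144773095) (nat_lit 152) (nat_lit 2174865255) (nat_lit 22) (nat_lit 4) (nat_lit 24) (nat_lit 5) (nat_lit 24) (nat_lit 4) (nat_lit 347) (nat_lit 284) (nat_lit 269)) (XT.nd (nat_lit 78) (nat_lit 76) (nat_lit 0) (XT.lf (nat_lit 0) (nat_lit 1940964635) (nat_lit 228) (nat_lit 3298550788) (nat_lit 76) (nat_lit 10411112864) (nat_lit 21) (nat_lit 5) (nat_lit 24) (nat_lit 5) (nat_lit 22) (nat_lit 4) (nat_lit 348) (nat_lit 284) (nat_lit 268)) (XT.lf (nat_lit 0) (nat_lit 5052683066) (nat_lit 76) (nat_lit 1104967282) (nat_lit 152) (nat_lit 10035246233) (nat_lit 20) (nat_lit 5) (nat_lit 21) (nat_lit 5) (nat_lit 22) (nat_lit 4) (nat_lit 349) (nat_lit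 284) (nat_lit 267))))))) (XT.nd (nat_lit 858) (nat_lit 380) (nat_lit 0) (XT.nd (nat_lit 390) (nat_lit 304) (nat_lit 0) (XT.nd (nat_lit 156) (nat_lit 152) (nat_lit 0) (XT.nd (nat_lit 78) (nat_lit 76) (nat_lit 0) (XT.lf (nat_lit 0) (nat_lit 10582659408) (nat_lit 152) (nat_lit 3072871099) (nat_lit 0) (nat_lit 3106925155) (nat_lit 20) (nat_lit 5) (nat_lit 22) (nat_lit 4) (nat_lit 20) (nat_lit 4) (nat_lit 350) (nat_lit 284) (nat_lit 266)) (XT.lf (nat_lit 0) (nat_lit 5362855601) (nat_lit 76) (nat_lit 9863319016) (nat_lit 76) (nat_lit 2134504656) (nat_lit 19) (nat_lit 4) (nat_lit 20) (nat_lit 5) (nat_lit 20) (nat_lit 4) (nat_lit 351) (nat_lit 284) (nat_lit 265))) (XT.nd (nat_lit 78) (nat_lit 76) (nat_lit 0) (XT.lf (nat_lit 0) (nat_lit 1994085365) (nat_lit 152) (nat_lit 3881968033) (nat_lit 76) (nat_lit 12113722667) (nat_lit 18) (nat_lit 5) (nat_lit 20) (nat_lit 5) (nat_lit 19) (nat_lit 4) (nat_lit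 352) (nat_lit 284) (nat_lit 264)) (XT.nd (nat_lit 78) (nat_lit 0) (nat_lit 0) (XT.lf (nat_lit 0) (nat_lit 4571024111) (nat_lit 76) (nat_lit 1658448210) (nat_lit 152) (nat_lit 12420543381) (nat_lit 17) (nat_lit 5) (nat_lit 18) (nat_lit 5) (nat_lit 19) (nat_lit 4) (nat_lit 353) (nat_lit 284) (nat_lit 263)) (XT.lf (nat_lit 0) (nat_lit 10688148937) (nat_lit 152) (nat_lit 5983590478) (nat_lit 0) (nat_lit 2670992498) (nat_lit 17) (nat_lit 5) (nat_lit 19) (nat_lit 4) (nat_lit 17) (nat_lit 4) (nat_lit 354) (nat_lit 284) (nat_lit 262))))) (XT.nd (nat_lit 234) (nat_lit 152) (nat_lit 0) (XT.nd (nat_lit 78) (nat_lit 76) (nat_lit 0) (XT.lf (nat_lit 0) (nat_lit 2393894951) (nat_lit 76) (nat_lit 12946571807) (nat_lit 76) (nat_lit 4731120482) (nat_lit 16) (nat_lit 4) (nat_lit 17) (nat_lit 5) (nat_lit 17) (nat_lit 4) (nat_lit 355) (nat_lit 284) (nat_lit 261)) (XT.nd (nat_lit 78) (nat_lit 76) (nat_lit 0)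 (XT.lf (nat_lit 0) (nat_lit 11228649839) (nat_lit 76) (nat_lit 9006055343) (nat_lit 76) (nat_lit 601751746) (nat_lit 16) (nat_lit 4) (nat_lit 17) (nat_lit 5) (nat_lit 17) (nat_lit 4) (nat_lit 356) (nat_lit 284) (nat_lit 260)) (XT.lf (nat_lit 0) (nat_lit 3525452673) (nat_lit 152) (nat_lit 1356984922) (nat_lit 76) (nat_lit 16758706874) (nat_lit 15) (nat_lit 5) (nat_lit 17) (nat_lit 5) (nat_lit 16) (nat_lit 4) (nat_lit 357) (nat_lit 284) (nat_lit 259)))) (XT.nd (nat_lit 78) (nat_lit 76) (nat_lit 0) (XT.lf (nat_lit 0) (nat_lit 7376160828) (nat_lit 76) (nat_lit 492921273) (nat_lit 152) (nat_lit 14615008483) (nat_lit 14) (nat_lit 5) (nat_lit 15) (nat_lit 5) (nat_lit 16) (nat_lit 4) (nat_lit 358) (nat_lit 284) (nat_lit 258)) (XT.nd (nat_lit 78) (nat_lit 76) (nat_lit 0) (XT.lf (nat_lit 0) (nat_lit 12433174586) (nat_lit 152) (nat_lit 6996601222) (nat_lit 0) (nat_lit 3939274420) (nat_lit 14) (nat_lit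 5) (nat_lit 16) (nat_lit 4) (nat_lit 14) (nat_lit 4) (nat_lit 359) (nat_lit 284) (nat_lit 257)) (XT.lf (nat_lit 0) (nat_lit 1407744483) (nat_lit 76) (nat_lit 15767463147) (nat_lit 76) (nat_lit 7125592284) (nat_lit 13) (nat_lit 4) (nat_lit 14) (nat_lit 5) (nat_lit 14) (nat_lit 4) (nat_lit 360) (nat_lit 284) (nat_lit 256)))))) (XT.nd (nat_lit 468) (nat_lit 228) (nat_lit 0) (XT.nd (nat_lit 234) (nat_lit 0) (nat_lit 0) (XT.nd (nat_lit 78) (nat_lit 152) (nat_lit 0) (XT.lf (nat_lit 0) (nat_lit 10328100174) (nat_lit 76) (nat_lit 11865937484) (nat_lit 76) (nat_lit 3083142148) (nat_lit 13) (nat_lit 4) (nat_lit 14) (nat_lit 5) (nat_lit 14) (nat_lit 4) (nat_lit 361) (nat_lit 284) (nat_lit 255)) (XT.nd (nat_lit 78) (nat_lit 76) (nat_lit 0) (XT.lf (nat_lit 0) (nat_lit 1047958578) (nat_lit 152) (nat_lit 6768694034) (nat_lit 76) (nat_lit 18488659293) (nat_lit 12) (nat_lit 5) (nat_lit 14) (nat_lit 5)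 (nat_lit 13) (nat_lit 4) (nat_lit 362) (nat_lit 284) (nat_lit 254)) (XT.lf (nat_lit 0) (nat_lit 1688342355) (nat_lit 76) (nat_lit 3547352340) (nat_lit 152) (nat_lit 22148967784) (nat_lit 11) (nat_lit 5) (nat_lit 12) (nat_lit 5) (nat_lit 13) (nat_lit 4) (nat_lit 363) (nat_lit 284) (nat_lit 253)))) (XT.nd (nat_lit 78) (nat_lit 0) (nat_lit 0) (XT.lf (nat_lit 0) (nat_lit 9691666108) (nat_lit 152) (nat_lit 17861792963) (nat_lit 0) (nat_lit 961601698) (nat_lit 11) (nat_lit 5) (nat_lit 13) (nat_lit 4) (nat_lit 11) (nat_lit 4) (nat_lit 364) (nat_lit 284) (nat_lit 252)) (XT.nd (nat_lit 78) (nat_lit 0) (nat_lit 0) (XT.lf (nat_lit 0) (nat_lit 14359764421) (nat_lit 152) (nat_lit 9823487671) (nat_lit 0) (nat_lit 5519282000) (nat_lit 11) (nat_lit 5) (nat_lit 13) (nat_lit 4) (nat_lit 11) (nat_lit 4) (nat_lit 365) (nat_lit 284) (nat_lit 251)) (XT.lf (nat_lit 0) (nat_lit 19195720044) (nat_lit 152) (nat_lit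 1506881316) (nat_lit 0) (nat_lit 10250077611) (nat_lit 11) (nat_lit 5) (nat_lit 13) (nat_lit 4) (nat_lit 11) (nat_lit 4) (nat_lit 366) (nat_lit 284) (nat_lit 250))))) (XT.nd (nat_lit 234) (nat_lit 76) (nat_lit 0) (XT.nd (nat_lit 78) (nat_lit 76) (nat_lit 0) (XT.lf (nat_lit 0) (nat_lit 7342844424) (nat_lit 76) (nat_lit 16982845111) (nat_lit 76) (nat_lit 7937050286) (nat_lit 10) (nat_lit 4) (nat_lit 11) (nat_lit 5) (nat_lit 11) (nat_lit 4) (nat_lit 367) (nat_lit 284) (nat_lit 249)) (XT.nd (nat_lit 78) (nat_lit 76) (nat_lit 0) (XT.lf (nat_lit 0) (nat_lit 16571542993) (nat_lit 76) (nat_lit 13104872247) (nat_lit 76) (nat_lit 3963694191) (nat_lit 10) (nat_lit 4) (nat_lit 11) (nat_lit 5) (nat_lit 11) (nat_lit 4) (nat_lit 368) (nat_lit 284) (nat_lit 248)) (XT.lf (nat_lit 0) (nat_lit 142343447) (nat_lit 152) (nat_lit 8940215159) (nat_lit 76) (nat_lit 26006609078) (nat_lit 9) (nat_lit 5) (nat_lit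 11) (nat_lit 5) (nat_lit 10) (nat_lit 4) (nat_lit 369) (nat_lit 284) (nat_lit 247)))) (XT.nd (nat_lit 78) (nat_lit 76) (nat_lit 0) (XT.lf (nat_lit 0) (nat_lit 4263983130) (nat_lit 152) (nat_lit 577369211) (nat_lit 76) (nat_lit 31768918336) (nat_lit 9) (nat_lit 5) (nat_lit 11) (nat_lit 5) (nat_lit 10) (nat_lit 4) (nat_lit 370) (nat_lit 284) (nat_lit 246)) (XT.nd (nat_lit 78) (nat_lit 0) (nat_lit 0) (XT.lf (nat_lit 0) (nat_lit 8369648334) (nat_lit 76) (nat_lit 298926584) (nat_lit 152) (nat_lit 29535025698) (nat_lit 8) (nat_lit 5) (nat_lit 9) (nat_lit 5) (nat_lit 10) (nat_lit 4) (nat_lit 371) (nat_lit 284) (nat_lit 245)) (XT.lf (nat_lit 0) (nat_lit 13319587426) (nat_lit 152) (nat_lit 22264129381) (nat_lit 0) (nat_lit 4291585265) (nat_lit 8) (nat_lit 5) (nat_lit 10) (nat_lit 4) (nat_lit 8) (nat_lit 4) (nat_lit 372) (nat_lit 284) (nat_lit 244))))))))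
noncomputable def xc60 : XT := (XT.nd (nat_lit 1794) (nat_lit 152) (nat_lit 0) (XT.nd (nat_lit 858) (nat_lit 76) (nat_lit 0) (XT.nd (nat_lit 390) (nat_lit 152) (nat_lit 0) (XT.nd (nat_lit 156) (nat_lit 76) (nat_lit 0) (XT.nd (nat_lit 78) (nat_lit 0) (nat_lit 0) (XT.lf (nat_lit 0) (nat_lit 18157054703) (nat_lit 152) (nat_lit 14417976466) (nat_lit 0) (nat_lit 9057876107) (nat_lit 8) (nat_lit 5) (nat_lit 10) (nat_lit 4) (nat_lit 8) (nat_lit 4) (nat_lit 373) (nat_lit 284) (nat_lit 243)) (XT.lf (nat_lit 0) (nat_lit 23187827447) (nat_lit 152) (nat_lit 6272145139) (nat_lit 0) (nat_lit 14020861770) (nat_lit 8) (nat_lit 5) (nat_lit 10) (nat_lit 4) (nat_lit 8) (nat_lit 4) (nat_lit 374) (nat_lit 284) (nat_lit 242))) (XT.nd (nat_lit 78) (nat_lit 0) (nat_lit 0) (XT.lf (nat_lit 0) (nat_lit 2265261964) (nat_lit 76) (nat_lit 26193988810) (nat_lit 76) (nat_lit 16962464008) (nat_lit 7) (nat_lit 4) (nat_lit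 8) (nat_lit 5) (nat_lit 8) (nat_lit 4) (nat_lit 375) (nat_lit 284) (nat_lit 241)) (XT.nd (nat_lit 78) (nat_lit 0) (nat_lit 0) (XT.lf (nat_lit 0) (nat_lit 11360498699) (nat_lit 76) (nat_lit 22694560749) (nat_lit 76) (nat_lit 13401551066) (nat_lit 7) (nat_lit 4) (nat_lit 8) (nat_lit 5) (nat_lit 8) (nat_lit 4) (nat_lit 376) (nat_lit 284) (nat_lit 240)) (XT.lf (nat_lit 0) (nat_lit 20827834944) (nat_lit 76) (nat_lit 19059578244) (nat_lit 76) (nat_lit 9708011532) (nat_lit 7) (nat_lit 4) (nat_lit 8) (nat_lit 5) (nat_lit 8) (nat_lit 4) (nat_lit 377) (nat_lit 284) (nat_lit 239))))) (XT.nd (nat_lit 234) (nat_lit 76) (nat_lit 0) (XT.nd (nat_lit 78) (nat_lit 76) (nat_lit 0) (XT.lf (nat_lit 0) (nat_lit 30689811977) (nat_lit 76) (nat_lit 15280386576) (nat_lit 76) (nat_lit 5873051264) (nat_lit 7) (nat_lit 4) (nat_lit 8) (nat_lit 5) (nat_lit 8) (nat_lit 4) (nat_lit 378) (nat_lit 284) (nat_lit 238)) (XT.nd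 (nat_lit 78) (nat_lit 76) (nat_lit 0) (XT.lf (nat_lit 0) (nat_lit 40969910695) (nat_lit 76) (nat_lit 11347987668) (nat_lit 76) (nat_lit 1887539405) (nat_lit 7) (nat_lit 4) (nat_lit 8) (nat_lit 5) (nat_lit 8) (nat_lit 4) (nat_lit 379) (nat_lit 284) (nat_lit 237)) (XT.lf (nat_lit 0) (nat_lit 2185742830) (nat_lit 152) (nat_lit 5030259224) (nat_lit 76) (nat_lit 49469848081) (nat_lit 6) (nat_lit 5) (nat_lit 8) (nat_lit 5) (nat_lit 7) (nat_lit 4) (nat_lit 380) (nat_lit 284) (nat_lit 236)))) (XT.nd (nat_lit 78) (nat_lit 0) (nat_lit 0) (XT.lf (nat_lit 0) (nat_lit 3600351062) (nat_lit 76) (nat_lit 2818945572) (nat_lit 152) (nat_lit 52868446212) (nat_lit 5) (nat_lit 5) (nat_lit 6) (nat_lit 5) (nat_lit 7) (nat_lit 4) (nat_lit 381) (nat_lit 284) (nat_lit 235)) (XT.nd (nat_lit 78) (nat_lit 0) (nat_lit 0) (XT.lf (nat_lit 0) (nat_lit 10943165919) (nat_lit 152) (nat_lit 49277177851) (nat_lit 0) (nat_lit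 1795463057) (nat_lit 5) (nat_lit 5) (nat_lit 7) (nat_lit 4) (nat_lit 5) (nat_lit 4) (nat_lit 382) (nat_lit 284) (nat_lit 234)) (XT.lf (nat_lit 0) (nat_lit 15705136230) (nat_lit 152) (nat_lit 42658732535) (nat_lit 0) (nat_lit 6515817980) (nat_lit 5) (nat_lit 5) (nat_lit 7) (nat_lit 4) (nat_lit 5) (nat_lit 4) (nat_lit 383) (nat_lit 284) (nat_lit 233)))))) (XT.nd (nat_lit 468) (nat_lit 0) (nat_lit 0) (XT.nd (nat_lit 234) (nat_lit 76) (nat_lit 0) (XT.nd (nat_lit 78) (nat_lit 0) (nat_lit 0) (XT.lf (nat_lit 0) (nat_lit 20672533951) (nat_lit 152) (nat_lit 35772285993) (nat_lit 0) (nat_lit 11443582000) (nat_lit 5) (nat_lit 5) (nat_lit 7) (nat_lit 4) (nat_lit 5) (nat_lit 4) (nat_lit 384) (nat_lit 284) (nat_lit 232)) (XT.nd (nat_lit 78) (nat_lit 0) (nat_lit 0) (XT.lf (nat_lit 0) (nat_lit 25857186221) (nat_lit 152) (nat_lit 28601441923) (nat_lit 0) (nat_lit 16590487886) (nat_lit 5) (nat_lit 5) (nat_lit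 7) (nat_lit 4) (nat_lit 5) (nat_lit 4) (nat_lit 385) (nat_lit 284) (nat_lit 231)) (XT.lf (nat_lit 0) (nat_lit 31271437450) (nat_lit 152) (nat_lit 21129126888) (nat_lit 0) (nat_lit 21968790178) (nat_lit 5) (nat_lit 5) (nat_lit 7) (nat_lit 4) (nat_lit 5) (nat_lit 4) (nat_lit 386) (nat_lit 284) (nat_lit 230)))) (XT.nd (nat_lit 78) (nat_lit 76) (nat_lit 0) (XT.lf (nat_lit 0) (nat_lit 36928178711) (nat_lit 152) (nat_lit 13337549662) (nat_lit 0) (nat_lit 27591294357) (nat_lit 5) (nat_lit 5) (nat_lit 7) (nat_lit 4) (nat_lit 5) (nat_lit 4) (nat_lit 387) (nat_lit 284) (nat_lit 229)) (XT.nd (nat_lit 78) (nat_lit 76) (nat_lit 0) (XT.lf (nat_lit 0) (nat_lit 42840878436) (nat_lit 152) (nat_lit 5208158869) (nat_lit 0) (nat_lit 33471387338) (nat_lit 5) (nat_lit 5) (nat_lit 7) (nat_lit 4) (nat_lit 5) (nat_lit 4) (nat_lit 388) (nat_lit 284) (nat_lit 228)) (XT.lf (nat_lit 0) (nat_lit 3386799930) (nat_lit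 76) (nat_lit 45689691991) (nat_lit 76) (nat_lit 36289146849) (nat_lit 4) (nat_lit 4) (nat_lit 5) (nat_lit 5) (nat_lit 5) (nat_lit 4) (nat_lit 389) (nat_lit 284) (nat_lit 227))))) (XT.nd (nat_lit 234) (nat_lit 0) (nat_lit 0) (XT.nd (nat_lit 78) (nat_lit 0) (nat_lit 0) (XT.lf (nat_lit 0) (nat_lit 12543817070) (nat_lit 76) (nat_lit 43143134718) (nat_lit 76) (nat_lit 33713014298) (nat_lit 4) (nat_lit 4) (nat_lit 5) (nat_lit 5) (nat_lit 5) (nat_lit 4) (nat_lit 390) (nat_lit 284) (nat_lit 226)) (XT.nd (nat_lit 78) (nat_lit 0) (nat_lit 0) (XT.lf (nat_lit 0) (nat_lit 22112489720) (nat_lit 76) (nat_lit 40491504947) (nat_lit 76) (nat_lit 31033217594) (nat_lit 4) (nat_lit 4) (nat_lit 5) (nat_lit 5) (nat_lit 5) (nat_lit 4) (nat_lit 391) (nat_lit 284) (nat_lit 225)) (XT.lf (nat_lit 0) (nat_lit 32115600432) (nat_lit 76) (nat_lit 37728489273) (nat_lit 76) (nat_lit 28243376270) (nat_lit 4) (nat_lit 4)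 (nat_lit 5) (nat_lit 5) (nat_lit 5) (nat_lit 4) (nat_lit 392) (nat_lit 284) (nat_lit 224)))) (XT.nd (nat_lit 78) (nat_lit 0) (nat_lit 0) (XT.lf (nat_lit 0) (nat_lit 42576966138) (nat_lit 76) (nat_lit 34847509087) (nat_lit 76) (nat_lit 25336847846) (nat_lit 4) (nat_lit 4) (nat_lit 5) (nat_lit 5) (nat_lit 5) (nat_lit 4) (nat_lit 393) (nat_lit 284) (nat_lit 223)) (XT.nd (nat_lit 78) (nat_lit 0) (nat_lit 0) (XT.lf (nat_lit 0) (nat_lit 53521494850) (nat_lit 76) (nat_lit 31841704913) (nat_lit 76) (nat_lit 22306712017) (nat_lit 4) (nat_lit 4) (nat_lit 5) (nat_lit 5) (nat_lit 5) (nat_lit 4) (nat_lit 394) (nat_lit 284) (nat_lit 222)) (XT.lf (nat_lit 0) (nat_lit 64975244971) (nat_lit 76) (nat_lit 28703920074) (nat_lit 76) (nat_lit 19145754173) (nat_lit 4) (nat_lit 4) (nat_lit 5) (nat_lit 5) (nat_lit 5) (nat_lit 4) (nat_lit 395) (nat_lit 284) (nat_lit 221))))))) (XT.nd (nat_lit 858) (nat_lit 0) (nat_lit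 0) (XT.nd (nat_lit 390) (nat_lit 152) (nat_lit 0) (XT.nd (nat_lit 156) (nat_lit 0) (nat_lit 0) (XT.nd (nat_lit 78) (nat_lit 0) (nat_lit 0) (XT.lf (nat_lit 0) (nat_lit 76965487334) (nat_lit 76) (nat_lit 25426683654) (nat_lit 76) (nat_lit 15846448225) (nat_lit 4) (nat_lit 4) (nat_lit 5) (nat_lit 5) (nat_lit 5) (nat_lit 4) (nat_lit 396) (nat_lit 284) (nat_lit 220)) (XT.lf (nat_lit 0) (nat_lit 89520770136) (nat_lit 76) (nat_lit 22002192709) (nat_lit 76) (nat_lit 12400938681) (nat_lit 4) (nat_lit 4) (nat_lit 5) (nat_lit 5) (nat_lit 5) (nat_lit 4) (nat_lit 397) (nat_lit 284) (nat_lit 219))) (XT.nd (nat_lit 78) (nat_lit 0) (nat_lit 0) (XT.lf (nat_lit 0) (nat_lit 102670986906) (nat_lit 76) (nat_lit 18422293689) (nat_lit 76) (nat_lit 8801021948) (nat_lit 4) (nat_lit 4) (nat_lit 5) (nat_lit 5) (nat_lit 5) (nat_lit 4) (nat_lit 398) (nat_lit 284) (nat_lit 218)) (XT.nd (nat_lit 78) (nat_lit 0) (nat_lit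 0) (XT.lf (nat_lit 0) (nat_lit 116447447685) (nat_lit 76) (nat_lit 14678463025) (nat_lit 76) (nat_lit 5038126796) (nat_lit 4) (nat_lit 4) (nat_lit 5) (nat_lit 5) (nat_lit 5) (nat_lit 4) (nat_lit 399) (nat_lit 284) (nat_lit 217)) (XT.lf (nat_lit 0) (nat_lit 130882953569) (nat_lit 76) (nat_lit 10761786835) (nat_lit 76) (nat_lit 1103293950) (nat_lit 4) (nat_lit 4) (nat_lit 5) (nat_lit 5) (nat_lit 5) (nat_lit 4) (nat_lit 400) (nat_lit 284) (nat_lit 216))))) (XT.nd (nat_lit 234) (nat_lit 0) (nat_lit 0) (XT.nd (nat_lit 78) (nat_lit 76) (nat_lit 0) (XT.lf (nat_lit 0) (nat_lit 2916415375) (nat_lit 152) (nat_lit 3697133418) (nat_lit 76) (nat_lit 143046068531) (nat_lit 3) (nat_lit 5) (nat_lit 5) (nat_lit 5) (nat_lit 4) (nat_lit 4) (nat_lit 401) (nat_lit 284) (nat_lit 215)) (XT.nd (nat_lit 78) (nat_lit 0) (nat_lit 0) (XT.lf (nat_lit 0) (nat_lit 4993463526) (nat_lit 76) (nat_lit 2170300905) (nat_lit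 152) (nat_lit 149748927120) (nat_lit 2) (nat_lit 5) (nat_lit 3) (nat_lit 5) (nat_lit 4) (nat_lit 4) (nat_lit 402) (nat_lit 284) (nat_lit 214)) (XT.lf (nat_lit 0) (nat_lit 11711897444) (nat_lit 152) (nat_lit 150345861893) (nat_lit 0) (nat_lit 2466242243) (nat_lit 2) (nat_lit 5) (nat_lit 4) (nat_lit 4) (nat_lit 2) (nat_lit 4) (nat_lit 403) (nat_lit 284) (nat_lit 213)))) (XT.nd (nat_lit 78) (nat_lit 0) (nat_lit 0) (XT.lf (nat_lit 0) (nat_lit 16509512640) (nat_lit 152) (nat_lit 148755632242) (nat_lit 0) (nat_lit 7249631224) (nat_lit 2) (nat_lit 5) (nat_lit 4) (nat_lit 4) (nat_lit 2) (nat_lit 4) (nat_lit 404) (nat_lit 284) (nat_lit 212)) (XT.nd (nat_lit 78) (nat_lit 0) (nat_lit 0) (XT.lf (nat_lit 0) (nat_lit 21534148434) (nat_lit 152) (nat_lit 147110868335) (nat_lit 0) (nat_lit 12260718242) (nat_lit 2) (nat_lit 5) (nat_lit 4) (nat_lit 4) (nat_lit 2) (nat_lit 4) (nat_lit 405) (nat_lit 284) (nat_lit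 211)) (XT.lf (nat_lit 0) (nat_lit 26797768244) (nat_lit 152) (nat_lit 145407654067) (nat_lit 0) (nat_lit 17511434455) (nat_lit 2) (nat_lit 5) (nat_lit 4) (nat_lit 4) (nat_lit 2) (nat_lit 4) (nat_lit 406) (nat_lit 284) (nat_lit 210)))))) (XT.nd (nat_lit 468) (nat_lit 0) (nat_lit 0) (XT.nd (nat_lit 234) (nat_lit 0) (nat_lit 0) (XT.nd (nat_lit 78) (nat_lit 0) (nat_lit 0) (XT.lf (nat_lit 0) (nat_lit 32312904498) (nat_lit 152) (nat_lit 143641934164) (nat_lit 0) (nat_lit 23014281570) (nat_lit 2) (nat_lit 5) (nat_lit 4) (nat_lit 4) (nat_lit 2) (nat_lit 4) (nat_lit 407) (nat_lit 284) (nat_lit 209)) (XT.nd (nat_lit 78) (nat_lit 0) (nat_lit 0) (XT.lf (nat_lit 0) (nat_lit 38092688473) (nat_lit 152) (nat_lit 141809504534) (nat_lit 0) (nat_lit 28782361602) (nat_lit 2) (nat_lit 5) (nat_lit 4) (nat_lit 4) (nat_lit 2) (nat_lit 4) (nat_lit 408) (nat_lit 284) (nat_lit 208)) (XT.lf (nat_lit 0) (nat_lit 44150881559)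 (nat_lit 152) (nat_lit 139906002247) (nat_lit 0) (nat_lit 34829408077) (nat_lit 2) (nat_lit 5) (nat_lit 4) (nat_lit 4) (nat_lit 2) (nat_lit 4) (nat_lit 409) (nat_lit 284) (nat_lit 207)))) (XT.nd (nat_lit 78) (nat_lit 0) (nat_lit 0) (XT.lf (nat_lit 0) (nat_lit 50501908026) (nat_lit 152) (nat_lit 137926895156) (nat_lit 0) (nat_lit 41169818723) (nat_lit 2) (nat_lit 5) (nat_lit 4) (nat_lit 4) (nat_lit 2) (nat_lit 4) (nat_lit 410) (nat_lit 284) (nat_lit 206)) (XT.nd (nat_lit 78) (nat_lit 0) (nat_lit 0) (XT.lf (nat_lit 0) (nat_lit 57160889365) (nat_lit 152) (nat_lit 135867471100) (nat_lit 0) (nat_lit 47818689757) (nat_lit 2) (nat_lit 5) (nat_lit 4) (nat_lit 4) (nat_lit 2) (nat_lit 4) (nat_lit 411) (nat_lit 284) (nat_lit 205)) (XT.lf (nat_lit 0) (nat_lit 64143680294) (nat_lit 152) (nat_lit 133722826690) (nat_lit 0) (nat_lit 54791851824) (nat_lit 2) (nat_lit 5) (nat_lit 4) (nat_lit 4) (nat_lit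 2) (nat_lit 4) (nat_lit 412) (nat_lit 284) (nat_lit 204))))) (XT.nd (nat_lit 234) (nat_lit 0) (nat_lit 0) (XT.nd (nat_lit 78) (nat_lit 0) (nat_lit 0) (XT.lf (nat_lit 0) (nat_lit 71466906505) (nat_lit 152) (nat_lit 131487855628) (nat_lit 0) (nat_lit 62105907690) (nat_lit 2) (nat_lit 5) (nat_lit 4) (nat_lit 4) (nat_lit 2) (nat_lit 4) (nat_lit 413) (nat_lit 284) (nat_lit 203)) (XT.nd (nat_lit 78) (nat_lit 0) (nat_lit 0) (XT.lf (nat_lit 0) (nat_lit 79148004251) (nat_lit 152) (nat_lit 129157236556) (nat_lit 0) (nat_lit 69778271775) (nat_lit 2) (nat_lit 5) (nat_lit 4) (nat_lit 4) (nat_lit 2) (nat_lit 4) (nat_lit 414) (nat_lit 284) (nat_lit 202)) (XT.lf (nat_lit 0) (nat_lit 87205261861) (nat_lit 152) (nat_lit 126725420380) (nat_lit 0) (nat_lit 77827211611) (nat_lit 2) (nat_lit 5) (nat_lit 4) (nat_lit 4) (nat_lit 2) (nat_lit 4) (nat_lit 415) (nat_lit 284) (nat_lit 201)))) (XT.nd (nat_lit 78) (nat_lit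 0) (nat_lit 0) (XT.lf (nat_lit 0) (nat_lit 95657863281) (nat_lit 152) (nat_lit 124186617062) (nat_lit 0) (nat_lit 86271891342) (nat_lit 2) (nat_lit 5) (nat_lit 4) (nat_lit 4) (nat_lit 2) (nat_lit 4) (nat_lit 416) (nat_lit 284) (nat_lit 200)) (XT.nd (nat_lit 78) (nat_lit 0) (nat_lit 0) (XT.lf (nat_lit 0) (nat_lit 104525933752) (nat_lit 152) (nat_lit 121534781832) (nat_lit 0) (nat_lit 95132417348) (nat_lit 2) (nat_lit 5) (nat_lit 4) (nat_lit 4) (nat_lit 2) (nat_lit 4) (nat_lit 417) (nat_lit 284) (nat_lit 199)) (XT.lf (nat_lit 0) (nat_lit 113830587728) (nat_lit 152) (nat_lit 118763600796) (nat_lit 0) (nat_lit 104429886119) (nat_lit 2) (nat_lit 5) (nat_lit 4) (nat_lit 4) (nat_lit 2) (nat_lit 4) (nat_lit 418) (nat_lit 284) (nat_lit 198))))))))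
noncomputable def xc61 : XT := (XT.nd (nat_lit 40404) (nat_lit 0) (nat_lit 912) (XT.nd (nat_lit 858) (nat_lit 0) (nat_lit 0) (XT.nd (nat_lit 390) (nat_lit 0) (nat_lit 0) (XT.nd (nat_lit 156) (nat_lit 0) (nat_lit 0) (XT.nd (nat_lit 78) (nat_lit 0) (nat_lit 0) (XT.lf (nat_lit 0) (nat_lit 123593979147) (nat_lit 152) (nat_lit 115866475904) (nat_lit 0) (nat_lit 114186434485) (nat_lit 2) (nat_lit 5) (nat_lit 4) (nat_lit 4) (nat_lit 2) (nat_lit 4) (nat_lit 419) (nat_lit 284) (nat_lit 197)) (XT.lf (nat_lit 0) (nat_lit 133839354179) (nat_lit 152) (nat_lit 112836509241) (nat_lit 0) (nat_lit 124425292324) (nat_lit 2) (nat_lit 5) (nat_lit 4) (nat_lit 4) (nat_lit 2) (nat_lit 4) (nat_lit 420) (nat_lit 284) (nat_lit 196))) (XT.nd (nat_lit 78) (nat_lit 0) (nat_lit 0) (XT.lf (nat_lit 0) (nat_lit 144591106574) (nat_lit 152) (nat_lit 109666486599) (nat_lit 0) (nat_lit 135170837869) (nat_lit 2) (nat_lit 5)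 (nat_lit 4) (nat_lit 4) (nat_lit 2) (nat_lit 4) (nat_lit 421) (nat_lit 284) (nat_lit 195)) (XT.nd (nat_lit 78) (nat_lit 0) (nat_lit 0) (XT.lf (nat_lit 0) (nat_lit 155874835742) (nat_lit 152) (nat_lit 106348860306) (nat_lit 0) (nat_lit 146448655751) (nat_lit 2) (nat_lit 5) (nat_lit 4) (nat_lit 4) (nat_lit 2) (nat_lit 4) (nat_lit 422) (nat_lit 284) (nat_lit 194)) (XT.lf (nat_lit 0) (nat_lit 167717407706) (nat_lit 152) (nat_lit 102875731252) (nat_lit 0) (nat_lit 158285597919) (nat_lit 2) (nat_lit 5) (nat_lit 4) (nat_lit 4) (nat_lit 2) (nat_lit 4) (nat_lit 423) (nat_lit 284) (nat_lit 193))))) (XT.nd (nat_lit 234) (nat_lit 0) (nat_lit 0) (XT.nd (nat_lit 78) (nat_lit 0) (nat_lit 0) (XT.lf (nat_lit 0) (nat_lit 180147019065) (nat_lit 152) (nat_lit 99238830081) (nat_lit 0) (nat_lit 170709847567) (nat_lit 2) (nat_lit 5) (nat_lit 4) (nat_lit 4) (nat_lit 2) (nat_lit 4) (nat_lit 424) (nat_lit 284)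 (nat_lit 192)) (XT.nd (nat_lit 78) (nat_lit 0) (nat_lit 0) (XT.lf (nat_lit 0) (nat_lit 193193264133) (nat_lit 152) (nat_lit 95429497505) (nat_lit 0) (nat_lit 183750986243) (nat_lit 2) (nat_lit 5) (nat_lit 4) (nat_lit 4) (nat_lit 2) (nat_lit 4) (nat_lit 425) (nat_lit 284) (nat_lit 191)) (XT.lf (nat_lit 0) (nat_lit 206887205396) (nat_lit 152) (nat_lit 91438663685) (nat_lit 0) (nat_lit 197440064277) (nat_lit 2) (nat_lit 5) (nat_lit 4) (nat_lit 4) (nat_lit 2) (nat_lit 4) (nat_lit 426) (nat_lit 284) (nat_lit 190)))) (XT.nd (nat_lit 78) (nat_lit 0) (nat_lit 0) (XT.lf (nat_lit 0) (nat_lit 221261447478) (nat_lit 152) (nat_lit 87256826635) (nat_lit 0) (nat_lit 211809674711) (nat_lit 2) (nat_lit 5) (nat_lit 4) (nat_lit 4) (nat_lit 2) (nat_lit 4) (nat_lit 427) (nat_lit 284) (nat_lit 189)) (XT.nd (nat_lit 78) (nat_lit 0) (nat_lit 0) (XT.lf (nat_lit 0) (nat_lit 236350214764) (nat_lit 152) (nat_lit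 82874029600) (nat_lit 0) (nat_lit 226894030905) (nat_lit 2) (nat_lit 5) (nat_lit 4) (nat_lit 4) (nat_lit 2) (nat_lit 4) (nat_lit 428) (nat_lit 284) (nat_lit 188)) (XT.lf (nat_lit 0) (nat_lit 252189432891) (nat_lit 152) (nat_lit 78279837350) (nat_lit 0) (nat_lit 242729047991) (nat_lit 2) (nat_lit 5) (nat_lit 4) (nat_lit 4) (nat_lit 2) (nat_lit 4) (nat_lit 429) (nat_lit 284) (nat_lit 187)))))) (XT.nd (nat_lit 39078) (nat_lit 0) (nat_lit 2888) (XT.nd (nat_lit 234) (nat_lit 0) (nat_lit 0) (XT.nd (nat_lit 78) (nat_lit 0) (nat_lit 0) (XT.lf (nat_lit 0) (nat_lit 268816814283) (nat_lit 152) (nat_lit 73463311332) (nat_lit 0) (nat_lit 259352428391) (nat_lit 2) (nat_lit 5) (nat_lit 4) (nat_lit 4) (nat_lit 2) (nat_lit 4) (nat_lit 430) (nat_lit 284) (nat_lit 186)) (XT.nd (nat_lit 78) (nat_lit 0) (nat_lit 0) (XT.lf (nat_lit 0) (nat_lit 286271947942) (nat_lit 152) (nat_lit 68412983626) (nat_lit 0) (nat_lit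 276803751583) (nat_lit 2) (nat_lit 5) (nat_lit 4) (nat_lit 4) (nat_lit 2) (nat_lit 4) (nat_lit 431) (nat_lit 284) (nat_lit 185)) (XT.lf (nat_lit 0) (nat_lit 304596393712) (nat_lit 152) (nat_lit 63116829642) (nat_lit 0) (nat_lit 295124568336) (nat_lit 2) (nat_lit 5) (nat_lit 4) (nat_lit 4) (nat_lit 2) (nat_lit 4) (nat_lit 432) (nat_lit 284) (nat_lit 184)))) (XT.nd (nat_lit 78) (nat_lit 0) (nat_lit 0) (XT.lf (nat_lit 0) (nat_lit 323833781225) (nat_lit 152) (nat_lit 57562239491) (nat_lit 0) (nat_lit 314358499642) (nat_lit 2) (nat_lit 5) (nat_lit 4) (nat_lit 4) (nat_lit 2) (nat_lit 4) (nat_lit 433) (nat_lit 284) (nat_lit 183)) (XT.nd (nat_lit 78) (nat_lit 0) (nat_lit 0) (XT.lf (nat_lit 0) (nat_lit 344029913784) (nat_lit 152) (nat_lit 51735987957) (nat_lit 0) (nat_lit 334551340576) (nat_lit 2) (nat_lit 5) (nat_lit 4) (nat_lit 4) (nat_lit 2) (nat_lit 4) (nat_lit 434) (nat_lit 284) (nat_lit 182))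 (XT.lf (nat_lit 0) (nat_lit 365232877420) (nat_lit 152) (nat_lit 45624203013) (nat_lit 0) (nat_lit 355751169331) (nat_lit 2) (nat_lit 5) (nat_lit 4) (nat_lit 4) (nat_lit 2) (nat_lit 4) (nat_lit 435) (nat_lit 284) (nat_lit 181))))) (XT.nd (nat_lit 234) (nat_lit 380) (nat_lit 0) (XT.nd (nat_lit 78) (nat_lit 456) (nat_lit 0) (XT.lf (nat_lit 0) (nat_lit 4397661710) (nat_lit 228) (nat_lit 144967133) (nat_lit 228) (nat_lit 144967133) (nat_lit 51) (nat_lit 4) (nat_lit 54) (nat_lit 5) (nat_lit 54) (nat_lit 4) (nat_lit 330) (nat_lit 285) (nat_lit 285)) (XT.nd (nat_lit 78) (nat_lit 228) (nat_lit 0) (XT.lf (nat_lit 0) (nat_lit 3730343652) (nat_lit 228) (nat_lit 2989220776) (nat_lit 0) (nat_lit 2873324583) (nat_lit 48) (nat_lit 5) (nat_lit 51) (nat_lit 4) (nat_lit 48) (nat_lit 4) (nat_lit 331) (nat_lit 285) (nat_lit 284)) (XT.lf (nat_lit 0) (nat_lit 4236073807) (nat_lit 228) (nat_lit 3631140124) (nat_lit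 228) (nat_lit 1957912418) (nat_lit 45) (nat_lit 4) (nat_lit 48) (nat_lit 5) (nat_lit 48) (nat_lit 4) (nat_lit 332) (nat_lit 285) (nat_lit 283)))) (XT.nd (nat_lit 78) (nat_lit 152) (nat_lit 0) (XT.lf (nat_lit 0) (nat_lit 1641404591) (nat_lit 152) (nat_lit 354680216) (nat_lit 228) (nat_lit 8075228614) (nat_lit 42) (nat_lit 5) (nat_lit 44) (nat_lit 5) (nat_lit 45) (nat_lit 4) (nat_lit 333) (nat_lit 285) (nat_lit 282)) (XT.nd (nat_lit 78) (nat_lit 152) (nat_lit 0) (XT.lf (nat_lit 0) (nat_lit 6074399605) (nat_lit 228) (nat_lit 1218869682) (nat_lit 0) (nat_lit 3035452405) (nat_lit 42) (nat_lit 5) (nat_lit 45) (nat_lit 4) (nat_lit 42) (nat_lit 4) (nat_lit 334) (nat_lit 285) (nat_lit 281)) (XT.lf (nat_lit 0) (nat_lit 6321232736) (nat_lit 152) (nat_lit 3995176849) (nat_lit 152) (nat_lit 284732783) (nat_lit 40) (nat_lit 4) (nat_lit 42) (nat_lit 5) (nat_lit 42) (nat_lit 4) (nat_lit 335) (nat_lit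 285) (nat_lit 280))))))) (XT.nd (nat_lit 858) (nat_lit 760) (nat_lit 0) (XT.nd (nat_lit 390) (nat_lit 608) (nat_lit 0) (XT.nd (nat_lit 156) (nat_lit 380) (nat_lit 0) (XT.nd (nat_lit 78) (nat_lit 0) (nat_lit 0) (XT.lf (nat_lit 0) (nat_lit 3206991799) (nat_lit 152) (nat_lit 479328536) (nat_lit 228) (nat_lit 7201587275) (nat_lit 37) (nat_lit 5) (nat_lit 39) (nat_lit 5) (nat_lit 40) (nat_lit 4) (nat_lit 336) (nat_lit 285) (nat_lit 279)) (XT.lf (nat_lit 0) (nat_lit 7828403806) (nat_lit 228) (nat_lit 255868860) (nat_lit 0) (nat_lit 3105515862) (nat_lit 37) (nat_lit 5) (nat_lit 40) (nat_lit 4) (nat_lit 37) (nat_lit 4) (nat_lit 337) (nat_lit 285) (nat_lit 278))) (XT.nd (nat_lit 78) (nat_lit 152) (nat_lit 0) (XT.lf (nat_lit 0) (nat_lit 639873765) (nat_lit 228) (nat_lit 3963588857) (nat_lit 76) (nat_lit 6903353982) (nat_lit 34) (nat_lit 5) (nat_lit 37) (nat_lit 5) (nat_lit 35) (nat_lit 4) (nat_lit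 338) (nat_lit 285) (nat_lit 277)) (XT.nd (nat_lit 78) (nat_lit 0) (nat_lit 0) (XT.lf (nat_lit 0) (nat_lit 3745105083) (nat_lit 152) (nat_lit 911758587) (nat_lit 228) (nat_lit 7183743256) (nat_lit 32) (nat_lit 5) (nat_lit 34) (nat_lit 5) (nat_lit 35) (nat_lit 4) (nat_lit 339) (nat_lit 285) (nat_lit 276)) (XT.lf (nat_lit 0) (nat_lit 8856614455) (nat_lit 228) (nat_lit 481280825) (nat_lit 0) (nat_lit 2854188986) (nat_lit 32) (nat_lit 5) (nat_lit 35) (nat_lit 4) (nat_lit 32) (nat_lit 4) (nat_lit 340) (nat_lit 285) (nat_lit 275))))) (XT.nd (nat_lit 234) (nat_lit 304) (nat_lit 0) (XT.nd (nat_lit 78) (nat_lit 76) (nat_lit 0) (XT.lf (nat_lit 0) (nat_lit 688844904) (nat_lit 228) (nat_lit 5044788924) (nat_lit 76) (nat_lit 6826725598) (nat_lit 29) (nat_lit 5) (nat_lit 32) (nat_lit 5) (nat_lit 30) (nat_lit 4) (nat_lit 341) (nat_lit 285) (nat_lit 274)) (XT.nd (nat_lit 78) (nat_lit 0) (nat_lit 0) (XT.lf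 (nat_lit 0) (nat_lit 2804071333) (nat_lit 76) (nat_lit 1924633632) (nat_lit 152) (nat_lit 8219368625) (nat_lit 28) (nat_lit 5) (nat_lit 29) (nat_lit 5) (nat_lit 30) (nat_lit 4) (nat_lit 342) (nat_lit 285) (nat_lit 273)) (XT.lf (nat_lit 0) (nat_lit 8965500186) (nat_lit 152) (nat_lit 2378802238) (nat_lit 0) (nat_lit 2011200499) (nat_lit 28) (nat_lit 5) (nat_lit 30) (nat_lit 4) (nat_lit 28) (nat_lit 4) (nat_lit 343) (nat_lit 285) (nat_lit 272)))) (XT.nd (nat_lit 78) (nat_lit 152) (nat_lit 0) (XT.lf (nat_lit 0) (nat_lit 5721836562) (nat_lit 152) (nat_lit 7694814286) (nat_lit 152) (nat_lit 366600018) (nat_lit 26) (nat_lit 4) (nat_lit 28) (nat_lit 5) (nat_lit 28) (nat_lit 4) (nat_lit 344) (nat_lit 285) (nat_lit 271)) (XT.nd (nat_lit 78) (nat_lit 76) (nat_lit 0) (XT.lf (nat_lit 0) (nat_lit 3657600626) (nat_lit 228) (nat_lit 186242109) (nat_lit 76) (nat_lit 10389442576) (nat_lit 25) (nat_lit 5)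 (nat_lit 28) (nat_lit 5) (nat_lit 26) (nat_lit 4) (nat_lit 345) (nat_lit 285) (nat_lit 270)) (XT.lf (nat_lit 0) (nat_lit 7889584806) (nat_lit 152) (nat_lit 6566874392) (nat_lit 0) (nat_lit 248180101) (nat_lit 24) (nat_lit 5) (nat_lit 26) (nat_lit 4) (nat_lit 24) (nat_lit 4) (nat_lit 346) (nat_lit 285) (nat_lit 269)))))) (XT.nd (nat_lit 468) (nat_lit 304) (nat_lit 0) (XT.nd (nat_lit 234) (nat_lit 152) (nat_lit 0) (XT.nd (nat_lit 78) (nat_lit 152) (nat_lit 0) (XT.lf (nat_lit 0) (nat_lit 1472679960) (nat_lit 152) (nat_lit 10838531995) (nat_lit 152) (nat_lit 2889506839) (nat_lit 22) (nat_lit 4) (nat_lit 24) (nat_lit 5) (nat_lit 24) (nat_lit 4) (nat_lit 347) (nat_lit 285) (nat_lit 268)) (XT.nd (nat_lit 78) (nat_lit 76) (nat_lit 0) (XT.lf (nat_lit 0) (nat_lit 1195180200) (nat_lit 228) (nat_lit 5791877602) (nat_lit 76) (nat_lit 8733521688) (nat_lit 21) (nat_lit 5) (nat_lit 24) (nat_lit 5) (nat_lit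 22) (nat_lit 4) (nat_lit 348) (nat_lit 285) (nat_lit 267)) (XT.lf (nat_lit 0) (nat_lit 2382381459) (nat_lit 76) (nat_lit 2936349902) (nat_lit 152) (nat_lit 10948798433) (nat_lit 20) (nat_lit 5) (nat_lit 21) (nat_lit 5) (nat_lit 22) (nat_lit 4) (nat_lit 349) (nat_lit 285) (nat_lit 266)))) (XT.nd (nat_lit 78) (nat_lit 152) (nat_lit 0) (XT.lf (nat_lit 0) (nat_lit 9664129002) (nat_lit 152) (nat_lit 5881170703) (nat_lit 0) (nat_lit 1295793818) (nat_lit 20) (nat_lit 5) (nat_lit 22) (nat_lit 4) (nat_lit 20) (nat_lit 4) (nat_lit 350) (nat_lit 285) (nat_lit 265)) (XT.nd (nat_lit 78) (nat_lit 76) (nat_lit 0) (XT.lf (nat_lit 0) (nat_lit 2371226320) (nat_lit 76) (nat_lit 11841121218) (nat_lit 76) (nat_lit 3231757360) (nat_lit 19) (nat_lit 4) (nat_lit 20) (nat_lit 5) (nat_lit 20) (nat_lit 4) (nat_lit 351) (nat_lit 285) (nat_lit 264)) (XT.lf (nat_lit 0) (nat_lit 883529302) (nat_lit 152) (nat_lit 7027679903)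 (nat_lit 76) (nat_lit 10165290959) (nat_lit 18) (nat_lit 5) (nat_lit 20) (nat_lit 5) (nat_lit 19) (nat_lit 4) (nat_lit 352) (nat_lit 285) (nat_lit 263))))) (XT.nd (nat_lit 234) (nat_lit 228) (nat_lit 0) (XT.nd (nat_lit 78) (nat_lit 0) (nat_lit 0) (XT.lf (nat_lit 0) (nat_lit 1234928585) (nat_lit 76) (nat_lit 3785785400) (nat_lit 152) (nat_lit 13720955739) (nat_lit 17) (nat_lit 5) (nat_lit 18) (nat_lit 5) (nat_lit 19) (nat_lit 4) (nat_lit 353) (nat_lit 285) (nat_lit 262)) (XT.nd (nat_lit 78) (nat_lit 0) (nat_lit 0) (XT.lf (nat_lit 0) (nat_lit 9400393632) (nat_lit 152) (nat_lit 9462086161) (nat_lit 0) (nat_lit 575874855) (nat_lit 17) (nat_lit 5) (nat_lit 19) (nat_lit 4) (nat_lit 17) (nat_lit 4) (nat_lit 354) (nat_lit 285) (nat_lit 261)) (XT.lf (nat_lit 0) (nat_lit 13971732926) (nat_lit 152) (nat_lit 1241182064) (nat_lit 0) (nat_lit 4958361878) (nat_lit 17) (nat_lit 5) (nat_lit 19) (nat_lit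 4) (nat_lit 17) (nat_lit 4) (nat_lit 355) (nat_lit 285) (nat_lit 260)))) (XT.nd (nat_lit 78) (nat_lit 152) (nat_lit 0) (XT.lf (nat_lit 0) (nat_lit 7473861702) (nat_lit 76) (nat_lit 11329335514) (nat_lit 76) (nat_lit 2136105159) (nat_lit 16) (nat_lit 4) (nat_lit 17) (nat_lit 5) (nat_lit 17) (nat_lit 4) (nat_lit 356) (nat_lit 285) (nat_lit 259)) (XT.nd (nat_lit 78) (nat_lit 76) (nat_lit 0) (XT.lf (nat_lit 0) (nat_lit 1998805737) (nat_lit 152) (nat_lit 5266973171) (nat_lit 76) (nat_lit 14481494426) (nat_lit 15) (nat_lit 5) (nat_lit 17) (nat_lit 5) (nat_lit 16) (nat_lit 4) (nat_lit 357) (nat_lit 285) (nat_lit 258)) (XT.lf (nat_lit 0) (nat_lit 3261811298) (nat_lit 76) (nat_lit 2976956469) (nat_lit 152) (nat_lit 16356649833) (nat_lit 14) (nat_lit 5) (nat_lit 15) (nat_lit 5) (nat_lit 16) (nat_lit 4) (nat_lit 358) (nat_lit 285) (nat_lit 257))))))))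
noncomputable def xc62 : XT := (XT.nd (nat_lit 1794) (nat_lit 304) (nat_lit 0) (XT.nd (nat_lit 858) (nat_lit 304) (nat_lit 0) (XT.nd (nat_lit 390) (nat_lit 152) (nat_lit 0) (XT.nd (nat_lit 156) (nat_lit 152) (nat_lit 0) (XT.nd (nat_lit 78) (nat_lit 0) (nat_lit 0) (XT.lf (nat_lit 0) (nat_lit 10724895268) (nat_lit 152) (nat_lit 11256434136) (nat_lit 0) (nat_lit 1502960166) (nat_lit 14) (nat_lit 5) (nat_lit 16) (nat_lit 4) (nat_lit 14) (nat_lit 4) (nat_lit 359) (nat_lit 285) (nat_lit 256)) (XT.lf (nat_lit 0) (nat_lit 15407633066) (nat_lit 152) (nat_lit 2966610872) (nat_lit 0) (nat_lit 6044773490) (nat_lit 14) (nat_lit 5) (nat_lit 16) (nat_lit 4) (nat_lit 14) (nat_lit 4) (nat_lit 360) (nat_lit 285) (nat_lit 255))) (XT.nd (nat_lit 78) (nat_lit 76) (nat_lit 0) (XT.lf (nat_lit 0) (nat_lit 5787309853) (nat_lit 76) (nat_lit 14554698173) (nat_lit 76) (nat_lit 5057624814) (nat_lit 13) (nat_lit 4)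 (nat_lit 14) (nat_lit 5) (nat_lit 14) (nat_lit 4) (nat_lit 361) (nat_lit 285) (nat_lit 254)) (XT.nd (nat_lit 78) (nat_lit 76) (nat_lit 0) (XT.lf (nat_lit 0) (nat_lit 14948484369) (nat_lit 76) (nat_lit 10553388518) (nat_lit 76) (nat_lit 928492507) (nat_lit 13) (nat_lit 4) (nat_lit 14) (nat_lit 5) (nat_lit 14) (nat_lit 4) (nat_lit 362) (nat_lit 285) (nat_lit 253)) (XT.lf (nat_lit 0) (nat_lit 3228842710) (nat_lit 152) (nat_lit 3127504313) (nat_lit 76) (nat_lit 21157110718) (nat_lit 12) (nat_lit 5) (nat_lit 14) (nat_lit 5) (nat_lit 13) (nat_lit 4) (nat_lit 363) (nat_lit 285) (nat_lit 252))))) (XT.nd (nat_lit 234) (nat_lit 76) (nat_lit 0) (XT.nd (nat_lit 78) (nat_lit 0) (nat_lit 0) (XT.lf (nat_lit 0) (nat_lit 5688196404) (nat_lit 76) (nat_lit 1897543686) (nat_lit 152) (nat_lit 21063080147) (nat_lit 11) (nat_lit 5) (nat_lit 12) (nat_lit 5) (nat_lit 13) (nat_lit 4) (nat_lit 364) (nat_lit 285)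 (nat_lit 251)) (XT.nd (nat_lit 78) (nat_lit 0) (nat_lit 0) (XT.lf (nat_lit 0) (nat_lit 12192237987) (nat_lit 152) (nat_lit 14952992177) (nat_lit 0) (nat_lit 2694153421) (nat_lit 11) (nat_lit 5) (nat_lit 13) (nat_lit 4) (nat_lit 11) (nat_lit 4) (nat_lit 365) (nat_lit 285) (nat_lit 250)) (XT.lf (nat_lit 0) (nat_lit 16997741760) (nat_lit 152) (nat_lit 6693814022) (nat_lit 0) (nat_lit 7399504802) (nat_lit 11) (nat_lit 5) (nat_lit 13) (nat_lit 4) (nat_lit 11) (nat_lit 4) (nat_lit 366) (nat_lit 285) (nat_lit 249)))) (XT.nd (nat_lit 78) (nat_lit 0) (nat_lit 0) (XT.lf (nat_lit 0) (nat_lit 1927906358) (nat_lit 76) (nat_lit 20086260773) (nat_lit 76) (nat_lit 10392640585) (nat_lit 10) (nat_lit 4) (nat_lit 11) (nat_lit 5) (nat_lit 11) (nat_lit 4) (nat_lit 367) (nat_lit 285) (nat_lit 248)) (XT.nd (nat_lit 78) (nat_lit 0) (nat_lit 0) (XT.lf (nat_lit 0) (nat_lit 11102793557) (nat_lit 76) (nat_lit 16233638408)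 (nat_lit 76) (nat_lit 6449177047) (nat_lit 10) (nat_lit 4) (nat_lit 11) (nat_lit 5) (nat_lit 11) (nat_lit 4) (nat_lit 368) (nat_lit 285) (nat_lit 247)) (XT.lf (nat_lit 0) (nat_lit 20631364821) (nat_lit 76) (nat_lit 12237878755) (nat_lit 76) (nat_lit 2366901993) (nat_lit 10) (nat_lit 4) (nat_lit 11) (nat_lit 5) (nat_lit 11) (nat_lit 4) (nat_lit 369) (nat_lit 285) (nat_lit 246)))))) (XT.nd (nat_lit 468) (nat_lit 152) (nat_lit 0) (XT.nd (nat_lit 234) (nat_lit 0) (nat_lit 0) (XT.nd (nat_lit 78) (nat_lit 76) (nat_lit 0) (XT.lf (nat_lit 0) (nat_lit 1804247703) (nat_lit 152) (nat_lit 6254664591) (nat_lit 76) (nat_lit 28701503713) (nat_lit 9) (nat_lit 5) (nat_lit 11) (nat_lit 5) (nat_lit 10) (nat_lit 4) (nat_lit 370) (nat_lit 285) (nat_lit 245)) (XT.nd (nat_lit 78) (nat_lit 0) (nat_lit 0) (XT.lf (nat_lit 0) (nat_lit 2455753516) (nat_lit 76) (nat_lit 3635757663) (nat_lit 152) (nat_lit 32268108294)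 (nat_lit 8) (nat_lit 5) (nat_lit 9) (nat_lit 5) (nat_lit 10) (nat_lit 4) (nat_lit 371) (nat_lit 285) (nat_lit 244)) (XT.lf (nat_lit 0) (nat_lit 10665550163) (nat_lit 152) (nat_lit 28329390013) (nat_lit 0) (nat_lit 1040236201) (nat_lit 8) (nat_lit 5) (nat_lit 10) (nat_lit 4) (nat_lit 8) (nat_lit 4) (nat_lit 372) (nat_lit 285) (nat_lit 243)))) (XT.nd (nat_lit 78) (nat_lit 0) (nat_lit 0) (XT.lf (nat_lit 0) (nat_lit 15479325782) (nat_lit 152) (nat_lit 20528422090) (nat_lit 0) (nat_lit 5786224740) (nat_lit 8) (nat_lit 5) (nat_lit 10) (nat_lit 4) (nat_lit 8) (nat_lit 4) (nat_lit 373) (nat_lit 285) (nat_lit 242)) (XT.nd (nat_lit 78) (nat_lit 0) (nat_lit 0) (XT.lf (nat_lit 0) (nat_lit 20487535043) (nat_lit 152) (nat_lit 12425624089) (nat_lit 0) (nat_lit 10729874876) (nat_lit 8) (nat_lit 5) (nat_lit 10) (nat_lit 4) (nat_lit 8) (nat_lit 4) (nat_lit 374) (nat_lit 285) (nat_lit 241)) (XT.lf (nat_lit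 0) (nat_lit 25702102252) (nat_lit 152) (nat_lit 4001703634) (nat_lit 0) (nat_lit 15882957204) (nat_lit 8) (nat_lit 5) (nat_lit 10) (nat_lit 4) (nat_lit 8) (nat_lit 4) (nat_lit 375) (nat_lit 285) (nat_lit 240))))) (XT.nd (nat_lit 234) (nat_lit 76) (nat_lit 0) (XT.nd (nat_lit 78) (nat_lit 0) (nat_lit 0) (XT.lf (nat_lit 0) (nat_lit 4920895619) (nat_lit 76) (nat_lit 26291376398) (nat_lit 76) (nat_lit 16413674321) (nat_lit 7) (nat_lit 4) (nat_lit 8) (nat_lit 5) (nat_lit 8) (nat_lit 4) (nat_lit 376) (nat_lit 285) (nat_lit 239)) (XT.nd (nat_lit 78) (nat_lit 0) (nat_lit 0) (XT.lf (nat_lit 0) (nat_lit 14349828926) (nat_lit 76) (nat_lit 22674706069) (nat_lit 76) (nat_lit 12741235393) (nat_lit 7) (nat_lit 4) (nat_lit 8) (nat_lit 5) (nat_lit 8) (nat_lit 4) (nat_lit 377) (nat_lit 285) (nat_lit 238)) (XT.lf (nat_lit 0) (nat_lit 24175231731) (nat_lit 76) (nat_lit 18912954569) (nat_lit 76) (nat_lit 8926370940)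 (nat_lit 7) (nat_lit 4) (nat_lit 8) (nat_lit 5) (nat_lit 8) (nat_lit 4) (nat_lit 378) (nat_lit 285) (nat_lit 237)))) (XT.nd (nat_lit 78) (nat_lit 76) (nat_lit 0) (XT.lf (nat_lit 0) (nat_lit 34420497852) (nat_lit 76) (nat_lit 14997165345) (nat_lit 76) (nat_lit 4959997953) (nat_lit 7) (nat_lit 4) (nat_lit 8) (nat_lit 5) (nat_lit 8) (nat_lit 4) (nat_lit 379) (nat_lit 285) (nat_lit 236)) (XT.nd (nat_lit 78) (nat_lit 76) (nat_lit 0) (XT.lf (nat_lit 0) (nat_lit 45110020779) (nat_lit 76) (nat_lit 10918015090) (nat_lit 76) (nat_lit 832672685) (nat_lit 7) (nat_lit 4) (nat_lit 8) (nat_lit 5) (nat_lit 8) (nat_lit 4) (nat_lit 380) (nat_lit 285) (nat_lit 235)) (XT.lf (nat_lit 0) (nat_lit 3354516367) (nat_lit 152) (nat_lit 3254464816) (nat_lit 76) (nat_lit 52857925031) (nat_lit 6) (nat_lit 5) (nat_lit 8) (nat_lit 5) (nat_lit 7) (nat_lit 4) (nat_lit 381) (nat_lit 285) (nat_lit 234))))))) (XT.nd (nat_lit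 858) (nat_lit 152) (nat_lit 0) (XT.nd (nat_lit 390) (nat_lit 76) (nat_lit 0) (XT.nd (nat_lit 156) (nat_lit 0) (nat_lit 0) (XT.nd (nat_lit 78) (nat_lit 0) (nat_lit 0) (XT.lf (nat_lit 0) (nat_lit 5774977478) (nat_lit 76) (nat_lit 2005460085) (nat_lit 152) (nat_lit 54419433996) (nat_lit 5) (nat_lit 5) (nat_lit 6) (nat_lit 5) (nat_lit 7) (nat_lit 4) (nat_lit 382) (nat_lit 285) (nat_lit 233)) (XT.lf (nat_lit 0) (nat_lit 12495159897) (nat_lit 152) (nat_lit 49805831103) (nat_lit 0) (nat_lit 2765126646) (nat_lit 5) (nat_lit 5) (nat_lit 7) (nat_lit 4) (nat_lit 5) (nat_lit 4) (nat_lit 383) (nat_lit 285) (nat_lit 232))) (XT.nd (nat_lit 78) (nat_lit 0) (nat_lit 0) (XT.lf (nat_lit 0) (nat_lit 17447379405) (nat_lit 152) (nat_lit 42948616170) (nat_lit 0) (nat_lit 7679599770) (nat_lit 5) (nat_lit 5) (nat_lit 7) (nat_lit 4) (nat_lit 5) (nat_lit 4) (nat_lit 384) (nat_lit 285) (nat_lit 231)) (XT.nd (nat_lit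 78) (nat_lit 0) (nat_lit 0) (XT.lf (nat_lit 0) (nat_lit 22617576234) (nat_lit 152) (nat_lit 35805611729) (nat_lit 0) (nat_lit 12813847662) (nat_lit 5) (nat_lit 5) (nat_lit 7) (nat_lit 4) (nat_lit 5) (nat_lit 4) (nat_lit 385) (nat_lit 285) (nat_lit 230)) (XT.lf (nat_lit 0) (nat_lit 28018060375) (nat_lit 152) (nat_lit 28359810626) (nat_lit 0) (nat_lit 18180094721) (nat_lit 5) (nat_lit 5) (nat_lit 7) (nat_lit 4) (nat_lit 5) (nat_lit 4) (nat_lit 386) (nat_lit 285) (nat_lit 229))))) (XT.nd (nat_lit 234) (nat_lit 76) (nat_lit 0) (XT.nd (nat_lit 78) (nat_lit 0) (nat_lit 0) (XT.lf (nat_lit 0) (nat_lit 33661690125) (nat_lit 152) (nat_lit 20593484762) (nat_lit 0) (nat_lit 23791117726) (nat_lit 5) (nat_lit 5) (nat_lit 7) (nat_lit 4) (nat_lit 5) (nat_lit 4) (nat_lit 387) (nat_lit 285) (nat_lit 228)) (XT.nd (nat_lit 78) (nat_lit 0) (nat_lit 0) (XT.lf (nat_lit 0) (nat_lit 39561902696) (nat_lit 152)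 (nat_lit 12488142887) (nat_lit 0) (nat_lit 29660276255) (nat_lit 5) (nat_lit 5) (nat_lit 7) (nat_lit 4) (nat_lit 5) (nat_lit 4) (nat_lit 388) (nat_lit 285) (nat_lit 227)) (XT.lf (nat_lit 0) (nat_lit 45732746216) (nat_lit 152) (nat_lit 4024486567) (nat_lit 0) (nat_lit 35801544495) (nat_lit 5) (nat_lit 5) (nat_lit 7) (nat_lit 4) (nat_lit 5) (nat_lit 4) (nat_lit 389) (nat_lit 285) (nat_lit 226)))) (XT.nd (nat_lit 78) (nat_lit 0) (nat_lit 0) (XT.lf (nat_lit 0) (nat_lit 4976928555) (nat_lit 76) (nat_lit 47289688413) (nat_lit 76) (nat_lit 37330319761) (nat_lit 4) (nat_lit 4) (nat_lit 5) (nat_lit 5) (nat_lit 5) (nat_lit 4) (nat_lit 390) (nat_lit 285) (nat_lit 225)) (XT.nd (nat_lit 78) (nat_lit 0) (nat_lit 0) (XT.lf (nat_lit 0) (nat_lit 14524139951) (nat_lit 76) (nat_lit 44648397952) (nat_lit 76) (nat_lit 34662203650) (nat_lit 4) (nat_lit 4) (nat_lit 5) (nat_lit 5) (nat_lit 5) (nat_lit 4) (nat_lit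 391) (nat_lit 285) (nat_lit 224)) (XT.lf (nat_lit 0) (nat_lit 24506811374) (nat_lit 76) (nat_lit 41895229240) (nat_lit 76) (nat_lit 31883486700) (nat_lit 4) (nat_lit 4) (nat_lit 5) (nat_lit 5) (nat_lit 5) (nat_lit 4) (nat_lit 392) (nat_lit 285) (nat_lit 223)))))) (XT.nd (nat_lit 468) (nat_lit 152) (nat_lit 0) (XT.nd (nat_lit 234) (nat_lit 0) (nat_lit 0) (XT.nd (nat_lit 78) (nat_lit 0) (nat_lit 0) (XT.lf (nat_lit 0) (nat_lit 34948711091) (nat_lit 76) (nat_lit 39023627113) (nat_lit 76) (nat_lit 28987552918) (nat_lit 4) (nat_lit 4) (nat_lit 5) (nat_lit 5) (nat_lit 5) (nat_lit 4) (nat_lit 393) (nat_lit 285) (nat_lit 222)) (XT.nd (nat_lit 78) (nat_lit 0) (nat_lit 0) (XT.lf (nat_lit 0) (nat_lit 45874700765) (nat_lit 76) (nat_lit 36026754424) (nat_lit 76) (nat_lit 25967507223) (nat_lit 4) (nat_lit 4) (nat_lit 5) (nat_lit 5) (nat_lit 5) (nat_lit 4) (nat_lit 394) (nat_lit 285) (nat_lit 221)) (XT.lf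 (nat_lit 0) (nat_lit 57310794660) (nat_lit 76) (nat_lit 32897475761) (nat_lit 76) (nat_lit 22816159032) (nat_lit 4) (nat_lit 4) (nat_lit 5) (nat_lit 5) (nat_lit 5) (nat_lit 4) (nat_lit 395) (nat_lit 285) (nat_lit 220)))) (XT.nd (nat_lit 78) (nat_lit 0) (nat_lit 0) (XT.lf (nat_lit 0) (nat_lit 69284221570) (nat_lit 76) (nat_lit 29628340461) (nat_lit 76) (nat_lit 19526005134) (nat_lit 4) (nat_lit 4) (nat_lit 5) (nat_lit 5) (nat_lit 5) (nat_lit 4) (nat_lit 396) (nat_lit 285) (nat_lit 219)) (XT.nd (nat_lit 78) (nat_lit 0) (nat_lit 0) (XT.lf (nat_lit 0) (nat_lit 81823489653) (nat_lit 76) (nat_lit 26211564869) (nat_lit 76) (nat_lit 16089211828) (nat_lit 4) (nat_lit 4) (nat_lit 5) (nat_lit 5) (nat_lit 5) (nat_lit 4) (nat_lit 397) (nat_lit 285) (nat_lit 218)) (XT.lf (nat_lit 0) (nat_lit 94958454311) (nat_lit 76) (nat_lit 22639013803) (nat_lit 76) (nat_lit 12497596274) (nat_lit 4) (nat_lit 4) (nat_lit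 5) (nat_lit 5) (nat_lit 5) (nat_lit 4) (nat_lit 398) (nat_lit 285) (nat_lit 217))))) (XT.nd (nat_lit 234) (nat_lit 152) (nat_lit 0) (XT.nd (nat_lit 78) (nat_lit 0) (nat_lit 0) (XT.lf (nat_lit 0) (nat_lit 108720389269) (nat_lit 76) (nat_lit 18902181192) (nat_lit 76) (nat_lit 8742607007) (nat_lit 4) (nat_lit 4) (nat_lit 5) (nat_lit 5) (nat_lit 5) (nat_lit 4) (nat_lit 399) (nat_lit 285) (nat_lit 216)) (XT.nd (nat_lit 78) (nat_lit 0) (nat_lit 0) (XT.lf (nat_lit 0) (nat_lit 123142061038) (nat_lit 76) (nat_lit 14992169813) (nat_lit 76) (nat_lit 4815303575) (nat_lit 4) (nat_lit 4) (nat_lit 5) (nat_lit 5) (nat_lit 5) (nat_lit 4) (nat_lit 400) (nat_lit 285) (nat_lit 215)) (XT.lf (nat_lit 0) (nat_lit 138257806933) (nat_lit 76) (nat_lit 10899670116) (nat_lit 76) (nat_lit 706335256) (nat_lit 4) (nat_lit 4) (nat_lit 5) (nat_lit 5) (nat_lit 5) (nat_lit 4) (nat_lit 401) (nat_lit 285) (nat_lit 214))))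 (XT.nd (nat_lit 78) (nat_lit 76) (nat_lit 0) (XT.lf (nat_lit 0) (nat_lit 3479048162) (nat_lit 152) (nat_lit 3076970528) (nat_lit 76) (nat_lit 150565649297) (nat_lit 3) (nat_lit 5) (nat_lit 5) (nat_lit 5) (nat_lit 4) (nat_lit 4) (nat_lit 402) (nat_lit 285) (nat_lit 213)) (XT.nd (nat_lit 78) (nat_lit 0) (nat_lit 0) (XT.lf (nat_lit 0) (nat_lit 6035172077) (nat_lit 76) (nat_lit 1896110295) (nat_lit 152) (nat_lit 156806491937) (nat_lit 2) (nat_lit 5) (nat_lit 3) (nat_lit 5) (nat_lit 4) (nat_lit 4) (nat_lit 403) (nat_lit 285) (nat_lit 212)) (XT.lf (nat_lit 0) (nat_lit 12693020723) (nat_lit 152) (nat_lit 157094952999) (nat_lit 0) (nat_lit 2942370245) (nat_lit 2) (nat_lit 5) (nat_lit 4) (nat_lit 4) (nat_lit 2) (nat_lit 4) (nat_lit 404) (nat_lit 285) (nat_lit 211))))))))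
noncomputable def xc63 : XT := (XT.nd (nat_lit 1794) (nat_lit 0) (nat_lit 0) (XT.nd (nat_lit 858) (nat_lit 0) (nat_lit 0) (XT.nd (nat_lit 390) (nat_lit 0) (nat_lit 0) (XT.nd (nat_lit 156) (nat_lit 0) (nat_lit 0) (XT.nd (nat_lit 78) (nat_lit 0) (nat_lit 0) (XT.lf (nat_lit 0) (nat_lit 17711681993) (nat_lit 152) (nat_lit 155461792914) (nat_lit 0) (nat_lit 7948127918) (nat_lit 2) (nat_lit 5) (nat_lit 4) (nat_lit 4) (nat_lit 2) (nat_lit 4) (nat_lit 405) (nat_lit 285) (nat_lit 210)) (XT.lf (nat_lit 0) (nat_lit 22969611780) (nat_lit 152) (nat_lit 153769629904) (nat_lit 0) (nat_lit 13193768566) (nat_lit 2) (nat_lit 5) (nat_lit 4) (nat_lit 4) (nat_lit 2) (nat_lit 4) (nat_lit 406) (nat_lit 285) (nat_lit 209))) (XT.nd (nat_lit 78) (nat_lit 0) (nat_lit 0) (XT.lf (nat_lit 0) (nat_lit 28479328965) (nat_lit 152) (nat_lit 152014435010) (nat_lit 0) (nat_lit 18691781809) (nat_lit 2) (nat_lit 5) (nat_lit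 4) (nat_lit 4) (nat_lit 2) (nat_lit 4) (nat_lit 407) (nat_lit 285) (nat_lit 208)) (XT.nd (nat_lit 78) (nat_lit 0) (nat_lit 0) (XT.lf (nat_lit 0) (nat_lit 34253951921) (nat_lit 152) (nat_lit 150192029196) (nat_lit 0) (nat_lit 24455258154) (nat_lit 2) (nat_lit 5) (nat_lit 4) (nat_lit 4) (nat_lit 2) (nat_lit 4) (nat_lit 408) (nat_lit 285) (nat_lit 207)) (XT.lf (nat_lit 0) (nat_lit 40307229752) (nat_lit 152) (nat_lit 148298073402) (nat_lit 0) (nat_lit 30497920164) (nat_lit 2) (nat_lit 5) (nat_lit 4) (nat_lit 4) (nat_lit 2) (nat_lit 4) (nat_lit 409) (nat_lit 285) (nat_lit 206))))) (XT.nd (nat_lit 234) (nat_lit 0) (nat_lit 0) (XT.nd (nat_lit 78) (nat_lit 0) (nat_lit 0) (XT.lf (nat_lit 0) (nat_lit 46653575023) (nat_lit 152) (nat_lit 146328058208) (nat_lit 0) (nat_lit 36834155130) (nat_lit 2) (nat_lit 5) (nat_lit 4) (nat_lit 4) (nat_lit 2) (nat_lit 4) (nat_lit 410) (nat_lit 285) (nat_lit 205))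 (XT.nd (nat_lit 78) (nat_lit 0) (nat_lit 0) (XT.lf (nat_lit 0) (nat_lit 53308098081) (nat_lit 152) (nat_lit 144277293103) (nat_lit 0) (nat_lit 43479049325) (nat_lit 2) (nat_lit 5) (nat_lit 4) (nat_lit 4) (nat_lit 2) (nat_lit 4) (nat_lit 411) (nat_lit 285) (nat_lit 204)) (XT.lf (nat_lit 0) (nat_lit 60286643027) (nat_lit 152) (nat_lit 142140895312) (nat_lit 0) (nat_lit 50448423927) (nat_lit 2) (nat_lit 5) (nat_lit 4) (nat_lit 4) (nat_lit 2) (nat_lit 4) (nat_lit 412) (nat_lit 285) (nat_lit 203)))) (XT.nd (nat_lit 78) (nat_lit 0) (nat_lit 0) (XT.lf (nat_lit 0) (nat_lit 67605825446) (nat_lit 152) (nat_lit 139913778174) (nat_lit 0) (nat_lit 57758872683) (nat_lit 2) (nat_lit 5) (nat_lit 4) (nat_lit 4) (nat_lit 2) (nat_lit 4) (nat_lit 413) (nat_lit 285) (nat_lit 202)) (XT.nd (nat_lit 78) (nat_lit 0) (nat_lit 0) (XT.lf (nat_lit 0) (nat_lit 75283071961) (nat_lit 152) (nat_lit 137590639028) (nat_lit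 0) (nat_lit 65427801425) (nat_lit 2) (nat_lit 5) (nat_lit 4) (nat_lit 4) (nat_lit 2) (nat_lit 4) (nat_lit 414) (nat_lit 285) (nat_lit 201)) (XT.lf (nat_lit 0) (nat_lit 83336661731) (nat_lit 152) (nat_lit 135165946592) (nat_lit 0) (nat_lit 73473469507) (nat_lit 2) (nat_lit 5) (nat_lit 4) (nat_lit 4) (nat_lit 2) (nat_lit 4) (nat_lit 415) (nat_lit 285) (nat_lit 200)))))) (XT.nd (nat_lit 468) (nat_lit 0) (nat_lit 0) (XT.nd (nat_lit 234) (nat_lit 0) (nat_lit 0) (XT.nd (nat_lit 78) (nat_lit 0) (nat_lit 0) (XT.lf (nat_lit 0) (nat_lit 91785769971) (nat_lit 152) (nat_lit 132633927788) (nat_lit 0) (nat_lit 81915033281) (nat_lit 2) (nat_lit 5) (nat_lit 4) (nat_lit 4) (nat_lit 2) (nat_lit 4) (nat_lit 416) (nat_lit 285) (nat_lit 199)) (XT.nd (nat_lit 78) (nat_lit 0) (nat_lit 0) (XT.lf (nat_lit 0) (nat_lit 100650513604) (nat_lit 152) (nat_lit 129988553999) (nat_lit 0) (nat_lit 90772591709) (nat_lit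 2) (nat_lit 5) (nat_lit 4) (nat_lit 4) (nat_lit 2) (nat_lit 4) (nat_lit 417) (nat_lit 285) (nat_lit 198)) (XT.lf (nat_lit 0) (nat_lit 109951999162) (nat_lit 152) (nat_lit 127223526718) (nat_lit 0) (nat_lit 100067234214) (nat_lit 2) (nat_lit 5) (nat_lit 4) (nat_lit 4) (nat_lit 2) (nat_lit 4) (nat_lit 418) (nat_lit 285) (nat_lit 197)))) (XT.nd (nat_lit 78) (nat_lit 0) (nat_lit 0) (XT.lf (nat_lit 0) (nat_lit 119712373041) (nat_lit 152) (nat_lit 124332262545) (nat_lit 0) (nat_lit 109821090900) (nat_lit 2) (nat_lit 5) (nat_lit 4) (nat_lit 4) (nat_lit 2) (nat_lit 4) (nat_lit 419) (nat_lit 285) (nat_lit 196)) (XT.nd (nat_lit 78) (nat_lit 0) (nat_lit 0) (XT.lf (nat_lit 0) (nat_lit 129954874224) (nat_lit 152) (nat_lit 121307877518) (nat_lit 0) (nat_lit 120057385233) (nat_lit 2) (nat_lit 5) (nat_lit 4) (nat_lit 4) (nat_lit 2) (nat_lit 4) (nat_lit 420) (nat_lit 285) (nat_lit 195)) (XT.lf (nat_lit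 0) (nat_lit 140703889621) (nat_lit 152) (nat_lit 118143170720) (nat_lit 0) (nat_lit 130800489344) (nat_lit 2) (nat_lit 5) (nat_lit 4) (nat_lit 4) (nat_lit 2) (nat_lit 4) (nat_lit 421) (nat_lit 285) (nat_lit 194))))) (XT.nd (nat_lit 234) (nat_lit 0) (nat_lit 0) (XT.nd (nat_lit 78) (nat_lit 0) (nat_lit 0) (XT.lf (nat_lit 0) (nat_lit 151985012125) (nat_lit 152) (nat_lit 114830607136) (nat_lit 0) (nat_lit 142075982052) (nat_lit 2) (nat_lit 5) (nat_lit 4) (nat_lit 4) (nat_lit 2) (nat_lit 4) (nat_lit 422) (nat_lit 285) (nat_lit 193)) (XT.nd (nat_lit 78) (nat_lit 0) (nat_lit 0) (XT.lf (nat_lit 0) (nat_lit 163825101551) (nat_lit 152) (nat_lit 111362299709) (nat_lit 0) (nat_lit 153910709767) (nat_lit 2) (nat_lit 5) (nat_lit 4) (nat_lit 4) (nat_lit 2) (nat_lit 4) (nat_lit 423) (nat_lit 285) (nat_lit 192)) (XT.lf (nat_lit 0) (nat_lit 176252348588) (nat_lit 152) (nat_lit 107729990564) (nat_lit 0)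 (nat_lit 166332850413) (nat_lit 2) (nat_lit 5) (nat_lit 4) (nat_lit 4) (nat_lit 2) (nat_lit 4) (nat_lit 424) (nat_lit 285) (nat_lit 191)))) (XT.nd (nat_lit 78) (nat_lit 0) (nat_lit 0) (XT.lf (nat_lit 0) (nat_lit 189296341920) (nat_lit 152) (nat_lit 103925031347) (nat_lit 0) (nat_lit 179371980515) (nat_lit 2) (nat_lit 5) (nat_lit 4) (nat_lit 4) (nat_lit 2) (nat_lit 4) (nat_lit 425) (nat_lit 285) (nat_lit 190)) (XT.nd (nat_lit 78) (nat_lit 0) (nat_lit 0) (XT.lf (nat_lit 0) (nat_lit 202988138674) (nat_lit 152) (nat_lit 99938362630) (nat_lit 0) (nat_lit 193059145622) (nat_lit 2) (nat_lit 5) (nat_lit 4) (nat_lit 4) (nat_lit 2) (nat_lit 4) (nat_lit 426) (nat_lit 285) (nat_lit 189)) (XT.lf (nat_lit 0) (nat_lit 217360338366) (nat_lit 152) (nat_lit 95760492345) (nat_lit 0) (nat_lit 207426934221) (nat_lit 2) (nat_lit 5) (nat_lit 4) (nat_lit 4) (nat_lit 2) (nat_lit 4) (nat_lit 427) (nat_lit 285)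 (nat_lit 188))))))) (XT.nd (nat_lit 39312) (nat_lit 0) (nat_lit 1976) (XT.nd (nat_lit 390) (nat_lit 0) (nat_lit 0) (XT.nd (nat_lit 156) (nat_lit 0) (nat_lit 0) (XT.nd (nat_lit 78) (nat_lit 0) (nat_lit 0) (XT.lf (nat_lit 0) (nat_lit 232447160518) (nat_lit 152) (nat_lit 91381473181) (nat_lit 0) (nat_lit 222509555333) (nat_lit 2) (nat_lit 5) (nat_lit 4) (nat_lit 4) (nat_lit 2) (nat_lit 4) (nat_lit 428) (nat_lit 285) (nat_lit 187)) (XT.lf (nat_lit 0) (nat_lit 248284526137) (nat_lit 152) (nat_lit 86790878904) (nat_lit 0) (nat_lit 238342919960) (nat_lit 2) (nat_lit 5) (nat_lit 4) (nat_lit 4) (nat_lit 2) (nat_lit 4) (nat_lit 429) (nat_lit 285) (nat_lit 186))) (XT.nd (nat_lit 78) (nat_lit 0) (nat_lit 0) (XT.lf (nat_lit 0) (nat_lit 264910143235) (nat_lit 152) (nat_lit 81977779526) (nat_lit 0) (nat_lit 254964726591) (nat_lit 2) (nat_lit 5) (nat_lit 4) (nat_lit 4) (nat_lit 2) (nat_lit 4) (nat_lit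 430) (nat_lit 285) (nat_lit 185)) (XT.nd (nat_lit 78) (nat_lit 0) (nat_lit 0) (XT.lf (nat_lit 0) (nat_lit 282363596616) (nat_lit 152) (nat_lit 76930715287) (nat_lit 0) (nat_lit 272414550954) (nat_lit 2) (nat_lit 5) (nat_lit 4) (nat_lit 4) (nat_lit 2) (nat_lit 4) (nat_lit 431) (nat_lit 285) (nat_lit 184)) (XT.lf (nat_lit 0) (nat_lit 300686442119) (nat_lit 152) (nat_lit 71637669368) (nat_lit 0) (nat_lit 290733940251) (nat_lit 2) (nat_lit 5) (nat_lit 4) (nat_lit 4) (nat_lit 2) (nat_lit 4) (nat_lit 432) (nat_lit 285) (nat_lit 183))))) (XT.nd (nat_lit 38688) (nat_lit 0) (nat_lit 3648) (XT.nd (nat_lit 78) (nat_lit 0) (nat_lit 0) (XT.lf (nat_lit 0) (nat_lit 319922305569) (nat_lit 152) (nat_lit 66086039277) (nat_lit 0) (nat_lit 309966512076) (nat_lit 2) (nat_lit 5) (nat_lit 4) (nat_lit 4) (nat_lit 2) (nat_lit 4) (nat_lit 433) (nat_lit 285) (nat_lit 182)) (XT.nd (nat_lit 78) (nat_lit 0) (nat_lit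 0) (XT.lf (nat_lit 0) (nat_lit 340116986640) (nat_lit 152) (nat_lit 60262606849) (nat_lit 0) (nat_lit 330158058265) (nat_lit 2) (nat_lit 5) (nat_lit 4) (nat_lit 4) (nat_lit 2) (nat_lit 4) (nat_lit 434) (nat_lit 285) (nat_lit 181)) (XT.lf (nat_lit 0) (nat_lit 361318567905) (nat_lit 152) (nat_lit 54153506768) (nat_lit 0) (nat_lit 351356653929) (nat_lit 2) (nat_lit 5) (nat_lit 4) (nat_lit 4) (nat_lit 2) (nat_lit 4) (nat_lit 435) (nat_lit 285) (nat_lit 180)))) (XT.nd (nat_lit 78) (nat_lit 304) (nat_lit 0) (XT.lf (nat_lit 0) (nat_lit 953795009) (nat_lit 304) (nat_lit 2575207449) (nat_lit 0) (nat_lit 953795009) (nat_lit 54) (nat_lit 5) (nat_lit 58) (nat_lit 4) (nat_lit 54) (nat_lit 4) (nat_lit 328) (nat_lit 286) (nat_lit 286)) (XT.nd (nat_lit 78) (nat_lit 76) (nat_lit 0) (XT.lf (nat_lit 0) (nat_lit 1621875658) (nat_lit 228) (nat_lit 4244262737) (nat_lit 228) (nat_lit 3299399213) (nat_lit 51)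 (nat_lit 4) (nat_lit 54) (nat_lit 5) (nat_lit 54) (nat_lit 4) (nat_lit 329) (nat_lit 286) (nat_lit 285)) (XT.lf (nat_lit 0) (nat_lit 556718276) (nat_lit 304) (nat_lit 703461078) (nat_lit 76) (nat_lit 8118445328) (nat_lit 50) (nat_lit 5) (nat_lit 54) (nat_lit 5) (nat_lit 51) (nat_lit 4) (nat_lit 330) (nat_lit 286) (nat_lit 284)))))) (XT.nd (nat_lit 468) (nat_lit 684) (nat_lit 0) (XT.nd (nat_lit 234) (nat_lit 380) (nat_lit 0) (XT.nd (nat_lit 78) (nat_lit 456) (nat_lit 0) (XT.lf (nat_lit 0) (nat_lit 4474664482) (nat_lit 228) (nat_lit 3224594422) (nat_lit 0) (nat_lit 1901566753) (nat_lit 48) (nat_lit 5) (nat_lit 51) (nat_lit 4) (nat_lit 48) (nat_lit 4) (nat_lit 331) (nat_lit 286) (nat_lit 283)) (XT.nd (nat_lit 78) (nat_lit 228) (nat_lit 0) (XT.lf (nat_lit 0) (nat_lit 3879953111) (nat_lit 228) (nat_lit 4653757175) (nat_lit 228) (nat_lit 1303317887) (nat_lit 45) (nat_lit 4) (nat_lit 48) (nat_lit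 5) (nat_lit 48) (nat_lit 4) (nat_lit 332) (nat_lit 286) (nat_lit 282)) (XT.lf (nat_lit 0) (nat_lit 1136993752) (nat_lit 152) (nat_lit 1413132264) (nat_lit 228) (nat_lit 7536625416) (nat_lit 42) (nat_lit 5) (nat_lit 44) (nat_lit 5) (nat_lit 45) (nat_lit 4) (nat_lit 333) (nat_lit 286) (nat_lit 281)))) (XT.nd (nat_lit 78) (nat_lit 380) (nat_lit 0) (XT.lf (nat_lit 0) (nat_lit 6541316804) (nat_lit 228) (nat_lit 1833409315) (nat_lit 0) (nat_lit 1973853669) (nat_lit 42) (nat_lit 5) (nat_lit 45) (nat_lit 4) (nat_lit 42) (nat_lit 4) (nat_lit 334) (nat_lit 286) (nat_lit 280)) (XT.nd (nat_lit 78) (nat_lit 152) (nat_lit 0) (XT.lf (nat_lit 0) (nat_lit 76922140) (nat_lit 228) (nat_lit 5049293570) (nat_lit 76) (nat_lit 5498726417) (nat_lit 39) (nat_lit 5) (nat_lit 42) (nat_lit 5) (nat_lit 40) (nat_lit 4) (nat_lit 335) (nat_lit 286) (nat_lit 279)) (XT.lf (nat_lit 0) (nat_lit 2297580026) (nat_lit 152)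 (nat_lit 1660288967) (nat_lit 228) (nat_lit 6957720940) (nat_lit 37) (nat_lit 5) (nat_lit 39) (nat_lit 5) (nat_lit 40) (nat_lit 4) (nat_lit 336) (nat_lit 286) (nat_lit 278))))) (XT.nd (nat_lit 234) (nat_lit 304) (nat_lit 0) (XT.nd (nat_lit 78) (nat_lit 380) (nat_lit 0) (XT.lf (nat_lit 0) (nat_lit 8015648072) (nat_lit 228) (nat_lit 1281981199) (nat_lit 0) (nat_lit 1924109357) (nat_lit 37) (nat_lit 5) (nat_lit 40) (nat_lit 4) (nat_lit 37) (nat_lit 4) (nat_lit 337) (nat_lit 286) (nat_lit 277)) (XT.nd (nat_lit 78) (nat_lit 152) (nat_lit 0) (XT.lf (nat_lit 0) (nat_lit 707891729) (nat_lit 228) (nat_lit 5166496033) (nat_lit 76) (nat_lit 5668420676) (nat_lit 34) (nat_lit 5) (nat_lit 37) (nat_lit 5) (nat_lit 35) (nat_lit 4) (nat_lit 338) (nat_lit 286) (nat_lit 276)) (XT.lf (nat_lit 0) (nat_lit 2396229211) (nat_lit 152) (nat_lit 2245226686) (nat_lit 228) (nat_lit 7239359551) (nat_lit 32) (nat_lit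 5) (nat_lit 34) (nat_lit 5) (nat_lit 35) (nat_lit 4) (nat_lit 339) (nat_lit 286) (nat_lit 275)))) (XT.nd (nat_lit 78) (nat_lit 304) (nat_lit 0) (XT.lf (nat_lit 0) (nat_lit 8758785205) (nat_lit 228) (nat_lit 1953149230) (nat_lit 0) (nat_lit 1524522667) (nat_lit 32) (nat_lit 5) (nat_lit 35) (nat_lit 4) (nat_lit 32) (nat_lit 4) (nat_lit 340) (nat_lit 286) (nat_lit 274)) (XT.nd (nat_lit 78) (nat_lit 76) (nat_lit 0) (XT.lf (nat_lit 0) (nat_lit 465777140) (nat_lit 228) (nat_lit 6712272267) (nat_lit 76) (nat_lit 5431103935) (nat_lit 29) (nat_lit 5) (nat_lit 32) (nat_lit 5) (nat_lit 30) (nat_lit 4) (nat_lit 341) (nat_lit 286) (nat_lit 273)) (XT.lf (nat_lit 0) (nat_lit 979132999) (nat_lit 76) (nat_lit 3439642234) (nat_lit 152) (nat_lit 8582472721) (nat_lit 28) (nat_lit 5) (nat_lit 29) (nat_lit 5) (nat_lit 30) (nat_lit 4) (nat_lit 342) (nat_lit 286) (nat_lit 272))))))))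
noncomputable def xc64 : XT := (XT.nd (nat_lit 1716) (nat_lit 456) (nat_lit 0) (XT.nd (nat_lit 858) (nat_lit 532) (nat_lit 0) (XT.nd (nat_lit 390) (nat_lit 456) (nat_lit 0) (XT.nd (nat_lit 156) (nat_lit 152) (nat_lit 0) (XT.nd (nat_lit 78) (nat_lit 152) (nat_lit 0) (XT.lf (nat_lit 0) (nat_lit 8574175659) (nat_lit 152) (nat_lit 4332970846) (nat_lit 0) (nat_lit 505636096) (nat_lit 28) (nat_lit 5) (nat_lit 30) (nat_lit 4) (nat_lit 28) (nat_lit 4) (nat_lit 343) (nat_lit 286) (nat_lit 271)) (XT.lf (nat_lit 0) (nat_lit 3604953092) (nat_lit 152) (nat_lit 9332331063) (nat_lit 152) (nat_lit 907682376) (nat_lit 26) (nat_lit 4) (nat_lit 28) (nat_lit 5) (nat_lit 28) (nat_lit 4) (nat_lit 344) (nat_lit 286) (nat_lit 270))) (XT.nd (nat_lit 78) (nat_lit 76) (nat_lit 0) (XT.lf (nat_lit 0) (nat_lit 3079090831) (nat_lit 228) (nat_lit 2451664030) (nat_lit 76) (nat_lit 8767436509) (nat_lit 25) (nat_lit 5)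 (nat_lit 28) (nat_lit 5) (nat_lit 26) (nat_lit 4) (nat_lit 345) (nat_lit 286) (nat_lit 269)) (XT.nd (nat_lit 78) (nat_lit 0) (nat_lit 0) (XT.lf (nat_lit 0) (nat_lit 5707906981) (nat_lit 76) (nat_lit 1509024086) (nat_lit 152) (nat_lit 7557350753) (nat_lit 24) (nat_lit 5) (nat_lit 25) (nat_lit 5) (nat_lit 26) (nat_lit 4) (nat_lit 346) (nat_lit 286) (nat_lit 268)) (XT.lf (nat_lit 0) (nat_lit 11540359225) (nat_lit 152) (nat_lit 1141649411) (nat_lit 0) (nat_lit 2593290502) (nat_lit 24) (nat_lit 5) (nat_lit 26) (nat_lit 4) (nat_lit 24) (nat_lit 4) (nat_lit 347) (nat_lit 286) (nat_lit 267))))) (XT.nd (nat_lit 234) (nat_lit 152) (nat_lit 0) (XT.nd (nat_lit 78) (nat_lit 76) (nat_lit 0) (XT.lf (nat_lit 0) (nat_lit 306647039) (nat_lit 228) (nat_lit 8597463110) (nat_lit 76) (nat_lit 6895242908) (nat_lit 21) (nat_lit 5) (nat_lit 24) (nat_lit 5) (nat_lit 22) (nat_lit 4) (nat_lit 348) (nat_lit 286) (nat_lit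 266)) (XT.nd (nat_lit 78) (nat_lit 76) (nat_lit 0) (XT.lf (nat_lit 0) (nat_lit 4344008585) (nat_lit 228) (nat_lit 586606052) (nat_lit 76) (nat_lit 11420022280) (nat_lit 21) (nat_lit 5) (nat_lit 24) (nat_lit 5) (nat_lit 22) (nat_lit 4) (nat_lit 349) (nat_lit 286) (nat_lit 265)) (XT.lf (nat_lit 0) (nat_lit 7907739101) (nat_lit 76) (nat_lit 703306196) (nat_lit 152) (nat_lit 8317096328) (nat_lit 20) (nat_lit 5) (nat_lit 21) (nat_lit 5) (nat_lit 22) (nat_lit 4) (nat_lit 350) (nat_lit 286) (nat_lit 264)))) (XT.nd (nat_lit 78) (nat_lit 152) (nat_lit 0) (XT.lf (nat_lit 0) (nat_lit 13064986568) (nat_lit 152) (nat_lit 916327406) (nat_lit 0) (nat_lit 3554574728) (nat_lit 20) (nat_lit 5) (nat_lit 22) (nat_lit 4) (nat_lit 20) (nat_lit 4) (nat_lit 351) (nat_lit 286) (nat_lit 263)) (XT.nd (nat_lit 78) (nat_lit 76) (nat_lit 0) (XT.lf (nat_lit 0) (nat_lit 7663868471) (nat_lit 76) (nat_lit 10118593693)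 (nat_lit 76) (nat_lit 389561742) (nat_lit 19) (nat_lit 4) (nat_lit 20) (nat_lit 5) (nat_lit 20) (nat_lit 4) (nat_lit 352) (nat_lit 286) (nat_lit 262)) (XT.lf (nat_lit 0) (nat_lit 3696890202) (nat_lit 152) (nat_lit 2358616666) (nat_lit 76) (nat_lit 12785169628) (nat_lit 18) (nat_lit 5) (nat_lit 20) (nat_lit 5) (nat_lit 19) (nat_lit 4) (nat_lit 353) (nat_lit 286) (nat_lit 261)))))) (XT.nd (nat_lit 390) (nat_lit 304) (nat_lit 0) (XT.nd (nat_lit 156) (nat_lit 152) (nat_lit 0) (XT.nd (nat_lit 78) (nat_lit 0) (nat_lit 0) (XT.lf (nat_lit 0) (nat_lit 6236147291) (nat_lit 76) (nat_lit 1750039907) (nat_lit 152) (nat_lit 11555711322) (nat_lit 17) (nat_lit 5) (nat_lit 18) (nat_lit 5) (nat_lit 19) (nat_lit 4) (nat_lit 354) (nat_lit 286) (nat_lit 260)) (XT.lf (nat_lit 0) (nat_lit 12488676687) (nat_lit 152) (nat_lit 5133678147) (nat_lit 0) (nat_lit 2655925507) (nat_lit 17) (nat_lit 5) (nat_lit 19) (nat_lit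 4) (nat_lit 17) (nat_lit 4) (nat_lit 355) (nat_lit 286) (nat_lit 259))) (XT.nd (nat_lit 78) (nat_lit 76) (nat_lit 0) (XT.lf (nat_lit 0) (nat_lit 3377736368) (nat_lit 76) (nat_lit 13838903300) (nat_lit 76) (nat_lit 3834857542) (nat_lit 16) (nat_lit 4) (nat_lit 17) (nat_lit 5) (nat_lit 17) (nat_lit 4) (nat_lit 356) (nat_lit 286) (nat_lit 258)) (XT.nd (nat_lit 78) (nat_lit 0) (nat_lit 0) (XT.lf (nat_lit 0) (nat_lit 314993168) (nat_lit 152) (nat_lit 9521447456) (nat_lit 76) (nat_lit 12026339985) (nat_lit 15) (nat_lit 5) (nat_lit 17) (nat_lit 5) (nat_lit 16) (nat_lit 4) (nat_lit 357) (nat_lit 286) (nat_lit 257)) (XT.lf (nat_lit 0) (nat_lit 4466475972) (nat_lit 152) (nat_lit 1166276939) (nat_lit 76) (nat_lit 17082610003) (nat_lit 15) (nat_lit 5) (nat_lit 17) (nat_lit 5) (nat_lit 16) (nat_lit 4) (nat_lit 358) (nat_lit 286) (nat_lit 256))))) (XT.nd (nat_lit 234) (nat_lit 152) (nat_lit 0) (XT.nd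 (nat_lit 78) (nat_lit 76) (nat_lit 0) (XT.lf (nat_lit 0) (nat_lit 7718558932) (nat_lit 76) (nat_lit 1154164146) (nat_lit 152) (nat_lit 14735519233) (nat_lit 14) (nat_lit 5) (nat_lit 15) (nat_lit 5) (nat_lit 16) (nat_lit 4) (nat_lit 359) (nat_lit 286) (nat_lit 255)) (XT.nd (nat_lit 78) (nat_lit 76) (nat_lit 0) (XT.lf (nat_lit 0) (nat_lit 13501901699) (nat_lit 152) (nat_lit 7647998309) (nat_lit 0) (nat_lit 3395760887) (nat_lit 14) (nat_lit 5) (nat_lit 16) (nat_lit 4) (nat_lit 14) (nat_lit 4) (nat_lit 360) (nat_lit 286) (nat_lit 254)) (XT.lf (nat_lit 0) (nat_lit 886043739) (nat_lit 76) (nat_lit 17439863336) (nat_lit 76) (nat_lit 7205899873) (nat_lit 13) (nat_lit 4) (nat_lit 14) (nat_lit 5) (nat_lit 14) (nat_lit 4) (nat_lit 361) (nat_lit 286) (nat_lit 253)))) (XT.nd (nat_lit 78) (nat_lit 152) (nat_lit 0) (XT.lf (nat_lit 0) (nat_lit 9985226952) (nat_lit 76) (nat_lit 13467341806) (nat_lit 76)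 (nat_lit 3111642485) (nat_lit 13) (nat_lit 4) (nat_lit 14) (nat_lit 5) (nat_lit 14) (nat_lit 4) (nat_lit 362) (nat_lit 286) (nat_lit 252)) (XT.nd (nat_lit 78) (nat_lit 76) (nat_lit 0) (XT.lf (nat_lit 0) (nat_lit 1083416020) (nat_lit 152) (nat_lit 8250635392) (nat_lit 76) (nat_lit 18316574494) (nat_lit 12) (nat_lit 5) (nat_lit 14) (nat_lit 5) (nat_lit 13) (nat_lit 4) (nat_lit 363) (nat_lit 286) (nat_lit 251)) (XT.lf (nat_lit 0) (nat_lit 336528136) (nat_lit 76) (nat_lit 4989610586) (nat_lit 152) (nat_lit 23465568418) (nat_lit 11) (nat_lit 5) (nat_lit 12) (nat_lit 5) (nat_lit 13) (nat_lit 4) (nat_lit 364) (nat_lit 286) (nat_lit 250))))))) (XT.nd (nat_lit 858) (nat_lit 228) (nat_lit 0) (XT.nd (nat_lit 390) (nat_lit 152) (nat_lit 0) (XT.nd (nat_lit 156) (nat_lit 76) (nat_lit 0) (XT.nd (nat_lit 78) (nat_lit 0) (nat_lit 0) (XT.lf (nat_lit 0) (nat_lit 9524022943) (nat_lit 76) (nat_lit 335118130)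 (nat_lit 152) (nat_lit 20126813722) (nat_lit 11) (nat_lit 5) (nat_lit 12) (nat_lit 5) (nat_lit 13) (nat_lit 4) (nat_lit 365) (nat_lit 286) (nat_lit 249)) (XT.lf (nat_lit 0) (nat_lit 14630410951) (nat_lit 152) (nat_lit 12252215088) (nat_lit 0) (nat_lit 4356726523) (nat_lit 11) (nat_lit 5) (nat_lit 13) (nat_lit 4) (nat_lit 11) (nat_lit 4) (nat_lit 366) (nat_lit 286) (nat_lit 248))) (XT.nd (nat_lit 78) (nat_lit 76) (nat_lit 0) (XT.lf (nat_lit 0) (nat_lit 19589115577) (nat_lit 152) (nat_lit 3744288821) (nat_lit 0) (nat_lit 9224589977) (nat_lit 11) (nat_lit 5) (nat_lit 13) (nat_lit 4) (nat_lit 11) (nat_lit 4) (nat_lit 367) (nat_lit 286) (nat_lit 247)) (XT.nd (nat_lit 78) (nat_lit 0) (nat_lit 0) (XT.lf (nat_lit 0) (nat_lit 5255546354) (nat_lit 76) (nat_lit 19568336708) (nat_lit 76) (nat_lit 9117295706) (nat_lit 10) (nat_lit 4) (nat_lit 11) (nat_lit 5) (nat_lit 11) (nat_lit 4) (nat_lit 368) (nat_lit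 286) (nat_lit 246)) (XT.lf (nat_lit 0) (nat_lit 14735309118) (nat_lit 76) (nat_lit 15595570705) (nat_lit 76) (nat_lit 5062134083) (nat_lit 10) (nat_lit 4) (nat_lit 11) (nat_lit 5) (nat_lit 11) (nat_lit 4) (nat_lit 369) (nat_lit 286) (nat_lit 245))))) (XT.nd (nat_lit 234) (nat_lit 0) (nat_lit 0) (XT.nd (nat_lit 78) (nat_lit 152) (nat_lit 0) (XT.lf (nat_lit 0) (nat_lit 24593767237) (nat_lit 76) (nat_lit 11469058766) (nat_lit 76) (nat_lit 857150124) (nat_lit 10) (nat_lit 4) (nat_lit 11) (nat_lit 5) (nat_lit 11) (nat_lit 4) (nat_lit 370) (nat_lit 286) (nat_lit 244)) (XT.nd (nat_lit 78) (nat_lit 76) (nat_lit 0) (XT.lf (nat_lit 0) (nat_lit 3395400753) (nat_lit 152) (nat_lit 3726072355) (nat_lit 76) (nat_lit 31401489720) (nat_lit 9) (nat_lit 5) (nat_lit 11) (nat_lit 5) (nat_lit 10) (nat_lit 4) (nat_lit 371) (nat_lit 286) (nat_lit 243)) (XT.lf (nat_lit 0) (nat_lit 5374038827) (nat_lit 76) (nat_lit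 2495160763) (nat_lit 152) (nat_lit 32334338598) (nat_lit 8) (nat_lit 5) (nat_lit 9) (nat_lit 5) (nat_lit 10) (nat_lit 4) (nat_lit 372) (nat_lit 286) (nat_lit 242)))) (XT.nd (nat_lit 78) (nat_lit 0) (nat_lit 0) (XT.lf (nat_lit 0) (nat_lit 12621455275) (nat_lit 152) (nat_lit 27032608313) (nat_lit 0) (nat_lit 2311352975) (nat_lit 8) (nat_lit 5) (nat_lit 10) (nat_lit 4) (nat_lit 8) (nat_lit 4) (nat_lit 373) (nat_lit 286) (nat_lit 241)) (XT.nd (nat_lit 78) (nat_lit 0) (nat_lit 0) (XT.lf (nat_lit 0) (nat_lit 17608175504) (nat_lit 152) (nat_lit 18970794432) (nat_lit 0) (nat_lit 7236588323) (nat_lit 8) (nat_lit 5) (nat_lit 10) (nat_lit 4) (nat_lit 8) (nat_lit 4) (nat_lit 374) (nat_lit 286) (nat_lit 240)) (XT.lf (nat_lit 0) (nat_lit 22802276969) (nat_lit 152) (nat_lit 10585906472) (nat_lit 0) (nat_lit 12372132759) (nat_lit 8) (nat_lit 5) (nat_lit 10) (nat_lit 4) (nat_lit 8) (nat_lit 4) (nat_lit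 375) (nat_lit 286) (nat_lit 239)))))) (XT.nd (nat_lit 468) (nat_lit 76) (nat_lit 0) (XT.nd (nat_lit 234) (nat_lit 76) (nat_lit 0) (XT.nd (nat_lit 78) (nat_lit 76) (nat_lit 0) (XT.lf (nat_lit 0) (nat_lit 28216126578) (nat_lit 152) (nat_lit 1857980414) (nat_lit 0) (nat_lit 17730213768) (nat_lit 8) (nat_lit 5) (nat_lit 10) (nat_lit 4) (nat_lit 8) (nat_lit 4) (nat_lit 376) (nat_lit 286) (nat_lit 238)) (XT.nd (nat_lit 78) (nat_lit 0) (nat_lit 0) (XT.lf (nat_lit 0) (nat_lit 7472945440) (nat_lit 76) (nat_lit 26506342630) (nat_lit 76) (nat_lit 15967316868) (nat_lit 7) (nat_lit 4) (nat_lit 8) (nat_lit 5) (nat_lit 8) (nat_lit 4) (nat_lit 377) (nat_lit 286) (nat_lit 237)) (XT.lf (nat_lit 0) (nat_lit 17263515648) (nat_lit 76) (nat_lit 22761200813) (nat_lit 76) (nat_lit 12171591288) (nat_lit 7) (nat_lit 4) (nat_lit 8) (nat_lit 5) (nat_lit 8) (nat_lit 4) (nat_lit 378) (nat_lit 286) (nat_lit 236))))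 (XT.nd (nat_lit 78) (nat_lit 76) (nat_lit 0) (XT.lf (nat_lit 0) (nat_lit 27475607866) (nat_lit 76) (nat_lit 18861230336) (nat_lit 76) (nat_lit 8223445797) (nat_lit 7) (nat_lit 4) (nat_lit 8) (nat_lit 5) (nat_lit 8) (nat_lit 4) (nat_lit 379) (nat_lit 286) (nat_lit 235)) (XT.nd (nat_lit 78) (nat_lit 76) (nat_lit 0) (XT.lf (nat_lit 0) (nat_lit 38133536600) (nat_lit 76) (nat_lit 14797145553) (nat_lit 76) (nat_lit 4113480050) (nat_lit 7) (nat_lit 4) (nat_lit 8) (nat_lit 5) (nat_lit 8) (nat_lit 4) (nat_lit 380) (nat_lit 286) (nat_lit 234)) (XT.lf (nat_lit 0) (nat_lit 162711604) (nat_lit 152) (nat_lit 10393802870) (nat_lit 76) (nat_lit 49097210666) (nat_lit 6) (nat_lit 5) (nat_lit 8) (nat_lit 5) (nat_lit 7) (nat_lit 4) (nat_lit 381) (nat_lit 286) (nat_lit 233))))) (XT.nd (nat_lit 234) (nat_lit 0) (nat_lit 0) (XT.nd (nat_lit 78) (nat_lit 76) (nat_lit 0) (XT.lf (nat_lit 0) (nat_lit 4483227578)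 (nat_lit 152) (nat_lit 1578360512) (nat_lit 76) (nat_lit 56330376427) (nat_lit 6) (nat_lit 5) (nat_lit 8) (nat_lit 5) (nat_lit 7) (nat_lit 4) (nat_lit 382) (nat_lit 286) (nat_lit 232)) (XT.nd (nat_lit 78) (nat_lit 0) (nat_lit 0) (XT.lf (nat_lit 0) (nat_lit 7872895388) (nat_lit 76) (nat_lit 1240034435) (nat_lit 152) (nat_lit 56149535376) (nat_lit 5) (nat_lit 5) (nat_lit 6) (nat_lit 5) (nat_lit 7) (nat_lit 4) (nat_lit 383) (nat_lit 286) (nat_lit 231)) (XT.lf (nat_lit 0) (nat_lit 14031333477) (nat_lit 152) (nat_lit 50540834094) (nat_lit 0) (nat_lit 3701469541) (nat_lit 5) (nat_lit 5) (nat_lit 7) (nat_lit 4) (nat_lit 5) (nat_lit 4) (nat_lit 384) (nat_lit 286) (nat_lit 230)))) (XT.nd (nat_lit 78) (nat_lit 0) (nat_lit 0) (XT.lf (nat_lit 0) (nat_lit 19187763218) (nat_lit 152) (nat_lit 43424343585) (nat_lit 0) (nat_lit 8823662200) (nat_lit 5) (nat_lit 5) (nat_lit 7) (nat_lit 4) (nat_lit 5) (nat_lit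 4) (nat_lit 385) (nat_lit 286) (nat_lit 229)) (XT.nd (nat_lit 78) (nat_lit 0) (nat_lit 0) (XT.lf (nat_lit 0) (nat_lit 24575135848) (nat_lit 152) (nat_lit 36003793845) (nat_lit 0) (nat_lit 14178428085) (nat_lit 5) (nat_lit 5) (nat_lit 7) (nat_lit 4) (nat_lit 5) (nat_lit 4) (nat_lit 386) (nat_lit 286) (nat_lit 228)) (XT.lf (nat_lit 0) (nat_lit 30206278444) (nat_lit 152) (nat_lit 28261516899) (nat_lit 0) (nat_lit 19778516637) (nat_lit 5) (nat_lit 5) (nat_lit 7) (nat_lit 4) (nat_lit 5) (nat_lit 4) (nat_lit 387) (nat_lit 286) (nat_lit 227))))))))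
noncomputable def xc65 : XT := (XT.nd (nat_lit 1794) (nat_lit 0) (nat_lit 0) (XT.nd (nat_lit 858) (nat_lit 152) (nat_lit 0) (XT.nd (nat_lit 390) (nat_lit 0) (nat_lit 0) (XT.nd (nat_lit 156) (nat_lit 76) (nat_lit 0) (XT.nd (nat_lit 78) (nat_lit 0) (nat_lit 0) (XT.lf (nat_lit 0) (nat_lit 36094598488) (nat_lit 152) (nat_lit 20179078755) (nat_lit 0) (nat_lit 25637261403) (nat_lit 5) (nat_lit 5) (nat_lit 7) (nat_lit 4) (nat_lit 5) (nat_lit 4) (nat_lit 388) (nat_lit 286) (nat_lit 226)) (XT.lf (nat_lit 0) (nat_lit 42254115791) (nat_lit 152) (nat_lit 11737235512) (nat_lit 0) (nat_lit 31768611773) (nat_lit 5) (nat_lit 5) (nat_lit 7) (nat_lit 4) (nat_lit 5) (nat_lit 4) (nat_lit 389) (nat_lit 286) (nat_lit 225))) (XT.nd (nat_lit 78) (nat_lit 76) (nat_lit 0) (XT.lf (nat_lit 0) (nat_lit 48699495869) (nat_lit 152) (nat_lit 2915887544) (nat_lit 0) (nat_lit 38187166201) (nat_lit 5) (nat_lit 5) (nat_lit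 7) (nat_lit 4) (nat_lit 5) (nat_lit 4) (nat_lit 390) (nat_lit 286) (nat_lit 224)) (XT.nd (nat_lit 78) (nat_lit 0) (nat_lit 0) (XT.lf (nat_lit 0) (nat_lit 6514472152) (nat_lit 76) (nat_lit 49033321880) (nat_lit 76) (nat_lit 38495443975) (nat_lit 4) (nat_lit 4) (nat_lit 5) (nat_lit 5) (nat_lit 5) (nat_lit 4) (nat_lit 391) (nat_lit 286) (nat_lit 223)) (XT.lf (nat_lit 0) (nat_lit 16477677585) (nat_lit 76) (nat_lit 46289531227) (nat_lit 76) (nat_lit 35727321666) (nat_lit 4) (nat_lit 4) (nat_lit 5) (nat_lit 5) (nat_lit 5) (nat_lit 4) (nat_lit 392) (nat_lit 286) (nat_lit 222))))) (XT.nd (nat_lit 234) (nat_lit 0) (nat_lit 0) (XT.nd (nat_lit 78) (nat_lit 0) (nat_lit 0) (XT.lf (nat_lit 0) (nat_lit 26901038264) (nat_lit 76) (nat_lit 43426860585) (nat_lit 76) (nat_lit 32841478019) (nat_lit 4) (nat_lit 4) (nat_lit 5) (nat_lit 5) (nat_lit 5) (nat_lit 4) (nat_lit 393) (nat_lit 286) (nat_lit 221)) (XT.nd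 (nat_lit 78) (nat_lit 0) (nat_lit 0) (XT.lf (nat_lit 0) (nat_lit 37809371712) (nat_lit 76) (nat_lit 40438494072) (nat_lit 76) (nat_lit 29831041978) (nat_lit 4) (nat_lit 4) (nat_lit 5) (nat_lit 5) (nat_lit 5) (nat_lit 4) (nat_lit 394) (nat_lit 286) (nat_lit 220)) (XT.lf (nat_lit 0) (nat_lit 49228650154) (nat_lit 76) (nat_lit 37317316529) (nat_lit 76) (nat_lit 26688845836) (nat_lit 4) (nat_lit 4) (nat_lit 5) (nat_lit 5) (nat_lit 5) (nat_lit 4) (nat_lit 395) (nat_lit 286) (nat_lit 219)))) (XT.nd (nat_lit 78) (nat_lit 0) (nat_lit 0) (XT.lf (nat_lit 0) (nat_lit 61186062345) (nat_lit 76) (nat_lit 34055896581) (nat_lit 76) (nat_lit 23407408176) (nat_lit 4) (nat_lit 4) (nat_lit 5) (nat_lit 5) (nat_lit 5) (nat_lit 4) (nat_lit 396) (nat_lit 286) (nat_lit 218)) (XT.nd (nat_lit 78) (nat_lit 0) (nat_lit 0) (XT.lf (nat_lit 0) (nat_lit 73710078317) (nat_lit 76) (nat_lit 30646468943) (nat_lit 76) (nat_lit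 19978916049) (nat_lit 4) (nat_lit 4) (nat_lit 5) (nat_lit 5) (nat_lit 5) (nat_lit 4) (nat_lit 397) (nat_lit 286) (nat_lit 217)) (XT.lf (nat_lit 0) (nat_lit 86830517154) (nat_lit 76) (nat_lit 27080915930) (nat_lit 76) (nat_lit 16395206380) (nat_lit 4) (nat_lit 4) (nat_lit 5) (nat_lit 5) (nat_lit 5) (nat_lit 4) (nat_lit 398) (nat_lit 286) (nat_lit 216)))))) (XT.nd (nat_lit 468) (nat_lit 0) (nat_lit 0) (XT.nd (nat_lit 234) (nat_lit 152) (nat_lit 0) (XT.nd (nat_lit 78) (nat_lit 0) (nat_lit 0) (XT.lf (nat_lit 0) (nat_lit 100578617996) (nat_lit 76) (nat_lit 23350748130) (nat_lit 76) (nat_lit 12647746527) (nat_lit 4) (nat_lit 4) (nat_lit 5) (nat_lit 5) (nat_lit 5) (nat_lit 4) (nat_lit 399) (nat_lit 286) (nat_lit 215)) (XT.nd (nat_lit 78) (nat_lit 0) (nat_lit 0) (XT.lf (nat_lit 0) (nat_lit 114987114418) (nat_lit 76) (nat_lit 19447084191) (nat_lit 76) (nat_lit 8727613966) (nat_lit 4) (nat_lit 4)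 (nat_lit 5) (nat_lit 5) (nat_lit 5) (nat_lit 4) (nat_lit 400) (nat_lit 286) (nat_lit 214)) (XT.lf (nat_lit 0) (nat_lit 130090312362) (nat_lit 76) (nat_lit 15360629674) (nat_lit 76) (nat_lit 4625475048) (nat_lit 4) (nat_lit 4) (nat_lit 5) (nat_lit 5) (nat_lit 5) (nat_lit 4) (nat_lit 401) (nat_lit 286) (nat_lit 213)))) (XT.nd (nat_lit 78) (nat_lit 152) (nat_lit 0) (XT.lf (nat_lit 0) (nat_lit 145924171824) (nat_lit 76) (nat_lit 11081654928) (nat_lit 76) (nat_lit 331562775) (nat_lit 4) (nat_lit 4) (nat_lit 5) (nat_lit 5) (nat_lit 5) (nat_lit 4) (nat_lit 402) (nat_lit 286) (nat_lit 212)) (XT.nd (nat_lit 78) (nat_lit 76) (nat_lit 0) (XT.lf (nat_lit 0) (nat_lit 4031061358) (nat_lit 152) (nat_lit 2500642582) (nat_lit 76) (nat_lit 158427063136) (nat_lit 3) (nat_lit 5) (nat_lit 5) (nat_lit 5) (nat_lit 4) (nat_lit 4) (nat_lit 403) (nat_lit 286) (nat_lit 211)) (XT.lf (nat_lit 0) (nat_lit 7055330113)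 (nat_lit 76) (nat_lit 1643790499) (nat_lit 152) (nat_lit 164256901305) (nat_lit 2) (nat_lit 5) (nat_lit 3) (nat_lit 5) (nat_lit 4) (nat_lit 4) (nat_lit 404) (nat_lit 286) (nat_lit 210))))) (XT.nd (nat_lit 234) (nat_lit 0) (nat_lit 0) (XT.nd (nat_lit 78) (nat_lit 0) (nat_lit 0) (XT.lf (nat_lit 0) (nat_lit 13686427683) (nat_lit 152) (nat_lit 164252918801) (nat_lit 0) (nat_lit 3409503170) (nat_lit 2) (nat_lit 5) (nat_lit 4) (nat_lit 4) (nat_lit 2) (nat_lit 4) (nat_lit 405) (nat_lit 286) (nat_lit 209)) (XT.nd (nat_lit 78) (nat_lit 0) (nat_lit 0) (XT.lf (nat_lit 0) (nat_lit 18938938401) (nat_lit 152) (nat_lit 162571280799) (nat_lit 0) (nat_lit 8650309945) (nat_lit 2) (nat_lit 5) (nat_lit 4) (nat_lit 4) (nat_lit 2) (nat_lit 4) (nat_lit 406) (nat_lit 286) (nat_lit 208)) (XT.lf (nat_lit 0) (nat_lit 24443494568) (nat_lit 152) (nat_lit 160826109722) (nat_lit 0) (nat_lit 14143719500) (nat_lit 2)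 (nat_lit 5) (nat_lit 4) (nat_lit 4) (nat_lit 2) (nat_lit 4) (nat_lit 407) (nat_lit 286) (nat_lit 207)))) (XT.nd (nat_lit 78) (nat_lit 0) (nat_lit 0) (XT.lf (nat_lit 0) (nat_lit 30213202269) (nat_lit 152) (nat_lit 159013250402) (nat_lit 0) (nat_lit 19902811381) (nat_lit 2) (nat_lit 5) (nat_lit 4) (nat_lit 4) (nat_lit 2) (nat_lit 4) (nat_lit 408) (nat_lit 286) (nat_lit 206)) (XT.nd (nat_lit 78) (nat_lit 0) (nat_lit 0) (XT.lf (nat_lit 0) (nat_lit 36261798904) (nat_lit 152) (nat_lit 157128386505) (nat_lit 0) (nat_lit 25941297711) (nat_lit 2) (nat_lit 5) (nat_lit 4) (nat_lit 4) (nat_lit 2) (nat_lit 4) (nat_lit 409) (nat_lit 286) (nat_lit 205)) (XT.lf (nat_lit 0) (nat_lit 42603685894) (nat_lit 152) (nat_lit 155167030262) (nat_lit 0) (nat_lit 32273555838) (nat_lit 2) (nat_lit 5) (nat_lit 4) (nat_lit 4) (nat_lit 2) (nat_lit 4) (nat_lit 410) (nat_lit 286) (nat_lit 204))))))) (XT.nd (nat_lit 858)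 (nat_lit 0) (nat_lit 0) (XT.nd (nat_lit 390) (nat_lit 0) (nat_lit 0) (XT.nd (nat_lit 156) (nat_lit 0) (nat_lit 0) (XT.nd (nat_lit 78) (nat_lit 0) (nat_lit 0) (XT.lf (nat_lit 0) (nat_lit 49253962969) (nat_lit 152) (nat_lit 153124511776) (nat_lit 0) (nat_lit 38914662568) (nat_lit 2) (nat_lit 5) (nat_lit 4) (nat_lit 4) (nat_lit 2) (nat_lit 4) (nat_lit 411) (nat_lit 286) (nat_lit 203)) (XT.lf (nat_lit 0) (nat_lit 56228464122) (nat_lit 152) (nat_lit 150995967907) (nat_lit 0) (nat_lit 45880430060) (nat_lit 2) (nat_lit 5) (nat_lit 4) (nat_lit 4) (nat_lit 2) (nat_lit 4) (nat_lit 412) (nat_lit 286) (nat_lit 202))) (XT.nd (nat_lit 78) (nat_lit 0) (nat_lit 0) (XT.lf (nat_lit 0) (nat_lit 63543795310) (nat_lit 152) (nat_lit 148776330696) (nat_lit 0) (nat_lit 53187443474) (nat_lit 2) (nat_lit 5) (nat_lit 4) (nat_lit 4) (nat_lit 2) (nat_lit 4) (nat_lit 413) (nat_lit 286) (nat_lit 201)) (XT.nd (nat_lit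 78) (nat_lit 0) (nat_lit 0) (XT.lf (nat_lit 0) (nat_lit 71217373986) (nat_lit 152) (nat_lit 146460315290) (nat_lit 0) (nat_lit 60853100461) (nat_lit 2) (nat_lit 5) (nat_lit 4) (nat_lit 4) (nat_lit 2) (nat_lit 4) (nat_lit 414) (nat_lit 286) (nat_lit 200)) (XT.lf (nat_lit 0) (nat_lit 79267470576) (nat_lit 152) (nat_lit 144042407368) (nat_lit 0) (nat_lit 68895652586) (nat_lit 2) (nat_lit 5) (nat_lit 4) (nat_lit 4) (nat_lit 2) (nat_lit 4) (nat_lit 415) (nat_lit 286) (nat_lit 199))))) (XT.nd (nat_lit 234) (nat_lit 0) (nat_lit 0) (XT.nd (nat_lit 78) (nat_lit 0) (nat_lit 0) (XT.lf (nat_lit 0) (nat_lit 87713251977) (nat_lit 152) (nat_lit 141516850006) (nat_lit 0) (nat_lit 77334248782) (nat_lit 2) (nat_lit 5) (nat_lit 4) (nat_lit 4) (nat_lit 2) (nat_lit 4) (nat_lit 416) (nat_lit 286) (nat_lit 198)) (XT.nd (nat_lit 78) (nat_lit 0) (nat_lit 0) (XT.lf (nat_lit 0) (nat_lit 96574827192) (nat_lit 152)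 (nat_lit 138877629972) (nat_lit 0) (nat_lit 86188980944) (nat_lit 2) (nat_lit 5) (nat_lit 4) (nat_lit 4) (nat_lit 2) (nat_lit 4) (nat_lit 417) (nat_lit 286) (nat_lit 197)) (XT.lf (nat_lit 0) (nat_lit 105873295210) (nat_lit 152) (nat_lit 136118463408) (nat_lit 0) (nat_lit 95480931770) (nat_lit 2) (nat_lit 5) (nat_lit 4) (nat_lit 4) (nat_lit 2) (nat_lit 4) (nat_lit 418) (nat_lit 286) (nat_lit 196)))) (XT.nd (nat_lit 78) (nat_lit 0) (nat_lit 0) (XT.lf (nat_lit 0) (nat_lit 115630795240) (nat_lit 152) (nat_lit 133232780872) (nat_lit 0) (nat_lit 105232224950) (nat_lit 2) (nat_lit 5) (nat_lit 4) (nat_lit 4) (nat_lit 2) (nat_lit 4) (nat_lit 419) (nat_lit 286) (nat_lit 195)) (XT.nd (nat_lit 78) (nat_lit 0) (nat_lit 0) (XT.lf (nat_lit 0) (nat_lit 125870559426) (nat_lit 152) (nat_lit 130213711689) (nat_lit 0) (nat_lit 115466077849) (nat_lit 2) (nat_lit 5) (nat_lit 4) (nat_lit 4) (nat_lit 2) (nat_lit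 4) (nat_lit 420) (nat_lit 286) (nat_lit 194)) (XT.lf (nat_lit 0) (nat_lit 136616968158) (nat_lit 152) (nat_lit 127054067601) (nat_lit 0) (nat_lit 126206856785) (nat_lit 2) (nat_lit 5) (nat_lit 4) (nat_lit 4) (nat_lit 2) (nat_lit 4) (nat_lit 421) (nat_lit 286) (nat_lit 193)))))) (XT.nd (nat_lit 468) (nat_lit 0) (nat_lit 0) (XT.nd (nat_lit 234) (nat_lit 0) (nat_lit 0) (XT.nd (nat_lit 78) (nat_lit 0) (nat_lit 0) (XT.lf (nat_lit 0) (nat_lit 147895608124) (nat_lit 152) (nat_lit 123746325644) (nat_lit 0) (nat_lit 137480135040) (nat_lit 2) (nat_lit 5) (nat_lit 4) (nat_lit 4) (nat_lit 2) (nat_lit 4) (nat_lit 422) (nat_lit 286) (nat_lit 192)) (XT.nd (nat_lit 78) (nat_lit 0) (nat_lit 0) (XT.lf (nat_lit 0) (nat_lit 159733333228) (nat_lit 152) (nat_lit 120282610243) (nat_lit 0) (nat_lit 149312753752) (nat_lit 2) (nat_lit 5) (nat_lit 4) (nat_lit 4) (nat_lit 2) (nat_lit 4) (nat_lit 423) (nat_lit 286)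 (nat_lit 191)) (XT.lf (nat_lit 0) (nat_lit 172158328530) (nat_lit 152) (nat_lit 116654674456) (nat_lit 0) (nat_lit 161732885825) (nat_lit 2) (nat_lit 5) (nat_lit 4) (nat_lit 4) (nat_lit 2) (nat_lit 4) (nat_lit 424) (nat_lit 286) (nat_lit 190)))) (XT.nd (nat_lit 78) (nat_lit 0) (nat_lit 0) (XT.lf (nat_lit 0) (nat_lit 185200177352) (nat_lit 152) (nat_lit 112853880342) (nat_lit 0) (nat_lit 174770103000) (nat_lit 2) (nat_lit 5) (nat_lit 4) (nat_lit 4) (nat_lit 2) (nat_lit 4) (nat_lit 425) (nat_lit 286) (nat_lit 189)) (XT.nd (nat_lit 78) (nat_lit 0) (nat_lit 0) (XT.lf (nat_lit 0) (nat_lit 198889931716) (nat_lit 152) (nat_lit 108871178390) (nat_lit 0) (nat_lit 188455446271) (nat_lit 2) (nat_lit 5) (nat_lit 4) (nat_lit 4) (nat_lit 2) (nat_lit 4) (nat_lit 426) (nat_lit 286) (nat_lit 188)) (XT.lf (nat_lit 0) (nat_lit 213260186274) (nat_lit 152) (nat_lit 104697085976) (nat_lit 0) (nat_lit 202821499789)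 (nat_lit 2) (nat_lit 5) (nat_lit 4) (nat_lit 4) (nat_lit 2) (nat_lit 4) (nat_lit 427) (nat_lit 286) (nat_lit 187))))) (XT.nd (nat_lit 234) (nat_lit 0) (nat_lit 0) (XT.nd (nat_lit 78) (nat_lit 0) (nat_lit 0) (XT.lf (nat_lit 0) (nat_lit 228345155919) (nat_lit 152) (nat_lit 100321664786) (nat_lit 0) (nat_lit 217902468442) (nat_lit 2) (nat_lit 5) (nat_lit 4) (nat_lit 4) (nat_lit 2) (nat_lit 4) (nat_lit 428) (nat_lit 286) (nat_lit 186)) (XT.nd (nat_lit 78) (nat_lit 0) (nat_lit 0) (XT.lf (nat_lit 0) (nat_lit 244180757244) (nat_lit 152) (nat_lit 95734497149) (nat_lit 0) (nat_lit 233734259300) (nat_lit 2) (nat_lit 5) (nat_lit 4) (nat_lit 4) (nat_lit 2) (nat_lit 4) (nat_lit 429) (nat_lit 286) (nat_lit 185)) (XT.lf (nat_lit 0) (nat_lit 260804694063) (nat_lit 152) (nat_lit 90924661238) (nat_lit 0) (nat_lit 250354567101) (nat_lit 2) (nat_lit 5) (nat_lit 4) (nat_lit 4) (nat_lit 2) (nat_lit 4) (nat_lit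 430) (nat_lit 286) (nat_lit 184)))) (XT.nd (nat_lit 78) (nat_lit 0) (nat_lit 0) (XT.lf (nat_lit 0) (nat_lit 278256547177) (nat_lit 152) (nat_lit 85880705063) (nat_lit 0) (nat_lit 267802964009) (nat_lit 2) (nat_lit 5) (nat_lit 4) (nat_lit 4) (nat_lit 2) (nat_lit 4) (nat_lit 431) (nat_lit 286) (nat_lit 183)) (XT.nd (nat_lit 78) (nat_lit 0) (nat_lit 0) (XT.lf (nat_lit 0) (nat_lit 296577868618) (nat_lit 152) (nat_lit 80590619205) (nat_lit 0) (nat_lit 286120993824) (nat_lit 2) (nat_lit 5) (nat_lit 4) (nat_lit 4) (nat_lit 2) (nat_lit 4) (nat_lit 432) (nat_lit 286) (nat_lit 182)) (XT.lf (nat_lit 0) (nat_lit 315812280579) (nat_lit 152) (nat_lit 75041808220) (nat_lit 0) (nat_lit 305352270904) (nat_lit 2) (nat_lit 5) (nat_lit 4) (nat_lit 4) (nat_lit 2) (nat_lit 4) (nat_lit 433) (nat_lit 286) (nat_lit 181))))))))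
noncomputable def xc66 : XT := (XT.nd (nat_lit 40092) (nat_lit 0) (nat_lit 608) (XT.nd (nat_lit 39156) (nat_lit 0) (nat_lit 1672) (XT.nd (nat_lit 38688) (nat_lit 0) (nat_lit 3040) (XT.nd (nat_lit 38454) (nat_lit 0) (nat_lit 3952) (XT.nd (nat_lit 78) (nat_lit 0) (nat_lit 0) (XT.lf (nat_lit 0) (nat_lit 336005579279) (nat_lit 152) (nat_lit 69221060655) (nat_lit 0) (nat_lit 325542584004) (nat_lit 2) (nat_lit 5) (nat_lit 4) (nat_lit 4) (nat_lit 2) (nat_lit 4) (nat_lit 434) (nat_lit 286) (nat_lit 180)) (XT.lf (nat_lit 0) (nat_lit 357205844002) (nat_lit 152) (nat_lit 63114517585) (nat_lit 0) (nat_lit 346740005297) (nat_lit 2) (nat_lit 5) (nat_lit 4) (nat_lit 4) (nat_lit 2) (nat_lit 4) (nat_lit 435) (nat_lit 286) (nat_lit 179))) (XT.nd (nat_lit 78) (nat_lit 608) (nat_lit 0) (XT.lf (nat_lit 0) (nat_lit 1948538307) (nat_lit 304) (nat_lit 400380942) (nat_lit 0) (nat_lit 1948538307) (nat_lit 62) (nat_lit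 5) (nat_lit 66) (nat_lit 4) (nat_lit 62) (nat_lit 4) (nat_lit 326) (nat_lit 287) (nat_lit 287)) (XT.nd (nat_lit 78) (nat_lit 304) (nat_lit 0) (XT.lf (nat_lit 0) (nat_lit 5836484257) (nat_lit 304) (nat_lit 1991134885) (nat_lit 304) (nat_lit 949422850) (nat_lit 58) (nat_lit 4) (nat_lit 62) (nat_lit 5) (nat_lit 62) (nat_lit 4) (nat_lit 327) (nat_lit 287) (nat_lit 286)) (XT.lf (nat_lit 0) (nat_lit 2821794243) (nat_lit 304) (nat_lit 5262961691) (nat_lit 0) (nat_lit 884824019) (nat_lit 54) (nat_lit 5) (nat_lit 58) (nat_lit 4) (nat_lit 54) (nat_lit 4) (nat_lit 328) (nat_lit 287) (nat_lit 285))))) (XT.nd (nat_lit 234) (nat_lit 456) (nat_lit 0) (XT.nd (nat_lit 78) (nat_lit 228) (nat_lit 0) (XT.lf (nat_lit 0) (nat_lit 1394876038) (nat_lit 228) (nat_lit 5307729645) (nat_lit 228) (nat_lit 2470889399) (nat_lit 51) (nat_lit 4) (nat_lit 54) (nat_lit 5) (nat_lit 54) (nat_lit 4) (nat_lit 329) (nat_lit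 287) (nat_lit 284)) (XT.nd (nat_lit 78) (nat_lit 152) (nat_lit 0) (XT.lf (nat_lit 0) (nat_lit 1285139980) (nat_lit 304) (nat_lit 1059322353) (nat_lit 76) (nat_lit 7045229238) (nat_lit 50) (nat_lit 5) (nat_lit 54) (nat_lit 5) (nat_lit 51) (nat_lit 4) (nat_lit 330) (nat_lit 287) (nat_lit 283)) (XT.lf (nat_lit 0) (nat_lit 5108059266) (nat_lit 228) (nat_lit 3695902127) (nat_lit 0) (nat_lit 812756454) (nat_lit 48) (nat_lit 5) (nat_lit 51) (nat_lit 4) (nat_lit 48) (nat_lit 4) (nat_lit 331) (nat_lit 287) (nat_lit 282)))) (XT.nd (nat_lit 78) (nat_lit 228) (nat_lit 0) (XT.lf (nat_lit 0) (nat_lit 3285476574) (nat_lit 228) (nat_lit 5803523781) (nat_lit 228) (nat_lit 767895675) (nat_lit 45) (nat_lit 4) (nat_lit 48) (nat_lit 5) (nat_lit 48) (nat_lit 4) (nat_lit 332) (nat_lit 287) (nat_lit 281)) (XT.nd (nat_lit 78) (nat_lit 0) (nat_lit 0) (XT.lf (nat_lit 0) (nat_lit 385451128) (nat_lit 152) (nat_lit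 2602915185) (nat_lit 228) (nat_lit 7121901142) (nat_lit 42) (nat_lit 5) (nat_lit 44) (nat_lit 5) (nat_lit 45) (nat_lit 4) (nat_lit 333) (nat_lit 287) (nat_lit 280)) (XT.lf (nat_lit 0) (nat_lit 6893744486) (nat_lit 228) (nat_lit 2695812293) (nat_lit 0) (nat_lit 786890505) (nat_lit 42) (nat_lit 5) (nat_lit 45) (nat_lit 4) (nat_lit 42) (nat_lit 4) (nat_lit 334) (nat_lit 287) (nat_lit 279)))))) (XT.nd (nat_lit 468) (nat_lit 608) (nat_lit 0) (XT.nd (nat_lit 234) (nat_lit 380) (nat_lit 0) (XT.nd (nat_lit 78) (nat_lit 152) (nat_lit 0) (XT.lf (nat_lit 0) (nat_lit 310162047) (nat_lit 228) (nat_lit 6080089236) (nat_lit 76) (nat_lit 4266406778) (nat_lit 39) (nat_lit 5) (nat_lit 42) (nat_lit 5) (nat_lit 40) (nat_lit 4) (nat_lit 335) (nat_lit 287) (nat_lit 278)) (XT.nd (nat_lit 78) (nat_lit 0) (nat_lit 0) (XT.lf (nat_lit 0) (nat_lit 1127943443) (nat_lit 152) (nat_lit 2981290271) (nat_lit 228) (nat_lit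 6842218469) (nat_lit 37) (nat_lit 5) (nat_lit 39) (nat_lit 5) (nat_lit 40) (nat_lit 4) (nat_lit 336) (nat_lit 287) (nat_lit 277)) (XT.lf (nat_lit 0) (nat_lit 8083658461) (nat_lit 228) (nat_lit 2569194876) (nat_lit 0) (nat_lit 608965313) (nat_lit 37) (nat_lit 5) (nat_lit 40) (nat_lit 4) (nat_lit 37) (nat_lit 4) (nat_lit 337) (nat_lit 287) (nat_lit 276)))) (XT.nd (nat_lit 78) (nat_lit 152) (nat_lit 0) (XT.lf (nat_lit 0) (nat_lit 651460282) (nat_lit 228) (nat_lit 6640280868) (nat_lit 76) (nat_lit 4295344302) (nat_lit 34) (nat_lit 5) (nat_lit 37) (nat_lit 5) (nat_lit 35) (nat_lit 4) (nat_lit 338) (nat_lit 287) (nat_lit 275)) (XT.nd (nat_lit 78) (nat_lit 0) (nat_lit 0) (XT.lf (nat_lit 0) (nat_lit 772576153) (nat_lit 152) (nat_lit 3727702328) (nat_lit 228) (nat_lit 7429094519) (nat_lit 32) (nat_lit 5) (nat_lit 34) (nat_lit 5) (nat_lit 35) (nat_lit 4) (nat_lit 339) (nat_lit 287) (nat_lit 274))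 (XT.lf (nat_lit 0) (nat_lit 8535793329) (nat_lit 228) (nat_lit 3700883942) (nat_lit 0) (nat_lit 52469287) (nat_lit 32) (nat_lit 5) (nat_lit 35) (nat_lit 4) (nat_lit 32) (nat_lit 4) (nat_lit 340) (nat_lit 287) (nat_lit 273))))) (XT.nd (nat_lit 234) (nat_lit 304) (nat_lit 0) (XT.nd (nat_lit 78) (nat_lit 76) (nat_lit 0) (XT.lf (nat_lit 0) (nat_lit 111898379) (nat_lit 228) (nat_lit 8666173189) (nat_lit 76) (nat_lit 3888374836) (nat_lit 29) (nat_lit 5) (nat_lit 32) (nat_lit 5) (nat_lit 30) (nat_lit 4) (nat_lit 341) (nat_lit 287) (nat_lit 272)) (XT.nd (nat_lit 78) (nat_lit 76) (nat_lit 0) (XT.lf (nat_lit 0) (nat_lit 3994019401) (nat_lit 228) (nat_lit 1100435404) (nat_lit 76) (nat_lit 7967665639) (nat_lit 29) (nat_lit 5) (nat_lit 32) (nat_lit 5) (nat_lit 30) (nat_lit 4) (nat_lit 342) (nat_lit 287) (nat_lit 271)) (XT.lf (nat_lit 0) (nat_lit 6879613505) (nat_lit 76) (nat_lit 1189510038) (nat_lit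 152) (nat_lit 5408580242) (nat_lit 28) (nat_lit 5) (nat_lit 29) (nat_lit 5) (nat_lit 30) (nat_lit 4) (nat_lit 343) (nat_lit 287) (nat_lit 270)))) (XT.nd (nat_lit 78) (nat_lit 152) (nat_lit 0) (XT.lf (nat_lit 0) (nat_lit 1190694490) (nat_lit 152) (nat_lit 11132899591) (nat_lit 152) (nat_lit 1591757797) (nat_lit 26) (nat_lit 4) (nat_lit 28) (nat_lit 5) (nat_lit 28) (nat_lit 4) (nat_lit 344) (nat_lit 287) (nat_lit 269)) (XT.nd (nat_lit 78) (nat_lit 76) (nat_lit 0) (XT.lf (nat_lit 0) (nat_lit 2364771571) (nat_lit 228) (nat_lit 5016361547) (nat_lit 76) (nat_lit 6990613809) (nat_lit 25) (nat_lit 5) (nat_lit 28) (nat_lit 5) (nat_lit 26) (nat_lit 4) (nat_lit 345) (nat_lit 287) (nat_lit 268)) (XT.lf (nat_lit 0) (nat_lit 2969138530) (nat_lit 76) (nat_lit 3441057688) (nat_lit 152) (nat_lit 8442289811) (nat_lit 24) (nat_lit 5) (nat_lit 25) (nat_lit 5) (nat_lit 26) (nat_lit 4) (nat_lit 346) (nat_lit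 287) (nat_lit 267))))))) (XT.nd (nat_lit 858) (nat_lit 456) (nat_lit 0) (XT.nd (nat_lit 390) (nat_lit 304) (nat_lit 0) (XT.nd (nat_lit 156) (nat_lit 152) (nat_lit 0) (XT.nd (nat_lit 78) (nat_lit 152) (nat_lit 0) (XT.lf (nat_lit 0) (nat_lit 10654273026) (nat_lit 152) (nat_lit 4015366243) (nat_lit 0) (nat_lit 687858190) (nat_lit 24) (nat_lit 5) (nat_lit 26) (nat_lit 4) (nat_lit 24) (nat_lit 4) (nat_lit 347) (nat_lit 287) (nat_lit 266)) (XT.lf (nat_lit 0) (nat_lit 4152841395) (nat_lit 152) (nat_lit 10982929002) (nat_lit 152) (nat_lit 750780055) (nat_lit 22) (nat_lit 4) (nat_lit 24) (nat_lit 5) (nat_lit 24) (nat_lit 4) (nat_lit 348) (nat_lit 287) (nat_lit 265))) (XT.nd (nat_lit 78) (nat_lit 76) (nat_lit 0) (XT.lf (nat_lit 0) (nat_lit 3263950224) (nat_lit 228) (nat_lit 3794131093) (nat_lit 76) (nat_lit 9382695061) (nat_lit 21) (nat_lit 5) (nat_lit 24) (nat_lit 5) (nat_lit 22) (nat_lit 4) (nat_lit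 349) (nat_lit 287) (nat_lit 264)) (XT.nd (nat_lit 78) (nat_lit 0) (nat_lit 0) (XT.lf (nat_lit 0) (nat_lit 4512496644) (nat_lit 76) (nat_lit 2921042072) (nat_lit 152) (nat_lit 9589636619) (nat_lit 20) (nat_lit 5) (nat_lit 21) (nat_lit 5) (nat_lit 22) (nat_lit 4) (nat_lit 350) (nat_lit 287) (nat_lit 263)) (XT.lf (nat_lit 0) (nat_lit 11808783300) (nat_lit 152) (nat_lit 4451415105) (nat_lit 0) (nat_lit 1374679640) (nat_lit 20) (nat_lit 5) (nat_lit 22) (nat_lit 4) (nat_lit 20) (nat_lit 4) (nat_lit 351) (nat_lit 287) (nat_lit 262))))) (XT.nd (nat_lit 234) (nat_lit 76) (nat_lit 0) (XT.nd (nat_lit 78) (nat_lit 152) (nat_lit 0) (XT.lf (nat_lit 0) (nat_lit 3933739438) (nat_lit 76) (nat_lit 12492308724) (nat_lit 76) (nat_lit 1849995434) (nat_lit 19) (nat_lit 4) (nat_lit 20) (nat_lit 5) (nat_lit 20) (nat_lit 4) (nat_lit 352) (nat_lit 287) (nat_lit 261)) (XT.nd (nat_lit 78) (nat_lit 76) (nat_lit 0)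 (XT.lf (nat_lit 0) (nat_lit 2241370508) (nat_lit 152) (nat_lit 6245798633) (nat_lit 76) (nat_lit 10460776534) (nat_lit 18) (nat_lit 5) (nat_lit 20) (nat_lit 5) (nat_lit 19) (nat_lit 4) (nat_lit 353) (nat_lit 287) (nat_lit 260)) (XT.lf (nat_lit 0) (nat_lit 2145825966) (nat_lit 76) (nat_lit 4281143016) (nat_lit 152) (nat_lit 13227400755) (nat_lit 17) (nat_lit 5) (nat_lit 18) (nat_lit 5) (nat_lit 19) (nat_lit 4) (nat_lit 354) (nat_lit 287) (nat_lit 259)))) (XT.nd (nat_lit 78) (nat_lit 76) (nat_lit 0) (XT.lf (nat_lit 0) (nat_lit 10850391545) (nat_lit 152) (nat_lit 9369480734) (nat_lit 0) (nat_lit 174848922) (nat_lit 17) (nat_lit 5) (nat_lit 19) (nat_lit 4) (nat_lit 17) (nat_lit 4) (nat_lit 355) (nat_lit 287) (nat_lit 258)) (XT.nd (nat_lit 78) (nat_lit 76) (nat_lit 0) (XT.lf (nat_lit 0) (nat_lit 15487952584) (nat_lit 152) (nat_lit 1035248837) (nat_lit 0) (nat_lit 4649272267) (nat_lit 17) (nat_lit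 5) (nat_lit 19) (nat_lit 4) (nat_lit 17) (nat_lit 4) (nat_lit 356) (nat_lit 287) (nat_lit 257)) (XT.lf (nat_lit 0) (nat_lit 7831492642) (nat_lit 76) (nat_lit 12574632175) (nat_lit 76) (nat_lit 1580582627) (nat_lit 16) (nat_lit 4) (nat_lit 17) (nat_lit 5) (nat_lit 17) (nat_lit 4) (nat_lit 357) (nat_lit 287) (nat_lit 256)))))) (XT.nd (nat_lit 468) (nat_lit 228) (nat_lit 0) (XT.nd (nat_lit 234) (nat_lit 76) (nat_lit 0) (XT.nd (nat_lit 78) (nat_lit 76) (nat_lit 0) (XT.lf (nat_lit 0) (nat_lit 2585723729) (nat_lit 152) (nat_lit 5841286600) (nat_lit 76) (nat_lit 14415314942) (nat_lit 15) (nat_lit 5) (nat_lit 17) (nat_lit 5) (nat_lit 16) (nat_lit 4) (nat_lit 358) (nat_lit 287) (nat_lit 255)) (XT.nd (nat_lit 78) (nat_lit 0) (nat_lit 0) (XT.lf (nat_lit 0) (nat_lit 2824115920) (nat_lit 76) (nat_lit 4057377073) (nat_lit 152) (nat_lit 16859248335) (nat_lit 14) (nat_lit 5) (nat_lit 15) (nat_lit 5) (nat_lit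 16) (nat_lit 4) (nat_lit 359) (nat_lit 287) (nat_lit 254)) (XT.lf (nat_lit 0) (nat_lit 11431497239) (nat_lit 152) (nat_lit 12692620602) (nat_lit 0) (nat_lit 558012952) (nat_lit 14) (nat_lit 5) (nat_lit 16) (nat_lit 4) (nat_lit 14) (nat_lit 4) (nat_lit 360) (nat_lit 287) (nat_lit 253)))) (XT.nd (nat_lit 78) (nat_lit 76) (nat_lit 0) (XT.lf (nat_lit 0) (nat_lit 16209433670) (nat_lit 152) (nat_lit 4246944679) (nat_lit 0) (nat_lit 5214213525) (nat_lit 14) (nat_lit 5) (nat_lit 16) (nat_lit 4) (nat_lit 14) (nat_lit 4) (nat_lit 361) (nat_lit 287) (nat_lit 252)) (XT.nd (nat_lit 78) (nat_lit 0) (nat_lit 0) (XT.lf (nat_lit 0) (nat_lit 4652776027) (nat_lit 76) (nat_lit 16583198145) (nat_lit 76) (nat_lit 5472039087) (nat_lit 13) (nat_lit 4) (nat_lit 14) (nat_lit 5) (nat_lit 14) (nat_lit 4) (nat_lit 362) (nat_lit 287) (nat_lit 251)) (XT.lf (nat_lit 0) (nat_lit 14029659825) (nat_lit 76) (nat_lit 12494367603)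 (nat_lit 76) (nat_lit 1272790533) (nat_lit 13) (nat_lit 4) (nat_lit 14) (nat_lit 5) (nat_lit 14) (nat_lit 4) (nat_lit 363) (nat_lit 287) (nat_lit 250))))) (XT.nd (nat_lit 234) (nat_lit 76) (nat_lit 0) (XT.nd (nat_lit 78) (nat_lit 76) (nat_lit 0) (XT.lf (nat_lit 0) (nat_lit 2976253231) (nat_lit 152) (nat_lit 5225417957) (nat_lit 76) (nat_lit 20738951937) (nat_lit 12) (nat_lit 5) (nat_lit 14) (nat_lit 5) (nat_lit 13) (nat_lit 4) (nat_lit 364) (nat_lit 287) (nat_lit 249)) (XT.nd (nat_lit 78) (nat_lit 0) (nat_lit 0) (XT.lf (nat_lit 0) (nat_lit 3735656179) (nat_lit 76) (nat_lit 3660707553) (nat_lit 152) (nat_lit 22744160713) (nat_lit 11) (nat_lit 5) (nat_lit 12) (nat_lit 5) (nat_lit 13) (nat_lit 4) (nat_lit 365) (nat_lit 287) (nat_lit 248)) (XT.lf (nat_lit 0) (nat_lit 12088091115) (nat_lit 152) (nat_lit 18195318803) (nat_lit 0) (nat_lit 1114498063) (nat_lit 11) (nat_lit 5) (nat_lit 13) (nat_lit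 4) (nat_lit 11) (nat_lit 4) (nat_lit 366) (nat_lit 287) (nat_lit 247)))) (XT.nd (nat_lit 78) (nat_lit 76) (nat_lit 0) (XT.lf (nat_lit 0) (nat_lit 17020490288) (nat_lit 152) (nat_lit 9737001174) (nat_lit 0) (nat_lit 5960381834) (nat_lit 11) (nat_lit 5) (nat_lit 13) (nat_lit 4) (nat_lit 11) (nat_lit 4) (nat_lit 367) (nat_lit 287) (nat_lit 246)) (XT.nd (nat_lit 78) (nat_lit 76) (nat_lit 0) (XT.lf (nat_lit 0) (nat_lit 22148151155) (nat_lit 152) (nat_lit 952622625) (nat_lit 0) (nat_lit 11005647080) (nat_lit 11) (nat_lit 5) (nat_lit 13) (nat_lit 4) (nat_lit 11) (nat_lit 4) (nat_lit 368) (nat_lit 287) (nat_lit 245)) (XT.lf (nat_lit 0) (nat_lit 8449157847) (nat_lit 76) (nat_lit 19166039617) (nat_lit 76) (nat_lit 7945063523) (nat_lit 10) (nat_lit 4) (nat_lit 11) (nat_lit 5) (nat_lit 11) (nat_lit 4) (nat_lit 369) (nat_lit 287) (nat_lit 244))))))))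
noncomputable def xc67 : XT := (XT.nd (nat_lit 1794) (nat_lit 152) (nat_lit 0) (XT.nd (nat_lit 858) (nat_lit 228) (nat_lit 0) (XT.nd (nat_lit 390) (nat_lit 76) (nat_lit 0) (XT.nd (nat_lit 156) (nat_lit 76) (nat_lit 0) (XT.nd (nat_lit 78) (nat_lit 76) (nat_lit 0) (XT.lf (nat_lit 0) (nat_lit 18263345217) (nat_lit 76) (nat_lit 15060383596) (nat_lit 76) (nat_lit 3764672245) (nat_lit 10) (nat_lit 4) (nat_lit 11) (nat_lit 5) (nat_lit 11) (nat_lit 4) (nat_lit 370) (nat_lit 287) (nat_lit 243)) (XT.lf (nat_lit 0) (nat_lit 558265533) (nat_lit 152) (nat_lit 10222443441) (nat_lit 76) (nat_lit 27914088561) (nat_lit 9) (nat_lit 5) (nat_lit 11) (nat_lit 5) (nat_lit 10) (nat_lit 4) (nat_lit 371) (nat_lit 287) (nat_lit 242))) (XT.nd (nat_lit 78) (nat_lit 76) (nat_lit 0) (XT.lf (nat_lit 0) (nat_lit 4926568219) (nat_lit 152) (nat_lit 1335210018) (nat_lit 76) (nat_lit 34118875609) (nat_lit 9) (nat_lit 5)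 (nat_lit 11) (nat_lit 5) (nat_lit 10) (nat_lit 4) (nat_lit 372) (nat_lit 287) (nat_lit 241)) (XT.nd (nat_lit 78) (nat_lit 0) (nat_lit 0) (XT.lf (nat_lit 0) (nat_lit 8178339530) (nat_lit 76) (nat_lit 1420476821) (nat_lit 152) (nat_lit 32547722095) (nat_lit 8) (nat_lit 5) (nat_lit 9) (nat_lit 5) (nat_lit 10) (nat_lit 4) (nat_lit 373) (nat_lit 287) (nat_lit 240)) (XT.lf (nat_lit 0) (nat_lit 14542893213) (nat_lit 152) (nat_lit 25923239907) (nat_lit 0) (nat_lit 3532684763) (nat_lit 8) (nat_lit 5) (nat_lit 10) (nat_lit 4) (nat_lit 8) (nat_lit 4) (nat_lit 374) (nat_lit 287) (nat_lit 239))))) (XT.nd (nat_lit 234) (nat_lit 0) (nat_lit 0) (XT.nd (nat_lit 78) (nat_lit 76) (nat_lit 0) (XT.lf (nat_lit 0) (nat_lit 19717503493) (nat_lit 152) (nat_lit 17575525752) (nat_lit 0) (nat_lit 8651526443) (nat_lit 8) (nat_lit 5) (nat_lit 10) (nat_lit 4) (nat_lit 8) (nat_lit 4) (nat_lit 375) (nat_lit 287) (nat_lit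 238)) (XT.nd (nat_lit 78) (nat_lit 76) (nat_lit 0) (XT.lf (nat_lit 0) (nat_lit 25112790069) (nat_lit 152) (nat_lit 8883003318) (nat_lit 0) (nat_lit 13993700067) (nat_lit 8) (nat_lit 5) (nat_lit 10) (nat_lit 4) (nat_lit 8) (nat_lit 4) (nat_lit 376) (nat_lit 287) (nat_lit 237)) (XT.lf (nat_lit 0) (nat_lit 180810956) (nat_lit 76) (nat_lit 30563610870) (nat_lit 76) (nat_lit 19393937105) (nat_lit 7) (nat_lit 4) (nat_lit 8) (nat_lit 5) (nat_lit 8) (nat_lit 4) (nat_lit 377) (nat_lit 287) (nat_lit 236)))) (XT.nd (nat_lit 78) (nat_lit 0) (nat_lit 0) (XT.lf (nat_lit 0) (nat_lit 9938207261) (nat_lit 76) (nat_lit 26834287800) (nat_lit 76) (nat_lit 15616439022) (nat_lit 7) (nat_lit 4) (nat_lit 8) (nat_lit 5) (nat_lit 8) (nat_lit 4) (nat_lit 378) (nat_lit 287) (nat_lit 235)) (XT.nd (nat_lit 78) (nat_lit 0) (nat_lit 0) (XT.lf (nat_lit 0) (nat_lit 20118705286) (nat_lit 76) (nat_lit 22949382795) (nat_lit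 76) (nat_lit 11685653052) (nat_lit 7) (nat_lit 4) (nat_lit 8) (nat_lit 5) (nat_lit 8) (nat_lit 4) (nat_lit 379) (nat_lit 287) (nat_lit 234)) (XT.lf (nat_lit 0) (nat_lit 30746544313) (nat_lit 76) (nat_lit 18899646082) (nat_lit 76) (nat_lit 7592220182) (nat_lit 7) (nat_lit 4) (nat_lit 8) (nat_lit 5) (nat_lit 8) (nat_lit 4) (nat_lit 380) (nat_lit 287) (nat_lit 233)))))) (XT.nd (nat_lit 468) (nat_lit 76) (nat_lit 0) (XT.nd (nat_lit 234) (nat_lit 0) (nat_lit 0) (XT.nd (nat_lit 78) (nat_lit 152) (nat_lit 0) (XT.lf (nat_lit 0) (nat_lit 41847028719) (nat_lit 76) (nat_lit 14675435431) (nat_lit 76) (nat_lit 3326394144) (nat_lit 7) (nat_lit 4) (nat_lit 8) (nat_lit 5) (nat_lit 8) (nat_lit 4) (nat_lit 381) (nat_lit 287) (nat_lit 232)) (XT.nd (nat_lit 78) (nat_lit 76) (nat_lit 0) (XT.lf (nat_lit 0) (nat_lit 1086071368) (nat_lit 152) (nat_lit 9162228684) (nat_lit 76) (nat_lit 52342123718) (nat_lit 6)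 (nat_lit 5) (nat_lit 8) (nat_lit 5) (nat_lit 7) (nat_lit 4) (nat_lit 382) (nat_lit 287) (nat_lit 231)) (XT.lf (nat_lit 0) (nat_lit 10942479) (nat_lit 76) (nat_lit 5568259399) (nat_lit 152) (nat_lit 59888554581) (nat_lit 5) (nat_lit 5) (nat_lit 6) (nat_lit 5) (nat_lit 7) (nat_lit 4) (nat_lit 383) (nat_lit 287) (nat_lit 230)))) (XT.nd (nat_lit 78) (nat_lit 0) (nat_lit 0) (XT.lf (nat_lit 0) (nat_lit 9907509805) (nat_lit 76) (nat_lit 516821957) (nat_lit 152) (nat_lit 58058263556) (nat_lit 5) (nat_lit 5) (nat_lit 6) (nat_lit 5) (nat_lit 7) (nat_lit 4) (nat_lit 384) (nat_lit 287) (nat_lit 229)) (XT.nd (nat_lit 78) (nat_lit 0) (nat_lit 0) (XT.lf (nat_lit 0) (nat_lit 15559580953) (nat_lit 152) (nat_lit 51475777328) (nat_lit 0) (nat_lit 4610431057) (nat_lit 5) (nat_lit 5) (nat_lit 7) (nat_lit 4) (nat_lit 5) (nat_lit 4) (nat_lit 385) (nat_lit 287) (nat_lit 228)) (XT.lf (nat_lit 0) (nat_lit 20934466429)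 (nat_lit 152) (nat_lit 44079276506) (nat_lit 0) (nat_lit 9954262490) (nat_lit 5) (nat_lit 5) (nat_lit 7) (nat_lit 4) (nat_lit 5) (nat_lit 4) (nat_lit 386) (nat_lit 287) (nat_lit 227))))) (XT.nd (nat_lit 234) (nat_lit 76) (nat_lit 0) (XT.nd (nat_lit 78) (nat_lit 0) (nat_lit 0) (XT.lf (nat_lit 0) (nat_lit 26553716498) (nat_lit 152) (nat_lit 36359903292) (nat_lit 0) (nat_lit 15543937279) (nat_lit 5) (nat_lit 5) (nat_lit 7) (nat_lit 4) (nat_lit 5) (nat_lit 4) (nat_lit 387) (nat_lit 287) (nat_lit 226)) (XT.nd (nat_lit 78) (nat_lit 0) (nat_lit 0) (XT.lf (nat_lit 0) (nat_lit 32430710325) (nat_lit 152) (nat_lit 28299278225) (nat_lit 0) (nat_lit 21392764175) (nat_lit 5) (nat_lit 5) (nat_lit 7) (nat_lit 4) (nat_lit 5) (nat_lit 4) (nat_lit 388) (nat_lit 287) (nat_lit 225)) (XT.lf (nat_lit 0) (nat_lit 38579440755) (nat_lit 152) (nat_lit 19878209341) (nat_lit 0) (nat_lit 27514668954) (nat_lit 5) (nat_lit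 5) (nat_lit 7) (nat_lit 4) (nat_lit 5) (nat_lit 4) (nat_lit 389) (nat_lit 287) (nat_lit 224)))) (XT.nd (nat_lit 78) (nat_lit 76) (nat_lit 0) (XT.lf (nat_lit 0) (nat_lit 45014547620) (nat_lit 152) (nat_lit 11076646477) (nat_lit 0) (nat_lit 33924227582) (nat_lit 5) (nat_lit 5) (nat_lit 7) (nat_lit 4) (nat_lit 5) (nat_lit 4) (nat_lit 390) (nat_lit 287) (nat_lit 223)) (XT.nd (nat_lit 78) (nat_lit 76) (nat_lit 0) (XT.lf (nat_lit 0) (nat_lit 51751352605) (nat_lit 152) (nat_lit 1873633529) (nat_lit 0) (nat_lit 40636700911) (nat_lit 5) (nat_lit 5) (nat_lit 7) (nat_lit 4) (nat_lit 5) (nat_lit 4) (nat_lit 391) (nat_lit 287) (nat_lit 222)) (XT.lf (nat_lit 0) (nat_lit 8009082080) (nat_lit 76) (nat_lit 50921857857) (nat_lit 76) (nat_lit 39784033158) (nat_lit 4) (nat_lit 4) (nat_lit 5) (nat_lit 5) (nat_lit 5) (nat_lit 4) (nat_lit 392) (nat_lit 287) (nat_lit 221))))))) (XT.nd (nat_lit 858) (nat_lit 76)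 (nat_lit 0) (XT.nd (nat_lit 390) (nat_lit 76) (nat_lit 0) (XT.nd (nat_lit 156) (nat_lit 0) (nat_lit 0) (XT.nd (nat_lit 78) (nat_lit 0) (nat_lit 0) (XT.lf (nat_lit 0) (nat_lit 18414786532) (nat_lit 76) (nat_lit 48067693391) (nat_lit 76) (nat_lit 36907799164) (nat_lit 4) (nat_lit 4) (nat_lit 5) (nat_lit 5) (nat_lit 5) (nat_lit 4) (nat_lit 393) (nat_lit 287) (nat_lit 220)) (XT.lf (nat_lit 0) (nat_lit 29306304527) (nat_lit 76) (nat_lit 45087427998) (nat_lit 76) (nat_lit 33906515172) (nat_lit 4) (nat_lit 4) (nat_lit 5) (nat_lit 5) (nat_lit 5) (nat_lit 4) (nat_lit 394) (nat_lit 287) (nat_lit 219))) (XT.nd (nat_lit 78) (nat_lit 0) (nat_lit 0) (XT.lf (nat_lit 0) (nat_lit 40709568250) (nat_lit 76) (nat_lit 41973965807) (nat_lit 76) (nat_lit 30773035269) (nat_lit 4) (nat_lit 4) (nat_lit 5) (nat_lit 5) (nat_lit 5) (nat_lit 4) (nat_lit 395) (nat_lit 287) (nat_lit 218)) (XT.nd (nat_lit 78) (nat_lit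 0) (nat_lit 0) (XT.lf (nat_lit 0) (nat_lit 52651728330) (nat_lit 76) (nat_lit 38719893814) (nat_lit 76) (nat_lit 27499898787) (nat_lit 4) (nat_lit 4) (nat_lit 5) (nat_lit 5) (nat_lit 5) (nat_lit 4) (nat_lit 396) (nat_lit 287) (nat_lit 217)) (XT.lf (nat_lit 0) (nat_lit 65161218481) (nat_lit 76) (nat_lit 35317464229) (nat_lit 76) (nat_lit 24079312546) (nat_lit 4) (nat_lit 4) (nat_lit 5) (nat_lit 5) (nat_lit 5) (nat_lit 4) (nat_lit 397) (nat_lit 287) (nat_lit 216))))) (XT.nd (nat_lit 234) (nat_lit 76) (nat_lit 0) (XT.nd (nat_lit 78) (nat_lit 0) (nat_lit 0) (XT.lf (nat_lit 0) (nat_lit 78267823202) (nat_lit 76) (nat_lit 31758576027) (nat_lit 76) (nat_lit 20503132291) (nat_lit 4) (nat_lit 4) (nat_lit 5) (nat_lit 5) (nat_lit 5) (nat_lit 4) (nat_lit 398) (nat_lit 287) (nat_lit 215)) (XT.nd (nat_lit 78) (nat_lit 0) (nat_lit 0) (XT.lf (nat_lit 0) (nat_lit 92002748697) (nat_lit 76) (nat_lit 28034755666)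 (nat_lit 76) (nat_lit 16762843308) (nat_lit 4) (nat_lit 4) (nat_lit 5) (nat_lit 5) (nat_lit 5) (nat_lit 4) (nat_lit 399) (nat_lit 287) (nat_lit 214)) (XT.lf (nat_lit 0) (nat_lit 106398697168) (nat_lit 76) (nat_lit 24137136907) (nat_lit 76) (nat_lit 12849540147) (nat_lit 4) (nat_lit 4) (nat_lit 5) (nat_lit 5) (nat_lit 5) (nat_lit 4) (nat_lit 400) (nat_lit 287) (nat_lit 213)))) (XT.nd (nat_lit 78) (nat_lit 76) (nat_lit 0) (XT.lf (nat_lit 0) (nat_lit 121489944683) (nat_lit 76) (nat_lit 20056439706) (nat_lit 76) (nat_lit 8753905420) (nat_lit 4) (nat_lit 4) (nat_lit 5) (nat_lit 5) (nat_lit 5) (nat_lit 4) (nat_lit 401) (nat_lit 287) (nat_lit 212)) (XT.nd (nat_lit 78) (nat_lit 76) (nat_lit 0) (XT.lf (nat_lit 0) (nat_lit 137312422784) (nat_lit 76) (nat_lit 15782948116) (nat_lit 76) (nat_lit 4466187615) (nat_lit 4) (nat_lit 4) (nat_lit 5) (nat_lit 5) (nat_lit 5) (nat_lit 4) (nat_lit 402) (nat_lit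 287) (nat_lit 211)) (XT.lf (nat_lit 0) (nat_lit 23059661) (nat_lit 152) (nat_lit 11283036969) (nat_lit 76) (nat_lit 153880353850) (nat_lit 3) (nat_lit 5) (nat_lit 5) (nat_lit 5) (nat_lit 4) (nat_lit 4) (nat_lit 403) (nat_lit 287) (nat_lit 210)))))) (XT.nd (nat_lit 468) (nat_lit 0) (nat_lit 0) (XT.nd (nat_lit 234) (nat_lit 0) (nat_lit 0) (XT.nd (nat_lit 78) (nat_lit 76) (nat_lit 0) (XT.lf (nat_lit 0) (nat_lit 4575526705) (nat_lit 152) (nat_lit 1963383126) (nat_lit 76) (nat_lit 166650576270) (nat_lit 3) (nat_lit 5) (nat_lit 5) (nat_lit 5) (nat_lit 4) (nat_lit 4) (nat_lit 404) (nat_lit 287) (nat_lit 209)) (XT.nd (nat_lit 78) (nat_lit 0) (nat_lit 0) (XT.lf (nat_lit 0) (nat_lit 8059706081) (nat_lit 76) (nat_lit 1411127134) (nat_lit 152) (nat_lit 172116081764) (nat_lit 2) (nat_lit 5) (nat_lit 3) (nat_lit 5) (nat_lit 4) (nat_lit 4) (nat_lit 405) (nat_lit 287) (nat_lit 208)) (XT.lf (nat_lit 0)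 (nat_lit 14696151266) (nat_lit 152) (nat_lit 171833563065) (nat_lit 0) (nat_lit 3870240834) (nat_lit 2) (nat_lit 5) (nat_lit 4) (nat_lit 4) (nat_lit 2) (nat_lit 4) (nat_lit 406) (nat_lit 287) (nat_lit 207)))) (XT.nd (nat_lit 78) (nat_lit 0) (nat_lit 0) (XT.lf (nat_lit 0) (nat_lit 20195792177) (nat_lit 152) (nat_lit 170097938480) (nat_lit 0) (nat_lit 9359265924) (nat_lit 2) (nat_lit 5) (nat_lit 4) (nat_lit 4) (nat_lit 2) (nat_lit 4) (nat_lit 407) (nat_lit 287) (nat_lit 206)) (XT.nd (nat_lit 78) (nat_lit 0) (nat_lit 0) (XT.lf (nat_lit 0) (nat_lit 25960818683) (nat_lit 152) (nat_lit 168294171057) (nat_lit 0) (nat_lit 15114182125) (nat_lit 2) (nat_lit 5) (nat_lit 4) (nat_lit 4) (nat_lit 2) (nat_lit 4) (nat_lit 408) (nat_lit 287) (nat_lit 205)) (XT.lf (nat_lit 0) (nat_lit 32004957036) (nat_lit 152) (nat_lit 166417966111) (nat_lit 0) (nat_lit 21148691616) (nat_lit 2) (nat_lit 5) (nat_lit 4)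 (nat_lit 4) (nat_lit 2) (nat_lit 4) (nat_lit 409) (nat_lit 287) (nat_lit 204))))) (XT.nd (nat_lit 234) (nat_lit 0) (nat_lit 0) (XT.nd (nat_lit 78) (nat_lit 0) (nat_lit 0) (XT.lf (nat_lit 0) (nat_lit 38342598044) (nat_lit 152) (nat_lit 164464856487) (nat_lit 0) (nat_lit 27477162278) (nat_lit 2) (nat_lit 5) (nat_lit 4) (nat_lit 4) (nat_lit 2) (nat_lit 4) (nat_lit 410) (nat_lit 287) (nat_lit 203)) (XT.nd (nat_lit 78) (nat_lit 0) (nat_lit 0) (XT.lf (nat_lit 0) (nat_lit 44988831326) (nat_lit 152) (nat_lit 162430191924) (nat_lit 0) (nat_lit 34114661899) (nat_lit 2) (nat_lit 5) (nat_lit 4) (nat_lit 4) (nat_lit 2) (nat_lit 4) (nat_lit 411) (nat_lit 287) (nat_lit 202)) (XT.lf (nat_lit 0) (nat_lit 51959481248) (nat_lit 152) (nat_lit 160309127983) (nat_lit 0) (nat_lit 41076994048) (nat_lit 2) (nat_lit 5) (nat_lit 4) (nat_lit 4) (nat_lit 2) (nat_lit 4) (nat_lit 412) (nat_lit 287) (nat_lit 201))))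 (XT.nd (nat_lit 78) (nat_lit 0) (nat_lit 0) (XT.lf (nat_lit 0) (nat_lit 59271144596) (nat_lit 152) (nat_lit 158096614511) (nat_lit 0) (nat_lit 48380735707) (nat_lit 2) (nat_lit 5) (nat_lit 4) (nat_lit 4) (nat_lit 2) (nat_lit 4) (nat_lit 413) (nat_lit 287) (nat_lit 200)) (XT.nd (nat_lit 78) (nat_lit 0) (nat_lit 0) (XT.lf (nat_lit 0) (nat_lit 66941230092) (nat_lit 152) (nat_lit 155787383619) (nat_lit 0) (nat_lit 56043276737) (nat_lit 2) (nat_lit 5) (nat_lit 4) (nat_lit 4) (nat_lit 2) (nat_lit 4) (nat_lit 414) (nat_lit 287) (nat_lit 199)) (XT.lf (nat_lit 0) (nat_lit 74987999844) (nat_lit 152) (nat_lit 153375937139) (nat_lit 0) (nat_lit 64082861284) (nat_lit 2) (nat_lit 5) (nat_lit 4) (nat_lit 4) (nat_lit 2) (nat_lit 4) (nat_lit 415) (nat_lit 287) (nat_lit 198))))))))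
noncomputable def xc68 : XT := (XT.nd (nat_lit 39858) (nat_lit 0) (nat_lit 1520) (XT.nd (nat_lit 858) (nat_lit 0) (nat_lit 0) (XT.nd (nat_lit 390) (nat_lit 0) (nat_lit 0) (XT.nd (nat_lit 156) (nat_lit 0) (nat_lit 0) (XT.nd (nat_lit 78) (nat_lit 0) (nat_lit 0) (XT.lf (nat_lit 0) (nat_lit 83430612827) (nat_lit 152) (nat_lit 150856533531) (nat_lit 0) (nat_lit 72518631215) (nat_lit 2) (nat_lit 5) (nat_lit 4) (nat_lit 4) (nat_lit 2) (nat_lit 4) (nat_lit 416) (nat_lit 287) (nat_lit 197)) (XT.lf (nat_lit 0) (nat_lit 92289170502) (nat_lit 152) (nat_lit 148223174215) (nat_lit 0) (nat_lit 81370671696) (nat_lit 2) (nat_lit 5) (nat_lit 4) (nat_lit 4) (nat_lit 2) (nat_lit 4) (nat_lit 417) (nat_lit 287) (nat_lit 196))) (XT.nd (nat_lit 78) (nat_lit 0) (nat_lit 0) (XT.lf (nat_lit 0) (nat_lit 101584764672) (nat_lit 152) (nat_lit 145469589288) (nat_lit 0) (nat_lit 90660059016) (nat_lit 2) (nat_lit 5) (nat_lit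 4) (nat_lit 4) (nat_lit 2) (nat_lit 4) (nat_lit 418) (nat_lit 287) (nat_lit 195)) (XT.nd (nat_lit 78) (nat_lit 0) (nat_lit 0) (XT.lf (nat_lit 0) (nat_lit 111339527704) (nat_lit 152) (nat_lit 142589222596) (nat_lit 0) (nat_lit 100408910762) (nat_lit 2) (nat_lit 5) (nat_lit 4) (nat_lit 4) (nat_lit 2) (nat_lit 4) (nat_lit 419) (nat_lit 287) (nat_lit 194)) (XT.lf (nat_lit 0) (nat_lit 121576685225) (nat_lit 152) (nat_lit 139575216122) (nat_lit 0) (nat_lit 110640438487) (nat_lit 2) (nat_lit 5) (nat_lit 4) (nat_lit 4) (nat_lit 2) (nat_lit 4) (nat_lit 420) (nat_lit 287) (nat_lit 193))))) (XT.nd (nat_lit 234) (nat_lit 0) (nat_lit 0) (XT.nd (nat_lit 78) (nat_lit 0) (nat_lit 0) (XT.lf (nat_lit 0) (nat_lit 132320611419) (nat_lit 152) (nat_lit 136420393661) (nat_lit 0) (nat_lit 121379002970) (nat_lit 2) (nat_lit 5) (nat_lit 4) (nat_lit 4) (nat_lit 2) (nat_lit 4) (nat_lit 421) (nat_lit 287) (nat_lit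 192)) (XT.nd (nat_lit 78) (nat_lit 0) (nat_lit 0) (XT.lf (nat_lit 0) (nat_lit 143596887063) (nat_lit 152) (nat_lit 133117243731) (nat_lit 0) (nat_lit 132650172222) (nat_lit 2) (nat_lit 5) (nat_lit 4) (nat_lit 4) (nat_lit 2) (nat_lit 4) (nat_lit 422) (nat_lit 287) (nat_lit 191)) (XT.lf (nat_lit 0) (nat_lit 155432360431) (nat_lit 152) (nat_lit 129657901688) (nat_lit 0) (nat_lit 144480782362) (nat_lit 2) (nat_lit 5) (nat_lit 4) (nat_lit 4) (nat_lit 2) (nat_lit 4) (nat_lit 423) (nat_lit 287) (nat_lit 190)))) (XT.nd (nat_lit 78) (nat_lit 0) (nat_lit 0) (XT.lf (nat_lit 0) (nat_lit 167855211224) (nat_lit 152) (nat_lit 126034131005) (nat_lit 0) (nat_lit 156899001507) (nat_lit 2) (nat_lit 5) (nat_lit 4) (nat_lit 4) (nat_lit 2) (nat_lit 4) (nat_lit 424) (nat_lit 287) (nat_lit 189)) (XT.nd (nat_lit 78) (nat_lit 0) (nat_lit 0) (XT.lf (nat_lit 0) (nat_lit 180895017656) (nat_lit 152) (nat_lit 122237303655)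 (nat_lit 0) (nat_lit 169934396846) (nat_lit 2) (nat_lit 5) (nat_lit 4) (nat_lit 4) (nat_lit 2) (nat_lit 4) (nat_lit 425) (nat_lit 287) (nat_lit 188)) (XT.lf (nat_lit 0) (nat_lit 194582826886) (nat_lit 152) (nat_lit 118258379574) (nat_lit 0) (nat_lit 183618005036) (nat_lit 2) (nat_lit 5) (nat_lit 4) (nat_lit 4) (nat_lit 2) (nat_lit 4) (nat_lit 426) (nat_lit 287) (nat_lit 187)))))) (XT.nd (nat_lit 390) (nat_lit 0) (nat_lit 0) (XT.nd (nat_lit 156) (nat_lit 0) (nat_lit 0) (XT.nd (nat_lit 78) (nat_lit 0) (nat_lit 0) (XT.lf (nat_lit 0) (nat_lit 208951228936) (nat_lit 152) (nat_lit 114087885133) (nat_lit 0) (nat_lit 197982406095) (nat_lit 2) (nat_lit 5) (nat_lit 4) (nat_lit 4) (nat_lit 2) (nat_lit 4) (nat_lit 427) (nat_lit 287) (nat_lit 186)) (XT.lf (nat_lit 0) (nat_lit 224034434288) (nat_lit 152) (nat_lit 109715890583) (nat_lit 0) (nat_lit 213061800978) (nat_lit 2) (nat_lit 5) (nat_lit 4) (nat_lit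 4) (nat_lit 2) (nat_lit 4) (nat_lit 428) (nat_lit 287) (nat_lit 185))) (XT.nd (nat_lit 78) (nat_lit 0) (nat_lit 0) (XT.lf (nat_lit 0) (nat_lit 239868355334) (nat_lit 152) (nat_lit 105131986414) (nat_lit 0) (nat_lit 228892093007) (nat_lit 2) (nat_lit 5) (nat_lit 4) (nat_lit 4) (nat_lit 2) (nat_lit 4) (nat_lit 429) (nat_lit 287) (nat_lit 184)) (XT.nd (nat_lit 78) (nat_lit 0) (nat_lit 0) (XT.lf (nat_lit 0) (nat_lit 256490691886) (nat_lit 152) (nat_lit 100325258567) (nat_lit 0) (nat_lit 245510973353) (nat_lit 2) (nat_lit 5) (nat_lit 4) (nat_lit 4) (nat_lit 2) (nat_lit 4) (nat_lit 430) (nat_lit 287) (nat_lit 183)) (XT.lf (nat_lit 0) (nat_lit 273941020937) (nat_lit 152) (nat_lit 95284262453) (nat_lit 0) (nat_lit 262958010779) (nat_lit 2) (nat_lit 5) (nat_lit 4) (nat_lit 4) (nat_lit 2) (nat_lit 4) (nat_lit 431) (nat_lit 287) (nat_lit 182))))) (XT.nd (nat_lit 234) (nat_lit 0) (nat_lit 0) (XT.nd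 (nat_lit 78) (nat_lit 0) (nat_lit 0) (XT.lf (nat_lit 0) (nat_lit 292260890889) (nat_lit 152) (nat_lit 89996995701) (nat_lit 0) (nat_lit 281274745850) (nat_lit 2) (nat_lit 5) (nat_lit 4) (nat_lit 4) (nat_lit 2) (nat_lit 4) (nat_lit 432) (nat_lit 287) (nat_lit 181)) (XT.nd (nat_lit 78) (nat_lit 0) (nat_lit 0) (XT.lf (nat_lit 0) (nat_lit 311493920480) (nat_lit 152) (nat_lit 84450869579) (nat_lit 0) (nat_lit 300504789840) (nat_lit 2) (nat_lit 5) (nat_lit 4) (nat_lit 4) (nat_lit 2) (nat_lit 4) (nat_lit 433) (nat_lit 287) (nat_lit 180)) (XT.lf (nat_lit 0) (nat_lit 331685902638) (nat_lit 152) (nat_lit 78632679025) (nat_lit 0) (nat_lit 320693928568) (nat_lit 2) (nat_lit 5) (nat_lit 4) (nat_lit 4) (nat_lit 2) (nat_lit 4) (nat_lit 434) (nat_lit 287) (nat_lit 179)))) (XT.nd (nat_lit 38220) (nat_lit 0) (nat_lit 4560) (XT.lf (nat_lit 0) (nat_lit 352884913510) (nat_lit 152) (nat_lit 72528571205) (nat_lit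 0) (nat_lit 341890231412) (nat_lit 2) (nat_lit 5) (nat_lit 4) (nat_lit 4) (nat_lit 2) (nat_lit 4) (nat_lit 435) (nat_lit 287) (nat_lit 178)) (XT.nd (nat_lit 78) (nat_lit 304) (nat_lit 0) (XT.lf (nat_lit 0) (nat_lit 1654024439) (nat_lit 304) (nat_lit 1237671779) (nat_lit 304) (nat_lit 1237671779) (nat_lit 66) (nat_lit 4) (nat_lit 70) (nat_lit 5) (nat_lit 70) (nat_lit 4) (nat_lit 324) (nat_lit 288) (nat_lit 288)) (XT.lf (nat_lit 0) (nat_lit 1185073952) (nat_lit 304) (nat_lit 7148425490) (nat_lit 0) (nat_lit 91276315) (nat_lit 62) (nat_lit 5) (nat_lit 66) (nat_lit 4) (nat_lit 62) (nat_lit 4) (nat_lit 325) (nat_lit 288) (nat_lit 287))))))) (XT.nd (nat_lit 858) (nat_lit 1292) (nat_lit 0) (XT.nd (nat_lit 390) (nat_lit 836) (nat_lit 0) (XT.nd (nat_lit 156) (nat_lit 608) (nat_lit 0) (XT.nd (nat_lit 78) (nat_lit 304) (nat_lit 0) (XT.lf (nat_lit 0) (nat_lit 4914449050) (nat_lit 304) (nat_lit 905447050)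 (nat_lit 0) (nat_lit 2778939379) (nat_lit 62) (nat_lit 5) (nat_lit 66) (nat_lit 4) (nat_lit 62) (nat_lit 4) (nat_lit 326) (nat_lit 288) (nat_lit 286)) (XT.lf (nat_lit 0) (nat_lit 5625341031) (nat_lit 304) (nat_lit 3143568103) (nat_lit 304) (nat_lit 15951733) (nat_lit 58) (nat_lit 4) (nat_lit 62) (nat_lit 5) (nat_lit 62) (nat_lit 4) (nat_lit 327) (nat_lit 288) (nat_lit 285))) (XT.nd (nat_lit 78) (nat_lit 304) (nat_lit 0) (XT.lf (nat_lit 0) (nat_lit 3376458550) (nat_lit 228) (nat_lit 257169959) (nat_lit 304) (nat_lit 5347715222) (nat_lit 54) (nat_lit 5) (nat_lit 57) (nat_lit 5) (nat_lit 58) (nat_lit 4) (nat_lit 328) (nat_lit 288) (nat_lit 284)) (XT.nd (nat_lit 78) (nat_lit 76) (nat_lit 0) (XT.lf (nat_lit 0) (nat_lit 940336323) (nat_lit 228) (nat_lit 6492332001) (nat_lit 228) (nat_lit 1756760652) (nat_lit 51) (nat_lit 4) (nat_lit 54) (nat_lit 5) (nat_lit 54) (nat_lit 4) (nat_lit 329) (nat_lit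 288) (nat_lit 283)) (XT.lf (nat_lit 0) (nat_lit 1906344889) (nat_lit 304) (nat_lit 1643772963) (nat_lit 76) (nat_lit 5858527454) (nat_lit 50) (nat_lit 5) (nat_lit 54) (nat_lit 5) (nat_lit 51) (nat_lit 4) (nat_lit 330) (nat_lit 288) (nat_lit 282))))) (XT.nd (nat_lit 234) (nat_lit 380) (nat_lit 0) (XT.nd (nat_lit 78) (nat_lit 304) (nat_lit 0) (XT.lf (nat_lit 0) (nat_lit 5229636017) (nat_lit 152) (nat_lit 408782305) (nat_lit 228) (nat_lit 4001865983) (nat_lit 48) (nat_lit 5) (nat_lit 50) (nat_lit 5) (nat_lit 51) (nat_lit 4) (nat_lit 331) (nat_lit 288) (nat_lit 281)) (XT.nd (nat_lit 78) (nat_lit 76) (nat_lit 0) (XT.lf (nat_lit 0) (nat_lit 2451228775) (nat_lit 228) (nat_lit 7083177482) (nat_lit 228) (nat_lit 350370968) (nat_lit 45) (nat_lit 4) (nat_lit 48) (nat_lit 5) (nat_lit 48) (nat_lit 4) (nat_lit 332) (nat_lit 288) (nat_lit 280)) (XT.lf (nat_lit 0) (nat_lit 3321451199) (nat_lit 304) (nat_lit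 595328420) (nat_lit 76) (nat_lit 6224657758) (nat_lit 44) (nat_lit 5) (nat_lit 48) (nat_lit 5) (nat_lit 45) (nat_lit 4) (nat_lit 333) (nat_lit 288) (nat_lit 279)))) (XT.nd (nat_lit 78) (nat_lit 228) (nat_lit 0) (XT.lf (nat_lit 0) (nat_lit 6595312184) (nat_lit 152) (nat_lit 545729956) (nat_lit 228) (nat_lit 3270922373) (nat_lit 42) (nat_lit 5) (nat_lit 44) (nat_lit 5) (nat_lit 45) (nat_lit 4) (nat_lit 334) (nat_lit 288) (nat_lit 278)) (XT.nd (nat_lit 78) (nat_lit 0) (nat_lit 0) (XT.lf (nat_lit 0) (nat_lit 424655495) (nat_lit 228) (nat_lit 7370305430) (nat_lit 76) (nat_lit 2901627032) (nat_lit 39) (nat_lit 5) (nat_lit 42) (nat_lit 5) (nat_lit 40) (nat_lit 4) (nat_lit 335) (nat_lit 288) (nat_lit 277)) (XT.lf (nat_lit 0) (nat_lit 4145532158) (nat_lit 228) (nat_lit 294950404) (nat_lit 76) (nat_lit 6554859323) (nat_lit 39) (nat_lit 5) (nat_lit 42) (nat_lit 5) (nat_lit 40) (nat_lit 4) (nat_lit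 336) (nat_lit 288) (nat_lit 276)))))) (XT.nd (nat_lit 468) (nat_lit 532) (nat_lit 0) (XT.nd (nat_lit 234) (nat_lit 380) (nat_lit 0) (XT.nd (nat_lit 78) (nat_lit 228) (nat_lit 0) (XT.lf (nat_lit 0) (nat_lit 7175271920) (nat_lit 152) (nat_lit 870922525) (nat_lit 228) (nat_lit 3263249701) (nat_lit 37) (nat_lit 5) (nat_lit 39) (nat_lit 5) (nat_lit 40) (nat_lit 4) (nat_lit 337) (nat_lit 288) (nat_lit 275)) (XT.nd (nat_lit 78) (nat_lit 0) (nat_lit 0) (XT.lf (nat_lit 0) (nat_lit 470445063) (nat_lit 228) (nat_lit 8388452375) (nat_lit 76) (nat_lit 2780855629) (nat_lit 34) (nat_lit 5) (nat_lit 37) (nat_lit 5) (nat_lit 35) (nat_lit 4) (nat_lit 338) (nat_lit 288) (nat_lit 274)) (XT.lf (nat_lit 0) (nat_lit 4250633379) (nat_lit 228) (nat_lit 1093561839) (nat_lit 76) (nat_lit 6641318072) (nat_lit 34) (nat_lit 5) (nat_lit 37) (nat_lit 5) (nat_lit 35) (nat_lit 4) (nat_lit 339) (nat_lit 288) (nat_lit 273))))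 (XT.nd (nat_lit 78) (nat_lit 228) (nat_lit 0) (XT.lf (nat_lit 0) (nat_lit 6595119758) (nat_lit 152) (nat_lit 1617237749) (nat_lit 228) (nat_lit 4136658096) (nat_lit 32) (nat_lit 5) (nat_lit 34) (nat_lit 5) (nat_lit 35) (nat_lit 4) (nat_lit 340) (nat_lit 288) (nat_lit 272)) (XT.nd (nat_lit 78) (nat_lit 76) (nat_lit 0) (XT.lf (nat_lit 0) (nat_lit 1814903520) (nat_lit 152) (nat_lit 10531182218) (nat_lit 152) (nat_lit 385987971) (nat_lit 30) (nat_lit 4) (nat_lit 32) (nat_lit 5) (nat_lit 32) (nat_lit 4) (nat_lit 341) (nat_lit 288) (nat_lit 271)) (XT.lf (nat_lit 0) (nat_lit 3455544159) (nat_lit 228) (nat_lit 3435243300) (nat_lit 76) (nat_lit 6239942632) (nat_lit 29) (nat_lit 5) (nat_lit 32) (nat_lit 5) (nat_lit 30) (nat_lit 4) (nat_lit 342) (nat_lit 288) (nat_lit 270))))) (XT.nd (nat_lit 234) (nat_lit 228) (nat_lit 0) (XT.nd (nat_lit 78) (nat_lit 228) (nat_lit 0) (XT.lf (nat_lit 0) (nat_lit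 4379218055) (nat_lit 76) (nat_lit 3061970241) (nat_lit 152) (nat_lit 6109630403) (nat_lit 28) (nat_lit 5) (nat_lit 29) (nat_lit 5) (nat_lit 30) (nat_lit 4) (nat_lit 343) (nat_lit 288) (nat_lit 269)) (XT.nd (nat_lit 78) (nat_lit 228) (nat_lit 0) (XT.lf (nat_lit 0) (nat_lit 11597955329) (nat_lit 152) (nat_lit 1477823944) (nat_lit 0) (nat_lit 917603424) (nat_lit 28) (nat_lit 5) (nat_lit 30) (nat_lit 4) (nat_lit 28) (nat_lit 4) (nat_lit 344) (nat_lit 288) (nat_lit 268)) (XT.lf (nat_lit 0) (nat_lit 1512942084) (nat_lit 228) (nat_lit 7886441081) (nat_lit 76) (nat_lit 5054743946) (nat_lit 25) (nat_lit 5) (nat_lit 28) (nat_lit 5) (nat_lit 26) (nat_lit 4) (nat_lit 345) (nat_lit 288) (nat_lit 267)))) (XT.nd (nat_lit 78) (nat_lit 228) (nat_lit 0) (XT.lf (nat_lit 0) (nat_lit 5464718980) (nat_lit 228) (nat_lit 78270303) (nat_lit 76) (nat_lit 9396585865) (nat_lit 25) (nat_lit 5) (nat_lit 28) (nat_lit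 5) (nat_lit 26) (nat_lit 4) (nat_lit 346) (nat_lit 288) (nat_lit 266)) (XT.nd (nat_lit 78) (nat_lit 152) (nat_lit 0) (XT.lf (nat_lit 0) (nat_lit 8222812692) (nat_lit 76) (nat_lit 1427322782) (nat_lit 152) (nat_lit 5797409401) (nat_lit 24) (nat_lit 5) (nat_lit 25) (nat_lit 5) (nat_lit 26) (nat_lit 4) (nat_lit 347) (nat_lit 288) (nat_lit 265)) (XT.lf (nat_lit 0) (nat_lit 778945534) (nat_lit 152) (nat_lit 13233112872) (nat_lit 152) (nat_lit 1970542260) (nat_lit 22) (nat_lit 4) (nat_lit 24) (nat_lit 5) (nat_lit 24) (nat_lit 4) (nat_lit 348) (nat_lit 288) (nat_lit 264))))))))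
noncomputable def xc69 : XT := (XT.nd (nat_lit 1794) (nat_lit 456) (nat_lit 0) (XT.nd (nat_lit 858) (nat_lit 380) (nat_lit 0) (XT.nd (nat_lit 390) (nat_lit 228) (nat_lit 0) (XT.nd (nat_lit 156) (nat_lit 152) (nat_lit 0) (XT.nd (nat_lit 78) (nat_lit 76) (nat_lit 0) (XT.lf (nat_lit 0) (nat_lit 2038789058) (nat_lit 228) (nat_lit 7324081715) (nat_lit 76) (nat_lit 7177151803) (nat_lit 21) (nat_lit 5) (nat_lit 24) (nat_lit 5) (nat_lit 22) (nat_lit 4) (nat_lit 349) (nat_lit 288) (nat_lit 263)) (XT.lf (nat_lit 0) (nat_lit 788056436) (nat_lit 76) (nat_lit 5319849338) (nat_lit 152) (nat_lit 11019560147) (nat_lit 20) (nat_lit 5) (nat_lit 21) (nat_lit 5) (nat_lit 22) (nat_lit 4) (nat_lit 350) (nat_lit 288) (nat_lit 262))) (XT.nd (nat_lit 78) (nat_lit 152) (nat_lit 0) (XT.lf (nat_lit 0) (nat_lit 9408233619) (nat_lit 76) (nat_lit 1011280592) (nat_lit 152) (nat_lit 7322856036) (nat_lit 20) (nat_lit 5)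 (nat_lit 21) (nat_lit 5) (nat_lit 22) (nat_lit 4) (nat_lit 351) (nat_lit 288) (nat_lit 261)) (XT.nd (nat_lit 78) (nat_lit 152) (nat_lit 0) (XT.lf (nat_lit 0) (nat_lit 14919599198) (nat_lit 152) (nat_lit 131148731) (nat_lit 0) (nat_lit 3338665727) (nat_lit 20) (nat_lit 5) (nat_lit 22) (nat_lit 4) (nat_lit 20) (nat_lit 4) (nat_lit 352) (nat_lit 288) (nat_lit 260)) (XT.lf (nat_lit 0) (nat_lit 631408685) (nat_lit 152) (nat_lit 10475397937) (nat_lit 76) (nat_lit 7957890077) (nat_lit 18) (nat_lit 5) (nat_lit 20) (nat_lit 5) (nat_lit 19) (nat_lit 4) (nat_lit 353) (nat_lit 288) (nat_lit 259))))) (XT.nd (nat_lit 234) (nat_lit 152) (nat_lit 0) (XT.nd (nat_lit 78) (nat_lit 76) (nat_lit 0) (XT.lf (nat_lit 0) (nat_lit 4745564665) (nat_lit 152) (nat_lit 2221237485) (nat_lit 76) (nat_lit 12807907032) (nat_lit 18) (nat_lit 5) (nat_lit 20) (nat_lit 5) (nat_lit 19) (nat_lit 4) (nat_lit 354) (nat_lit 288)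 (nat_lit 258)) (XT.nd (nat_lit 78) (nat_lit 0) (nat_lit 0) (XT.lf (nat_lit 0) (nat_lit 6520019133) (nat_lit 76) (nat_lit 2573131481) (nat_lit 152) (nat_lit 11425717383) (nat_lit 17) (nat_lit 5) (nat_lit 18) (nat_lit 5) (nat_lit 19) (nat_lit 4) (nat_lit 355) (nat_lit 288) (nat_lit 257)) (XT.lf (nat_lit 0) (nat_lit 13654665467) (nat_lit 152) (nat_lit 5690227897) (nat_lit 0) (nat_lit 1955544210) (nat_lit 17) (nat_lit 5) (nat_lit 19) (nat_lit 4) (nat_lit 17) (nat_lit 4) (nat_lit 356) (nat_lit 288) (nat_lit 256)))) (XT.nd (nat_lit 78) (nat_lit 76) (nat_lit 0) (XT.lf (nat_lit 0) (nat_lit 2957875271) (nat_lit 76) (nat_lit 15504707421) (nat_lit 76) (nat_lit 3657615467) (nat_lit 16) (nat_lit 4) (nat_lit 17) (nat_lit 5) (nat_lit 17) (nat_lit 4) (nat_lit 357) (nat_lit 288) (nat_lit 255)) (XT.nd (nat_lit 78) (nat_lit 0) (nat_lit 0) (XT.lf (nat_lit 0) (nat_lit 541107041) (nat_lit 152) (nat_lit 10878746991)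 (nat_lit 76) (nat_lit 11559299231) (nat_lit 15) (nat_lit 5) (nat_lit 17) (nat_lit 5) (nat_lit 16) (nat_lit 4) (nat_lit 358) (nat_lit 288) (nat_lit 254)) (XT.lf (nat_lit 0) (nat_lit 4760344067) (nat_lit 152) (nat_lit 2363524872) (nat_lit 76) (nat_lit 16757539155) (nat_lit 15) (nat_lit 5) (nat_lit 17) (nat_lit 5) (nat_lit 16) (nat_lit 4) (nat_lit 359) (nat_lit 288) (nat_lit 253)))))) (XT.nd (nat_lit 468) (nat_lit 152) (nat_lit 0) (XT.nd (nat_lit 234) (nat_lit 152) (nat_lit 0) (XT.nd (nat_lit 78) (nat_lit 0) (nat_lit 0) (XT.lf (nat_lit 0) (nat_lit 6674344128) (nat_lit 76) (nat_lit 2557069037) (nat_lit 152) (nat_lit 15595342732) (nat_lit 14) (nat_lit 5) (nat_lit 15) (nat_lit 5) (nat_lit 16) (nat_lit 4) (nat_lit 360) (nat_lit 288) (nat_lit 252)) (XT.nd (nat_lit 78) (nat_lit 0) (nat_lit 0) (XT.lf (nat_lit 0) (nat_lit 13938726279) (nat_lit 152) (nat_lit 9723962541) (nat_lit 0) (nat_lit 2156070355)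 (nat_lit 14) (nat_lit 5) (nat_lit 16) (nat_lit 4) (nat_lit 14) (nat_lit 4) (nat_lit 361) (nat_lit 288) (nat_lit 251)) (XT.lf (nat_lit 0) (nat_lit 18863385523) (nat_lit 152) (nat_lit 1027588017) (nat_lit 0) (nat_lit 6970311587) (nat_lit 14) (nat_lit 5) (nat_lit 16) (nat_lit 4) (nat_lit 14) (nat_lit 4) (nat_lit 362) (nat_lit 288) (nat_lit 250)))) (XT.nd (nat_lit 78) (nat_lit 76) (nat_lit 0) (XT.lf (nat_lit 0) (nat_lit 8261768662) (nat_lit 76) (nat_lit 15844413964) (nat_lit 76) (nat_lit 3846180016) (nat_lit 13) (nat_lit 4) (nat_lit 14) (nat_lit 5) (nat_lit 14) (nat_lit 4) (nat_lit 363) (nat_lit 288) (nat_lit 249)) (XT.nd (nat_lit 78) (nat_lit 0) (nat_lit 0) (XT.lf (nat_lit 0) (nat_lit 457454914) (nat_lit 152) (nat_lit 11160603764) (nat_lit 76) (nat_lit 17481515761) (nat_lit 12) (nat_lit 5) (nat_lit 14) (nat_lit 5) (nat_lit 13) (nat_lit 4) (nat_lit 364) (nat_lit 288) (nat_lit 248)) (XT.lf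 (nat_lit 0) (nat_lit 4792790528) (nat_lit 152) (nat_lit 2368548987) (nat_lit 76) (nat_lit 23142383632) (nat_lit 12) (nat_lit 5) (nat_lit 14) (nat_lit 5) (nat_lit 13) (nat_lit 4) (nat_lit 365) (nat_lit 288) (nat_lit 247))))) (XT.nd (nat_lit 234) (nat_lit 76) (nat_lit 0) (XT.nd (nat_lit 78) (nat_lit 0) (nat_lit 0) (XT.lf (nat_lit 0) (nat_lit 6990286278) (nat_lit 76) (nat_lit 2412102512) (nat_lit 152) (nat_lit 22162832580) (nat_lit 11) (nat_lit 5) (nat_lit 12) (nat_lit 5) (nat_lit 13) (nat_lit 4) (nat_lit 366) (nat_lit 288) (nat_lit 246)) (XT.nd (nat_lit 78) (nat_lit 0) (nat_lit 0) (XT.lf (nat_lit 0) (nat_lit 14272075470) (nat_lit 152) (nat_lit 16126204106) (nat_lit 0) (nat_lit 2490050571) (nat_lit 11) (nat_lit 5) (nat_lit 13) (nat_lit 4) (nat_lit 11) (nat_lit 4) (nat_lit 367) (nat_lit 288) (nat_lit 245)) (XT.lf (nat_lit 0) (nat_lit 19375876516) (nat_lit 152) (nat_lit 7386822055) (nat_lit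 0) (nat_lit 7515379597) (nat_lit 11) (nat_lit 5) (nat_lit 13) (nat_lit 4) (nat_lit 11) (nat_lit 4) (nat_lit 368) (nat_lit 288) (nat_lit 244)))) (XT.nd (nat_lit 78) (nat_lit 0) (nat_lit 0) (XT.lf (nat_lit 0) (nat_lit 1757943979) (nat_lit 76) (nat_lit 22957786607) (nat_lit 76) (nat_lit 11022554431) (nat_lit 10) (nat_lit 4) (nat_lit 11) (nat_lit 5) (nat_lit 11) (nat_lit 4) (nat_lit 369) (nat_lit 288) (nat_lit 243)) (XT.nd (nat_lit 78) (nat_lit 0) (nat_lit 0) (XT.lf (nat_lit 0) (nat_lit 11529968732) (nat_lit 76) (nat_lit 18871993365) (nat_lit 76) (nat_lit 6865584755) (nat_lit 10) (nat_lit 4) (nat_lit 11) (nat_lit 5) (nat_lit 11) (nat_lit 4) (nat_lit 370) (nat_lit 288) (nat_lit 242)) (XT.lf (nat_lit 0) (nat_lit 21708277234) (nat_lit 76) (nat_lit 14620690174) (nat_lit 76) (nat_lit 2546494482) (nat_lit 10) (nat_lit 4) (nat_lit 11) (nat_lit 5) (nat_lit 11) (nat_lit 4) (nat_lit 371) (nat_lit 288)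 (nat_lit 241))))))) (XT.nd (nat_lit 858) (nat_lit 228) (nat_lit 0) (XT.nd (nat_lit 390) (nat_lit 76) (nat_lit 0) (XT.nd (nat_lit 156) (nat_lit 0) (nat_lit 0) (XT.nd (nat_lit 78) (nat_lit 76) (nat_lit 0) (XT.lf (nat_lit 0) (nat_lit 1882747790) (nat_lit 152) (nat_lit 8279121846) (nat_lit 76) (nat_lit 30402470515) (nat_lit 9) (nat_lit 5) (nat_lit 11) (nat_lit 5) (nat_lit 10) (nat_lit 4) (nat_lit 372) (nat_lit 288) (nat_lit 240)) (XT.lf (nat_lit 0) (nat_lit 966529967) (nat_lit 76) (nat_lit 5456284502) (nat_lit 152) (nat_lit 35914024927) (nat_lit 8) (nat_lit 5) (nat_lit 9) (nat_lit 5) (nat_lit 10) (nat_lit 4) (nat_lit 373) (nat_lit 288) (nat_lit 239))) (XT.nd (nat_lit 78) (nat_lit 0) (nat_lit 0) (XT.lf (nat_lit 0) (nat_lit 10887119330) (nat_lit 76) (nat_lit 403571429) (nat_lit 152) (nat_lit 32902243408) (nat_lit 8) (nat_lit 5) (nat_lit 9) (nat_lit 5) (nat_lit 10) (nat_lit 4) (nat_lit 374) (nat_lit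 288) (nat_lit 238)) (XT.nd (nat_lit 78) (nat_lit 0) (nat_lit 0) (XT.lf (nat_lit 0) (nat_lit 16440437125) (nat_lit 152) (nat_lit 24987203425) (nat_lit 0) (nat_lit 4712279671) (nat_lit 8) (nat_lit 5) (nat_lit 10) (nat_lit 4) (nat_lit 8) (nat_lit 4) (nat_lit 375) (nat_lit 288) (nat_lit 237)) (XT.lf (nat_lit 0) (nat_lit 21818044621) (nat_lit 152) (nat_lit 16328398728) (nat_lit 0) (nat_lit 10039303404) (nat_lit 8) (nat_lit 5) (nat_lit 10) (nat_lit 4) (nat_lit 8) (nat_lit 4) (nat_lit 376) (nat_lit 288) (nat_lit 236))))) (XT.nd (nat_lit 234) (nat_lit 0) (nat_lit 0) (XT.nd (nat_lit 78) (nat_lit 76) (nat_lit 0) (XT.lf (nat_lit 0) (nat_lit 27430016194) (nat_lit 152) (nat_lit 7302483664) (nat_lit 0) (nat_lit 15603099964) (nat_lit 8) (nat_lit 5) (nat_lit 10) (nat_lit 4) (nat_lit 8) (nat_lit 4) (nat_lit 377) (nat_lit 288) (nat_lit 235)) (XT.nd (nat_lit 78) (nat_lit 0) (nat_lit 0) (XT.lf (nat_lit 0)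 (nat_lit 2181865359) (nat_lit 76) (nat_lit 31141913355) (nat_lit 76) (nat_lit 19269116160) (nat_lit 7) (nat_lit 4) (nat_lit 8) (nat_lit 5) (nat_lit 8) (nat_lit 4) (nat_lit 378) (nat_lit 288) (nat_lit 234)) (XT.lf (nat_lit 0) (nat_lit 12332273677) (nat_lit 76) (nat_lit 27271356420) (nat_lit 76) (nat_lit 15354863068) (nat_lit 7) (nat_lit 4) (nat_lit 8) (nat_lit 5) (nat_lit 8) (nat_lit 4) (nat_lit 379) (nat_lit 288) (nat_lit 233)))) (XT.nd (nat_lit 78) (nat_lit 0) (nat_lit 0) (XT.lf (nat_lit 0) (nat_lit 22931455840) (nat_lit 76) (nat_lit 23235284535) (nat_lit 76) (nat_lit 11277175796) (nat_lit 7) (nat_lit 4) (nat_lit 8) (nat_lit 5) (nat_lit 8) (nat_lit 4) (nat_lit 380) (nat_lit 288) (nat_lit 232)) (XT.nd (nat_lit 78) (nat_lit 0) (nat_lit 0) (XT.lf (nat_lit 0) (nat_lit 34004647994) (nat_lit 76) (nat_lit 19024088005) (nat_lit 76) (nat_lit 7026345564) (nat_lit 7) (nat_lit 4) (nat_lit 8) (nat_lit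 5) (nat_lit 8) (nat_lit 4) (nat_lit 381) (nat_lit 288) (nat_lit 231)) (XT.lf (nat_lit 0) (nat_lit 45578214884) (nat_lit 76) (nat_lit 14627740173) (nat_lit 76) (nat_lit 2592251348) (nat_lit 7) (nat_lit 4) (nat_lit 8) (nat_lit 5) (nat_lit 8) (nat_lit 4) (nat_lit 382) (nat_lit 288) (nat_lit 230)))))) (XT.nd (nat_lit 468) (nat_lit 76) (nat_lit 0) (XT.nd (nat_lit 234) (nat_lit 0) (nat_lit 0) (XT.nd (nat_lit 78) (nat_lit 76) (nat_lit 0) (XT.lf (nat_lit 0) (nat_lit 1970510250) (nat_lit 152) (nat_lit 8031891748) (nat_lit 76) (nat_lit 55675830827) (nat_lit 6) (nat_lit 5) (nat_lit 8) (nat_lit 5) (nat_lit 7) (nat_lit 4) (nat_lit 383) (nat_lit 288) (nat_lit 229)) (XT.nd (nat_lit 78) (nat_lit 0) (nat_lit 0) (XT.lf (nat_lit 0) (nat_lit 1574317838) (nat_lit 76) (nat_lit 5098849323) (nat_lit 152) (nat_lit 62027031273) (nat_lit 5) (nat_lit 5) (nat_lit 6) (nat_lit 5) (nat_lit 7) (nat_lit 4) (nat_lit 384)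 (nat_lit 288) (nat_lit 228)) (XT.lf (nat_lit 0) (nat_lit 11724390910) (nat_lit 152) (nat_lit 59979083040) (nat_lit 0) (nat_lit 164122731) (nat_lit 5) (nat_lit 5) (nat_lit 7) (nat_lit 4) (nat_lit 5) (nat_lit 4) (nat_lit 385) (nat_lit 288) (nat_lit 227)))) (XT.nd (nat_lit 78) (nat_lit 0) (nat_lit 0) (XT.lf (nat_lit 0) (nat_lit 17087383858) (nat_lit 152) (nat_lit 52605485950) (nat_lit 0) (nat_lit 5497540400) (nat_lit 5) (nat_lit 5) (nat_lit 7) (nat_lit 4) (nat_lit 5) (nat_lit 4) (nat_lit 386) (nat_lit 288) (nat_lit 226)) (XT.nd (nat_lit 78) (nat_lit 0) (nat_lit 0) (XT.lf (nat_lit 0) (nat_lit 22695307710) (nat_lit 152) (nat_lit 44907925812) (nat_lit 0) (nat_lit 11077297319) (nat_lit 5) (nat_lit 5) (nat_lit 7) (nat_lit 4) (nat_lit 5) (nat_lit 4) (nat_lit 387) (nat_lit 288) (nat_lit 225)) (XT.lf (nat_lit 0) (nat_lit 28561514665) (nat_lit 152) (nat_lit 36868075105) (nat_lit 0) (nat_lit 16916678624)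 (nat_lit 5) (nat_lit 5) (nat_lit 7) (nat_lit 4) (nat_lit 5) (nat_lit 4) (nat_lit 388) (nat_lit 288) (nat_lit 224))))) (XT.nd (nat_lit 234) (nat_lit 76) (nat_lit 0) (XT.nd (nat_lit 78) (nat_lit 0) (nat_lit 0) (XT.lf (nat_lit 0) (nat_lit 34699971882) (nat_lit 152) (nat_lit 28466791325) (nat_lit 0) (nat_lit 23029587603) (nat_lit 5) (nat_lit 5) (nat_lit 7) (nat_lit 4) (nat_lit 5) (nat_lit 4) (nat_lit 389) (nat_lit 288) (nat_lit 223)) (XT.nd (nat_lit 78) (nat_lit 0) (nat_lit 0) (XT.lf (nat_lit 0) (nat_lit 41125294736) (nat_lit 152) (nat_lit 19684071417) (nat_lit 0) (nat_lit 29430578802) (nat_lit 5) (nat_lit 5) (nat_lit 7) (nat_lit 4) (nat_lit 5) (nat_lit 4) (nat_lit 390) (nat_lit 288) (nat_lit 222)) (XT.lf (nat_lit 0) (nat_lit 47852781614) (nat_lit 152) (nat_lit 10499004142) (nat_lit 0) (nat_lit 36134892675) (nat_lit 5) (nat_lit 5) (nat_lit 7) (nat_lit 4) (nat_lit 5) (nat_lit 4) (nat_lit 391)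 (nat_lit 288) (nat_lit 221)))) (XT.nd (nat_lit 78) (nat_lit 76) (nat_lit 0) (XT.lf (nat_lit 0) (nat_lit 54898450342) (nat_lit 152) (nat_lit 889720293) (nat_lit 0) (nat_lit 43158491875) (nat_lit 5) (nat_lit 5) (nat_lit 7) (nat_lit 4) (nat_lit 5) (nat_lit 4) (nat_lit 392) (nat_lit 288) (nat_lit 220)) (XT.nd (nat_lit 78) (nat_lit 0) (nat_lit 0) (XT.lf (nat_lit 0) (nat_lit 9469750534) (nat_lit 76) (nat_lit 52957175133) (nat_lit 76) (nat_lit 41196198068) (nat_lit 4) (nat_lit 4) (nat_lit 5) (nat_lit 5) (nat_lit 5) (nat_lit 4) (nat_lit 393) (nat_lit 288) (nat_lit 219)) (XT.lf (nat_lit 0) (nat_lit 20345253811) (nat_lit 76) (nat_lit 49984625093) (nat_lit 76) (nat_lit 38203630314) (nat_lit 4) (nat_lit 4) (nat_lit 5) (nat_lit 5) (nat_lit 5) (nat_lit 4) (nat_lit 394) (nat_lit 288) (nat_lit 218))))))))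
noncomputable def xc70 : XT := (XT.nd (nat_lit 1794) (nat_lit 0) (nat_lit 0) (XT.nd (nat_lit 858) (nat_lit 76) (nat_lit 0) (XT.nd (nat_lit 390) (nat_lit 76) (nat_lit 0) (XT.nd (nat_lit 156) (nat_lit 0) (nat_lit 0) (XT.nd (nat_lit 78) (nat_lit 0) (nat_lit 0) (XT.lf (nat_lit 0) (nat_lit 31733265422) (nat_lit 76) (nat_lit 46878510857) (nat_lit 76) (nat_lit 35078451590) (nat_lit 4) (nat_lit 4) (nat_lit 5) (nat_lit 5) (nat_lit 5) (nat_lit 4) (nat_lit 395) (nat_lit 288) (nat_lit 217)) (XT.lf (nat_lit 0) (nat_lit 43660899681) (nat_lit 76) (nat_lit 43631436916) (nat_lit 76) (nat_lit 31813220993) (nat_lit 4) (nat_lit 4) (nat_lit 5) (nat_lit 5) (nat_lit 5) (nat_lit 4) (nat_lit 396) (nat_lit 288) (nat_lit 216))) (XT.nd (nat_lit 78) (nat_lit 0) (nat_lit 0) (XT.lf (nat_lit 0) (nat_lit 56156555716) (nat_lit 76) (nat_lit 40235672141) (nat_lit 76) (nat_lit 28400164166) (nat_lit 4) (nat_lit 4) (nat_lit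 5) (nat_lit 5) (nat_lit 5) (nat_lit 4) (nat_lit 397) (nat_lit 288) (nat_lit 215)) (XT.nd (nat_lit 78) (nat_lit 0) (nat_lit 0) (XT.lf (nat_lit 0) (nat_lit 69249985090) (nat_lit 76) (nat_lit 36683131379) (nat_lit 76) (nat_lit 24831154781) (nat_lit 4) (nat_lit 4) (nat_lit 5) (nat_lit 5) (nat_lit 5) (nat_lit 4) (nat_lit 398) (nat_lit 288) (nat_lit 214)) (XT.lf (nat_lit 0) (nat_lit 82972362634) (nat_lit 76) (nat_lit 32965356199) (nat_lit 76) (nat_lit 21097695199) (nat_lit 4) (nat_lit 4) (nat_lit 5) (nat_lit 5) (nat_lit 5) (nat_lit 4) (nat_lit 399) (nat_lit 288) (nat_lit 213))))) (XT.nd (nat_lit 234) (nat_lit 76) (nat_lit 0) (XT.nd (nat_lit 78) (nat_lit 0) (nat_lit 0) (XT.lf (nat_lit 0) (nat_lit 97356360676) (nat_lit 76) (nat_lit 29073494755) (nat_lit 76) (nat_lit 17190896230) (nat_lit 4) (nat_lit 4) (nat_lit 5) (nat_lit 5) (nat_lit 5) (nat_lit 4) (nat_lit 400) (nat_lit 288) (nat_lit 212)) (XT.nd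 (nat_lit 78) (nat_lit 0) (nat_lit 0) (XT.lf (nat_lit 0) (nat_lit 112436226830) (nat_lit 76) (nat_lit 24998280710) (nat_lit 76) (nat_lit 13101455970) (nat_lit 4) (nat_lit 4) (nat_lit 5) (nat_lit 5) (nat_lit 5) (nat_lit 4) (nat_lit 401) (nat_lit 288) (nat_lit 211)) (XT.lf (nat_lit 0) (nat_lit 128247865540) (nat_lit 76) (nat_lit 20730011175) (nat_lit 76) (nat_lit 8819637658) (nat_lit 4) (nat_lit 4) (nat_lit 5) (nat_lit 5) (nat_lit 5) (nat_lit 4) (nat_lit 402) (nat_lit 288) (nat_lit 210)))) (XT.nd (nat_lit 78) (nat_lit 76) (nat_lit 0) (XT.lf (nat_lit 0) (nat_lit 144828923564) (nat_lit 76) (nat_lit 16258523601) (nat_lit 76) (nat_lit 4335246489) (nat_lit 4) (nat_lit 4) (nat_lit 5) (nat_lit 5) (nat_lit 5) (nat_lit 4) (nat_lit 403) (nat_lit 288) (nat_lit 209)) (XT.nd (nat_lit 78) (nat_lit 0) (nat_lit 0) (XT.lf (nat_lit 0) (nat_lit 350795767) (nat_lit 152) (nat_lit 11216434927) (nat_lit 76) (nat_lit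 161862142948) (nat_lit 3) (nat_lit 5) (nat_lit 5) (nat_lit 5) (nat_lit 4) (nat_lit 4) (nat_lit 404) (nat_lit 288) (nat_lit 208)) (XT.lf (nat_lit 0) (nat_lit 5115334586) (nat_lit 152) (nat_lit 1460834292) (nat_lit 76) (nat_lit 175257173089) (nat_lit 3) (nat_lit 5) (nat_lit 5) (nat_lit 5) (nat_lit 4) (nat_lit 4) (nat_lit 405) (nat_lit 288) (nat_lit 207)))))) (XT.nd (nat_lit 468) (nat_lit 0) (nat_lit 0) (XT.nd (nat_lit 234) (nat_lit 0) (nat_lit 0) (XT.nd (nat_lit 78) (nat_lit 0) (nat_lit 0) (XT.lf (nat_lit 0) (nat_lit 9053720376) (nat_lit 76) (nat_lit 1196102639) (nat_lit 152) (nat_lit 180401101628) (nat_lit 2) (nat_lit 5) (nat_lit 3) (nat_lit 5) (nat_lit 4) (nat_lit 4) (nat_lit 406) (nat_lit 288) (nat_lit 206)) (XT.nd (nat_lit 78) (nat_lit 0) (nat_lit 0) (XT.lf (nat_lit 0) (nat_lit 15726108216) (nat_lit 152) (nat_lit 179851997067) (nat_lit 0) (nat_lit 4327029525) (nat_lit 2) (nat_lit 5)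 (nat_lit 4) (nat_lit 4) (nat_lit 2) (nat_lit 4) (nat_lit 407) (nat_lit 288) (nat_lit 205)) (XT.lf (nat_lit 0) (nat_lit 21486676440) (nat_lit 152) (nat_lit 178056888594) (nat_lit 0) (nat_lit 10077968887) (nat_lit 2) (nat_lit 5) (nat_lit 4) (nat_lit 4) (nat_lit 2) (nat_lit 4) (nat_lit 408) (nat_lit 288) (nat_lit 204)))) (XT.nd (nat_lit 78) (nat_lit 0) (nat_lit 0) (XT.lf (nat_lit 0) (nat_lit 27526568811) (nat_lit 152) (nat_lit 176188930267) (nat_lit 0) (nat_lit 16108690913) (nat_lit 2) (nat_lit 5) (nat_lit 4) (nat_lit 4) (nat_lit 2) (nat_lit 4) (nat_lit 409) (nat_lit 288) (nat_lit 203)) (XT.nd (nat_lit 78) (nat_lit 0) (nat_lit 0) (XT.lf (nat_lit 0) (nat_lit 33860166026) (nat_lit 152) (nat_lit 174243674566) (nat_lit 0) (nat_lit 22433554465) (nat_lit 2) (nat_lit 5) (nat_lit 4) (nat_lit 4) (nat_lit 2) (nat_lit 4) (nat_lit 410) (nat_lit 288) (nat_lit 202)) (XT.lf (nat_lit 0) (nat_lit 40502548077)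 (nat_lit 152) (nat_lit 172216489930) (nat_lit 0) (nat_lit 29067618743) (nat_lit 2) (nat_lit 5) (nat_lit 4) (nat_lit 4) (nat_lit 2) (nat_lit 4) (nat_lit 411) (nat_lit 288) (nat_lit 201))))) (XT.nd (nat_lit 234) (nat_lit 0) (nat_lit 0) (XT.nd (nat_lit 78) (nat_lit 0) (nat_lit 0) (XT.lf (nat_lit 0) (nat_lit 47469530160) (nat_lit 152) (nat_lit 170102549728) (nat_lit 0) (nat_lit 36026679137) (nat_lit 2) (nat_lit 5) (nat_lit 4) (nat_lit 4) (nat_lit 2) (nat_lit 4) (nat_lit 412) (nat_lit 288) (nat_lit 200)) (XT.nd (nat_lit 78) (nat_lit 0) (nat_lit 0) (XT.lf (nat_lit 0) (nat_lit 54777700327) (nat_lit 152) (nat_lit 167896820770) (nat_lit 0) (nat_lit 43327304839) (nat_lit 2) (nat_lit 5) (nat_lit 4) (nat_lit 4) (nat_lit 2) (nat_lit 4) (nat_lit 413) (nat_lit 288) (nat_lit 199)) (XT.lf (nat_lit 0) (nat_lit 62444458985) (nat_lit 152) (nat_lit 165594051321) (nat_lit 0) (nat_lit 50986878291) (nat_lit 2)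 (nat_lit 5) (nat_lit 4) (nat_lit 4) (nat_lit 2) (nat_lit 4) (nat_lit 414) (nat_lit 288) (nat_lit 198)))) (XT.nd (nat_lit 78) (nat_lit 0) (nat_lit 0) (XT.lf (nat_lit 0) (nat_lit 70488060319) (nat_lit 152) (nat_lit 163188758595) (nat_lit 0) (nat_lit 59023636573) (nat_lit 2) (nat_lit 5) (nat_lit 4) (nat_lit 4) (nat_lit 2) (nat_lit 4) (nat_lit 415) (nat_lit 288) (nat_lit 197)) (XT.nd (nat_lit 78) (nat_lit 0) (nat_lit 0) (XT.lf (nat_lit 0) (nat_lit 78927655762) (nat_lit 152) (nat_lit 160675215705) (nat_lit 0) (nat_lit 67456714823) (nat_lit 2) (nat_lit 5) (nat_lit 4) (nat_lit 4) (nat_lit 2) (nat_lit 4) (nat_lit 416) (nat_lit 288) (nat_lit 196)) (XT.lf (nat_lit 0) (nat_lit 87783339589) (nat_lit 152) (nat_lit 158047438026) (nat_lit 0) (nat_lit 76306191800) (nat_lit 2) (nat_lit 5) (nat_lit 4) (nat_lit 4) (nat_lit 2) (nat_lit 4) (nat_lit 417) (nat_lit 288) (nat_lit 195))))))) (XT.nd (nat_lit 858)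 (nat_lit 0) (nat_lit 0) (XT.nd (nat_lit 390) (nat_lit 0) (nat_lit 0) (XT.nd (nat_lit 156) (nat_lit 0) (nat_lit 0) (XT.nd (nat_lit 78) (nat_lit 0) (nat_lit 0) (XT.lf (nat_lit 0) (nat_lit 97076196761) (nat_lit 152) (nat_lit 155299168943) (nat_lit 0) (nat_lit 85593137685) (nat_lit 2) (nat_lit 5) (nat_lit 4) (nat_lit 4) (nat_lit 2) (nat_lit 4) (nat_lit 418) (nat_lit 288) (nat_lit 194)) (XT.lf (nat_lit 0) (nat_lit 106828353128) (nat_lit 152) (nat_lit 152423864960) (nat_lit 0) (nat_lit 95339664256) (nat_lit 2) (nat_lit 5) (nat_lit 4) (nat_lit 4) (nat_lit 2) (nat_lit 4) (nat_lit 419) (nat_lit 288) (nat_lit 193))) (XT.nd (nat_lit 78) (nat_lit 0) (nat_lit 0) (XT.lf (nat_lit 0) (nat_lit 117063028111) (nat_lit 152) (nat_lit 149414680113) (nat_lit 0) (nat_lit 105568977528) (nat_lit 2) (nat_lit 5) (nat_lit 4) (nat_lit 4) (nat_lit 2) (nat_lit 4) (nat_lit 420) (nat_lit 288) (nat_lit 192)) (XT.nd (nat_lit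 78) (nat_lit 0) (nat_lit 0) (XT.lf (nat_lit 0) (nat_lit 127804589983) (nat_lit 152) (nat_lit 146264449679) (nat_lit 0) (nat_lit 116305433009) (nat_lit 2) (nat_lit 5) (nat_lit 4) (nat_lit 4) (nat_lit 2) (nat_lit 4) (nat_lit 421) (nat_lit 288) (nat_lit 191)) (XT.lf (nat_lit 0) (nat_lit 139078613891) (nat_lit 152) (nat_lit 142965673106) (nat_lit 0) (nat_lit 127574593688) (nat_lit 2) (nat_lit 5) (nat_lit 4) (nat_lit 4) (nat_lit 2) (nat_lit 4) (nat_lit 422) (nat_lit 288) (nat_lit 190))))) (XT.nd (nat_lit 234) (nat_lit 0) (nat_lit 0) (XT.nd (nat_lit 78) (nat_lit 0) (nat_lit 0) (XT.lf (nat_lit 0) (nat_lit 150911942750) (nat_lit 152) (nat_lit 139510496167) (nat_lit 0) (nat_lit 139403290900) (nat_lit 2) (nat_lit 5) (nat_lit 4) (nat_lit 4) (nat_lit 2) (nat_lit 4) (nat_lit 423) (nat_lit 288) (nat_lit 189)) (XT.nd (nat_lit 78) (nat_lit 0) (nat_lit 0) (XT.lf (nat_lit 0) (nat_lit 163332751153) (nat_lit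 152) (nat_lit 135890692248) (nat_lit 0) (nat_lit 151819688210) (nat_lit 2) (nat_lit 5) (nat_lit 4) (nat_lit 4) (nat_lit 2) (nat_lit 4) (nat_lit 424) (nat_lit 288) (nat_lit 188)) (XT.lf (nat_lit 0) (nat_lit 176370612452) (nat_lit 152) (nat_lit 132097642770) (nat_lit 0) (nat_lit 164853348468) (nat_lit 2) (nat_lit 5) (nat_lit 4) (nat_lit 4) (nat_lit 2) (nat_lit 4) (nat_lit 425) (nat_lit 288) (nat_lit 187)))) (XT.nd (nat_lit 78) (nat_lit 0) (nat_lit 0) (XT.lf (nat_lit 0) (nat_lit 190056569174) (nat_lit 152) (nat_lit 128122316662) (nat_lit 0) (nat_lit 178535304199) (nat_lit 2) (nat_lit 5) (nat_lit 4) (nat_lit 4) (nat_lit 2) (nat_lit 4) (nat_lit 426) (nat_lit 288) (nat_lit 186)) (XT.nd (nat_lit 78) (nat_lit 0) (nat_lit 0) (XT.lf (nat_lit 0) (nat_lit 204423206930) (nat_lit 152) (nat_lit 123955248861) (nat_lit 0) (nat_lit 192898131488) (nat_lit 2) (nat_lit 5) (nat_lit 4) (nat_lit 4) (nat_lit 2)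 (nat_lit 4) (nat_lit 427) (nat_lit 288) (nat_lit 185)) (XT.lf (nat_lit 0) (nat_lit 219504732002) (nat_lit 152) (nat_lit 119586517779) (nat_lit 0) (nat_lit 207976027543) (nat_lit 2) (nat_lit 5) (nat_lit 4) (nat_lit 4) (nat_lit 2) (nat_lit 4) (nat_lit 428) (nat_lit 288) (nat_lit 184)))))) (XT.nd (nat_lit 38532) (nat_lit 0) (nat_lit 4180) (XT.nd (nat_lit 234) (nat_lit 0) (nat_lit 0) (XT.nd (nat_lit 78) (nat_lit 0) (nat_lit 0) (XT.lf (nat_lit 0) (nat_lit 235337052782) (nat_lit 152) (nat_lit 115005721673) (nat_lit 0) (nat_lit 223804892116) (nat_lit 2) (nat_lit 5) (nat_lit 4) (nat_lit 4) (nat_lit 2) (nat_lit 4) (nat_lit 429) (nat_lit 288) (nat_lit 183)) (XT.nd (nat_lit 78) (nat_lit 0) (nat_lit 0) (XT.lf (nat_lit 0) (nat_lit 251957865271) (nat_lit 152) (nat_lit 110201953888) (nat_lit 0) (nat_lit 240422412980) (nat_lit 2) (nat_lit 5) (nat_lit 4) (nat_lit 4) (nat_lit 2) (nat_lit 4) (nat_lit 430)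 (nat_lit 288) (nat_lit 182)) (XT.lf (nat_lit 0) (nat_lit 269406742834) (nat_lit 152) (nat_lit 105163776880) (nat_lit 0) (nat_lit 257868155661) (nat_lit 2) (nat_lit 5) (nat_lit 4) (nat_lit 4) (nat_lit 2) (nat_lit 4) (nat_lit 431) (nat_lit 288) (nat_lit 181)))) (XT.nd (nat_lit 78) (nat_lit 0) (nat_lit 0) (XT.lf (nat_lit 0) (nat_lit 287725230416) (nat_lit 152) (nat_lit 99879194989) (nat_lit 0) (nat_lit 276183657642) (nat_lit 2) (nat_lit 5) (nat_lit 4) (nat_lit 4) (nat_lit 2) (nat_lit 4) (nat_lit 432) (nat_lit 288) (nat_lit 180)) (XT.nd (nat_lit 78) (nat_lit 0) (nat_lit 0) (XT.lf (nat_lit 0) (nat_lit 306956943464) (nat_lit 152) (nat_lit 94335625879) (nat_lit 0) (nat_lit 295412527261) (nat_lit 2) (nat_lit 5) (nat_lit 4) (nat_lit 4) (nat_lit 2) (nat_lit 4) (nat_lit 433) (nat_lit 288) (nat_lit 179)) (XT.lf (nat_lit 0) (nat_lit 327147671772) (nat_lit 152) (nat_lit 88519870575) (nat_lit 0) (nat_lit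 315600547540) (nat_lit 2) (nat_lit 5) (nat_lit 4) (nat_lit 4) (nat_lit 2) (nat_lit 4) (nat_lit 434) (nat_lit 288) (nat_lit 178))))) (XT.nd (nat_lit 234) (nat_lit 684) (nat_lit 0) (XT.nd (nat_lit 78) (nat_lit 684) (nat_lit 0) (XT.lf (nat_lit 0) (nat_lit 3595025090) (nat_lit 304) (nat_lit 191736184) (nat_lit 304) (nat_lit 191736184) (nat_lit 75) (nat_lit 4) (nat_lit 79) (nat_lit 5) (nat_lit 79) (nat_lit 4) (nat_lit 322) (nat_lit 289) (nat_lit 289)) (XT.nd (nat_lit 78) (nat_lit 304) (nat_lit 0) (XT.lf (nat_lit 0) (nat_lit 3223131278) (nat_lit 380) (nat_lit 2863740351) (nat_lit 0) (nat_lit 2017219384) (nat_lit 70) (nat_lit 5) (nat_lit 75) (nat_lit 4) (nat_lit 70) (nat_lit 4) (nat_lit 323) (nat_lit 289) (nat_lit 288)) (XT.lf (nat_lit 0) (nat_lit 3207902135) (nat_lit 304) (nat_lit 3704591535) (nat_lit 304) (nat_lit 1350192123) (nat_lit 66) (nat_lit 4) (nat_lit 70) (nat_lit 5) (nat_lit 70) (nat_lit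 4) (nat_lit 324) (nat_lit 289) (nat_lit 287)))) (XT.nd (nat_lit 78) (nat_lit 380) (nat_lit 0) (XT.lf (nat_lit 0) (nat_lit 1051033028) (nat_lit 228) (nat_lit 1143713350) (nat_lit 304) (nat_lit 6237173300) (nat_lit 62) (nat_lit 5) (nat_lit 65) (nat_lit 5) (nat_lit 66) (nat_lit 4) (nat_lit 325) (nat_lit 289) (nat_lit 286)) (XT.nd (nat_lit 78) (nat_lit 380) (nat_lit 0) (XT.lf (nat_lit 0) (nat_lit 5833479000) (nat_lit 304) (nat_lit 1219751798) (nat_lit 0) (nat_lit 1557375111) (nat_lit 62) (nat_lit 5) (nat_lit 66) (nat_lit 4) (nat_lit 62) (nat_lit 4) (nat_lit 326) (nat_lit 289) (nat_lit 285)) (XT.lf (nat_lit 0) (nat_lit 785527917) (nat_lit 380) (nat_lit 3610635181) (nat_lit 76) (nat_lit 4403720644) (nat_lit 57) (nat_lit 5) (nat_lit 62) (nat_lit 5) (nat_lit 58) (nat_lit 4) (nat_lit 327) (nat_lit 289) (nat_lit 284))))))))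
noncomputable def xc71 : XT := (XT.nd (nat_lit 1794) (nat_lit 912) (nat_lit 0) (XT.nd (nat_lit 858) (nat_lit 988) (nat_lit 0) (XT.nd (nat_lit 390) (nat_lit 836) (nat_lit 0) (XT.nd (nat_lit 156) (nat_lit 456) (nat_lit 0) (XT.nd (nat_lit 78) (nat_lit 228) (nat_lit 0) (XT.lf (nat_lit 0) (nat_lit 2811230320) (nat_lit 228) (nat_lit 1545875901) (nat_lit 304) (nat_lit 4643204036) (nat_lit 54) (nat_lit 5) (nat_lit 57) (nat_lit 5) (nat_lit 58) (nat_lit 4) (nat_lit 328) (nat_lit 289) (nat_lit 283)) (XT.lf (nat_lit 0) (nat_lit 257174275) (nat_lit 228) (nat_lit 7800890288) (nat_lit 228) (nat_lit 1155312665) (nat_lit 51) (nat_lit 4) (nat_lit 54) (nat_lit 5) (nat_lit 54) (nat_lit 4) (nat_lit 329) (nat_lit 289) (nat_lit 282))) (XT.nd (nat_lit 78) (nat_lit 380) (nat_lit 0) (XT.lf (nat_lit 0) (nat_lit 2421812061) (nat_lit 304) (nat_lit 2458204455) (nat_lit 76) (nat_lit 4555514496) (nat_lit 50) (nat_lit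 5) (nat_lit 54) (nat_lit 5) (nat_lit 51) (nat_lit 4) (nat_lit 330) (nat_lit 289) (nat_lit 281)) (XT.nd (nat_lit 78) (nat_lit 228) (nat_lit 0) (XT.lf (nat_lit 0) (nat_lit 4291924369) (nat_lit 152) (nat_lit 1783767750) (nat_lit 228) (nat_lit 3595454640) (nat_lit 48) (nat_lit 5) (nat_lit 50) (nat_lit 5) (nat_lit 51) (nat_lit 4) (nat_lit 331) (nat_lit 289) (nat_lit 280)) (XT.lf (nat_lit 0) (nat_lit 1375223411) (nat_lit 228) (nat_lit 8495765072) (nat_lit 228) (nat_lit 49749658) (nat_lit 45) (nat_lit 4) (nat_lit 48) (nat_lit 5) (nat_lit 48) (nat_lit 4) (nat_lit 332) (nat_lit 289) (nat_lit 279))))) (XT.nd (nat_lit 234) (nat_lit 380) (nat_lit 0) (XT.nd (nat_lit 78) (nat_lit 380) (nat_lit 0) (XT.lf (nat_lit 0) (nat_lit 3550490320) (nat_lit 304) (nat_lit 1807031080) (nat_lit 76) (nat_lit 4822798182) (nat_lit 44) (nat_lit 5) (nat_lit 48) (nat_lit 5) (nat_lit 45) (nat_lit 4) (nat_lit 333) (nat_lit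 289) (nat_lit 278)) (XT.nd (nat_lit 78) (nat_lit 228) (nat_lit 0) (XT.lf (nat_lit 0) (nat_lit 5250035271) (nat_lit 152) (nat_lit 2040032515) (nat_lit 228) (nat_lit 3164834794) (nat_lit 42) (nat_lit 5) (nat_lit 44) (nat_lit 5) (nat_lit 45) (nat_lit 4) (nat_lit 334) (nat_lit 289) (nat_lit 277)) (XT.lf (nat_lit 0) (nat_lit 420675089) (nat_lit 228) (nat_lit 8923014095) (nat_lit 76) (nat_lit 1401137703) (nat_lit 39) (nat_lit 5) (nat_lit 42) (nat_lit 5) (nat_lit 40) (nat_lit 4) (nat_lit 335) (nat_lit 289) (nat_lit 276)))) (XT.nd (nat_lit 78) (nat_lit 380) (nat_lit 0) (XT.lf (nat_lit 0) (nat_lit 4083852088) (nat_lit 228) (nat_lit 1939636612) (nat_lit 76) (nat_lit 5023024770) (nat_lit 39) (nat_lit 5) (nat_lit 42) (nat_lit 5) (nat_lit 40) (nat_lit 4) (nat_lit 336) (nat_lit 289) (nat_lit 275)) (XT.nd (nat_lit 78) (nat_lit 228) (nat_lit 0) (XT.lf (nat_lit 0) (nat_lit 5385710924) (nat_lit 152) (nat_lit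 2515911328) (nat_lit 228) (nat_lit 3463183488) (nat_lit 37) (nat_lit 5) (nat_lit 39) (nat_lit 5) (nat_lit 40) (nat_lit 4) (nat_lit 337) (nat_lit 289) (nat_lit 274)) (XT.lf (nat_lit 0) (nat_lit 164415084) (nat_lit 228) (nat_lit 10415172867) (nat_lit 76) (nat_lit 1121348733) (nat_lit 34) (nat_lit 5) (nat_lit 37) (nat_lit 5) (nat_lit 35) (nat_lit 4) (nat_lit 338) (nat_lit 289) (nat_lit 273)))))) (XT.nd (nat_lit 468) (nat_lit 532) (nat_lit 0) (XT.nd (nat_lit 234) (nat_lit 304) (nat_lit 0) (XT.nd (nat_lit 78) (nat_lit 152) (nat_lit 0) (XT.lf (nat_lit 0) (nat_lit 3890729300) (nat_lit 228) (nat_lit 3209081591) (nat_lit 76) (nat_lit 4949618940) (nat_lit 34) (nat_lit 5) (nat_lit 37) (nat_lit 5) (nat_lit 35) (nat_lit 4) (nat_lit 339) (nat_lit 289) (nat_lit 272)) (XT.nd (nat_lit 78) (nat_lit 0) (nat_lit 0) (XT.lf (nat_lit 0) (nat_lit 4322284354) (nat_lit 152) (nat_lit 3443375078) (nat_lit 228) (nat_lit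 4651649764) (nat_lit 32) (nat_lit 5) (nat_lit 34) (nat_lit 5) (nat_lit 35) (nat_lit 4) (nat_lit 340) (nat_lit 289) (nat_lit 271)) (XT.lf (nat_lit 0) (nat_lit 11791860444) (nat_lit 228) (nat_lit 641037198) (nat_lit 0) (nat_lit 372881594) (nat_lit 32) (nat_lit 5) (nat_lit 35) (nat_lit 4) (nat_lit 32) (nat_lit 4) (nat_lit 341) (nat_lit 289) (nat_lit 270)))) (XT.nd (nat_lit 78) (nat_lit 76) (nat_lit 0) (XT.lf (nat_lit 0) (nat_lit 2786780414) (nat_lit 228) (nat_lit 6062188124) (nat_lit 76) (nat_lit 4359036065) (nat_lit 29) (nat_lit 5) (nat_lit 32) (nat_lit 5) (nat_lit 30) (nat_lit 4) (nat_lit 342) (nat_lit 289) (nat_lit 269)) (XT.nd (nat_lit 78) (nat_lit 0) (nat_lit 0) (XT.lf (nat_lit 0) (nat_lit 1581235275) (nat_lit 76) (nat_lit 5099484138) (nat_lit 152) (nat_lit 6951989785) (nat_lit 28) (nat_lit 5) (nat_lit 29) (nat_lit 5) (nat_lit 30) (nat_lit 4) (nat_lit 343) (nat_lit 289) (nat_lit 268))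 (XT.lf (nat_lit 0) (nat_lit 9652945273) (nat_lit 76) (nat_lit 1122755345) (nat_lit 152) (nat_lit 3302691135) (nat_lit 28) (nat_lit 5) (nat_lit 29) (nat_lit 5) (nat_lit 30) (nat_lit 4) (nat_lit 344) (nat_lit 289) (nat_lit 267))))) (XT.nd (nat_lit 234) (nat_lit 228) (nat_lit 0) (XT.nd (nat_lit 78) (nat_lit 76) (nat_lit 0) (XT.lf (nat_lit 0) (nat_lit 521574207) (nat_lit 228) (nat_lit 11068736157) (nat_lit 76) (nat_lit 2955217707) (nat_lit 25) (nat_lit 5) (nat_lit 28) (nat_lit 5) (nat_lit 26) (nat_lit 4) (nat_lit 345) (nat_lit 289) (nat_lit 266)) (XT.nd (nat_lit 78) (nat_lit 76) (nat_lit 0) (XT.lf (nat_lit 0) (nat_lit 4428311885) (nat_lit 228) (nat_lit 3338944734) (nat_lit 76) (nat_lit 7265996730) (nat_lit 25) (nat_lit 5) (nat_lit 28) (nat_lit 5) (nat_lit 26) (nat_lit 4) (nat_lit 346) (nat_lit 289) (nat_lit 265)) (XT.lf (nat_lit 0) (nat_lit 4777210465) (nat_lit 76) (nat_lit 3739827913) (nat_lit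 152) (nat_lit 7029043275) (nat_lit 24) (nat_lit 5) (nat_lit 25) (nat_lit 5) (nat_lit 26) (nat_lit 4) (nat_lit 347) (nat_lit 289) (nat_lit 264)))) (XT.nd (nat_lit 78) (nat_lit 228) (nat_lit 0) (XT.lf (nat_lit 0) (nat_lit 12788205617) (nat_lit 152) (nat_lit 2829094849) (nat_lit 0) (nat_lit 468397694) (nat_lit 24) (nat_lit 5) (nat_lit 26) (nat_lit 4) (nat_lit 24) (nat_lit 4) (nat_lit 348) (nat_lit 289) (nat_lit 263)) (XT.nd (nat_lit 78) (nat_lit 0) (nat_lit 0) (XT.lf (nat_lit 0) (nat_lit 665608038) (nat_lit 228) (nat_lit 11184862560) (nat_lit 76) (nat_lit 4798141213) (nat_lit 21) (nat_lit 5) (nat_lit 24) (nat_lit 5) (nat_lit 22) (nat_lit 4) (nat_lit 349) (nat_lit 289) (nat_lit 262)) (XT.lf (nat_lit 0) (nat_lit 4682113530) (nat_lit 228) (nat_lit 3169646412) (nat_lit 76) (nat_lit 9386945583) (nat_lit 21) (nat_lit 5) (nat_lit 24) (nat_lit 5) (nat_lit 22) (nat_lit 4) (nat_lit 350) (nat_lit 289)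 (nat_lit 261))))))) (XT.nd (nat_lit 858) (nat_lit 380) (nat_lit 0) (XT.nd (nat_lit 390) (nat_lit 228) (nat_lit 0) (XT.nd (nat_lit 156) (nat_lit 228) (nat_lit 0) (XT.nd (nat_lit 78) (nat_lit 0) (nat_lit 0) (XT.lf (nat_lit 0) (nat_lit 5275185108) (nat_lit 76) (nat_lit 3627924105) (nat_lit 152) (nat_lit 8955050141) (nat_lit 20) (nat_lit 5) (nat_lit 21) (nat_lit 5) (nat_lit 22) (nat_lit 4) (nat_lit 351) (nat_lit 289) (nat_lit 260)) (XT.lf (nat_lit 0) (nat_lit 13324270344) (nat_lit 152) (nat_lit 4407753537) (nat_lit 0) (nat_lit 777143043) (nat_lit 20) (nat_lit 5) (nat_lit 22) (nat_lit 4) (nat_lit 20) (nat_lit 4) (nat_lit 352) (nat_lit 289) (nat_lit 259))) (XT.nd (nat_lit 78) (nat_lit 152) (nat_lit 0) (XT.lf (nat_lit 0) (nat_lit 4114469752) (nat_lit 76) (nat_lit 13901403802) (nat_lit 76) (nat_lit 1174417194) (nat_lit 19) (nat_lit 4) (nat_lit 20) (nat_lit 5) (nat_lit 20) (nat_lit 4) (nat_lit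 353) (nat_lit 289) (nat_lit 258)) (XT.nd (nat_lit 78) (nat_lit 76) (nat_lit 0) (XT.lf (nat_lit 0) (nat_lit 2941194006) (nat_lit 152) (nat_lit 6868833472) (nat_lit 76) (nat_lit 10093014744) (nat_lit 18) (nat_lit 5) (nat_lit 20) (nat_lit 5) (nat_lit 19) (nat_lit 4) (nat_lit 354) (nat_lit 289) (nat_lit 257)) (XT.lf (nat_lit 0) (nat_lit 1654300356) (nat_lit 76) (nat_lit 5524099270) (nat_lit 152) (nat_lit 13474335209) (nat_lit 17) (nat_lit 5) (nat_lit 18) (nat_lit 5) (nat_lit 19) (nat_lit 4) (nat_lit 355) (nat_lit 289) (nat_lit 256))))) (XT.nd (nat_lit 234) (nat_lit 152) (nat_lit 0) (XT.nd (nat_lit 78) (nat_lit 76) (nat_lit 0) (XT.lf (nat_lit 0) (nat_lit 10716225867) (nat_lit 76) (nat_lit 958415097) (nat_lit 152) (nat_lit 9762941202) (nat_lit 17) (nat_lit 5) (nat_lit 18) (nat_lit 5) (nat_lit 19) (nat_lit 4) (nat_lit 356) (nat_lit 289) (nat_lit 255)) (XT.nd (nat_lit 78) (nat_lit 76) (nat_lit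 0) (XT.lf (nat_lit 0) (nat_lit 16388876604) (nat_lit 152) (nat_lit 2212628749) (nat_lit 0) (nat_lit 3660534883) (nat_lit 17) (nat_lit 5) (nat_lit 19) (nat_lit 4) (nat_lit 17) (nat_lit 4) (nat_lit 357) (nat_lit 289) (nat_lit 254)) (XT.lf (nat_lit 0) (nat_lit 6807200375) (nat_lit 76) (nat_lit 14590089609) (nat_lit 76) (nat_lit 1727534104) (nat_lit 16) (nat_lit 4) (nat_lit 17) (nat_lit 5) (nat_lit 17) (nat_lit 4) (nat_lit 358) (nat_lit 289) (nat_lit 253)))) (XT.nd (nat_lit 78) (nat_lit 76) (nat_lit 0) (XT.lf (nat_lit 0) (nat_lit 2516099681) (nat_lit 152) (nat_lit 7832373809) (nat_lit 76) (nat_lit 13681510350) (nat_lit 15) (nat_lit 5) (nat_lit 17) (nat_lit 5) (nat_lit 16) (nat_lit 4) (nat_lit 359) (nat_lit 289) (nat_lit 252)) (XT.nd (nat_lit 78) (nat_lit 0) (nat_lit 0) (XT.lf (nat_lit 0) (nat_lit 968644934) (nat_lit 76) (nat_lit 5900017967) (nat_lit 152) (nat_lit 18112605066) (nat_lit 14)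 (nat_lit 5) (nat_lit 15) (nat_lit 5) (nat_lit 16) (nat_lit 4) (nat_lit 360) (nat_lit 289) (nat_lit 251)) (XT.lf (nat_lit 0) (nat_lit 10372253998) (nat_lit 76) (nat_lit 1140090843) (nat_lit 152) (nat_lit 14464118467) (nat_lit 14) (nat_lit 5) (nat_lit 15) (nat_lit 5) (nat_lit 16) (nat_lit 4) (nat_lit 361) (nat_lit 289) (nat_lit 250)))))) (XT.nd (nat_lit 468) (nat_lit 152) (nat_lit 0) (XT.nd (nat_lit 234) (nat_lit 152) (nat_lit 0) (XT.nd (nat_lit 78) (nat_lit 76) (nat_lit 0) (XT.lf (nat_lit 0) (nat_lit 16391357992) (nat_lit 152) (nat_lit 6941871243) (nat_lit 0) (nat_lit 3688052335) (nat_lit 14) (nat_lit 5) (nat_lit 16) (nat_lit 4) (nat_lit 14) (nat_lit 4) (nat_lit 362) (nat_lit 289) (nat_lit 249)) (XT.nd (nat_lit 78) (nat_lit 0) (nat_lit 0) (XT.lf (nat_lit 0) (nat_lit 2100932125) (nat_lit 76) (nat_lit 19410514968) (nat_lit 76) (nat_lit 6607056919) (nat_lit 13) (nat_lit 4) (nat_lit 14) (nat_lit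 5) (nat_lit 14) (nat_lit 4) (nat_lit 363) (nat_lit 289) (nat_lit 248)) (XT.lf (nat_lit 0) (nat_lit 11737309552) (nat_lit 76) (nat_lit 15214463153) (nat_lit 76) (nat_lit 2315621874) (nat_lit 13) (nat_lit 4) (nat_lit 14) (nat_lit 5) (nat_lit 14) (nat_lit 4) (nat_lit 364) (nat_lit 289) (nat_lit 247)))) (XT.nd (nat_lit 78) (nat_lit 76) (nat_lit 0) (XT.lf (nat_lit 0) (nat_lit 2068636836) (nat_lit 152) (nat_lit 8748976935) (nat_lit 76) (nat_lit 19657004975) (nat_lit 12) (nat_lit 5) (nat_lit 14) (nat_lit 5) (nat_lit 13) (nat_lit 4) (nat_lit 365) (nat_lit 289) (nat_lit 246)) (XT.nd (nat_lit 78) (nat_lit 0) (nat_lit 0) (XT.lf (nat_lit 0) (nat_lit 352552213) (nat_lit 76) (nat_lit 6198057575) (nat_lit 152) (nat_lit 25191896287) (nat_lit 11) (nat_lit 5) (nat_lit 12) (nat_lit 5) (nat_lit 13) (nat_lit 4) (nat_lit 366) (nat_lit 289) (nat_lit 245)) (XT.lf (nat_lit 0) (nat_lit 10122428518) (nat_lit 76)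 (nat_lit 1234167575) (nat_lit 152) (nat_lit 21712211244) (nat_lit 11) (nat_lit 5) (nat_lit 12) (nat_lit 5) (nat_lit 13) (nat_lit 4) (nat_lit 367) (nat_lit 289) (nat_lit 244))))) (XT.nd (nat_lit 234) (nat_lit 76) (nat_lit 0) (XT.nd (nat_lit 78) (nat_lit 76) (nat_lit 0) (XT.lf (nat_lit 0) (nat_lit 16418404685) (nat_lit 152) (nat_lit 14230581761) (nat_lit 0) (nat_lit 3811675644) (nat_lit 11) (nat_lit 5) (nat_lit 13) (nat_lit 4) (nat_lit 11) (nat_lit 4) (nat_lit 368) (nat_lit 289) (nat_lit 243)) (XT.nd (nat_lit 78) (nat_lit 76) (nat_lit 0) (XT.lf (nat_lit 0) (nat_lit 21709170762) (nat_lit 152) (nat_lit 5182894062) (nat_lit 0) (nat_lit 9031265286) (nat_lit 11) (nat_lit 5) (nat_lit 13) (nat_lit 4) (nat_lit 11) (nat_lit 4) (nat_lit 369) (nat_lit 289) (nat_lit 242)) (XT.lf (nat_lit 0) (nat_lit 4377605933) (nat_lit 76) (nat_lit 22912963335) (nat_lit 76) (nat_lit 10167270777) (nat_lit 10) (nat_lit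 4) (nat_lit 11) (nat_lit 5) (nat_lit 11) (nat_lit 4) (nat_lit 370) (nat_lit 289) (nat_lit 241)))) (XT.nd (nat_lit 78) (nat_lit 76) (nat_lit 0) (XT.lf (nat_lit 0) (nat_lit 14517671698) (nat_lit 76) (nat_lit 18679676269) (nat_lit 76) (nat_lit 5869424587) (nat_lit 10) (nat_lit 4) (nat_lit 11) (nat_lit 5) (nat_lit 11) (nat_lit 4) (nat_lit 371) (nat_lit 289) (nat_lit 240)) (XT.nd (nat_lit 78) (nat_lit 76) (nat_lit 0) (XT.lf (nat_lit 0) (nat_lit 25090076361) (nat_lit 76) (nat_lit 14269899193) (nat_lit 76) (nat_lit 1398162629) (nat_lit 10) (nat_lit 4) (nat_lit 11) (nat_lit 5) (nat_lit 11) (nat_lit 4) (nat_lit 372) (nat_lit 289) (nat_lit 239)) (XT.lf (nat_lit 0) (nat_lit 3152911464) (nat_lit 152) (nat_lit 6466825089) (nat_lit 76) (nat_lit 32913684768) (nat_lit 9) (nat_lit 5) (nat_lit 11) (nat_lit 5) (nat_lit 10) (nat_lit 4) (nat_lit 373) (nat_lit 289) (nat_lit 238))))))))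
noncomputable def xc72 : XT := (XT.nd (nat_lit 1716) (nat_lit 152) (nat_lit 0) (XT.nd (nat_lit 858) (nat_lit 152) (nat_lit 0) (XT.nd (nat_lit 390) (nat_lit 152) (nat_lit 0) (XT.nd (nat_lit 156) (nat_lit 0) (nat_lit 0) (XT.nd (nat_lit 78) (nat_lit 0) (nat_lit 0) (XT.lf (nat_lit 0) (nat_lit 3205202011) (nat_lit 76) (nat_lit 4692975648) (nat_lit 152) (nat_lit 36497473990) (nat_lit 8) (nat_lit 5) (nat_lit 9) (nat_lit 5) (nat_lit 10) (nat_lit 4) (nat_lit 374) (nat_lit 289) (nat_lit 237)) (XT.lf (nat_lit 0) (nat_lit 12963275325) (nat_lit 152) (nat_lit 32838586343) (nat_lit 0) (nat_lit 545013284) (nat_lit 8) (nat_lit 5) (nat_lit 10) (nat_lit 4) (nat_lit 8) (nat_lit 4) (nat_lit 375) (nat_lit 289) (nat_lit 236))) (XT.nd (nat_lit 78) (nat_lit 0) (nat_lit 0) (XT.lf (nat_lit 0) (nat_lit 18324045603) (nat_lit 152) (nat_lit 24211893776) (nat_lit 0) (nat_lit 5857608549) (nat_lit 8) (nat_lit 5) (nat_lit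 10) (nat_lit 4) (nat_lit 8) (nat_lit 4) (nat_lit 376) (nat_lit 289) (nat_lit 235)) (XT.nd (nat_lit 78) (nat_lit 0) (nat_lit 0) (XT.lf (nat_lit 0) (nat_lit 23919981730) (nat_lit 152) (nat_lit 15216561692) (nat_lit 0) (nat_lit 11407663711) (nat_lit 8) (nat_lit 5) (nat_lit 10) (nat_lit 4) (nat_lit 8) (nat_lit 4) (nat_lit 377) (nat_lit 289) (nat_lit 234)) (XT.lf (nat_lit 0) (nat_lit 29764407364) (nat_lit 152) (nat_lit 5831172635) (nat_lit 0) (nat_lit 17208393188) (nat_lit 8) (nat_lit 5) (nat_lit 10) (nat_lit 4) (nat_lit 8) (nat_lit 4) (nat_lit 378) (nat_lit 289) (nat_lit 233))))) (XT.nd (nat_lit 234) (nat_lit 76) (nat_lit 0) (XT.nd (nat_lit 78) (nat_lit 0) (nat_lit 0) (XT.lf (nat_lit 0) (nat_lit 4097773916) (nat_lit 76) (nat_lit 31837441623) (nat_lit 76) (nat_lit 19239812059) (nat_lit 7) (nat_lit 4) (nat_lit 8) (nat_lit 5) (nat_lit 8) (nat_lit 4) (nat_lit 379) (nat_lit 289) (nat_lit 232))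 (XT.nd (nat_lit 78) (nat_lit 0) (nat_lit 0) (XT.lf (nat_lit 0) (nat_lit 14669663827) (nat_lit 76) (nat_lit 27814383859) (nat_lit 76) (nat_lit 15177120593) (nat_lit 7) (nat_lit 4) (nat_lit 8) (nat_lit 5) (nat_lit 8) (nat_lit 4) (nat_lit 380) (nat_lit 289) (nat_lit 231)) (XT.lf (nat_lit 0) (nat_lit 25716863361) (nat_lit 76) (nat_lit 23615581732) (nat_lit 76) (nat_lit 10940572083) (nat_lit 7) (nat_lit 4) (nat_lit 8) (nat_lit 5) (nat_lit 8) (nat_lit 4) (nat_lit 381) (nat_lit 289) (nat_lit 230)))) (XT.nd (nat_lit 78) (nat_lit 76) (nat_lit 0) (XT.lf (nat_lit 0) (nat_lit 37265675374) (nat_lit 76) (nat_lit 19231038091) (nat_lit 76) (nat_lit 6520079506) (nat_lit 7) (nat_lit 4) (nat_lit 8) (nat_lit 5) (nat_lit 8) (nat_lit 4) (nat_lit 382) (nat_lit 289) (nat_lit 229)) (XT.nd (nat_lit 78) (nat_lit 76) (nat_lit 0) (XT.lf (nat_lit 0) (nat_lit 49343597038) (nat_lit 76) (nat_lit 14650313549) (nat_lit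 76) (nat_lit 1905117881) (nat_lit 7) (nat_lit 4) (nat_lit 8) (nat_lit 5) (nat_lit 8) (nat_lit 4) (nat_lit 383) (nat_lit 289) (nat_lit 228)) (XT.lf (nat_lit 0) (nat_lit 2821992963) (nat_lit 152) (nat_lit 6992716838) (nat_lit 76) (nat_lit 59109600530) (nat_lit 6) (nat_lit 5) (nat_lit 8) (nat_lit 5) (nat_lit 7) (nat_lit 4) (nat_lit 384) (nat_lit 289) (nat_lit 227)))))) (XT.nd (nat_lit 390) (nat_lit 76) (nat_lit 0) (XT.nd (nat_lit 156) (nat_lit 0) (nat_lit 0) (XT.nd (nat_lit 78) (nat_lit 0) (nat_lit 0) (XT.lf (nat_lit 0) (nat_lit 3070565010) (nat_lit 76) (nat_lit 4675494241) (nat_lit 152) (nat_lit 64352010014) (nat_lit 5) (nat_lit 5) (nat_lit 6) (nat_lit 5) (nat_lit 7) (nat_lit 4) (nat_lit 385) (nat_lit 289) (nat_lit 226)) (XT.lf (nat_lit 0) (nat_lit 13024728415) (nat_lit 152) (nat_lit 61602722673) (nat_lit 0) (nat_lit 797650572) (nat_lit 5) (nat_lit 5) (nat_lit 7) (nat_lit 4) (nat_lit 5)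 (nat_lit 4) (nat_lit 386) (nat_lit 289) (nat_lit 225))) (XT.nd (nat_lit 78) (nat_lit 0) (nat_lit 0) (XT.lf (nat_lit 0) (nat_lit 18621865394) (nat_lit 152) (nat_lit 53925936895) (nat_lit 0) (nat_lit 6367961901) (nat_lit 5) (nat_lit 5) (nat_lit 7) (nat_lit 4) (nat_lit 5) (nat_lit 4) (nat_lit 387) (nat_lit 289) (nat_lit 224)) (XT.nd (nat_lit 78) (nat_lit 0) (nat_lit 0) (XT.lf (nat_lit 0) (nat_lit 24477799136) (nat_lit 152) (nat_lit 45905871292) (nat_lit 0) (nat_lit 12198347405) (nat_lit 5) (nat_lit 5) (nat_lit 7) (nat_lit 4) (nat_lit 5) (nat_lit 4) (nat_lit 388) (nat_lit 289) (nat_lit 223)) (XT.lf (nat_lit 0) (nat_lit 30606472341) (nat_lit 152) (nat_lit 37523430468) (nat_lit 0) (nat_lit 18302688956) (nat_lit 5) (nat_lit 5) (nat_lit 7) (nat_lit 4) (nat_lit 5) (nat_lit 4) (nat_lit 389) (nat_lit 289) (nat_lit 222))))) (XT.nd (nat_lit 234) (nat_lit 76) (nat_lit 0) (XT.nd (nat_lit 78) (nat_lit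 0) (nat_lit 0) (XT.lf (nat_lit 0) (nat_lit 37022477088) (nat_lit 152) (nat_lit 28758656233) (nat_lit 0) (nat_lit 24695520698) (nat_lit 5) (nat_lit 5) (nat_lit 7) (nat_lit 4) (nat_lit 5) (nat_lit 4) (nat_lit 390) (nat_lit 289) (nat_lit 221)) (XT.nd (nat_lit 78) (nat_lit 0) (nat_lit 0) (XT.lf (nat_lit 0) (nat_lit 43741089579) (nat_lit 152) (nat_lit 19590680075) (nat_lit 0) (nat_lit 31392063660) (nat_lit 5) (nat_lit 5) (nat_lit 7) (nat_lit 4) (nat_lit 5) (nat_lit 4) (nat_lit 391) (nat_lit 289) (nat_lit 220)) (XT.lf (nat_lit 0) (nat_lit 50778306511) (nat_lit 152) (nat_lit 9997673480) (nat_lit 0) (nat_lit 38408261993) (nat_lit 5) (nat_lit 5) (nat_lit 7) (nat_lit 4) (nat_lit 5) (nat_lit 4) (nat_lit 392) (nat_lit 289) (nat_lit 219)))) (XT.nd (nat_lit 78) (nat_lit 0) (nat_lit 0) (XT.lf (nat_lit 0) (nat_lit 44632564) (nat_lit 76) (nat_lit 58106947435) (nat_lit 76) (nat_lit 45716885205) (nat_lit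 4) (nat_lit 4) (nat_lit 5) (nat_lit 5) (nat_lit 5) (nat_lit 4) (nat_lit 393) (nat_lit 289) (nat_lit 218)) (XT.nd (nat_lit 78) (nat_lit 0) (nat_lit 0) (XT.lf (nat_lit 0) (nat_lit 10904883729) (nat_lit 76) (nat_lit 55141745349) (nat_lit 76) (nat_lit 42732618630) (nat_lit 4) (nat_lit 4) (nat_lit 5) (nat_lit 5) (nat_lit 5) (nat_lit 4) (nat_lit 394) (nat_lit 289) (nat_lit 217)) (XT.lf (nat_lit 0) (nat_lit 22278369520) (nat_lit 76) (nat_lit 52042629165) (nat_lit 76) (nat_lit 39615345791) (nat_lit 4) (nat_lit 4) (nat_lit 5) (nat_lit 5) (nat_lit 5) (nat_lit 4) (nat_lit 395) (nat_lit 289) (nat_lit 216))))))) (XT.nd (nat_lit 858) (nat_lit 76) (nat_lit 0) (XT.nd (nat_lit 390) (nat_lit 76) (nat_lit 0) (XT.nd (nat_lit 156) (nat_lit 0) (nat_lit 0) (XT.nd (nat_lit 78) (nat_lit 0) (nat_lit 0) (XT.lf (nat_lit 0) (nat_lit 34192169663) (nat_lit 76) (nat_lit 48802220036) (nat_lit 76) (nat_lit 36357644608)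 (nat_lit 4) (nat_lit 4) (nat_lit 5) (nat_lit 5) (nat_lit 5) (nat_lit 4) (nat_lit 396) (nat_lit 289) (nat_lit 215)) (XT.lf (nat_lit 0) (nat_lit 46674650350) (nat_lit 76) (nat_lit 45412802701) (nat_lit 76) (nat_lit 32951758651) (nat_lit 4) (nat_lit 4) (nat_lit 5) (nat_lit 5) (nat_lit 5) (nat_lit 4) (nat_lit 397) (nat_lit 289) (nat_lit 214))) (XT.nd (nat_lit 78) (nat_lit 0) (nat_lit 0) (XT.lf (nat_lit 0) (nat_lit 59755531774) (nat_lit 76) (nat_lit 41866307119) (nat_lit 76) (nat_lit 29389578668) (nat_lit 4) (nat_lit 4) (nat_lit 5) (nat_lit 5) (nat_lit 5) (nat_lit 4) (nat_lit 398) (nat_lit 289) (nat_lit 213)) (XT.nd (nat_lit 78) (nat_lit 0) (nat_lit 0) (XT.lf (nat_lit 0) (nat_lit 73465958889) (nat_lit 76) (nat_lit 38154289254) (nat_lit 76) (nat_lit 25662623277) (nat_lit 4) (nat_lit 4) (nat_lit 5) (nat_lit 5) (nat_lit 5) (nat_lit 4) (nat_lit 399) (nat_lit 289) (nat_lit 212)) (XT.lf (nat_lit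 0) (nat_lit 87838575570) (nat_lit 76) (nat_lit 34267910967) (nat_lit 76) (nat_lit 21762018775) (nat_lit 4) (nat_lit 4) (nat_lit 5) (nat_lit 5) (nat_lit 5) (nat_lit 4) (nat_lit 400) (nat_lit 289) (nat_lit 211))))) (XT.nd (nat_lit 234) (nat_lit 76) (nat_lit 0) (XT.nd (nat_lit 78) (nat_lit 0) (nat_lit 0) (XT.lf (nat_lit 0) (nat_lit 102907602333) (nat_lit 76) (nat_lit 30197918976) (nat_lit 76) (nat_lit 17678478008) (nat_lit 4) (nat_lit 4) (nat_lit 5) (nat_lit 5) (nat_lit 5) (nat_lit 4) (nat_lit 401) (nat_lit 289) (nat_lit 210)) (XT.nd (nat_lit 78) (nat_lit 0) (nat_lit 0) (XT.lf (nat_lit 0) (nat_lit 118708917813) (nat_lit 76) (nat_lit 25934622825) (nat_lit 76) (nat_lit 13402278261) (nat_lit 4) (nat_lit 4) (nat_lit 5) (nat_lit 5) (nat_lit 5) (nat_lit 4) (nat_lit 402) (nat_lit 289) (nat_lit 209)) (XT.lf (nat_lit 0) (nat_lit 135280144190) (nat_lit 76) (nat_lit 21467871809) (nat_lit 76) (nat_lit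 8923238105) (nat_lit 4) (nat_lit 4) (nat_lit 5) (nat_lit 5) (nat_lit 5) (nat_lit 4) (nat_lit 403) (nat_lit 289) (nat_lit 208)))) (XT.nd (nat_lit 78) (nat_lit 76) (nat_lit 0) (XT.lf (nat_lit 0) (nat_lit 152660736764) (nat_lit 76) (nat_lit 16787030806) (nat_lit 76) (nat_lit 4230693160) (nat_lit 4) (nat_lit 4) (nat_lit 5) (nat_lit 5) (nat_lit 5) (nat_lit 4) (nat_lit 404) (nat_lit 289) (nat_lit 207)) (XT.nd (nat_lit 78) (nat_lit 0) (nat_lit 0) (XT.lf (nat_lit 0) (nat_lit 664556075) (nat_lit 152) (nat_lit 11205144301) (nat_lit 76) (nat_lit 170216267244) (nat_lit 3) (nat_lit 5) (nat_lit 5) (nat_lit 5) (nat_lit 4) (nat_lit 4) (nat_lit 405) (nat_lit 289) (nat_lit 206)) (XT.lf (nat_lit 0) (nat_lit 5653216096) (nat_lit 152) (nat_lit 989007080) (nat_lit 76) (nat_lit 184268619504) (nat_lit 3) (nat_lit 5) (nat_lit 5) (nat_lit 5) (nat_lit 4) (nat_lit 4) (nat_lit 406) (nat_lit 289) (nat_lit 205))))))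 (XT.nd (nat_lit 468) (nat_lit 0) (nat_lit 0) (XT.nd (nat_lit 234) (nat_lit 0) (nat_lit 0) (XT.nd (nat_lit 78) (nat_lit 0) (nat_lit 0) (XT.lf (nat_lit 0) (nat_lit 10042487113) (nat_lit 76) (nat_lit 996877519) (nat_lit 152) (nat_lit 189130195963) (nat_lit 2) (nat_lit 5) (nat_lit 3) (nat_lit 5) (nat_lit 4) (nat_lit 4) (nat_lit 407) (nat_lit 289) (nat_lit 204)) (XT.nd (nat_lit 78) (nat_lit 0) (nat_lit 0) (XT.lf (nat_lit 0) (nat_lit 16780122821) (nat_lit 152) (nat_lit 188324647577) (nat_lit 0) (nat_lit 4782180683) (nat_lit 2) (nat_lit 5) (nat_lit 4) (nat_lit 4) (nat_lit 2) (nat_lit 4) (nat_lit 408) (nat_lit 289) (nat_lit 203)) (XT.lf (nat_lit 0) (nat_lit 22815971400) (nat_lit 152) (nat_lit 186464543173) (nat_lit 0) (nat_lit 10809295599) (nat_lit 2) (nat_lit 5) (nat_lit 4) (nat_lit 4) (nat_lit 2) (nat_lit 4) (nat_lit 409) (nat_lit 289) (nat_lit 202)))) (XT.nd (nat_lit 78) (nat_lit 0) (nat_lit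 0) (XT.lf (nat_lit 0) (nat_lit 29145717383) (nat_lit 152) (nat_lit 184526767399) (nat_lit 0) (nat_lit 17130723809) (nat_lit 2) (nat_lit 5) (nat_lit 4) (nat_lit 4) (nat_lit 2) (nat_lit 4) (nat_lit 410) (nat_lit 289) (nat_lit 201)) (XT.nd (nat_lit 78) (nat_lit 0) (nat_lit 0) (XT.lf (nat_lit 0) (nat_lit 35784431595) (nat_lit 152) (nat_lit 182506706502) (nat_lit 0) (nat_lit 23761516332) (nat_lit 2) (nat_lit 5) (nat_lit 4) (nat_lit 4) (nat_lit 2) (nat_lit 4) (nat_lit 411) (nat_lit 289) (nat_lit 200)) (XT.lf (nat_lit 0) (nat_lit 42747920497) (nat_lit 152) (nat_lit 180399550815) (nat_lit 0) (nat_lit 30717460769) (nat_lit 2) (nat_lit 5) (nat_lit 4) (nat_lit 4) (nat_lit 2) (nat_lit 4) (nat_lit 412) (nat_lit 289) (nat_lit 199))))) (XT.nd (nat_lit 234) (nat_lit 0) (nat_lit 0) (XT.nd (nat_lit 78) (nat_lit 0) (nat_lit 0) (XT.lf (nat_lit 0) (nat_lit 50052763826) (nat_lit 152) (nat_lit 178200283299)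 (nat_lit 0) (nat_lit 38015118893) (nat_lit 2) (nat_lit 5) (nat_lit 4) (nat_lit 4) (nat_lit 2) (nat_lit 4) (nat_lit 413) (nat_lit 289) (nat_lit 198)) (XT.nd (nat_lit 78) (nat_lit 0) (nat_lit 0) (XT.lf (nat_lit 0) (nat_lit 57716354066) (nat_lit 152) (nat_lit 175903667603) (nat_lit 0) (nat_lit 45671866081) (nat_lit 2) (nat_lit 5) (nat_lit 4) (nat_lit 4) (nat_lit 2) (nat_lit 4) (nat_lit 414) (nat_lit 289) (nat_lit 197)) (XT.lf (nat_lit 0) (nat_lit 65756937860) (nat_lit 152) (nat_lit 173504235596) (nat_lit 0) (nat_lit 53705932682) (nat_lit 2) (nat_lit 5) (nat_lit 4) (nat_lit 4) (nat_lit 2) (nat_lit 4) (nat_lit 415) (nat_lit 289) (nat_lit 196)))) (XT.nd (nat_lit 78) (nat_lit 0) (nat_lit 0) (XT.lf (nat_lit 0) (nat_lit 74193659455) (nat_lit 152) (nat_lit 170996274343) (nat_lit 0) (nat_lit 62136447426) (nat_lit 2) (nat_lit 5) (nat_lit 4) (nat_lit 4) (nat_lit 2) (nat_lit 4) (nat_lit 416) (nat_lit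 289) (nat_lit 195)) (XT.nd (nat_lit 78) (nat_lit 0) (nat_lit 0) (XT.lf (nat_lit 0) (nat_lit 83046606284) (nat_lit 152) (nat_lit 168373812508) (nat_lit 0) (nat_lit 70983482969) (nat_lit 2) (nat_lit 5) (nat_lit 4) (nat_lit 4) (nat_lit 2) (nat_lit 4) (nat_lit 417) (nat_lit 289) (nat_lit 194)) (XT.lf (nat_lit 0) (nat_lit 92336856791) (nat_lit 152) (nat_lit 165630606134) (nat_lit 0) (nat_lit 80268103679) (nat_lit 2) (nat_lit 5) (nat_lit 4) (nat_lit 4) (nat_lit 2) (nat_lit 4) (nat_lit 418) (nat_lit 289) (nat_lit 193))))))))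
noncomputable def xc73 : XT := (XT.nd (nat_lit 39702) (nat_lit 0) (nat_lit 1520) (XT.nd (nat_lit 858) (nat_lit 0) (nat_lit 0) (XT.nd (nat_lit 390) (nat_lit 0) (nat_lit 0) (XT.nd (nat_lit 156) (nat_lit 0) (nat_lit 0) (XT.nd (nat_lit 78) (nat_lit 0) (nat_lit 0) (XT.lf (nat_lit 0) (nat_lit 102086530620) (nat_lit 152) (nat_lit 162760123778) (nat_lit 0) (nat_lit 90012415798) (nat_lit 2) (nat_lit 5) (nat_lit 4) (nat_lit 4) (nat_lit 2) (nat_lit 4) (nat_lit 419) (nat_lit 289) (nat_lit 192)) (XT.lf (nat_lit 0) (nat_lit 112318841281) (nat_lit 152) (nat_lit 159755530958) (nat_lit 0) (nat_lit 100239620068) (nat_lit 2) (nat_lit 5) (nat_lit 4) (nat_lit 4) (nat_lit 2) (nat_lit 4) (nat_lit 420) (nat_lit 289) (nat_lit 191))) (XT.nd (nat_lit 78) (nat_lit 0) (nat_lit 0) (XT.lf (nat_lit 0) (nat_lit 123058151418) (nat_lit 152) (nat_lit 156609673881) (nat_lit 0) (nat_lit 110974066975) (nat_lit 2) (nat_lit 5)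 (nat_lit 4) (nat_lit 4) (nat_lit 2) (nat_lit 4) (nat_lit 421) (nat_lit 289) (nat_lit 190)) (XT.nd (nat_lit 78) (nat_lit 0) (nat_lit 0) (XT.lf (nat_lit 0) (nat_lit 134330030817) (nat_lit 152) (nat_lit 153315062412) (nat_lit 0) (nat_lit 122241314726) (nat_lit 2) (nat_lit 5) (nat_lit 4) (nat_lit 4) (nat_lit 2) (nat_lit 4) (nat_lit 422) (nat_lit 289) (nat_lit 189)) (XT.lf (nat_lit 0) (nat_lit 146161317286) (nat_lit 152) (nat_lit 149863852237) (nat_lit 0) (nat_lit 134068190103) (nat_lit 2) (nat_lit 5) (nat_lit 4) (nat_lit 4) (nat_lit 2) (nat_lit 4) (nat_lit 423) (nat_lit 289) (nat_lit 188))))) (XT.nd (nat_lit 234) (nat_lit 0) (nat_lit 0) (XT.nd (nat_lit 78) (nat_lit 0) (nat_lit 0) (XT.lf (nat_lit 0) (nat_lit 158580180554) (nat_lit 152) (nat_lit 146247826190) (nat_lit 0) (nat_lit 146482852331) (nat_lit 2) (nat_lit 5) (nat_lit 4) (nat_lit 4) (nat_lit 2) (nat_lit 4) (nat_lit 424) (nat_lit 289)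 (nat_lit 187)) (XT.nd (nat_lit 78) (nat_lit 0) (nat_lit 0) (XT.lf (nat_lit 0) (nat_lit 171616189345) (nat_lit 152) (nat_lit 142458374684) (nat_lit 0) (nat_lit 159514860130) (nat_lit 2) (nat_lit 5) (nat_lit 4) (nat_lit 4) (nat_lit 2) (nat_lit 4) (nat_lit 425) (nat_lit 289) (nat_lit 186)) (XT.lf (nat_lit 0) (nat_lit 185300381774) (nat_lit 152) (nat_lit 138486475217) (nat_lit 0) (nat_lit 173195242091) (nat_lit 2) (nat_lit 5) (nat_lit 4) (nat_lit 4) (nat_lit 2) (nat_lit 4) (nat_lit 426) (nat_lit 289) (nat_lit 185)))) (XT.nd (nat_lit 78) (nat_lit 0) (nat_lit 0) (XT.lf (nat_lit 0) (nat_lit 199665339251) (nat_lit 152) (nat_lit 134322670884) (nat_lit 0) (nat_lit 187556570552) (nat_lit 2) (nat_lit 5) (nat_lit 4) (nat_lit 4) (nat_lit 2) (nat_lit 4) (nat_lit 427) (nat_lit 289) (nat_lit 184)) (XT.nd (nat_lit 78) (nat_lit 0) (nat_lit 0) (XT.lf (nat_lit 0) (nat_lit 214745264057) (nat_lit 152) (nat_lit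 129957047865) (nat_lit 0) (nat_lit 202633039151) (nat_lit 2) (nat_lit 5) (nat_lit 4) (nat_lit 4) (nat_lit 2) (nat_lit 4) (nat_lit 428) (nat_lit 289) (nat_lit 183)) (XT.lf (nat_lit 0) (nat_lit 230576060773) (nat_lit 152) (nat_lit 125379211821) (nat_lit 0) (nat_lit 218460544242) (nat_lit 2) (nat_lit 5) (nat_lit 4) (nat_lit 4) (nat_lit 2) (nat_lit 4) (nat_lit 429) (nat_lit 289) (nat_lit 182)))))) (XT.nd (nat_lit 38376) (nat_lit 0) (nat_lit 4560) (XT.nd (nat_lit 234) (nat_lit 0) (nat_lit 0) (XT.nd (nat_lit 78) (nat_lit 0) (nat_lit 0) (XT.lf (nat_lit 0) (nat_lit 247195421775) (nat_lit 152) (nat_lit 120578263141) (nat_lit 0) (nat_lit 235076770362) (nat_lit 2) (nat_lit 5) (nat_lit 4) (nat_lit 4) (nat_lit 2) (nat_lit 4) (nat_lit 430) (nat_lit 289) (nat_lit 181)) (XT.nd (nat_lit 78) (nat_lit 0) (nat_lit 0) (XT.lf (nat_lit 0) (nat_lit 264642916967) (nat_lit 152) (nat_lit 115542770995) (nat_lit 0)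 (nat_lit 252521279953) (nat_lit 2) (nat_lit 5) (nat_lit 4) (nat_lit 4) (nat_lit 2) (nat_lit 4) (nat_lit 431) (nat_lit 289) (nat_lit 180)) (XT.lf (nat_lit 0) (nat_lit 282960088006) (nat_lit 152) (nat_lit 110260746117) (nat_lit 0) (nat_lit 270835607563) (nat_lit 2) (nat_lit 5) (nat_lit 4) (nat_lit 4) (nat_lit 2) (nat_lit 4) (nat_lit 432) (nat_lit 289) (nat_lit 179)))) (XT.nd (nat_lit 78) (nat_lit 0) (nat_lit 0) (XT.lf (nat_lit 0) (nat_lit 302190547204) (nat_lit 152) (nat_lit 104719612257) (nat_lit 0) (nat_lit 290063358732) (nat_lit 2) (nat_lit 5) (nat_lit 4) (nat_lit 4) (nat_lit 2) (nat_lit 4) (nat_lit 433) (nat_lit 289) (nat_lit 178)) (XT.nd (nat_lit 37986) (nat_lit 0) (nat_lit 5852) (XT.lf (nat_lit 0) (nat_lit 322380081368) (nat_lit 152) (nat_lit 98906176238) (nat_lit 0) (nat_lit 310250313822) (nat_lit 2) (nat_lit 5) (nat_lit 4) (nat_lit 4) (nat_lit 2) (nat_lit 4) (nat_lit 434) (nat_lit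 289) (nat_lit 177)) (XT.lf (nat_lit 0) (nat_lit 818429857) (nat_lit 380) (nat_lit 2204842964) (nat_lit 0) (nat_lit 818429857) (nat_lit 79) (nat_lit 5) (nat_lit 84) (nat_lit 4) (nat_lit 79) (nat_lit 4) (nat_lit 320) (nat_lit 290) (nat_lit 290))))) (XT.nd (nat_lit 234) (nat_lit 608) (nat_lit 0) (XT.nd (nat_lit 78) (nat_lit 380) (nat_lit 0) (XT.lf (nat_lit 0) (nat_lit 1221284479) (nat_lit 304) (nat_lit 3962457582) (nat_lit 304) (nat_lit 2632939719) (nat_lit 75) (nat_lit 4) (nat_lit 79) (nat_lit 5) (nat_lit 79) (nat_lit 4) (nat_lit 321) (nat_lit 290) (nat_lit 289)) (XT.nd (nat_lit 78) (nat_lit 304) (nat_lit 0) (XT.lf (nat_lit 0) (nat_lit 838589205) (nat_lit 380) (nat_lit 876617481) (nat_lit 76) (nat_lit 6245023286) (nat_lit 74) (nat_lit 5) (nat_lit 79) (nat_lit 5) (nat_lit 75) (nat_lit 4) (nat_lit 322) (nat_lit 290) (nat_lit 288)) (XT.lf (nat_lit 0) (nat_lit 4335082234) (nat_lit 380) (nat_lit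 3062470264) (nat_lit 0) (nat_lit 714475332) (nat_lit 70) (nat_lit 5) (nat_lit 75) (nat_lit 4) (nat_lit 70) (nat_lit 4) (nat_lit 323) (nat_lit 290) (nat_lit 287)))) (XT.nd (nat_lit 78) (nat_lit 304) (nat_lit 0) (XT.lf (nat_lit 0) (nat_lit 2907223464) (nat_lit 304) (nat_lit 5040862831) (nat_lit 304) (nat_lit 326458294) (nat_lit 66) (nat_lit 4) (nat_lit 70) (nat_lit 5) (nat_lit 70) (nat_lit 4) (nat_lit 324) (nat_lit 290) (nat_lit 286)) (XT.nd (nat_lit 78) (nat_lit 0) (nat_lit 0) (XT.lf (nat_lit 0) (nat_lit 615290774) (nat_lit 228) (nat_lit 2492712809) (nat_lit 304) (nat_lit 5338955648) (nat_lit 62) (nat_lit 5) (nat_lit 65) (nat_lit 5) (nat_lit 66) (nat_lit 4) (nat_lit 325) (nat_lit 290) (nat_lit 285)) (XT.lf (nat_lit 0) (nat_lit 6656354633) (nat_lit 304) (nat_lit 1744424474) (nat_lit 0) (nat_lit 229475326) (nat_lit 62) (nat_lit 5) (nat_lit 66) (nat_lit 4) (nat_lit 62) (nat_lit 4) (nat_lit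 326) (nat_lit 290) (nat_lit 284))))))) (XT.nd (nat_lit 858) (nat_lit 1140) (nat_lit 0) (XT.nd (nat_lit 390) (nat_lit 836) (nat_lit 0) (XT.nd (nat_lit 156) (nat_lit 456) (nat_lit 0) (XT.nd (nat_lit 78) (nat_lit 228) (nat_lit 0) (XT.lf (nat_lit 0) (nat_lit 1485778966) (nat_lit 380) (nat_lit 4280902448) (nat_lit 76) (nat_lit 3056168743) (nat_lit 57) (nat_lit 5) (nat_lit 62) (nat_lit 5) (nat_lit 58) (nat_lit 4) (nat_lit 327) (nat_lit 290) (nat_lit 283)) (XT.lf (nat_lit 0) (nat_lit 2024572714) (nat_lit 228) (nat_lit 2955105876) (nat_lit 304) (nat_lit 4047559667) (nat_lit 54) (nat_lit 5) (nat_lit 57) (nat_lit 5) (nat_lit 58) (nat_lit 4) (nat_lit 328) (nat_lit 290) (nat_lit 282))) (XT.nd (nat_lit 78) (nat_lit 456) (nat_lit 0) (XT.lf (nat_lit 0) (nat_lit 8590529132) (nat_lit 304) (nat_lit 635233008) (nat_lit 0) (nat_lit 19122432) (nat_lit 54) (nat_lit 5) (nat_lit 58) (nat_lit 4) (nat_lit 54) (nat_lit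 4) (nat_lit 329) (nat_lit 290) (nat_lit 281)) (XT.nd (nat_lit 78) (nat_lit 152) (nat_lit 0) (XT.lf (nat_lit 0) (nat_lit 2832768800) (nat_lit 304) (nat_lit 3504555952) (nat_lit 76) (nat_lit 3133087952) (nat_lit 50) (nat_lit 5) (nat_lit 54) (nat_lit 5) (nat_lit 51) (nat_lit 4) (nat_lit 330) (nat_lit 290) (nat_lit 280)) (XT.lf (nat_lit 0) (nat_lit 3119212553) (nat_lit 152) (nat_lit 3288600254) (nat_lit 228) (nat_lit 3302221331) (nat_lit 48) (nat_lit 5) (nat_lit 50) (nat_lit 5) (nat_lit 51) (nat_lit 4) (nat_lit 331) (nat_lit 290) (nat_lit 279))))) (XT.nd (nat_lit 234) (nat_lit 380) (nat_lit 0) (XT.nd (nat_lit 78) (nat_lit 152) (nat_lit 0) (XT.lf (nat_lit 0) (nat_lit 51375036) (nat_lit 228) (nat_lit 80251198) (nat_lit 304) (nat_lit 9833070380) (nat_lit 44) (nat_lit 5) (nat_lit 47) (nat_lit 5) (nat_lit 48) (nat_lit 5) (nat_lit 332) (nat_lit 290) (nat_lit 278)) (XT.nd (nat_lit 78) (nat_lit 152)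 (nat_lit 0) (XT.lf (nat_lit 0) (nat_lit 3670011035) (nat_lit 304) (nat_lit 3264878703) (nat_lit 76) (nat_lit 3292417810) (nat_lit 44) (nat_lit 5) (nat_lit 48) (nat_lit 5) (nat_lit 45) (nat_lit 4) (nat_lit 333) (nat_lit 290) (nat_lit 277)) (XT.lf (nat_lit 0) (nat_lit 3654927583) (nat_lit 152) (nat_lit 3673556879) (nat_lit 228) (nat_lit 3177513841) (nat_lit 42) (nat_lit 5) (nat_lit 44) (nat_lit 5) (nat_lit 45) (nat_lit 4) (nat_lit 334) (nat_lit 290) (nat_lit 276)))) (XT.nd (nat_lit 78) (nat_lit 152) (nat_lit 0) (XT.lf (nat_lit 0) (nat_lit 55536172) (nat_lit 152) (nat_lit 246524111) (nat_lit 228) (nat_lit 10499236977) (nat_lit 39) (nat_lit 5) (nat_lit 41) (nat_lit 5) (nat_lit 42) (nat_lit 5) (nat_lit 335) (nat_lit 290) (nat_lit 275)) (XT.nd (nat_lit 78) (nat_lit 152) (nat_lit 0) (XT.lf (nat_lit 0) (nat_lit 3906436289) (nat_lit 228) (nat_lit 3846132334) (nat_lit 76) (nat_lit 3353400671) (nat_lit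 39) (nat_lit 5) (nat_lit 42) (nat_lit 5) (nat_lit 40) (nat_lit 4) (nat_lit 336) (nat_lit 290) (nat_lit 274)) (XT.lf (nat_lit 0) (nat_lit 3329993049) (nat_lit 152) (nat_lit 4309782591) (nat_lit 228) (nat_lit 3788750704) (nat_lit 37) (nat_lit 5) (nat_lit 39) (nat_lit 5) (nat_lit 40) (nat_lit 4) (nat_lit 337) (nat_lit 290) (nat_lit 273)))))) (XT.nd (nat_lit 468) (nat_lit 532) (nat_lit 0) (XT.nd (nat_lit 234) (nat_lit 228) (nat_lit 0) (XT.nd (nat_lit 78) (nat_lit 380) (nat_lit 0) (XT.lf (nat_lit 0) (nat_lit 10830188181) (nat_lit 152) (nat_lit 689924357) (nat_lit 228) (nat_lit 249166599) (nat_lit 37) (nat_lit 5) (nat_lit 39) (nat_lit 5) (nat_lit 40) (nat_lit 4) (nat_lit 338) (nat_lit 290) (nat_lit 272)) (XT.nd (nat_lit 78) (nat_lit 152) (nat_lit 0) (XT.lf (nat_lit 0) (nat_lit 3407647251) (nat_lit 228) (nat_lit 5603747317) (nat_lit 76) (nat_lit 3110483341) (nat_lit 34) (nat_lit 5) (nat_lit 37)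 (nat_lit 5) (nat_lit 35) (nat_lit 4) (nat_lit 339) (nat_lit 290) (nat_lit 271)) (XT.lf (nat_lit 0) (nat_lit 1765233484) (nat_lit 152) (nat_lit 5428555772) (nat_lit 228) (nat_lit 5300442997) (nat_lit 32) (nat_lit 5) (nat_lit 34) (nat_lit 5) (nat_lit 35) (nat_lit 4) (nat_lit 340) (nat_lit 290) (nat_lit 270)))) (XT.nd (nat_lit 78) (nat_lit 228) (nat_lit 0) (XT.lf (nat_lit 0) (nat_lit 9534761640) (nat_lit 152) (nat_lit 1631438707) (nat_lit 228) (nat_lit 1719225321) (nat_lit 32) (nat_lit 5) (nat_lit 34) (nat_lit 5) (nat_lit 35) (nat_lit 4) (nat_lit 341) (nat_lit 290) (nat_lit 269)) (XT.nd (nat_lit 78) (nat_lit 0) (nat_lit 0) (XT.lf (nat_lit 0) (nat_lit 1986135872) (nat_lit 228) (nat_lit 8987524508) (nat_lit 76) (nat_lit 2320467589) (nat_lit 29) (nat_lit 5) (nat_lit 32) (nat_lit 5) (nat_lit 30) (nat_lit 4) (nat_lit 342) (nat_lit 290) (nat_lit 268)) (XT.lf (nat_lit 0) (nat_lit 5809653275) (nat_lit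 228) (nat_lit 1472315305) (nat_lit 76) (nat_lit 6440414328) (nat_lit 29) (nat_lit 5) (nat_lit 32) (nat_lit 5) (nat_lit 30) (nat_lit 4) (nat_lit 343) (nat_lit 290) (nat_lit 267))))) (XT.nd (nat_lit 234) (nat_lit 228) (nat_lit 0) (XT.nd (nat_lit 78) (nat_lit 228) (nat_lit 0) (XT.lf (nat_lit 0) (nat_lit 6474360196) (nat_lit 76) (nat_lit 3361778909) (nat_lit 152) (nat_lit 4335379000) (nat_lit 28) (nat_lit 5) (nat_lit 29) (nat_lit 5) (nat_lit 30) (nat_lit 4) (nat_lit 344) (nat_lit 290) (nat_lit 266)) (XT.nd (nat_lit 78) (nat_lit 76) (nat_lit 0) (XT.lf (nat_lit 0) (nat_lit 64984451) (nat_lit 152) (nat_lit 13948771898) (nat_lit 152) (nat_lit 631917775) (nat_lit 26) (nat_lit 4) (nat_lit 28) (nat_lit 5) (nat_lit 28) (nat_lit 4) (nat_lit 345) (nat_lit 290) (nat_lit 265)) (XT.lf (nat_lit 0) (nat_lit 3252150724) (nat_lit 228) (nat_lit 6915679249) (nat_lit 76) (nat_lit 4968231531) (nat_lit 25) (nat_lit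 5) (nat_lit 28) (nat_lit 5) (nat_lit 26) (nat_lit 4) (nat_lit 346) (nat_lit 290) (nat_lit 264)))) (XT.nd (nat_lit 78) (nat_lit 152) (nat_lit 0) (XT.lf (nat_lit 0) (nat_lit 1008769933) (nat_lit 76) (nat_lit 6232419468) (nat_lit 152) (nat_lit 8412707730) (nat_lit 24) (nat_lit 5) (nat_lit 25) (nat_lit 5) (nat_lit 26) (nat_lit 4) (nat_lit 347) (nat_lit 290) (nat_lit 263)) (XT.nd (nat_lit 78) (nat_lit 152) (nat_lit 0) (XT.lf (nat_lit 0) (nat_lit 9426149585) (nat_lit 76) (nat_lit 2038653633) (nat_lit 152) (nat_lit 4731109929) (nat_lit 24) (nat_lit 5) (nat_lit 25) (nat_lit 5) (nat_lit 26) (nat_lit 4) (nat_lit 348) (nat_lit 290) (nat_lit 262)) (XT.lf (nat_lit 0) (nat_lit 1366591417) (nat_lit 152) (nat_lit 14512258401) (nat_lit 152) (nat_lit 887260181) (nat_lit 22) (nat_lit 4) (nat_lit 24) (nat_lit 5) (nat_lit 24) (nat_lit 4) (nat_lit 349) (nat_lit 290) (nat_lit 261))))))))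
noncomputable def xc74 : XT := (XT.nd (nat_lit 1794) (nat_lit 456) (nat_lit 0) (XT.nd (nat_lit 858) (nat_lit 380) (nat_lit 0) (XT.nd (nat_lit 390) (nat_lit 228) (nat_lit 0) (XT.nd (nat_lit 156) (nat_lit 152) (nat_lit 0) (XT.nd (nat_lit 78) (nat_lit 76) (nat_lit 0) (XT.lf (nat_lit 0) (nat_lit 3119255125) (nat_lit 228) (nat_lit 7438734842) (nat_lit 76) (nat_lit 6800844645) (nat_lit 21) (nat_lit 5) (nat_lit 24) (nat_lit 5) (nat_lit 22) (nat_lit 4) (nat_lit 350) (nat_lit 290) (nat_lit 260)) (XT.lf (nat_lit 0) (nat_lit 797757681) (nat_lit 76) (nat_lit 6436027887) (nat_lit 152) (nat_lit 10749844102) (nat_lit 20) (nat_lit 5) (nat_lit 21) (nat_lit 5) (nat_lit 22) (nat_lit 4) (nat_lit 351) (nat_lit 290) (nat_lit 259))) (XT.nd (nat_lit 78) (nat_lit 152) (nat_lit 0) (XT.lf (nat_lit 0) (nat_lit 9573162821) (nat_lit 76) (nat_lit 2033431241) (nat_lit 152) (nat_lit 7030477920) (nat_lit 20) (nat_lit 5)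 (nat_lit 21) (nat_lit 5) (nat_lit 22) (nat_lit 4) (nat_lit 352) (nat_lit 290) (nat_lit 258)) (XT.nd (nat_lit 78) (nat_lit 152) (nat_lit 0) (XT.lf (nat_lit 0) (nat_lit 16167680045) (nat_lit 152) (nat_lit 703867697) (nat_lit 0) (nat_lit 2453190222) (nat_lit 20) (nat_lit 5) (nat_lit 22) (nat_lit 4) (nat_lit 20) (nat_lit 4) (nat_lit 353) (nat_lit 290) (nat_lit 257)) (XT.lf (nat_lit 0) (nat_lit 976058528) (nat_lit 152) (nat_lit 11876707532) (nat_lit 76) (nat_lit 7188583470) (nat_lit 18) (nat_lit 5) (nat_lit 20) (nat_lit 5) (nat_lit 19) (nat_lit 4) (nat_lit 354) (nat_lit 290) (nat_lit 256))))) (XT.nd (nat_lit 234) (nat_lit 152) (nat_lit 0) (XT.nd (nat_lit 78) (nat_lit 76) (nat_lit 0) (XT.lf (nat_lit 0) (nat_lit 5154661767) (nat_lit 152) (nat_lit 3465940123) (nat_lit 76) (nat_lit 12173384450) (nat_lit 18) (nat_lit 5) (nat_lit 20) (nat_lit 5) (nat_lit 19) (nat_lit 4) (nat_lit 355) (nat_lit 290)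 (nat_lit 255)) (XT.nd (nat_lit 78) (nat_lit 0) (nat_lit 0) (XT.lf (nat_lit 0) (nat_lit 5422925638) (nat_lit 76) (nat_lit 4139949036) (nat_lit 152) (nat_lit 12020373827) (nat_lit 17) (nat_lit 5) (nat_lit 18) (nat_lit 5) (nat_lit 19) (nat_lit 4) (nat_lit 356) (nat_lit 290) (nat_lit 254)) (XT.lf (nat_lit 0) (nat_lit 14196449731) (nat_lit 152) (nat_lit 7658749970) (nat_lit 0) (nat_lit 556552667) (nat_lit 17) (nat_lit 5) (nat_lit 19) (nat_lit 4) (nat_lit 17) (nat_lit 4) (nat_lit 357) (nat_lit 290) (nat_lit 253)))) (XT.nd (nat_lit 78) (nat_lit 76) (nat_lit 0) (XT.lf (nat_lit 0) (nat_lit 1125095043) (nat_lit 76) (nat_lit 17961542174) (nat_lit 76) (nat_lit 4193822459) (nat_lit 16) (nat_lit 4) (nat_lit 17) (nat_lit 5) (nat_lit 17) (nat_lit 4) (nat_lit 358) (nat_lit 290) (nat_lit 252)) (XT.nd (nat_lit 78) (nat_lit 0) (nat_lit 0) (XT.lf (nat_lit 0) (nat_lit 99324033) (nat_lit 152) (nat_lit 13685841305)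 (nat_lit 76) (nat_lit 10403861599) (nat_lit 15) (nat_lit 5) (nat_lit 17) (nat_lit 5) (nat_lit 16) (nat_lit 4) (nat_lit 359) (nat_lit 290) (nat_lit 251)) (XT.lf (nat_lit 0) (nat_lit 4408741207) (nat_lit 152) (nat_lit 4967475011) (nat_lit 76) (nat_lit 15766262654) (nat_lit 15) (nat_lit 5) (nat_lit 17) (nat_lit 5) (nat_lit 16) (nat_lit 4) (nat_lit 360) (nat_lit 290) (nat_lit 250)))))) (XT.nd (nat_lit 468) (nat_lit 152) (nat_lit 0) (XT.nd (nat_lit 234) (nat_lit 152) (nat_lit 0) (XT.nd (nat_lit 78) (nat_lit 0) (nat_lit 0) (XT.lf (nat_lit 0) (nat_lit 4221070194) (nat_lit 76) (nat_lit 4723750631) (nat_lit 152) (nat_lit 17198243508) (nat_lit 14) (nat_lit 5) (nat_lit 15) (nat_lit 5) (nat_lit 16) (nat_lit 4) (nat_lit 361) (nat_lit 290) (nat_lit 249)) (XT.nd (nat_lit 78) (nat_lit 0) (nat_lit 0) (XT.lf (nat_lit 0) (nat_lit 13741362926) (nat_lit 152) (nat_lit 13253073167) (nat_lit 0) (nat_lit 197579583)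 (nat_lit 14) (nat_lit 5) (nat_lit 16) (nat_lit 4) (nat_lit 14) (nat_lit 4) (nat_lit 362) (nat_lit 290) (nat_lit 248)) (XT.lf (nat_lit 0) (nat_lit 18803393373) (nat_lit 152) (nat_lit 4324529953) (nat_lit 0) (nat_lit 5164226800) (nat_lit 14) (nat_lit 5) (nat_lit 16) (nat_lit 4) (nat_lit 14) (nat_lit 4) (nat_lit 363) (nat_lit 290) (nat_lit 247)))) (XT.nd (nat_lit 78) (nat_lit 76) (nat_lit 0) (XT.lf (nat_lit 0) (nat_lit 5122600118) (nat_lit 76) (nat_lit 19026591660) (nat_lit 76) (nat_lit 5296583915) (nat_lit 13) (nat_lit 4) (nat_lit 14) (nat_lit 5) (nat_lit 14) (nat_lit 4) (nat_lit 364) (nat_lit 290) (nat_lit 246)) (XT.nd (nat_lit 78) (nat_lit 76) (nat_lit 0) (XT.lf (nat_lit 0) (nat_lit 15101909684) (nat_lit 76) (nat_lit 14685234828) (nat_lit 76) (nat_lit 868711681) (nat_lit 13) (nat_lit 4) (nat_lit 14) (nat_lit 5) (nat_lit 14) (nat_lit 4) (nat_lit 365) (nat_lit 290) (nat_lit 245)) (XT.lf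 (nat_lit 0) (nat_lit 3612711922) (nat_lit 152) (nat_lit 6492859327) (nat_lit 76) (nat_lit 21820275566) (nat_lit 12) (nat_lit 5) (nat_lit 14) (nat_lit 5) (nat_lit 13) (nat_lit 4) (nat_lit 366) (nat_lit 290) (nat_lit 244))))) (XT.nd (nat_lit 234) (nat_lit 76) (nat_lit 0) (XT.nd (nat_lit 78) (nat_lit 0) (nat_lit 0) (XT.lf (nat_lit 0) (nat_lit 3020301658) (nat_lit 76) (nat_lit 5271255632) (nat_lit 152) (nat_lit 24966954944) (nat_lit 11) (nat_lit 5) (nat_lit 12) (nat_lit 5) (nat_lit 13) (nat_lit 4) (nat_lit 367) (nat_lit 290) (nat_lit 243)) (XT.nd (nat_lit 78) (nat_lit 0) (nat_lit 0) (XT.lf (nat_lit 0) (nat_lit 13152475501) (nat_lit 76) (nat_lit 118061838) (nat_lit 152) (nat_lit 21383977847) (nat_lit 11) (nat_lit 5) (nat_lit 12) (nat_lit 5) (nat_lit 13) (nat_lit 4) (nat_lit 368) (nat_lit 290) (nat_lit 242)) (XT.lf (nat_lit 0) (nat_lit 18538849129) (nat_lit 152) (nat_lit 12491378377) (nat_lit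 0) (nat_lit 5088084863) (nat_lit 11) (nat_lit 5) (nat_lit 13) (nat_lit 4) (nat_lit 11) (nat_lit 4) (nat_lit 369) (nat_lit 290) (nat_lit 241)))) (XT.nd (nat_lit 78) (nat_lit 76) (nat_lit 0) (XT.lf (nat_lit 0) (nat_lit 24032271405) (nat_lit 152) (nat_lit 3108007839) (nat_lit 0) (nat_lit 10516948014) (nat_lit 11) (nat_lit 5) (nat_lit 13) (nat_lit 4) (nat_lit 11) (nat_lit 4) (nat_lit 370) (nat_lit 290) (nat_lit 240)) (XT.nd (nat_lit 78) (nat_lit 0) (nat_lit 0) (XT.lf (nat_lit 0) (nat_lit 6892871496) (nat_lit 76) (nat_lit 22976786012) (nat_lit 76) (nat_lit 9399977739) (nat_lit 10) (nat_lit 4) (nat_lit 11) (nat_lit 5) (nat_lit 11) (nat_lit 4) (nat_lit 371) (nat_lit 290) (nat_lit 239)) (XT.lf (nat_lit 0) (nat_lit 17430588869) (nat_lit 76) (nat_lit 18583350092) (nat_lit 76) (nat_lit 4947984791) (nat_lit 10) (nat_lit 4) (nat_lit 11) (nat_lit 5) (nat_lit 11) (nat_lit 4) (nat_lit 372) (nat_lit 290)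 (nat_lit 238))))))) (XT.nd (nat_lit 858) (nat_lit 228) (nat_lit 0) (XT.nd (nat_lit 390) (nat_lit 76) (nat_lit 0) (XT.nd (nat_lit 156) (nat_lit 76) (nat_lit 0) (XT.nd (nat_lit 78) (nat_lit 76) (nat_lit 0) (XT.lf (nat_lit 0) (nat_lit 28427469309) (nat_lit 76) (nat_lit 14002146542) (nat_lit 76) (nat_lit 311012642) (nat_lit 10) (nat_lit 4) (nat_lit 11) (nat_lit 5) (nat_lit 11) (nat_lit 4) (nat_lit 373) (nat_lit 290) (nat_lit 237)) (XT.lf (nat_lit 0) (nat_lit 4377247546) (nat_lit 152) (nat_lit 4770889383) (nat_lit 76) (nat_lit 35458317512) (nat_lit 9) (nat_lit 5) (nat_lit 11) (nat_lit 5) (nat_lit 10) (nat_lit 4) (nat_lit 374) (nat_lit 290) (nat_lit 236))) (XT.nd (nat_lit 78) (nat_lit 0) (nat_lit 0) (XT.lf (nat_lit 0) (nat_lit 5352170090) (nat_lit 76) (nat_lit 3987830254) (nat_lit 152) (nat_lit 37222799225) (nat_lit 8) (nat_lit 5) (nat_lit 9) (nat_lit 5) (nat_lit 10) (nat_lit 4) (nat_lit 375)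 (nat_lit 290) (nat_lit 235)) (XT.nd (nat_lit 78) (nat_lit 0) (nat_lit 0) (XT.lf (nat_lit 0) (nat_lit 14622473970) (nat_lit 152) (nat_lit 32552258688) (nat_lit 0) (nat_lit 1438659085) (nat_lit 8) (nat_lit 5) (nat_lit 10) (nat_lit 4) (nat_lit 8) (nat_lit 4) (nat_lit 376) (nat_lit 290) (nat_lit 234)) (XT.lf (nat_lit 0) (nat_lit 20203138244) (nat_lit 152) (nat_lit 23586053253) (nat_lit 0) (nat_lit 6975627202) (nat_lit 8) (nat_lit 5) (nat_lit 10) (nat_lit 4) (nat_lit 8) (nat_lit 4) (nat_lit 377) (nat_lit 290) (nat_lit 233))))) (XT.nd (nat_lit 234) (nat_lit 0) (nat_lit 0) (XT.nd (nat_lit 78) (nat_lit 76) (nat_lit 0) (XT.lf (nat_lit 0) (nat_lit 26033019255) (nat_lit 152) (nat_lit 14228403861) (nat_lit 0) (nat_lit 12763892826) (nat_lit 8) (nat_lit 5) (nat_lit 10) (nat_lit 4) (nat_lit 8) (nat_lit 4) (nat_lit 378) (nat_lit 290) (nat_lit 232)) (XT.nd (nat_lit 78) (nat_lit 76) (nat_lit 0) (XT.lf (nat_lit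 0) (nat_lit 32125997674) (nat_lit 152) (nat_lit 4457030395) (nat_lit 0) (nat_lit 18817237542) (nat_lit 8) (nat_lit 5) (nat_lit 10) (nat_lit 4) (nat_lit 8) (nat_lit 4) (nat_lit 379) (nat_lit 290) (nat_lit 231)) (XT.lf (nat_lit 0) (nat_lit 5941497341) (nat_lit 76) (nat_lit 32647846674) (nat_lit 76) (nat_lit 19301340159) (nat_lit 7) (nat_lit 4) (nat_lit 8) (nat_lit 5) (nat_lit 8) (nat_lit 4) (nat_lit 380) (nat_lit 290) (nat_lit 230)))) (XT.nd (nat_lit 78) (nat_lit 0) (nat_lit 0) (XT.lf (nat_lit 0) (nat_lit 16963941998) (nat_lit 76) (nat_lit 28460848738) (nat_lit 76) (nat_lit 15078393287) (nat_lit 7) (nat_lit 4) (nat_lit 8) (nat_lit 5) (nat_lit 8) (nat_lit 4) (nat_lit 381) (nat_lit 290) (nat_lit 229)) (XT.nd (nat_lit 78) (nat_lit 0) (nat_lit 0) (XT.lf (nat_lit 0) (nat_lit 28489177938) (nat_lit 76) (nat_lit 24087547186) (nat_lit 76) (nat_lit 10670854652) (nat_lit 7) (nat_lit 4) (nat_lit 8)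 (nat_lit 5) (nat_lit 8) (nat_lit 4) (nat_lit 382) (nat_lit 290) (nat_lit 228)) (XT.lf (nat_lit 0) (nat_lit 40544646199) (nat_lit 76) (nat_lit 19517529394) (nat_lit 76) (nat_lit 6068230115) (nat_lit 7) (nat_lit 4) (nat_lit 8) (nat_lit 5) (nat_lit 8) (nat_lit 4) (nat_lit 383) (nat_lit 290) (nat_lit 227)))))) (XT.nd (nat_lit 468) (nat_lit 76) (nat_lit 0) (XT.nd (nat_lit 234) (nat_lit 0) (nat_lit 0) (XT.nd (nat_lit 78) (nat_lit 152) (nat_lit 0) (XT.lf (nat_lit 0) (nat_lit 53159050277) (nat_lit 76) (nat_lit 14739914367) (nat_lit 76) (nat_lit 1259561046) (nat_lit 7) (nat_lit 4) (nat_lit 8) (nat_lit 5) (nat_lit 8) (nat_lit 4) (nat_lit 384) (nat_lit 290) (nat_lit 226)) (XT.nd (nat_lit 78) (nat_lit 76) (nat_lit 0) (XT.lf (nat_lit 0) (nat_lit 3646046988) (nat_lit 152) (nat_lit 6035532274) (nat_lit 76) (nat_lit 62654629909) (nat_lit 6) (nat_lit 5) (nat_lit 8) (nat_lit 5) (nat_lit 7) (nat_lit 4) (nat_lit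 385) (nat_lit 290) (nat_lit 225)) (XT.lf (nat_lit 0) (nat_lit 4509835917) (nat_lit 76) (nat_lit 4294033082) (nat_lit 152) (nat_lit 66865417478) (nat_lit 5) (nat_lit 5) (nat_lit 6) (nat_lit 5) (nat_lit 7) (nat_lit 4) (nat_lit 386) (nat_lit 290) (nat_lit 224)))) (XT.nd (nat_lit 78) (nat_lit 0) (nat_lit 0) (XT.lf (nat_lit 0) (nat_lit 14323690876) (nat_lit 152) (nat_lit 63435407996) (nat_lit 0) (nat_lit 1404718321) (nat_lit 5) (nat_lit 5) (nat_lit 7) (nat_lit 4) (nat_lit 5) (nat_lit 4) (nat_lit 387) (nat_lit 290) (nat_lit 223)) (XT.nd (nat_lit 78) (nat_lit 0) (nat_lit 0) (XT.lf (nat_lit 0) (nat_lit 20169840606) (nat_lit 152) (nat_lit 55434185348) (nat_lit 0) (nat_lit 7226536396) (nat_lit 5) (nat_lit 5) (nat_lit 7) (nat_lit 4) (nat_lit 5) (nat_lit 4) (nat_lit 388) (nat_lit 290) (nat_lit 222)) (XT.lf (nat_lit 0) (nat_lit 26289195705) (nat_lit 152) (nat_lit 47069690198) (nat_lit 0) (nat_lit 13322718490)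 (nat_lit 5) (nat_lit 5) (nat_lit 7) (nat_lit 4) (nat_lit 5) (nat_lit 4) (nat_lit 389) (nat_lit 290) (nat_lit 221))))) (XT.nd (nat_lit 234) (nat_lit 76) (nat_lit 0) (XT.nd (nat_lit 78) (nat_lit 0) (nat_lit 0) (XT.lf (nat_lit 0) (nat_lit 32696326065) (nat_lit 152) (nat_lit 38322007079) (nat_lit 0) (nat_lit 19707779322) (nat_lit 5) (nat_lit 5) (nat_lit 7) (nat_lit 4) (nat_lit 5) (nat_lit 4) (nat_lit 390) (nat_lit 290) (nat_lit 220)) (XT.nd (nat_lit 78) (nat_lit 0) (nat_lit 0) (XT.lf (nat_lit 0) (nat_lit 39406486759) (nat_lit 152) (nat_lit 29170308175) (nat_lit 0) (nat_lit 26396921417) (nat_lit 5) (nat_lit 5) (nat_lit 7) (nat_lit 4) (nat_lit 5) (nat_lit 4) (nat_lit 391) (nat_lit 290) (nat_lit 219)) (XT.lf (nat_lit 0) (nat_lit 46435654360) (nat_lit 152) (nat_lit 19592803726) (nat_lit 0) (nat_lit 33406071305) (nat_lit 5) (nat_lit 5) (nat_lit 7) (nat_lit 4) (nat_lit 5) (nat_lit 4) (nat_lit 392)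 (nat_lit 290) (nat_lit 218)))) (XT.nd (nat_lit 78) (nat_lit 76) (nat_lit 0) (XT.lf (nat_lit 0) (nat_lit 53800564980) (nat_lit 152) (nat_lit 9566690152) (nat_lit 0) (nat_lit 40751917437) (nat_lit 5) (nat_lit 5) (nat_lit 7) (nat_lit 4) (nat_lit 5) (nat_lit 4) (nat_lit 393) (nat_lit 290) (nat_lit 217)) (XT.nd (nat_lit 78) (nat_lit 0) (nat_lit 0) (XT.lf (nat_lit 0) (nat_lit 962717210) (nat_lit 76) (nat_lit 60571067625) (nat_lit 76) (nat_lit 47504263426) (nat_lit 4) (nat_lit 4) (nat_lit 5) (nat_lit 5) (nat_lit 5) (nat_lit 4) (nat_lit 394) (nat_lit 290) (nat_lit 216)) (XT.lf (nat_lit 0) (nat_lit 12322368885) (nat_lit 76) (nat_lit 57478616253) (nat_lit 76) (nat_lit 44394520001) (nat_lit 4) (nat_lit 4) (nat_lit 5) (nat_lit 5) (nat_lit 5) (nat_lit 4) (nat_lit 395) (nat_lit 290) (nat_lit 215))))))))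
noncomputable def xc75 : XT := (XT.nd (nat_lit 1794) (nat_lit 0) (nat_lit 0) (XT.nd (nat_lit 858) (nat_lit 76) (nat_lit 0) (XT.nd (nat_lit 390) (nat_lit 76) (nat_lit 0) (XT.nd (nat_lit 156) (nat_lit 0) (nat_lit 0) (XT.nd (nat_lit 78) (nat_lit 0) (nat_lit 0) (XT.lf (nat_lit 0) (nat_lit 24222993681) (nat_lit 76) (nat_lit 54244554563) (nat_lit 76) (nat_lit 41143989689) (nat_lit 4) (nat_lit 4) (nat_lit 5) (nat_lit 5) (nat_lit 5) (nat_lit 4) (nat_lit 396) (nat_lit 290) (nat_lit 214)) (XT.lf (nat_lit 0) (nat_lit 36692926418) (nat_lit 76) (nat_lit 50861182409) (nat_lit 76) (nat_lit 37744933132) (nat_lit 4) (nat_lit 4) (nat_lit 5) (nat_lit 5) (nat_lit 5) (nat_lit 4) (nat_lit 397) (nat_lit 290) (nat_lit 213))) (XT.nd (nat_lit 78) (nat_lit 0) (nat_lit 0) (XT.lf (nat_lit 0) (nat_lit 49761857412) (nat_lit 76) (nat_lit 47320444142) (nat_lit 76) (nat_lit 34189257340) (nat_lit 4) (nat_lit 4) (nat_lit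 5) (nat_lit 5) (nat_lit 5) (nat_lit 4) (nat_lit 398) (nat_lit 290) (nat_lit 212)) (XT.nd (nat_lit 78) (nat_lit 0) (nat_lit 0) (XT.lf (nat_lit 0) (nat_lit 63460903166) (nat_lit 76) (nat_lit 43613909433) (nat_lit 76) (nat_lit 30468496416) (nat_lit 4) (nat_lit 4) (nat_lit 5) (nat_lit 5) (nat_lit 5) (nat_lit 4) (nat_lit 399) (nat_lit 290) (nat_lit 211)) (XT.lf (nat_lit 0) (nat_lit 77822680456) (nat_lit 76) (nat_lit 39732753200) (nat_lit 76) (nat_lit 26573791407) (nat_lit 4) (nat_lit 4) (nat_lit 5) (nat_lit 5) (nat_lit 5) (nat_lit 4) (nat_lit 400) (nat_lit 290) (nat_lit 210))))) (XT.nd (nat_lit 234) (nat_lit 76) (nat_lit 0) (XT.nd (nat_lit 78) (nat_lit 0) (nat_lit 0) (XT.lf (nat_lit 0) (nat_lit 92881383989) (nat_lit 76) (nat_lit 35667734595) (nat_lit 76) (nat_lit 22495869206) (nat_lit 4) (nat_lit 4) (nat_lit 5) (nat_lit 5) (nat_lit 5) (nat_lit 4) (nat_lit 401) (nat_lit 290) (nat_lit 209)) (XT.nd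 (nat_lit 78) (nat_lit 0) (nat_lit 0) (XT.lf (nat_lit 0) (nat_lit 108672867822) (nat_lit 76) (nat_lit 31409175001) (nat_lit 76) (nat_lit 18225020473) (nat_lit 4) (nat_lit 4) (nat_lit 5) (nat_lit 5) (nat_lit 5) (nat_lit 4) (nat_lit 402) (nat_lit 290) (nat_lit 208)) (XT.lf (nat_lit 0) (nat_lit 125234730725) (nat_lit 76) (nat_lit 26946934991) (nat_lit 76) (nat_lit 13751076521) (nat_lit 4) (nat_lit 4) (nat_lit 5) (nat_lit 5) (nat_lit 5) (nat_lit 4) (nat_lit 403) (nat_lit 290) (nat_lit 207)))) (XT.nd (nat_lit 78) (nat_lit 76) (nat_lit 0) (XT.lf (nat_lit 0) (nat_lit 142606405705) (nat_lit 76) (nat_lit 22270390185) (nat_lit 76) (nat_lit 9063385103) (nat_lit 4) (nat_lit 4) (nat_lit 5) (nat_lit 5) (nat_lit 5) (nat_lit 4) (nat_lit 404) (nat_lit 290) (nat_lit 206)) (XT.nd (nat_lit 78) (nat_lit 76) (nat_lit 0) (XT.lf (nat_lit 0) (nat_lit 160829253894) (nat_lit 76) (nat_lit 17368405951) (nat_lit 76)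 (nat_lit 4150785049) (nat_lit 4) (nat_lit 4) (nat_lit 5) (nat_lit 5) (nat_lit 5) (nat_lit 4) (nat_lit 405) (nat_lit 290) (nat_lit 205)) (XT.lf (nat_lit 0) (nat_lit 966464623) (nat_lit 152) (nat_lit 11246478730) (nat_lit 76) (nat_lit 178963830855) (nat_lit 3) (nat_lit 5) (nat_lit 5) (nat_lit 5) (nat_lit 4) (nat_lit 4) (nat_lit 406) (nat_lit 290) (nat_lit 204)))))) (XT.nd (nat_lit 468) (nat_lit 0) (nat_lit 0) (XT.nd (nat_lit 234) (nat_lit 0) (nat_lit 0) (XT.nd (nat_lit 78) (nat_lit 76) (nat_lit 0) (XT.lf (nat_lit 0) (nat_lit 6191763323) (nat_lit 152) (nat_lit 544245257) (nat_lit 76) (nat_lit 193707526906) (nat_lit 3) (nat_lit 5) (nat_lit 5) (nat_lit 5) (nat_lit 4) (nat_lit 4) (nat_lit 407) (nat_lit 290) (nat_lit 203)) (XT.nd (nat_lit 78) (nat_lit 0) (nat_lit 0) (XT.lf (nat_lit 0) (nat_lit 11030852482) (nat_lit 76) (nat_lit 811773321) (nat_lit 152) (nat_lit 198322795787) (nat_lit 2) (nat_lit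 5) (nat_lit 3) (nat_lit 5) (nat_lit 4) (nat_lit 4) (nat_lit 408) (nat_lit 290) (nat_lit 202)) (XT.lf (nat_lit 0) (nat_lit 17861949093) (nat_lit 152) (nat_lit 197269270574) (nat_lit 0) (nat_lit 5237888068) (nat_lit 2) (nat_lit 5) (nat_lit 4) (nat_lit 4) (nat_lit 2) (nat_lit 4) (nat_lit 409) (nat_lit 290) (nat_lit 201)))) (XT.nd (nat_lit 78) (nat_lit 0) (nat_lit 0) (XT.lf (nat_lit 0) (nat_lit 24188027237) (nat_lit 152) (nat_lit 195338618539) (nat_lit 0) (nat_lit 11556044523) (nat_lit 2) (nat_lit 5) (nat_lit 4) (nat_lit 4) (nat_lit 2) (nat_lit 4) (nat_lit 410) (nat_lit 290) (nat_lit 200)) (XT.nd (nat_lit 78) (nat_lit 0) (nat_lit 0) (XT.lf (nat_lit 0) (nat_lit 30823248269) (nat_lit 152) (nat_lit 193325342157) (nat_lit 0) (nat_lit 18183721089) (nat_lit 2) (nat_lit 5) (nat_lit 4) (nat_lit 4) (nat_lit 2) (nat_lit 4) (nat_lit 411) (nat_lit 290) (nat_lit 199)) (XT.lf (nat_lit 0) (nat_lit 37783410333)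 (nat_lit 152) (nat_lit 191224647911) (nat_lit 0) (nat_lit 25136697948) (nat_lit 2) (nat_lit 5) (nat_lit 4) (nat_lit 4) (nat_lit 2) (nat_lit 4) (nat_lit 412) (nat_lit 290) (nat_lit 198))))) (XT.nd (nat_lit 234) (nat_lit 0) (nat_lit 0) (XT.nd (nat_lit 78) (nat_lit 0) (nat_lit 0) (XT.lf (nat_lit 0) (nat_lit 45085085245) (nat_lit 152) (nat_lit 189031534150) (nat_lit 0) (nat_lit 32431529807) (nat_lit 2) (nat_lit 5) (nat_lit 4) (nat_lit 4) (nat_lit 2) (nat_lit 4) (nat_lit 413) (nat_lit 290) (nat_lit 197)) (XT.nd (nat_lit 78) (nat_lit 0) (nat_lit 0) (XT.lf (nat_lit 0) (nat_lit 52745657944) (nat_lit 152) (nat_lit 186740779173) (nat_lit 0) (nat_lit 40085585314) (nat_lit 2) (nat_lit 5) (nat_lit 4) (nat_lit 4) (nat_lit 2) (nat_lit 4) (nat_lit 414) (nat_lit 290) (nat_lit 196)) (XT.lf (nat_lit 0) (nat_lit 60783367890) (nat_lit 152) (nat_lit 184346928802) (nat_lit 0) (nat_lit 48117088409) (nat_lit 2)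 (nat_lit 5) (nat_lit 4) (nat_lit 4) (nat_lit 2) (nat_lit 4) (nat_lit 415) (nat_lit 290) (nat_lit 195)))) (XT.nd (nat_lit 78) (nat_lit 0) (nat_lit 0) (XT.lf (nat_lit 0) (nat_lit 69217352487) (nat_lit 152) (nat_lit 181844283393) (nat_lit 0) (nat_lit 56545161720) (nat_lit 2) (nat_lit 5) (nat_lit 4) (nat_lit 4) (nat_lit 2) (nat_lit 4) (nat_lit 416) (nat_lit 290) (nat_lit 194)) (XT.nd (nat_lit 78) (nat_lit 0) (nat_lit 0) (XT.lf (nat_lit 0) (nat_lit 78067692650) (nat_lit 152) (nat_lit 179226884267) (nat_lit 0) (nat_lit 65389872087) (nat_lit 2) (nat_lit 5) (nat_lit 4) (nat_lit 4) (nat_lit 2) (nat_lit 4) (nat_lit 417) (nat_lit 290) (nat_lit 193)) (XT.lf (nat_lit 0) (nat_lit 87355460619) (nat_lit 152) (nat_lit 176488499521) (nat_lit 0) (nat_lit 74672278345) (nat_lit 2) (nat_lit 5) (nat_lit 4) (nat_lit 4) (nat_lit 2) (nat_lit 4) (nat_lit 418) (nat_lit 290) (nat_lit 192))))))) (XT.nd (nat_lit 858)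 (nat_lit 0) (nat_lit 0) (XT.nd (nat_lit 390) (nat_lit 0) (nat_lit 0) (XT.nd (nat_lit 156) (nat_lit 0) (nat_lit 0) (XT.nd (nat_lit 78) (nat_lit 0) (nat_lit 0) (XT.lf (nat_lit 0) (nat_lit 97102770127) (nat_lit 152) (nat_lit 173622609191) (nat_lit 0) (nat_lit 84414481462) (nat_lit 2) (nat_lit 5) (nat_lit 4) (nat_lit 4) (nat_lit 2) (nat_lit 4) (nat_lit 419) (nat_lit 290) (nat_lit 191)) (XT.lf (nat_lit 0) (nat_lit 107332829052) (nat_lit 152) (nat_lit 170622389729) (nat_lit 0) (nat_lit 94639677158) (nat_lit 2) (nat_lit 5) (nat_lit 4) (nat_lit 4) (nat_lit 2) (nat_lit 4) (nat_lit 420) (nat_lit 290) (nat_lit 190))) (XT.nd (nat_lit 78) (nat_lit 0) (nat_lit 0) (XT.lf (nat_lit 0) (nat_lit 118069994680) (nat_lit 152) (nat_lit 167480697755) (nat_lit 0) (nat_lit 105372211137) (nat_lit 2) (nat_lit 5) (nat_lit 4) (nat_lit 4) (nat_lit 2) (nat_lit 4) (nat_lit 421) (nat_lit 290) (nat_lit 189)) (XT.nd (nat_lit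 78) (nat_lit 0) (nat_lit 0) (XT.lf (nat_lit 0) (nat_lit 129339831688) (nat_lit 152) (nat_lit 164190053051) (nat_lit 0) (nat_lit 116637637053) (nat_lit 2) (nat_lit 5) (nat_lit 4) (nat_lit 4) (nat_lit 2) (nat_lit 4) (nat_lit 422) (nat_lit 290) (nat_lit 188)) (XT.lf (nat_lit 0) (nat_lit 141169173024) (nat_lit 152) (nat_lit 160742620748) (nat_lit 0) (nat_lit 128462777348) (nat_lit 2) (nat_lit 5) (nat_lit 4) (nat_lit 4) (nat_lit 2) (nat_lit 4) (nat_lit 423) (nat_lit 290) (nat_lit 187))))) (XT.nd (nat_lit 234) (nat_lit 0) (nat_lit 0) (XT.nd (nat_lit 78) (nat_lit 0) (nat_lit 0) (XT.lf (nat_lit 0) (nat_lit 153586183785) (nat_lit 152) (nat_lit 157130192673) (nat_lit 0) (nat_lit 140875787118) (nat_lit 2) (nat_lit 5) (nat_lit 4) (nat_lit 4) (nat_lit 2) (nat_lit 4) (nat_lit 424) (nat_lit 290) (nat_lit 186)) (XT.nd (nat_lit 78) (nat_lit 0) (nat_lit 0) (XT.lf (nat_lit 0) (nat_lit 166620428282) (nat_lit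 152) (nat_lit 153344167808) (nat_lit 0) (nat_lit 153906221147) (nat_lit 2) (nat_lit 5) (nat_lit 4) (nat_lit 4) (nat_lit 2) (nat_lit 4) (nat_lit 425) (nat_lit 290) (nat_lit 185)) (XT.lf (nat_lit 0) (nat_lit 180302940431) (nat_lit 152) (nat_lit 149375531808) (nat_lit 0) (nat_lit 167585104280) (nat_lit 2) (nat_lit 5) (nat_lit 4) (nat_lit 4) (nat_lit 2) (nat_lit 4) (nat_lit 426) (nat_lit 290) (nat_lit 184)))) (XT.nd (nat_lit 78) (nat_lit 0) (nat_lit 0) (XT.lf (nat_lit 0) (nat_lit 194666297642) (nat_lit 152) (nat_lit 145214835538) (nat_lit 0) (nat_lit 181945005284) (nat_lit 2) (nat_lit 5) (nat_lit 4) (nat_lit 4) (nat_lit 2) (nat_lit 4) (nat_lit 427) (nat_lit 290) (nat_lit 183)) (XT.nd (nat_lit 78) (nat_lit 0) (nat_lit 0) (XT.lf (nat_lit 0) (nat_lit 209744698385) (nat_lit 152) (nat_lit 140852172581) (nat_lit 0) (nat_lit 197020114402) (nat_lit 2) (nat_lit 5) (nat_lit 4) (nat_lit 4) (nat_lit 2)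 (nat_lit 4) (nat_lit 428) (nat_lit 290) (nat_lit 182)) (XT.lf (nat_lit 0) (nat_lit 225574043613) (nat_lit 152) (nat_lit 136277155642) (nat_lit 0) (nat_lit 212846324749) (nat_lit 2) (nat_lit 5) (nat_lit 4) (nat_lit 4) (nat_lit 2) (nat_lit 4) (nat_lit 429) (nat_lit 290) (nat_lit 181)))))) (XT.nd (nat_lit 38220) (nat_lit 0) (nat_lit 4788) (XT.nd (nat_lit 234) (nat_lit 0) (nat_lit 0) (XT.nd (nat_lit 78) (nat_lit 0) (nat_lit 0) (XT.lf (nat_lit 0) (nat_lit 242192022244) (nat_lit 152) (nat_lit 131478891825) (nat_lit 0) (nat_lit 229461317779) (nat_lit 2) (nat_lit 5) (nat_lit 4) (nat_lit 4) (nat_lit 2) (nat_lit 4) (nat_lit 430) (nat_lit 290) (nat_lit 180)) (XT.nd (nat_lit 78) (nat_lit 0) (nat_lit 0) (XT.lf (nat_lit 0) (nat_lit 259638200894) (nat_lit 152) (nat_lit 126445956692) (nat_lit 0) (nat_lit 246904652998) (nat_lit 2) (nat_lit 5) (nat_lit 4) (nat_lit 4) (nat_lit 2) (nat_lit 4) (nat_lit 431)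 (nat_lit 290) (nat_lit 179)) (XT.lf (nat_lit 0) (nat_lit 277954118082) (nat_lit 152) (nat_lit 121166367063) (nat_lit 0) (nat_lit 265217862159) (nat_lit 2) (nat_lit 5) (nat_lit 4) (nat_lit 4) (nat_lit 2) (nat_lit 4) (nat_lit 432) (nat_lit 290) (nat_lit 178)))) (XT.nd (nat_lit 78) (nat_lit 0) (nat_lit 0) (XT.lf (nat_lit 0) (nat_lit 297183383137) (nat_lit 152) (nat_lit 115627552488) (nat_lit 0) (nat_lit 284444548139) (nat_lit 2) (nat_lit 5) (nat_lit 4) (nat_lit 4) (nat_lit 2) (nat_lit 4) (nat_lit 433) (nat_lit 290) (nat_lit 177)) (XT.nd (nat_lit 37830) (nat_lit 0) (nat_lit 6612) (XT.lf (nat_lit 0) (nat_lit 317371780022) (nat_lit 152) (nat_lit 109816325312) (nat_lit 0) (nat_lit 304630488762) (nat_lit 2) (nat_lit 5) (nat_lit 4) (nat_lit 4) (nat_lit 2) (nat_lit 4) (nat_lit 434) (nat_lit 290) (nat_lit 176)) (XT.lf (nat_lit 0) (nat_lit 1802503610) (nat_lit 760) (nat_lit 115362530) (nat_lit 0)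 (nat_lit 1802503610) (nat_lit 89) (nat_lit 5) (nat_lit 99) (nat_lit 4) (nat_lit 89) (nat_lit 4) (nat_lit 318) (nat_lit 291) (nat_lit 291))))) (XT.nd (nat_lit 234) (nat_lit 760) (nat_lit 0) (XT.nd (nat_lit 78) (nat_lit 684) (nat_lit 0) (XT.lf (nat_lit 0) (nat_lit 5242831317) (nat_lit 380) (nat_lit 1891346219) (nat_lit 380) (nat_lit 425552775) (nat_lit 84) (nat_lit 4) (nat_lit 89) (nat_lit 5) (nat_lit 89) (nat_lit 4) (nat_lit 319) (nat_lit 291) (nat_lit 290)) (XT.nd (nat_lit 78) (nat_lit 304) (nat_lit 0) (XT.lf (nat_lit 0) (nat_lit 2954757254) (nat_lit 380) (nat_lit 4503433766) (nat_lit 0) (nat_lit 229245634) (nat_lit 79) (nat_lit 5) (nat_lit 84) (nat_lit 4) (nat_lit 79) (nat_lit 4) (nat_lit 320) (nat_lit 291) (nat_lit 289)) (XT.lf (nat_lit 0) (nat_lit 1032201138) (nat_lit 304) (nat_lit 5392108993) (nat_lit 304) (nat_lit 1400389885) (nat_lit 75) (nat_lit 4) (nat_lit 79) (nat_lit 5) (nat_lit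 79) (nat_lit 4) (nat_lit 321) (nat_lit 291) (nat_lit 288)))) (XT.nd (nat_lit 78) (nat_lit 684) (nat_lit 0) (XT.lf (nat_lit 0) (nat_lit 1958187914) (nat_lit 380) (nat_lit 1183345778) (nat_lit 76) (nat_lit 4829536693) (nat_lit 74) (nat_lit 5) (nat_lit 79) (nat_lit 5) (nat_lit 75) (nat_lit 4) (nat_lit 322) (nat_lit 291) (nat_lit 287)) (XT.nd (nat_lit 78) (nat_lit 380) (nat_lit 0) (XT.lf (nat_lit 0) (nat_lit 4655862062) (nat_lit 304) (nat_lit 710957734) (nat_lit 380) (nat_lit 2760545566) (nat_lit 70) (nat_lit 5) (nat_lit 74) (nat_lit 5) (nat_lit 75) (nat_lit 4) (nat_lit 323) (nat_lit 291) (nat_lit 286)) (XT.lf (nat_lit 0) (nat_lit 579146199) (nat_lit 380) (nat_lit 5898384725) (nat_lit 76) (nat_lit 1816342640) (nat_lit 65) (nat_lit 5) (nat_lit 70) (nat_lit 5) (nat_lit 66) (nat_lit 4) (nat_lit 324) (nat_lit 291) (nat_lit 285))))))))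
noncomputable def xc76 : XT := (XT.nd (nat_lit 1794) (nat_lit 1064) (nat_lit 0) (XT.nd (nat_lit 858) (nat_lit 1216) (nat_lit 0) (XT.nd (nat_lit 390) (nat_lit 988) (nat_lit 0) (XT.nd (nat_lit 156) (nat_lit 608) (nat_lit 0) (XT.nd (nat_lit 78) (nat_lit 228) (nat_lit 0) (XT.lf (nat_lit 0) (nat_lit 3926021921) (nat_lit 380) (nat_lit 29396196) (nat_lit 76) (nat_lit 4514562008) (nat_lit 65) (nat_lit 5) (nat_lit 70) (nat_lit 5) (nat_lit 66) (nat_lit 4) (nat_lit 325) (nat_lit 291) (nat_lit 284)) (XT.lf (nat_lit 0) (nat_lit 6156656794) (nat_lit 228) (nat_lit 1247860987) (nat_lit 304) (nat_lit 1252335916) (nat_lit 62) (nat_lit 5) (nat_lit 65) (nat_lit 5) (nat_lit 66) (nat_lit 4) (nat_lit 326) (nat_lit 291) (nat_lit 283))) (XT.nd (nat_lit 78) (nat_lit 228) (nat_lit 0) (XT.lf (nat_lit 0) (nat_lit 2086979231) (nat_lit 380) (nat_lit 5171668462) (nat_lit 76) (nat_lit 1595179552) (nat_lit 57) (nat_lit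 5) (nat_lit 62) (nat_lit 5) (nat_lit 58) (nat_lit 4) (nat_lit 327) (nat_lit 291) (nat_lit 282)) (XT.nd (nat_lit 78) (nat_lit 0) (nat_lit 0) (XT.lf (nat_lit 0) (nat_lit 1014612739) (nat_lit 228) (nat_lit 4488215193) (nat_lit 304) (nat_lit 3559363914) (nat_lit 54) (nat_lit 5) (nat_lit 57) (nat_lit 5) (nat_lit 58) (nat_lit 4) (nat_lit 328) (nat_lit 291) (nat_lit 281)) (XT.lf (nat_lit 0) (nat_lit 7514547614) (nat_lit 228) (nat_lit 1538171262) (nat_lit 304) (nat_lit 230237699) (nat_lit 54) (nat_lit 5) (nat_lit 57) (nat_lit 5) (nat_lit 58) (nat_lit 4) (nat_lit 329) (nat_lit 291) (nat_lit 280))))) (XT.nd (nat_lit 234) (nat_lit 456) (nat_lit 0) (XT.nd (nat_lit 78) (nat_lit 228) (nat_lit 0) (XT.lf (nat_lit 0) (nat_lit 3140193574) (nat_lit 304) (nat_lit 4785318769) (nat_lit 76) (nat_lit 1587861092) (nat_lit 50) (nat_lit 5) (nat_lit 54) (nat_lit 5) (nat_lit 51) (nat_lit 4) (nat_lit 330) (nat_lit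 291) (nat_lit 279)) (XT.nd (nat_lit 78) (nat_lit 76) (nat_lit 0) (XT.lf (nat_lit 0) (nat_lit 1708708398) (nat_lit 152) (nat_lit 4926862753) (nat_lit 228) (nat_lit 3121467882) (nat_lit 48) (nat_lit 5) (nat_lit 50) (nat_lit 5) (nat_lit 51) (nat_lit 4) (nat_lit 331) (nat_lit 291) (nat_lit 278)) (XT.lf (nat_lit 0) (nat_lit 248615936) (nat_lit 228) (nat_lit 1495778036) (nat_lit 76) (nat_lit 8270120544) (nat_lit 47) (nat_lit 5) (nat_lit 50) (nat_lit 5) (nat_lit 48) (nat_lit 5) (nat_lit 332) (nat_lit 291) (nat_lit 277)))) (XT.nd (nat_lit 78) (nat_lit 228) (nat_lit 0) (XT.lf (nat_lit 0) (nat_lit 3680297917) (nat_lit 304) (nat_lit 4972342353) (nat_lit 76) (nat_lit 1629872879) (nat_lit 44) (nat_lit 5) (nat_lit 48) (nat_lit 5) (nat_lit 45) (nat_lit 4) (nat_lit 333) (nat_lit 291) (nat_lit 276)) (XT.nd (nat_lit 78) (nat_lit 76) (nat_lit 0) (XT.lf (nat_lit 0) (nat_lit 1806191247) (nat_lit 152) (nat_lit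 5450192394) (nat_lit 228) (nat_lit 3308989705) (nat_lit 42) (nat_lit 5) (nat_lit 44) (nat_lit 5) (nat_lit 45) (nat_lit 4) (nat_lit 334) (nat_lit 291) (nat_lit 275)) (XT.lf (nat_lit 0) (nat_lit 120786758) (nat_lit 228) (nat_lit 1934879766) (nat_lit 76) (nat_lit 8807854100) (nat_lit 41) (nat_lit 5) (nat_lit 44) (nat_lit 5) (nat_lit 42) (nat_lit 5) (nat_lit 335) (nat_lit 291) (nat_lit 274)))))) (XT.nd (nat_lit 468) (nat_lit 532) (nat_lit 0) (XT.nd (nat_lit 234) (nat_lit 380) (nat_lit 0) (XT.nd (nat_lit 78) (nat_lit 152) (nat_lit 0) (XT.lf (nat_lit 0) (nat_lit 3612862344) (nat_lit 228) (nat_lit 6018976845) (nat_lit 76) (nat_lit 1542011731) (nat_lit 39) (nat_lit 5) (nat_lit 42) (nat_lit 5) (nat_lit 40) (nat_lit 4) (nat_lit 336) (nat_lit 291) (nat_lit 273)) (XT.nd (nat_lit 78) (nat_lit 0) (nat_lit 0) (XT.lf (nat_lit 0) (nat_lit 1003223730) (nat_lit 152) (nat_lit 6256807436) (nat_lit 228) (nat_lit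 4240726510) (nat_lit 37) (nat_lit 5) (nat_lit 39) (nat_lit 5) (nat_lit 40) (nat_lit 4) (nat_lit 337) (nat_lit 291) (nat_lit 272)) (XT.lf (nat_lit 0) (nat_lit 8425246712) (nat_lit 152) (nat_lit 2666431209) (nat_lit 228) (nat_lit 752306274) (nat_lit 37) (nat_lit 5) (nat_lit 39) (nat_lit 5) (nat_lit 40) (nat_lit 4) (nat_lit 338) (nat_lit 291) (nat_lit 271)))) (XT.nd (nat_lit 78) (nat_lit 152) (nat_lit 0) (XT.lf (nat_lit 0) (nat_lit 2800237036) (nat_lit 228) (nat_lit 8283260601) (nat_lit 76) (nat_lit 1119532381) (nat_lit 34) (nat_lit 5) (nat_lit 37) (nat_lit 5) (nat_lit 35) (nat_lit 4) (nat_lit 339) (nat_lit 291) (nat_lit 270)) (XT.nd (nat_lit 78) (nat_lit 152) (nat_lit 0) (XT.lf (nat_lit 0) (nat_lit 6512280328) (nat_lit 228) (nat_lit 1047486435) (nat_lit 76) (nat_lit 5019356415) (nat_lit 34) (nat_lit 5) (nat_lit 37) (nat_lit 5) (nat_lit 35) (nat_lit 4) (nat_lit 340) (nat_lit 291) (nat_lit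 269)) (XT.lf (nat_lit 0) (nat_lit 6611936176) (nat_lit 152) (nat_lit 3810359632) (nat_lit 228) (nat_lit 2551172831) (nat_lit 32) (nat_lit 5) (nat_lit 34) (nat_lit 5) (nat_lit 35) (nat_lit 4) (nat_lit 341) (nat_lit 291) (nat_lit 268))))) (XT.nd (nat_lit 234) (nat_lit 228) (nat_lit 0) (XT.nd (nat_lit 78) (nat_lit 76) (nat_lit 0) (XT.lf (nat_lit 0) (nat_lit 1051704235) (nat_lit 228) (nat_lit 12218217537) (nat_lit 76) (nat_lit 119383468) (nat_lit 29) (nat_lit 5) (nat_lit 32) (nat_lit 5) (nat_lit 30) (nat_lit 4) (nat_lit 342) (nat_lit 291) (nat_lit 267)) (XT.nd (nat_lit 78) (nat_lit 76) (nat_lit 0) (XT.lf (nat_lit 0) (nat_lit 4831665370) (nat_lit 228) (nat_lit 4776917661) (nat_lit 76) (nat_lit 4211182834) (nat_lit 29) (nat_lit 5) (nat_lit 32) (nat_lit 5) (nat_lit 30) (nat_lit 4) (nat_lit 343) (nat_lit 291) (nat_lit 266)) (XT.lf (nat_lit 0) (nat_lit 2987775521) (nat_lit 76) (nat_lit 5774458161)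 (nat_lit 152) (nat_lit 5511489801) (nat_lit 28) (nat_lit 5) (nat_lit 29) (nat_lit 5) (nat_lit 30) (nat_lit 4) (nat_lit 344) (nat_lit 291) (nat_lit 265)))) (XT.nd (nat_lit 78) (nat_lit 228) (nat_lit 0) (XT.lf (nat_lit 0) (nat_lit 11164575400) (nat_lit 76) (nat_lit 1722448865) (nat_lit 152) (nat_lit 1863521850) (nat_lit 28) (nat_lit 5) (nat_lit 29) (nat_lit 5) (nat_lit 30) (nat_lit 4) (nat_lit 345) (nat_lit 291) (nat_lit 264)) (XT.nd (nat_lit 78) (nat_lit 0) (nat_lit 0) (XT.lf (nat_lit 0) (nat_lit 1933435113) (nat_lit 228) (nat_lit 10816989882) (nat_lit 76) (nat_lit 2497819401) (nat_lit 25) (nat_lit 5) (nat_lit 28) (nat_lit 5) (nat_lit 26) (nat_lit 4) (nat_lit 346) (nat_lit 291) (nat_lit 263)) (XT.lf (nat_lit 0) (nat_lit 5867817495) (nat_lit 228) (nat_lit 2992534672) (nat_lit 76) (nat_lit 6908482509) (nat_lit 25) (nat_lit 5) (nat_lit 28) (nat_lit 5) (nat_lit 26) (nat_lit 4) (nat_lit 347)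 (nat_lit 291) (nat_lit 262))))))) (XT.nd (nat_lit 858) (nat_lit 456) (nat_lit 0) (XT.nd (nat_lit 390) (nat_lit 228) (nat_lit 0) (XT.nd (nat_lit 156) (nat_lit 304) (nat_lit 0) (XT.nd (nat_lit 78) (nat_lit 0) (nat_lit 0) (XT.lf (nat_lit 0) (nat_lit 5259283283) (nat_lit 76) (nat_lit 4745787417) (nat_lit 152) (nat_lit 6310118821) (nat_lit 24) (nat_lit 5) (nat_lit 25) (nat_lit 5) (nat_lit 26) (nat_lit 4) (nat_lit 348) (nat_lit 291) (nat_lit 261)) (XT.lf (nat_lit 0) (nat_lit 13897528354) (nat_lit 76) (nat_lit 427964387) (nat_lit 152) (nat_lit 2564594669) (nat_lit 24) (nat_lit 5) (nat_lit 25) (nat_lit 5) (nat_lit 26) (nat_lit 4) (nat_lit 349) (nat_lit 291) (nat_lit 260))) (XT.nd (nat_lit 78) (nat_lit 76) (nat_lit 0) (XT.lf (nat_lit 0) (nat_lit 1403305698) (nat_lit 228) (nat_lit 12054596076) (nat_lit 76) (nat_lit 4030852617) (nat_lit 21) (nat_lit 5) (nat_lit 24) (nat_lit 5) (nat_lit 22) (nat_lit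 4) (nat_lit 350) (nat_lit 291) (nat_lit 259)) (XT.nd (nat_lit 78) (nat_lit 76) (nat_lit 0) (XT.lf (nat_lit 0) (nat_lit 5470561813) (nat_lit 228) (nat_lit 3905573311) (nat_lit 76) (nat_lit 8739795152) (nat_lit 21) (nat_lit 5) (nat_lit 24) (nat_lit 5) (nat_lit 22) (nat_lit 4) (nat_lit 351) (nat_lit 291) (nat_lit 258)) (XT.lf (nat_lit 0) (nat_lit 4679758382) (nat_lit 76) (nat_lit 5066506358) (nat_lit 152) (nat_lit 9027979423) (nat_lit 20) (nat_lit 5) (nat_lit 21) (nat_lit 5) (nat_lit 22) (nat_lit 4) (nat_lit 352) (nat_lit 291) (nat_lit 257))))) (XT.nd (nat_lit 234) (nat_lit 76) (nat_lit 0) (XT.nd (nat_lit 78) (nat_lit 152) (nat_lit 0) (XT.lf (nat_lit 0) (nat_lit 13710976026) (nat_lit 76) (nat_lit 524319066) (nat_lit 152) (nat_lit 5230233355) (nat_lit 20) (nat_lit 5) (nat_lit 21) (nat_lit 5) (nat_lit 22) (nat_lit 4) (nat_lit 353) (nat_lit 291) (nat_lit 256)) (XT.nd (nat_lit 78) (nat_lit 76)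 (nat_lit 0) (XT.lf (nat_lit 0) (nat_lit 2913624870) (nat_lit 76) (nat_lit 16082710146) (nat_lit 76) (nat_lit 1192694329) (nat_lit 19) (nat_lit 4) (nat_lit 20) (nat_lit 5) (nat_lit 20) (nat_lit 4) (nat_lit 354) (nat_lit 291) (nat_lit 255)) (XT.lf (nat_lit 0) (nat_lit 2992869131) (nat_lit 152) (nat_lit 8902604792) (nat_lit 76) (nat_lit 9048697376) (nat_lit 18) (nat_lit 5) (nat_lit 20) (nat_lit 5) (nat_lit 19) (nat_lit 4) (nat_lit 355) (nat_lit 291) (nat_lit 254)))) (XT.nd (nat_lit 78) (nat_lit 76) (nat_lit 0) (XT.lf (nat_lit 0) (nat_lit 7286687881) (nat_lit 152) (nat_lit 241200828) (nat_lit 76) (nat_lit 14211277227) (nat_lit 18) (nat_lit 5) (nat_lit 20) (nat_lit 5) (nat_lit 19) (nat_lit 4) (nat_lit 356) (nat_lit 291) (nat_lit 253)) (XT.nd (nat_lit 78) (nat_lit 0) (nat_lit 0) (XT.lf (nat_lit 0) (nat_lit 9037301184) (nat_lit 76) (nat_lit 2840955378) (nat_lit 152) (nat_lit 10691525722) (nat_lit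 17) (nat_lit 5) (nat_lit 18) (nat_lit 5) (nat_lit 19) (nat_lit 4) (nat_lit 357) (nat_lit 291) (nat_lit 252)) (XT.lf (nat_lit 0) (nat_lit 16678415929) (nat_lit 152) (nat_lit 4791834932) (nat_lit 0) (nat_lit 1972751718) (nat_lit 17) (nat_lit 5) (nat_lit 19) (nat_lit 4) (nat_lit 17) (nat_lit 4) (nat_lit 358) (nat_lit 291) (nat_lit 251)))))) (XT.nd (nat_lit 468) (nat_lit 228) (nat_lit 0) (XT.nd (nat_lit 234) (nat_lit 76) (nat_lit 0) (XT.nd (nat_lit 78) (nat_lit 76) (nat_lit 0) (XT.lf (nat_lit 0) (nat_lit 4378785356) (nat_lit 76) (nat_lit 17399860568) (nat_lit 76) (nat_lit 2578257444) (nat_lit 16) (nat_lit 4) (nat_lit 17) (nat_lit 5) (nat_lit 17) (nat_lit 4) (nat_lit 359) (nat_lit 291) (nat_lit 250)) (XT.nd (nat_lit 78) (nat_lit 0) (nat_lit 0) (XT.lf (nat_lit 0) (nat_lit 1786991703) (nat_lit 152) (nat_lit 11268688143) (nat_lit 76) (nat_lit 12258032571) (nat_lit 15) (nat_lit 5) (nat_lit 17)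 (nat_lit 5) (nat_lit 16) (nat_lit 4) (nat_lit 360) (nat_lit 291) (nat_lit 249)) (XT.lf (nat_lit 0) (nat_lit 6231751095) (nat_lit 152) (nat_lit 2262091402) (nat_lit 76) (nat_lit 17825030922) (nat_lit 15) (nat_lit 5) (nat_lit 17) (nat_lit 5) (nat_lit 16) (nat_lit 4) (nat_lit 361) (nat_lit 291) (nat_lit 248)))) (XT.nd (nat_lit 78) (nat_lit 0) (nat_lit 0) (XT.lf (nat_lit 0) (nat_lit 7338239815) (nat_lit 76) (nat_lit 3625454503) (nat_lit 152) (nat_lit 16407369461) (nat_lit 14) (nat_lit 5) (nat_lit 15) (nat_lit 5) (nat_lit 16) (nat_lit 4) (nat_lit 362) (nat_lit 291) (nat_lit 247)) (XT.nd (nat_lit 78) (nat_lit 0) (nat_lit 0) (XT.lf (nat_lit 0) (nat_lit 15945066770) (nat_lit 152) (nat_lit 11092455537) (nat_lit 0) (nat_lit 1437717465) (nat_lit 14) (nat_lit 5) (nat_lit 16) (nat_lit 4) (nat_lit 14) (nat_lit 4) (nat_lit 363) (nat_lit 291) (nat_lit 246)) (XT.lf (nat_lit 0) (nat_lit 21187977992) (nat_lit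 152) (nat_lit 1851926652) (nat_lit 0) (nat_lit 6594113286) (nat_lit 14) (nat_lit 5) (nat_lit 16) (nat_lit 4) (nat_lit 14) (nat_lit 4) (nat_lit 364) (nat_lit 291) (nat_lit 245))))) (XT.nd (nat_lit 234) (nat_lit 76) (nat_lit 0) (XT.nd (nat_lit 78) (nat_lit 76) (nat_lit 0) (XT.lf (nat_lit 0) (nat_lit 8024191700) (nat_lit 76) (nat_lit 18749396022) (nat_lit 76) (nat_lit 4073135695) (nat_lit 13) (nat_lit 4) (nat_lit 14) (nat_lit 5) (nat_lit 14) (nat_lit 4) (nat_lit 365) (nat_lit 291) (nat_lit 244)) (XT.nd (nat_lit 78) (nat_lit 0) (nat_lit 0) (XT.lf (nat_lit 0) (nat_lit 489088327) (nat_lit 152) (nat_lit 13752101275) (nat_lit 76) (nat_lit 17879121108) (nat_lit 12) (nat_lit 5) (nat_lit 14) (nat_lit 5) (nat_lit 13) (nat_lit 4) (nat_lit 366) (nat_lit 291) (nat_lit 243)) (XT.lf (nat_lit 0) (nat_lit 5100053408) (nat_lit 152) (nat_lit 4374358116) (nat_lit 76) (nat_lit 23981965391) (nat_lit 12) (nat_lit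 5) (nat_lit 14) (nat_lit 5) (nat_lit 13) (nat_lit 4) (nat_lit 367) (nat_lit 291) (nat_lit 242)))) (XT.nd (nat_lit 78) (nat_lit 0) (nat_lit 0) (XT.lf (nat_lit 0) (nat_lit 5575055367) (nat_lit 76) (nat_lit 4413090684) (nat_lit 152) (nat_lit 24868784635) (nat_lit 11) (nat_lit 5) (nat_lit 12) (nat_lit 5) (nat_lit 13) (nat_lit 4) (nat_lit 368) (nat_lit 291) (nat_lit 241)) (XT.nd (nat_lit 78) (nat_lit 0) (nat_lit 0) (XT.lf (nat_lit 0) (nat_lit 15169770871) (nat_lit 152) (nat_lit 20241175304) (nat_lit 0) (nat_lit 914122185) (nat_lit 11) (nat_lit 5) (nat_lit 13) (nat_lit 4) (nat_lit 11) (nat_lit 4) (nat_lit 369) (nat_lit 291) (nat_lit 240)) (XT.lf (nat_lit 0) (nat_lit 20644498352) (nat_lit 152) (nat_lit 10893060700) (nat_lit 0) (nat_lit 6327364786) (nat_lit 11) (nat_lit 5) (nat_lit 13) (nat_lit 4) (nat_lit 11) (nat_lit 4) (nat_lit 370) (nat_lit 291) (nat_lit 239))))))))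
noncomputable def xc77 : XT := (XT.nd (nat_lit 1794) (nat_lit 228) (nat_lit 0) (XT.nd (nat_lit 858) (nat_lit 152) (nat_lit 0) (XT.nd (nat_lit 390) (nat_lit 152) (nat_lit 0) (XT.nd (nat_lit 156) (nat_lit 76) (nat_lit 0) (XT.nd (nat_lit 78) (nat_lit 76) (nat_lit 0) (XT.lf (nat_lit 0) (nat_lit 26356462848) (nat_lit 152) (nat_lit 1146373378) (nat_lit 0) (nat_lit 11980772252) (nat_lit 11) (nat_lit 5) (nat_lit 13) (nat_lit 4) (nat_lit 11) (nat_lit 4) (nat_lit 371) (nat_lit 291) (nat_lit 238)) (XT.lf (nat_lit 0) (nat_lit 9320404200) (nat_lit 76) (nat_lit 23144377702) (nat_lit 76) (nat_lit 8712918507) (nat_lit 10) (nat_lit 4) (nat_lit 11) (nat_lit 5) (nat_lit 11) (nat_lit 4) (nat_lit 372) (nat_lit 291) (nat_lit 237))) (XT.nd (nat_lit 78) (nat_lit 76) (nat_lit 0) (XT.lf (nat_lit 0) (nat_lit 20285822246) (nat_lit 76) (nat_lit 18577996064) (nat_lit 76) (nat_lit 4093423917) (nat_lit 10) (nat_lit 4)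 (nat_lit 11) (nat_lit 5) (nat_lit 11) (nat_lit 4) (nat_lit 373) (nat_lit 291) (nat_lit 236)) (XT.nd (nat_lit 78) (nat_lit 0) (nat_lit 0) (XT.lf (nat_lit 0) (nat_lit 699784511) (nat_lit 152) (nat_lit 13100597661) (nat_lit 76) (nat_lit 31026448914) (nat_lit 9) (nat_lit 5) (nat_lit 11) (nat_lit 5) (nat_lit 10) (nat_lit 4) (nat_lit 374) (nat_lit 291) (nat_lit 235)) (XT.lf (nat_lit 0) (nat_lit 5563629658) (nat_lit 152) (nat_lit 3177890123) (nat_lit 76) (nat_lit 38046606182) (nat_lit 9) (nat_lit 5) (nat_lit 11) (nat_lit 5) (nat_lit 10) (nat_lit 4) (nat_lit 375) (nat_lit 291) (nat_lit 234))))) (XT.nd (nat_lit 234) (nat_lit 76) (nat_lit 0) (XT.nd (nat_lit 78) (nat_lit 0) (nat_lit 0) (XT.lf (nat_lit 0) (nat_lit 7421781295) (nat_lit 76) (nat_lit 3334800745) (nat_lit 152) (nat_lit 38086616315) (nat_lit 8) (nat_lit 5) (nat_lit 9) (nat_lit 5) (nat_lit 10) (nat_lit 4) (nat_lit 376) (nat_lit 291) (nat_lit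 233)) (XT.nd (nat_lit 78) (nat_lit 0) (nat_lit 0) (XT.lf (nat_lit 0) (nat_lit 16270636107) (nat_lit 152) (nat_lit 32430885706) (nat_lit 0) (nat_lit 2296437968) (nat_lit 8) (nat_lit 5) (nat_lit 10) (nat_lit 4) (nat_lit 8) (nat_lit 4) (nat_lit 377) (nat_lit 291) (nat_lit 232)) (XT.lf (nat_lit 0) (nat_lit 22086665097) (nat_lit 152) (nat_lit 23099655044) (nat_lit 0) (nat_lit 8072833256) (nat_lit 8) (nat_lit 5) (nat_lit 10) (nat_lit 4) (nat_lit 8) (nat_lit 4) (nat_lit 378) (nat_lit 291) (nat_lit 231)))) (XT.nd (nat_lit 78) (nat_lit 76) (nat_lit 0) (XT.lf (nat_lit 0) (nat_lit 28166451114) (nat_lit 152) (nat_lit 13353442271) (nat_lit 0) (nat_lit 14114872891) (nat_lit 8) (nat_lit 5) (nat_lit 10) (nat_lit 4) (nat_lit 8) (nat_lit 4) (nat_lit 379) (nat_lit 291) (nat_lit 230)) (XT.nd (nat_lit 78) (nat_lit 76) (nat_lit 0) (XT.lf (nat_lit 0) (nat_lit 34524469840) (nat_lit 152) (nat_lit 3169042121) (nat_lit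 0) (nat_lit 20436942680) (nat_lit 8) (nat_lit 5) (nat_lit 10) (nat_lit 4) (nat_lit 8) (nat_lit 4) (nat_lit 380) (nat_lit 291) (nat_lit 229)) (XT.lf (nat_lit 0) (nat_lit 7725043618) (nat_lit 76) (nat_lit 33571425375) (nat_lit 76) (nat_lit 19449661133) (nat_lit 7) (nat_lit 4) (nat_lit 8) (nat_lit 5) (nat_lit 8) (nat_lit 4) (nat_lit 381) (nat_lit 291) (nat_lit 228)))))) (XT.nd (nat_lit 468) (nat_lit 0) (nat_lit 0) (XT.nd (nat_lit 234) (nat_lit 152) (nat_lit 0) (XT.nd (nat_lit 78) (nat_lit 0) (nat_lit 0) (XT.lf (nat_lit 0) (nat_lit 19227826155) (nat_lit 76) (nat_lit 29208830573) (nat_lit 76) (nat_lit 15054459586) (nat_lit 7) (nat_lit 4) (nat_lit 8) (nat_lit 5) (nat_lit 8) (nat_lit 4) (nat_lit 382) (nat_lit 291) (nat_lit 227)) (XT.nd (nat_lit 78) (nat_lit 0) (nat_lit 0) (XT.lf (nat_lit 0) (nat_lit 31261910223) (nat_lit 76) (nat_lit 24649009686) (nat_lit 76) (nat_lit 10463584656) (nat_lit 7)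 (nat_lit 4) (nat_lit 8) (nat_lit 5) (nat_lit 8) (nat_lit 4) (nat_lit 383) (nat_lit 291) (nat_lit 226)) (XT.lf (nat_lit 0) (nat_lit 43855948402) (nat_lit 76) (nat_lit 19881105997) (nat_lit 76) (nat_lit 5666105688) (nat_lit 7) (nat_lit 4) (nat_lit 8) (nat_lit 5) (nat_lit 8) (nat_lit 4) (nat_lit 384) (nat_lit 291) (nat_lit 225)))) (XT.nd (nat_lit 78) (nat_lit 152) (nat_lit 0) (XT.lf (nat_lit 0) (nat_lit 57039926499) (nat_lit 76) (nat_lit 14893767356) (nat_lit 76) (nat_lit 650600114) (nat_lit 7) (nat_lit 4) (nat_lit 8) (nat_lit 5) (nat_lit 8) (nat_lit 4) (nat_lit 385) (nat_lit 291) (nat_lit 224)) (XT.nd (nat_lit 78) (nat_lit 76) (nat_lit 0) (XT.lf (nat_lit 0) (nat_lit 4447809089) (nat_lit 152) (nat_lit 5151984257) (nat_lit 76) (nat_lit 66322100047) (nat_lit 6) (nat_lit 5) (nat_lit 8) (nat_lit 5) (nat_lit 7) (nat_lit 4) (nat_lit 386) (nat_lit 291) (nat_lit 223)) (XT.lf (nat_lit 0) (nat_lit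 5901534205) (nat_lit 76) (nat_lit 3950697665) (nat_lit 152) (nat_lit 69569964509) (nat_lit 5) (nat_lit 5) (nat_lit 6) (nat_lit 5) (nat_lit 7) (nat_lit 4) (nat_lit 387) (nat_lit 291) (nat_lit 222))))) (XT.nd (nat_lit 234) (nat_lit 0) (nat_lit 0) (XT.nd (nat_lit 78) (nat_lit 0) (nat_lit 0) (XT.lf (nat_lit 0) (nat_lit 15627382032) (nat_lit 152) (nat_lit 65475703737) (nat_lit 0) (nat_lit 1989407951) (nat_lit 5) (nat_lit 5) (nat_lit 7) (nat_lit 4) (nat_lit 5) (nat_lit 4) (nat_lit 388) (nat_lit 291) (nat_lit 221)) (XT.nd (nat_lit 78) (nat_lit 0) (nat_lit 0) (XT.lf (nat_lit 0) (nat_lit 21737862744) (nat_lit 152) (nat_lit 57128299703) (nat_lit 0) (nat_lit 8077819135) (nat_lit 5) (nat_lit 5) (nat_lit 7) (nat_lit 4) (nat_lit 5) (nat_lit 4) (nat_lit 389) (nat_lit 291) (nat_lit 220)) (XT.lf (nat_lit 0) (nat_lit 28136541307) (nat_lit 152) (nat_lit 48396893838) (nat_lit 0) (nat_lit 14455479099) (nat_lit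 5) (nat_lit 5) (nat_lit 7) (nat_lit 4) (nat_lit 5) (nat_lit 4) (nat_lit 390) (nat_lit 291) (nat_lit 219)))) (XT.nd (nat_lit 78) (nat_lit 0) (nat_lit 0) (XT.lf (nat_lit 0) (nat_lit 34838652670) (nat_lit 152) (nat_lit 39260697081) (nat_lit 0) (nat_lit 21137572749) (nat_lit 5) (nat_lit 5) (nat_lit 7) (nat_lit 4) (nat_lit 5) (nat_lit 4) (nat_lit 391) (nat_lit 291) (nat_lit 218)) (XT.nd (nat_lit 78) (nat_lit 0) (nat_lit 0) (XT.lf (nat_lit 0) (nat_lit 41860154241) (nat_lit 152) (nat_lit 29697956582) (nat_lit 0) (nat_lit 28140009832) (nat_lit 5) (nat_lit 5) (nat_lit 7) (nat_lit 4) (nat_lit 5) (nat_lit 4) (nat_lit 392) (nat_lit 291) (nat_lit 217)) (XT.lf (nat_lit 0) (nat_lit 49217763881) (nat_lit 152) (nat_lit 19685903911) (nat_lit 0) (nat_lit 35479462817) (nat_lit 5) (nat_lit 5) (nat_lit 7) (nat_lit 4) (nat_lit 5) (nat_lit 4) (nat_lit 393) (nat_lit 291) (nat_lit 216))))))) (XT.nd (nat_lit 858)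 (nat_lit 152) (nat_lit 0) (XT.nd (nat_lit 390) (nat_lit 0) (nat_lit 0) (XT.nd (nat_lit 156) (nat_lit 0) (nat_lit 0) (XT.nd (nat_lit 78) (nat_lit 76) (nat_lit 0) (XT.lf (nat_lit 0) (nat_lit 56928999709) (nat_lit 152) (nat_lit 9200700848) (nat_lit 0) (nat_lit 43173406591) (nat_lit 5) (nat_lit 5) (nat_lit 7) (nat_lit 4) (nat_lit 5) (nat_lit 4) (nat_lit 394) (nat_lit 291) (nat_lit 215)) (XT.lf (nat_lit 0) (nat_lit 1841558756) (nat_lit 76) (nat_lit 63199414946) (nat_lit 76) (nat_lit 49427353206) (nat_lit 4) (nat_lit 4) (nat_lit 5) (nat_lit 5) (nat_lit 5) (nat_lit 4) (nat_lit 395) (nat_lit 291) (nat_lit 214))) (XT.nd (nat_lit 78) (nat_lit 0) (nat_lit 0) (XT.lf (nat_lit 0) (nat_lit 13729635601) (nat_lit 76) (nat_lit 59971398436) (nat_lit 76) (nat_lit 46183652295) (nat_lit 4) (nat_lit 4) (nat_lit 5) (nat_lit 5) (nat_lit 5) (nat_lit 4) (nat_lit 396) (nat_lit 291) (nat_lit 213)) (XT.nd (nat_lit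 78) (nat_lit 0) (nat_lit 0) (XT.lf (nat_lit 0) (nat_lit 26187617909) (nat_lit 76) (nat_lit 56593783597) (nat_lit 76) (nat_lit 42791099929) (nat_lit 4) (nat_lit 4) (nat_lit 5) (nat_lit 5) (nat_lit 5) (nat_lit 4) (nat_lit 397) (nat_lit 291) (nat_lit 212)) (XT.lf (nat_lit 0) (nat_lit 39245167543) (nat_lit 76) (nat_lit 53058528487) (nat_lit 76) (nat_lit 39241618604) (nat_lit 4) (nat_lit 4) (nat_lit 5) (nat_lit 5) (nat_lit 5) (nat_lit 4) (nat_lit 398) (nat_lit 291) (nat_lit 211))))) (XT.nd (nat_lit 234) (nat_lit 0) (nat_lit 0) (XT.nd (nat_lit 78) (nat_lit 0) (nat_lit 0) (XT.lf (nat_lit 0) (nat_lit 52933373906) (nat_lit 76) (nat_lit 49357215832) (nat_lit 76) (nat_lit 35526757174) (nat_lit 4) (nat_lit 4) (nat_lit 5) (nat_lit 5) (nat_lit 5) (nat_lit 4) (nat_lit 399) (nat_lit 291) (nat_lit 210)) (XT.nd (nat_lit 78) (nat_lit 0) (nat_lit 0) (XT.lf (nat_lit 0) (nat_lit 67284827966) (nat_lit 76) (nat_lit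 45481032984) (nat_lit 76) (nat_lit 31637670730) (nat_lit 4) (nat_lit 4) (nat_lit 5) (nat_lit 5) (nat_lit 5) (nat_lit 4) (nat_lit 400) (nat_lit 291) (nat_lit 209)) (XT.lf (nat_lit 0) (nat_lit 82333699852) (nat_lit 76) (nat_lit 41420750936) (nat_lit 76) (nat_lit 27565099542) (nat_lit 4) (nat_lit 4) (nat_lit 5) (nat_lit 5) (nat_lit 5) (nat_lit 4) (nat_lit 401) (nat_lit 291) (nat_lit 208)))) (XT.nd (nat_lit 78) (nat_lit 0) (nat_lit 0) (XT.lf (nat_lit 0) (nat_lit 98115820210) (nat_lit 76) (nat_lit 37166702349) (nat_lit 76) (nat_lit 23299347013) (nat_lit 4) (nat_lit 4) (nat_lit 5) (nat_lit 5) (nat_lit 5) (nat_lit 4) (nat_lit 402) (nat_lit 291) (nat_lit 207)) (XT.nd (nat_lit 78) (nat_lit 0) (nat_lit 0) (XT.lf (nat_lit 0) (nat_lit 114668765519) (nat_lit 76) (nat_lit 32708758536) (nat_lit 76) (nat_lit 18830256589) (nat_lit 4) (nat_lit 4) (nat_lit 5) (nat_lit 5) (nat_lit 5) (nat_lit 4) (nat_lit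 403) (nat_lit 291) (nat_lit 206)) (XT.lf (nat_lit 0) (nat_lit 132031947553) (nat_lit 76) (nat_lit 28036305346) (nat_lit 76) (nat_lit 14147187578) (nat_lit 4) (nat_lit 4) (nat_lit 5) (nat_lit 5) (nat_lit 5) (nat_lit 4) (nat_lit 404) (nat_lit 291) (nat_lit 205)))))) (XT.nd (nat_lit 468) (nat_lit 0) (nat_lit 0) (XT.nd (nat_lit 234) (nat_lit 76) (nat_lit 0) (XT.nd (nat_lit 78) (nat_lit 76) (nat_lit 0) (XT.lf (nat_lit 0) (nat_lit 150246707220) (nat_lit 76) (nat_lit 23138217889) (nat_lit 76) (nat_lit 9238989816) (nat_lit 4) (nat_lit 4) (nat_lit 5) (nat_lit 5) (nat_lit 5) (nat_lit 4) (nat_lit 405) (nat_lit 291) (nat_lit 204)) (XT.nd (nat_lit 78) (nat_lit 76) (nat_lit 0) (XT.lf (nat_lit 0) (nat_lit 169356412998) (nat_lit 76) (nat_lit 18002834054) (nat_lit 76) (nat_lit 4093977118) (nat_lit 4) (nat_lit 4) (nat_lit 5) (nat_lit 5) (nat_lit 5) (nat_lit 4) (nat_lit 406) (nat_lit 291) (nat_lit 203))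 (XT.lf (nat_lit 0) (nat_lit 1258489208) (nat_lit 152) (nat_lit 11338124402) (nat_lit 76) (nat_lit 188126761852) (nat_lit 3) (nat_lit 5) (nat_lit 5) (nat_lit 5) (nat_lit 4) (nat_lit 4) (nat_lit 407) (nat_lit 291) (nat_lit 202)))) (XT.nd (nat_lit 78) (nat_lit 76) (nat_lit 0) (XT.lf (nat_lit 0) (nat_lit 6733448017) (nat_lit 152) (nat_lit 123192506) (nat_lit 76) (nat_lit 203597417017) (nat_lit 3) (nat_lit 5) (nat_lit 5) (nat_lit 5) (nat_lit 4) (nat_lit 4) (nat_lit 408) (nat_lit 291) (nat_lit 201)) (XT.nd (nat_lit 78) (nat_lit 0) (nat_lit 0) (XT.lf (nat_lit 0) (nat_lit 12023430039) (nat_lit 76) (nat_lit 639257158) (nat_lit 152) (nat_lit 207999561449) (nat_lit 2) (nat_lit 5) (nat_lit 3) (nat_lit 5) (nat_lit 4) (nat_lit 4) (nat_lit 409) (nat_lit 291) (nat_lit 200)) (XT.lf (nat_lit 0) (nat_lit 18975291565) (nat_lit 152) (nat_lit 206704970491) (nat_lit 0) (nat_lit 5696243561) (nat_lit 2) (nat_lit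 5) (nat_lit 4) (nat_lit 4) (nat_lit 2) (nat_lit 4) (nat_lit 410) (nat_lit 291) (nat_lit 199))))) (XT.nd (nat_lit 234) (nat_lit 0) (nat_lit 0) (XT.nd (nat_lit 78) (nat_lit 0) (nat_lit 0) (XT.lf (nat_lit 0) (nat_lit 25607185758) (nat_lit 152) (nat_lit 204698155551) (nat_lit 0) (nat_lit 12320952549) (nat_lit 2) (nat_lit 5) (nat_lit 4) (nat_lit 4) (nat_lit 2) (nat_lit 4) (nat_lit 411) (nat_lit 291) (nat_lit 198)) (XT.nd (nat_lit 78) (nat_lit 0) (nat_lit 0) (XT.lf (nat_lit 0) (nat_lit 32564179405) (nat_lit 152) (nat_lit 202603615059) (nat_lit 0) (nat_lit 19271103143) (nat_lit 2) (nat_lit 5) (nat_lit 4) (nat_lit 4) (nat_lit 2) (nat_lit 4) (nat_lit 412) (nat_lit 291) (nat_lit 197)) (XT.lf (nat_lit 0) (nat_lit 39862836776) (nat_lit 152) (nat_lit 200416362016) (nat_lit 0) (nat_lit 26563243321) (nat_lit 2) (nat_lit 5) (nat_lit 4) (nat_lit 4) (nat_lit 2) (nat_lit 4) (nat_lit 413) (nat_lit 291) (nat_lit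 196)))) (XT.nd (nat_lit 78) (nat_lit 0) (nat_lit 0) (XT.lf (nat_lit 0) (nat_lit 47520535627) (nat_lit 152) (nat_lit 198131188676) (nat_lit 0) (nat_lit 34214735322) (nat_lit 2) (nat_lit 5) (nat_lit 4) (nat_lit 4) (nat_lit 2) (nat_lit 4) (nat_lit 414) (nat_lit 291) (nat_lit 195)) (XT.nd (nat_lit 78) (nat_lit 0) (nat_lit 0) (XT.lf (nat_lit 0) (nat_lit 55555508575) (nat_lit 152) (nat_lit 195742654149) (nat_lit 0) (nat_lit 42243796984) (nat_lit 2) (nat_lit 5) (nat_lit 4) (nat_lit 4) (nat_lit 2) (nat_lit 4) (nat_lit 415) (nat_lit 291) (nat_lit 194)) (XT.lf (nat_lit 0) (nat_lit 63986886507) (nat_lit 152) (nat_lit 193245071449) (nat_lit 0) (nat_lit 50669545119) (nat_lit 2) (nat_lit 5) (nat_lit 4) (nat_lit 4) (nat_lit 2) (nat_lit 4) (nat_lit 416) (nat_lit 291) (nat_lit 193))))))))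
noncomputable def xc78 : XT := (XT.nd (nat_lit 39390) (nat_lit 0) (nat_lit 2052) (XT.nd (nat_lit 858) (nat_lit 0) (nat_lit 0) (XT.nd (nat_lit 390) (nat_lit 0) (nat_lit 0) (XT.nd (nat_lit 156) (nat_lit 0) (nat_lit 0) (XT.nd (nat_lit 78) (nat_lit 0) (nat_lit 0) (XT.lf (nat_lit 0) (nat_lit 72834744132) (nat_lit 152) (nat_lit 190632493950) (nat_lit 0) (nat_lit 59512041034) (nat_lit 2) (nat_lit 5) (nat_lit 4) (nat_lit 4) (nat_lit 2) (nat_lit 4) (nat_lit 417) (nat_lit 291) (nat_lit 192)) (XT.lf (nat_lit 0) (nat_lit 82120147779) (nat_lit 152) (nat_lit 187898701230) (nat_lit 0) (nat_lit 68792338290) (nat_lit 2) (nat_lit 5) (nat_lit 4) (nat_lit 4) (nat_lit 2) (nat_lit 4) (nat_lit 418) (nat_lit 291) (nat_lit 191))) (XT.nd (nat_lit 78) (nat_lit 0) (nat_lit 0) (XT.lf (nat_lit 0) (nat_lit 91865205552) (nat_lit 152) (nat_lit 185037184259) (nat_lit 0) (nat_lit 78532532832) (nat_lit 2) (nat_lit 5) (nat_lit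 4) (nat_lit 4) (nat_lit 2) (nat_lit 4) (nat_lit 419) (nat_lit 291) (nat_lit 190)) (XT.nd (nat_lit 78) (nat_lit 0) (nat_lit 0) (XT.lf (nat_lit 0) (nat_lit 102093119968) (nat_lit 152) (nat_lit 182041129900) (nat_lit 0) (nat_lit 88755815601) (nat_lit 2) (nat_lit 5) (nat_lit 4) (nat_lit 4) (nat_lit 2) (nat_lit 4) (nat_lit 420) (nat_lit 291) (nat_lit 189)) (XT.lf (nat_lit 0) (nat_lit 112828243205) (nat_lit 152) (nat_lit 178903404691) (nat_lit 0) (nat_lit 99486527745) (nat_lit 2) (nat_lit 5) (nat_lit 4) (nat_lit 4) (nat_lit 2) (nat_lit 4) (nat_lit 421) (nat_lit 291) (nat_lit 188))))) (XT.nd (nat_lit 234) (nat_lit 0) (nat_lit 0) (XT.nd (nat_lit 78) (nat_lit 0) (nat_lit 0) (XT.lf (nat_lit 0) (nat_lit 124096135080) (nat_lit 152) (nat_lit 175616537858) (nat_lit 0) (nat_lit 110750218580) (nat_lit 2) (nat_lit 5) (nat_lit 4) (nat_lit 4) (nat_lit 2) (nat_lit 4) (nat_lit 422) (nat_lit 291) (nat_lit 187))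 (XT.nd (nat_lit 78) (nat_lit 0) (nat_lit 0) (XT.lf (nat_lit 0) (nat_lit 135923623908) (nat_lit 152) (nat_lit 172172703527) (nat_lit 0) (nat_lit 122573706416) (nat_lit 2) (nat_lit 5) (nat_lit 4) (nat_lit 4) (nat_lit 2) (nat_lit 4) (nat_lit 423) (nat_lit 291) (nat_lit 186)) (XT.lf (nat_lit 0) (nat_lit 148338870375) (nat_lit 152) (nat_lit 168563702093) (nat_lit 0) (nat_lit 134985142416) (nat_lit 2) (nat_lit 5) (nat_lit 4) (nat_lit 4) (nat_lit 2) (nat_lit 4) (nat_lit 424) (nat_lit 291) (nat_lit 185)))) (XT.nd (nat_lit 78) (nat_lit 0) (nat_lit 0) (XT.lf (nat_lit 0) (nat_lit 161371434593) (nat_lit 152) (nat_lit 164780940696) (nat_lit 0) (nat_lit 148014077617) (nat_lit 2) (nat_lit 5) (nat_lit 4) (nat_lit 4) (nat_lit 2) (nat_lit 4) (nat_lit 425) (nat_lit 291) (nat_lit 184)) (XT.nd (nat_lit 78) (nat_lit 0) (nat_lit 0) (XT.lf (nat_lit 0) (nat_lit 175052346476) (nat_lit 152) (nat_lit 160815412759)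 (nat_lit 0) (nat_lit 161691533293) (nat_lit 2) (nat_lit 5) (nat_lit 4) (nat_lit 4) (nat_lit 2) (nat_lit 4) (nat_lit 426) (nat_lit 291) (nat_lit 183)) (XT.lf (nat_lit 0) (nat_lit 189414179624) (nat_lit 152) (nat_lit 156657676551) (nat_lit 0) (nat_lit 176050074816) (nat_lit 2) (nat_lit 5) (nat_lit 4) (nat_lit 4) (nat_lit 2) (nat_lit 4) (nat_lit 427) (nat_lit 291) (nat_lit 182)))))) (XT.nd (nat_lit 468) (nat_lit 0) (nat_lit 0) (XT.nd (nat_lit 234) (nat_lit 0) (nat_lit 0) (XT.nd (nat_lit 78) (nat_lit 0) (nat_lit 0) (XT.lf (nat_lit 0) (nat_lit 204491128878) (nat_lit 152) (nat_lit 152297832699) (nat_lit 0) (nat_lit 191123889189) (nat_lit 2) (nat_lit 5) (nat_lit 4) (nat_lit 4) (nat_lit 2) (nat_lit 4) (nat_lit 428) (nat_lit 291) (nat_lit 181)) (XT.nd (nat_lit 78) (nat_lit 0) (nat_lit 0) (XT.lf (nat_lit 0) (nat_lit 220319091736) (nat_lit 152) (nat_lit 147725500623) (nat_lit 0) (nat_lit 206948866446)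 (nat_lit 2) (nat_lit 5) (nat_lit 4) (nat_lit 4) (nat_lit 2) (nat_lit 4) (nat_lit 429) (nat_lit 291) (nat_lit 180)) (XT.lf (nat_lit 0) (nat_lit 236935753824) (nat_lit 152) (nat_lit 142929793818) (nat_lit 0) (nat_lit 223562685105) (nat_lit 2) (nat_lit 5) (nat_lit 4) (nat_lit 4) (nat_lit 2) (nat_lit 4) (nat_lit 430) (nat_lit 291) (nat_lit 179)))) (XT.nd (nat_lit 78) (nat_lit 0) (nat_lit 0) (XT.lf (nat_lit 0) (nat_lit 254380678623) (nat_lit 152) (nat_lit 137899293934) (nat_lit 0) (nat_lit 241004901875) (nat_lit 2) (nat_lit 5) (nat_lit 4) (nat_lit 4) (nat_lit 2) (nat_lit 4) (nat_lit 431) (nat_lit 291) (nat_lit 178)) (XT.nd (nat_lit 78) (nat_lit 0) (nat_lit 0) (XT.lf (nat_lit 0) (nat_lit 272695401669) (nat_lit 152) (nat_lit 132622023591) (nat_lit 0) (nat_lit 259317045846) (nat_lit 2) (nat_lit 5) (nat_lit 4) (nat_lit 4) (nat_lit 2) (nat_lit 4) (nat_lit 432) (nat_lit 291) (nat_lit 177)) (XT.lf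 (nat_lit 0) (nat_lit 291923529444) (nat_lit 152) (nat_lit 127085417859) (nat_lit 0) (nat_lit 278542717360) (nat_lit 2) (nat_lit 5) (nat_lit 4) (nat_lit 4) (nat_lit 2) (nat_lit 4) (nat_lit 433) (nat_lit 291) (nat_lit 176))))) (XT.nd (nat_lit 37830) (nat_lit 0) (nat_lit 5852) (XT.nd (nat_lit 37674) (nat_lit 0) (nat_lit 6612) (XT.lf (nat_lit 0) (nat_lit 312110843206) (nat_lit 152) (nat_lit 121276294343) (nat_lit 0) (nat_lit 298727691825) (nat_lit 2) (nat_lit 5) (nat_lit 4) (nat_lit 4) (nat_lit 2) (nat_lit 4) (nat_lit 434) (nat_lit 291) (nat_lit 175)) (XT.nd (nat_lit 78) (nat_lit 760) (nat_lit 0) (XT.lf (nat_lit 0) (nat_lit 2000566017) (nat_lit 684) (nat_lit 806226222) (nat_lit 684) (nat_lit 806226222) (nat_lit 99) (nat_lit 4) (nat_lit 108) (nat_lit 5) (nat_lit 108) (nat_lit 4) (nat_lit 316) (nat_lit 292) (nat_lit 292)) (XT.lf (nat_lit 0) (nat_lit 1709587502) (nat_lit 760) (nat_lit 5451264710)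 (nat_lit 0) (nat_lit 170504385) (nat_lit 89) (nat_lit 5) (nat_lit 99) (nat_lit 4) (nat_lit 89) (nat_lit 4) (nat_lit 317) (nat_lit 292) (nat_lit 291)))) (XT.nd (nat_lit 78) (nat_lit 760) (nat_lit 0) (XT.lf (nat_lit 0) (nat_lit 5066571824) (nat_lit 760) (nat_lit 316487791) (nat_lit 0) (nat_lit 2061695264) (nat_lit 89) (nat_lit 5) (nat_lit 99) (nat_lit 4) (nat_lit 89) (nat_lit 4) (nat_lit 318) (nat_lit 292) (nat_lit 290)) (XT.nd (nat_lit 78) (nat_lit 304) (nat_lit 0) (XT.lf (nat_lit 0) (nat_lit 921055180) (nat_lit 456) (nat_lit 2512707198) (nat_lit 76) (nat_lit 4133199728) (nat_lit 83) (nat_lit 5) (nat_lit 89) (nat_lit 5) (nat_lit 84) (nat_lit 4) (nat_lit 319) (nat_lit 292) (nat_lit 289)) (XT.lf (nat_lit 0) (nat_lit 2893107264) (nat_lit 304) (nat_lit 1313475879) (nat_lit 380) (nat_lit 3491931651) (nat_lit 79) (nat_lit 5) (nat_lit 83) (nat_lit 5) (nat_lit 84) (nat_lit 4) (nat_lit 320) (nat_lit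 292) (nat_lit 288))))))) (XT.nd (nat_lit 858) (nat_lit 1444) (nat_lit 0) (XT.nd (nat_lit 390) (nat_lit 1292) (nat_lit 0) (XT.nd (nat_lit 156) (nat_lit 684) (nat_lit 0) (XT.nd (nat_lit 78) (nat_lit 76) (nat_lit 0) (XT.lf (nat_lit 0) (nat_lit 653584256) (nat_lit 304) (nat_lit 6925297884) (nat_lit 304) (nat_lit 261873437) (nat_lit 75) (nat_lit 4) (nat_lit 79) (nat_lit 5) (nat_lit 79) (nat_lit 4) (nat_lit 321) (nat_lit 292) (nat_lit 287)) (XT.lf (nat_lit 0) (nat_lit 2990262980) (nat_lit 380) (nat_lit 1681872856) (nat_lit 76) (nat_lit 3317705487) (nat_lit 74) (nat_lit 5) (nat_lit 79) (nat_lit 5) (nat_lit 75) (nat_lit 4) (nat_lit 322) (nat_lit 292) (nat_lit 286))) (XT.nd (nat_lit 78) (nat_lit 380) (nat_lit 0) (XT.lf (nat_lit 0) (nat_lit 4056160598) (nat_lit 304) (nat_lit 2266702913) (nat_lit 380) (nat_lit 1827173461) (nat_lit 70) (nat_lit 5) (nat_lit 74) (nat_lit 5) (nat_lit 75) (nat_lit 4)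 (nat_lit 323) (nat_lit 292) (nat_lit 285)) (XT.nd (nat_lit 78) (nat_lit 0) (nat_lit 0) (XT.lf (nat_lit 0) (nat_lit 1380621149) (nat_lit 380) (nat_lit 6643461534) (nat_lit 76) (nat_lit 296924928) (nat_lit 65) (nat_lit 5) (nat_lit 70) (nat_lit 5) (nat_lit 66) (nat_lit 4) (nat_lit 324) (nat_lit 292) (nat_lit 284)) (XT.lf (nat_lit 0) (nat_lit 4663181596) (nat_lit 380) (nat_lit 859076142) (nat_lit 76) (nat_lit 2978157808) (nat_lit 65) (nat_lit 5) (nat_lit 70) (nat_lit 5) (nat_lit 66) (nat_lit 4) (nat_lit 325) (nat_lit 292) (nat_lit 283))))) (XT.nd (nat_lit 234) (nat_lit 684) (nat_lit 0) (XT.nd (nat_lit 78) (nat_lit 380) (nat_lit 0) (XT.lf (nat_lit 0) (nat_lit 5216305312) (nat_lit 228) (nat_lit 2849437980) (nat_lit 304) (nat_lit 625424070) (nat_lit 62) (nat_lit 5) (nat_lit 65) (nat_lit 5) (nat_lit 66) (nat_lit 4) (nat_lit 326) (nat_lit 292) (nat_lit 282)) (XT.nd (nat_lit 78) (nat_lit 0) (nat_lit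 0) (XT.lf (nat_lit 0) (nat_lit 2590560142) (nat_lit 380) (nat_lit 6285054094) (nat_lit 76) (nat_lit 17274527) (nat_lit 57) (nat_lit 5) (nat_lit 62) (nat_lit 5) (nat_lit 58) (nat_lit 4) (nat_lit 327) (nat_lit 292) (nat_lit 281)) (XT.lf (nat_lit 0) (nat_lit 5931251117) (nat_lit 380) (nat_lit 213979155) (nat_lit 76) (nat_lit 2959851411) (nat_lit 57) (nat_lit 5) (nat_lit 62) (nat_lit 5) (nat_lit 58) (nat_lit 4) (nat_lit 328) (nat_lit 292) (nat_lit 280)))) (XT.nd (nat_lit 78) (nat_lit 380) (nat_lit 0) (XT.lf (nat_lit 0) (nat_lit 88042475) (nat_lit 304) (nat_lit 3132911571) (nat_lit 76) (nat_lit 6107949157) (nat_lit 53) (nat_lit 5) (nat_lit 57) (nat_lit 5) (nat_lit 54) (nat_lit 5) (nat_lit 329) (nat_lit 292) (nat_lit 279)) (XT.nd (nat_lit 78) (nat_lit 152) (nat_lit 0) (XT.lf (nat_lit 0) (nat_lit 3259553193) (nat_lit 228) (nat_lit 86617496) (nat_lit 304) (nat_lit 6218277185) (nat_lit 50) (nat_lit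 5) (nat_lit 53) (nat_lit 5) (nat_lit 54) (nat_lit 5) (nat_lit 330) (nat_lit 292) (nat_lit 278)) (XT.lf (nat_lit 0) (nat_lit 57053561) (nat_lit 152) (nat_lit 6702455871) (nat_lit 228) (nat_lit 3052763926) (nat_lit 48) (nat_lit 5) (nat_lit 50) (nat_lit 5) (nat_lit 51) (nat_lit 4) (nat_lit 331) (nat_lit 292) (nat_lit 277)))))) (XT.nd (nat_lit 468) (nat_lit 760) (nat_lit 0) (XT.nd (nat_lit 234) (nat_lit 380) (nat_lit 0) (XT.nd (nat_lit 78) (nat_lit 228) (nat_lit 0) (XT.lf (nat_lit 0) (nat_lit 260667222) (nat_lit 228) (nat_lit 3284861416) (nat_lit 76) (nat_lit 6526941815) (nat_lit 47) (nat_lit 5) (nat_lit 50) (nat_lit 5) (nat_lit 48) (nat_lit 5) (nat_lit 332) (nat_lit 292) (nat_lit 276)) (XT.nd (nat_lit 78) (nat_lit 0) (nat_lit 0) (XT.lf (nat_lit 0) (nat_lit 3409721782) (nat_lit 228) (nat_lit 174376177) (nat_lit 304) (nat_lit 6761833744) (nat_lit 44) (nat_lit 5) (nat_lit 47) (nat_lit 5) (nat_lit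 48) (nat_lit 5) (nat_lit 333) (nat_lit 292) (nat_lit 275)) (XT.lf (nat_lit 0) (nat_lit 7078286477) (nat_lit 304) (nat_lit 290955198) (nat_lit 76) (nat_lit 3263692756) (nat_lit 44) (nat_lit 5) (nat_lit 48) (nat_lit 5) (nat_lit 45) (nat_lit 4) (nat_lit 334) (nat_lit 292) (nat_lit 274)))) (XT.nd (nat_lit 78) (nat_lit 228) (nat_lit 0) (XT.lf (nat_lit 0) (nat_lit 6746988884) (nat_lit 152) (nat_lit 4008870950) (nat_lit 228) (nat_lit 178086763) (nat_lit 42) (nat_lit 5) (nat_lit 44) (nat_lit 5) (nat_lit 45) (nat_lit 4) (nat_lit 335) (nat_lit 292) (nat_lit 273)) (XT.nd (nat_lit 78) (nat_lit 0) (nat_lit 0) (XT.lf (nat_lit 0) (nat_lit 2779940454) (nat_lit 152) (nat_lit 429191696) (nat_lit 228) (nat_lit 8040852772) (nat_lit 39) (nat_lit 5) (nat_lit 41) (nat_lit 5) (nat_lit 42) (nat_lit 5) (nat_lit 336) (nat_lit 292) (nat_lit 272)) (XT.lf (nat_lit 0) (nat_lit 6786467297) (nat_lit 228) (nat_lit 1548922585)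 (nat_lit 76) (nat_lit 3245032699) (nat_lit 39) (nat_lit 5) (nat_lit 42) (nat_lit 5) (nat_lit 40) (nat_lit 4) (nat_lit 337) (nat_lit 292) (nat_lit 271))))) (XT.nd (nat_lit 234) (nat_lit 380) (nat_lit 0) (XT.nd (nat_lit 78) (nat_lit 228) (nat_lit 0) (XT.lf (nat_lit 0) (nat_lit 5747436355) (nat_lit 152) (nat_lit 4799323511) (nat_lit 228) (nat_lit 1380494297) (nat_lit 37) (nat_lit 5) (nat_lit 39) (nat_lit 5) (nat_lit 40) (nat_lit 4) (nat_lit 338) (nat_lit 292) (nat_lit 270)) (XT.nd (nat_lit 78) (nat_lit 0) (nat_lit 0) (XT.lf (nat_lit 0) (nat_lit 1021668901) (nat_lit 152) (nat_lit 1061963771) (nat_lit 228) (nat_lit 10208617696) (nat_lit 34) (nat_lit 5) (nat_lit 36) (nat_lit 5) (nat_lit 37) (nat_lit 5) (nat_lit 339) (nat_lit 292) (nat_lit 269)) (XT.lf (nat_lit 0) (nat_lit 5734773378) (nat_lit 228) (nat_lit 4091282443) (nat_lit 76) (nat_lit 2845365102) (nat_lit 34) (nat_lit 5) (nat_lit 37) (nat_lit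 5) (nat_lit 35) (nat_lit 4) (nat_lit 340) (nat_lit 292) (nat_lit 268)))) (XT.nd (nat_lit 78) (nat_lit 228) (nat_lit 0) (XT.lf (nat_lit 0) (nat_lit 3395621467) (nat_lit 152) (nat_lit 6156739939) (nat_lit 228) (nat_lit 3518057081) (nat_lit 32) (nat_lit 5) (nat_lit 34) (nat_lit 5) (nat_lit 35) (nat_lit 4) (nat_lit 341) (nat_lit 292) (nat_lit 267)) (XT.nd (nat_lit 78) (nat_lit 152) (nat_lit 0) (XT.lf (nat_lit 0) (nat_lit 53549911) (nat_lit 228) (nat_lit 2232476203) (nat_lit 76) (nat_lit 11204122454) (nat_lit 31) (nat_lit 5) (nat_lit 34) (nat_lit 5) (nat_lit 32) (nat_lit 5) (nat_lit 342) (nat_lit 292) (nat_lit 266)) (XT.lf (nat_lit 0) (nat_lit 3719739641) (nat_lit 228) (nat_lit 8391049297) (nat_lit 76) (nat_lit 1815535370) (nat_lit 29) (nat_lit 5) (nat_lit 32) (nat_lit 5) (nat_lit 30) (nat_lit 4) (nat_lit 343) (nat_lit 292) (nat_lit 265))))))))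
noncomputable def xc79 : XT := (XT.nd (nat_lit 1794) (nat_lit 608) (nat_lit 0) (XT.nd (nat_lit 858) (nat_lit 532) (nat_lit 0) (XT.nd (nat_lit 390) (nat_lit 304) (nat_lit 0) (XT.nd (nat_lit 156) (nat_lit 304) (nat_lit 0) (XT.nd (nat_lit 78) (nat_lit 76) (nat_lit 0) (XT.lf (nat_lit 0) (nat_lit 7564153586) (nat_lit 228) (nat_lit 789021529) (nat_lit 76) (nat_lit 6031439813) (nat_lit 29) (nat_lit 5) (nat_lit 32) (nat_lit 5) (nat_lit 30) (nat_lit 4) (nat_lit 344) (nat_lit 292) (nat_lit 264)) (XT.lf (nat_lit 0) (nat_lit 7295733054) (nat_lit 76) (nat_lit 4341829651) (nat_lit 152) (nat_lit 3226468006) (nat_lit 28) (nat_lit 5) (nat_lit 29) (nat_lit 5) (nat_lit 30) (nat_lit 4) (nat_lit 345) (nat_lit 292) (nat_lit 263))) (XT.nd (nat_lit 78) (nat_lit 76) (nat_lit 0) (XT.lf (nat_lit 0) (nat_lit 315344339) (nat_lit 152) (nat_lit 156118358) (nat_lit 228) (nat_lit 14898484555) (nat_lit 25) (nat_lit 5)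 (nat_lit 27) (nat_lit 5) (nat_lit 28) (nat_lit 5) (nat_lit 346) (nat_lit 292) (nat_lit 262)) (XT.nd (nat_lit 78) (nat_lit 76) (nat_lit 0) (XT.lf (nat_lit 0) (nat_lit 4366353758) (nat_lit 228) (nat_lit 7292193148) (nat_lit 76) (nat_lit 4233985991) (nat_lit 25) (nat_lit 5) (nat_lit 28) (nat_lit 5) (nat_lit 26) (nat_lit 4) (nat_lit 347) (nat_lit 292) (nat_lit 261)) (XT.lf (nat_lit 0) (nat_lit 754015837) (nat_lit 76) (nat_lit 7643961871) (nat_lit 152) (nat_lit 8046211307) (nat_lit 24) (nat_lit 5) (nat_lit 25) (nat_lit 5) (nat_lit 26) (nat_lit 4) (nat_lit 348) (nat_lit 292) (nat_lit 260))))) (XT.nd (nat_lit 234) (nat_lit 76) (nat_lit 0) (XT.nd (nat_lit 78) (nat_lit 228) (nat_lit 0) (XT.lf (nat_lit 0) (nat_lit 9331839151) (nat_lit 76) (nat_lit 3352008285) (nat_lit 152) (nat_lit 4336985946) (nat_lit 24) (nat_lit 5) (nat_lit 25) (nat_lit 5) (nat_lit 26) (nat_lit 4) (nat_lit 349) (nat_lit 292)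 (nat_lit 259)) (XT.nd (nat_lit 78) (nat_lit 76) (nat_lit 0) (XT.lf (nat_lit 0) (nat_lit 592597299) (nat_lit 152) (nat_lit 16550443280) (nat_lit 152) (nat_lit 485354727) (nat_lit 22) (nat_lit 4) (nat_lit 24) (nat_lit 5) (nat_lit 24) (nat_lit 4) (nat_lit 350) (nat_lit 292) (nat_lit 258)) (XT.lf (nat_lit 0) (nat_lit 3564274727) (nat_lit 228) (nat_lit 8938184667) (nat_lit 76) (nat_lit 5755165032) (nat_lit 21) (nat_lit 5) (nat_lit 24) (nat_lit 5) (nat_lit 22) (nat_lit 4) (nat_lit 351) (nat_lit 292) (nat_lit 257)))) (XT.nd (nat_lit 78) (nat_lit 76) (nat_lit 0) (XT.lf (nat_lit 0) (nat_lit 7735331566) (nat_lit 228) (nat_lit 558812726) (nat_lit 76) (nat_lit 10627041847) (nat_lit 21) (nat_lit 5) (nat_lit 24) (nat_lit 5) (nat_lit 22) (nat_lit 4) (nat_lit 352) (nat_lit 292) (nat_lit 256)) (XT.nd (nat_lit 78) (nat_lit 0) (nat_lit 0) (XT.lf (nat_lit 0) (nat_lit 8398655886) (nat_lit 76) (nat_lit 3785751926)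 (nat_lit 152) (nat_lit 7430075098) (nat_lit 20) (nat_lit 5) (nat_lit 21) (nat_lit 5) (nat_lit 22) (nat_lit 4) (nat_lit 353) (nat_lit 292) (nat_lit 255)) (XT.lf (nat_lit 0) (nat_lit 16819208376) (nat_lit 152) (nat_lit 2643749638) (nat_lit 0) (nat_lit 881351840) (nat_lit 20) (nat_lit 5) (nat_lit 22) (nat_lit 4) (nat_lit 20) (nat_lit 4) (nat_lit 354) (nat_lit 292) (nat_lit 254)))))) (XT.nd (nat_lit 468) (nat_lit 228) (nat_lit 0) (XT.nd (nat_lit 234) (nat_lit 76) (nat_lit 0) (XT.nd (nat_lit 78) (nat_lit 76) (nat_lit 0) (XT.lf (nat_lit 0) (nat_lit 662046329) (nat_lit 152) (nat_lit 14721586032) (nat_lit 76) (nat_lit 5721306349) (nat_lit 18) (nat_lit 5) (nat_lit 20) (nat_lit 5) (nat_lit 19) (nat_lit 4) (nat_lit 355) (nat_lit 292) (nat_lit 253)) (XT.nd (nat_lit 78) (nat_lit 76) (nat_lit 0) (XT.lf (nat_lit 0) (nat_lit 4927553565) (nat_lit 152) (nat_lit 6111509983) (nat_lit 76) (nat_lit 10862297535)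 (nat_lit 18) (nat_lit 5) (nat_lit 20) (nat_lit 5) (nat_lit 19) (nat_lit 4) (nat_lit 356) (nat_lit 292) (nat_lit 252)) (XT.lf (nat_lit 0) (nat_lit 2922393052) (nat_lit 76) (nat_lit 6474294994) (nat_lit 152) (nat_lit 13341422676) (nat_lit 17) (nat_lit 5) (nat_lit 18) (nat_lit 5) (nat_lit 19) (nat_lit 4) (nat_lit 357) (nat_lit 292) (nat_lit 251)))) (XT.nd (nat_lit 78) (nat_lit 76) (nat_lit 0) (XT.lf (nat_lit 0) (nat_lit 12521573740) (nat_lit 76) (nat_lit 1617024817) (nat_lit 152) (nat_lit 9475655934) (nat_lit 17) (nat_lit 5) (nat_lit 18) (nat_lit 5) (nat_lit 19) (nat_lit 4) (nat_lit 358) (nat_lit 292) (nat_lit 250)) (XT.nd (nat_lit 78) (nat_lit 76) (nat_lit 0) (XT.lf (nat_lit 0) (nat_lit 19119723312) (nat_lit 152) (nat_lit 2083714627) (nat_lit 0) (nat_lit 3330683107) (nat_lit 17) (nat_lit 5) (nat_lit 19) (nat_lit 4) (nat_lit 17) (nat_lit 4) (nat_lit 359) (nat_lit 292) (nat_lit 249)) (XT.lf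 (nat_lit 0) (nat_lit 7497892932) (nat_lit 76) (nat_lit 16945809411) (nat_lit 76) (nat_lit 1051609194) (nat_lit 16) (nat_lit 4) (nat_lit 17) (nat_lit 5) (nat_lit 17) (nat_lit 4) (nat_lit 360) (nat_lit 292) (nat_lit 248))))) (XT.nd (nat_lit 234) (nat_lit 76) (nat_lit 0) (XT.nd (nat_lit 78) (nat_lit 76) (nat_lit 0) (XT.lf (nat_lit 0) (nat_lit 3402601124) (nat_lit 152) (nat_lit 9019020303) (nat_lit 76) (nat_lit 14080891471) (nat_lit 15) (nat_lit 5) (nat_lit 17) (nat_lit 5) (nat_lit 16) (nat_lit 4) (nat_lit 361) (nat_lit 292) (nat_lit 247)) (XT.nd (nat_lit 78) (nat_lit 0) (nat_lit 0) (XT.lf (nat_lit 0) (nat_lit 313998952) (nat_lit 76) (nat_lit 7687822897) (nat_lit 152) (nat_lit 19559526178) (nat_lit 14) (nat_lit 5) (nat_lit 15) (nat_lit 5) (nat_lit 16) (nat_lit 4) (nat_lit 362) (nat_lit 292) (nat_lit 246)) (XT.lf (nat_lit 0) (nat_lit 10341084787) (nat_lit 76) (nat_lit 2596311211) (nat_lit 152)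 (nat_lit 15730426167) (nat_lit 14) (nat_lit 5) (nat_lit 15) (nat_lit 5) (nat_lit 16) (nat_lit 4) (nat_lit 363) (nat_lit 292) (nat_lit 245)))) (XT.nd (nat_lit 78) (nat_lit 76) (nat_lit 0) (XT.lf (nat_lit 0) (nat_lit 18117953394) (nat_lit 152) (nat_lit 9086288030) (nat_lit 0) (nat_lit 2625484429) (nat_lit 14) (nat_lit 5) (nat_lit 16) (nat_lit 4) (nat_lit 14) (nat_lit 4) (nat_lit 364) (nat_lit 292) (nat_lit 244)) (XT.nd (nat_lit 78) (nat_lit 0) (nat_lit 0) (XT.lf (nat_lit 0) (nat_lit 510669518) (nat_lit 76) (nat_lit 23054807294) (nat_lit 76) (nat_lit 7483866310) (nat_lit 13) (nat_lit 4) (nat_lit 14) (nat_lit 5) (nat_lit 14) (nat_lit 4) (nat_lit 365) (nat_lit 292) (nat_lit 243)) (XT.lf (nat_lit 0) (nat_lit 10824912918) (nat_lit 76) (nat_lit 18572557233) (nat_lit 76) (nat_lit 2926880992) (nat_lit 13) (nat_lit 4) (nat_lit 14) (nat_lit 5) (nat_lit 14) (nat_lit 4) (nat_lit 366) (nat_lit 292) (nat_lit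 242))))))) (XT.nd (nat_lit 858) (nat_lit 228) (nat_lit 0) (XT.nd (nat_lit 390) (nat_lit 228) (nat_lit 0) (XT.nd (nat_lit 156) (nat_lit 76) (nat_lit 0) (XT.nd (nat_lit 78) (nat_lit 0) (nat_lit 0) (XT.lf (nat_lit 0) (nat_lit 1758024544) (nat_lit 152) (nat_lit 12112902360) (nat_lit 76) (nat_lit 19792768636) (nat_lit 12) (nat_lit 5) (nat_lit 14) (nat_lit 5) (nat_lit 13) (nat_lit 4) (nat_lit 367) (nat_lit 292) (nat_lit 241)) (XT.lf (nat_lit 0) (nat_lit 6540276840) (nat_lit 152) (nat_lit 2377072233) (nat_lit 76) (nat_lit 26152198397) (nat_lit 12) (nat_lit 5) (nat_lit 14) (nat_lit 5) (nat_lit 13) (nat_lit 4) (nat_lit 368) (nat_lit 292) (nat_lit 240))) (XT.nd (nat_lit 78) (nat_lit 0) (nat_lit 0) (XT.lf (nat_lit 0) (nat_lit 8034069927) (nat_lit 76) (nat_lit 3616305101) (nat_lit 152) (nat_lit 24890892297) (nat_lit 11) (nat_lit 5) (nat_lit 12) (nat_lit 5) (nat_lit 13) (nat_lit 4) (nat_lit 369) (nat_lit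 292) (nat_lit 239)) (XT.nd (nat_lit 78) (nat_lit 0) (nat_lit 0) (XT.lf (nat_lit 0) (nat_lit 17050837287) (nat_lit 152) (nat_lit 19136199216) (nat_lit 0) (nat_lit 1897805132) (nat_lit 11) (nat_lit 5) (nat_lit 13) (nat_lit 4) (nat_lit 11) (nat_lit 4) (nat_lit 370) (nat_lit 292) (nat_lit 238)) (XT.lf (nat_lit 0) (nat_lit 22745845053) (nat_lit 152) (nat_lit 9421490065) (nat_lit 0) (nat_lit 7537044299) (nat_lit 11) (nat_lit 5) (nat_lit 13) (nat_lit 4) (nat_lit 11) (nat_lit 4) (nat_lit 371) (nat_lit 292) (nat_lit 237))))) (XT.nd (nat_lit 234) (nat_lit 152) (nat_lit 0) (XT.nd (nat_lit 78) (nat_lit 0) (nat_lit 0) (XT.lf (nat_lit 0) (nat_lit 740212390) (nat_lit 76) (nat_lit 27963841612) (nat_lit 76) (nat_lit 12701927906) (nat_lit 10) (nat_lit 4) (nat_lit 11) (nat_lit 5) (nat_lit 11) (nat_lit 4) (nat_lit 372) (nat_lit 292) (nat_lit 236)) (XT.nd (nat_lit 78) (nat_lit 0) (nat_lit 0) (XT.lf (nat_lit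 0) (nat_lit 11675666251) (nat_lit 76) (nat_lit 23411576080) (nat_lit 76) (nat_lit 8099078610) (nat_lit 10) (nat_lit 4) (nat_lit 11) (nat_lit 5) (nat_lit 11) (nat_lit 4) (nat_lit 373) (nat_lit 292) (nat_lit 235)) (XT.lf (nat_lit 0) (nat_lit 23099391302) (nat_lit 76) (nat_lit 18659257288) (nat_lit 76) (nat_lit 3298584806) (nat_lit 10) (nat_lit 4) (nat_lit 11) (nat_lit 5) (nat_lit 11) (nat_lit 4) (nat_lit 374) (nat_lit 292) (nat_lit 234)))) (XT.nd (nat_lit 78) (nat_lit 76) (nat_lit 0) (XT.lf (nat_lit 0) (nat_lit 1656221104) (nat_lit 152) (nat_lit 12011300183) (nat_lit 76) (nat_lit 33354316878) (nat_lit 9) (nat_lit 5) (nat_lit 11) (nat_lit 5) (nat_lit 10) (nat_lit 4) (nat_lit 375) (nat_lit 292) (nat_lit 233)) (XT.nd (nat_lit 78) (nat_lit 76) (nat_lit 0) (XT.lf (nat_lit 0) (nat_lit 6719380062) (nat_lit 152) (nat_lit 1675520476) (nat_lit 76) (nat_lit 40688503651) (nat_lit 9) (nat_lit 5) (nat_lit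 11) (nat_lit 5) (nat_lit 10) (nat_lit 4) (nat_lit 376) (nat_lit 292) (nat_lit 232)) (XT.lf (nat_lit 0) (nat_lit 9427339930) (nat_lit 76) (nat_lit 2728369787) (nat_lit 152) (nat_lit 39086345888) (nat_lit 8) (nat_lit 5) (nat_lit 9) (nat_lit 5) (nat_lit 10) (nat_lit 4) (nat_lit 377) (nat_lit 292) (nat_lit 231)))))) (XT.nd (nat_lit 468) (nat_lit 152) (nat_lit 0) (XT.nd (nat_lit 234) (nat_lit 76) (nat_lit 0) (XT.nd (nat_lit 78) (nat_lit 0) (nat_lit 0) (XT.lf (nat_lit 0) (nat_lit 17915948808) (nat_lit 152) (nat_lit 32466048209) (nat_lit 0) (nat_lit 3124045290) (nat_lit 8) (nat_lit 5) (nat_lit 10) (nat_lit 4) (nat_lit 8) (nat_lit 4) (nat_lit 378) (nat_lit 292) (nat_lit 230)) (XT.nd (nat_lit 78) (nat_lit 0) (nat_lit 0) (XT.lf (nat_lit 0) (nat_lit 23983170634) (nat_lit 152) (nat_lit 22743798002) (nat_lit 0) (nat_lit 9155318180) (nat_lit 8) (nat_lit 5) (nat_lit 10) (nat_lit 4) (nat_lit 8) (nat_lit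 4) (nat_lit 379) (nat_lit 292) (nat_lit 229)) (XT.lf (nat_lit 0) (nat_lit 30329223463) (nat_lit 152) (nat_lit 12582219344) (nat_lit 0) (nat_lit 15467133926) (nat_lit 8) (nat_lit 5) (nat_lit 10) (nat_lit 4) (nat_lit 8) (nat_lit 4) (nat_lit 380) (nat_lit 292) (nat_lit 228)))) (XT.nd (nat_lit 78) (nat_lit 76) (nat_lit 0) (XT.lf (nat_lit 0) (nat_lit 36969216944) (nat_lit 152) (nat_lit 1957117997) (nat_lit 0) (nat_lit 22074520662) (nat_lit 8) (nat_lit 5) (nat_lit 10) (nat_lit 4) (nat_lit 8) (nat_lit 4) (nat_lit 381) (nat_lit 292) (nat_lit 227)) (XT.nd (nat_lit 78) (nat_lit 0) (nat_lit 0) (XT.lf (nat_lit 0) (nat_lit 9459569186) (nat_lit 76) (nat_lit 34607081785) (nat_lit 76) (nat_lit 19681331460) (nat_lit 7) (nat_lit 4) (nat_lit 8) (nat_lit 5) (nat_lit 8) (nat_lit 4) (nat_lit 382) (nat_lit 292) (nat_lit 226)) (XT.lf (nat_lit 0) (nat_lit 21473287355) (nat_lit 76) (nat_lit 30056972236) (nat_lit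 76) (nat_lit 15101646632) (nat_lit 7) (nat_lit 4) (nat_lit 8) (nat_lit 5) (nat_lit 8) (nat_lit 4) (nat_lit 383) (nat_lit 292) (nat_lit 225))))) (XT.nd (nat_lit 234) (nat_lit 152) (nat_lit 0) (XT.nd (nat_lit 78) (nat_lit 0) (nat_lit 0) (XT.lf (nat_lit 0) (nat_lit 34047929441) (nat_lit 76) (nat_lit 25298317441) (nat_lit 76) (nat_lit 10314824905) (nat_lit 7) (nat_lit 4) (nat_lit 8) (nat_lit 5) (nat_lit 8) (nat_lit 4) (nat_lit 384) (nat_lit 292) (nat_lit 224)) (XT.nd (nat_lit 78) (nat_lit 0) (nat_lit 0) (XT.lf (nat_lit 0) (nat_lit 47213435067) (nat_lit 76) (nat_lit 20319787269) (nat_lit 76) (nat_lit 5309469083) (nat_lit 7) (nat_lit 4) (nat_lit 8) (nat_lit 5) (nat_lit 8) (nat_lit 4) (nat_lit 385) (nat_lit 292) (nat_lit 223)) (XT.lf (nat_lit 0) (nat_lit 61001150676) (nat_lit 76) (nat_lit 15109528078) (nat_lit 76) (nat_lit 73661654) (nat_lit 7) (nat_lit 4) (nat_lit 8) (nat_lit 5) (nat_lit 8)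 (nat_lit 4) (nat_lit 386) (nat_lit 292) (nat_lit 222)))) (XT.nd (nat_lit 78) (nat_lit 76) (nat_lit 0) (XT.lf (nat_lit 0) (nat_lit 5232067800) (nat_lit 152) (nat_lit 4334459088) (nat_lit 76) (nat_lit 70123228761) (nat_lit 6) (nat_lit 5) (nat_lit 8) (nat_lit 5) (nat_lit 7) (nat_lit 4) (nat_lit 387) (nat_lit 292) (nat_lit 221)) (XT.nd (nat_lit 78) (nat_lit 0) (nat_lit 0) (XT.lf (nat_lit 0) (nat_lit 7254394581) (nat_lit 76) (nat_lit 3642076474) (nat_lit 152) (nat_lit 72469121380) (nat_lit 5) (nat_lit 5) (nat_lit 6) (nat_lit 5) (nat_lit 7) (nat_lit 4) (nat_lit 388) (nat_lit 292) (nat_lit 220)) (XT.lf (nat_lit 0) (nat_lit 16941636950) (nat_lit 152) (nat_lit 67723208054) (nat_lit 0) (nat_lit 2555503033) (nat_lit 5) (nat_lit 5) (nat_lit 7) (nat_lit 4) (nat_lit 5) (nat_lit 4) (nat_lit 389) (nat_lit 292) (nat_lit 219))))))))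
noncomputable def xc80 : XT := (XT.nd (nat_lit 1716) (nat_lit 0) (nat_lit 0) (XT.nd (nat_lit 858) (nat_lit 152) (nat_lit 0) (XT.nd (nat_lit 390) (nat_lit 76) (nat_lit 0) (XT.nd (nat_lit 156) (nat_lit 0) (nat_lit 0) (XT.nd (nat_lit 78) (nat_lit 0) (nat_lit 0) (XT.lf (nat_lit 0) (nat_lit 23332266182) (nat_lit 152) (nat_lit 59007304336) (nat_lit 0) (nat_lit 8926114552) (nat_lit 5) (nat_lit 5) (nat_lit 7) (nat_lit 4) (nat_lit 5) (nat_lit 4) (nat_lit 390) (nat_lit 292) (nat_lit 218)) (XT.lf (nat_lit 0) (nat_lit 30026711516) (nat_lit 152) (nat_lit 49885871528) (nat_lit 0) (nat_lit 15601495398) (nat_lit 5) (nat_lit 5) (nat_lit 7) (nat_lit 4) (nat_lit 5) (nat_lit 4) (nat_lit 391) (nat_lit 292) (nat_lit 217))) (XT.nd (nat_lit 78) (nat_lit 0) (nat_lit 0) (XT.lf (nat_lit 0) (nat_lit 37040912107) (nat_lit 152) (nat_lit 40337191933) (nat_lit 0) (nat_lit 22597539333) (nat_lit 5) (nat_lit 5) (nat_lit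 7) (nat_lit 4) (nat_lit 5) (nat_lit 4) (nat_lit 392) (nat_lit 292) (nat_lit 216)) (XT.nd (nat_lit 78) (nat_lit 0) (nat_lit 0) (XT.lf (nat_lit 0) (nat_lit 44391568433) (nat_lit 152) (nat_lit 30338530600) (nat_lit 0) (nat_lit 29930903606) (nat_lit 5) (nat_lit 5) (nat_lit 7) (nat_lit 4) (nat_lit 5) (nat_lit 4) (nat_lit 393) (nat_lit 292) (nat_lit 215)) (XT.lf (nat_lit 0) (nat_lit 52096182056) (nat_lit 152) (nat_lit 19866081191) (nat_lit 0) (nat_lit 37619048607) (nat_lit 5) (nat_lit 5) (nat_lit 7) (nat_lit 4) (nat_lit 5) (nat_lit 4) (nat_lit 394) (nat_lit 292) (nat_lit 214))))) (XT.nd (nat_lit 234) (nat_lit 0) (nat_lit 0) (XT.nd (nat_lit 78) (nat_lit 76) (nat_lit 0) (XT.lf (nat_lit 0) (nat_lit 60173097295) (nat_lit 152) (nat_lit 8894909304) (nat_lit 0) (nat_lit 45680279445) (nat_lit 5) (nat_lit 5) (nat_lit 7) (nat_lit 4) (nat_lit 5) (nat_lit 4) (nat_lit 395) (nat_lit 292) (nat_lit 213)) (XT.nd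 (nat_lit 78) (nat_lit 0) (nat_lit 0) (XT.lf (nat_lit 0) (nat_lit 2687111238) (nat_lit 76) (nat_lit 65996386999) (nat_lit 76) (nat_lit 51488631622) (nat_lit 4) (nat_lit 4) (nat_lit 5) (nat_lit 5) (nat_lit 5) (nat_lit 4) (nat_lit 396) (nat_lit 292) (nat_lit 212)) (XT.lf (nat_lit 0) (nat_lit 15133712186) (nat_lit 76) (nat_lit 62624255316) (nat_lit 76) (nat_lit 48102273725) (nat_lit 4) (nat_lit 4) (nat_lit 5) (nat_lit 5) (nat_lit 5) (nat_lit 4) (nat_lit 397) (nat_lit 292) (nat_lit 211)))) (XT.nd (nat_lit 78) (nat_lit 0) (nat_lit 0) (XT.lf (nat_lit 0) (nat_lit 28180422428) (nat_lit 76) (nat_lit 59094222260) (nat_lit 76) (nat_lit 44558691893) (nat_lit 4) (nat_lit 4) (nat_lit 5) (nat_lit 5) (nat_lit 5) (nat_lit 4) (nat_lit 398) (nat_lit 292) (nat_lit 210)) (XT.nd (nat_lit 78) (nat_lit 0) (nat_lit 0) (XT.lf (nat_lit 0) (nat_lit 41858305561) (nat_lit 76) (nat_lit 55397882991) (nat_lit 76) (nat_lit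 40849449027) (nat_lit 4) (nat_lit 4) (nat_lit 5) (nat_lit 5) (nat_lit 5) (nat_lit 4) (nat_lit 399) (nat_lit 292) (nat_lit 209)) (XT.lf (nat_lit 0) (nat_lit 56199927974) (nat_lit 76) (nat_lit 51526436700) (nat_lit 76) (nat_lit 36965713597) (nat_lit 4) (nat_lit 4) (nat_lit 5) (nat_lit 5) (nat_lit 5) (nat_lit 4) (nat_lit 400) (nat_lit 292) (nat_lit 208)))))) (XT.nd (nat_lit 390) (nat_lit 152) (nat_lit 0) (XT.nd (nat_lit 156) (nat_lit 0) (nat_lit 0) (XT.nd (nat_lit 78) (nat_lit 0) (nat_lit 0) (XT.lf (nat_lit 0) (nat_lit 71239436385) (nat_lit 76) (nat_lit 47470665658) (nat_lit 76) (nat_lit 32898238613) (nat_lit 4) (nat_lit 4) (nat_lit 5) (nat_lit 5) (nat_lit 5) (nat_lit 4) (nat_lit 401) (nat_lit 292) (nat_lit 207)) (XT.lf (nat_lit 0) (nat_lit 87012639150) (nat_lit 76) (nat_lit 43220913268) (nat_lit 76) (nat_lit 28637339611) (nat_lit 4) (nat_lit 4) (nat_lit 5) (nat_lit 5) (nat_lit 5) (nat_lit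 4) (nat_lit 402) (nat_lit 292) (nat_lit 206))) (XT.nd (nat_lit 78) (nat_lit 0) (nat_lit 0) (XT.lf (nat_lit 0) (nat_lit 103557091512) (nat_lit 76) (nat_lit 38767061071) (nat_lit 76) (nat_lit 24172871594) (nat_lit 4) (nat_lit 4) (nat_lit 5) (nat_lit 5) (nat_lit 5) (nat_lit 4) (nat_lit 403) (nat_lit 292) (nat_lit 205)) (XT.nd (nat_lit 78) (nat_lit 0) (nat_lit 0) (XT.lf (nat_lit 0) (nat_lit 120912185025) (nat_lit 76) (nat_lit 34098504658) (nat_lit 76) (nat_lit 19494204876) (nat_lit 4) (nat_lit 4) (nat_lit 5) (nat_lit 5) (nat_lit 5) (nat_lit 4) (nat_lit 404) (nat_lit 292) (nat_lit 204)) (XT.lf (nat_lit 0) (nat_lit 139119241340) (nat_lit 76) (nat_lit 29204128418) (nat_lit 76) (nat_lit 14590199774) (nat_lit 4) (nat_lit 4) (nat_lit 5) (nat_lit 5) (nat_lit 5) (nat_lit 4) (nat_lit 405) (nat_lit 292) (nat_lit 203))))) (XT.nd (nat_lit 234) (nat_lit 76) (nat_lit 0) (XT.nd (nat_lit 78) (nat_lit 76)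 (nat_lit 0) (XT.lf (nat_lit 0) (nat_lit 158221610590) (nat_lit 76) (nat_lit 24072279074) (nat_lit 76) (nat_lit 9449180085) (nat_lit 4) (nat_lit 4) (nat_lit 5) (nat_lit 5) (nat_lit 5) (nat_lit 4) (nat_lit 406) (nat_lit 292) (nat_lit 202)) (XT.nd (nat_lit 78) (nat_lit 76) (nat_lit 0) (XT.lf (nat_lit 0) (nat_lit 178264774609) (nat_lit 76) (nat_lit 18690737938) (nat_lit 76) (nat_lit 4058905286) (nat_lit 4) (nat_lit 4) (nat_lit 5) (nat_lit 5) (nat_lit 5) (nat_lit 4) (nat_lit 407) (nat_lit 292) (nat_lit 201)) (XT.lf (nat_lit 0) (nat_lit 1542457981) (nat_lit 152) (nat_lit 11478111561) (nat_lit 76) (nat_lit 197727874959) (nat_lit 3) (nat_lit 5) (nat_lit 5) (nat_lit 5) (nat_lit 4) (nat_lit 4) (nat_lit 408) (nat_lit 292) (nat_lit 200)))) (XT.nd (nat_lit 78) (nat_lit 0) (nat_lit 0) (XT.lf (nat_lit 0) (nat_lit 286404172) (nat_lit 76) (nat_lit 6998706210) (nat_lit 152) (nat_lit 213680855282) (nat_lit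 2) (nat_lit 5) (nat_lit 3) (nat_lit 5) (nat_lit 4) (nat_lit 4) (nat_lit 409) (nat_lit 292) (nat_lit 199)) (XT.nd (nat_lit 78) (nat_lit 0) (nat_lit 0) (XT.lf (nat_lit 0) (nat_lit 13024633226) (nat_lit 76) (nat_lit 477927654) (nat_lit 152) (nat_lit 218182420132) (nat_lit 2) (nat_lit 5) (nat_lit 3) (nat_lit 5) (nat_lit 4) (nat_lit 4) (nat_lit 410) (nat_lit 292) (nat_lit 198)) (XT.lf (nat_lit 0) (nat_lit 20123824866) (nat_lit 152) (nat_lit 216652224810) (nat_lit 0) (nat_lit 6159251738) (nat_lit 2) (nat_lit 5) (nat_lit 4) (nat_lit 4) (nat_lit 2) (nat_lit 4) (nat_lit 411) (nat_lit 292) (nat_lit 197))))))) (XT.nd (nat_lit 858) (nat_lit 0) (nat_lit 0) (XT.nd (nat_lit 390) (nat_lit 0) (nat_lit 0) (XT.nd (nat_lit 156) (nat_lit 0) (nat_lit 0) (XT.nd (nat_lit 78) (nat_lit 0) (nat_lit 0) (XT.lf (nat_lit 0) (nat_lit 27077800972) (nat_lit 152) (nat_lit 214563545037) (nat_lit 0) (nat_lit 13106710651)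 (nat_lit 2) (nat_lit 5) (nat_lit 4) (nat_lit 4) (nat_lit 2) (nat_lit 4) (nat_lit 412) (nat_lit 292) (nat_lit 196)) (XT.lf (nat_lit 0) (nat_lit 34373584495) (nat_lit 152) (nat_lit 212381873631) (nat_lit 0) (nat_lit 20396287324) (nat_lit 2) (nat_lit 5) (nat_lit 4) (nat_lit 4) (nat_lit 2) (nat_lit 4) (nat_lit 413) (nat_lit 292) (nat_lit 195))) (XT.nd (nat_lit 78) (nat_lit 0) (nat_lit 0) (XT.lf (nat_lit 0) (nat_lit 42028546348) (nat_lit 152) (nat_lit 210102016134) (nat_lit 0) (nat_lit 28045337891) (nat_lit 2) (nat_lit 5) (nat_lit 4) (nat_lit 4) (nat_lit 2) (nat_lit 4) (nat_lit 414) (nat_lit 292) (nat_lit 194)) (XT.nd (nat_lit 78) (nat_lit 0) (nat_lit 0) (XT.lf (nat_lit 0) (nat_lit 50060912631) (nat_lit 152) (nat_lit 207718544316) (nat_lit 0) (nat_lit 36072074378) (nat_lit 2) (nat_lit 5) (nat_lit 4) (nat_lit 4) (nat_lit 2) (nat_lit 4) (nat_lit 415) (nat_lit 292) (nat_lit 193)) (XT.lf (nat_lit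 0) (nat_lit 58489808025) (nat_lit 152) (nat_lit 205225783244) (nat_lit 0) (nat_lit 44495608061) (nat_lit 2) (nat_lit 5) (nat_lit 4) (nat_lit 4) (nat_lit 2) (nat_lit 4) (nat_lit 416) (nat_lit 292) (nat_lit 192))))) (XT.nd (nat_lit 234) (nat_lit 0) (nat_lit 0) (XT.nd (nat_lit 78) (nat_lit 0) (nat_lit 0) (XT.lf (nat_lit 0) (nat_lit 67335301329) (nat_lit 152) (nat_lit 202617797771) (nat_lit 0) (nat_lit 53335994973) (nat_lit 2) (nat_lit 5) (nat_lit 4) (nat_lit 4) (nat_lit 2) (nat_lit 4) (nat_lit 417) (nat_lit 292) (nat_lit 191)) (XT.nd (nat_lit 78) (nat_lit 0) (nat_lit 0) (XT.lf (nat_lit 0) (nat_lit 76618453241) (nat_lit 152) (nat_lit 199888378410) (nat_lit 0) (nat_lit 62614283656) (nat_lit 2) (nat_lit 5) (nat_lit 4) (nat_lit 4) (nat_lit 2) (nat_lit 4) (nat_lit 418) (nat_lit 292) (nat_lit 190)) (XT.lf (nat_lit 0) (nat_lit 86361366503) (nat_lit 152) (nat_lit 197031026541) (nat_lit 0) (nat_lit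 72352565271) (nat_lit 2) (nat_lit 5) (nat_lit 4) (nat_lit 4) (nat_lit 2) (nat_lit 4) (nat_lit 419) (nat_lit 292) (nat_lit 189)))) (XT.nd (nat_lit 78) (nat_lit 0) (nat_lit 0) (XT.lf (nat_lit 0) (nat_lit 96587238529) (nat_lit 152) (nat_lit 194038938947) (nat_lit 0) (nat_lit 82574026204) (nat_lit 2) (nat_lit 5) (nat_lit 4) (nat_lit 4) (nat_lit 2) (nat_lit 4) (nat_lit 420) (nat_lit 292) (nat_lit 188)) (XT.nd (nat_lit 78) (nat_lit 0) (nat_lit 0) (XT.lf (nat_lit 0) (nat_lit 107320416633) (nat_lit 152) (nat_lit 190904991610) (nat_lit 0) (nat_lit 93303003267) (nat_lit 2) (nat_lit 5) (nat_lit 4) (nat_lit 4) (nat_lit 2) (nat_lit 4) (nat_lit 421) (nat_lit 292) (nat_lit 187)) (XT.lf (nat_lit 0) (nat_lit 118586456000) (nat_lit 152) (nat_lit 187621722749) (nat_lit 0) (nat_lit 104565041643) (nat_lit 2) (nat_lit 5) (nat_lit 4) (nat_lit 4) (nat_lit 2) (nat_lit 4) (nat_lit 422) (nat_lit 292) (nat_lit 186))))))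 (XT.nd (nat_lit 468) (nat_lit 0) (nat_lit 0) (XT.nd (nat_lit 234) (nat_lit 0) (nat_lit 0) (XT.nd (nat_lit 78) (nat_lit 0) (nat_lit 0) (XT.lf (nat_lit 0) (nat_lit 130412180534) (nat_lit 152) (nat_lit 184181315059) (nat_lit 0) (nat_lit 116386955709) (nat_lit 2) (nat_lit 5) (nat_lit 4) (nat_lit 4) (nat_lit 2) (nat_lit 4) (nat_lit 423) (nat_lit 292) (nat_lit 185)) (XT.nd (nat_lit 78) (nat_lit 0) (nat_lit 0) (XT.lf (nat_lit 0) (nat_lit 142825746722) (nat_lit 152) (nat_lit 180575577093) (nat_lit 0) (nat_lit 128796892880) (nat_lit 2) (nat_lit 5) (nat_lit 4) (nat_lit 4) (nat_lit 2) (nat_lit 4) (nat_lit 424) (nat_lit 292) (nat_lit 184)) (XT.lf (nat_lit 0) (nat_lit 155856710673) (nat_lit 152) (nat_lit 176795923759) (nat_lit 0) (nat_lit 141824400625) (nat_lit 2) (nat_lit 5) (nat_lit 4) (nat_lit 4) (nat_lit 2) (nat_lit 4) (nat_lit 425) (nat_lit 292) (nat_lit 183)))) (XT.nd (nat_lit 78) (nat_lit 0)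 (nat_lit 0) (XT.lf (nat_lit 0) (nat_lit 169536098494) (nat_lit 152) (nat_lit 172833355884) (nat_lit 0) (nat_lit 155500496820) (nat_lit 2) (nat_lit 5) (nat_lit 4) (nat_lit 4) (nat_lit 2) (nat_lit 4) (nat_lit 426) (nat_lit 292) (nat_lit 182)) (XT.nd (nat_lit 78) (nat_lit 0) (nat_lit 0) (XT.lf (nat_lit 0) (nat_lit 183896480153) (nat_lit 152) (nat_lit 168678438781) (nat_lit 0) (nat_lit 169857743599) (nat_lit 2) (nat_lit 5) (nat_lit 4) (nat_lit 4) (nat_lit 2) (nat_lit 4) (nat_lit 427) (nat_lit 292) (nat_lit 181)) (XT.lf (nat_lit 0) (nat_lit 198972047037) (nat_lit 152) (nat_lit 164321279792) (nat_lit 0) (nat_lit 184930324881) (nat_lit 2) (nat_lit 5) (nat_lit 4) (nat_lit 4) (nat_lit 2) (nat_lit 4) (nat_lit 428) (nat_lit 292) (nat_lit 180))))) (XT.nd (nat_lit 234) (nat_lit 0) (nat_lit 0) (XT.nd (nat_lit 78) (nat_lit 0) (nat_lit 0) (XT.lf (nat_lit 0) (nat_lit 214798693352) (nat_lit 152) (nat_lit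 159751504728) (nat_lit 0) (nat_lit 200754127767) (nat_lit 2) (nat_lit 5) (nat_lit 4) (nat_lit 4) (nat_lit 2) (nat_lit 4) (nat_lit 429) (nat_lit 292) (nat_lit 179)) (XT.nd (nat_lit 78) (nat_lit 0) (nat_lit 0) (XT.lf (nat_lit 0) (nat_lit 231414101590) (nat_lit 152) (nat_lit 154958233172) (nat_lit 0) (nat_lit 217366827976) (nat_lit 2) (nat_lit 5) (nat_lit 4) (nat_lit 4) (nat_lit 2) (nat_lit 4) (nat_lit 430) (nat_lit 292) (nat_lit 178)) (XT.lf (nat_lit 0) (nat_lit 248857832246) (nat_lit 152) (nat_lit 149930052574) (nat_lit 0) (nat_lit 234807979558) (nat_lit 2) (nat_lit 5) (nat_lit 4) (nat_lit 4) (nat_lit 2) (nat_lit 4) (nat_lit 431) (nat_lit 292) (nat_lit 177)))) (XT.nd (nat_lit 78) (nat_lit 0) (nat_lit 0) (XT.lf (nat_lit 0) (nat_lit 267171418012) (nat_lit 152) (nat_lit 144654991073) (nat_lit 0) (nat_lit 253119109063) (nat_lit 2) (nat_lit 5) (nat_lit 4) (nat_lit 4) (nat_lit 2) (nat_lit 4)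 (nat_lit 432) (nat_lit 292) (nat_lit 176)) (XT.nd (nat_lit 78) (nat_lit 0) (nat_lit 0) (XT.lf (nat_lit 0) (nat_lit 286398462664) (nat_lit 152) (nat_lit 139120489001) (nat_lit 0) (nat_lit 272343814418) (nat_lit 2) (nat_lit 5) (nat_lit 4) (nat_lit 4) (nat_lit 2) (nat_lit 4) (nat_lit 433) (nat_lit 292) (nat_lit 175)) (XT.lf (nat_lit 0) (nat_lit 306584744880) (nat_lit 152) (nat_lit 133313368971) (nat_lit 0) (nat_lit 292527868732) (nat_lit 2) (nat_lit 5) (nat_lit 4) (nat_lit 4) (nat_lit 2) (nat_lit 4) (nat_lit 434) (nat_lit 292) (nat_lit 174))))))))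
noncomputable def xc81 : XT := (XT.nd (nat_lit 1794) (nat_lit 1672) (nat_lit 0) (XT.nd (nat_lit 858) (nat_lit 1976) (nat_lit 0) (XT.nd (nat_lit 390) (nat_lit 1824) (nat_lit 0) (XT.nd (nat_lit 156) (nat_lit 1444) (nat_lit 0) (XT.nd (nat_lit 78) (nat_lit 0) (nat_lit 0) (XT.lf (nat_lit 0) (nat_lit 302394775) (nat_lit 684) (nat_lit 2915028173) (nat_lit 0) (nat_lit 302394775) (nat_lit 108) (nat_lit 5) (nat_lit 117) (nat_lit 4) (nat_lit 108) (nat_lit 4) (nat_lit 314) (nat_lit 293) (nat_lit 293)) (XT.lf (nat_lit 0) (nat_lit 3884945640) (nat_lit 684) (nat_lit 1056976352) (nat_lit 0) (nat_lit 2188106504) (nat_lit 108) (nat_lit 5) (nat_lit 117) (nat_lit 4) (nat_lit 108) (nat_lit 4) (nat_lit 315) (nat_lit 293) (nat_lit 292))) (XT.nd (nat_lit 78) (nat_lit 684) (nat_lit 0) (XT.lf (nat_lit 0) (nat_lit 1704263) (nat_lit 760) (nat_lit 3309382668) (nat_lit 76) (nat_lit 3919029619) (nat_lit 98) (nat_lit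 5) (nat_lit 108) (nat_lit 5) (nat_lit 99) (nat_lit 4) (nat_lit 316) (nat_lit 293) (nat_lit 291)) (XT.nd (nat_lit 78) (nat_lit 0) (nat_lit 0) (XT.lf (nat_lit 0) (nat_lit 1687882199) (nat_lit 684) (nat_lit 1502284495) (nat_lit 760) (nat_lit 4148248683) (nat_lit 89) (nat_lit 5) (nat_lit 98) (nat_lit 5) (nat_lit 99) (nat_lit 4) (nat_lit 317) (nat_lit 293) (nat_lit 290)) (XT.lf (nat_lit 0) (nat_lit 6449868991) (nat_lit 760) (nat_lit 573980179) (nat_lit 0) (nat_lit 432961402) (nat_lit 89) (nat_lit 5) (nat_lit 99) (nat_lit 4) (nat_lit 89) (nat_lit 4) (nat_lit 318) (nat_lit 293) (nat_lit 289))))) (XT.nd (nat_lit 234) (nat_lit 684) (nat_lit 0) (XT.nd (nat_lit 78) (nat_lit 684) (nat_lit 0) (XT.lf (nat_lit 0) (nat_lit 2171325278) (nat_lit 456) (nat_lit 2895208632) (nat_lit 76) (nat_lit 2515388060) (nat_lit 83) (nat_lit 5) (nat_lit 89) (nat_lit 5) (nat_lit 84) (nat_lit 4) (nat_lit 319) (nat_lit 293)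 (nat_lit 288)) (XT.nd (nat_lit 78) (nat_lit 380) (nat_lit 0) (XT.lf (nat_lit 0) (nat_lit 2416404559) (nat_lit 304) (nat_lit 2963613733) (nat_lit 380) (nat_lit 2337412841) (nat_lit 79) (nat_lit 5) (nat_lit 83) (nat_lit 5) (nat_lit 84) (nat_lit 4) (nat_lit 320) (nat_lit 293) (nat_lit 287)) (XT.lf (nat_lit 0) (nat_lit 59997724) (nat_lit 304) (nat_lit 711292770) (nat_lit 380) (nat_lit 7092427881) (nat_lit 74) (nat_lit 5) (nat_lit 78) (nat_lit 5) (nat_lit 79) (nat_lit 5) (nat_lit 321) (nat_lit 293) (nat_lit 286)))) (XT.nd (nat_lit 78) (nat_lit 684) (nat_lit 0) (XT.lf (nat_lit 0) (nat_lit 3937271723) (nat_lit 380) (nat_lit 2373385684) (nat_lit 76) (nat_lit 1705930070) (nat_lit 74) (nat_lit 5) (nat_lit 79) (nat_lit 5) (nat_lit 75) (nat_lit 4) (nat_lit 322) (nat_lit 293) (nat_lit 285)) (XT.nd (nat_lit 78) (nat_lit 380) (nat_lit 0) (XT.lf (nat_lit 0) (nat_lit 3261125301) (nat_lit 304) (nat_lit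 3932840578) (nat_lit 380) (nat_lit 986706954) (nat_lit 70) (nat_lit 5) (nat_lit 74) (nat_lit 5) (nat_lit 75) (nat_lit 4) (nat_lit 323) (nat_lit 293) (nat_lit 284)) (XT.lf (nat_lit 0) (nat_lit 734457721) (nat_lit 304) (nat_lit 1377370424) (nat_lit 380) (nat_lit 6243362803) (nat_lit 65) (nat_lit 5) (nat_lit 69) (nat_lit 5) (nat_lit 70) (nat_lit 5) (nat_lit 324) (nat_lit 293) (nat_lit 283)))))) (XT.nd (nat_lit 468) (nat_lit 836) (nat_lit 0) (XT.nd (nat_lit 234) (nat_lit 532) (nat_lit 0) (XT.nd (nat_lit 78) (nat_lit 608) (nat_lit 0) (XT.lf (nat_lit 0) (nat_lit 5311631337) (nat_lit 380) (nat_lit 1895417639) (nat_lit 76) (nat_lit 1331769303) (nat_lit 65) (nat_lit 5) (nat_lit 70) (nat_lit 5) (nat_lit 66) (nat_lit 4) (nat_lit 325) (nat_lit 293) (nat_lit 282)) (XT.nd (nat_lit 78) (nat_lit 380) (nat_lit 0) (XT.lf (nat_lit 0) (nat_lit 4066422854) (nat_lit 228) (nat_lit 4571481440) (nat_lit 304) (nat_lit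 95557890) (nat_lit 62) (nat_lit 5) (nat_lit 65) (nat_lit 5) (nat_lit 66) (nat_lit 4) (nat_lit 326) (nat_lit 293) (nat_lit 281)) (XT.lf (nat_lit 0) (nat_lit 1287943768) (nat_lit 304) (nat_lit 1736894728) (nat_lit 380) (nat_lit 5913933327) (nat_lit 57) (nat_lit 5) (nat_lit 61) (nat_lit 5) (nat_lit 62) (nat_lit 5) (nat_lit 327) (nat_lit 293) (nat_lit 280)))) (XT.nd (nat_lit 78) (nat_lit 532) (nat_lit 0) (XT.lf (nat_lit 0) (nat_lit 6281919506) (nat_lit 380) (nat_lit 1631428008) (nat_lit 76) (nat_lit 1241864807) (nat_lit 57) (nat_lit 5) (nat_lit 62) (nat_lit 5) (nat_lit 58) (nat_lit 4) (nat_lit 328) (nat_lit 293) (nat_lit 279)) (XT.nd (nat_lit 78) (nat_lit 228) (nat_lit 0) (XT.lf (nat_lit 0) (nat_lit 299748192) (nat_lit 304) (nat_lit 4732252374) (nat_lit 76) (nat_lit 4350820152) (nat_lit 53) (nat_lit 5) (nat_lit 57) (nat_lit 5) (nat_lit 54) (nat_lit 5) (nat_lit 329) (nat_lit 293) (nat_lit 278))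 (XT.lf (nat_lit 0) (nat_lit 1529178646) (nat_lit 228) (nat_lit 1948371209) (nat_lit 304) (nat_lit 6144889806) (nat_lit 50) (nat_lit 5) (nat_lit 53) (nat_lit 5) (nat_lit 54) (nat_lit 5) (nat_lit 330) (nat_lit 293) (nat_lit 277))))) (XT.nd (nat_lit 234) (nat_lit 380) (nat_lit 0) (XT.nd (nat_lit 78) (nat_lit 456) (nat_lit 0) (XT.lf (nat_lit 0) (nat_lit 6808645373) (nat_lit 304) (nat_lit 1780803076) (nat_lit 76) (nat_lit 1284984045) (nat_lit 50) (nat_lit 5) (nat_lit 54) (nat_lit 5) (nat_lit 51) (nat_lit 4) (nat_lit 331) (nat_lit 293) (nat_lit 276)) (XT.nd (nat_lit 78) (nat_lit 228) (nat_lit 0) (XT.lf (nat_lit 0) (nat_lit 167006676) (nat_lit 228) (nat_lit 5321779147) (nat_lit 76) (nat_lit 4649956695) (nat_lit 47) (nat_lit 5) (nat_lit 50) (nat_lit 5) (nat_lit 48) (nat_lit 5) (nat_lit 332) (nat_lit 293) (nat_lit 275)) (XT.lf (nat_lit 0) (nat_lit 1229441833) (nat_lit 228) (nat_lit 2177564176)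 (nat_lit 304) (nat_lit 7009417002) (nat_lit 44) (nat_lit 5) (nat_lit 47) (nat_lit 5) (nat_lit 48) (nat_lit 5) (nat_lit 333) (nat_lit 293) (nat_lit 274)))) (XT.nd (nat_lit 78) (nat_lit 380) (nat_lit 0) (XT.lf (nat_lit 0) (nat_lit 6821371530) (nat_lit 304) (nat_lit 2584919627) (nat_lit 76) (nat_lit 1301171132) (nat_lit 44) (nat_lit 5) (nat_lit 48) (nat_lit 5) (nat_lit 45) (nat_lit 4) (nat_lit 334) (nat_lit 293) (nat_lit 273)) (XT.nd (nat_lit 78) (nat_lit 228) (nat_lit 0) (XT.lf (nat_lit 0) (nat_lit 4303908185) (nat_lit 152) (nat_lit 6110657539) (nat_lit 228) (nat_lit 598170929) (nat_lit 42) (nat_lit 5) (nat_lit 44) (nat_lit 5) (nat_lit 45) (nat_lit 4) (nat_lit 335) (nat_lit 293) (nat_lit 272)) (XT.lf (nat_lit 0) (nat_lit 107766635) (nat_lit 152) (nat_lit 2607103393) (nat_lit 228) (nat_lit 8618653269) (nat_lit 39) (nat_lit 5) (nat_lit 41) (nat_lit 5) (nat_lit 42) (nat_lit 5) (nat_lit 336)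 (nat_lit 293) (nat_lit 271))))))) (XT.nd (nat_lit 858) (nat_lit 608) (nat_lit 0) (XT.nd (nat_lit 390) (nat_lit 684) (nat_lit 0) (XT.nd (nat_lit 156) (nat_lit 228) (nat_lit 0) (XT.nd (nat_lit 78) (nat_lit 152) (nat_lit 0) (XT.lf (nat_lit 0) (nat_lit 6212992673) (nat_lit 228) (nat_lit 4342698285) (nat_lit 76) (nat_lit 1112267975) (nat_lit 39) (nat_lit 5) (nat_lit 42) (nat_lit 5) (nat_lit 40) (nat_lit 4) (nat_lit 337) (nat_lit 293) (nat_lit 270)) (XT.lf (nat_lit 0) (nat_lit 2790381370) (nat_lit 152) (nat_lit 7093679579) (nat_lit 228) (nat_lit 2135226354) (nat_lit 37) (nat_lit 5) (nat_lit 39) (nat_lit 5) (nat_lit 40) (nat_lit 4) (nat_lit 338) (nat_lit 293) (nat_lit 269))) (XT.nd (nat_lit 78) (nat_lit 152) (nat_lit 0) (XT.lf (nat_lit 0) (nat_lit 1294322955) (nat_lit 228) (nat_lit 2117310422) (nat_lit 76) (nat_lit 8976208260) (nat_lit 36) (nat_lit 5) (nat_lit 39) (nat_lit 5) (nat_lit 37) (nat_lit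 5) (nat_lit 339) (nat_lit 293) (nat_lit 268)) (XT.nd (nat_lit 78) (nat_lit 0) (nat_lit 0) (XT.lf (nat_lit 0) (nat_lit 4831856959) (nat_lit 228) (nat_lit 7429900167) (nat_lit 76) (nat_lit 510966131) (nat_lit 34) (nat_lit 5) (nat_lit 37) (nat_lit 5) (nat_lit 35) (nat_lit 4) (nat_lit 340) (nat_lit 293) (nat_lit 267)) (XT.lf (nat_lit 0) (nat_lit 8556228137) (nat_lit 228) (nat_lit 117940725) (nat_lit 76) (nat_lit 4502242067) (nat_lit 34) (nat_lit 5) (nat_lit 37) (nat_lit 5) (nat_lit 35) (nat_lit 4) (nat_lit 341) (nat_lit 293) (nat_lit 266))))) (XT.nd (nat_lit 234) (nat_lit 304) (nat_lit 0) (XT.nd (nat_lit 78) (nat_lit 228) (nat_lit 0) (XT.lf (nat_lit 0) (nat_lit 7675922802) (nat_lit 152) (nat_lit 4832248740) (nat_lit 228) (nat_lit 1090100900) (nat_lit 32) (nat_lit 5) (nat_lit 34) (nat_lit 5) (nat_lit 35) (nat_lit 4) (nat_lit 342) (nat_lit 293) (nat_lit 265)) (XT.nd (nat_lit 78) (nat_lit 0)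 (nat_lit 0) (XT.lf (nat_lit 0) (nat_lit 1706257250) (nat_lit 152) (nat_lit 777104171) (nat_lit 228) (nat_lit 11558343892) (nat_lit 29) (nat_lit 5) (nat_lit 31) (nat_lit 5) (nat_lit 32) (nat_lit 5) (nat_lit 343) (nat_lit 293) (nat_lit 264)) (XT.lf (nat_lit 0) (nat_lit 6278017049) (nat_lit 228) (nat_lit 4785133176) (nat_lit 76) (nat_lit 3439357698) (nat_lit 29) (nat_lit 5) (nat_lit 32) (nat_lit 5) (nat_lit 30) (nat_lit 4) (nat_lit 344) (nat_lit 293) (nat_lit 263)))) (XT.nd (nat_lit 78) (nat_lit 228) (nat_lit 0) (XT.lf (nat_lit 0) (nat_lit 3104676021) (nat_lit 76) (nat_lit 7145482152) (nat_lit 152) (nat_lit 4736851865) (nat_lit 28) (nat_lit 5) (nat_lit 29) (nat_lit 5) (nat_lit 30) (nat_lit 4) (nat_lit 345) (nat_lit 293) (nat_lit 262)) (XT.nd (nat_lit 78) (nat_lit 228) (nat_lit 0) (XT.lf (nat_lit 0) (nat_lit 11432464157) (nat_lit 76) (nat_lit 2997604654) (nat_lit 152) (nat_lit 1065255094)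 (nat_lit 28) (nat_lit 5) (nat_lit 29) (nat_lit 5) (nat_lit 30) (nat_lit 4) (nat_lit 346) (nat_lit 293) (nat_lit 261)) (XT.lf (nat_lit 0) (nat_lit 2717473553) (nat_lit 228) (nat_lit 11932729714) (nat_lit 76) (nat_lit 1375870533) (nat_lit 25) (nat_lit 5) (nat_lit 28) (nat_lit 5) (nat_lit 26) (nat_lit 4) (nat_lit 347) (nat_lit 293) (nat_lit 260)))))) (XT.nd (nat_lit 468) (nat_lit 228) (nat_lit 0) (XT.nd (nat_lit 234) (nat_lit 304) (nat_lit 0) (XT.nd (nat_lit 78) (nat_lit 76) (nat_lit 0) (XT.lf (nat_lit 0) (nat_lit 6703716245) (nat_lit 228) (nat_lit 3969141827) (nat_lit 76) (nat_lit 5907159775) (nat_lit 25) (nat_lit 5) (nat_lit 28) (nat_lit 5) (nat_lit 26) (nat_lit 4) (nat_lit 348) (nat_lit 293) (nat_lit 259)) (XT.nd (nat_lit 78) (nat_lit 0) (nat_lit 0) (XT.lf (nat_lit 0) (nat_lit 4419899204) (nat_lit 76) (nat_lit 6472761390) (nat_lit 152) (nat_lit 6268865857) (nat_lit 24) (nat_lit 5) (nat_lit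 25) (nat_lit 5) (nat_lit 26) (nat_lit 4) (nat_lit 349) (nat_lit 293) (nat_lit 258)) (XT.lf (nat_lit 0) (nat_lit 13253843086) (nat_lit 76) (nat_lit 2040181486) (nat_lit 152) (nat_lit 2477972372) (nat_lit 24) (nat_lit 5) (nat_lit 25) (nat_lit 5) (nat_lit 26) (nat_lit 4) (nat_lit 350) (nat_lit 293) (nat_lit 257)))) (XT.nd (nat_lit 78) (nat_lit 76) (nat_lit 0) (XT.lf (nat_lit 0) (nat_lit 1497930299) (nat_lit 228) (nat_lit 14337592023) (nat_lit 76) (nat_lit 2574149930) (nat_lit 21) (nat_lit 5) (nat_lit 24) (nat_lit 5) (nat_lit 22) (nat_lit 4) (nat_lit 351) (nat_lit 293) (nat_lit 256)) (XT.nd (nat_lit 78) (nat_lit 76) (nat_lit 0) (XT.lf (nat_lit 0) (nat_lit 5638909094) (nat_lit 228) (nat_lit 6011723186) (nat_lit 76) (nat_lit 7424120368) (nat_lit 21) (nat_lit 5) (nat_lit 24) (nat_lit 5) (nat_lit 22) (nat_lit 4) (nat_lit 352) (nat_lit 293) (nat_lit 255)) (XT.lf (nat_lit 0) (nat_lit 2712807429)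 (nat_lit 76) (nat_lit 7257760127) (nat_lit 152) (nat_lit 9803366830) (nat_lit 20) (nat_lit 5) (nat_lit 21) (nat_lit 5) (nat_lit 22) (nat_lit 4) (nat_lit 353) (nat_lit 293) (nat_lit 254))))) (XT.nd (nat_lit 234) (nat_lit 76) (nat_lit 0) (XT.nd (nat_lit 78) (nat_lit 152) (nat_lit 0) (XT.lf (nat_lit 0) (nat_lit 11979504403) (nat_lit 76) (nat_lit 2583583968) (nat_lit 152) (nat_lit 5942800353) (nat_lit 20) (nat_lit 5) (nat_lit 21) (nat_lit 5) (nat_lit 22) (nat_lit 4) (nat_lit 354) (nat_lit 293) (nat_lit 253)) (XT.nd (nat_lit 78) (nat_lit 76) (nat_lit 0) (XT.lf (nat_lit 0) (nat_lit 308714661) (nat_lit 76) (nat_lit 19062164214) (nat_lit 76) (nat_lit 1904305898) (nat_lit 19) (nat_lit 4) (nat_lit 20) (nat_lit 5) (nat_lit 20) (nat_lit 4) (nat_lit 355) (nat_lit 293) (nat_lit 252)) (XT.lf (nat_lit 0) (nat_lit 2395187671) (nat_lit 152) (nat_lit 12375546240) (nat_lit 76) (nat_lit 7303719561) (nat_lit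 18) (nat_lit 5) (nat_lit 20) (nat_lit 5) (nat_lit 19) (nat_lit 4) (nat_lit 356) (nat_lit 293) (nat_lit 251)))) (XT.nd (nat_lit 78) (nat_lit 76) (nat_lit 0) (XT.lf (nat_lit 0) (nat_lit 6793016030) (nat_lit 152) (nat_lit 3481733964) (nat_lit 76) (nat_lit 12640029455) (nat_lit 18) (nat_lit 5) (nat_lit 20) (nat_lit 5) (nat_lit 19) (nat_lit 4) (nat_lit 357) (nat_lit 293) (nat_lit 250)) (XT.nd (nat_lit 78) (nat_lit 0) (nat_lit 0) (XT.lf (nat_lit 0) (nat_lit 5956519844) (nat_lit 76) (nat_lit 5497078000) (nat_lit 152) (nat_lit 12341402312) (nat_lit 17) (nat_lit 5) (nat_lit 18) (nat_lit 5) (nat_lit 19) (nat_lit 4) (nat_lit 358) (nat_lit 293) (nat_lit 249)) (XT.lf (nat_lit 0) (nat_lit 15898135416) (nat_lit 76) (nat_lit 458893445) (nat_lit 152) (nat_lit 8361732542) (nat_lit 17) (nat_lit 5) (nat_lit 18) (nat_lit 5) (nat_lit 19) (nat_lit 4) (nat_lit 359) (nat_lit 293) (nat_lit 248))))))))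
noncomputable def xc82 : XT := (XT.nd (nat_lit 1794) (nat_lit 304) (nat_lit 0) (XT.nd (nat_lit 858) (nat_lit 228) (nat_lit 0) (XT.nd (nat_lit 390) (nat_lit 228) (nat_lit 0) (XT.nd (nat_lit 156) (nat_lit 76) (nat_lit 0) (XT.nd (nat_lit 78) (nat_lit 76) (nat_lit 0) (XT.lf (nat_lit 0) (nat_lit 501822830) (nat_lit 76) (nat_lit 21039668525) (nat_lit 76) (nat_lit 4145445894) (nat_lit 16) (nat_lit 4) (nat_lit 17) (nat_lit 5) (nat_lit 17) (nat_lit 4) (nat_lit 360) (nat_lit 293) (nat_lit 247)) (XT.lf (nat_lit 0) (nat_lit 384732106) (nat_lit 152) (nat_lit 16200905043) (nat_lit 76) (nat_lit 10112077997) (nat_lit 15) (nat_lit 5) (nat_lit 17) (nat_lit 5) (nat_lit 16) (nat_lit 4) (nat_lit 361) (nat_lit 293) (nat_lit 246))) (XT.nd (nat_lit 78) (nat_lit 76) (nat_lit 0) (XT.lf (nat_lit 0) (nat_lit 4957093842) (nat_lit 152) (nat_lit 6918404655) (nat_lit 76) (nat_lit 15882402958) (nat_lit 15) (nat_lit 5)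 (nat_lit 17) (nat_lit 5) (nat_lit 16) (nat_lit 4) (nat_lit 362) (nat_lit 293) (nat_lit 245)) (XT.nd (nat_lit 78) (nat_lit 0) (nat_lit 0) (XT.lf (nat_lit 0) (nat_lit 2840111262) (nat_lit 76) (nat_lit 6919436882) (nat_lit 152) (nat_lit 19111491280) (nat_lit 14) (nat_lit 5) (nat_lit 15) (nat_lit 5) (nat_lit 16) (nat_lit 4) (nat_lit 363) (nat_lit 293) (nat_lit 244)) (XT.lf (nat_lit 0) (nat_lit 13249007943) (nat_lit 76) (nat_lit 1628243763) (nat_lit 152) (nat_lit 15158841564) (nat_lit 14) (nat_lit 5) (nat_lit 15) (nat_lit 5) (nat_lit 16) (nat_lit 4) (nat_lit 364) (nat_lit 293) (nat_lit 243))))) (XT.nd (nat_lit 234) (nat_lit 152) (nat_lit 0) (XT.nd (nat_lit 78) (nat_lit 76) (nat_lit 0) (XT.lf (nat_lit 0) (nat_lit 20271591005) (nat_lit 152) (nat_lit 7217890155) (nat_lit 0) (nat_lit 3768895695) (nat_lit 14) (nat_lit 5) (nat_lit 16) (nat_lit 4) (nat_lit 14) (nat_lit 4) (nat_lit 365) (nat_lit 293)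 (nat_lit 242)) (XT.nd (nat_lit 78) (nat_lit 0) (nat_lit 0) (XT.lf (nat_lit 0) (nat_lit 2821452168) (nat_lit 76) (nat_lit 23146301382) (nat_lit 76) (nat_lit 6572429637) (nat_lit 13) (nat_lit 4) (nat_lit 14) (nat_lit 5) (nat_lit 14) (nat_lit 4) (nat_lit 366) (nat_lit 293) (nat_lit 241)) (XT.lf (nat_lit 0) (nat_lit 13542586350) (nat_lit 76) (nat_lit 18490474355) (nat_lit 76) (nat_lit 1848815529) (nat_lit 13) (nat_lit 4) (nat_lit 14) (nat_lit 5) (nat_lit 14) (nat_lit 4) (nat_lit 367) (nat_lit 293) (nat_lit 240)))) (XT.nd (nat_lit 78) (nat_lit 76) (nat_lit 0) (XT.lf (nat_lit 0) (nat_lit 2974707449) (nat_lit 152) (nat_lit 10608067679) (nat_lit 76) (nat_lit 21707297293) (nat_lit 12) (nat_lit 5) (nat_lit 14) (nat_lit 5) (nat_lit 13) (nat_lit 4) (nat_lit 368) (nat_lit 293) (nat_lit 239)) (XT.nd (nat_lit 78) (nat_lit 76) (nat_lit 0) (XT.lf (nat_lit 0) (nat_lit 7942320852) (nat_lit 152) (nat_lit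 485945084) (nat_lit 76) (nat_lit 28340656150) (nat_lit 12) (nat_lit 5) (nat_lit 14) (nat_lit 5) (nat_lit 13) (nat_lit 4) (nat_lit 369) (nat_lit 293) (nat_lit 238)) (XT.lf (nat_lit 0) (nat_lit 10413335140) (nat_lit 76) (nat_lit 2874272177) (nat_lit 152) (nat_lit 25027653175) (nat_lit 11) (nat_lit 5) (nat_lit 12) (nat_lit 5) (nat_lit 13) (nat_lit 4) (nat_lit 370) (nat_lit 293) (nat_lit 237)))))) (XT.nd (nat_lit 468) (nat_lit 76) (nat_lit 0) (XT.nd (nat_lit 234) (nat_lit 76) (nat_lit 0) (XT.nd (nat_lit 78) (nat_lit 76) (nat_lit 0) (XT.lf (nat_lit 0) (nat_lit 18921590374) (nat_lit 152) (nat_lit 18172796158) (nat_lit 0) (nat_lit 2843468031) (nat_lit 11) (nat_lit 5) (nat_lit 13) (nat_lit 4) (nat_lit 11) (nat_lit 4) (nat_lit 371) (nat_lit 293) (nat_lit 236)) (XT.nd (nat_lit 78) (nat_lit 76) (nat_lit 0) (XT.lf (nat_lit 0) (nat_lit 24852862280) (nat_lit 152) (nat_lit 8063790264) (nat_lit 0) (nat_lit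 8724156173) (nat_lit 11) (nat_lit 5) (nat_lit 13) (nat_lit 4) (nat_lit 11) (nat_lit 4) (nat_lit 372) (nat_lit 293) (nat_lit 235)) (XT.lf (nat_lit 0) (nat_lit 2576500954) (nat_lit 76) (nat_lit 28514395114) (nat_lit 76) (nat_lit 12337513994) (nat_lit 10) (nat_lit 4) (nat_lit 11) (nat_lit 5) (nat_lit 11) (nat_lit 4) (nat_lit 373) (nat_lit 293) (nat_lit 234)))) (XT.nd (nat_lit 78) (nat_lit 76) (nat_lit 0) (XT.lf (nat_lit 0) (nat_lit 13973047606) (nat_lit 76) (nat_lit 23774880047) (nat_lit 76) (nat_lit 7552117962) (nat_lit 10) (nat_lit 4) (nat_lit 11) (nat_lit 5) (nat_lit 11) (nat_lit 4) (nat_lit 374) (nat_lit 293) (nat_lit 233)) (XT.nd (nat_lit 78) (nat_lit 76) (nat_lit 0) (XT.lf (nat_lit 0) (nat_lit 25886359003) (nat_lit 76) (nat_lit 18823386975) (nat_lit 76) (nat_lit 2556928733) (nat_lit 10) (nat_lit 4) (nat_lit 11) (nat_lit 5) (nat_lit 11) (nat_lit 4) (nat_lit 375) (nat_lit 293) (nat_lit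 232)) (XT.lf (nat_lit 0) (nat_lit 2574812084) (nat_lit 152) (nat_lit 11029708856) (nat_lit 76) (nat_lit 35726382398) (nat_lit 9) (nat_lit 5) (nat_lit 11) (nat_lit 5) (nat_lit 10) (nat_lit 4) (nat_lit 376) (nat_lit 293) (nat_lit 231))))) (XT.nd (nat_lit 234) (nat_lit 0) (nat_lit 0) (XT.nd (nat_lit 78) (nat_lit 76) (nat_lit 0) (XT.lf (nat_lit 0) (nat_lit 7851329946) (nat_lit 152) (nat_lit 252480941) (nat_lit 76) (nat_lit 43393738049) (nat_lit 9) (nat_lit 5) (nat_lit 11) (nat_lit 5) (nat_lit 10) (nat_lit 4) (nat_lit 377) (nat_lit 293) (nat_lit 230)) (XT.nd (nat_lit 78) (nat_lit 0) (nat_lit 0) (XT.lf (nat_lit 0) (nat_lit 11381219009) (nat_lit 76) (nat_lit 2163499392) (nat_lit 152) (nat_lit 40220163188) (nat_lit 8) (nat_lit 5) (nat_lit 9) (nat_lit 5) (nat_lit 10) (nat_lit 4) (nat_lit 378) (nat_lit 293) (nat_lit 229)) (XT.lf (nat_lit 0) (nat_lit 19566196042) (nat_lit 152) (nat_lit 32650455578)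 (nat_lit 0) (nat_lit 3926764945) (nat_lit 8) (nat_lit 5) (nat_lit 10) (nat_lit 4) (nat_lit 8) (nat_lit 4) (nat_lit 379) (nat_lit 293) (nat_lit 228)))) (XT.nd (nat_lit 78) (nat_lit 0) (nat_lit 0) (XT.lf (nat_lit 0) (nat_lit 25900852778) (nat_lit 152) (nat_lit 22510611673) (nat_lit 0) (nat_lit 10228814937) (nat_lit 8) (nat_lit 5) (nat_lit 10) (nat_lit 4) (nat_lit 8) (nat_lit 4) (nat_lit 380) (nat_lit 293) (nat_lit 227)) (XT.nd (nat_lit 78) (nat_lit 0) (nat_lit 0) (XT.lf (nat_lit 0) (nat_lit 32529992838) (nat_lit 152) (nat_lit 11906210092) (nat_lit 0) (nat_lit 16826900954) (nat_lit 8) (nat_lit 5) (nat_lit 10) (nat_lit 4) (nat_lit 8) (nat_lit 4) (nat_lit 381) (nat_lit 293) (nat_lit 226)) (XT.lf (nat_lit 0) (nat_lit 39469399888) (nat_lit 152) (nat_lit 812002260) (nat_lit 0) (nat_lit 23736732725) (nat_lit 8) (nat_lit 5) (nat_lit 10) (nat_lit 4) (nat_lit 8) (nat_lit 4) (nat_lit 382) (nat_lit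 293) (nat_lit 225))))))) (XT.nd (nat_lit 858) (nat_lit 76) (nat_lit 0) (XT.nd (nat_lit 390) (nat_lit 76) (nat_lit 0) (XT.nd (nat_lit 156) (nat_lit 76) (nat_lit 0) (XT.nd (nat_lit 78) (nat_lit 0) (nat_lit 0) (XT.lf (nat_lit 0) (nat_lit 11155471353) (nat_lit 76) (nat_lit 35754293145) (nat_lit 76) (nat_lit 19993459049) (nat_lit 7) (nat_lit 4) (nat_lit 8) (nat_lit 5) (nat_lit 8) (nat_lit 4) (nat_lit 383) (nat_lit 293) (nat_lit 224)) (XT.lf (nat_lit 0) (nat_lit 23711640968) (nat_lit 76) (nat_lit 31004446820) (nat_lit 76) (nat_lit 15216787074) (nat_lit 7) (nat_lit 4) (nat_lit 8) (nat_lit 5) (nat_lit 8) (nat_lit 4) (nat_lit 384) (nat_lit 293) (nat_lit 223))) (XT.nd (nat_lit 78) (nat_lit 76) (nat_lit 0) (XT.lf (nat_lit 0) (nat_lit 36859553766) (nat_lit 76) (nat_lit 26034305667) (nat_lit 76) (nat_lit 10221097684) (nat_lit 7) (nat_lit 4) (nat_lit 8) (nat_lit 5) (nat_lit 8) (nat_lit 4) (nat_lit 385)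 (nat_lit 293) (nat_lit 222)) (XT.nd (nat_lit 78) (nat_lit 76) (nat_lit 0) (XT.lf (nat_lit 0) (nat_lit 50630514299) (nat_lit 76) (nat_lit 20832036018) (nat_lit 76) (nat_lit 4994496379) (nat_lit 7) (nat_lit 4) (nat_lit 8) (nat_lit 5) (nat_lit 8) (nat_lit 4) (nat_lit 386) (nat_lit 293) (nat_lit 221)) (XT.lf (nat_lit 0) (nat_lit 460243401) (nat_lit 152) (nat_lit 14917213669) (nat_lit 76) (nat_lit 64589272724) (nat_lit 6) (nat_lit 5) (nat_lit 8) (nat_lit 5) (nat_lit 7) (nat_lit 4) (nat_lit 387) (nat_lit 293) (nat_lit 220))))) (XT.nd (nat_lit 234) (nat_lit 0) (nat_lit 0) (XT.nd (nat_lit 78) (nat_lit 76) (nat_lit 0) (XT.lf (nat_lit 0) (nat_lit 6003302261) (nat_lit 152) (nat_lit 3576012535) (nat_lit 76) (nat_lit 74069321004) (nat_lit 6) (nat_lit 5) (nat_lit 8) (nat_lit 5) (nat_lit 7) (nat_lit 4) (nat_lit 388) (nat_lit 293) (nat_lit 219)) (XT.nd (nat_lit 78) (nat_lit 0) (nat_lit 0) (XT.lf (nat_lit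 0) (nat_lit 8576555277) (nat_lit 76) (nat_lit 3365081818) (nat_lit 152) (nat_lit 75567097763) (nat_lit 5) (nat_lit 5) (nat_lit 6) (nat_lit 5) (nat_lit 7) (nat_lit 4) (nat_lit 389) (nat_lit 293) (nat_lit 218)) (XT.lf (nat_lit 0) (nat_lit 18272061941) (nat_lit 152) (nat_lit 70178501455) (nat_lit 0) (nat_lit 3106520529) (nat_lit 5) (nat_lit 5) (nat_lit 7) (nat_lit 4) (nat_lit 5) (nat_lit 4) (nat_lit 390) (nat_lit 293) (nat_lit 217)))) (XT.nd (nat_lit 78) (nat_lit 0) (nat_lit 0) (XT.lf (nat_lit 0) (nat_lit 24959206295) (nat_lit 152) (nat_lit 61071129551) (nat_lit 0) (nat_lit 9775508227) (nat_lit 5) (nat_lit 5) (nat_lit 7) (nat_lit 4) (nat_lit 5) (nat_lit 4) (nat_lit 391) (nat_lit 293) (nat_lit 216)) (XT.nd (nat_lit 78) (nat_lit 0) (nat_lit 0) (XT.lf (nat_lit 0) (nat_lit 31966453572) (nat_lit 152) (nat_lit 51535841293) (nat_lit 0) (nat_lit 16765463450) (nat_lit 5) (nat_lit 5) (nat_lit 7) (nat_lit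 4) (nat_lit 5) (nat_lit 4) (nat_lit 392) (nat_lit 293) (nat_lit 215)) (XT.lf (nat_lit 0) (nat_lit 39310487693) (nat_lit 152) (nat_lit 41549933614) (nat_lit 0) (nat_lit 24093028950) (nat_lit 5) (nat_lit 5) (nat_lit 7) (nat_lit 4) (nat_lit 5) (nat_lit 4) (nat_lit 393) (nat_lit 293) (nat_lit 214)))))) (XT.nd (nat_lit 468) (nat_lit 0) (nat_lit 0) (XT.nd (nat_lit 234) (nat_lit 76) (nat_lit 0) (XT.nd (nat_lit 78) (nat_lit 0) (nat_lit 0) (XT.lf (nat_lit 0) (nat_lit 47008794455) (nat_lit 152) (nat_lit 31089630544) (nat_lit 0) (nat_lit 31775651310) (nat_lit 5) (nat_lit 5) (nat_lit 7) (nat_lit 4) (nat_lit 5) (nat_lit 4) (nat_lit 394) (nat_lit 293) (nat_lit 213)) (XT.nd (nat_lit 78) (nat_lit 0) (nat_lit 0) (XT.lf (nat_lit 0) (nat_lit 55079703160) (nat_lit 152) (nat_lit 20130026597) (nat_lit 0) (nat_lit 39831622489) (nat_lit 5) (nat_lit 5) (nat_lit 7) (nat_lit 4) (nat_lit 5) (nat_lit 4) (nat_lit 395)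 (nat_lit 293) (nat_lit 212)) (XT.lf (nat_lit 0) (nat_lit 63542430256) (nat_lit 152) (nat_lit 8645027481) (nat_lit 0) (nat_lit 48280123370) (nat_lit 5) (nat_lit 5) (nat_lit 7) (nat_lit 4) (nat_lit 5) (nat_lit 4) (nat_lit 396) (nat_lit 293) (nat_lit 211)))) (XT.nd (nat_lit 78) (nat_lit 0) (nat_lit 0) (XT.lf (nat_lit 0) (nat_lit 3504890423) (nat_lit 76) (nat_lit 68966955832) (nat_lit 76) (nat_lit 53691100170) (nat_lit 4) (nat_lit 4) (nat_lit 5) (nat_lit 5) (nat_lit 5) (nat_lit 4) (nat_lit 397) (nat_lit 293) (nat_lit 210)) (XT.nd (nat_lit 78) (nat_lit 0) (nat_lit 0) (XT.lf (nat_lit 0) (nat_lit 16541277436) (nat_lit 76) (nat_lit 65441896161) (nat_lit 76) (nat_lit 50153136903) (nat_lit 4) (nat_lit 4) (nat_lit 5) (nat_lit 5) (nat_lit 5) (nat_lit 4) (nat_lit 398) (nat_lit 293) (nat_lit 209)) (XT.lf (nat_lit 0) (nat_lit 30209328922) (nat_lit 76) (nat_lit 61750293449) (nat_lit 76) (nat_lit 46449245052)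 (nat_lit 4) (nat_lit 4) (nat_lit 5) (nat_lit 5) (nat_lit 5) (nat_lit 4) (nat_lit 399) (nat_lit 293) (nat_lit 208))))) (XT.nd (nat_lit 234) (nat_lit 0) (nat_lit 0) (XT.nd (nat_lit 78) (nat_lit 0) (nat_lit 0) (XT.lf (nat_lit 0) (nat_lit 44541587860) (nat_lit 76) (nat_lit 57883358165) (nat_lit 76) (nat_lit 42570605825) (nat_lit 4) (nat_lit 4) (nat_lit 5) (nat_lit 5) (nat_lit 5) (nat_lit 4) (nat_lit 400) (nat_lit 293) (nat_lit 207)) (XT.nd (nat_lit 78) (nat_lit 0) (nat_lit 0) (XT.lf (nat_lit 0) (nat_lit 59572178678) (nat_lit 76) (nat_lit 53831883320) (nat_lit 76) (nat_lit 38507984369) (nat_lit 4) (nat_lit 4) (nat_lit 5) (nat_lit 5) (nat_lit 5) (nat_lit 4) (nat_lit 401) (nat_lit 293) (nat_lit 206)) (XT.lf (nat_lit 0) (nat_lit 75336888496) (nat_lit 76) (nat_lit 49586222546) (nat_lit 76) (nat_lit 34251707774) (nat_lit 4) (nat_lit 4) (nat_lit 5) (nat_lit 5) (nat_lit 5) (nat_lit 4) (nat_lit 402)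 (nat_lit 293) (nat_lit 205)))) (XT.nd (nat_lit 78) (nat_lit 0) (nat_lit 0) (XT.lf (nat_lit 0) (nat_lit 91873252338) (nat_lit 76) (nat_lit 45136267126) (nat_lit 76) (nat_lit 29791642050) (nat_lit 4) (nat_lit 4) (nat_lit 5) (nat_lit 5) (nat_lit 5) (nat_lit 4) (nat_lit 403) (nat_lit 293) (nat_lit 204)) (XT.nd (nat_lit 78) (nat_lit 0) (nat_lit 0) (XT.lf (nat_lit 0) (nat_lit 109220642497) (nat_lit 76) (nat_lit 40471421930) (nat_lit 76) (nat_lit 25117167991) (nat_lit 4) (nat_lit 4) (nat_lit 5) (nat_lit 5) (nat_lit 5) (nat_lit 4) (nat_lit 404) (nat_lit 293) (nat_lit 203)) (XT.lf (nat_lit 0) (nat_lit 127420362285) (nat_lit 76) (nat_lit 35580580181) (nat_lit 76) (nat_lit 20217155898) (nat_lit 4) (nat_lit 4) (nat_lit 5) (nat_lit 5) (nat_lit 5) (nat_lit 4) (nat_lit 405) (nat_lit 293) (nat_lit 202))))))))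
noncomputable def xc83 : XT := (XT.nd (nat_lit 1794) (nat_lit 0) (nat_lit 0) (XT.nd (nat_lit 858) (nat_lit 0) (nat_lit 0) (XT.nd (nat_lit 390) (nat_lit 0) (nat_lit 0) (XT.nd (nat_lit 156) (nat_lit 152) (nat_lit 0) (XT.nd (nat_lit 78) (nat_lit 0) (nat_lit 0) (XT.lf (nat_lit 0) (nat_lit 146515744368) (nat_lit 76) (nat_lit 30452097020) (nat_lit 76) (nat_lit 15079939075) (nat_lit 4) (nat_lit 4) (nat_lit 5) (nat_lit 5) (nat_lit 5) (nat_lit 4) (nat_lit 406) (nat_lit 293) (nat_lit 201)) (XT.lf (nat_lit 0) (nat_lit 166552253940) (nat_lit 76) (nat_lit 25073761772) (nat_lit 76) (nat_lit 9693286053) (nat_lit 4) (nat_lit 4) (nat_lit 5) (nat_lit 5) (nat_lit 5) (nat_lit 4) (nat_lit 407) (nat_lit 293) (nat_lit 200))) (XT.nd (nat_lit 78) (nat_lit 152) (nat_lit 0) (XT.lf (nat_lit 0) (nat_lit 187577596977) (nat_lit 76) (nat_lit 19432768877) (nat_lit 76) (nat_lit 4044371469) (nat_lit 4) (nat_lit 4) (nat_lit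 5) (nat_lit 5) (nat_lit 5) (nat_lit 4) (nat_lit 408) (nat_lit 293) (nat_lit 199)) (XT.nd (nat_lit 78) (nat_lit 76) (nat_lit 0) (XT.lf (nat_lit 0) (nat_lit 1820074588) (nat_lit 152) (nat_lit 11664788966) (nat_lit 76) (nat_lit 207790935388) (nat_lit 3) (nat_lit 5) (nat_lit 5) (nat_lit 5) (nat_lit 4) (nat_lit 4) (nat_lit 409) (nat_lit 293) (nat_lit 198)) (XT.lf (nat_lit 0) (nat_lit 681706938) (nat_lit 76) (nat_lit 7164553557) (nat_lit 152) (nat_lit 224158117675) (nat_lit 2) (nat_lit 5) (nat_lit 3) (nat_lit 5) (nat_lit 4) (nat_lit 4) (nat_lit 410) (nat_lit 293) (nat_lit 197))))) (XT.nd (nat_lit 234) (nat_lit 0) (nat_lit 0) (XT.nd (nat_lit 78) (nat_lit 0) (nat_lit 0) (XT.lf (nat_lit 0) (nat_lit 14038705418) (nat_lit 76) (nat_lit 326502166) (nat_lit 152) (nat_lit 228894607453) (nat_lit 2) (nat_lit 5) (nat_lit 3) (nat_lit 5) (nat_lit 4) (nat_lit 4) (nat_lit 411) (nat_lit 293) (nat_lit 196)) (XT.nd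 (nat_lit 78) (nat_lit 0) (nat_lit 0) (XT.lf (nat_lit 0) (nat_lit 21311212229) (nat_lit 152) (nat_lit 227132913869) (nat_lit 0) (nat_lit 6628843349) (nat_lit 2) (nat_lit 5) (nat_lit 4) (nat_lit 4) (nat_lit 2) (nat_lit 4) (nat_lit 412) (nat_lit 293) (nat_lit 195)) (XT.lf (nat_lit 0) (nat_lit 28604258754) (nat_lit 152) (nat_lit 224956558307) (nat_lit 0) (nat_lit 13915978588) (nat_lit 2) (nat_lit 5) (nat_lit 4) (nat_lit 4) (nat_lit 2) (nat_lit 4) (nat_lit 413) (nat_lit 293) (nat_lit 194)))) (XT.nd (nat_lit 78) (nat_lit 0) (nat_lit 0) (XT.lf (nat_lit 0) (nat_lit 36256613942) (nat_lit 152) (nat_lit 222681763519) (nat_lit 0) (nat_lit 21562703980) (nat_lit 2) (nat_lit 5) (nat_lit 4) (nat_lit 4) (nat_lit 2) (nat_lit 4) (nat_lit 414) (nat_lit 293) (nat_lit 193)) (XT.nd (nat_lit 78) (nat_lit 0) (nat_lit 0) (XT.lf (nat_lit 0) (nat_lit 44286497687) (nat_lit 152) (nat_lit 220303113329) (nat_lit 0) (nat_lit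 29587226014) (nat_lit 2) (nat_lit 5) (nat_lit 4) (nat_lit 4) (nat_lit 2) (nat_lit 4) (nat_lit 415) (nat_lit 293) (nat_lit 192)) (XT.lf (nat_lit 0) (nat_lit 52713028759) (nat_lit 152) (nat_lit 217814944282) (nat_lit 0) (nat_lit 38008650695) (nat_lit 2) (nat_lit 5) (nat_lit 4) (nat_lit 4) (nat_lit 2) (nat_lit 4) (nat_lit 416) (nat_lit 293) (nat_lit 191)))))) (XT.nd (nat_lit 468) (nat_lit 0) (nat_lit 0) (XT.nd (nat_lit 234) (nat_lit 0) (nat_lit 0) (XT.nd (nat_lit 78) (nat_lit 0) (nat_lit 0) (XT.lf (nat_lit 0) (nat_lit 61556270328) (nat_lit 152) (nat_lit 215211332168) (nat_lit 0) (nat_lit 46847029034) (nat_lit 2) (nat_lit 5) (nat_lit 4) (nat_lit 4) (nat_lit 2) (nat_lit 4) (nat_lit 417) (nat_lit 293) (nat_lit 190)) (XT.nd (nat_lit 78) (nat_lit 0) (nat_lit 0) (XT.lf (nat_lit 0) (nat_lit 70837277730) (nat_lit 152) (nat_lit 212486077909) (nat_lit 0) (nat_lit 56123404789) (nat_lit 2) (nat_lit 5)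 (nat_lit 4) (nat_lit 4) (nat_lit 2) (nat_lit 4) (nat_lit 418) (nat_lit 293) (nat_lit 189)) (XT.lf (nat_lit 0) (nat_lit 80578148602) (nat_lit 152) (nat_lit 209632692806) (nat_lit 0) (nat_lit 65859864568) (nat_lit 2) (nat_lit 5) (nat_lit 4) (nat_lit 4) (nat_lit 2) (nat_lit 4) (nat_lit 419) (nat_lit 293) (nat_lit 188)))) (XT.nd (nat_lit 78) (nat_lit 0) (nat_lit 0) (XT.lf (nat_lit 0) (nat_lit 90802075495) (nat_lit 152) (nat_lit 206644383083) (nat_lit 0) (nat_lit 76079590420) (nat_lit 2) (nat_lit 5) (nat_lit 4) (nat_lit 4) (nat_lit 2) (nat_lit 4) (nat_lit 420) (nat_lit 293) (nat_lit 187)) (XT.nd (nat_lit 78) (nat_lit 0) (nat_lit 0) (XT.lf (nat_lit 0) (nat_lit 101533401090) (nat_lit 152) (nat_lit 203514033718) (nat_lit 0) (nat_lit 86806915024) (nat_lit 2) (nat_lit 5) (nat_lit 4) (nat_lit 4) (nat_lit 2) (nat_lit 4) (nat_lit 421) (nat_lit 293) (nat_lit 186)) (XT.lf (nat_lit 0) (nat_lit 112797676164)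 (nat_lit 152) (nat_lit 200234191499) (nat_lit 0) (nat_lit 98067379630) (nat_lit 2) (nat_lit 5) (nat_lit 4) (nat_lit 4) (nat_lit 2) (nat_lit 4) (nat_lit 422) (nat_lit 293) (nat_lit 185))))) (XT.nd (nat_lit 234) (nat_lit 0) (nat_lit 0) (XT.nd (nat_lit 78) (nat_lit 0) (nat_lit 0) (XT.lf (nat_lit 0) (nat_lit 124621720419) (nat_lit 152) (nat_lit 196797047276) (nat_lit 0) (nat_lit 109887794868) (nat_lit 2) (nat_lit 5) (nat_lit 4) (nat_lit 4) (nat_lit 2) (nat_lit 4) (nat_lit 423) (nat_lit 293) (nat_lit 184)) (XT.nd (nat_lit 78) (nat_lit 0) (nat_lit 0) (XT.lf (nat_lit 0) (nat_lit 137033686340) (nat_lit 152) (nat_lit 193194417373) (nat_lit 0) (nat_lit 122296304583) (nat_lit 2) (nat_lit 5) (nat_lit 4) (nat_lit 4) (nat_lit 2) (nat_lit 4) (nat_lit 424) (nat_lit 293) (nat_lit 183)) (XT.lf (nat_lit 0) (nat_lit 150063126229) (nat_lit 152) (nat_lit 189417724100) (nat_lit 0) (nat_lit 135322452847) (nat_lit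 2) (nat_lit 5) (nat_lit 4) (nat_lit 4) (nat_lit 2) (nat_lit 4) (nat_lit 425) (nat_lit 293) (nat_lit 182)))) (XT.nd (nat_lit 78) (nat_lit 0) (nat_lit 0) (XT.lf (nat_lit 0) (nat_lit 163741062561) (nat_lit 152) (nat_lit 185457975331) (nat_lit 0) (nat_lit 148997254297) (nat_lit 2) (nat_lit 5) (nat_lit 4) (nat_lit 4) (nat_lit 2) (nat_lit 4) (nat_lit 426) (nat_lit 293) (nat_lit 181)) (XT.nd (nat_lit 78) (nat_lit 0) (nat_lit 0) (XT.lf (nat_lit 0) (nat_lit 178100061850) (nat_lit 152) (nat_lit 181305743091) (nat_lit 0) (nat_lit 163353267986) (nat_lit 2) (nat_lit 5) (nat_lit 4) (nat_lit 4) (nat_lit 2) (nat_lit 4) (nat_lit 427) (nat_lit 293) (nat_lit 180)) (XT.lf (nat_lit 0) (nat_lit 193174312191) (nat_lit 152) (nat_lit 176951141114) (nat_lit 0) (nat_lit 178424674897) (nat_lit 2) (nat_lit 5) (nat_lit 4) (nat_lit 4) (nat_lit 2) (nat_lit 4) (nat_lit 428) (nat_lit 293) (nat_lit 179))))))) (XT.nd (nat_lit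 38142) (nat_lit 0) (nat_lit 4180) (XT.nd (nat_lit 390) (nat_lit 0) (nat_lit 0) (XT.nd (nat_lit 156) (nat_lit 0) (nat_lit 0) (XT.nd (nat_lit 78) (nat_lit 0) (nat_lit 0) (XT.lf (nat_lit 0) (nat_lit 208999704656) (nat_lit 152) (nat_lit 172383801299) (nat_lit 0) (nat_lit 194247359333) (nat_lit 2) (nat_lit 5) (nat_lit 4) (nat_lit 4) (nat_lit 2) (nat_lit 4) (nat_lit 429) (nat_lit 293) (nat_lit 178)) (XT.lf (nat_lit 0) (nat_lit 225613918751) (nat_lit 152) (nat_lit 167592849029) (nat_lit 0) (nat_lit 210858994353) (nat_lit 2) (nat_lit 5) (nat_lit 4) (nat_lit 4) (nat_lit 2) (nat_lit 4) (nat_lit 430) (nat_lit 293) (nat_lit 177))) (XT.nd (nat_lit 78) (nat_lit 0) (nat_lit 0) (XT.lf (nat_lit 0) (nat_lit 243056512127) (nat_lit 152) (nat_lit 162566877273) (nat_lit 0) (nat_lit 228299131469) (nat_lit 2) (nat_lit 5) (nat_lit 4) (nat_lit 4) (nat_lit 2) (nat_lit 4) (nat_lit 431) (nat_lit 293) (nat_lit 176))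 (XT.nd (nat_lit 78) (nat_lit 0) (nat_lit 0) (XT.lf (nat_lit 0) (nat_lit 261369014770) (nat_lit 152) (nat_lit 157293919433) (nat_lit 0) (nat_lit 246609294815) (nat_lit 2) (nat_lit 5) (nat_lit 4) (nat_lit 4) (nat_lit 2) (nat_lit 4) (nat_lit 432) (nat_lit 293) (nat_lit 175)) (XT.lf (nat_lit 0) (nat_lit 280595027877) (nat_lit 152) (nat_lit 151761420847) (nat_lit 0) (nat_lit 265833080020) (nat_lit 2) (nat_lit 5) (nat_lit 4) (nat_lit 4) (nat_lit 2) (nat_lit 4) (nat_lit 433) (nat_lit 293) (nat_lit 174))))) (XT.nd (nat_lit 37518) (nat_lit 0) (nat_lit 7296) (XT.nd (nat_lit 37362) (nat_lit 0) (nat_lit 8740) (XT.lf (nat_lit 0) (nat_lit 300780327668) (nat_lit 152) (nat_lit 145956208899) (nat_lit 0) (nat_lit 286016258000) (nat_lit 2) (nat_lit 5) (nat_lit 4) (nat_lit 4) (nat_lit 2) (nat_lit 4) (nat_lit 434) (nat_lit 293) (nat_lit 173)) (XT.nd (nat_lit 78) (nat_lit 532) (nat_lit 0) (XT.lf (nat_lit 0)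 (nat_lit 1430295789) (nat_lit 532) (nat_lit 578411217) (nat_lit 0) (nat_lit 1430295789) (nat_lit 124) (nat_lit 5) (nat_lit 131) (nat_lit 4) (nat_lit 124) (nat_lit 4) (nat_lit 312) (nat_lit 294) (nat_lit 294)) (XT.lf (nat_lit 0) (nat_lit 3440249215) (nat_lit 532) (nat_lit 2693336823) (nat_lit 532) (nat_lit 822571675) (nat_lit 117) (nat_lit 4) (nat_lit 124) (nat_lit 5) (nat_lit 124) (nat_lit 4) (nat_lit 313) (nat_lit 294) (nat_lit 293)))) (XT.nd (nat_lit 78) (nat_lit 760) (nat_lit 0) (XT.lf (nat_lit 0) (nat_lit 1112242671) (nat_lit 608) (nat_lit 1211995821) (nat_lit 684) (nat_lit 4718669996) (nat_lit 108) (nat_lit 5) (nat_lit 116) (nat_lit 5) (nat_lit 117) (nat_lit 4) (nat_lit 314) (nat_lit 294) (nat_lit 292)) (XT.nd (nat_lit 78) (nat_lit 760) (nat_lit 0) (XT.lf (nat_lit 0) (nat_lit 5508181643) (nat_lit 684) (nat_lit 1216460143) (nat_lit 0) (nat_lit 413624143) (nat_lit 108) (nat_lit 5) (nat_lit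 117) (nat_lit 4) (nat_lit 108) (nat_lit 4) (nat_lit 315) (nat_lit 294) (nat_lit 291)) (XT.lf (nat_lit 0) (nat_lit 1486225423) (nat_lit 760) (nat_lit 3586878499) (nat_lit 76) (nat_lit 2168068148) (nat_lit 98) (nat_lit 5) (nat_lit 108) (nat_lit 5) (nat_lit 99) (nat_lit 4) (nat_lit 316) (nat_lit 294) (nat_lit 290)))))) (XT.nd (nat_lit 468) (nat_lit 1292) (nat_lit 0) (XT.nd (nat_lit 234) (nat_lit 684) (nat_lit 0) (XT.nd (nat_lit 78) (nat_lit 456) (nat_lit 0) (XT.lf (nat_lit 0) (nat_lit 1323288274) (nat_lit 684) (nat_lit 3273161645) (nat_lit 760) (nat_lit 2757065687) (nat_lit 89) (nat_lit 5) (nat_lit 98) (nat_lit 5) (nat_lit 99) (nat_lit 4) (nat_lit 317) (nat_lit 294) (nat_lit 289)) (XT.nd (nat_lit 78) (nat_lit 380) (nat_lit 0) (XT.lf (nat_lit 0) (nat_lit 293321778) (nat_lit 760) (nat_lit 1029273272) (nat_lit 76) (nat_lit 6153067336) (nat_lit 88) (nat_lit 5) (nat_lit 98) (nat_lit 5) (nat_lit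 89) (nat_lit 5) (nat_lit 318) (nat_lit 294) (nat_lit 288)) (XT.lf (nat_lit 0) (nat_lit 3341854699) (nat_lit 456) (nat_lit 3458669944) (nat_lit 76) (nat_lit 804453085) (nat_lit 83) (nat_lit 5) (nat_lit 89) (nat_lit 5) (nat_lit 84) (nat_lit 4) (nat_lit 319) (nat_lit 294) (nat_lit 287)))) (XT.nd (nat_lit 78) (nat_lit 380) (nat_lit 0) (XT.lf (nat_lit 0) (nat_lit 1756642151) (nat_lit 304) (nat_lit 4717516933) (nat_lit 380) (nat_lit 1270256504) (nat_lit 79) (nat_lit 5) (nat_lit 83) (nat_lit 5) (nat_lit 84) (nat_lit 4) (nat_lit 320) (nat_lit 294) (nat_lit 286)) (XT.nd (nat_lit 78) (nat_lit 304) (nat_lit 0) (XT.lf (nat_lit 0) (nat_lit 1738107195) (nat_lit 380) (nat_lit 721559138) (nat_lit 76) (nat_lit 5433611734) (nat_lit 78) (nat_lit 5) (nat_lit 83) (nat_lit 5) (nat_lit 79) (nat_lit 5) (nat_lit 321) (nat_lit 294) (nat_lit 285)) (XT.lf (nat_lit 0) (nat_lit 4791678769) (nat_lit 304) (nat_lit 9945434)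 (nat_lit 380) (nat_lit 3249740564) (nat_lit 74) (nat_lit 5) (nat_lit 78) (nat_lit 5) (nat_lit 79) (nat_lit 5) (nat_lit 322) (nat_lit 294) (nat_lit 284))))) (XT.nd (nat_lit 234) (nat_lit 608) (nat_lit 0) (XT.nd (nat_lit 78) (nat_lit 380) (nat_lit 0) (XT.lf (nat_lit 0) (nat_lit 2268863227) (nat_lit 304) (nat_lit 5713337724) (nat_lit 380) (nat_lit 237144934) (nat_lit 70) (nat_lit 5) (nat_lit 74) (nat_lit 5) (nat_lit 75) (nat_lit 4) (nat_lit 323) (nat_lit 294) (nat_lit 283)) (XT.nd (nat_lit 78) (nat_lit 304) (nat_lit 0) (XT.lf (nat_lit 0) (nat_lit 2766154023) (nat_lit 380) (nat_lit 406904607) (nat_lit 76) (nat_lit 5223864040) (nat_lit 69) (nat_lit 5) (nat_lit 74) (nat_lit 5) (nat_lit 70) (nat_lit 5) (nat_lit 324) (nat_lit 294) (nat_lit 282)) (XT.lf (nat_lit 0) (nat_lit 5437134342) (nat_lit 304) (nat_lit 442692399) (nat_lit 380) (nat_lit 2705107438) (nat_lit 65) (nat_lit 5) (nat_lit 69) (nat_lit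 5) (nat_lit 70) (nat_lit 5) (nat_lit 325) (nat_lit 294) (nat_lit 281)))) (XT.nd (nat_lit 78) (nat_lit 304) (nat_lit 0) (XT.lf (nat_lit 0) (nat_lit 327689320) (nat_lit 304) (nat_lit 6084852573) (nat_lit 76) (nat_lit 2371032710) (nat_lit 61) (nat_lit 5) (nat_lit 65) (nat_lit 5) (nat_lit 62) (nat_lit 5) (nat_lit 326) (nat_lit 294) (nat_lit 280)) (XT.nd (nat_lit 78) (nat_lit 304) (nat_lit 0) (XT.lf (nat_lit 0) (nat_lit 3369929881) (nat_lit 304) (nat_lit 246373513) (nat_lit 76) (nat_lit 5376328199) (nat_lit 61) (nat_lit 5) (nat_lit 65) (nat_lit 5) (nat_lit 62) (nat_lit 5) (nat_lit 327) (nat_lit 294) (nat_lit 279)) (XT.lf (nat_lit 0) (nat_lit 5929752682) (nat_lit 304) (nat_lit 619750436) (nat_lit 380) (nat_lit 2663508246) (nat_lit 57) (nat_lit 5) (nat_lit 61) (nat_lit 5) (nat_lit 62) (nat_lit 5) (nat_lit 328) (nat_lit 294) (nat_lit 278))))))))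
noncomputable def xc84 : XT := (XT.nd (nat_lit 1716) (nat_lit 988) (nat_lit 0) (XT.nd (nat_lit 858) (nat_lit 912) (nat_lit 0) (XT.nd (nat_lit 390) (nat_lit 836) (nat_lit 0) (XT.nd (nat_lit 156) (nat_lit 456) (nat_lit 0) (XT.nd (nat_lit 78) (nat_lit 0) (nat_lit 0) (XT.lf (nat_lit 0) (nat_lit 412752558) (nat_lit 304) (nat_lit 6566644669) (nat_lit 76) (nat_lit 2465620002) (nat_lit 53) (nat_lit 5) (nat_lit 57) (nat_lit 5) (nat_lit 54) (nat_lit 5) (nat_lit 329) (nat_lit 294) (nat_lit 277)) (XT.lf (nat_lit 0) (nat_lit 3515907500) (nat_lit 304) (nat_lit 426205440) (nat_lit 76) (nat_lit 5746310754) (nat_lit 53) (nat_lit 5) (nat_lit 57) (nat_lit 5) (nat_lit 54) (nat_lit 5) (nat_lit 330) (nat_lit 294) (nat_lit 276))) (XT.nd (nat_lit 78) (nat_lit 228) (nat_lit 0) (XT.lf (nat_lit 0) (nat_lit 6075028428) (nat_lit 228) (nat_lit 694913777) (nat_lit 304) (nat_lit 3174379920) (nat_lit 50) (nat_lit 5) (nat_lit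 53) (nat_lit 5) (nat_lit 54) (nat_lit 5) (nat_lit 331) (nat_lit 294) (nat_lit 275)) (XT.nd (nat_lit 78) (nat_lit 76) (nat_lit 0) (XT.lf (nat_lit 0) (nat_lit 2601555566) (nat_lit 152) (nat_lit 7578240427) (nat_lit 228) (nat_lit 33666230) (nat_lit 48) (nat_lit 5) (nat_lit 50) (nat_lit 5) (nat_lit 51) (nat_lit 4) (nat_lit 332) (nat_lit 294) (nat_lit 274)) (XT.lf (nat_lit 0) (nat_lit 3141176433) (nat_lit 228) (nat_lit 1169585719) (nat_lit 76) (nat_lit 6183763956) (nat_lit 47) (nat_lit 5) (nat_lit 50) (nat_lit 5) (nat_lit 48) (nat_lit 5) (nat_lit 333) (nat_lit 294) (nat_lit 273))))) (XT.nd (nat_lit 234) (nat_lit 380) (nat_lit 0) (XT.nd (nat_lit 78) (nat_lit 228) (nat_lit 0) (XT.lf (nat_lit 0) (nat_lit 5637933691) (nat_lit 228) (nat_lit 831881706) (nat_lit 304) (nat_lit 4320079558) (nat_lit 44) (nat_lit 5) (nat_lit 47) (nat_lit 5) (nat_lit 48) (nat_lit 5) (nat_lit 334) (nat_lit 294) (nat_lit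 272)) (XT.nd (nat_lit 78) (nat_lit 76) (nat_lit 0) (XT.lf (nat_lit 0) (nat_lit 1595627486) (nat_lit 152) (nat_lit 8368076128) (nat_lit 228) (nat_lit 1136472183) (nat_lit 42) (nat_lit 5) (nat_lit 44) (nat_lit 5) (nat_lit 45) (nat_lit 4) (nat_lit 335) (nat_lit 294) (nat_lit 271)) (XT.lf (nat_lit 0) (nat_lit 2148397949) (nat_lit 228) (nat_lit 2750936598) (nat_lit 76) (nat_lit 6524355457) (nat_lit 41) (nat_lit 5) (nat_lit 44) (nat_lit 5) (nat_lit 42) (nat_lit 5) (nat_lit 336) (nat_lit 294) (nat_lit 270)))) (XT.nd (nat_lit 78) (nat_lit 228) (nat_lit 0) (XT.lf (nat_lit 0) (nat_lit 4327593032) (nat_lit 152) (nat_lit 1213938696) (nat_lit 228) (nat_lit 6221878929) (nat_lit 39) (nat_lit 5) (nat_lit 41) (nat_lit 5) (nat_lit 42) (nat_lit 5) (nat_lit 337) (nat_lit 294) (nat_lit 269)) (XT.nd (nat_lit 78) (nat_lit 228) (nat_lit 0) (XT.lf (nat_lit 0) (nat_lit 9109075272) (nat_lit 228) (nat_lit 438461337)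 (nat_lit 76) (nat_lit 2572412533) (nat_lit 39) (nat_lit 5) (nat_lit 42) (nat_lit 5) (nat_lit 40) (nat_lit 4) (nat_lit 338) (nat_lit 294) (nat_lit 268)) (XT.lf (nat_lit 0) (nat_lit 398768322) (nat_lit 228) (nat_lit 5513569212) (nat_lit 76) (nat_lit 6579276903) (nat_lit 36) (nat_lit 5) (nat_lit 39) (nat_lit 5) (nat_lit 37) (nat_lit 5) (nat_lit 339) (nat_lit 294) (nat_lit 267)))))) (XT.nd (nat_lit 390) (nat_lit 380) (nat_lit 0) (XT.nd (nat_lit 156) (nat_lit 380) (nat_lit 0) (XT.nd (nat_lit 78) (nat_lit 0) (nat_lit 0) (XT.lf (nat_lit 0) (nat_lit 1778291251) (nat_lit 152) (nat_lit 2055177093) (nat_lit 228) (nat_lit 9048198678) (nat_lit 34) (nat_lit 5) (nat_lit 36) (nat_lit 5) (nat_lit 37) (nat_lit 5) (nat_lit 340) (nat_lit 294) (nat_lit 266)) (XT.lf (nat_lit 0) (nat_lit 7487465131) (nat_lit 228) (nat_lit 3822437233) (nat_lit 76) (nat_lit 1978998923) (nat_lit 34) (nat_lit 5) (nat_lit 37) (nat_lit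 5) (nat_lit 35) (nat_lit 4) (nat_lit 341) (nat_lit 294) (nat_lit 265))) (XT.nd (nat_lit 78) (nat_lit 228) (nat_lit 0) (XT.lf (nat_lit 0) (nat_lit 3786848803) (nat_lit 152) (nat_lit 7555376277) (nat_lit 228) (nat_lit 2373423437) (nat_lit 32) (nat_lit 5) (nat_lit 34) (nat_lit 5) (nat_lit 35) (nat_lit 4) (nat_lit 342) (nat_lit 294) (nat_lit 264)) (XT.nd (nat_lit 78) (nat_lit 152) (nat_lit 0) (XT.lf (nat_lit 0) (nat_lit 1178213885) (nat_lit 228) (nat_lit 2395123877) (nat_lit 76) (nat_lit 10589914484) (nat_lit 31) (nat_lit 5) (nat_lit 34) (nat_lit 5) (nat_lit 32) (nat_lit 5) (nat_lit 343) (nat_lit 294) (nat_lit 263)) (XT.lf (nat_lit 0) (nat_lit 4854114295) (nat_lit 228) (nat_lit 9105701448) (nat_lit 76) (nat_lit 670199806) (nat_lit 29) (nat_lit 5) (nat_lit 32) (nat_lit 5) (nat_lit 30) (nat_lit 4) (nat_lit 344) (nat_lit 294) (nat_lit 262))))) (XT.nd (nat_lit 234) (nat_lit 228) (nat_lit 0) (XT.nd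 (nat_lit 78) (nat_lit 152) (nat_lit 0) (XT.lf (nat_lit 0) (nat_lit 8743655250) (nat_lit 228) (nat_lit 1373171163) (nat_lit 76) (nat_lit 5001843097) (nat_lit 29) (nat_lit 5) (nat_lit 32) (nat_lit 5) (nat_lit 30) (nat_lit 4) (nat_lit 345) (nat_lit 294) (nat_lit 261)) (XT.nd (nat_lit 78) (nat_lit 76) (nat_lit 0) (XT.lf (nat_lit 0) (nat_lit 6852237871) (nat_lit 76) (nat_lit 6015788184) (nat_lit 152) (nat_lit 2761755113) (nat_lit 28) (nat_lit 5) (nat_lit 29) (nat_lit 5) (nat_lit 30) (nat_lit 4) (nat_lit 346) (nat_lit 294) (nat_lit 260)) (XT.lf (nat_lit 0) (nat_lit 956465967) (nat_lit 152) (nat_lit 758660634) (nat_lit 76) (nat_lit 14452687992) (nat_lit 27) (nat_lit 5) (nat_lit 29) (nat_lit 5) (nat_lit 28) (nat_lit 5) (nat_lit 347) (nat_lit 294) (nat_lit 259)))) (XT.nd (nat_lit 78) (nat_lit 76) (nat_lit 0) (XT.lf (nat_lit 0) (nat_lit 4871485134) (nat_lit 228) (nat_lit 9017308125) (nat_lit 76)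 (nat_lit 2836544522) (nat_lit 25) (nat_lit 5) (nat_lit 28) (nat_lit 5) (nat_lit 26) (nat_lit 4) (nat_lit 348) (nat_lit 294) (nat_lit 258)) (XT.nd (nat_lit 78) (nat_lit 76) (nat_lit 0) (XT.lf (nat_lit 0) (nat_lit 8960938155) (nat_lit 228) (nat_lit 822781704) (nat_lit 76) (nat_lit 7528118204) (nat_lit 25) (nat_lit 5) (nat_lit 28) (nat_lit 5) (nat_lit 26) (nat_lit 4) (nat_lit 349) (nat_lit 294) (nat_lit 257)) (XT.lf (nat_lit 0) (nat_lit 7931762713) (nat_lit 76) (nat_lit 5387421161) (nat_lit 152) (nat_lit 4605296891) (nat_lit 24) (nat_lit 5) (nat_lit 25) (nat_lit 5) (nat_lit 26) (nat_lit 4) (nat_lit 350) (nat_lit 294) (nat_lit 256))))))) (XT.nd (nat_lit 858) (nat_lit 380) (nat_lit 0) (XT.nd (nat_lit 390) (nat_lit 304) (nat_lit 0) (XT.nd (nat_lit 156) (nat_lit 76) (nat_lit 0) (XT.nd (nat_lit 78) (nat_lit 228) (nat_lit 0) (XT.lf (nat_lit 0) (nat_lit 17050695763) (nat_lit 76) (nat_lit 800306466)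 (nat_lit 152) (nat_lit 719002172) (nat_lit 24) (nat_lit 5) (nat_lit 25) (nat_lit 5) (nat_lit 26) (nat_lit 4) (nat_lit 351) (nat_lit 294) (nat_lit 255)) (XT.lf (nat_lit 0) (nat_lit 3378941700) (nat_lit 228) (nat_lit 11841737610) (nat_lit 76) (nat_lit 4018283221) (nat_lit 21) (nat_lit 5) (nat_lit 24) (nat_lit 5) (nat_lit 22) (nat_lit 4) (nat_lit 352) (nat_lit 294) (nat_lit 254))) (XT.nd (nat_lit 78) (nat_lit 76) (nat_lit 0) (XT.lf (nat_lit 0) (nat_lit 7640963964) (nat_lit 228) (nat_lit 3252562666) (nat_lit 76) (nat_lit 9048112856) (nat_lit 21) (nat_lit 5) (nat_lit 24) (nat_lit 5) (nat_lit 22) (nat_lit 4) (nat_lit 353) (nat_lit 294) (nat_lit 253)) (XT.nd (nat_lit 78) (nat_lit 0) (nat_lit 0) (XT.lf (nat_lit 0) (nat_lit 5858843728) (nat_lit 76) (nat_lit 6295452366) (nat_lit 152) (nat_lit 8523269933) (nat_lit 20) (nat_lit 5) (nat_lit 21) (nat_lit 5) (nat_lit 22) (nat_lit 4) (nat_lit 354) (nat_lit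 294) (nat_lit 252)) (XT.lf (nat_lit 0) (nat_lit 15445523363) (nat_lit 76) (nat_lit 1450671960) (nat_lit 152) (nat_lit 4553973478) (nat_lit 20) (nat_lit 5) (nat_lit 21) (nat_lit 5) (nat_lit 22) (nat_lit 4) (nat_lit 355) (nat_lit 294) (nat_lit 251))))) (XT.nd (nat_lit 234) (nat_lit 152) (nat_lit 0) (XT.nd (nat_lit 78) (nat_lit 76) (nat_lit 0) (XT.lf (nat_lit 0) (nat_lit 3205272208) (nat_lit 76) (nat_lit 18726425677) (nat_lit 76) (nat_lit 326902151) (nat_lit 19) (nat_lit 4) (nat_lit 20) (nat_lit 5) (nat_lit 20) (nat_lit 4) (nat_lit 356) (nat_lit 294) (nat_lit 250)) (XT.nd (nat_lit 78) (nat_lit 0) (nat_lit 0) (XT.lf (nat_lit 0) (nat_lit 4056932566) (nat_lit 152) (nat_lit 10198750677) (nat_lit 76) (nat_lit 8844731295) (nat_lit 18) (nat_lit 5) (nat_lit 20) (nat_lit 5) (nat_lit 19) (nat_lit 4) (nat_lit 357) (nat_lit 294) (nat_lit 249)) (XT.lf (nat_lit 0) (nat_lit 8601224460) (nat_lit 152) (nat_lit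 993370305) (nat_lit 76) (nat_lit 14391864980) (nat_lit 18) (nat_lit 5) (nat_lit 20) (nat_lit 5) (nat_lit 19) (nat_lit 4) (nat_lit 358) (nat_lit 294) (nat_lit 248)))) (XT.nd (nat_lit 78) (nat_lit 76) (nat_lit 0) (XT.lf (nat_lit 0) (nat_lit 8873853445) (nat_lit 76) (nat_lit 4591948460) (nat_lit 152) (nat_lit 11446371295) (nat_lit 17) (nat_lit 5) (nat_lit 18) (nat_lit 5) (nat_lit 19) (nat_lit 4) (nat_lit 359) (nat_lit 294) (nat_lit 247)) (XT.nd (nat_lit 78) (nat_lit 76) (nat_lit 0) (XT.lf (nat_lit 0) (nat_lit 18555878430) (nat_lit 152) (nat_lit 6707789944) (nat_lit 0) (nat_lit 621409045) (nat_lit 17) (nat_lit 5) (nat_lit 19) (nat_lit 4) (nat_lit 17) (nat_lit 4) (nat_lit 360) (nat_lit 294) (nat_lit 246)) (XT.lf (nat_lit 0) (nat_lit 3032188399) (nat_lit 76) (nat_lit 20947892801) (nat_lit 76) (nat_lit 2922582245) (nat_lit 16) (nat_lit 4) (nat_lit 17) (nat_lit 5) (nat_lit 17) (nat_lit 4) (nat_lit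 361) (nat_lit 294) (nat_lit 245)))))) (XT.nd (nat_lit 468) (nat_lit 152) (nat_lit 0) (XT.nd (nat_lit 234) (nat_lit 76) (nat_lit 0) (XT.nd (nat_lit 78) (nat_lit 76) (nat_lit 0) (XT.lf (nat_lit 0) (nat_lit 1722409342) (nat_lit 152) (nat_lit 14580886806) (nat_lit 76) (nat_lit 11662888481) (nat_lit 15) (nat_lit 5) (nat_lit 17) (nat_lit 5) (nat_lit 16) (nat_lit 4) (nat_lit 362) (nat_lit 294) (nat_lit 244)) (XT.nd (nat_lit 78) (nat_lit 76) (nat_lit 0) (XT.lf (nat_lit 0) (nat_lit 6460606278) (nat_lit 152) (nat_lit 4949978707) (nat_lit 76) (nat_lit 17671957947) (nat_lit 15) (nat_lit 5) (nat_lit 17) (nat_lit 5) (nat_lit 16) (nat_lit 4) (nat_lit 363) (nat_lit 294) (nat_lit 243)) (XT.lf (nat_lit 0) (nat_lit 5259134842) (nat_lit 76) (nat_lit 6219805860) (nat_lit 152) (nat_lit 18773631643) (nat_lit 14) (nat_lit 5) (nat_lit 15) (nat_lit 5) (nat_lit 16) (nat_lit 4) (nat_lit 364) (nat_lit 294) (nat_lit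 242)))) (XT.nd (nat_lit 78) (nat_lit 76) (nat_lit 0) (XT.lf (nat_lit 0) (nat_lit 16080046927) (nat_lit 76) (nat_lit 713843698) (nat_lit 152) (nat_lit 14684941546) (nat_lit 14) (nat_lit 5) (nat_lit 15) (nat_lit 5) (nat_lit 16) (nat_lit 4) (nat_lit 365) (nat_lit 294) (nat_lit 241)) (XT.nd (nat_lit 78) (nat_lit 76) (nat_lit 0) (XT.lf (nat_lit 0) (nat_lit 22416907464) (nat_lit 152) (nat_lit 5472016159) (nat_lit 0) (nat_lit 4875378615) (nat_lit 14) (nat_lit 5) (nat_lit 16) (nat_lit 4) (nat_lit 14) (nat_lit 4) (nat_lit 366) (nat_lit 294) (nat_lit 240)) (XT.lf (nat_lit 0) (nat_lit 5035313144) (nat_lit 76) (nat_lit 23341034795) (nat_lit 76) (nat_lit 5734946821) (nat_lit 13) (nat_lit 4) (nat_lit 14) (nat_lit 5) (nat_lit 14) (nat_lit 4) (nat_lit 367) (nat_lit 294) (nat_lit 239))))) (XT.nd (nat_lit 234) (nat_lit 0) (nat_lit 0) (XT.nd (nat_lit 78) (nat_lit 152) (nat_lit 0) (XT.lf (nat_lit 0) (nat_lit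 16193799826) (nat_lit 76) (nat_lit 18498253638) (nat_lit 76) (nat_lit 830680784) (nat_lit 13) (nat_lit 4) (nat_lit 14) (nat_lit 5) (nat_lit 14) (nat_lit 4) (nat_lit 368) (nat_lit 294) (nat_lit 238)) (XT.nd (nat_lit 78) (nat_lit 76) (nat_lit 0) (XT.lf (nat_lit 0) (nat_lit 4147281078) (nat_lit 152) (nat_lit 9224203672) (nat_lit 76) (nat_lit 23631564856) (nat_lit 12) (nat_lit 5) (nat_lit 14) (nat_lit 5) (nat_lit 13) (nat_lit 4) (nat_lit 369) (nat_lit 294) (nat_lit 237)) (XT.lf (nat_lit 0) (nat_lit 1356278855) (nat_lit 76) (nat_lit 7979417407) (nat_lit 152) (nat_lit 29221540367) (nat_lit 11) (nat_lit 5) (nat_lit 12) (nat_lit 5) (nat_lit 13) (nat_lit 4) (nat_lit 370) (nat_lit 294) (nat_lit 236)))) (XT.nd (nat_lit 78) (nat_lit 0) (nat_lit 0) (XT.lf (nat_lit 0) (nat_lit 12727708669) (nat_lit 76) (nat_lit 2180935283) (nat_lit 152) (nat_lit 25274243328) (nat_lit 11) (nat_lit 5) (nat_lit 12) (nat_lit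 5) (nat_lit 13) (nat_lit 4) (nat_lit 371) (nat_lit 294) (nat_lit 235)) (XT.nd (nat_lit 78) (nat_lit 0) (nat_lit 0) (XT.lf (nat_lit 0) (nat_lit 20791217487) (nat_lit 152) (nat_lit 17339746153) (nat_lit 0) (nat_lit 3757317298) (nat_lit 11) (nat_lit 5) (nat_lit 13) (nat_lit 4) (nat_lit 11) (nat_lit 4) (nat_lit 372) (nat_lit 294) (nat_lit 234)) (XT.lf (nat_lit 0) (nat_lit 26975074531) (nat_lit 152) (nat_lit 6808227575) (nat_lit 0) (nat_lit 9895293377) (nat_lit 11) (nat_lit 5) (nat_lit 13) (nat_lit 4) (nat_lit 11) (nat_lit 4) (nat_lit 373) (nat_lit 294) (nat_lit 233))))))))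
noncomputable def xc85 : XT := (XT.nd (nat_lit 1794) (nat_lit 228) (nat_lit 0) (XT.nd (nat_lit 858) (nat_lit 152) (nat_lit 0) (XT.nd (nat_lit 390) (nat_lit 76) (nat_lit 0) (XT.nd (nat_lit 156) (nat_lit 152) (nat_lit 0) (XT.nd (nat_lit 78) (nat_lit 0) (nat_lit 0) (XT.lf (nat_lit 0) (nat_lit 4337324137) (nat_lit 76) (nat_lit 29171281691) (nat_lit 76) (nat_lit 12047804381) (nat_lit 10) (nat_lit 4) (nat_lit 11) (nat_lit 5) (nat_lit 11) (nat_lit 4) (nat_lit 374) (nat_lit 294) (nat_lit 232)) (XT.lf (nat_lit 0) (nat_lit 16225983925) (nat_lit 76) (nat_lit 24231401975) (nat_lit 76) (nat_lit 7066309277) (nat_lit 10) (nat_lit 4) (nat_lit 11) (nat_lit 5) (nat_lit 11) (nat_lit 4) (nat_lit 375) (nat_lit 294) (nat_lit 231))) (XT.nd (nat_lit 78) (nat_lit 152) (nat_lit 0) (XT.lf (nat_lit 0) (nat_lit 28660947370) (nat_lit 76) (nat_lit 19067201967) (nat_lit 76) (nat_lit 1862475567) (nat_lit 10) (nat_lit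 4) (nat_lit 11) (nat_lit 5) (nat_lit 11) (nat_lit 4) (nat_lit 376) (nat_lit 294) (nat_lit 230)) (XT.nd (nat_lit 78) (nat_lit 76) (nat_lit 0) (XT.lf (nat_lit 0) (nat_lit 3461629717) (nat_lit 152) (nat_lit 10146131862) (nat_lit 76) (nat_lit 38151567438) (nat_lit 9) (nat_lit 5) (nat_lit 11) (nat_lit 5) (nat_lit 10) (nat_lit 4) (nat_lit 377) (nat_lit 294) (nat_lit 229)) (XT.lf (nat_lit 0) (nat_lit 1138045711) (nat_lit 76) (nat_lit 7845596937) (nat_lit 152) (nat_lit 45051591055) (nat_lit 8) (nat_lit 5) (nat_lit 9) (nat_lit 5) (nat_lit 10) (nat_lit 4) (nat_lit 378) (nat_lit 294) (nat_lit 228))))) (XT.nd (nat_lit 234) (nat_lit 76) (nat_lit 0) (XT.nd (nat_lit 78) (nat_lit 0) (nat_lit 0) (XT.lf (nat_lit 0) (nat_lit 13294962119) (nat_lit 76) (nat_lit 1635584671) (nat_lit 152) (nat_lit 41486953666) (nat_lit 8) (nat_lit 5) (nat_lit 9) (nat_lit 5) (nat_lit 10) (nat_lit 4) (nat_lit 379) (nat_lit 294)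 (nat_lit 227)) (XT.nd (nat_lit 78) (nat_lit 0) (nat_lit 0) (XT.lf (nat_lit 0) (nat_lit 21228814046) (nat_lit 152) (nat_lit 32977858138) (nat_lit 0) (nat_lit 4709513525) (nat_lit 8) (nat_lit 5) (nat_lit 10) (nat_lit 4) (nat_lit 8) (nat_lit 4) (nat_lit 380) (nat_lit 294) (nat_lit 226)) (XT.lf (nat_lit 0) (nat_lit 27847617514) (nat_lit 152) (nat_lit 22393170619) (nat_lit 0) (nat_lit 11298741714) (nat_lit 8) (nat_lit 5) (nat_lit 10) (nat_lit 4) (nat_lit 8) (nat_lit 4) (nat_lit 381) (nat_lit 294) (nat_lit 225)))) (XT.nd (nat_lit 78) (nat_lit 76) (nat_lit 0) (XT.lf (nat_lit 0) (nat_lit 34777180191) (nat_lit 152) (nat_lit 11317738085) (nat_lit 0) (nat_lit 18200137459) (nat_lit 8) (nat_lit 5) (nat_lit 10) (nat_lit 4) (nat_lit 8) (nat_lit 4) (nat_lit 382) (nat_lit 294) (nat_lit 224)) (XT.nd (nat_lit 78) (nat_lit 0) (nat_lit 0) (XT.lf (nat_lit 0) (nat_lit 283895986) (nat_lit 76) (nat_lit 41754537462)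 (nat_lit 76) (nat_lit 25150669080) (nat_lit 7) (nat_lit 4) (nat_lit 8) (nat_lit 5) (nat_lit 8) (nat_lit 4) (nat_lit 383) (nat_lit 294) (nat_lit 223)) (XT.lf (nat_lit 0) (nat_lit 12822472773) (nat_lit 76) (nat_lit 37013080156) (nat_lit 76) (nat_lit 20383663536) (nat_lit 7) (nat_lit 4) (nat_lit 8) (nat_lit 5) (nat_lit 8) (nat_lit 4) (nat_lit 384) (nat_lit 294) (nat_lit 222)))))) (XT.nd (nat_lit 468) (nat_lit 0) (nat_lit 0) (XT.nd (nat_lit 234) (nat_lit 152) (nat_lit 0) (XT.nd (nat_lit 78) (nat_lit 0) (nat_lit 0) (XT.lf (nat_lit 0) (nat_lit 25953630495) (nat_lit 76) (nat_lit 32050928545) (nat_lit 76) (nat_lit 15397180270) (nat_lit 7) (nat_lit 4) (nat_lit 8) (nat_lit 5) (nat_lit 8) (nat_lit 4) (nat_lit 385) (nat_lit 294) (nat_lit 221)) (XT.nd (nat_lit 78) (nat_lit 0) (nat_lit 0) (XT.lf (nat_lit 0) (nat_lit 39708633815) (nat_lit 76) (nat_lit 26856267984) (nat_lit 76) (nat_lit 10179346703) (nat_lit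 7) (nat_lit 4) (nat_lit 8) (nat_lit 5) (nat_lit 8) (nat_lit 4) (nat_lit 386) (nat_lit 294) (nat_lit 220)) (XT.lf (nat_lit 0) (nat_lit 54120232739) (nat_lit 76) (nat_lit 21416730231) (nat_lit 76) (nat_lit 4717739423) (nat_lit 7) (nat_lit 4) (nat_lit 8) (nat_lit 5) (nat_lit 8) (nat_lit 4) (nat_lit 387) (nat_lit 294) (nat_lit 219)))) (XT.nd (nat_lit 78) (nat_lit 76) (nat_lit 0) (XT.lf (nat_lit 0) (nat_lit 968618497) (nat_lit 152) (nat_lit 14734341488) (nat_lit 76) (nat_lit 68237718078) (nat_lit 6) (nat_lit 5) (nat_lit 8) (nat_lit 5) (nat_lit 7) (nat_lit 4) (nat_lit 388) (nat_lit 294) (nat_lit 218)) (XT.nd (nat_lit 78) (nat_lit 76) (nat_lit 0) (XT.lf (nat_lit 0) (nat_lit 6765717779) (nat_lit 152) (nat_lit 2870305672) (nat_lit 76) (nat_lit 78171817262) (nat_lit 6) (nat_lit 5) (nat_lit 8) (nat_lit 5) (nat_lit 7) (nat_lit 4) (nat_lit 389) (nat_lit 294) (nat_lit 217)) (XT.lf (nat_lit 0) (nat_lit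 9875624281) (nat_lit 76) (nat_lit 3116920055) (nat_lit 152) (nat_lit 78868827086) (nat_lit 5) (nat_lit 5) (nat_lit 6) (nat_lit 5) (nat_lit 7) (nat_lit 4) (nat_lit 390) (nat_lit 294) (nat_lit 216))))) (XT.nd (nat_lit 234) (nat_lit 0) (nat_lit 0) (XT.nd (nat_lit 78) (nat_lit 0) (nat_lit 0) (XT.lf (nat_lit 0) (nat_lit 19624071518) (nat_lit 152) (nat_lit 72843102717) (nat_lit 0) (nat_lit 3645739838) (nat_lit 5) (nat_lit 5) (nat_lit 7) (nat_lit 4) (nat_lit 5) (nat_lit 4) (nat_lit 391) (nat_lit 294) (nat_lit 215)) (XT.nd (nat_lit 78) (nat_lit 0) (nat_lit 0) (XT.lf (nat_lit 0) (nat_lit 26624696590) (nat_lit 152) (nat_lit 63320568113) (nat_lit 0) (nat_lit 10629896288) (nat_lit 5) (nat_lit 5) (nat_lit 7) (nat_lit 4) (nat_lit 5) (nat_lit 4) (nat_lit 392) (nat_lit 294) (nat_lit 214)) (XT.lf (nat_lit 0) (nat_lit 33962423851) (nat_lit 152) (nat_lit 53346806772) (nat_lit 0) (nat_lit 17951939147) (nat_lit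 5) (nat_lit 5) (nat_lit 7) (nat_lit 4) (nat_lit 5) (nat_lit 4) (nat_lit 393) (nat_lit 294) (nat_lit 213)))) (XT.nd (nat_lit 78) (nat_lit 0) (nat_lit 0) (XT.lf (nat_lit 0) (nat_lit 41654724079) (nat_lit 152) (nat_lit 42898071642) (nat_lit 0) (nat_lit 25629301849) (nat_lit 5) (nat_lit 5) (nat_lit 7) (nat_lit 4) (nat_lit 5) (nat_lit 4) (nat_lit 394) (nat_lit 294) (nat_lit 212)) (XT.nd (nat_lit 78) (nat_lit 0) (nat_lit 0) (XT.lf (nat_lit 0) (nat_lit 49719912274) (nat_lit 152) (nat_lit 31949484782) (nat_lit 0) (nat_lit 33680263829) (nat_lit 5) (nat_lit 5) (nat_lit 7) (nat_lit 4) (nat_lit 5) (nat_lit 4) (nat_lit 395) (nat_lit 294) (nat_lit 211)) (XT.lf (nat_lit 0) (nat_lit 58177191266) (nat_lit 152) (nat_lit 20474978128) (nat_lit 0) (nat_lit 42123994046) (nat_lit 5) (nat_lit 5) (nat_lit 7) (nat_lit 4) (nat_lit 5) (nat_lit 4) (nat_lit 396) (nat_lit 294) (nat_lit 210))))))) (XT.nd (nat_lit 858)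 (nat_lit 152) (nat_lit 0) (XT.nd (nat_lit 390) (nat_lit 0) (nat_lit 0) (XT.nd (nat_lit 156) (nat_lit 0) (nat_lit 0) (XT.nd (nat_lit 78) (nat_lit 76) (nat_lit 0) (XT.lf (nat_lit 0) (nat_lit 67046697434) (nat_lit 152) (nat_lit 8447231427) (nat_lit 0) (nat_lit 50980596617) (nat_lit 5) (nat_lit 5) (nat_lit 7) (nat_lit 4) (nat_lit 5) (nat_lit 4) (nat_lit 397) (nat_lit 294) (nat_lit 209)) (XT.lf (nat_lit 0) (nat_lit 4300020317) (nat_lit 76) (nat_lit 72116663699) (nat_lit 76) (nat_lit 56038273743) (nat_lit 4) (nat_lit 4) (nat_lit 5) (nat_lit 5) (nat_lit 5) (nat_lit 4) (nat_lit 398) (nat_lit 294) (nat_lit 208))) (XT.nd (nat_lit 78) (nat_lit 0) (nat_lit 0) (XT.lf (nat_lit 0) (nat_lit 17958708329) (nat_lit 76) (nat_lit 68429571994) (nat_lit 76) (nat_lit 52339478095) (nat_lit 4) (nat_lit 4) (nat_lit 5) (nat_lit 5) (nat_lit 5) (nat_lit 4) (nat_lit 399) (nat_lit 294) (nat_lit 207)) (XT.nd (nat_lit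 78) (nat_lit 0) (nat_lit 0) (XT.lf (nat_lit 0) (nat_lit 32282049674) (nat_lit 76) (nat_lit 64566932906) (nat_lit 76) (nat_lit 48465692396) (nat_lit 4) (nat_lit 4) (nat_lit 5) (nat_lit 5) (nat_lit 5) (nat_lit 4) (nat_lit 400) (nat_lit 294) (nat_lit 206)) (XT.lf (nat_lit 0) (nat_lit 47304147545) (nat_lit 76) (nat_lit 60519549678) (nat_lit 76) (nat_lit 44407693347) (nat_lit 4) (nat_lit 4) (nat_lit 5) (nat_lit 5) (nat_lit 5) (nat_lit 4) (nat_lit 401) (nat_lit 294) (nat_lit 205))))) (XT.nd (nat_lit 234) (nat_lit 0) (nat_lit 0) (XT.nd (nat_lit 78) (nat_lit 0) (nat_lit 0) (XT.lf (nat_lit 0) (nat_lit 63060768842) (nat_lit 76) (nat_lit 56277785681) (nat_lit 76) (nat_lit 40155819045) (nat_lit 4) (nat_lit 4) (nat_lit 5) (nat_lit 5) (nat_lit 5) (nat_lit 4) (nat_lit 402) (nat_lit 294) (nat_lit 204)) (XT.nd (nat_lit 78) (nat_lit 0) (nat_lit 0) (XT.lf (nat_lit 0) (nat_lit 79589429330) (nat_lit 76) (nat_lit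 51831541478) (nat_lit 76) (nat_lit 35699945980) (nat_lit 4) (nat_lit 4) (nat_lit 5) (nat_lit 5) (nat_lit 5) (nat_lit 4) (nat_lit 403) (nat_lit 294) (nat_lit 203)) (XT.lf (nat_lit 0) (nat_lit 96929482964) (nat_lit 76) (nat_lit 47170230773) (nat_lit 76) (nat_lit 31029464930) (nat_lit 4) (nat_lit 4) (nat_lit 5) (nat_lit 5) (nat_lit 5) (nat_lit 4) (nat_lit 404) (nat_lit 294) (nat_lit 202)))) (XT.nd (nat_lit 78) (nat_lit 0) (nat_lit 0) (XT.lf (nat_lit 0) (nat_lit 115122215583) (nat_lit 76) (nat_lit 42282755208) (nat_lit 76) (nat_lit 26133255703) (nat_lit 4) (nat_lit 4) (nat_lit 5) (nat_lit 5) (nat_lit 5) (nat_lit 4) (nat_lit 405) (nat_lit 294) (nat_lit 201)) (XT.nd (nat_lit 78) (nat_lit 0) (nat_lit 0) (XT.lf (nat_lit 0) (nat_lit 134210943220) (nat_lit 76) (nat_lit 37157477935) (nat_lit 76) (nat_lit 20999660657) (nat_lit 4) (nat_lit 4) (nat_lit 5) (nat_lit 5) (nat_lit 5) (nat_lit 4) (nat_lit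 406) (nat_lit 294) (nat_lit 200)) (XT.lf (nat_lit 0) (nat_lit 154241115224) (nat_lit 76) (nat_lit 31782195913) (nat_lit 76) (nat_lit 15616456947) (nat_lit 4) (nat_lit 4) (nat_lit 5) (nat_lit 5) (nat_lit 5) (nat_lit 4) (nat_lit 407) (nat_lit 294) (nat_lit 199)))))) (XT.nd (nat_lit 468) (nat_lit 0) (nat_lit 0) (XT.nd (nat_lit 234) (nat_lit 76) (nat_lit 0) (XT.nd (nat_lit 78) (nat_lit 76) (nat_lit 0) (XT.lf (nat_lit 0) (nat_lit 175260422483) (nat_lit 76) (nat_lit 26144110853) (nat_lit 76) (nat_lit 9970827421) (nat_lit 4) (nat_lit 4) (nat_lit 5) (nat_lit 5) (nat_lit 5) (nat_lit 4) (nat_lit 408) (nat_lit 294) (nat_lit 198)) (XT.nd (nat_lit 78) (nat_lit 76) (nat_lit 0) (XT.lf (nat_lit 0) (nat_lit 197318910965) (nat_lit 76) (nat_lit 20229798742) (nat_lit 76) (nat_lit 4049330104) (nat_lit 4) (nat_lit 4) (nat_lit 5) (nat_lit 5) (nat_lit 5) (nat_lit 4) (nat_lit 409) (nat_lit 294) (nat_lit 197))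 (XT.lf (nat_lit 0) (nat_lit 2092932020) (nat_lit 152) (nat_lit 11896801047) (nat_lit 76) (nat_lit 218340724044) (nat_lit 3) (nat_lit 5) (nat_lit 5) (nat_lit 5) (nat_lit 4) (nat_lit 4) (nat_lit 410) (nat_lit 294) (nat_lit 196)))) (XT.nd (nat_lit 78) (nat_lit 0) (nat_lit 0) (XT.lf (nat_lit 0) (nat_lit 1061354695) (nat_lit 76) (nat_lit 7355808025) (nat_lit 152) (nat_lit 235178467667) (nat_lit 2) (nat_lit 5) (nat_lit 3) (nat_lit 5) (nat_lit 4) (nat_lit 4) (nat_lit 411) (nat_lit 294) (nat_lit 195)) (XT.nd (nat_lit 78) (nat_lit 0) (nat_lit 0) (XT.lf (nat_lit 0) (nat_lit 15069747746) (nat_lit 76) (nat_lit 183805170) (nat_lit 152) (nat_lit 240160713167) (nat_lit 2) (nat_lit 5) (nat_lit 3) (nat_lit 5) (nat_lit 4) (nat_lit 4) (nat_lit 412) (nat_lit 294) (nat_lit 194)) (XT.lf (nat_lit 0) (nat_lit 22541123063) (nat_lit 152) (nat_lit 238170355769) (nat_lit 0) (nat_lit 7106887806) (nat_lit 2) (nat_lit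 5) (nat_lit 4) (nat_lit 4) (nat_lit 2) (nat_lit 4) (nat_lit 413) (nat_lit 294) (nat_lit 193))))) (XT.nd (nat_lit 234) (nat_lit 0) (nat_lit 0) (XT.nd (nat_lit 78) (nat_lit 0) (nat_lit 0) (XT.lf (nat_lit 0) (nat_lit 30190995713) (nat_lit 152) (nat_lit 235900382609) (nat_lit 0) (nat_lit 14751398746) (nat_lit 2) (nat_lit 5) (nat_lit 4) (nat_lit 4) (nat_lit 2) (nat_lit 4) (nat_lit 414) (nat_lit 294) (nat_lit 192)) (XT.nd (nat_lit 78) (nat_lit 0) (nat_lit 0) (XT.lf (nat_lit 0) (nat_lit 38218515136) (nat_lit 152) (nat_lit 233526324445) (nat_lit 0) (nat_lit 22773811777) (nat_lit 2) (nat_lit 5) (nat_lit 4) (nat_lit 4) (nat_lit 2) (nat_lit 4) (nat_lit 415) (nat_lit 294) (nat_lit 191)) (XT.lf (nat_lit 0) (nat_lit 46642794473) (nat_lit 152) (nat_lit 231042528757) (nat_lit 0) (nat_lit 31193227885) (nat_lit 2) (nat_lit 5) (nat_lit 4) (nat_lit 4) (nat_lit 2) (nat_lit 4) (nat_lit 416) (nat_lit 294) (nat_lit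 190)))) (XT.nd (nat_lit 78) (nat_lit 0) (nat_lit 0) (XT.lf (nat_lit 0) (nat_lit 55483891532) (nat_lit 152) (nat_lit 228443081746) (nat_lit 0) (nat_lit 40029693296) (nat_lit 2) (nat_lit 5) (nat_lit 4) (nat_lit 4) (nat_lit 2) (nat_lit 4) (nat_lit 417) (nat_lit 294) (nat_lit 189)) (XT.nd (nat_lit 78) (nat_lit 0) (nat_lit 0) (XT.lf (nat_lit 0) (nat_lit 64762856544) (nat_lit 152) (nat_lit 225721794252) (nat_lit 0) (nat_lit 49304247215) (nat_lit 2) (nat_lit 5) (nat_lit 4) (nat_lit 4) (nat_lit 2) (nat_lit 4) (nat_lit 418) (nat_lit 294) (nat_lit 188)) (XT.lf (nat_lit 0) (nat_lit 74501782283) (nat_lit 152) (nat_lit 222872187020) (nat_lit 0) (nat_lit 59038971914) (nat_lit 2) (nat_lit 5) (nat_lit 4) (nat_lit 4) (nat_lit 2) (nat_lit 4) (nat_lit 419) (nat_lit 294) (nat_lit 187))))))))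
noncomputable def xc86 : XT := (XT.nd (nat_lit 38922) (nat_lit 0) (nat_lit 2584) (XT.nd (nat_lit 858) (nat_lit 0) (nat_lit 0) (XT.nd (nat_lit 390) (nat_lit 0) (nat_lit 0) (XT.nd (nat_lit 156) (nat_lit 0) (nat_lit 0) (XT.nd (nat_lit 78) (nat_lit 0) (nat_lit 0) (XT.lf (nat_lit 0) (nat_lit 84723856667) (nat_lit 152) (nat_lit 219887475270) (nat_lit 0) (nat_lit 69257045307) (nat_lit 2) (nat_lit 5) (nat_lit 4) (nat_lit 4) (nat_lit 2) (nat_lit 4) (nat_lit 420) (nat_lit 294) (nat_lit 186)) (XT.lf (nat_lit 0) (nat_lit 95453417969) (nat_lit 152) (nat_lit 216760552546) (nat_lit 0) (nat_lit 79982796141) (nat_lit 2) (nat_lit 5) (nat_lit 4) (nat_lit 4) (nat_lit 2) (nat_lit 4) (nat_lit 421) (nat_lit 294) (nat_lit 185))) (XT.nd (nat_lit 78) (nat_lit 0) (nat_lit 0) (XT.lf (nat_lit 0) (nat_lit 106716012764) (nat_lit 152) (nat_lit 213483973793) (nat_lit 0) (nat_lit 91241761919) (nat_lit 2) (nat_lit 5) (nat_lit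 4) (nat_lit 4) (nat_lit 2) (nat_lit 4) (nat_lit 422) (nat_lit 294) (nat_lit 184)) (XT.nd (nat_lit 78) (nat_lit 0) (nat_lit 0) (XT.lf (nat_lit 0) (nat_lit 118538456752) (nat_lit 152) (nat_lit 210049937634) (nat_lit 0) (nat_lit 103060749701) (nat_lit 2) (nat_lit 5) (nat_lit 4) (nat_lit 4) (nat_lit 2) (nat_lit 4) (nat_lit 423) (nat_lit 294) (nat_lit 183)) (XT.lf (nat_lit 0) (nat_lit 130948898611) (nat_lit 152) (nat_lit 206450267793) (nat_lit 0) (nat_lit 115467899934) (nat_lit 2) (nat_lit 5) (nat_lit 4) (nat_lit 4) (nat_lit 2) (nat_lit 4) (nat_lit 424) (nat_lit 294) (nat_lit 182))))) (XT.nd (nat_lit 234) (nat_lit 0) (nat_lit 0) (XT.nd (nat_lit 78) (nat_lit 0) (nat_lit 0) (XT.lf (nat_lit 0) (nat_lit 143976887011) (nat_lit 152) (nat_lit 202676393626) (nat_lit 0) (nat_lit 128492753453) (nat_lit 2) (nat_lit 5) (nat_lit 4) (nat_lit 4) (nat_lit 2) (nat_lit 4) (nat_lit 425) (nat_lit 294) (nat_lit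 181)) (XT.nd (nat_lit 78) (nat_lit 0) (nat_lit 0) (XT.lf (nat_lit 0) (nat_lit 157653440972) (nat_lit 152) (nat_lit 198719329719) (nat_lit 0) (nat_lit 142166321813) (nat_lit 2) (nat_lit 5) (nat_lit 4) (nat_lit 4) (nat_lit 2) (nat_lit 4) (nat_lit 426) (nat_lit 294) (nat_lit 180)) (XT.lf (nat_lit 0) (nat_lit 172011123719) (nat_lit 152) (nat_lit 194569654491) (nat_lit 0) (nat_lit 156521161130) (nat_lit 2) (nat_lit 5) (nat_lit 4) (nat_lit 4) (nat_lit 2) (nat_lit 4) (nat_lit 427) (nat_lit 294) (nat_lit 179)))) (XT.nd (nat_lit 78) (nat_lit 0) (nat_lit 0) (XT.lf (nat_lit 0) (nat_lit 187084120210) (nat_lit 152) (nat_lit 190217487763) (nat_lit 0) (nat_lit 171591449593) (nat_lit 2) (nat_lit 5) (nat_lit 4) (nat_lit 4) (nat_lit 2) (nat_lit 4) (nat_lit 428) (nat_lit 294) (nat_lit 178)) (XT.nd (nat_lit 78) (nat_lit 0) (nat_lit 0) (XT.lf (nat_lit 0) (nat_lit 202908318531) (nat_lit 152) (nat_lit 185652467234)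 (nat_lit 0) (nat_lit 187413068840) (nat_lit 2) (nat_lit 5) (nat_lit 4) (nat_lit 4) (nat_lit 2) (nat_lit 4) (nat_lit 429) (nat_lit 294) (nat_lit 177)) (XT.lf (nat_lit 0) (nat_lit 219521395347) (nat_lit 152) (nat_lit 180863723807) (nat_lit 0) (nat_lit 204023689394) (nat_lit 2) (nat_lit 5) (nat_lit 4) (nat_lit 4) (nat_lit 2) (nat_lit 4) (nat_lit 430) (nat_lit 294) (nat_lit 176)))))) (XT.nd (nat_lit 37596) (nat_lit 0) (nat_lit 6612) (XT.nd (nat_lit 234) (nat_lit 0) (nat_lit 0) (XT.nd (nat_lit 78) (nat_lit 0) (nat_lit 0) (XT.lf (nat_lit 0) (nat_lit 236962905600) (nat_lit 152) (nat_lit 175839855711) (nat_lit 0) (nat_lit 221462860350) (nat_lit 2) (nat_lit 5) (nat_lit 4) (nat_lit 4) (nat_lit 2) (nat_lit 4) (nat_lit 431) (nat_lit 294) (nat_lit 175)) (XT.nd (nat_lit 78) (nat_lit 0) (nat_lit 0) (XT.lf (nat_lit 0) (nat_lit 255274376698) (nat_lit 152) (nat_lit 170568901357) (nat_lit 0) (nat_lit 239772103546)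 (nat_lit 2) (nat_lit 5) (nat_lit 4) (nat_lit 4) (nat_lit 2) (nat_lit 4) (nat_lit 432) (nat_lit 294) (nat_lit 174)) (XT.lf (nat_lit 0) (nat_lit 274499407379) (nat_lit 152) (nat_lit 165038310852) (nat_lit 0) (nat_lit 258995012417) (nat_lit 2) (nat_lit 5) (nat_lit 4) (nat_lit 4) (nat_lit 2) (nat_lit 4) (nat_lit 433) (nat_lit 294) (nat_lit 173)))) (XT.nd (nat_lit 37206) (nat_lit 0) (nat_lit 9272) (XT.lf (nat_lit 0) (nat_lit 294683771528) (nat_lit 152) (nat_lit 159234916125) (nat_lit 0) (nat_lit 279177355793) (nat_lit 2) (nat_lit 5) (nat_lit 4) (nat_lit 4) (nat_lit 2) (nat_lit 4) (nat_lit 434) (nat_lit 294) (nat_lit 172)) (XT.nd (nat_lit 78) (nat_lit 532) (nat_lit 0) (XT.lf (nat_lit 0) (nat_lit 1844380384) (nat_lit 380) (nat_lit 763615600) (nat_lit 380) (nat_lit 763615600) (nat_lit 131) (nat_lit 4) (nat_lit 136) (nat_lit 5) (nat_lit 136) (nat_lit 4) (nat_lit 310) (nat_lit 295) (nat_lit 295))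 (XT.lf (nat_lit 0) (nat_lit 1229898920) (nat_lit 456) (nat_lit 376158394) (nat_lit 532) (nat_lit 5202950178) (nat_lit 124) (nat_lit 5) (nat_lit 130) (nat_lit 5) (nat_lit 131) (nat_lit 4) (nat_lit 311) (nat_lit 295) (nat_lit 294))))) (XT.nd (nat_lit 234) (nat_lit 1444) (nat_lit 0) (XT.nd (nat_lit 78) (nat_lit 1216) (nat_lit 0) (XT.lf (nat_lit 0) (nat_lit 4743595688) (nat_lit 532) (nat_lit 1230125714) (nat_lit 0) (nat_lit 908527136) (nat_lit 124) (nat_lit 5) (nat_lit 131) (nat_lit 4) (nat_lit 124) (nat_lit 4) (nat_lit 312) (nat_lit 295) (nat_lit 293)) (XT.nd (nat_lit 78) (nat_lit 608) (nat_lit 0) (XT.lf (nat_lit 0) (nat_lit 941177375) (nat_lit 608) (nat_lit 3687336024) (nat_lit 76) (nat_lit 2335284560) (nat_lit 116) (nat_lit 5) (nat_lit 124) (nat_lit 5) (nat_lit 117) (nat_lit 4) (nat_lit 313) (nat_lit 295) (nat_lit 292)) (XT.lf (nat_lit 0) (nat_lit 848160452) (nat_lit 608) (nat_lit 3133180637)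 (nat_lit 684) (nat_lit 3072735211) (nat_lit 108) (nat_lit 5) (nat_lit 116) (nat_lit 5) (nat_lit 117) (nat_lit 4) (nat_lit 314) (nat_lit 295) (nat_lit 291)))) (XT.nd (nat_lit 78) (nat_lit 1444) (nat_lit 0) (XT.lf (nat_lit 0) (nat_lit 5594519691) (nat_lit 608) (nat_lit 1490429452) (nat_lit 684) (nat_lit 68647776) (nat_lit 108) (nat_lit 5) (nat_lit 116) (nat_lit 5) (nat_lit 117) (nat_lit 4) (nat_lit 315) (nat_lit 295) (nat_lit 290)) (XT.nd (nat_lit 78) (nat_lit 684) (nat_lit 0) (XT.lf (nat_lit 0) (nat_lit 2896254157) (nat_lit 760) (nat_lit 4032878185) (nat_lit 76) (nat_lit 331356211) (nat_lit 98) (nat_lit 5) (nat_lit 108) (nat_lit 5) (nat_lit 99) (nat_lit 4) (nat_lit 316) (nat_lit 295) (nat_lit 289)) (XT.lf (nat_lit 0) (nat_lit 788329605) (nat_lit 684) (nat_lit 5140705794) (nat_lit 760) (nat_lit 1447795340) (nat_lit 89) (nat_lit 5) (nat_lit 98) (nat_lit 5) (nat_lit 99) (nat_lit 4) (nat_lit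 317) (nat_lit 295) (nat_lit 288))))))) (XT.nd (nat_lit 858) (nat_lit 1596) (nat_lit 0) (XT.nd (nat_lit 390) (nat_lit 1292) (nat_lit 0) (XT.nd (nat_lit 156) (nat_lit 684) (nat_lit 0) (XT.nd (nat_lit 78) (nat_lit 380) (nat_lit 0) (XT.lf (nat_lit 0) (nat_lit 1492569409) (nat_lit 760) (nat_lit 1681033769) (nat_lit 76) (nat_lit 4327872895) (nat_lit 88) (nat_lit 5) (nat_lit 98) (nat_lit 5) (nat_lit 89) (nat_lit 5) (nat_lit 318) (nat_lit 295) (nat_lit 287)) (XT.lf (nat_lit 0) (nat_lit 3414753779) (nat_lit 380) (nat_lit 1036865006) (nat_lit 456) (nat_lit 3183756070) (nat_lit 83) (nat_lit 5) (nat_lit 88) (nat_lit 5) (nat_lit 89) (nat_lit 5) (nat_lit 319) (nat_lit 295) (nat_lit 286))) (XT.nd (nat_lit 78) (nat_lit 380) (nat_lit 0) (XT.lf (nat_lit 0) (nat_lit 912249177) (nat_lit 304) (nat_lit 6579361437) (nat_lit 380) (nat_lit 287921790) (nat_lit 79) (nat_lit 5) (nat_lit 83) (nat_lit 5) (nat_lit 84)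 (nat_lit 4) (nat_lit 320) (nat_lit 295) (nat_lit 285)) (XT.nd (nat_lit 78) (nat_lit 304) (nat_lit 0) (XT.lf (nat_lit 0) (nat_lit 2626860838) (nat_lit 380) (nat_lit 1689004401) (nat_lit 76) (nat_lit 3614964194) (nat_lit 78) (nat_lit 5) (nat_lit 83) (nat_lit 5) (nat_lit 79) (nat_lit 5) (nat_lit 321) (nat_lit 295) (nat_lit 284)) (XT.lf (nat_lit 0) (nat_lit 3720817866) (nat_lit 304) (nat_lit 1893659673) (nat_lit 380) (nat_lit 2478323500) (nat_lit 74) (nat_lit 5) (nat_lit 78) (nat_lit 5) (nat_lit 79) (nat_lit 5) (nat_lit 322) (nat_lit 295) (nat_lit 283))))) (XT.nd (nat_lit 234) (nat_lit 608) (nat_lit 0) (XT.nd (nat_lit 78) (nat_lit 304) (nat_lit 0) (XT.lf (nat_lit 0) (nat_lit 409749113) (nat_lit 380) (nat_lit 7195745217) (nat_lit 76) (nat_lit 660323437) (nat_lit 69) (nat_lit 5) (nat_lit 74) (nat_lit 5) (nat_lit 70) (nat_lit 5) (nat_lit 323) (nat_lit 295) (nat_lit 282)) (XT.nd (nat_lit 78) (nat_lit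 304) (nat_lit 0) (XT.lf (nat_lit 0) (nat_lit 3348526017) (nat_lit 380) (nat_lit 1727505095) (nat_lit 76) (nat_lit 3370102564) (nat_lit 69) (nat_lit 5) (nat_lit 74) (nat_lit 5) (nat_lit 70) (nat_lit 5) (nat_lit 324) (nat_lit 295) (nat_lit 281)) (XT.lf (nat_lit 0) (nat_lit 4002388814) (nat_lit 304) (nat_lit 2383188629) (nat_lit 380) (nat_lit 2252472758) (nat_lit 65) (nat_lit 5) (nat_lit 69) (nat_lit 5) (nat_lit 70) (nat_lit 5) (nat_lit 325) (nat_lit 295) (nat_lit 280)))) (XT.nd (nat_lit 78) (nat_lit 304) (nat_lit 0) (XT.lf (nat_lit 0) (nat_lit 656160140) (nat_lit 304) (nat_lit 7726392232) (nat_lit 76) (nat_lit 459335824) (nat_lit 61) (nat_lit 5) (nat_lit 65) (nat_lit 5) (nat_lit 62) (nat_lit 5) (nat_lit 326) (nat_lit 295) (nat_lit 279)) (XT.nd (nat_lit 78) (nat_lit 304) (nat_lit 0) (XT.lf (nat_lit 0) (nat_lit 3646030258) (nat_lit 304) (nat_lit 1958189238) (nat_lit 76) (nat_lit 3449408097)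 (nat_lit 61) (nat_lit 5) (nat_lit 65) (nat_lit 5) (nat_lit 62) (nat_lit 5) (nat_lit 327) (nat_lit 295) (nat_lit 278)) (XT.lf (nat_lit 0) (nat_lit 4092194017) (nat_lit 304) (nat_lit 2654843424) (nat_lit 380) (nat_lit 2530959068) (nat_lit 57) (nat_lit 5) (nat_lit 61) (nat_lit 5) (nat_lit 62) (nat_lit 5) (nat_lit 328) (nat_lit 295) (nat_lit 277)))))) (XT.nd (nat_lit 468) (nat_lit 608) (nat_lit 0) (XT.nd (nat_lit 234) (nat_lit 456) (nat_lit 0) (XT.nd (nat_lit 78) (nat_lit 228) (nat_lit 0) (XT.lf (nat_lit 0) (nat_lit 427324630) (nat_lit 304) (nat_lit 8640456057) (nat_lit 76) (nat_lit 447860136) (nat_lit 53) (nat_lit 5) (nat_lit 57) (nat_lit 5) (nat_lit 54) (nat_lit 5) (nat_lit 329) (nat_lit 295) (nat_lit 276)) (XT.nd (nat_lit 78) (nat_lit 228) (nat_lit 0) (XT.lf (nat_lit 0) (nat_lit 3482125327) (nat_lit 304) (nat_lit 2568634472) (nat_lit 76) (nat_lit 3710757759) (nat_lit 53) (nat_lit 5) (nat_lit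 57) (nat_lit 5) (nat_lit 54) (nat_lit 5) (nat_lit 330) (nat_lit 295) (nat_lit 275)) (XT.lf (nat_lit 0) (nat_lit 3794250110) (nat_lit 228) (nat_lit 2860248918) (nat_lit 304) (nat_lit 3367050064) (nat_lit 50) (nat_lit 5) (nat_lit 53) (nat_lit 5) (nat_lit 54) (nat_lit 5) (nat_lit 331) (nat_lit 295) (nat_lit 274)))) (XT.nd (nat_lit 78) (nat_lit 304) (nat_lit 0) (XT.lf (nat_lit 0) (nat_lit 132033614) (nat_lit 152) (nat_lit 9814790114) (nat_lit 228) (nat_lit 349789589) (nat_lit 48) (nat_lit 5) (nat_lit 50) (nat_lit 5) (nat_lit 51) (nat_lit 4) (nat_lit 332) (nat_lit 295) (nat_lit 273)) (XT.nd (nat_lit 78) (nat_lit 228) (nat_lit 0) (XT.lf (nat_lit 0) (nat_lit 2790371790) (nat_lit 228) (nat_lit 3784062099) (nat_lit 76) (nat_lit 4005773292) (nat_lit 47) (nat_lit 5) (nat_lit 50) (nat_lit 5) (nat_lit 48) (nat_lit 5) (nat_lit 333) (nat_lit 295) (nat_lit 272)) (XT.lf (nat_lit 0) (nat_lit 2871348443)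 (nat_lit 228) (nat_lit 3161802251) (nat_lit 304) (nat_lit 4846759516) (nat_lit 44) (nat_lit 5) (nat_lit 47) (nat_lit 5) (nat_lit 48) (nat_lit 5) (nat_lit 334) (nat_lit 295) (nat_lit 271))))) (XT.nd (nat_lit 234) (nat_lit 228) (nat_lit 0) (XT.nd (nat_lit 78) (nat_lit 380) (nat_lit 0) (XT.lf (nat_lit 0) (nat_lit 9423812849) (nat_lit 304) (nat_lit 1339995206) (nat_lit 76) (nat_lit 431583521) (nat_lit 44) (nat_lit 5) (nat_lit 48) (nat_lit 5) (nat_lit 45) (nat_lit 4) (nat_lit 335) (nat_lit 295) (nat_lit 270)) (XT.nd (nat_lit 78) (nat_lit 152) (nat_lit 0) (XT.lf (nat_lit 0) (nat_lit 1470016134) (nat_lit 228) (nat_lit 5881595309) (nat_lit 76) (nat_lit 4171005835) (nat_lit 41) (nat_lit 5) (nat_lit 44) (nat_lit 5) (nat_lit 42) (nat_lit 5) (nat_lit 336) (nat_lit 295) (nat_lit 269)) (XT.lf (nat_lit 0) (nat_lit 1029760803) (nat_lit 152) (nat_lit 3742247838) (nat_lit 228) (nat_lit 7094920233) (nat_lit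 39) (nat_lit 5) (nat_lit 41) (nat_lit 5) (nat_lit 42) (nat_lit 5) (nat_lit 337) (nat_lit 295) (nat_lit 268)))) (XT.nd (nat_lit 78) (nat_lit 228) (nat_lit 0) (XT.lf (nat_lit 0) (nat_lit 8261024790) (nat_lit 228) (nat_lit 3862591813) (nat_lit 76) (nat_lit 103809391) (nat_lit 39) (nat_lit 5) (nat_lit 42) (nat_lit 5) (nat_lit 40) (nat_lit 4) (nat_lit 338) (nat_lit 295) (nat_lit 267)) (XT.nd (nat_lit 78) (nat_lit 76) (nat_lit 0) (XT.lf (nat_lit 0) (nat_lit 3386200943) (nat_lit 152) (nat_lit 8576260093) (nat_lit 228) (nat_lit 641651467) (nat_lit 37) (nat_lit 5) (nat_lit 39) (nat_lit 5) (nat_lit 40) (nat_lit 4) (nat_lit 339) (nat_lit 295) (nat_lit 266)) (XT.lf (nat_lit 0) (nat_lit 2748864006) (nat_lit 228) (nat_lit 2032532654) (nat_lit 76) (nat_lit 8216533269) (nat_lit 36) (nat_lit 5) (nat_lit 39) (nat_lit 5) (nat_lit 37) (nat_lit 5) (nat_lit 340) (nat_lit 295) (nat_lit 265))))))))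
noncomputable def xc87 : XT := (XT.nd (nat_lit 1794) (nat_lit 608) (nat_lit 0) (XT.nd (nat_lit 858) (nat_lit 684) (nat_lit 0) (XT.nd (nat_lit 390) (nat_lit 380) (nat_lit 0) (XT.nd (nat_lit 156) (nat_lit 380) (nat_lit 0) (XT.nd (nat_lit 78) (nat_lit 0) (nat_lit 0) (XT.lf (nat_lit 0) (nat_lit 5563328654) (nat_lit 152) (nat_lit 738717341) (nat_lit 228) (nat_lit 7108185484) (nat_lit 34) (nat_lit 5) (nat_lit 36) (nat_lit 5) (nat_lit 37) (nat_lit 5) (nat_lit 341) (nat_lit 295) (nat_lit 264)) (XT.lf (nat_lit 0) (nat_lit 10051421449) (nat_lit 228) (nat_lit 404526947) (nat_lit 76) (nat_lit 3386324819) (nat_lit 34) (nat_lit 5) (nat_lit 37) (nat_lit 5) (nat_lit 35) (nat_lit 4) (nat_lit 342) (nat_lit 295) (nat_lit 263))) (XT.nd (nat_lit 78) (nat_lit 228) (nat_lit 0) (XT.lf (nat_lit 0) (nat_lit 7527013195) (nat_lit 152) (nat_lit 6523078621) (nat_lit 228) (nat_lit 242783273) (nat_lit 32) (nat_lit 5)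 (nat_lit 34) (nat_lit 5) (nat_lit 35) (nat_lit 4) (nat_lit 343) (nat_lit 295) (nat_lit 262)) (XT.nd (nat_lit 78) (nat_lit 0) (nat_lit 0) (XT.lf (nat_lit 0) (nat_lit 967770585) (nat_lit 152) (nat_lit 2358101058) (nat_lit 228) (nat_lit 11439728919) (nat_lit 29) (nat_lit 5) (nat_lit 31) (nat_lit 5) (nat_lit 32) (nat_lit 5) (nat_lit 344) (nat_lit 295) (nat_lit 261)) (XT.lf (nat_lit 0) (nat_lit 7146093674) (nat_lit 228) (nat_lit 6083635404) (nat_lit 76) (nat_lit 2028012190) (nat_lit 29) (nat_lit 5) (nat_lit 32) (nat_lit 5) (nat_lit 30) (nat_lit 4) (nat_lit 345) (nat_lit 295) (nat_lit 260))))) (XT.nd (nat_lit 234) (nat_lit 76) (nat_lit 0) (XT.nd (nat_lit 78) (nat_lit 228) (nat_lit 0) (XT.lf (nat_lit 0) (nat_lit 1931761684) (nat_lit 76) (nat_lit 9230925746) (nat_lit 152) (nat_lit 4611574157) (nat_lit 28) (nat_lit 5) (nat_lit 29) (nat_lit 5) (nat_lit 30) (nat_lit 4) (nat_lit 346) (nat_lit 295)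 (nat_lit 259)) (XT.nd (nat_lit 78) (nat_lit 228) (nat_lit 0) (XT.lf (nat_lit 0) (nat_lit 10453197200) (nat_lit 76) (nat_lit 4967853716) (nat_lit 152) (nat_lit 893548677) (nat_lit 28) (nat_lit 5) (nat_lit 29) (nat_lit 5) (nat_lit 30) (nat_lit 4) (nat_lit 347) (nat_lit 295) (nat_lit 258)) (XT.lf (nat_lit 0) (nat_lit 2447153572) (nat_lit 152) (nat_lit 444942854) (nat_lit 228) (nat_lit 13988639668) (nat_lit 25) (nat_lit 5) (nat_lit 27) (nat_lit 5) (nat_lit 28) (nat_lit 5) (nat_lit 348) (nat_lit 295) (nat_lit 257)))) (XT.nd (nat_lit 78) (nat_lit 76) (nat_lit 0) (XT.lf (nat_lit 0) (nat_lit 6945569961) (nat_lit 228) (nat_lit 6282633328) (nat_lit 76) (nat_lit 4240848358) (nat_lit 25) (nat_lit 5) (nat_lit 28) (nat_lit 5) (nat_lit 26) (nat_lit 4) (nat_lit 349) (nat_lit 295) (nat_lit 256)) (XT.nd (nat_lit 78) (nat_lit 0) (nat_lit 0) (XT.lf (nat_lit 0) (nat_lit 2241674609) (nat_lit 76) (nat_lit 8945652676)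 (nat_lit 152) (nat_lit 6900207003) (nat_lit 24) (nat_lit 5) (nat_lit 25) (nat_lit 5) (nat_lit 26) (nat_lit 4) (nat_lit 350) (nat_lit 295) (nat_lit 255)) (XT.lf (nat_lit 0) (nat_lit 11313265632) (nat_lit 76) (nat_lit 4378807368) (nat_lit 152) (nat_lit 3042353338) (nat_lit 24) (nat_lit 5) (nat_lit 25) (nat_lit 5) (nat_lit 26) (nat_lit 4) (nat_lit 351) (nat_lit 295) (nat_lit 254)))))) (XT.nd (nat_lit 468) (nat_lit 228) (nat_lit 0) (XT.nd (nat_lit 234) (nat_lit 228) (nat_lit 0) (XT.nd (nat_lit 78) (nat_lit 0) (nat_lit 0) (XT.lf (nat_lit 0) (nat_lit 950048509) (nat_lit 228) (nat_lit 18062736986) (nat_lit 76) (nat_lit 401421270) (nat_lit 21) (nat_lit 5) (nat_lit 24) (nat_lit 5) (nat_lit 22) (nat_lit 4) (nat_lit 352) (nat_lit 295) (nat_lit 253)) (XT.nd (nat_lit 78) (nat_lit 0) (nat_lit 0) (XT.lf (nat_lit 0) (nat_lit 5186088228) (nat_lit 228) (nat_lit 9519780034) (nat_lit 76) (nat_lit 5412327353)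 (nat_lit 21) (nat_lit 5) (nat_lit 24) (nat_lit 5) (nat_lit 22) (nat_lit 4) (nat_lit 353) (nat_lit 295) (nat_lit 252)) (XT.lf (nat_lit 0) (nat_lit 9583202108) (nat_lit 228) (nat_lit 639910364) (nat_lit 76) (nat_lit 10636832758) (nat_lit 21) (nat_lit 5) (nat_lit 24) (nat_lit 5) (nat_lit 22) (nat_lit 4) (nat_lit 354) (nat_lit 295) (nat_lit 251)))) (XT.nd (nat_lit 78) (nat_lit 152) (nat_lit 0) (XT.lf (nat_lit 0) (nat_lit 8882303761) (nat_lit 76) (nat_lit 5408233360) (nat_lit 152) (nat_lit 7343750675) (nat_lit 20) (nat_lit 5) (nat_lit 21) (nat_lit 5) (nat_lit 22) (nat_lit 4) (nat_lit 355) (nat_lit 295) (nat_lit 250)) (XT.nd (nat_lit 78) (nat_lit 152) (nat_lit 0) (XT.lf (nat_lit 0) (nat_lit 18818292719) (nat_lit 76) (nat_lit 378451629) (nat_lit 152) (nat_lit 3252450480) (nat_lit 20) (nat_lit 5) (nat_lit 21) (nat_lit 5) (nat_lit 22) (nat_lit 4) (nat_lit 356) (nat_lit 295) (nat_lit 249)) (XT.lf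 (nat_lit 0) (nat_lit 1136296425) (nat_lit 152) (nat_lit 17338184811) (nat_lit 76) (nat_lit 4823258079) (nat_lit 18) (nat_lit 5) (nat_lit 20) (nat_lit 5) (nat_lit 19) (nat_lit 4) (nat_lit 357) (nat_lit 295) (nat_lit 248))))) (XT.nd (nat_lit 234) (nat_lit 152) (nat_lit 0) (XT.nd (nat_lit 78) (nat_lit 76) (nat_lit 0) (XT.lf (nat_lit 0) (nat_lit 5658405508) (nat_lit 152) (nat_lit 8173021204) (nat_lit 76) (nat_lit 10353476481) (nat_lit 18) (nat_lit 5) (nat_lit 20) (nat_lit 5) (nat_lit 19) (nat_lit 4) (nat_lit 358) (nat_lit 295) (nat_lit 247)) (XT.nd (nat_lit 78) (nat_lit 0) (nat_lit 0) (XT.lf (nat_lit 0) (nat_lit 1417242756) (nat_lit 76) (nat_lit 8968195119) (nat_lit 152) (nat_lit 14732065101) (nat_lit 17) (nat_lit 5) (nat_lit 18) (nat_lit 5) (nat_lit 19) (nat_lit 4) (nat_lit 359) (nat_lit 295) (nat_lit 246)) (XT.lf (nat_lit 0) (nat_lit 11693516738) (nat_lit 76) (nat_lit 3751266118) (nat_lit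 152) (nat_lit 10647169558) (nat_lit 17) (nat_lit 5) (nat_lit 18) (nat_lit 5) (nat_lit 19) (nat_lit 4) (nat_lit 360) (nat_lit 295) (nat_lit 245)))) (XT.nd (nat_lit 78) (nat_lit 152) (nat_lit 0) (XT.lf (nat_lit 0) (nat_lit 20743101801) (nat_lit 152) (nat_lit 4733569917) (nat_lit 0) (nat_lit 1639169143) (nat_lit 17) (nat_lit 5) (nat_lit 19) (nat_lit 4) (nat_lit 17) (nat_lit 4) (nat_lit 361) (nat_lit 295) (nat_lit 244)) (XT.nd (nat_lit 78) (nat_lit 76) (nat_lit 0) (XT.lf (nat_lit 0) (nat_lit 5456155576) (nat_lit 76) (nat_lit 20957864176) (nat_lit 76) (nat_lit 1771535897) (nat_lit 16) (nat_lit 4) (nat_lit 17) (nat_lit 5) (nat_lit 17) (nat_lit 4) (nat_lit 362) (nat_lit 295) (nat_lit 243)) (XT.lf (nat_lit 0) (nat_lit 3004394327) (nat_lit 152) (nat_lit 13105791927) (nat_lit 76) (nat_lit 13194066088) (nat_lit 15) (nat_lit 5) (nat_lit 17) (nat_lit 5) (nat_lit 16) (nat_lit 4) (nat_lit 363) (nat_lit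 295) (nat_lit 242))))))) (XT.nd (nat_lit 858) (nat_lit 304) (nat_lit 0) (XT.nd (nat_lit 390) (nat_lit 152) (nat_lit 0) (XT.nd (nat_lit 156) (nat_lit 76) (nat_lit 0) (XT.nd (nat_lit 78) (nat_lit 76) (nat_lit 0) (XT.lf (nat_lit 0) (nat_lit 7922555181) (nat_lit 152) (nat_lit 3098297433) (nat_lit 76) (nat_lit 19458444590) (nat_lit 15) (nat_lit 5) (nat_lit 17) (nat_lit 5) (nat_lit 16) (nat_lit 4) (nat_lit 364) (nat_lit 295) (nat_lit 241)) (XT.lf (nat_lit 0) (nat_lit 7587414047) (nat_lit 76) (nat_lit 5582403531) (nat_lit 152) (nat_lit 18539130277) (nat_lit 14) (nat_lit 5) (nat_lit 15) (nat_lit 5) (nat_lit 16) (nat_lit 4) (nat_lit 365) (nat_lit 295) (nat_lit 240))) (XT.nd (nat_lit 78) (nat_lit 76) (nat_lit 0) (XT.lf (nat_lit 0) (nat_lit 18699727476) (nat_lit 152) (nat_lit 14150575956) (nat_lit 0) (nat_lit 148775979) (nat_lit 14) (nat_lit 5) (nat_lit 16) (nat_lit 4) (nat_lit 14) (nat_lit 4) (nat_lit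 366) (nat_lit 295) (nat_lit 239)) (XT.nd (nat_lit 78) (nat_lit 76) (nat_lit 0) (XT.lf (nat_lit 0) (nat_lit 24564271575) (nat_lit 152) (nat_lit 3834715830) (nat_lit 0) (nat_lit 5951835197) (nat_lit 14) (nat_lit 5) (nat_lit 16) (nat_lit 4) (nat_lit 14) (nat_lit 4) (nat_lit 367) (nat_lit 295) (nat_lit 238)) (XT.lf (nat_lit 0) (nat_lit 7167158952) (nat_lit 76) (nat_lit 23634996596) (nat_lit 76) (nat_lit 4964003189) (nat_lit 13) (nat_lit 4) (nat_lit 14) (nat_lit 5) (nat_lit 14) (nat_lit 4) (nat_lit 368) (nat_lit 295) (nat_lit 237))))) (XT.nd (nat_lit 234) (nat_lit 0) (nat_lit 0) (XT.nd (nat_lit 78) (nat_lit 76) (nat_lit 0) (XT.lf (nat_lit 0) (nat_lit 130785552) (nat_lit 152) (nat_lit 18458651624) (nat_lit 76) (nat_lit 18661041874) (nat_lit 12) (nat_lit 5) (nat_lit 14) (nat_lit 5) (nat_lit 13) (nat_lit 4) (nat_lit 369) (nat_lit 295) (nat_lit 236)) (XT.nd (nat_lit 78) (nat_lit 76) (nat_lit 0)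 (XT.lf (nat_lit 0) (nat_lit 5283296612) (nat_lit 152) (nat_lit 7949116903) (nat_lit 76) (nat_lit 25574052576) (nat_lit 12) (nat_lit 5) (nat_lit 14) (nat_lit 5) (nat_lit 13) (nat_lit 4) (nat_lit 370) (nat_lit 295) (nat_lit 235)) (XT.lf (nat_lit 0) (nat_lit 3132384961) (nat_lit 76) (nat_lit 7581197322) (nat_lit 152) (nat_lit 29725672142) (nat_lit 11) (nat_lit 5) (nat_lit 12) (nat_lit 5) (nat_lit 13) (nat_lit 4) (nat_lit 371) (nat_lit 295) (nat_lit 234)))) (XT.nd (nat_lit 78) (nat_lit 0) (nat_lit 0) (XT.lf (nat_lit 0) (nat_lit 14991039021) (nat_lit 76) (nat_lit 1530752567) (nat_lit 152) (nat_lit 25626579072) (nat_lit 11) (nat_lit 5) (nat_lit 12) (nat_lit 5) (nat_lit 13) (nat_lit 4) (nat_lit 372) (nat_lit 295) (nat_lit 233)) (XT.nd (nat_lit 78) (nat_lit 0) (nat_lit 0) (XT.lf (nat_lit 0) (nat_lit 22668463253) (nat_lit 152) (nat_lit 16626969457) (nat_lit 0) (nat_lit 4645115921) (nat_lit 11)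 (nat_lit 5) (nat_lit 13) (nat_lit 4) (nat_lit 11) (nat_lit 4) (nat_lit 373) (nat_lit 295) (nat_lit 232)) (XT.lf (nat_lit 0) (nat_lit 29121623393) (nat_lit 152) (nat_lit 5644101808) (nat_lit 0) (nat_lit 11056660673) (nat_lit 11) (nat_lit 5) (nat_lit 13) (nat_lit 4) (nat_lit 11) (nat_lit 4) (nat_lit 374) (nat_lit 295) (nat_lit 231)))))) (XT.nd (nat_lit 468) (nat_lit 76) (nat_lit 0) (XT.nd (nat_lit 234) (nat_lit 152) (nat_lit 0) (XT.nd (nat_lit 78) (nat_lit 0) (nat_lit 0) (XT.lf (nat_lit 0) (nat_lit 6034460761) (nat_lit 76) (nat_lit 29932491419) (nat_lit 76) (nat_lit 11827894997) (nat_lit 10) (nat_lit 4) (nat_lit 11) (nat_lit 5) (nat_lit 11) (nat_lit 4) (nat_lit 375) (nat_lit 295) (nat_lit 230)) (XT.nd (nat_lit 78) (nat_lit 0) (nat_lit 0) (XT.lf (nat_lit 0) (nat_lit 18447064471) (nat_lit 76) (nat_lit 24778825067) (nat_lit 76) (nat_lit 6636482262) (nat_lit 10) (nat_lit 4) (nat_lit 11) (nat_lit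 5) (nat_lit 11) (nat_lit 4) (nat_lit 376) (nat_lit 295) (nat_lit 229)) (XT.lf (nat_lit 0) (nat_lit 31436643643) (nat_lit 76) (nat_lit 19388041107) (nat_lit 76) (nat_lit 1209749365) (nat_lit 10) (nat_lit 4) (nat_lit 11) (nat_lit 5) (nat_lit 11) (nat_lit 4) (nat_lit 377) (nat_lit 295) (nat_lit 228)))) (XT.nd (nat_lit 78) (nat_lit 76) (nat_lit 0) (XT.lf (nat_lit 0) (nat_lit 4322309415) (nat_lit 152) (nat_lit 9351794521) (nat_lit 76) (nat_lit 40638616031) (nat_lit 9) (nat_lit 5) (nat_lit 11) (nat_lit 5) (nat_lit 10) (nat_lit 4) (nat_lit 378) (nat_lit 295) (nat_lit 227)) (XT.nd (nat_lit 78) (nat_lit 0) (nat_lit 0) (XT.lf (nat_lit 0) (nat_lit 2475597673) (nat_lit 76) (nat_lit 7632077079) (nat_lit 152) (nat_lit 46595391864) (nat_lit 8) (nat_lit 5) (nat_lit 9) (nat_lit 5) (nat_lit 10) (nat_lit 4) (nat_lit 379) (nat_lit 295) (nat_lit 226)) (XT.lf (nat_lit 0) (nat_lit 15179376584) (nat_lit 76) (nat_lit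 1140411804) (nat_lit 152) (nat_lit 42886273974) (nat_lit 8) (nat_lit 5) (nat_lit 9) (nat_lit 5) (nat_lit 10) (nat_lit 4) (nat_lit 380) (nat_lit 295) (nat_lit 225))))) (XT.nd (nat_lit 234) (nat_lit 76) (nat_lit 0) (XT.nd (nat_lit 78) (nat_lit 0) (nat_lit 0) (XT.lf (nat_lit 0) (nat_lit 22910942459) (nat_lit 152) (nat_lit 33442968533) (nat_lit 0) (nat_lit 5476880658) (nat_lit 8) (nat_lit 5) (nat_lit 10) (nat_lit 4) (nat_lit 8) (nat_lit 4) (nat_lit 381) (nat_lit 295) (nat_lit 224)) (XT.nd (nat_lit 78) (nat_lit 0) (nat_lit 0) (XT.lf (nat_lit 0) (nat_lit 29831129544) (nat_lit 152) (nat_lit 22385417235) (nat_lit 0) (nat_lit 12370242093) (nat_lit 8) (nat_lit 5) (nat_lit 10) (nat_lit 4) (nat_lit 8) (nat_lit 4) (nat_lit 382) (nat_lit 295) (nat_lit 223)) (XT.lf (nat_lit 0) (nat_lit 37079021252) (nat_lit 152) (nat_lit 10809899356) (nat_lit 0) (nat_lit 19592585563) (nat_lit 8) (nat_lit 5) (nat_lit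 10) (nat_lit 4) (nat_lit 8) (nat_lit 4) (nat_lit 383) (nat_lit 295) (nat_lit 222)))) (XT.nd (nat_lit 78) (nat_lit 0) (nat_lit 0) (XT.lf (nat_lit 0) (nat_lit 1354498264) (nat_lit 76) (nat_lit 43338523720) (nat_lit 76) (nat_lit 25827756376) (nat_lit 7) (nat_lit 4) (nat_lit 8) (nat_lit 5) (nat_lit 8) (nat_lit 4) (nat_lit 384) (nat_lit 295) (nat_lit 221)) (XT.nd (nat_lit 78) (nat_lit 0) (nat_lit 0) (XT.lf (nat_lit 0) (nat_lit 14469698772) (nat_lit 76) (nat_lit 38383981197) (nat_lit 76) (nat_lit 20850040848) (nat_lit 7) (nat_lit 4) (nat_lit 8) (nat_lit 5) (nat_lit 8) (nat_lit 4) (nat_lit 385) (nat_lit 295) (nat_lit 220)) (XT.lf (nat_lit 0) (nat_lit 28209504744) (nat_lit 76) (nat_lit 33196567385) (nat_lit 76) (nat_lit 15640557508) (nat_lit 7) (nat_lit 4) (nat_lit 8) (nat_lit 5) (nat_lit 8) (nat_lit 4) (nat_lit 386) (nat_lit 295) (nat_lit 219))))))))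
noncomputable def xc88 : XT := (XT.nd (nat_lit 1716) (nat_lit 152) (nat_lit 0) (XT.nd (nat_lit 858) (nat_lit 76) (nat_lit 0) (XT.nd (nat_lit 390) (nat_lit 0) (nat_lit 0) (XT.nd (nat_lit 156) (nat_lit 152) (nat_lit 0) (XT.nd (nat_lit 78) (nat_lit 0) (nat_lit 0) (XT.lf (nat_lit 0) (nat_lit 42606630005) (nat_lit 76) (nat_lit 27763931300) (nat_lit 76) (nat_lit 10186902823) (nat_lit 7) (nat_lit 4) (nat_lit 8) (nat_lit 5) (nat_lit 8) (nat_lit 4) (nat_lit 387) (nat_lit 295) (nat_lit 218)) (XT.lf (nat_lit 0) (nat_lit 57695353423) (nat_lit 76) (nat_lit 22073138092) (nat_lit 76) (nat_lit 4476091903) (nat_lit 7) (nat_lit 4) (nat_lit 8) (nat_lit 5) (nat_lit 8) (nat_lit 4) (nat_lit 388) (nat_lit 295) (nat_lit 217))) (XT.nd (nat_lit 78) (nat_lit 76) (nat_lit 0) (XT.lf (nat_lit 0) (nat_lit 1457287902) (nat_lit 152) (nat_lit 14628670477) (nat_lit 76) (nat_lit 72029632752) (nat_lit 6) (nat_lit 5) (nat_lit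 8) (nat_lit 5) (nat_lit 7) (nat_lit 4) (nat_lit 389) (nat_lit 295) (nat_lit 216)) (XT.nd (nat_lit 78) (nat_lit 76) (nat_lit 0) (XT.lf (nat_lit 0) (nat_lit 7523278411) (nat_lit 152) (nat_lit 2211546589) (nat_lit 76) (nat_lit 82442340287) (nat_lit 6) (nat_lit 5) (nat_lit 8) (nat_lit 5) (nat_lit 7) (nat_lit 4) (nat_lit 390) (nat_lit 295) (nat_lit 215)) (XT.lf (nat_lit 0) (nat_lit 11158739953) (nat_lit 76) (nat_lit 2895064602) (nat_lit 152) (nat_lit 82379955002) (nat_lit 5) (nat_lit 5) (nat_lit 6) (nat_lit 5) (nat_lit 7) (nat_lit 4) (nat_lit 391) (nat_lit 295) (nat_lit 214))))) (XT.nd (nat_lit 234) (nat_lit 0) (nat_lit 0) (XT.nd (nat_lit 78) (nat_lit 0) (nat_lit 0) (XT.lf (nat_lit 0) (nat_lit 21002922695) (nat_lit 152) (nat_lit 75719431266) (nat_lit 0) (nat_lit 4176229354) (nat_lit 5) (nat_lit 5) (nat_lit 7) (nat_lit 4) (nat_lit 5) (nat_lit 4) (nat_lit 392) (nat_lit 295) (nat_lit 213)) (XT.nd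 (nat_lit 78) (nat_lit 0) (nat_lit 0) (XT.lf (nat_lit 0) (nat_lit 28334643421) (nat_lit 152) (nat_lit 65757237866) (nat_lit 0) (nat_lit 11493012554) (nat_lit 5) (nat_lit 5) (nat_lit 7) (nat_lit 4) (nat_lit 5) (nat_lit 4) (nat_lit 393) (nat_lit 295) (nat_lit 212)) (XT.lf (nat_lit 0) (nat_lit 36021223139) (nat_lit 152) (nat_lit 55319519822) (nat_lit 0) (nat_lit 19165366058) (nat_lit 5) (nat_lit 5) (nat_lit 7) (nat_lit 4) (nat_lit 5) (nat_lit 4) (nat_lit 394) (nat_lit 295) (nat_lit 211)))) (XT.nd (nat_lit 78) (nat_lit 0) (nat_lit 0) (XT.lf (nat_lit 0) (nat_lit 44080963231) (nat_lit 152) (nat_lit 44381425425) (nat_lit 0) (nat_lit 27211557373) (nat_lit 5) (nat_lit 5) (nat_lit 7) (nat_lit 4) (nat_lit 5) (nat_lit 4) (nat_lit 395) (nat_lit 295) (nat_lit 210)) (XT.nd (nat_lit 78) (nat_lit 0) (nat_lit 0) (XT.lf (nat_lit 0) (nat_lit 52533053553) (nat_lit 152) (nat_lit 32916911593) (nat_lit 0) (nat_lit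 35650744099) (nat_lit 5) (nat_lit 5) (nat_lit 7) (nat_lit 4) (nat_lit 5) (nat_lit 4) (nat_lit 396) (nat_lit 295) (nat_lit 209)) (XT.lf (nat_lit 0) (nat_lit 61397618130) (nat_lit 152) (nat_lit 20898681865) (nat_lit 0) (nat_lit 44503019536) (nat_lit 5) (nat_lit 5) (nat_lit 7) (nat_lit 4) (nat_lit 5) (nat_lit 4) (nat_lit 397) (nat_lit 295) (nat_lit 208)))))) (XT.nd (nat_lit 390) (nat_lit 0) (nat_lit 0) (XT.nd (nat_lit 156) (nat_lit 0) (nat_lit 0) (XT.nd (nat_lit 78) (nat_lit 76) (nat_lit 0) (XT.lf (nat_lit 0) (nat_lit 70695763068) (nat_lit 152) (nat_lit 8298121409) (nat_lit 0) (nat_lit 53789460532) (nat_lit 5) (nat_lit 5) (nat_lit 7) (nat_lit 4) (nat_lit 5) (nat_lit 4) (nat_lit 398) (nat_lit 295) (nat_lit 207)) (XT.lf (nat_lit 0) (nat_lit 5077275639) (nat_lit 76) (nat_lit 75451621670) (nat_lit 76) (nat_lit 58534172523) (nat_lit 4) (nat_lit 4) (nat_lit 5) (nat_lit 5) (nat_lit 5) (nat_lit 4)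 (nat_lit 399) (nat_lit 295) (nat_lit 206))) (XT.nd (nat_lit 78) (nat_lit 0) (nat_lit 0) (XT.lf (nat_lit 0) (nat_lit 19392124037) (nat_lit 76) (nat_lit 71593074198) (nat_lit 76) (nat_lit 54665009231) (nat_lit 4) (nat_lit 4) (nat_lit 5) (nat_lit 5) (nat_lit 5) (nat_lit 4) (nat_lit 400) (nat_lit 295) (nat_lit 205)) (XT.nd (nat_lit 78) (nat_lit 0) (nat_lit 0) (XT.lf (nat_lit 0) (nat_lit 34406133387) (nat_lit 76) (nat_lit 67549587747) (nat_lit 76) (nat_lit 50611412474) (nat_lit 4) (nat_lit 4) (nat_lit 5) (nat_lit 5) (nat_lit 5) (nat_lit 4) (nat_lit 401) (nat_lit 295) (nat_lit 204)) (XT.lf (nat_lit 0) (nat_lit 50155051332) (nat_lit 76) (nat_lit 63311534967) (nat_lit 76) (nat_lit 46363730832) (nat_lit 4) (nat_lit 4) (nat_lit 5) (nat_lit 5) (nat_lit 5) (nat_lit 4) (nat_lit 402) (nat_lit 295) (nat_lit 203))))) (XT.nd (nat_lit 234) (nat_lit 0) (nat_lit 0) (XT.nd (nat_lit 78) (nat_lit 0) (nat_lit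 0) (XT.lf (nat_lit 0) (nat_lit 66676375293) (nat_lit 76) (nat_lit 58868825256) (nat_lit 76) (nat_lit 41911850775) (nat_lit 4) (nat_lit 4) (nat_lit 5) (nat_lit 5) (nat_lit 5) (nat_lit 4) (nat_lit 403) (nat_lit 295) (nat_lit 202)) (XT.nd (nat_lit 78) (nat_lit 0) (nat_lit 0) (XT.lf (nat_lit 0) (nat_lit 84009441758) (nat_lit 76) (nat_lit 54210880733) (nat_lit 76) (nat_lit 37245172591) (nat_lit 4) (nat_lit 4) (nat_lit 5) (nat_lit 5) (nat_lit 5) (nat_lit 4) (nat_lit 404) (nat_lit 295) (nat_lit 201)) (XT.lf (nat_lit 0) (nat_lit 102195519932) (nat_lit 76) (nat_lit 49326611056) (nat_lit 76) (nat_lit 32352585141) (nat_lit 4) (nat_lit 4) (nat_lit 5) (nat_lit 5) (nat_lit 5) (nat_lit 4) (nat_lit 405) (nat_lit 295) (nat_lit 200)))) (XT.nd (nat_lit 78) (nat_lit 0) (nat_lit 0) (XT.lf (nat_lit 0) (nat_lit 121277910000) (nat_lit 76) (nat_lit 44204387010) (nat_lit 76) (nat_lit 27222439406) (nat_lit 4) (nat_lit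 4) (nat_lit 5) (nat_lit 5) (nat_lit 5) (nat_lit 4) (nat_lit 406) (nat_lit 295) (nat_lit 199)) (XT.nd (nat_lit 78) (nat_lit 0) (nat_lit 0) (XT.lf (nat_lit 0) (nat_lit 141302046226) (nat_lit 76) (nat_lit 38832012824) (nat_lit 76) (nat_lit 21842520755) (nat_lit 4) (nat_lit 4) (nat_lit 5) (nat_lit 5) (nat_lit 5) (nat_lit 4) (nat_lit 407) (nat_lit 295) (nat_lit 198)) (XT.lf (nat_lit 0) (nat_lit 162315605124) (nat_lit 76) (nat_lit 33196697131) (nat_lit 76) (nat_lit 16200019856) (nat_lit 4) (nat_lit 4) (nat_lit 5) (nat_lit 5) (nat_lit 5) (nat_lit 4) (nat_lit 408) (nat_lit 295) (nat_lit 197))))))) (XT.nd (nat_lit 858) (nat_lit 0) (nat_lit 0) (XT.nd (nat_lit 390) (nat_lit 0) (nat_lit 0) (XT.nd (nat_lit 156) (nat_lit 152) (nat_lit 0) (XT.nd (nat_lit 78) (nat_lit 0) (nat_lit 0) (XT.lf (nat_lit 0) (nat_lit 184368618977) (nat_lit 76) (nat_lit 27285022511) (nat_lit 76) (nat_lit 10281502184) (nat_lit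 4) (nat_lit 4) (nat_lit 5) (nat_lit 5) (nat_lit 5) (nat_lit 4) (nat_lit 409) (nat_lit 295) (nat_lit 196)) (XT.lf (nat_lit 0) (nat_lit 207513594961) (nat_lit 76) (nat_lit 21082913551) (nat_lit 76) (nat_lit 4072876031) (nat_lit 4) (nat_lit 4) (nat_lit 5) (nat_lit 5) (nat_lit 5) (nat_lit 4) (nat_lit 410) (nat_lit 295) (nat_lit 195))) (XT.nd (nat_lit 78) (nat_lit 76) (nat_lit 0) (XT.lf (nat_lit 0) (nat_lit 2362525291) (nat_lit 152) (nat_lit 12173067523) (nat_lit 76) (nat_lit 229403104361) (nat_lit 3) (nat_lit 5) (nat_lit 5) (nat_lit 5) (nat_lit 4) (nat_lit 4) (nat_lit 411) (nat_lit 295) (nat_lit 194)) (XT.nd (nat_lit 78) (nat_lit 0) (nat_lit 0) (XT.lf (nat_lit 0) (nat_lit 1427857722) (nat_lit 76) (nat_lit 7572148803) (nat_lit 152) (nat_lit 246767272328) (nat_lit 2) (nat_lit 5) (nat_lit 3) (nat_lit 5) (nat_lit 4) (nat_lit 4) (nat_lit 412) (nat_lit 295) (nat_lit 193)) (XT.lf (nat_lit 0) (nat_lit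 16121744936) (nat_lit 76) (nat_lit 48757692) (nat_lit 152) (nat_lit 252006730994) (nat_lit 2) (nat_lit 5) (nat_lit 3) (nat_lit 5) (nat_lit 4) (nat_lit 4) (nat_lit 413) (nat_lit 295) (nat_lit 192))))) (XT.nd (nat_lit 234) (nat_lit 0) (nat_lit 0) (XT.nd (nat_lit 78) (nat_lit 0) (nat_lit 0) (XT.lf (nat_lit 0) (nat_lit 23817249713) (nat_lit 152) (nat_lit 249789346308) (nat_lit 0) (nat_lit 7595204795) (nat_lit 2) (nat_lit 5) (nat_lit 4) (nat_lit 4) (nat_lit 2) (nat_lit 4) (nat_lit 414) (nat_lit 295) (nat_lit 191)) (XT.nd (nat_lit 78) (nat_lit 0) (nat_lit 0) (XT.lf (nat_lit 0) (nat_lit 31842517400) (nat_lit 152) (nat_lit 247419661502) (nat_lit 0) (nat_lit 15615609253) (nat_lit 2) (nat_lit 5) (nat_lit 4) (nat_lit 4) (nat_lit 2) (nat_lit 4) (nat_lit 415) (nat_lit 295) (nat_lit 190)) (XT.lf (nat_lit 0) (nat_lit 40264652228) (nat_lit 152) (nat_lit 244940030917) (nat_lit 0) (nat_lit 24033112433)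 (nat_lit 2) (nat_lit 5) (nat_lit 4) (nat_lit 4) (nat_lit 2) (nat_lit 4) (nat_lit 416) (nat_lit 295) (nat_lit 189)))) (XT.nd (nat_lit 78) (nat_lit 0) (nat_lit 0) (XT.lf (nat_lit 0) (nat_lit 49103706896) (nat_lit 152) (nat_lit 242344550671) (nat_lit 0) (nat_lit 32867756009) (nat_lit 2) (nat_lit 5) (nat_lit 4) (nat_lit 4) (nat_lit 2) (nat_lit 4) (nat_lit 417) (nat_lit 295) (nat_lit 188)) (XT.nd (nat_lit 78) (nat_lit 0) (nat_lit 0) (XT.lf (nat_lit 0) (nat_lit 58380726775) (nat_lit 152) (nat_lit 239627041048) (nat_lit 0) (nat_lit 42140574847) (nat_lit 2) (nat_lit 5) (nat_lit 4) (nat_lit 4) (nat_lit 2) (nat_lit 4) (nat_lit 418) (nat_lit 295) (nat_lit 187)) (XT.lf (nat_lit 0) (nat_lit 68117800006) (nat_lit 152) (nat_lit 236781031789) (nat_lit 0) (nat_lit 51873647086) (nat_lit 2) (nat_lit 5) (nat_lit 4) (nat_lit 4) (nat_lit 2) (nat_lit 4) (nat_lit 419) (nat_lit 295) (nat_lit 186)))))) (XT.nd (nat_lit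 468) (nat_lit 0) (nat_lit 0) (XT.nd (nat_lit 234) (nat_lit 0) (nat_lit 0) (XT.nd (nat_lit 78) (nat_lit 0) (nat_lit 0) (XT.lf (nat_lit 0) (nat_lit 78338110097) (nat_lit 152) (nat_lit 233799746679) (nat_lit 0) (nat_lit 62090146710) (nat_lit 2) (nat_lit 5) (nat_lit 4) (nat_lit 4) (nat_lit 2) (nat_lit 4) (nat_lit 420) (nat_lit 295) (nat_lit 185)) (XT.nd (nat_lit 78) (nat_lit 0) (nat_lit 0) (XT.lf (nat_lit 0) (nat_lit 89065991119) (nat_lit 152) (nat_lit 230676087422) (nat_lit 0) (nat_lit 72814398715) (nat_lit 2) (nat_lit 5) (nat_lit 4) (nat_lit 4) (nat_lit 2) (nat_lit 4) (nat_lit 421) (nat_lit 295) (nat_lit 184)) (XT.lf (nat_lit 0) (nat_lit 100326985648) (nat_lit 152) (nat_lit 227402616734) (nat_lit 0) (nat_lit 84071937037) (nat_lit 2) (nat_lit 5) (nat_lit 4) (nat_lit 4) (nat_lit 2) (nat_lit 4) (nat_lit 422) (nat_lit 295) (nat_lit 183)))) (XT.nd (nat_lit 78) (nat_lit 0) (nat_lit 0) (XT.lf (nat_lit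 0) (nat_lit 112147905573) (nat_lit 152) (nat_lit 223971540636) (nat_lit 0) (nat_lit 95889565337) (nat_lit 2) (nat_lit 5) (nat_lit 4) (nat_lit 4) (nat_lit 2) (nat_lit 4) (nat_lit 423) (nat_lit 295) (nat_lit 182)) (XT.nd (nat_lit 78) (nat_lit 0) (nat_lit 0) (XT.lf (nat_lit 0) (nat_lit 124556895943) (nat_lit 152) (nat_lit 220374689900) (nat_lit 0) (nat_lit 108295420826) (nat_lit 2) (nat_lit 5) (nat_lit 4) (nat_lit 4) (nat_lit 2) (nat_lit 4) (nat_lit 424) (nat_lit 295) (nat_lit 181)) (XT.lf (nat_lit 0) (nat_lit 137583501973) (nat_lit 152) (nat_lit 216603500596) (nat_lit 0) (nat_lit 121319041255) (nat_lit 2) (nat_lit 5) (nat_lit 4) (nat_lit 4) (nat_lit 2) (nat_lit 4) (nat_lit 425) (nat_lit 295) (nat_lit 180))))) (XT.nd (nat_lit 234) (nat_lit 0) (nat_lit 0) (XT.nd (nat_lit 78) (nat_lit 0) (nat_lit 0) (XT.lf (nat_lit 0) (nat_lit 151258739392) (nat_lit 152) (nat_lit 212648993701) (nat_lit 0) (nat_lit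 134991435244) (nat_lit 2) (nat_lit 5) (nat_lit 4) (nat_lit 4) (nat_lit 2) (nat_lit 4) (nat_lit 426) (nat_lit 295) (nat_lit 179)) (XT.nd (nat_lit 78) (nat_lit 0) (nat_lit 0) (XT.lf (nat_lit 0) (nat_lit 165615168288) (nat_lit 152) (nat_lit 208501753723) (nat_lit 0) (nat_lit 149345156112) (nat_lit 2) (nat_lit 5) (nat_lit 4) (nat_lit 4) (nat_lit 2) (nat_lit 4) (nat_lit 427) (nat_lit 295) (nat_lit 178)) (XT.lf (nat_lit 0) (nat_lit 180686970636) (nat_lit 152) (nat_lit 204151906280) (nat_lit 0) (nat_lit 164414379385) (nat_lit 2) (nat_lit 5) (nat_lit 4) (nat_lit 4) (nat_lit 2) (nat_lit 4) (nat_lit 428) (nat_lit 295) (nat_lit 177)))) (XT.nd (nat_lit 78) (nat_lit 0) (nat_lit 0) (XT.lf (nat_lit 0) (nat_lit 196510031678) (nat_lit 152) (nat_lit 199589094594) (nat_lit 0) (nat_lit 180234984166) (nat_lit 2) (nat_lit 5) (nat_lit 4) (nat_lit 4) (nat_lit 2) (nat_lit 4) (nat_lit 429) (nat_lit 295) (nat_lit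 176)) (XT.nd (nat_lit 78) (nat_lit 0) (nat_lit 0) (XT.lf (nat_lit 0) (nat_lit 213122025370) (nat_lit 152) (nat_lit 194802454827) (nat_lit 0) (nat_lit 196844638561) (nat_lit 2) (nat_lit 5) (nat_lit 4) (nat_lit 4) (nat_lit 2) (nat_lit 4) (nat_lit 430) (nat_lit 295) (nat_lit 175)) (XT.lf (nat_lit 0) (nat_lit 230562504078) (nat_lit 152) (nat_lit 189780590217) (nat_lit 0) (nat_lit 214282889367) (nat_lit 2) (nat_lit 5) (nat_lit 4) (nat_lit 4) (nat_lit 2) (nat_lit 4) (nat_lit 431) (nat_lit 295) (nat_lit 174))))))))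
noncomputable def xc89 : XT := (XT.nd (nat_lit 38766) (nat_lit 0) (nat_lit 1748) (XT.nd (nat_lit 37830) (nat_lit 0) (nat_lit 4484) (XT.nd (nat_lit 37362) (nat_lit 0) (nat_lit 7980) (XT.nd (nat_lit 156) (nat_lit 0) (nat_lit 0) (XT.nd (nat_lit 78) (nat_lit 0) (nat_lit 0) (XT.lf (nat_lit 0) (nat_lit 248872992751) (nat_lit 152) (nat_lit 184511543944) (nat_lit 0) (nat_lit 232591256229) (nat_lit 2) (nat_lit 5) (nat_lit 4) (nat_lit 4) (nat_lit 2) (nat_lit 4) (nat_lit 432) (nat_lit 295) (nat_lit 173)) (XT.lf (nat_lit 0) (nat_lit 268097087790) (nat_lit 152) (nat_lit 178982770661) (nat_lit 0) (nat_lit 251813330496) (nat_lit 2) (nat_lit 5) (nat_lit 4) (nat_lit 4) (nat_lit 2) (nat_lit 4) (nat_lit 433) (nat_lit 295) (nat_lit 172))) (XT.nd (nat_lit 37050) (nat_lit 0) (nat_lit 10184) (XT.lf (nat_lit 0) (nat_lit 288280560851) (nat_lit 152) (nat_lit 173181106620) (nat_lit 0) (nat_lit 271994879012) (nat_lit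 2) (nat_lit 5) (nat_lit 4) (nat_lit 4) (nat_lit 2) (nat_lit 4) (nat_lit 434) (nat_lit 295) (nat_lit 171)) (XT.nd (nat_lit 78) (nat_lit 0) (nat_lit 0) (XT.lf (nat_lit 0) (nat_lit 520876207) (nat_lit 380) (nat_lit 2275225702) (nat_lit 0) (nat_lit 520876207) (nat_lit 136) (nat_lit 5) (nat_lit 141) (nat_lit 4) (nat_lit 136) (nat_lit 4) (nat_lit 308) (nat_lit 296) (nat_lit 296)) (XT.lf (nat_lit 0) (nat_lit 4148207240) (nat_lit 380) (nat_lit 555695276) (nat_lit 0) (nat_lit 1982562736) (nat_lit 136) (nat_lit 5) (nat_lit 141) (nat_lit 4) (nat_lit 136) (nat_lit 4) (nat_lit 309) (nat_lit 296) (nat_lit 295))))) (XT.nd (nat_lit 234) (nat_lit 1292) (nat_lit 0) (XT.nd (nat_lit 78) (nat_lit 456) (nat_lit 0) (XT.lf (nat_lit 0) (nat_lit 533537294) (nat_lit 456) (nat_lit 3134411624) (nat_lit 76) (nat_lit 3079184900) (nat_lit 130) (nat_lit 5) (nat_lit 136) (nat_lit 5) (nat_lit 131) (nat_lit 4) (nat_lit 310)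 (nat_lit 296) (nat_lit 294)) (XT.nd (nat_lit 78) (nat_lit 0) (nat_lit 0) (XT.lf (nat_lit 0) (nat_lit 1053820393) (nat_lit 456) (nat_lit 2480953692) (nat_lit 532) (nat_lit 3281288355) (nat_lit 124) (nat_lit 5) (nat_lit 130) (nat_lit 5) (nat_lit 131) (nat_lit 4) (nat_lit 311) (nat_lit 296) (nat_lit 293)) (XT.lf (nat_lit 0) (nat_lit 5425856299) (nat_lit 456) (nat_lit 1154186593) (nat_lit 532) (nat_lit 314043577) (nat_lit 124) (nat_lit 5) (nat_lit 130) (nat_lit 5) (nat_lit 131) (nat_lit 4) (nat_lit 312) (nat_lit 296) (nat_lit 292)))) (XT.nd (nat_lit 78) (nat_lit 684) (nat_lit 0) (XT.lf (nat_lit 0) (nat_lit 2609268356) (nat_lit 608) (nat_lit 4027107225) (nat_lit 76) (nat_lit 342895662) (nat_lit 116) (nat_lit 5) (nat_lit 124) (nat_lit 5) (nat_lit 117) (nat_lit 4) (nat_lit 313) (nat_lit 296) (nat_lit 291)) (XT.nd (nat_lit 78) (nat_lit 76) (nat_lit 0) (XT.lf (nat_lit 0) (nat_lit 426946080) (nat_lit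 608) (nat_lit 5143342070) (nat_lit 684) (nat_lit 1503365054) (nat_lit 108) (nat_lit 5) (nat_lit 116) (nat_lit 5) (nat_lit 117) (nat_lit 4) (nat_lit 314) (nat_lit 296) (nat_lit 290)) (XT.lf (nat_lit 0) (nat_lit 1381248864) (nat_lit 684) (nat_lit 2092659485) (nat_lit 76) (nat_lit 3701798812) (nat_lit 107) (nat_lit 5) (nat_lit 116) (nat_lit 5) (nat_lit 108) (nat_lit 5) (nat_lit 315) (nat_lit 296) (nat_lit 289)))))) (XT.nd (nat_lit 468) (nat_lit 1292) (nat_lit 0) (XT.nd (nat_lit 234) (nat_lit 760) (nat_lit 0) (XT.nd (nat_lit 78) (nat_lit 760) (nat_lit 0) (XT.lf (nat_lit 0) (nat_lit 2612648147) (nat_lit 684) (nat_lit 1648233066) (nat_lit 760) (nat_lit 3025944102) (nat_lit 98) (nat_lit 5) (nat_lit 107) (nat_lit 5) (nat_lit 108) (nat_lit 5) (nat_lit 316) (nat_lit 296) (nat_lit 288)) (XT.nd (nat_lit 78) (nat_lit 76) (nat_lit 0) (XT.lf (nat_lit 0) (nat_lit 81732482) (nat_lit 684) (nat_lit 7109363476)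 (nat_lit 760) (nat_lit 217320332) (nat_lit 89) (nat_lit 5) (nat_lit 98) (nat_lit 5) (nat_lit 99) (nat_lit 4) (nat_lit 317) (nat_lit 296) (nat_lit 287)) (XT.lf (nat_lit 0) (nat_lit 2618787352) (nat_lit 760) (nat_lit 2507994573) (nat_lit 76) (nat_lit 2408672113) (nat_lit 88) (nat_lit 5) (nat_lit 98) (nat_lit 5) (nat_lit 89) (nat_lit 5) (nat_lit 318) (nat_lit 296) (nat_lit 286)))) (XT.nd (nat_lit 78) (nat_lit 380) (nat_lit 0) (XT.lf (nat_lit 0) (nat_lit 2492004997) (nat_lit 380) (nat_lit 3009640104) (nat_lit 456) (nat_lit 2171621362) (nat_lit 83) (nat_lit 5) (nat_lit 88) (nat_lit 5) (nat_lit 89) (nat_lit 5) (nat_lit 319) (nat_lit 296) (nat_lit 285)) (XT.nd (nat_lit 78) (nat_lit 304) (nat_lit 0) (XT.lf (nat_lit 0) (nat_lit 606178103) (nat_lit 456) (nat_lit 136515844) (nat_lit 76) (nat_lit 7079001876) (nat_lit 82) (nat_lit 5) (nat_lit 88) (nat_lit 5) (nat_lit 83) (nat_lit 5) (nat_lit 320) (nat_lit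 296) (nat_lit 284)) (XT.lf (nat_lit 0) (nat_lit 3438730770) (nat_lit 380) (nat_lit 2846561806) (nat_lit 76) (nat_lit 1691216137) (nat_lit 78) (nat_lit 5) (nat_lit 83) (nat_lit 5) (nat_lit 79) (nat_lit 5) (nat_lit 321) (nat_lit 296) (nat_lit 283))))) (XT.nd (nat_lit 234) (nat_lit 608) (nat_lit 0) (XT.nd (nat_lit 78) (nat_lit 380) (nat_lit 0) (XT.lf (nat_lit 0) (nat_lit 2456960165) (nat_lit 304) (nat_lit 3893291929) (nat_lit 380) (nat_lit 1792118606) (nat_lit 74) (nat_lit 5) (nat_lit 78) (nat_lit 5) (nat_lit 79) (nat_lit 5) (nat_lit 322) (nat_lit 296) (nat_lit 282)) (XT.nd (nat_lit 78) (nat_lit 304) (nat_lit 0) (XT.lf (nat_lit 0) (nat_lit 990793300) (nat_lit 380) (nat_lit 344197522) (nat_lit 76) (nat_lit 6984098471) (nat_lit 73) (nat_lit 5) (nat_lit 78) (nat_lit 5) (nat_lit 74) (nat_lit 5) (nat_lit 323) (nat_lit 296) (nat_lit 281)) (XT.lf (nat_lit 0) (nat_lit 3848863782) (nat_lit 380) (nat_lit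 3253995263) (nat_lit 76) (nat_lit 1400655433) (nat_lit 69) (nat_lit 5) (nat_lit 74) (nat_lit 5) (nat_lit 70) (nat_lit 5) (nat_lit 324) (nat_lit 296) (nat_lit 280)))) (XT.nd (nat_lit 78) (nat_lit 304) (nat_lit 0) (XT.lf (nat_lit 0) (nat_lit 2358302156) (nat_lit 304) (nat_lit 4450305308) (nat_lit 380) (nat_lit 1890759360) (nat_lit 65) (nat_lit 5) (nat_lit 69) (nat_lit 5) (nat_lit 70) (nat_lit 5) (nat_lit 325) (nat_lit 296) (nat_lit 279)) (XT.nd (nat_lit 78) (nat_lit 228) (nat_lit 0) (XT.lf (nat_lit 0) (nat_lit 930284781) (nat_lit 380) (nat_lit 689407218) (nat_lit 76) (nat_lit 7287094920) (nat_lit 64) (nat_lit 5) (nat_lit 69) (nat_lit 5) (nat_lit 65) (nat_lit 5) (nat_lit 326) (nat_lit 296) (nat_lit 278)) (XT.lf (nat_lit 0) (nat_lit 3833688596) (nat_lit 304) (nat_lit 3892801402) (nat_lit 76) (nat_lit 1396420474) (nat_lit 61) (nat_lit 5) (nat_lit 65) (nat_lit 5) (nat_lit 62) (nat_lit 5) (nat_lit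 327) (nat_lit 296) (nat_lit 277))))))) (XT.nd (nat_lit 858) (nat_lit 1064) (nat_lit 0) (XT.nd (nat_lit 390) (nat_lit 836) (nat_lit 0) (XT.nd (nat_lit 156) (nat_lit 456) (nat_lit 0) (XT.nd (nat_lit 78) (nat_lit 76) (nat_lit 0) (XT.lf (nat_lit 0) (nat_lit 2027764760) (nat_lit 304) (nat_lit 4827197957) (nat_lit 380) (nat_lit 2496361269) (nat_lit 57) (nat_lit 5) (nat_lit 61) (nat_lit 5) (nat_lit 62) (nat_lit 5) (nat_lit 328) (nat_lit 296) (nat_lit 276)) (XT.lf (nat_lit 0) (nat_lit 392779218) (nat_lit 380) (nat_lit 1348103480) (nat_lit 76) (nat_lit 7851512945) (nat_lit 56) (nat_lit 5) (nat_lit 61) (nat_lit 5) (nat_lit 57) (nat_lit 5) (nat_lit 329) (nat_lit 296) (nat_lit 275))) (XT.nd (nat_lit 78) (nat_lit 228) (nat_lit 0) (XT.lf (nat_lit 0) (nat_lit 3352248138) (nat_lit 304) (nat_lit 4952152735) (nat_lit 76) (nat_lit 1538688149) (nat_lit 53) (nat_lit 5) (nat_lit 57) (nat_lit 5) (nat_lit 54)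 (nat_lit 5) (nat_lit 330) (nat_lit 296) (nat_lit 274)) (XT.nd (nat_lit 78) (nat_lit 0) (nat_lit 0) (XT.lf (nat_lit 0) (nat_lit 1267625867) (nat_lit 228) (nat_lit 5173689563) (nat_lit 304) (nat_lit 3666018120) (nat_lit 50) (nat_lit 5) (nat_lit 53) (nat_lit 5) (nat_lit 54) (nat_lit 5) (nat_lit 331) (nat_lit 296) (nat_lit 273)) (XT.lf (nat_lit 0) (nat_lit 7844790475) (nat_lit 228) (nat_lit 1836323891) (nat_lit 304) (nat_lit 703955098) (nat_lit 50) (nat_lit 5) (nat_lit 53) (nat_lit 5) (nat_lit 54) (nat_lit 5) (nat_lit 332) (nat_lit 296) (nat_lit 272))))) (XT.nd (nat_lit 234) (nat_lit 380) (nat_lit 0) (XT.nd (nat_lit 78) (nat_lit 228) (nat_lit 0) (XT.lf (nat_lit 0) (nat_lit 2334561799) (nat_lit 228) (nat_lit 6659562066) (nat_lit 76) (nat_lit 1680506119) (nat_lit 47) (nat_lit 5) (nat_lit 50) (nat_lit 5) (nat_lit 48) (nat_lit 5) (nat_lit 333) (nat_lit 296) (nat_lit 271)) (XT.nd (nat_lit 78) (nat_lit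 228) (nat_lit 0) (XT.lf (nat_lit 0) (nat_lit 5491876707) (nat_lit 228) (nat_lit 156586759) (nat_lit 76) (nat_lit 5330181966) (nat_lit 47) (nat_lit 5) (nat_lit 50) (nat_lit 5) (nat_lit 48) (nat_lit 5) (nat_lit 334) (nat_lit 296) (nat_lit 270)) (XT.lf (nat_lit 0) (nat_lit 6770034981) (nat_lit 228) (nat_lit 2063388160) (nat_lit 304) (nat_lit 2463196795) (nat_lit 44) (nat_lit 5) (nat_lit 47) (nat_lit 5) (nat_lit 48) (nat_lit 5) (nat_lit 335) (nat_lit 296) (nat_lit 269)))) (XT.nd (nat_lit 78) (nat_lit 152) (nat_lit 0) (XT.lf (nat_lit 0) (nat_lit 676426848) (nat_lit 228) (nat_lit 9295112652) (nat_lit 76) (nat_lit 1659085287) (nat_lit 41) (nat_lit 5) (nat_lit 44) (nat_lit 5) (nat_lit 42) (nat_lit 5) (nat_lit 336) (nat_lit 296) (nat_lit 268)) (XT.nd (nat_lit 78) (nat_lit 152) (nat_lit 0) (XT.lf (nat_lit 0) (nat_lit 3924577267) (nat_lit 228) (nat_lit 2475403212) (nat_lit 76) (nat_lit 5577680275)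 (nat_lit 41) (nat_lit 5) (nat_lit 44) (nat_lit 5) (nat_lit 42) (nat_lit 5) (nat_lit 337) (nat_lit 296) (nat_lit 267)) (XT.lf (nat_lit 0) (nat_lit 4721838901) (nat_lit 152) (nat_lit 2613286487) (nat_lit 228) (nat_lit 5006986618) (nat_lit 39) (nat_lit 5) (nat_lit 41) (nat_lit 5) (nat_lit 42) (nat_lit 5) (nat_lit 338) (nat_lit 296) (nat_lit 266)))))) (XT.nd (nat_lit 468) (nat_lit 456) (nat_lit 0) (XT.nd (nat_lit 234) (nat_lit 228) (nat_lit 0) (XT.nd (nat_lit 78) (nat_lit 380) (nat_lit 0) (XT.lf (nat_lit 0) (nat_lit 10907470233) (nat_lit 228) (nat_lit 495525432) (nat_lit 76) (nat_lit 1322286684) (nat_lit 39) (nat_lit 5) (nat_lit 42) (nat_lit 5) (nat_lit 40) (nat_lit 4) (nat_lit 339) (nat_lit 296) (nat_lit 265)) (XT.nd (nat_lit 78) (nat_lit 152) (nat_lit 0) (XT.lf (nat_lit 0) (nat_lit 1567027053) (nat_lit 228) (nat_lit 6090464435) (nat_lit 76) (nat_lit 5464719031) (nat_lit 36) (nat_lit 5) (nat_lit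 39) (nat_lit 5) (nat_lit 37) (nat_lit 5) (nat_lit 340) (nat_lit 296) (nat_lit 264)) (XT.lf (nat_lit 0) (nat_lit 1315392759) (nat_lit 152) (nat_lit 3704972745) (nat_lit 228) (nat_lit 8519164023) (nat_lit 34) (nat_lit 5) (nat_lit 36) (nat_lit 5) (nat_lit 37) (nat_lit 5) (nat_lit 341) (nat_lit 296) (nat_lit 263)))) (XT.nd (nat_lit 78) (nat_lit 228) (nat_lit 0) (XT.lf (nat_lit 0) (nat_lit 8690355375) (nat_lit 228) (nat_lit 4789964373) (nat_lit 76) (nat_lit 495244872) (nat_lit 34) (nat_lit 5) (nat_lit 37) (nat_lit 5) (nat_lit 35) (nat_lit 4) (nat_lit 342) (nat_lit 296) (nat_lit 262)) (XT.nd (nat_lit 78) (nat_lit 76) (nat_lit 0) (XT.lf (nat_lit 0) (nat_lit 2942937634) (nat_lit 152) (nat_lit 9643018772) (nat_lit 228) (nat_lit 1845386486) (nat_lit 32) (nat_lit 5) (nat_lit 34) (nat_lit 5) (nat_lit 35) (nat_lit 4) (nat_lit 343) (nat_lit 296) (nat_lit 261)) (XT.lf (nat_lit 0) (nat_lit 1728129485)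 (nat_lit 228) (nat_lit 3812864504) (nat_lit 76) (nat_lit 9366667843) (nat_lit 31) (nat_lit 5) (nat_lit 34) (nat_lit 5) (nat_lit 32) (nat_lit 5) (nat_lit 344) (nat_lit 296) (nat_lit 260))))) (XT.nd (nat_lit 234) (nat_lit 228) (nat_lit 0) (XT.nd (nat_lit 78) (nat_lit 76) (nat_lit 0) (XT.lf (nat_lit 0) (nat_lit 4250448410) (nat_lit 152) (nat_lit 1173063432) (nat_lit 228) (nat_lit 9982552489) (nat_lit 29) (nat_lit 5) (nat_lit 31) (nat_lit 5) (nat_lit 32) (nat_lit 5) (nat_lit 345) (nat_lit 296) (nat_lit 259)) (XT.nd (nat_lit 78) (nat_lit 76) (nat_lit 0) (XT.lf (nat_lit 0) (nat_lit 9362149981) (nat_lit 228) (nat_lit 3233757205) (nat_lit 76) (nat_lit 3330594110) (nat_lit 29) (nat_lit 5) (nat_lit 32) (nat_lit 5) (nat_lit 30) (nat_lit 4) (nat_lit 346) (nat_lit 296) (nat_lit 258)) (XT.lf (nat_lit 0) (nat_lit 5131537802) (nat_lit 76) (nat_lit 8407973102) (nat_lit 152) (nat_lit 2931396493) (nat_lit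 28) (nat_lit 5) (nat_lit 29) (nat_lit 5) (nat_lit 30) (nat_lit 4) (nat_lit 347) (nat_lit 296) (nat_lit 257)))) (XT.nd (nat_lit 78) (nat_lit 152) (nat_lit 0) (XT.lf (nat_lit 0) (nat_lit 853327017) (nat_lit 152) (nat_lit 3125135563) (nat_lit 76) (nat_lit 13063495713) (nat_lit 27) (nat_lit 5) (nat_lit 29) (nat_lit 5) (nat_lit 28) (nat_lit 5) (nat_lit 348) (nat_lit 296) (nat_lit 256)) (XT.nd (nat_lit 78) (nat_lit 0) (nat_lit 0) (XT.lf (nat_lit 0) (nat_lit 4772750502) (nat_lit 228) (nat_lit 12114119690) (nat_lit 76) (nat_lit 750121676) (nat_lit 25) (nat_lit 5) (nat_lit 28) (nat_lit 5) (nat_lit 26) (nat_lit 4) (nat_lit 349) (nat_lit 296) (nat_lit 255)) (XT.lf (nat_lit 0) (nat_lit 8953175506) (nat_lit 228) (nat_lit 3707386125) (nat_lit 76) (nat_lit 5597994276) (nat_lit 25) (nat_lit 5) (nat_lit 28) (nat_lit 5) (nat_lit 26) (nat_lit 4) (nat_lit 350) (nat_lit 296) (nat_lit 254))))))))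
noncomputable def xc90 : XT := (XT.nd (nat_lit 1794) (nat_lit 456) (nat_lit 0) (XT.nd (nat_lit 858) (nat_lit 456) (nat_lit 0) (XT.nd (nat_lit 390) (nat_lit 228) (nat_lit 0) (XT.nd (nat_lit 156) (nat_lit 304) (nat_lit 0) (XT.nd (nat_lit 78) (nat_lit 0) (nat_lit 0) (XT.lf (nat_lit 0) (nat_lit 5196534324) (nat_lit 76) (nat_lit 8175806880) (nat_lit 152) (nat_lit 5537399832) (nat_lit 24) (nat_lit 5) (nat_lit 25) (nat_lit 5) (nat_lit 26) (nat_lit 4) (nat_lit 351) (nat_lit 296) (nat_lit 253)) (XT.lf (nat_lit 0) (nat_lit 14586334614) (nat_lit 76) (nat_lit 3438577803) (nat_lit 152) (nat_lit 1567978127) (nat_lit 24) (nat_lit 5) (nat_lit 25) (nat_lit 5) (nat_lit 26) (nat_lit 4) (nat_lit 352) (nat_lit 296) (nat_lit 252))) (XT.nd (nat_lit 78) (nat_lit 76) (nat_lit 0) (XT.lf (nat_lit 0) (nat_lit 2557740880) (nat_lit 228) (nat_lit 16190593400) (nat_lit 76) (nat_lit 1557806592) (nat_lit 21) (nat_lit 5)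 (nat_lit 24) (nat_lit 5) (nat_lit 22) (nat_lit 4) (nat_lit 353) (nat_lit 296) (nat_lit 251)) (XT.nd (nat_lit 78) (nat_lit 76) (nat_lit 0) (XT.lf (nat_lit 0) (nat_lit 6931287826) (nat_lit 228) (nat_lit 7352644812) (nat_lit 76) (nat_lit 6765147777) (nat_lit 21) (nat_lit 5) (nat_lit 24) (nat_lit 5) (nat_lit 22) (nat_lit 4) (nat_lit 354) (nat_lit 296) (nat_lit 250)) (XT.lf (nat_lit 0) (nat_lit 1906371062) (nat_lit 76) (nat_lit 9600893219) (nat_lit 152) (nat_lit 10322737658) (nat_lit 20) (nat_lit 5) (nat_lit 21) (nat_lit 5) (nat_lit 22) (nat_lit 4) (nat_lit 355) (nat_lit 296) (nat_lit 249))))) (XT.nd (nat_lit 234) (nat_lit 76) (nat_lit 0) (XT.nd (nat_lit 78) (nat_lit 152) (nat_lit 0) (XT.lf (nat_lit 0) (nat_lit 11803079128) (nat_lit 76) (nat_lit 4588403191) (nat_lit 152) (nat_lit 6254536616) (nat_lit 20) (nat_lit 5) (nat_lit 21) (nat_lit 5) (nat_lit 22) (nat_lit 4) (nat_lit 356) (nat_lit 296)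 (nat_lit 248)) (XT.nd (nat_lit 78) (nat_lit 152) (nat_lit 0) (XT.lf (nat_lit 0) (nat_lit 21486987034) (nat_lit 152) (nat_lit 1397079567) (nat_lit 0) (nat_lit 620436901) (nat_lit 20) (nat_lit 5) (nat_lit 22) (nat_lit 4) (nat_lit 20) (nat_lit 4) (nat_lit 357) (nat_lit 296) (nat_lit 247)) (XT.lf (nat_lit 0) (nat_lit 2525136307) (nat_lit 152) (nat_lit 15790173093) (nat_lit 76) (nat_lit 6080143480) (nat_lit 18) (nat_lit 5) (nat_lit 20) (nat_lit 5) (nat_lit 19) (nat_lit 4) (nat_lit 358) (nat_lit 296) (nat_lit 246)))) (XT.nd (nat_lit 78) (nat_lit 76) (nat_lit 0) (XT.lf (nat_lit 0) (nat_lit 7209921079) (nat_lit 152) (nat_lit 6281747542) (nat_lit 76) (nat_lit 11838505064) (nat_lit 18) (nat_lit 5) (nat_lit 20) (nat_lit 5) (nat_lit 19) (nat_lit 4) (nat_lit 359) (nat_lit 296) (nat_lit 245)) (XT.nd (nat_lit 78) (nat_lit 0) (nat_lit 0) (XT.lf (nat_lit 0) (nat_lit 3750934056) (nat_lit 76) (nat_lit 8397290813)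 (nat_lit 152) (nat_lit 14162458545) (nat_lit 17) (nat_lit 5) (nat_lit 18) (nat_lit 5) (nat_lit 19) (nat_lit 4) (nat_lit 360) (nat_lit 296) (nat_lit 244)) (XT.lf (nat_lit 0) (nat_lit 14433267968) (nat_lit 76) (nat_lit 2968054128) (nat_lit 152) (nat_lit 9935518692) (nat_lit 17) (nat_lit 5) (nat_lit 18) (nat_lit 5) (nat_lit 19) (nat_lit 4) (nat_lit 361) (nat_lit 296) (nat_lit 243)))))) (XT.nd (nat_lit 468) (nat_lit 228) (nat_lit 0) (XT.nd (nat_lit 234) (nat_lit 76) (nat_lit 0) (XT.nd (nat_lit 78) (nat_lit 152) (nat_lit 0) (XT.lf (nat_lit 0) (nat_lit 22922596529) (nat_lit 152) (nat_lit 2875364492) (nat_lit 0) (nat_lit 2616084196) (nat_lit 17) (nat_lit 5) (nat_lit 19) (nat_lit 4) (nat_lit 17) (nat_lit 4) (nat_lit 362) (nat_lit 296) (nat_lit 242)) (XT.nd (nat_lit 78) (nat_lit 76) (nat_lit 0) (XT.lf (nat_lit 0) (nat_lit 7790058826) (nat_lit 76) (nat_lit 21064783902) (nat_lit 76) (nat_lit 683536312)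 (nat_lit 16) (nat_lit 4) (nat_lit 17) (nat_lit 5) (nat_lit 17) (nat_lit 4) (nat_lit 363) (nat_lit 296) (nat_lit 241)) (XT.lf (nat_lit 0) (nat_lit 4239298413) (nat_lit 152) (nat_lit 11761862277) (nat_lit 76) (nat_lit 14713663435) (nat_lit 15) (nat_lit 5) (nat_lit 17) (nat_lit 5) (nat_lit 16) (nat_lit 4) (nat_lit 364) (nat_lit 296) (nat_lit 240)))) (XT.nd (nat_lit 78) (nat_lit 76) (nat_lit 0) (XT.lf (nat_lit 0) (nat_lit 9351715673) (nat_lit 152) (nat_lit 1349193975) (nat_lit 76) (nat_lit 21250313527) (nat_lit 15) (nat_lit 5) (nat_lit 17) (nat_lit 5) (nat_lit 16) (nat_lit 4) (nat_lit 365) (nat_lit 296) (nat_lit 239)) (XT.nd (nat_lit 78) (nat_lit 0) (nat_lit 0) (XT.lf (nat_lit 0) (nat_lit 9840093107) (nat_lit 76) (nat_lit 5001303643) (nat_lit 152) (nat_lit 18401975272) (nat_lit 14) (nat_lit 5) (nat_lit 15) (nat_lit 5) (nat_lit 16) (nat_lit 4) (nat_lit 366) (nat_lit 296) (nat_lit 238)) (XT.lf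 (nat_lit 0) (nat_lit 20612350743) (nat_lit 152) (nat_lit 13038198909) (nat_lit 0) (nat_lit 949250636) (nat_lit 14) (nat_lit 5) (nat_lit 16) (nat_lit 4) (nat_lit 14) (nat_lit 4) (nat_lit 367) (nat_lit 296) (nat_lit 237))))) (XT.nd (nat_lit 234) (nat_lit 76) (nat_lit 0) (XT.nd (nat_lit 78) (nat_lit 152) (nat_lit 0) (XT.lf (nat_lit 0) (nat_lit 26723567909) (nat_lit 152) (nat_lit 2293207959) (nat_lit 0) (nat_lit 7004699203) (nat_lit 14) (nat_lit 5) (nat_lit 16) (nat_lit 4) (nat_lit 14) (nat_lit 4) (nat_lit 368) (nat_lit 296) (nat_lit 236)) (XT.nd (nat_lit 78) (nat_lit 76) (nat_lit 0) (XT.lf (nat_lit 0) (nat_lit 9230805019) (nat_lit 76) (nat_lit 24024828115) (nat_lit 76) (nat_lit 4252846457) (nat_lit 13) (nat_lit 4) (nat_lit 14) (nat_lit 5) (nat_lit 14) (nat_lit 4) (nat_lit 369) (nat_lit 296) (nat_lit 235)) (XT.lf (nat_lit 0) (nat_lit 1021754810) (nat_lit 152) (nat_lit 17727968059) (nat_lit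 76) (nat_lit 20318769660) (nat_lit 12) (nat_lit 5) (nat_lit 14) (nat_lit 5) (nat_lit 13) (nat_lit 4) (nat_lit 370) (nat_lit 296) (nat_lit 234)))) (XT.nd (nat_lit 78) (nat_lit 76) (nat_lit 0) (XT.lf (nat_lit 0) (nat_lit 6389775710) (nat_lit 152) (nat_lit 6771700228) (nat_lit 76) (nat_lit 27542922531) (nat_lit 12) (nat_lit 5) (nat_lit 14) (nat_lit 5) (nat_lit 13) (nat_lit 4) (nat_lit 371) (nat_lit 296) (nat_lit 233)) (XT.nd (nat_lit 78) (nat_lit 0) (nat_lit 0) (XT.lf (nat_lit 0) (nat_lit 4838475560) (nat_lit 76) (nat_lit 7237181492) (nat_lit 152) (nat_lit 30343978205) (nat_lit 11) (nat_lit 5) (nat_lit 12) (nat_lit 5) (nat_lit 13) (nat_lit 4) (nat_lit 372) (nat_lit 296) (nat_lit 232)) (XT.lf (nat_lit 0) (nat_lit 17216277972) (nat_lit 76) (nat_lit 918646675) (nat_lit 152) (nat_lit 26081262745) (nat_lit 11) (nat_lit 5) (nat_lit 12) (nat_lit 5) (nat_lit 13) (nat_lit 4) (nat_lit 373) (nat_lit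 296) (nat_lit 231))))))) (XT.nd (nat_lit 858) (nat_lit 228) (nat_lit 0) (XT.nd (nat_lit 390) (nat_lit 152) (nat_lit 0) (XT.nd (nat_lit 156) (nat_lit 76) (nat_lit 0) (XT.nd (nat_lit 78) (nat_lit 0) (nat_lit 0) (XT.lf (nat_lit 0) (nat_lit 24561691307) (nat_lit 152) (nat_lit 16025425411) (nat_lit 0) (nat_lit 5512231361) (nat_lit 11) (nat_lit 5) (nat_lit 13) (nat_lit 4) (nat_lit 11) (nat_lit 4) (nat_lit 374) (nat_lit 296) (nat_lit 230)) (XT.lf (nat_lit 0) (nat_lit 31301328269) (nat_lit 152) (nat_lit 4561647356) (nat_lit 0) (nat_lit 12214121939) (nat_lit 11) (nat_lit 5) (nat_lit 13) (nat_lit 4) (nat_lit 11) (nat_lit 4) (nat_lit 375) (nat_lit 296) (nat_lit 229))) (XT.nd (nat_lit 78) (nat_lit 0) (nat_lit 0) (XT.lf (nat_lit 0) (nat_lit 7678832704) (nat_lit 76) (nat_lit 30796595032) (nat_lit 76) (nat_lit 11673439766) (nat_lit 10) (nat_lit 4) (nat_lit 11) (nat_lit 5) (nat_lit 11) (nat_lit 4) (nat_lit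 376) (nat_lit 296) (nat_lit 228)) (XT.nd (nat_lit 78) (nat_lit 0) (nat_lit 0) (XT.lf (nat_lit 0) (nat_lit 20648130937) (nat_lit 76) (nat_lit 25415365408) (nat_lit 76) (nat_lit 6257973060) (nat_lit 10) (nat_lit 4) (nat_lit 11) (nat_lit 5) (nat_lit 11) (nat_lit 4) (nat_lit 377) (nat_lit 296) (nat_lit 227)) (XT.lf (nat_lit 0) (nat_lit 34226297961) (nat_lit 76) (nat_lit 19783728008) (nat_lit 76) (nat_lit 593728915) (nat_lit 10) (nat_lit 4) (nat_lit 11) (nat_lit 5) (nat_lit 11) (nat_lit 4) (nat_lit 378) (nat_lit 296) (nat_lit 226))))) (XT.nd (nat_lit 234) (nat_lit 0) (nat_lit 0) (XT.nd (nat_lit 78) (nat_lit 76) (nat_lit 0) (XT.lf (nat_lit 0) (nat_lit 5162096734) (nat_lit 152) (nat_lit 8638754829) (nat_lit 76) (nat_lit 43196143406) (nat_lit 9) (nat_lit 5) (nat_lit 11) (nat_lit 5) (nat_lit 10) (nat_lit 4) (nat_lit 379) (nat_lit 296) (nat_lit 225)) (XT.nd (nat_lit 78) (nat_lit 0) (nat_lit 0) (XT.lf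 (nat_lit 0) (nat_lit 3760964565) (nat_lit 76) (nat_lit 7464202742) (nat_lit 152) (nat_lit 48282278242) (nat_lit 8) (nat_lit 5) (nat_lit 9) (nat_lit 5) (nat_lit 10) (nat_lit 4) (nat_lit 380) (nat_lit 296) (nat_lit 224)) (XT.lf (nat_lit 0) (nat_lit 17044618754) (nat_lit 76) (nat_lit 674119831) (nat_lit 152) (nat_lit 44418317944) (nat_lit 8) (nat_lit 5) (nat_lit 9) (nat_lit 5) (nat_lit 10) (nat_lit 4) (nat_lit 381) (nat_lit 296) (nat_lit 223)))) (XT.nd (nat_lit 78) (nat_lit 0) (nat_lit 0) (XT.lf (nat_lit 0) (nat_lit 24619471634) (nat_lit 152) (nat_lit 34041391326) (nat_lit 0) (nat_lit 6233165922) (nat_lit 8) (nat_lit 5) (nat_lit 10) (nat_lit 4) (nat_lit 8) (nat_lit 4) (nat_lit 382) (nat_lit 296) (nat_lit 222)) (XT.nd (nat_lit 78) (nat_lit 0) (nat_lit 0) (XT.lf (nat_lit 0) (nat_lit 31858859403) (nat_lit 152) (nat_lit 22482092255) (nat_lit 0) (nat_lit 13448222036) (nat_lit 8) (nat_lit 5) (nat_lit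 10) (nat_lit 4) (nat_lit 8) (nat_lit 4) (nat_lit 383) (nat_lit 296) (nat_lit 221)) (XT.lf (nat_lit 0) (nat_lit 39443613631) (nat_lit 152) (nat_lit 10376493522) (nat_lit 0) (nat_lit 21009803260) (nat_lit 8) (nat_lit 5) (nat_lit 10) (nat_lit 4) (nat_lit 8) (nat_lit 4) (nat_lit 384) (nat_lit 296) (nat_lit 220)))))) (XT.nd (nat_lit 468) (nat_lit 76) (nat_lit 0) (XT.nd (nat_lit 234) (nat_lit 76) (nat_lit 0) (XT.nd (nat_lit 78) (nat_lit 0) (nat_lit 0) (XT.lf (nat_lit 0) (nat_lit 2380415901) (nat_lit 76) (nat_lit 45048542319) (nat_lit 76) (nat_lit 26592662419) (nat_lit 7) (nat_lit 4) (nat_lit 8) (nat_lit 5) (nat_lit 8) (nat_lit 4) (nat_lit 385) (nat_lit 296) (nat_lit 219)) (XT.nd (nat_lit 78) (nat_lit 0) (nat_lit 0) (XT.lf (nat_lit 0) (nat_lit 16105748210) (nat_lit 76) (nat_lit 39868030174) (nat_lit 76) (nat_lit 21391131675) (nat_lit 7) (nat_lit 4) (nat_lit 8) (nat_lit 5) (nat_lit 8) (nat_lit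 4) (nat_lit 386) (nat_lit 296) (nat_lit 218)) (XT.lf (nat_lit 0) (nat_lit 30489089029) (nat_lit 76) (nat_lit 34441967104) (nat_lit 76) (nat_lit 15945050892) (nat_lit 7) (nat_lit 4) (nat_lit 8) (nat_lit 5) (nat_lit 8) (nat_lit 4) (nat_lit 387) (nat_lit 296) (nat_lit 217)))) (XT.nd (nat_lit 78) (nat_lit 76) (nat_lit 0) (XT.lf (nat_lit 0) (nat_lit 45564684407) (nat_lit 76) (nat_lit 28757433912) (nat_lit 76) (nat_lit 10241453212) (nat_lit 7) (nat_lit 4) (nat_lit 8) (nat_lit 5) (nat_lit 8) (nat_lit 4) (nat_lit 388) (nat_lit 296) (nat_lit 216)) (XT.nd (nat_lit 78) (nat_lit 76) (nat_lit 0) (XT.lf (nat_lit 0) (nat_lit 61368428620) (nat_lit 76) (nat_lit 22800895994) (nat_lit 76) (nat_lit 4266758638) (nat_lit 7) (nat_lit 4) (nat_lit 8) (nat_lit 5) (nat_lit 8) (nat_lit 4) (nat_lit 389) (nat_lit 296) (nat_lit 215)) (XT.lf (nat_lit 0) (nat_lit 1929461577) (nat_lit 152) (nat_lit 14596033175) (nat_lit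 76) (nat_lit 75975811686) (nat_lit 6) (nat_lit 5) (nat_lit 8) (nat_lit 5) (nat_lit 7) (nat_lit 4) (nat_lit 390) (nat_lit 296) (nat_lit 214))))) (XT.nd (nat_lit 234) (nat_lit 0) (nat_lit 0) (XT.nd (nat_lit 78) (nat_lit 76) (nat_lit 0) (XT.lf (nat_lit 0) (nat_lit 8279736884) (nat_lit 152) (nat_lit 1594437418) (nat_lit 76) (nat_lit 86892740441) (nat_lit 6) (nat_lit 5) (nat_lit 8) (nat_lit 5) (nat_lit 7) (nat_lit 4) (nat_lit 391) (nat_lit 296) (nat_lit 213)) (XT.nd (nat_lit 78) (nat_lit 0) (nat_lit 0) (XT.lf (nat_lit 0) (nat_lit 12432626573) (nat_lit 76) (nat_lit 2697231478) (nat_lit 152) (nat_lit 86106831719) (nat_lit 5) (nat_lit 5) (nat_lit 6) (nat_lit 5) (nat_lit 7) (nat_lit 4) (nat_lit 392) (nat_lit 296) (nat_lit 212)) (XT.lf (nat_lit 0) (nat_lit 22413746926) (nat_lit 152) (nat_lit 78810775541) (nat_lit 0) (nat_lit 4700870775) (nat_lit 5) (nat_lit 5) (nat_lit 7) (nat_lit 4) (nat_lit 5)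 (nat_lit 4) (nat_lit 393) (nat_lit 296) (nat_lit 211)))) (XT.nd (nat_lit 78) (nat_lit 0) (nat_lit 0) (XT.lf (nat_lit 0) (nat_lit 30094878540) (nat_lit 152) (nat_lit 68383549960) (nat_lit 0) (nat_lit 12368453613) (nat_lit 5) (nat_lit 5) (nat_lit 7) (nat_lit 4) (nat_lit 5) (nat_lit 4) (nat_lit 394) (nat_lit 296) (nat_lit 210)) (XT.nd (nat_lit 78) (nat_lit 0) (nat_lit 0) (XT.lf (nat_lit 0) (nat_lit 38149429962) (nat_lit 152) (nat_lit 57455448385) (nat_lit 0) (nat_lit 20410101439) (nat_lit 5) (nat_lit 5) (nat_lit 7) (nat_lit 4) (nat_lit 5) (nat_lit 4) (nat_lit 395) (nat_lit 296) (nat_lit 209)) (XT.lf (nat_lit 0) (nat_lit 46596578693) (nat_lit 152) (nat_lit 46000451527) (nat_lit 0) (nat_lit 28844961030) (nat_lit 5) (nat_lit 5) (nat_lit 7) (nat_lit 4) (nat_lit 5) (nat_lit 4) (nat_lit 396) (nat_lit 296) (nat_lit 208))))))))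
noncomputable def xc91 : XT := (XT.nd (nat_lit 1794) (nat_lit 0) (nat_lit 0) (XT.nd (nat_lit 858) (nat_lit 152) (nat_lit 0) (XT.nd (nat_lit 390) (nat_lit 0) (nat_lit 0) (XT.nd (nat_lit 156) (nat_lit 76) (nat_lit 0) (XT.nd (nat_lit 78) (nat_lit 0) (nat_lit 0) (XT.lf (nat_lit 0) (nat_lit 55456436993) (nat_lit 152) (nat_lit 33991285583) (nat_lit 0) (nat_lit 37693115388) (nat_lit 5) (nat_lit 5) (nat_lit 7) (nat_lit 4) (nat_lit 5) (nat_lit 4) (nat_lit 397) (nat_lit 296) (nat_lit 207)) (XT.lf (nat_lit 0) (nat_lit 64750099762) (nat_lit 152) (nat_lit 21399357302) (nat_lit 0) (nat_lit 46975631546) (nat_lit 5) (nat_lit 5) (nat_lit 7) (nat_lit 4) (nat_lit 5) (nat_lit 4) (nat_lit 398) (nat_lit 296) (nat_lit 206))) (XT.nd (nat_lit 78) (nat_lit 76) (nat_lit 0) (XT.lf (nat_lit 0) (nat_lit 74499694770) (nat_lit 152) (nat_lit 8194685901) (nat_lit 0) (nat_lit 56714610733) (nat_lit 5) (nat_lit 5) (nat_lit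 7) (nat_lit 4) (nat_lit 5) (nat_lit 4) (nat_lit 399) (nat_lit 296) (nat_lit 205)) (XT.nd (nat_lit 78) (nat_lit 0) (nat_lit 0) (XT.lf (nat_lit 0) (nat_lit 5841120651) (nat_lit 76) (nat_lit 78978510948) (nat_lit 76) (nat_lit 61183316606) (nat_lit 4) (nat_lit 4) (nat_lit 5) (nat_lit 5) (nat_lit 5) (nat_lit 4) (nat_lit 400) (nat_lit 296) (nat_lit 204)) (XT.lf (nat_lit 0) (nat_lit 20847426648) (nat_lit 76) (nat_lit 74938735713) (nat_lit 76) (nat_lit 57133912509) (nat_lit 4) (nat_lit 4) (nat_lit 5) (nat_lit 5) (nat_lit 5) (nat_lit 4) (nat_lit 401) (nat_lit 296) (nat_lit 203))))) (XT.nd (nat_lit 234) (nat_lit 0) (nat_lit 0) (XT.nd (nat_lit 78) (nat_lit 0) (nat_lit 0) (XT.lf (nat_lit 0) (nat_lit 36589008066) (nat_lit 76) (nat_lit 70704217425) (nat_lit 76) (nat_lit 52890223876) (nat_lit 4) (nat_lit 4) (nat_lit 5) (nat_lit 5) (nat_lit 5) (nat_lit 4) (nat_lit 402) (nat_lit 296) (nat_lit 202)) (XT.nd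 (nat_lit 78) (nat_lit 0) (nat_lit 0) (XT.lf (nat_lit 0) (nat_lit 53103344859) (nat_lit 76) (nat_lit 66264873896) (nat_lit 76) (nat_lit 48442146686) (nat_lit 4) (nat_lit 4) (nat_lit 5) (nat_lit 5) (nat_lit 5) (nat_lit 4) (nat_lit 403) (nat_lit 296) (nat_lit 201)) (XT.lf (nat_lit 0) (nat_lit 70429756878) (nat_lit 76) (nat_lit 61610135263) (nat_lit 76) (nat_lit 43779090278) (nat_lit 4) (nat_lit 4) (nat_lit 5) (nat_lit 5) (nat_lit 5) (nat_lit 4) (nat_lit 404) (nat_lit 296) (nat_lit 200)))) (XT.nd (nat_lit 78) (nat_lit 0) (nat_lit 0) (XT.lf (nat_lit 0) (nat_lit 88609497484) (nat_lit 76) (nat_lit 56728918812) (nat_lit 76) (nat_lit 38889952139) (nat_lit 4) (nat_lit 4) (nat_lit 5) (nat_lit 5) (nat_lit 5) (nat_lit 4) (nat_lit 405) (nat_lit 296) (nat_lit 199)) (XT.nd (nat_lit 78) (nat_lit 0) (nat_lit 0) (XT.lf (nat_lit 0) (nat_lit 107685851774) (nat_lit 76) (nat_lit 51609602601) (nat_lit 76) (nat_lit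 33763091463) (nat_lit 4) (nat_lit 4) (nat_lit 5) (nat_lit 5) (nat_lit 5) (nat_lit 4) (nat_lit 406) (nat_lit 296) (nat_lit 198)) (XT.lf (nat_lit 0) (nat_lit 127704239639) (nat_lit 76) (nat_lit 46239997782) (nat_lit 76) (nat_lit 28386301439) (nat_lit 4) (nat_lit 4) (nat_lit 5) (nat_lit 5) (nat_lit 5) (nat_lit 4) (nat_lit 407) (nat_lit 296) (nat_lit 197)))))) (XT.nd (nat_lit 468) (nat_lit 0) (nat_lit 0) (XT.nd (nat_lit 234) (nat_lit 152) (nat_lit 0) (XT.nd (nat_lit 78) (nat_lit 0) (nat_lit 0) (XT.lf (nat_lit 0) (nat_lit 148712323908) (nat_lit 76) (nat_lit 40607319581) (nat_lit 76) (nat_lit 22746780185) (nat_lit 4) (nat_lit 4) (nat_lit 5) (nat_lit 5) (nat_lit 5) (nat_lit 4) (nat_lit 408) (nat_lit 296) (nat_lit 196)) (XT.nd (nat_lit 78) (nat_lit 0) (nat_lit 0) (XT.lf (nat_lit 0) (nat_lit 170760123828) (nat_lit 76) (nat_lit 34698156859) (nat_lit 76) (nat_lit 16831100270) (nat_lit 4) (nat_lit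 4) (nat_lit 5) (nat_lit 5) (nat_lit 5) (nat_lit 4) (nat_lit 409) (nat_lit 296) (nat_lit 195)) (XT.lf (nat_lit 0) (nat_lit 193900134162) (nat_lit 76) (nat_lit 28498440182) (nat_lit 76) (nat_lit 10625176742) (nat_lit 4) (nat_lit 4) (nat_lit 5) (nat_lit 5) (nat_lit 5) (nat_lit 4) (nat_lit 410) (nat_lit 296) (nat_lit 194)))) (XT.nd (nat_lit 78) (nat_lit 152) (nat_lit 0) (XT.lf (nat_lit 0) (nat_lit 218187450172) (nat_lit 76) (nat_lit 21993408319) (nat_lit 76) (nat_lit 4114233593) (nat_lit 4) (nat_lit 4) (nat_lit 5) (nat_lit 5) (nat_lit 5) (nat_lit 4) (nat_lit 411) (nat_lit 296) (nat_lit 193)) (XT.nd (nat_lit 78) (nat_lit 76) (nat_lit 0) (XT.lf (nat_lit 0) (nat_lit 2630263047) (nat_lit 152) (nat_lit 12492765274) (nat_lit 76) (nat_lit 241005090976) (nat_lit 3) (nat_lit 5) (nat_lit 5) (nat_lit 5) (nat_lit 4) (nat_lit 4) (nat_lit 412) (nat_lit 296) (nat_lit 192)) (XT.lf (nat_lit 0) (nat_lit 1783545659)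 (nat_lit 76) (nat_lit 7813386970) (nat_lit 152) (nat_lit 258951333248) (nat_lit 2) (nat_lit 5) (nat_lit 3) (nat_lit 5) (nat_lit 4) (nat_lit 4) (nat_lit 413) (nat_lit 296) (nat_lit 191))))) (XT.nd (nat_lit 234) (nat_lit 0) (nat_lit 0) (XT.nd (nat_lit 78) (nat_lit 0) (nat_lit 0) (XT.lf (nat_lit 0) (nat_lit 17120200355) (nat_lit 152) (nat_lit 264381723576) (nat_lit 0) (nat_lit 77083571) (nat_lit 2) (nat_lit 5) (nat_lit 4) (nat_lit 4) (nat_lit 2) (nat_lit 4) (nat_lit 414) (nat_lit 296) (nat_lit 190)) (XT.nd (nat_lit 78) (nat_lit 0) (nat_lit 0) (XT.lf (nat_lit 0) (nat_lit 25143323533) (nat_lit 152) (nat_lit 262016203873) (nat_lit 0) (nat_lit 8095575101) (nat_lit 2) (nat_lit 5) (nat_lit 4) (nat_lit 4) (nat_lit 2) (nat_lit 4) (nat_lit 415) (nat_lit 296) (nat_lit 189)) (XT.lf (nat_lit 0) (nat_lit 33563415970) (nat_lit 152) (nat_lit 259540540053) (nat_lit 0) (nat_lit 16511256446) (nat_lit 2) (nat_lit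 5) (nat_lit 4) (nat_lit 4) (nat_lit 2) (nat_lit 4) (nat_lit 416) (nat_lit 296) (nat_lit 188)))) (XT.nd (nat_lit 78) (nat_lit 0) (nat_lit 0) (XT.lf (nat_lit 0) (nat_lit 42400525506) (nat_lit 152) (nat_lit 256948837678) (nat_lit 0) (nat_lit 25344164940) (nat_lit 2) (nat_lit 5) (nat_lit 4) (nat_lit 4) (nat_lit 2) (nat_lit 4) (nat_lit 417) (nat_lit 296) (nat_lit 187)) (XT.nd (nat_lit 78) (nat_lit 0) (nat_lit 0) (XT.lf (nat_lit 0) (nat_lit 51675692876) (nat_lit 152) (nat_lit 254234926028) (nat_lit 0) (nat_lit 34615331320) (nat_lit 2) (nat_lit 5) (nat_lit 4) (nat_lit 4) (nat_lit 2) (nat_lit 4) (nat_lit 418) (nat_lit 296) (nat_lit 186)) (XT.lf (nat_lit 0) (nat_lit 61411001813) (nat_lit 152) (nat_lit 251392343409) (nat_lit 0) (nat_lit 44346829789) (nat_lit 2) (nat_lit 5) (nat_lit 4) (nat_lit 4) (nat_lit 2) (nat_lit 4) (nat_lit 419) (nat_lit 296) (nat_lit 185))))))) (XT.nd (nat_lit 858) (nat_lit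 0) (nat_lit 0) (XT.nd (nat_lit 390) (nat_lit 0) (nat_lit 0) (XT.nd (nat_lit 156) (nat_lit 0) (nat_lit 0) (XT.nd (nat_lit 78) (nat_lit 0) (nat_lit 0) (XT.lf (nat_lit 0) (nat_lit 71629631625) (nat_lit 152) (nat_lit 248414321767) (nat_lit 0) (nat_lit 54561830584) (nat_lit 2) (nat_lit 5) (nat_lit 4) (nat_lit 4) (nat_lit 2) (nat_lit 4) (nat_lit 420) (nat_lit 296) (nat_lit 184)) (XT.lf (nat_lit 0) (nat_lit 82355912381) (nat_lit 152) (nat_lit 245293770574) (nat_lit 0) (nat_lit 65284655134) (nat_lit 2) (nat_lit 5) (nat_lit 4) (nat_lit 4) (nat_lit 2) (nat_lit 4) (nat_lit 421) (nat_lit 296) (nat_lit 183))) (XT.nd (nat_lit 78) (nat_lit 0) (nat_lit 0) (XT.lf (nat_lit 0) (nat_lit 93615382847) (nat_lit 152) (nat_lit 242023259947) (nat_lit 0) (nat_lit 76540833974) (nat_lit 2) (nat_lit 5) (nat_lit 4) (nat_lit 4) (nat_lit 2) (nat_lit 4) (nat_lit 422) (nat_lit 296) (nat_lit 182)) (XT.nd (nat_lit 78) (nat_lit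 0) (nat_lit 0) (XT.lf (nat_lit 0) (nat_lit 105434851283) (nat_lit 152) (nat_lit 238595002955) (nat_lit 0) (nat_lit 88357167529) (nat_lit 2) (nat_lit 5) (nat_lit 4) (nat_lit 4) (nat_lit 2) (nat_lit 4) (nat_lit 423) (nat_lit 296) (nat_lit 181)) (XT.lf (nat_lit 0) (nat_lit 117842459284) (nat_lit 152) (nat_lit 235000837081) (nat_lit 0) (nat_lit 100761789928) (nat_lit 2) (nat_lit 5) (nat_lit 4) (nat_lit 4) (nat_lit 2) (nat_lit 4) (nat_lit 424) (nat_lit 296) (nat_lit 180))))) (XT.nd (nat_lit 234) (nat_lit 0) (nat_lit 0) (XT.nd (nat_lit 78) (nat_lit 0) (nat_lit 0) (XT.lf (nat_lit 0) (nat_lit 130867748771) (nat_lit 152) (nat_lit 231232204789) (nat_lit 0) (nat_lit 113784235986) (nat_lit 2) (nat_lit 5) (nat_lit 4) (nat_lit 4) (nat_lit 2) (nat_lit 4) (nat_lit 425) (nat_lit 296) (nat_lit 179)) (XT.nd (nat_lit 78) (nat_lit 0) (nat_lit 0) (XT.lf (nat_lit 0) (nat_lit 144541732339) (nat_lit 152) (nat_lit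 227280133143) (nat_lit 0) (nat_lit 127455511526) (nat_lit 2) (nat_lit 5) (nat_lit 4) (nat_lit 4) (nat_lit 2) (nat_lit 4) (nat_lit 426) (nat_lit 296) (nat_lit 178)) (XT.lf (nat_lit 0) (nat_lit 158896967092) (nat_lit 152) (nat_lit 223135212450) (nat_lit 0) (nat_lit 141808167204) (nat_lit 2) (nat_lit 5) (nat_lit 4) (nat_lit 4) (nat_lit 2) (nat_lit 4) (nat_lit 427) (nat_lit 296) (nat_lit 177)))) (XT.nd (nat_lit 78) (nat_lit 0) (nat_lit 0) (XT.lf (nat_lit 0) (nat_lit 173967632160) (nat_lit 152) (nat_lit 218787573851) (nat_lit 0) (nat_lit 156876376011) (nat_lit 2) (nat_lit 5) (nat_lit 4) (nat_lit 4) (nat_lit 2) (nat_lit 4) (nat_lit 428) (nat_lit 296) (nat_lit 176)) (XT.nd (nat_lit 78) (nat_lit 0) (nat_lit 0) (XT.lf (nat_lit 0) (nat_lit 189789610080) (nat_lit 152) (nat_lit 214226865825) (nat_lit 0) (nat_lit 172696014634) (nat_lit 2) (nat_lit 5) (nat_lit 4) (nat_lit 4) (nat_lit 2) (nat_lit 4)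 (nat_lit 429) (nat_lit 296) (nat_lit 175)) (XT.lf (nat_lit 0) (nat_lit 206400572226) (nat_lit 152) (nat_lit 209442229544) (nat_lit 0) (nat_lit 189304748878) (nat_lit 2) (nat_lit 5) (nat_lit 4) (nat_lit 4) (nat_lit 2) (nat_lit 4) (nat_lit 430) (nat_lit 296) (nat_lit 174)))))) (XT.nd (nat_lit 37284) (nat_lit 0) (nat_lit 8664) (XT.nd (nat_lit 234) (nat_lit 0) (nat_lit 0) (XT.nd (nat_lit 78) (nat_lit 0) (nat_lit 0) (XT.lf (nat_lit 0) (nat_lit 223840068509) (nat_lit 152) (nat_lit 204422273016) (nat_lit 0) (nat_lit 206742123350) (nat_lit 2) (nat_lit 5) (nat_lit 4) (nat_lit 4) (nat_lit 2) (nat_lit 4) (nat_lit 431) (nat_lit 296) (nat_lit 173)) (XT.nd (nat_lit 78) (nat_lit 0) (nat_lit 0) (XT.lf (nat_lit 0) (nat_lit 242149621539) (nat_lit 152) (nat_lit 199155043964) (nat_lit 0) (nat_lit 225049655608) (nat_lit 2) (nat_lit 5) (nat_lit 4) (nat_lit 4) (nat_lit 2) (nat_lit 4) (nat_lit 432) (nat_lit 296)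 (nat_lit 172)) (XT.lf (nat_lit 0) (nat_lit 261372825490) (nat_lit 152) (nat_lit 193628001366) (nat_lit 0) (nat_lit 244270935014) (nat_lit 2) (nat_lit 5) (nat_lit 4) (nat_lit 4) (nat_lit 2) (nat_lit 4) (nat_lit 433) (nat_lit 296) (nat_lit 171)))) (XT.nd (nat_lit 36894) (nat_lit 0) (nat_lit 10488) (XT.lf (nat_lit 0) (nat_lit 281555449896) (nat_lit 152) (nat_lit 187827985598) (nat_lit 0) (nat_lit 264451726520) (nat_lit 2) (nat_lit 5) (nat_lit 4) (nat_lit 4) (nat_lit 2) (nat_lit 4) (nat_lit 434) (nat_lit 296) (nat_lit 170)) (XT.nd (nat_lit 78) (nat_lit 76) (nat_lit 0) (XT.lf (nat_lit 0) (nat_lit 446802316) (nat_lit 228) (nat_lit 1413833300) (nat_lit 228) (nat_lit 1413833300) (nat_lit 141) (nat_lit 4) (nat_lit 144) (nat_lit 5) (nat_lit 144) (nat_lit 4) (nat_lit 306) (nat_lit 297) (nat_lit 297)) (XT.lf (nat_lit 0) (nat_lit 253125268) (nat_lit 304) (nat_lit 1868716264) (nat_lit 76) (nat_lit 4467709644)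 (nat_lit 140) (nat_lit 5) (nat_lit 144) (nat_lit 5) (nat_lit 141) (nat_lit 4) (nat_lit 307) (nat_lit 297) (nat_lit 296))))) (XT.nd (nat_lit 234) (nat_lit 1064) (nat_lit 0) (XT.nd (nat_lit 78) (nat_lit 456) (nat_lit 0) (XT.lf (nat_lit 0) (nat_lit 1999417511) (nat_lit 304) (nat_lit 1249834832) (nat_lit 380) (nat_lit 3388231265) (nat_lit 136) (nat_lit 5) (nat_lit 140) (nat_lit 5) (nat_lit 141) (nat_lit 4) (nat_lit 308) (nat_lit 297) (nat_lit 295)) (XT.nd (nat_lit 78) (nat_lit 456) (nat_lit 0) (XT.lf (nat_lit 0) (nat_lit 6002406352) (nat_lit 304) (nat_lit 255935428) (nat_lit 380) (nat_lit 436715338) (nat_lit 136) (nat_lit 5) (nat_lit 140) (nat_lit 5) (nat_lit 141) (nat_lit 4) (nat_lit 309) (nat_lit 297) (nat_lit 294)) (XT.lf (nat_lit 0) (nat_lit 2481154728) (nat_lit 456) (nat_lit 3380026019) (nat_lit 76) (nat_lit 897415506) (nat_lit 130) (nat_lit 5) (nat_lit 136) (nat_lit 5) (nat_lit 131)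 (nat_lit 4) (nat_lit 310) (nat_lit 297) (nat_lit 293)))) (XT.nd (nat_lit 78) (nat_lit 608) (nat_lit 0) (XT.lf (nat_lit 0) (nat_lit 734510533) (nat_lit 456) (nat_lit 4666303560) (nat_lit 532) (nat_lit 1430959158) (nat_lit 124) (nat_lit 5) (nat_lit 130) (nat_lit 5) (nat_lit 131) (nat_lit 4) (nat_lit 311) (nat_lit 297) (nat_lit 292)) (XT.nd (nat_lit 78) (nat_lit 532) (nat_lit 0) (XT.lf (nat_lit 0) (nat_lit 1411826909) (nat_lit 532) (nat_lit 1892331428) (nat_lit 76) (nat_lit 3608357801) (nat_lit 123) (nat_lit 5) (nat_lit 130) (nat_lit 5) (nat_lit 124) (nat_lit 5) (nat_lit 312) (nat_lit 297) (nat_lit 291)) (XT.lf (nat_lit 0) (nat_lit 2450736998) (nat_lit 532) (nat_lit 1789197734) (nat_lit 608) (nat_lit 2761925088) (nat_lit 116) (nat_lit 5) (nat_lit 123) (nat_lit 5) (nat_lit 124) (nat_lit 5) (nat_lit 313) (nat_lit 297) (nat_lit 290))))))))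
noncomputable def xc92 : XT := (XT.nd (nat_lit 1794) (nat_lit 1976) (nat_lit 0) (XT.nd (nat_lit 858) (nat_lit 1900) (nat_lit 0) (XT.nd (nat_lit 390) (nat_lit 1444) (nat_lit 0) (XT.nd (nat_lit 156) (nat_lit 1444) (nat_lit 0) (XT.nd (nat_lit 78) (nat_lit 684) (nat_lit 0) (XT.lf (nat_lit 0) (nat_lit 6951616187) (nat_lit 532) (nat_lit 147935832) (nat_lit 608) (nat_lit 1899337) (nat_lit 116) (nat_lit 5) (nat_lit 123) (nat_lit 5) (nat_lit 124) (nat_lit 5) (nat_lit 314) (nat_lit 297) (nat_lit 289)) (XT.lf (nat_lit 0) (nat_lit 2761853220) (nat_lit 684) (nat_lit 2789464345) (nat_lit 76) (nat_lit 1654782385) (nat_lit 107) (nat_lit 5) (nat_lit 116) (nat_lit 5) (nat_lit 108) (nat_lit 5) (nat_lit 315) (nat_lit 297) (nat_lit 288))) (XT.nd (nat_lit 78) (nat_lit 760) (nat_lit 0) (XT.lf (nat_lit 0) (nat_lit 1827811599) (nat_lit 684) (nat_lit 3736621355) (nat_lit 760) (nat_lit 1756758246) (nat_lit 98) (nat_lit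 5) (nat_lit 107) (nat_lit 5) (nat_lit 108) (nat_lit 5) (nat_lit 316) (nat_lit 297) (nat_lit 287)) (XT.nd (nat_lit 78) (nat_lit 684) (nat_lit 0) (XT.lf (nat_lit 0) (nat_lit 948202250) (nat_lit 760) (nat_lit 815722659) (nat_lit 76) (nat_lit 5681645251) (nat_lit 97) (nat_lit 5) (nat_lit 107) (nat_lit 5) (nat_lit 98) (nat_lit 5) (nat_lit 317) (nat_lit 297) (nat_lit 286)) (XT.lf (nat_lit 0) (nat_lit 3674657079) (nat_lit 760) (nat_lit 3512124638) (nat_lit 76) (nat_lit 390895465) (nat_lit 88) (nat_lit 5) (nat_lit 98) (nat_lit 5) (nat_lit 89) (nat_lit 5) (nat_lit 318) (nat_lit 297) (nat_lit 285))))) (XT.nd (nat_lit 234) (nat_lit 684) (nat_lit 0) (XT.nd (nat_lit 78) (nat_lit 380) (nat_lit 0) (XT.lf (nat_lit 0) (nat_lit 1389488220) (nat_lit 380) (nat_lit 5091970438) (nat_lit 456) (nat_lit 1237932864) (nat_lit 83) (nat_lit 5) (nat_lit 88) (nat_lit 5) (nat_lit 89) (nat_lit 5) (nat_lit 319) (nat_lit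 297) (nat_lit 284)) (XT.nd (nat_lit 78) (nat_lit 304) (nat_lit 0) (XT.lf (nat_lit 0) (nat_lit 1451946759) (nat_lit 456) (nat_lit 1363825557) (nat_lit 76) (nat_lit 5054311381) (nat_lit 82) (nat_lit 5) (nat_lit 88) (nat_lit 5) (nat_lit 83) (nat_lit 5) (nat_lit 320) (nat_lit 297) (nat_lit 283)) (XT.lf (nat_lit 0) (nat_lit 3827641689) (nat_lit 304) (nat_lit 353527887) (nat_lit 380) (nat_lit 3848979116) (nat_lit 78) (nat_lit 5) (nat_lit 82) (nat_lit 5) (nat_lit 83) (nat_lit 5) (nat_lit 321) (nat_lit 297) (nat_lit 282)))) (XT.nd (nat_lit 78) (nat_lit 380) (nat_lit 0) (XT.lf (nat_lit 0) (nat_lit 997096482) (nat_lit 304) (nat_lit 6013603231) (nat_lit 380) (nat_lit 1189492060) (nat_lit 74) (nat_lit 5) (nat_lit 78) (nat_lit 5) (nat_lit 79) (nat_lit 5) (nat_lit 322) (nat_lit 297) (nat_lit 281)) (XT.nd (nat_lit 78) (nat_lit 304) (nat_lit 0) (XT.lf (nat_lit 0) (nat_lit 1521116738) (nat_lit 380) (nat_lit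 1934819634) (nat_lit 76) (nat_lit 4923228279) (nat_lit 73) (nat_lit 5) (nat_lit 78) (nat_lit 5) (nat_lit 74) (nat_lit 5) (nat_lit 323) (nat_lit 297) (nat_lit 280)) (XT.lf (nat_lit 0) (nat_lit 3567520719) (nat_lit 304) (nat_lit 711953468) (nat_lit 380) (nat_lit 4289171731) (nat_lit 69) (nat_lit 5) (nat_lit 73) (nat_lit 5) (nat_lit 74) (nat_lit 5) (nat_lit 324) (nat_lit 297) (nat_lit 279)))))) (XT.nd (nat_lit 468) (nat_lit 684) (nat_lit 0) (XT.nd (nat_lit 234) (nat_lit 608) (nat_lit 0) (XT.nd (nat_lit 78) (nat_lit 304) (nat_lit 0) (XT.lf (nat_lit 0) (nat_lit 500959874) (nat_lit 304) (nat_lit 6648964142) (nat_lit 380) (nat_lit 1619106020) (nat_lit 65) (nat_lit 5) (nat_lit 69) (nat_lit 5) (nat_lit 70) (nat_lit 5) (nat_lit 325) (nat_lit 297) (nat_lit 278)) (XT.nd (nat_lit 78) (nat_lit 228) (nat_lit 0) (XT.lf (nat_lit 0) (nat_lit 1144609654) (nat_lit 380) (nat_lit 2683206174) (nat_lit 76) (nat_lit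 5150914776) (nat_lit 64) (nat_lit 5) (nat_lit 69) (nat_lit 5) (nat_lit 65) (nat_lit 5) (nat_lit 326) (nat_lit 297) (nat_lit 277)) (XT.lf (nat_lit 0) (nat_lit 3132491888) (nat_lit 228) (nat_lit 813561794) (nat_lit 304) (nat_lit 5253956410) (nat_lit 61) (nat_lit 5) (nat_lit 64) (nat_lit 5) (nat_lit 65) (nat_lit 5) (nat_lit 327) (nat_lit 297) (nat_lit 276)))) (XT.nd (nat_lit 78) (nat_lit 608) (nat_lit 0) (XT.lf (nat_lit 0) (nat_lit 6877727175) (nat_lit 304) (nat_lit 259858305) (nat_lit 76) (nat_lit 2295373343) (nat_lit 61) (nat_lit 5) (nat_lit 65) (nat_lit 5) (nat_lit 62) (nat_lit 5) (nat_lit 328) (nat_lit 297) (nat_lit 275)) (XT.nd (nat_lit 78) (nat_lit 228) (nat_lit 0) (XT.lf (nat_lit 0) (nat_lit 286742792) (nat_lit 380) (nat_lit 3786434180) (nat_lit 76) (nat_lit 5603402032) (nat_lit 56) (nat_lit 5) (nat_lit 61) (nat_lit 5) (nat_lit 57) (nat_lit 5) (nat_lit 329) (nat_lit 297) (nat_lit 274))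 (XT.lf (nat_lit 0) (nat_lit 2337770853) (nat_lit 228) (nat_lit 800696973) (nat_lit 304) (nat_lit 6794239423) (nat_lit 53) (nat_lit 5) (nat_lit 56) (nat_lit 5) (nat_lit 57) (nat_lit 5) (nat_lit 330) (nat_lit 297) (nat_lit 273))))) (XT.nd (nat_lit 234) (nat_lit 228) (nat_lit 0) (XT.nd (nat_lit 78) (nat_lit 456) (nat_lit 0) (XT.lf (nat_lit 0) (nat_lit 6153472588) (nat_lit 304) (nat_lit 1462503116) (nat_lit 76) (nat_lit 2584724602) (nat_lit 53) (nat_lit 5) (nat_lit 57) (nat_lit 5) (nat_lit 54) (nat_lit 5) (nat_lit 331) (nat_lit 297) (nat_lit 272)) (XT.nd (nat_lit 78) (nat_lit 228) (nat_lit 0) (XT.lf (nat_lit 0) (nat_lit 5007986073) (nat_lit 228) (nat_lit 4321005019) (nat_lit 304) (nat_lit 1152702389) (nat_lit 50) (nat_lit 5) (nat_lit 53) (nat_lit 5) (nat_lit 54) (nat_lit 5) (nat_lit 332) (nat_lit 297) (nat_lit 271)) (XT.lf (nat_lit 0) (nat_lit 961579984) (nat_lit 152) (nat_lit 823945308) (nat_lit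 228) (nat_lit 8991850834) (nat_lit 47) (nat_lit 5) (nat_lit 49) (nat_lit 5) (nat_lit 50) (nat_lit 5) (nat_lit 333) (nat_lit 297) (nat_lit 270)))) (XT.nd (nat_lit 78) (nat_lit 228) (nat_lit 0) (XT.lf (nat_lit 0) (nat_lit 4891276867) (nat_lit 228) (nat_lit 3357608316) (nat_lit 76) (nat_lit 2835121910) (nat_lit 47) (nat_lit 5) (nat_lit 50) (nat_lit 5) (nat_lit 48) (nat_lit 5) (nat_lit 334) (nat_lit 297) (nat_lit 269)) (XT.nd (nat_lit 78) (nat_lit 0) (nat_lit 0) (XT.lf (nat_lit 0) (nat_lit 3406451483) (nat_lit 228) (nat_lit 4737000436) (nat_lit 304) (nat_lit 3263033821) (nat_lit 44) (nat_lit 5) (nat_lit 47) (nat_lit 5) (nat_lit 48) (nat_lit 5) (nat_lit 335) (nat_lit 297) (nat_lit 268)) (XT.lf (nat_lit 0) (nat_lit 10514540463) (nat_lit 228) (nat_lit 1026871216) (nat_lit 304) (nat_lit 204587295) (nat_lit 44) (nat_lit 5) (nat_lit 47) (nat_lit 5) (nat_lit 48) (nat_lit 5) (nat_lit 336) (nat_lit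 297) (nat_lit 267))))))) (XT.nd (nat_lit 858) (nat_lit 836) (nat_lit 0) (XT.nd (nat_lit 390) (nat_lit 532) (nat_lit 0) (XT.nd (nat_lit 156) (nat_lit 228) (nat_lit 0) (XT.nd (nat_lit 78) (nat_lit 152) (nat_lit 0) (XT.lf (nat_lit 0) (nat_lit 2977924691) (nat_lit 228) (nat_lit 6235799845) (nat_lit 76) (nat_lit 2883110169) (nat_lit 41) (nat_lit 5) (nat_lit 44) (nat_lit 5) (nat_lit 42) (nat_lit 5) (nat_lit 337) (nat_lit 297) (nat_lit 266)) (XT.lf (nat_lit 0) (nat_lit 782114842) (nat_lit 152) (nat_lit 5510594197) (nat_lit 228) (nat_lit 6173394371) (nat_lit 39) (nat_lit 5) (nat_lit 41) (nat_lit 5) (nat_lit 42) (nat_lit 5) (nat_lit 338) (nat_lit 297) (nat_lit 265))) (XT.nd (nat_lit 78) (nat_lit 228) (nat_lit 0) (XT.lf (nat_lit 0) (nat_lit 8260053347) (nat_lit 152) (nat_lit 1550233130) (nat_lit 228) (nat_lit 3041753521) (nat_lit 39) (nat_lit 5) (nat_lit 41) (nat_lit 5) (nat_lit 42) (nat_lit 5)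 (nat_lit 339) (nat_lit 297) (nat_lit 264)) (XT.nd (nat_lit 78) (nat_lit 0) (nat_lit 0) (XT.lf (nat_lit 0) (nat_lit 257379479) (nat_lit 228) (nat_lit 10462082259) (nat_lit 76) (nat_lit 2536731166) (nat_lit 36) (nat_lit 5) (nat_lit 39) (nat_lit 5) (nat_lit 37) (nat_lit 5) (nat_lit 340) (nat_lit 297) (nat_lit 263)) (XT.lf (nat_lit 0) (nat_lit 3658255865) (nat_lit 228) (nat_lit 3149795977) (nat_lit 76) (nat_lit 6868107251) (nat_lit 36) (nat_lit 5) (nat_lit 39) (nat_lit 5) (nat_lit 37) (nat_lit 5) (nat_lit 341) (nat_lit 297) (nat_lit 262))))) (XT.nd (nat_lit 234) (nat_lit 152) (nat_lit 0) (XT.nd (nat_lit 78) (nat_lit 228) (nat_lit 0) (XT.lf (nat_lit 0) (nat_lit 4574012275) (nat_lit 152) (nat_lit 2664246990) (nat_lit 228) (nat_lit 6878457174) (nat_lit 34) (nat_lit 5) (nat_lit 36) (nat_lit 5) (nat_lit 37) (nat_lit 5) (nat_lit 342) (nat_lit 297) (nat_lit 261)) (XT.nd (nat_lit 78) (nat_lit 228)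 (nat_lit 0) (XT.lf (nat_lit 0) (nat_lit 11016317317) (nat_lit 228) (nat_lit 1911844928) (nat_lit 76) (nat_lit 1650231454) (nat_lit 34) (nat_lit 5) (nat_lit 37) (nat_lit 5) (nat_lit 35) (nat_lit 4) (nat_lit 343) (nat_lit 297) (nat_lit 260)) (XT.lf (nat_lit 0) (nat_lit 5211574) (nat_lit 228) (nat_lit 8901801443) (nat_lit 76) (nat_lit 6152118189) (nat_lit 31) (nat_lit 5) (nat_lit 34) (nat_lit 5) (nat_lit 32) (nat_lit 5) (nat_lit 344) (nat_lit 297) (nat_lit 259)))) (XT.nd (nat_lit 78) (nat_lit 152) (nat_lit 0) (XT.lf (nat_lit 0) (nat_lit 3605821957) (nat_lit 228) (nat_lit 1021820262) (nat_lit 76) (nat_lit 10934648949) (nat_lit 31) (nat_lit 5) (nat_lit 34) (nat_lit 5) (nat_lit 32) (nat_lit 5) (nat_lit 345) (nat_lit 297) (nat_lit 258)) (XT.nd (nat_lit 78) (nat_lit 0) (nat_lit 0) (XT.lf (nat_lit 0) (nat_lit 7396566564) (nat_lit 152) (nat_lit 49909186) (nat_lit 228) (nat_lit 8641169568) (nat_lit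 29) (nat_lit 5) (nat_lit 31) (nat_lit 5) (nat_lit 32) (nat_lit 5) (nat_lit 346) (nat_lit 297) (nat_lit 257)) (XT.lf (nat_lit 0) (nat_lit 11516199996) (nat_lit 228) (nat_lit 534619696) (nat_lit 76) (nat_lit 4586630673) (nat_lit 29) (nat_lit 5) (nat_lit 32) (nat_lit 5) (nat_lit 30) (nat_lit 4) (nat_lit 347) (nat_lit 297) (nat_lit 256)))))) (XT.nd (nat_lit 468) (nat_lit 456) (nat_lit 0) (XT.nd (nat_lit 234) (nat_lit 76) (nat_lit 0) (XT.nd (nat_lit 78) (nat_lit 228) (nat_lit 0) (XT.lf (nat_lit 0) (nat_lit 8202797717) (nat_lit 76) (nat_lit 7663293361) (nat_lit 152) (nat_lit 1344853961) (nat_lit 28) (nat_lit 5) (nat_lit 29) (nat_lit 5) (nat_lit 30) (nat_lit 4) (nat_lit 348) (nat_lit 297) (nat_lit 255)) (XT.nd (nat_lit 78) (nat_lit 152) (nat_lit 0) (XT.lf (nat_lit 0) (nat_lit 2493747593) (nat_lit 152) (nat_lit 546980902) (nat_lit 76) (nat_lit 14772508031) (nat_lit 27) (nat_lit 5) (nat_lit 29)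 (nat_lit 5) (nat_lit 28) (nat_lit 5) (nat_lit 349) (nat_lit 297) (nat_lit 254)) (XT.lf (nat_lit 0) (nat_lit 6592651882) (nat_lit 228) (nat_lit 9968036275) (nat_lit 76) (nat_lit 1878202522) (nat_lit 25) (nat_lit 5) (nat_lit 28) (nat_lit 5) (nat_lit 26) (nat_lit 4) (nat_lit 350) (nat_lit 297) (nat_lit 253)))) (XT.nd (nat_lit 78) (nat_lit 76) (nat_lit 0) (XT.lf (nat_lit 0) (nat_lit 10906799857) (nat_lit 228) (nat_lit 1272003622) (nat_lit 76) (nat_lit 6916536621) (nat_lit 25) (nat_lit 5) (nat_lit 28) (nat_lit 5) (nat_lit 26) (nat_lit 4) (nat_lit 351) (nat_lit 297) (nat_lit 252)) (XT.nd (nat_lit 78) (nat_lit 0) (nat_lit 0) (XT.lf (nat_lit 0) (nat_lit 8034842659) (nat_lit 76) (nat_lit 7480625859) (nat_lit 152) (nat_lit 4265228987) (nat_lit 24) (nat_lit 5) (nat_lit 25) (nat_lit 5) (nat_lit 26) (nat_lit 4) (nat_lit 352) (nat_lit 297) (nat_lit 251)) (XT.lf (nat_lit 0) (nat_lit 17771348124) (nat_lit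 76) (nat_lit 2559105393) (nat_lit 152) (nat_lit 171100046) (nat_lit 24) (nat_lit 5) (nat_lit 25) (nat_lit 5) (nat_lit 26) (nat_lit 4) (nat_lit 353) (nat_lit 297) (nat_lit 250))))) (XT.nd (nat_lit 234) (nat_lit 152) (nat_lit 0) (XT.nd (nat_lit 78) (nat_lit 76) (nat_lit 0) (XT.lf (nat_lit 0) (nat_lit 4100766197) (nat_lit 228) (nat_lit 14482861904) (nat_lit 76) (nat_lit 2666367451) (nat_lit 21) (nat_lit 5) (nat_lit 24) (nat_lit 5) (nat_lit 22) (nat_lit 4) (nat_lit 354) (nat_lit 297) (nat_lit 249)) (XT.nd (nat_lit 78) (nat_lit 76) (nat_lit 0) (XT.lf (nat_lit 0) (nat_lit 8625602953) (nat_lit 228) (nat_lit 5322885467) (nat_lit 76) (nat_lit 8084996146) (nat_lit 21) (nat_lit 5) (nat_lit 24) (nat_lit 5) (nat_lit 22) (nat_lit 4) (nat_lit 355) (nat_lit 297) (nat_lit 248)) (XT.lf (nat_lit 0) (nat_lit 4360413595) (nat_lit 76) (nat_lit 9042612321) (nat_lit 152) (nat_lit 9451825406) (nat_lit 20) (nat_lit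 5) (nat_lit 21) (nat_lit 5) (nat_lit 22) (nat_lit 4) (nat_lit 356) (nat_lit 297) (nat_lit 247)))) (XT.nd (nat_lit 78) (nat_lit 152) (nat_lit 0) (XT.lf (nat_lit 0) (nat_lit 14639636875) (nat_lit 76) (nat_lit 3828941866) (nat_lit 152) (nat_lit 5246264270) (nat_lit 20) (nat_lit 5) (nat_lit 21) (nat_lit 5) (nat_lit 22) (nat_lit 4) (nat_lit 357) (nat_lit 297) (nat_lit 246)) (XT.nd (nat_lit 78) (nat_lit 76) (nat_lit 0) (XT.lf (nat_lit 0) (nat_lit 741997335) (nat_lit 76) (nat_lit 23043268010) (nat_lit 76) (nat_lit 832694736) (nat_lit 19) (nat_lit 4) (nat_lit 20) (nat_lit 5) (nat_lit 20) (nat_lit 4) (nat_lit 358) (nat_lit 297) (nat_lit 245)) (XT.lf (nat_lit 0) (nat_lit 3859579119) (nat_lit 152) (nat_lit 14389277250) (nat_lit 76) (nat_lit 7305440900) (nat_lit 18) (nat_lit 5) (nat_lit 20) (nat_lit 5) (nat_lit 19) (nat_lit 4) (nat_lit 359) (nat_lit 297) (nat_lit 244))))))))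
noncomputable def xc93 : XT := (XT.nd (nat_lit 1794) (nat_lit 304) (nat_lit 0) (XT.nd (nat_lit 858) (nat_lit 380) (nat_lit 0) (XT.nd (nat_lit 390) (nat_lit 152) (nat_lit 0) (XT.nd (nat_lit 156) (nat_lit 152) (nat_lit 0) (XT.nd (nat_lit 78) (nat_lit 76) (nat_lit 0) (XT.lf (nat_lit 0) (nat_lit 8721070463) (nat_lit 152) (nat_lit 4509735398) (nat_lit 76) (nat_lit 13307849600) (nat_lit 18) (nat_lit 5) (nat_lit 20) (nat_lit 5) (nat_lit 19) (nat_lit 4) (nat_lit 360) (nat_lit 297) (nat_lit 243)) (XT.lf (nat_lit 0) (nat_lit 5990933514) (nat_lit 76) (nat_lit 7892607452) (nat_lit 152) (nat_lit 13685810668) (nat_lit 17) (nat_lit 5) (nat_lit 18) (nat_lit 5) (nat_lit 19) (nat_lit 4) (nat_lit 361) (nat_lit 297) (nat_lit 242))) (XT.nd (nat_lit 78) (nat_lit 152) (nat_lit 0) (XT.lf (nat_lit 0) (nat_lit 17109648276) (nat_lit 76) (nat_lit 2235935023) (nat_lit 152) (nat_lit 9303941480) (nat_lit 17) (nat_lit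 5) (nat_lit 18) (nat_lit 5) (nat_lit 19) (nat_lit 4) (nat_lit 362) (nat_lit 297) (nat_lit 241)) (XT.nd (nat_lit 78) (nat_lit 152) (nat_lit 0) (XT.lf (nat_lit 0) (nat_lit 25104862080) (nat_lit 152) (nat_lit 1119011245) (nat_lit 0) (nat_lit 3558640419) (nat_lit 17) (nat_lit 5) (nat_lit 19) (nat_lit 4) (nat_lit 17) (nat_lit 4) (nat_lit 363) (nat_lit 297) (nat_lit 240)) (XT.lf (nat_lit 0) (nat_lit 338290907) (nat_lit 152) (nat_lit 20920512381) (nat_lit 76) (nat_lit 9705016090) (nat_lit 15) (nat_lit 5) (nat_lit 17) (nat_lit 5) (nat_lit 16) (nat_lit 4) (nat_lit 364) (nat_lit 297) (nat_lit 239))))) (XT.nd (nat_lit 234) (nat_lit 76) (nat_lit 0) (XT.nd (nat_lit 78) (nat_lit 76) (nat_lit 0) (XT.lf (nat_lit 0) (nat_lit 5435104032) (nat_lit 152) (nat_lit 10536604600) (nat_lit 76) (nat_lit 16229295853) (nat_lit 15) (nat_lit 5) (nat_lit 17) (nat_lit 5) (nat_lit 16) (nat_lit 4) (nat_lit 365) (nat_lit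 297) (nat_lit 238)) (XT.nd (nat_lit 78) (nat_lit 0) (nat_lit 0) (XT.lf (nat_lit 0) (nat_lit 320608554) (nat_lit 76) (nat_lit 10440689641) (nat_lit 152) (nat_lit 22740035052) (nat_lit 14) (nat_lit 5) (nat_lit 15) (nat_lit 5) (nat_lit 16) (nat_lit 4) (nat_lit 366) (nat_lit 297) (nat_lit 237)) (XT.lf (nat_lit 0) (nat_lit 12031243664) (nat_lit 76) (nat_lit 4471123868) (nat_lit 152) (nat_lit 18356893521) (nat_lit 14) (nat_lit 5) (nat_lit 15) (nat_lit 5) (nat_lit 16) (nat_lit 4) (nat_lit 367) (nat_lit 297) (nat_lit 236)))) (XT.nd (nat_lit 78) (nat_lit 76) (nat_lit 0) (XT.lf (nat_lit 0) (nat_lit 22529713761) (nat_lit 152) (nat_lit 12039400605) (nat_lit 0) (nat_lit 1716020069) (nat_lit 14) (nat_lit 5) (nat_lit 16) (nat_lit 4) (nat_lit 14) (nat_lit 4) (nat_lit 368) (nat_lit 297) (nat_lit 235)) (XT.nd (nat_lit 78) (nat_lit 76) (nat_lit 0) (XT.lf (nat_lit 0) (nat_lit 28904265810) (nat_lit 152) (nat_lit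 835765262) (nat_lit 0) (nat_lit 8039988354) (nat_lit 14) (nat_lit 5) (nat_lit 16) (nat_lit 4) (nat_lit 14) (nat_lit 4) (nat_lit 369) (nat_lit 297) (nat_lit 234)) (XT.lf (nat_lit 0) (nat_lit 11239091863) (nat_lit 76) (nat_lit 24507776268) (nat_lit 76) (nat_lit 3595323799) (nat_lit 13) (nat_lit 4) (nat_lit 14) (nat_lit 5) (nat_lit 14) (nat_lit 4) (nat_lit 370) (nat_lit 297) (nat_lit 233)))))) (XT.nd (nat_lit 468) (nat_lit 228) (nat_lit 0) (XT.nd (nat_lit 234) (nat_lit 0) (nat_lit 0) (XT.nd (nat_lit 78) (nat_lit 76) (nat_lit 0) (XT.lf (nat_lit 0) (nat_lit 1875046615) (nat_lit 152) (nat_lit 17114487871) (nat_lit 76) (nat_lit 21992010359) (nat_lit 12) (nat_lit 5) (nat_lit 14) (nat_lit 5) (nat_lit 13) (nat_lit 4) (nat_lit 371) (nat_lit 297) (nat_lit 232)) (XT.nd (nat_lit 78) (nat_lit 76) (nat_lit 0) (XT.lf (nat_lit 0) (nat_lit 7473268366) (nat_lit 152) (nat_lit 5681829438) (nat_lit 76) (nat_lit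 29546070768) (nat_lit 12) (nat_lit 5) (nat_lit 14) (nat_lit 5) (nat_lit 13) (nat_lit 4) (nat_lit 372) (nat_lit 297) (nat_lit 231)) (XT.lf (nat_lit 0) (nat_lit 6485815529) (nat_lit 76) (nat_lit 6943189596) (nat_lit 152) (nat_lit 31073895895) (nat_lit 11) (nat_lit 5) (nat_lit 12) (nat_lit 5) (nat_lit 13) (nat_lit 4) (nat_lit 373) (nat_lit 297) (nat_lit 230)))) (XT.nd (nat_lit 78) (nat_lit 0) (nat_lit 0) (XT.lf (nat_lit 0) (nat_lit 19415583481) (nat_lit 76) (nat_lit 339959036) (nat_lit 152) (nat_lit 26635534244) (nat_lit 11) (nat_lit 5) (nat_lit 12) (nat_lit 5) (nat_lit 13) (nat_lit 4) (nat_lit 374) (nat_lit 297) (nat_lit 229)) (XT.nd (nat_lit 78) (nat_lit 0) (nat_lit 0) (XT.lf (nat_lit 0) (nat_lit 26478941307) (nat_lit 152) (nat_lit 15527020927) (nat_lit 0) (nat_lit 6363679341) (nat_lit 11) (nat_lit 5) (nat_lit 13) (nat_lit 4) (nat_lit 11) (nat_lit 4) (nat_lit 375) (nat_lit 297) (nat_lit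 228)) (XT.lf (nat_lit 0) (nat_lit 33522742715) (nat_lit 152) (nat_lit 3551943291) (nat_lit 0) (nat_lit 13373243667) (nat_lit 11) (nat_lit 5) (nat_lit 13) (nat_lit 4) (nat_lit 11) (nat_lit 4) (nat_lit 376) (nat_lit 297) (nat_lit 227))))) (XT.nd (nat_lit 234) (nat_lit 152) (nat_lit 0) (XT.nd (nat_lit 78) (nat_lit 0) (nat_lit 0) (XT.lf (nat_lit 0) (nat_lit 9280596474) (nat_lit 76) (nat_lit 31762709629) (nat_lit 76) (nat_lit 11580603836) (nat_lit 10) (nat_lit 4) (nat_lit 11) (nat_lit 5) (nat_lit 11) (nat_lit 4) (nat_lit 377) (nat_lit 297) (nat_lit 226)) (XT.nd (nat_lit 78) (nat_lit 0) (nat_lit 0) (XT.lf (nat_lit 0) (nat_lit 22840368089) (nat_lit 76) (nat_lit 26139738293) (nat_lit 76) (nat_lit 5926578457) (nat_lit 10) (nat_lit 4) (nat_lit 11) (nat_lit 5) (nat_lit 11) (nat_lit 4) (nat_lit 378) (nat_lit 297) (nat_lit 225)) (XT.lf (nat_lit 0) (nat_lit 37042213436) (nat_lit 76) (nat_lit 20252537850)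 (nat_lit 76) (nat_lit 9802736) (nat_lit 10) (nat_lit 4) (nat_lit 11) (nat_lit 5) (nat_lit 11) (nat_lit 4) (nat_lit 379) (nat_lit 297) (nat_lit 224)))) (XT.nd (nat_lit 78) (nat_lit 76) (nat_lit 0) (XT.lf (nat_lit 0) (nat_lit 5985890322) (nat_lit 152) (nat_lit 7999826886) (nat_lit 76) (nat_lit 45832682162) (nat_lit 9) (nat_lit 5) (nat_lit 11) (nat_lit 5) (nat_lit 10) (nat_lit 4) (nat_lit 380) (nat_lit 297) (nat_lit 223)) (XT.nd (nat_lit 78) (nat_lit 0) (nat_lit 0) (XT.lf (nat_lit 0) (nat_lit 5002606451) (nat_lit 76) (nat_lit 7339019962) (nat_lit 152) (nat_lit 50113278127) (nat_lit 8) (nat_lit 5) (nat_lit 9) (nat_lit 5) (nat_lit 10) (nat_lit 4) (nat_lit 381) (nat_lit 297) (nat_lit 222)) (XT.lf (nat_lit 0) (nat_lit 18900272223) (nat_lit 76) (nat_lit 233165902) (nat_lit 152) (nat_lit 46083887149) (nat_lit 8) (nat_lit 5) (nat_lit 9) (nat_lit 5) (nat_lit 10) (nat_lit 4) (nat_lit 382) (nat_lit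 297) (nat_lit 221))))))) (XT.nd (nat_lit 858) (nat_lit 76) (nat_lit 0) (XT.nd (nat_lit 390) (nat_lit 152) (nat_lit 0) (XT.nd (nat_lit 156) (nat_lit 76) (nat_lit 0) (XT.nd (nat_lit 78) (nat_lit 0) (nat_lit 0) (XT.lf (nat_lit 0) (nat_lit 26361086532) (nat_lit 152) (nat_lit 34769560090) (nat_lit 0) (nat_lit 6982412637) (nat_lit 8) (nat_lit 5) (nat_lit 10) (nat_lit 4) (nat_lit 8) (nat_lit 4) (nat_lit 383) (nat_lit 297) (nat_lit 220)) (XT.lf (nat_lit 0) (nat_lit 33938127436) (nat_lit 152) (nat_lit 22678672294) (nat_lit 0) (nat_lit 14537384013) (nat_lit 8) (nat_lit 5) (nat_lit 10) (nat_lit 4) (nat_lit 8) (nat_lit 4) (nat_lit 384) (nat_lit 297) (nat_lit 219))) (XT.nd (nat_lit 78) (nat_lit 76) (nat_lit 0) (XT.lf (nat_lit 0) (nat_lit 41878961040) (nat_lit 152) (nat_lit 10011961461) (nat_lit 0) (nat_lit 22457199018) (nat_lit 8) (nat_lit 5) (nat_lit 10) (nat_lit 4) (nat_lit 8) (nat_lit 4) (nat_lit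 385) (nat_lit 297) (nat_lit 218)) (XT.nd (nat_lit 78) (nat_lit 0) (nat_lit 0) (XT.lf (nat_lit 0) (nat_lit 3368545743) (nat_lit 76) (nat_lit 46886540784) (nat_lit 76) (nat_lit 27444761049) (nat_lit 7) (nat_lit 4) (nat_lit 8) (nat_lit 5) (nat_lit 8) (nat_lit 4) (nat_lit 386) (nat_lit 297) (nat_lit 217)) (XT.lf (nat_lit 0) (nat_lit 17738758522) (nat_lit 76) (nat_lit 41466737730) (nat_lit 76) (nat_lit 22005893506) (nat_lit 7) (nat_lit 4) (nat_lit 8) (nat_lit 5) (nat_lit 8) (nat_lit 4) (nat_lit 387) (nat_lit 297) (nat_lit 216))))) (XT.nd (nat_lit 234) (nat_lit 152) (nat_lit 0) (XT.nd (nat_lit 78) (nat_lit 0) (nat_lit 0) (XT.lf (nat_lit 0) (nat_lit 32801851006) (nat_lit 76) (nat_lit 35788166456) (nat_lit 76) (nat_lit 16309165577) (nat_lit 7) (nat_lit 4) (nat_lit 8) (nat_lit 5) (nat_lit 8) (nat_lit 4) (nat_lit 388) (nat_lit 297) (nat_lit 215)) (XT.nd (nat_lit 78) (nat_lit 0) (nat_lit 0) (XT.lf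 (nat_lit 0) (nat_lit 48593687699) (nat_lit 76) (nat_lit 29837306557) (nat_lit 76) (nat_lit 10341013625) (nat_lit 7) (nat_lit 4) (nat_lit 8) (nat_lit 5) (nat_lit 8) (nat_lit 4) (nat_lit 389) (nat_lit 297) (nat_lit 214)) (XT.lf (nat_lit 0) (nat_lit 65151868214) (nat_lit 76) (nat_lit 23599989317) (nat_lit 76) (nat_lit 4087227763) (nat_lit 7) (nat_lit 4) (nat_lit 8) (nat_lit 5) (nat_lit 8) (nat_lit 4) (nat_lit 390) (nat_lit 297) (nat_lit 213)))) (XT.nd (nat_lit 78) (nat_lit 76) (nat_lit 0) (XT.lf (nat_lit 0) (nat_lit 2388119943) (nat_lit 152) (nat_lit 14632800071) (nat_lit 76) (nat_lit 80087252880) (nat_lit 6) (nat_lit 5) (nat_lit 8) (nat_lit 5) (nat_lit 7) (nat_lit 4) (nat_lit 391) (nat_lit 297) (nat_lit 212)) (XT.nd (nat_lit 78) (nat_lit 76) (nat_lit 0) (XT.lf (nat_lit 0) (nat_lit 9038662097) (nat_lit 152) (nat_lit 1014126181) (nat_lit 76) (nat_lit 91535139948) (nat_lit 6) (nat_lit 5) (nat_lit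 8) (nat_lit 5) (nat_lit 7) (nat_lit 4) (nat_lit 392) (nat_lit 297) (nat_lit 211)) (XT.lf (nat_lit 0) (nat_lit 13703645313) (nat_lit 76) (nat_lit 2521357130) (nat_lit 152) (nat_lit 90056507970) (nat_lit 5) (nat_lit 5) (nat_lit 6) (nat_lit 5) (nat_lit 7) (nat_lit 4) (nat_lit 393) (nat_lit 297) (nat_lit 210)))))) (XT.nd (nat_lit 468) (nat_lit 76) (nat_lit 0) (XT.nd (nat_lit 234) (nat_lit 0) (nat_lit 0) (XT.nd (nat_lit 78) (nat_lit 0) (nat_lit 0) (XT.lf (nat_lit 0) (nat_lit 23861579937) (nat_lit 152) (nat_lit 82121266890) (nat_lit 0) (nat_lit 5222381392) (nat_lit 5) (nat_lit 5) (nat_lit 7) (nat_lit 4) (nat_lit 5) (nat_lit 4) (nat_lit 394) (nat_lit 297) (nat_lit 209)) (XT.nd (nat_lit 78) (nat_lit 0) (nat_lit 0) (XT.lf (nat_lit 0) (nat_lit 31911189768) (nat_lit 152) (nat_lit 71202682289) (nat_lit 0) (nat_lit 13259702083) (nat_lit 5) (nat_lit 5) (nat_lit 7) (nat_lit 4) (nat_lit 5) (nat_lit 4)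 (nat_lit 395) (nat_lit 297) (nat_lit 208)) (XT.lf (nat_lit 0) (nat_lit 40353632222) (nat_lit 152) (nat_lit 59756749215) (nat_lit 0) (nat_lit 21690440595) (nat_lit 5) (nat_lit 5) (nat_lit 7) (nat_lit 4) (nat_lit 5) (nat_lit 4) (nat_lit 396) (nat_lit 297) (nat_lit 207)))) (XT.nd (nat_lit 78) (nat_lit 0) (nat_lit 0) (XT.lf (nat_lit 0) (nat_lit 49209008353) (nat_lit 152) (nat_lit 47756215446) (nat_lit 0) (nat_lit 30534670115) (nat_lit 5) (nat_lit 5) (nat_lit 7) (nat_lit 4) (nat_lit 5) (nat_lit 4) (nat_lit 397) (nat_lit 297) (nat_lit 206)) (XT.nd (nat_lit 78) (nat_lit 0) (nat_lit 0) (XT.lf (nat_lit 0) (nat_lit 58498402391) (nat_lit 152) (nat_lit 35172508284) (nat_lit 0) (nat_lit 39813448332) (nat_lit 5) (nat_lit 5) (nat_lit 7) (nat_lit 4) (nat_lit 5) (nat_lit 4) (nat_lit 398) (nat_lit 297) (nat_lit 205)) (XT.lf (nat_lit 0) (nat_lit 68243931939) (nat_lit 152) (nat_lit 21975666521) (nat_lit 0)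 (nat_lit 49548867575) (nat_lit 5) (nat_lit 5) (nat_lit 7) (nat_lit 4) (nat_lit 5) (nat_lit 4) (nat_lit 399) (nat_lit 297) (nat_lit 204))))) (XT.nd (nat_lit 234) (nat_lit 0) (nat_lit 0) (XT.nd (nat_lit 78) (nat_lit 76) (nat_lit 0) (XT.lf (nat_lit 0) (nat_lit 78468800640) (nat_lit 152) (nat_lit 8134269105) (nat_lit 0) (nat_lit 59764107414) (nat_lit 5) (nat_lit 5) (nat_lit 7) (nat_lit 4) (nat_lit 5) (nat_lit 4) (nat_lit 400) (nat_lit 297) (nat_lit 203)) (XT.nd (nat_lit 78) (nat_lit 0) (nat_lit 0) (XT.lf (nat_lit 0) (nat_lit 6595744692) (nat_lit 76) (nat_lit 82704586786) (nat_lit 76) (nat_lit 63990723215) (nat_lit 4) (nat_lit 4) (nat_lit 5) (nat_lit 5) (nat_lit 5) (nat_lit 4) (nat_lit 401) (nat_lit 297) (nat_lit 202)) (XT.lf (nat_lit 0) (nat_lit 22330338942) (nat_lit 76) (nat_lit 78473434680) (nat_lit 76) (nat_lit 59750837447) (nat_lit 4) (nat_lit 4) (nat_lit 5) (nat_lit 5) (nat_lit 5) (nat_lit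 4) (nat_lit 402) (nat_lit 297) (nat_lit 201)))) (XT.nd (nat_lit 78) (nat_lit 0) (nat_lit 0) (XT.lf (nat_lit 0) (nat_lit 38838021289) (nat_lit 76) (nat_lit 74037297040) (nat_lit 76) (nat_lit 55306382034) (nat_lit 4) (nat_lit 4) (nat_lit 5) (nat_lit 5) (nat_lit 5) (nat_lit 4) (nat_lit 403) (nat_lit 297) (nat_lit 200)) (XT.nd (nat_lit 78) (nat_lit 0) (nat_lit 0) (XT.lf (nat_lit 0) (nat_lit 56158095740) (nat_lit 76) (nat_lit 69385611633) (nat_lit 76) (nat_lit 50646774938) (nat_lit 4) (nat_lit 4) (nat_lit 5) (nat_lit 5) (nat_lit 5) (nat_lit 4) (nat_lit 404) (nat_lit 297) (nat_lit 199)) (XT.lf (nat_lit 0) (nat_lit 74331800568) (nat_lit 76) (nat_lit 64507303018) (nat_lit 76) (nat_lit 45760921857) (nat_lit 4) (nat_lit 4) (nat_lit 5) (nat_lit 5) (nat_lit 5) (nat_lit 4) (nat_lit 405) (nat_lit 297) (nat_lit 198))))))))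
noncomputable def xc94 : XT := (XT.nd (nat_lit 1794) (nat_lit 0) (nat_lit 0) (XT.nd (nat_lit 858) (nat_lit 0) (nat_lit 0) (XT.nd (nat_lit 390) (nat_lit 152) (nat_lit 0) (XT.nd (nat_lit 156) (nat_lit 0) (nat_lit 0) (XT.nd (nat_lit 78) (nat_lit 0) (nat_lit 0) (XT.lf (nat_lit 0) (nat_lit 93402406497) (nat_lit 76) (nat_lit 59390756174) (nat_lit 76) (nat_lit 40637189808) (nat_lit 4) (nat_lit 4) (nat_lit 5) (nat_lit 5) (nat_lit 5) (nat_lit 4) (nat_lit 406) (nat_lit 297) (nat_lit 197)) (XT.lf (nat_lit 0) (nat_lit 113415319733) (nat_lit 76) (nat_lit 54023788847) (nat_lit 76) (nat_lit 35263379429) (nat_lit 4) (nat_lit 4) (nat_lit 5) (nat_lit 5) (nat_lit 5) (nat_lit 4) (nat_lit 407) (nat_lit 297) (nat_lit 196))) (XT.nd (nat_lit 78) (nat_lit 0) (nat_lit 0) (XT.lf (nat_lit 0) (nat_lit 134418190069) (nat_lit 76) (nat_lit 48393622543) (nat_lit 76) (nat_lit 29626695932) (nat_lit 4) (nat_lit 4) (nat_lit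 5) (nat_lit 5) (nat_lit 5) (nat_lit 4) (nat_lit 408) (nat_lit 297) (nat_lit 195)) (XT.nd (nat_lit 78) (nat_lit 0) (nat_lit 0) (XT.lf (nat_lit 0) (nat_lit 156461024340) (nat_lit 76) (nat_lit 42486852105) (nat_lit 76) (nat_lit 23713718643) (nat_lit 4) (nat_lit 4) (nat_lit 5) (nat_lit 5) (nat_lit 5) (nat_lit 4) (nat_lit 409) (nat_lit 297) (nat_lit 194)) (XT.lf (nat_lit 0) (nat_lit 179596305483) (nat_lit 76) (nat_lit 36289413792) (nat_lit 76) (nat_lit 17510369044) (nat_lit 4) (nat_lit 4) (nat_lit 5) (nat_lit 5) (nat_lit 5) (nat_lit 4) (nat_lit 410) (nat_lit 297) (nat_lit 193))))) (XT.nd (nat_lit 234) (nat_lit 76) (nat_lit 0) (XT.nd (nat_lit 78) (nat_lit 76) (nat_lit 0) (XT.lf (nat_lit 0) (nat_lit 203879117502) (nat_lit 76) (nat_lit 29786551801) (nat_lit 76) (nat_lit 11001877256) (nat_lit 4) (nat_lit 4) (nat_lit 5) (nat_lit 5) (nat_lit 5) (nat_lit 4) (nat_lit 411) (nat_lit 297) (nat_lit 192))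 (XT.nd (nat_lit 78) (nat_lit 76) (nat_lit 0) (XT.lf (nat_lit 0) (nat_lit 229367276615) (nat_lit 76) (nat_lit 22962783125) (nat_lit 76) (nat_lit 4172746870) (nat_lit 4) (nat_lit 4) (nat_lit 5) (nat_lit 5) (nat_lit 5) (nat_lit 4) (nat_lit 412) (nat_lit 297) (nat_lit 191)) (XT.lf (nat_lit 0) (nat_lit 2897478232) (nat_lit 152) (nat_lit 12855312268) (nat_lit 76) (nat_lit 253174920488) (nat_lit 3) (nat_lit 5) (nat_lit 5) (nat_lit 5) (nat_lit 4) (nat_lit 4) (nat_lit 413) (nat_lit 297) (nat_lit 190)))) (XT.nd (nat_lit 78) (nat_lit 0) (nat_lit 0) (XT.lf (nat_lit 0) (nat_lit 2130586933) (nat_lit 76) (nat_lit 8079458339) (nat_lit 152) (nat_lit 271758942816) (nat_lit 2) (nat_lit 5) (nat_lit 3) (nat_lit 5) (nat_lit 4) (nat_lit 4) (nat_lit 414) (nat_lit 297) (nat_lit 189)) (XT.nd (nat_lit 78) (nat_lit 0) (nat_lit 0) (XT.lf (nat_lit 0) (nat_lit 18104983073) (nat_lit 152) (nat_lit 277350705230) (nat_lit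 0) (nat_lit 195804479) (nat_lit 2) (nat_lit 5) (nat_lit 4) (nat_lit 4) (nat_lit 2) (nat_lit 4) (nat_lit 415) (nat_lit 297) (nat_lit 188)) (XT.lf (nat_lit 0) (nat_lit 26523130376) (nat_lit 152) (nat_lit 274878819282) (nat_lit 0) (nat_lit 8609750742) (nat_lit 2) (nat_lit 5) (nat_lit 4) (nat_lit 4) (nat_lit 2) (nat_lit 4) (nat_lit 416) (nat_lit 297) (nat_lit 187)))))) (XT.nd (nat_lit 468) (nat_lit 0) (nat_lit 0) (XT.nd (nat_lit 234) (nat_lit 0) (nat_lit 0) (XT.nd (nat_lit 78) (nat_lit 0) (nat_lit 0) (XT.lf (nat_lit 0) (nat_lit 35358387403) (nat_lit 152) (nat_lit 272290714879) (nat_lit 0) (nat_lit 17441006778) (nat_lit 2) (nat_lit 5) (nat_lit 4) (nat_lit 4) (nat_lit 2) (nat_lit 4) (nat_lit 417) (nat_lit 297) (nat_lit 186)) (XT.nd (nat_lit 78) (nat_lit 0) (nat_lit 0) (XT.lf (nat_lit 0) (nat_lit 44631790481) (nat_lit 152) (nat_lit 269580229870) (nat_lit 0) (nat_lit 26710599387) (nat_lit 2) (nat_lit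 5) (nat_lit 4) (nat_lit 4) (nat_lit 2) (nat_lit 4) (nat_lit 418) (nat_lit 297) (nat_lit 185)) (XT.lf (nat_lit 0) (nat_lit 54365419139) (nat_lit 152) (nat_lit 266740910718) (nat_lit 0) (nat_lit 36440599029) (nat_lit 2) (nat_lit 5) (nat_lit 4) (nat_lit 4) (nat_lit 2) (nat_lit 4) (nat_lit 419) (nat_lit 297) (nat_lit 184)))) (XT.nd (nat_lit 78) (nat_lit 0) (nat_lit 0) (XT.lf (nat_lit 0) (nat_lit 64582448684) (nat_lit 152) (nat_lit 263765997140) (nat_lit 0) (nat_lit 46654172367) (nat_lit 2) (nat_lit 5) (nat_lit 4) (nat_lit 4) (nat_lit 2) (nat_lit 4) (nat_lit 420) (nat_lit 297) (nat_lit 183)) (XT.nd (nat_lit 78) (nat_lit 0) (nat_lit 0) (XT.lf (nat_lit 0) (nat_lit 75307205377) (nat_lit 152) (nat_lit 260648406008) (nat_lit 0) (nat_lit 57375637436) (nat_lit 2) (nat_lit 5) (nat_lit 4) (nat_lit 4) (nat_lit 2) (nat_lit 4) (nat_lit 421) (nat_lit 297) (nat_lit 182)) (XT.lf (nat_lit 0) (nat_lit 86565224354)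 (nat_lit 152) (nat_lit 257380714487) (nat_lit 0) (nat_lit 68630521531) (nat_lit 2) (nat_lit 5) (nat_lit 4) (nat_lit 4) (nat_lit 2) (nat_lit 4) (nat_lit 422) (nat_lit 297) (nat_lit 181))))) (XT.nd (nat_lit 234) (nat_lit 0) (nat_lit 0) (XT.nd (nat_lit 78) (nat_lit 0) (nat_lit 0) (XT.lf (nat_lit 0) (nat_lit 98383310421) (nat_lit 152) (nat_lit 253955142357) (nat_lit 0) (nat_lit 80445621997) (nat_lit 2) (nat_lit 5) (nat_lit 4) (nat_lit 4) (nat_lit 2) (nat_lit 4) (nat_lit 423) (nat_lit 297) (nat_lit 180)) (XT.nd (nat_lit 78) (nat_lit 0) (nat_lit 0) (XT.lf (nat_lit 0) (nat_lit 110789601878) (nat_lit 152) (nat_lit 250363533496) (nat_lit 0) (nat_lit 92849070024) (nat_lit 2) (nat_lit 5) (nat_lit 4) (nat_lit 4) (nat_lit 2) (nat_lit 4) (nat_lit 424) (nat_lit 297) (nat_lit 179)) (XT.lf (nat_lit 0) (nat_lit 123813637515) (nat_lit 152) (nat_lit 246597336453) (nat_lit 0) (nat_lit 105870397633) (nat_lit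 2) (nat_lit 5) (nat_lit 4) (nat_lit 4) (nat_lit 2) (nat_lit 4) (nat_lit 425) (nat_lit 297) (nat_lit 178)))) (XT.nd (nat_lit 78) (nat_lit 0) (nat_lit 0) (XT.lf (nat_lit 0) (nat_lit 137486426940) (nat_lit 152) (nat_lit 242647584093) (nat_lit 0) (nat_lit 119540607983) (nat_lit 2) (nat_lit 5) (nat_lit 4) (nat_lit 4) (nat_lit 2) (nat_lit 4) (nat_lit 426) (nat_lit 297) (nat_lit 177)) (XT.nd (nat_lit 78) (nat_lit 0) (nat_lit 0) (XT.lf (nat_lit 0) (nat_lit 151840524414) (nat_lit 152) (nat_lit 238504872243) (nat_lit 0) (nat_lit 133892249195) (nat_lit 2) (nat_lit 5) (nat_lit 4) (nat_lit 4) (nat_lit 2) (nat_lit 4) (nat_lit 427) (nat_lit 297) (nat_lit 176)) (XT.lf (nat_lit 0) (nat_lit 166910106359) (nat_lit 152) (nat_lit 234159337304) (nat_lit 0) (nat_lit 148959491844) (nat_lit 2) (nat_lit 5) (nat_lit 4) (nat_lit 4) (nat_lit 2) (nat_lit 4) (nat_lit 428) (nat_lit 297) (nat_lit 175))))))) (XT.nd (nat_lit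 37518) (nat_lit 0) (nat_lit 6080) (XT.nd (nat_lit 390) (nat_lit 0) (nat_lit 0) (XT.nd (nat_lit 156) (nat_lit 0) (nat_lit 0) (XT.nd (nat_lit 78) (nat_lit 0) (nat_lit 0) (XT.lf (nat_lit 0) (nat_lit 182731052732) (nat_lit 152) (nat_lit 229600632764) (nat_lit 0) (nat_lit 164778210316) (nat_lit 2) (nat_lit 5) (nat_lit 4) (nat_lit 4) (nat_lit 2) (nat_lit 4) (nat_lit 429) (nat_lit 297) (nat_lit 174)) (XT.lf (nat_lit 0) (nat_lit 199341032454) (nat_lit 152) (nat_lit 224817904564) (nat_lit 0) (nat_lit 181386068226) (nat_lit 2) (nat_lit 5) (nat_lit 4) (nat_lit 4) (nat_lit 2) (nat_lit 4) (nat_lit 430) (nat_lit 297) (nat_lit 173))) (XT.nd (nat_lit 78) (nat_lit 0) (nat_lit 0) (XT.lf (nat_lit 0) (nat_lit 216779593095) (nat_lit 152) (nat_lit 219799765257) (nat_lit 0) (nat_lit 198822608095) (nat_lit 2) (nat_lit 5) (nat_lit 4) (nat_lit 4) (nat_lit 2) (nat_lit 4) (nat_lit 431) (nat_lit 297) (nat_lit 172))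 (XT.nd (nat_lit 78) (nat_lit 0) (nat_lit 0) (XT.lf (nat_lit 0) (nat_lit 235088255037) (nat_lit 152) (nat_lit 214534266891) (nat_lit 0) (nat_lit 217129345492) (nat_lit 2) (nat_lit 5) (nat_lit 4) (nat_lit 4) (nat_lit 2) (nat_lit 4) (nat_lit 432) (nat_lit 297) (nat_lit 171)) (XT.lf (nat_lit 0) (nat_lit 254310610333) (nat_lit 152) (nat_lit 209008872566) (nat_lit 0) (nat_lit 236349867888) (nat_lit 2) (nat_lit 5) (nat_lit 4) (nat_lit 4) (nat_lit 2) (nat_lit 4) (nat_lit 433) (nat_lit 297) (nat_lit 170))))) (XT.nd (nat_lit 36894) (nat_lit 0) (nat_lit 10184) (XT.nd (nat_lit 36738) (nat_lit 0) (nat_lit 10792) (XT.lf (nat_lit 0) (nat_lit 274492426495) (nat_lit 152) (nat_lit 203210426581) (nat_lit 0) (nat_lit 256529938431) (nat_lit 2) (nat_lit 5) (nat_lit 4) (nat_lit 4) (nat_lit 2) (nat_lit 4) (nat_lit 434) (nat_lit 297) (nat_lit 169)) (XT.nd (nat_lit 78) (nat_lit 0) (nat_lit 0) (XT.lf (nat_lit 0)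 (nat_lit 43592488) (nat_lit 228) (nat_lit 3157911604) (nat_lit 0) (nat_lit 43592488) (nat_lit 144) (nat_lit 5) (nat_lit 147) (nat_lit 4) (nat_lit 144) (nat_lit 4) (nat_lit 304) (nat_lit 298) (nat_lit 298)) (XT.lf (nat_lit 0) (nat_lit 3120575944) (nat_lit 228) (nat_lit 2782698230) (nat_lit 0) (nat_lit 613571726) (nat_lit 144) (nat_lit 5) (nat_lit 147) (nat_lit 4) (nat_lit 144) (nat_lit 4) (nat_lit 305) (nat_lit 298) (nat_lit 297)))) (XT.nd (nat_lit 78) (nat_lit 380) (nat_lit 0) (XT.lf (nat_lit 0) (nat_lit 832526619) (nat_lit 228) (nat_lit 5307830777) (nat_lit 228) (nat_lit 413203493) (nat_lit 141) (nat_lit 4) (nat_lit 144) (nat_lit 5) (nat_lit 144) (nat_lit 4) (nat_lit 306) (nat_lit 298) (nat_lit 296)) (XT.nd (nat_lit 78) (nat_lit 304) (nat_lit 0) (XT.lf (nat_lit 0) (nat_lit 2504996937) (nat_lit 304) (nat_lit 2033310290) (nat_lit 76) (nat_lit 2058453888) (nat_lit 140) (nat_lit 5) (nat_lit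 144) (nat_lit 5) (nat_lit 141) (nat_lit 4) (nat_lit 307) (nat_lit 298) (nat_lit 295)) (XT.lf (nat_lit 0) (nat_lit 1769171881) (nat_lit 304) (nat_lit 3647106361) (nat_lit 380) (nat_lit 1232853817) (nat_lit 136) (nat_lit 5) (nat_lit 140) (nat_lit 5) (nat_lit 141) (nat_lit 4) (nat_lit 308) (nat_lit 298) (nat_lit 294)))))) (XT.nd (nat_lit 468) (nat_lit 2508) (nat_lit 0) (XT.nd (nat_lit 234) (nat_lit 608) (nat_lit 0) (XT.nd (nat_lit 78) (nat_lit 912) (nat_lit 0) (XT.lf (nat_lit 0) (nat_lit 1583912889) (nat_lit 380) (nat_lit 1021534836) (nat_lit 76) (nat_lit 4104081232) (nat_lit 135) (nat_lit 5) (nat_lit 140) (nat_lit 5) (nat_lit 136) (nat_lit 5) (nat_lit 309) (nat_lit 298) (nat_lit 293)) (XT.nd (nat_lit 78) (nat_lit 532) (nat_lit 0) (XT.lf (nat_lit 0) (nat_lit 2987779559) (nat_lit 380) (nat_lit 1403268616) (nat_lit 456) (nat_lit 2386686361) (nat_lit 130) (nat_lit 5) (nat_lit 135) (nat_lit 5)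 (nat_lit 136) (nat_lit 5) (nat_lit 310) (nat_lit 298) (nat_lit 292)) (XT.lf (nat_lit 0) (nat_lit 264148779) (nat_lit 456) (nat_lit 78235275) (nat_lit 532) (nat_lit 6513457071) (nat_lit 123) (nat_lit 5) (nat_lit 129) (nat_lit 5) (nat_lit 130) (nat_lit 5) (nat_lit 311) (nat_lit 298) (nat_lit 291)))) (XT.nd (nat_lit 78) (nat_lit 608) (nat_lit 0) (XT.lf (nat_lit 0) (nat_lit 3066446187) (nat_lit 532) (nat_lit 2469875975) (nat_lit 76) (nat_lit 1402937426) (nat_lit 123) (nat_lit 5) (nat_lit 130) (nat_lit 5) (nat_lit 124) (nat_lit 5) (nat_lit 312) (nat_lit 298) (nat_lit 290)) (XT.nd (nat_lit 78) (nat_lit 76) (nat_lit 0) (XT.lf (nat_lit 0) (nat_lit 1793101034) (nat_lit 532) (nat_lit 4022897022) (nat_lit 608) (nat_lit 1216672463) (nat_lit 116) (nat_lit 5) (nat_lit 123) (nat_lit 5) (nat_lit 124) (nat_lit 5) (nat_lit 313) (nat_lit 298) (nat_lit 289)) (XT.lf (nat_lit 0) (nat_lit 1426803199) (nat_lit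 608) (nat_lit 922815430) (nat_lit 76) (nat_lit 4784922768) (nat_lit 115) (nat_lit 5) (nat_lit 123) (nat_lit 5) (nat_lit 116) (nat_lit 5) (nat_lit 314) (nat_lit 298) (nat_lit 288))))) (XT.nd (nat_lit 234) (nat_lit 1140) (nat_lit 0) (XT.nd (nat_lit 78) (nat_lit 760) (nat_lit 0) (XT.lf (nat_lit 0) (nat_lit 3586628306) (nat_lit 608) (nat_lit 499824965) (nat_lit 684) (nat_lit 3158057786) (nat_lit 107) (nat_lit 5) (nat_lit 115) (nat_lit 5) (nat_lit 116) (nat_lit 5) (nat_lit 315) (nat_lit 298) (nat_lit 287)) (XT.nd (nat_lit 78) (nat_lit 76) (nat_lit 0) (XT.lf (nat_lit 0) (nat_lit 876843744) (nat_lit 684) (nat_lit 5927824873) (nat_lit 760) (nat_lit 559266636) (nat_lit 98) (nat_lit 5) (nat_lit 107) (nat_lit 5) (nat_lit 108) (nat_lit 5) (nat_lit 316) (nat_lit 298) (nat_lit 286)) (XT.lf (nat_lit 0) (nat_lit 2046587193) (nat_lit 760) (nat_lit 1889194288) (nat_lit 76) (nat_lit 3554740955) (nat_lit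 97) (nat_lit 5) (nat_lit 107) (nat_lit 5) (nat_lit 98) (nat_lit 5) (nat_lit 317) (nat_lit 298) (nat_lit 285)))) (XT.nd (nat_lit 78) (nat_lit 456) (nat_lit 0) (XT.lf (nat_lit 0) (nat_lit 2903128475) (nat_lit 684) (nat_lit 1787471530) (nat_lit 760) (nat_lit 2936250660) (nat_lit 88) (nat_lit 5) (nat_lit 97) (nat_lit 5) (nat_lit 98) (nat_lit 5) (nat_lit 318) (nat_lit 298) (nat_lit 284)) (XT.nd (nat_lit 78) (nat_lit 76) (nat_lit 0) (XT.lf (nat_lit 0) (nat_lit 104578407) (nat_lit 380) (nat_lit 7288813939) (nat_lit 456) (nat_lit 380467508) (nat_lit 83) (nat_lit 5) (nat_lit 88) (nat_lit 5) (nat_lit 89) (nat_lit 5) (nat_lit 319) (nat_lit 298) (nat_lit 283)) (XT.lf (nat_lit 0) (nat_lit 2226695508) (nat_lit 456) (nat_lit 2777629599) (nat_lit 76) (nat_lit 2922406780) (nat_lit 82) (nat_lit 5) (nat_lit 88) (nat_lit 5) (nat_lit 83) (nat_lit 5) (nat_lit 320) (nat_lit 298) (nat_lit 282))))))))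
noncomputable def xc95 : XT := (XT.nd (nat_lit 1794) (nat_lit 1444) (nat_lit 0) (XT.nd (nat_lit 858) (nat_lit 1444) (nat_lit 0) (XT.nd (nat_lit 390) (nat_lit 1216) (nat_lit 0) (XT.nd (nat_lit 156) (nat_lit 684) (nat_lit 0) (XT.nd (nat_lit 78) (nat_lit 0) (nat_lit 0) (XT.lf (nat_lit 0) (nat_lit 2307036933) (nat_lit 304) (nat_lit 2572500147) (nat_lit 380) (nat_lit 3211160398) (nat_lit 78) (nat_lit 5) (nat_lit 82) (nat_lit 5) (nat_lit 83) (nat_lit 5) (nat_lit 321) (nat_lit 298) (nat_lit 281)) (XT.lf (nat_lit 0) (nat_lit 7607732454) (nat_lit 380) (nat_lit 641052943) (nat_lit 76) (nat_lit 17099552) (nat_lit 78) (nat_lit 5) (nat_lit 83) (nat_lit 5) (nat_lit 79) (nat_lit 5) (nat_lit 322) (nat_lit 298) (nat_lit 280))) (XT.nd (nat_lit 78) (nat_lit 304) (nat_lit 0) (XT.lf (nat_lit 0) (nat_lit 1974450296) (nat_lit 380) (nat_lit 3729005010) (nat_lit 76) (nat_lit 2744108159) (nat_lit 73) (nat_lit 5)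 (nat_lit 78) (nat_lit 5) (nat_lit 74) (nat_lit 5) (nat_lit 323) (nat_lit 298) (nat_lit 279)) (XT.nd (nat_lit 78) (nat_lit 0) (nat_lit 0) (XT.lf (nat_lit 0) (nat_lit 1654483842) (nat_lit 304) (nat_lit 3000369601) (nat_lit 380) (nat_lit 3986156084) (nat_lit 69) (nat_lit 5) (nat_lit 73) (nat_lit 5) (nat_lit 74) (nat_lit 5) (nat_lit 324) (nat_lit 298) (nat_lit 278)) (XT.lf (nat_lit 0) (nat_lit 7320389163) (nat_lit 304) (nat_lit 116342521) (nat_lit 380) (nat_lit 1409154426) (nat_lit 69) (nat_lit 5) (nat_lit 73) (nat_lit 5) (nat_lit 74) (nat_lit 5) (nat_lit 325) (nat_lit 298) (nat_lit 277))))) (XT.nd (nat_lit 234) (nat_lit 608) (nat_lit 0) (XT.nd (nat_lit 78) (nat_lit 228) (nat_lit 0) (XT.lf (nat_lit 0) (nat_lit 1274698942) (nat_lit 380) (nat_lit 4898820785) (nat_lit 76) (nat_lit 2885618125) (nat_lit 64) (nat_lit 5) (nat_lit 69) (nat_lit 5) (nat_lit 65) (nat_lit 5) (nat_lit 326) (nat_lit 298)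 (nat_lit 276)) (XT.nd (nat_lit 78) (nat_lit 0) (nat_lit 0) (XT.lf (nat_lit 0) (nat_lit 785006400) (nat_lit 228) (nat_lit 3210373396) (nat_lit 304) (nat_lit 5289130889) (nat_lit 61) (nat_lit 5) (nat_lit 64) (nat_lit 5) (nat_lit 65) (nat_lit 5) (nat_lit 327) (nat_lit 298) (nat_lit 275)) (XT.lf (nat_lit 0) (nat_lit 6808666714) (nat_lit 228) (nat_lit 38481133) (nat_lit 304) (nat_lit 2674359399) (nat_lit 61) (nat_lit 5) (nat_lit 64) (nat_lit 5) (nat_lit 65) (nat_lit 5) (nat_lit 328) (nat_lit 298) (nat_lit 274)))) (XT.nd (nat_lit 78) (nat_lit 228) (nat_lit 0) (XT.lf (nat_lit 0) (nat_lit 87956829) (nat_lit 380) (nat_lit 6466282293) (nat_lit 76) (nat_lit 3215202525) (nat_lit 56) (nat_lit 5) (nat_lit 61) (nat_lit 5) (nat_lit 57) (nat_lit 5) (nat_lit 329) (nat_lit 298) (nat_lit 273)) (XT.nd (nat_lit 78) (nat_lit 228) (nat_lit 0) (XT.lf (nat_lit 0) (nat_lit 2862556592) (nat_lit 380) (nat_lit 472464232)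 (nat_lit 76) (nat_lit 6694450733) (nat_lit 56) (nat_lit 5) (nat_lit 61) (nat_lit 5) (nat_lit 57) (nat_lit 5) (nat_lit 330) (nat_lit 298) (nat_lit 272)) (XT.lf (nat_lit 0) (nat_lit 5790466983) (nat_lit 304) (nat_lit 4402264413) (nat_lit 76) (nat_lit 109131175) (nat_lit 53) (nat_lit 5) (nat_lit 57) (nat_lit 5) (nat_lit 54) (nat_lit 5) (nat_lit 331) (nat_lit 298) (nat_lit 271)))))) (XT.nd (nat_lit 468) (nat_lit 532) (nat_lit 0) (XT.nd (nat_lit 234) (nat_lit 456) (nat_lit 0) (XT.nd (nat_lit 78) (nat_lit 228) (nat_lit 0) (XT.lf (nat_lit 0) (nat_lit 1915481601) (nat_lit 228) (nat_lit 6964334409) (nat_lit 304) (nat_lit 1707389391) (nat_lit 50) (nat_lit 5) (nat_lit 53) (nat_lit 5) (nat_lit 54) (nat_lit 5) (nat_lit 332) (nat_lit 298) (nat_lit 270)) (XT.nd (nat_lit 78) (nat_lit 152) (nat_lit 0) (XT.lf (nat_lit 0) (nat_lit 1196027212) (nat_lit 304) (nat_lit 2312728292) (nat_lit 76) (nat_lit 7377231130)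 (nat_lit 49) (nat_lit 5) (nat_lit 53) (nat_lit 5) (nat_lit 50) (nat_lit 5) (nat_lit 333) (nat_lit 298) (nat_lit 269)) (XT.lf (nat_lit 0) (nat_lit 4185091380) (nat_lit 228) (nat_lit 6831238790) (nat_lit 76) (nat_lit 182157377) (nat_lit 47) (nat_lit 5) (nat_lit 50) (nat_lit 5) (nat_lit 48) (nat_lit 5) (nat_lit 334) (nat_lit 298) (nat_lit 268)))) (XT.nd (nat_lit 78) (nat_lit 456) (nat_lit 0) (XT.lf (nat_lit 0) (nat_lit 7348980828) (nat_lit 228) (nat_lit 228498389) (nat_lit 76) (nat_lit 3947935135) (nat_lit 47) (nat_lit 5) (nat_lit 50) (nat_lit 5) (nat_lit 48) (nat_lit 5) (nat_lit 335) (nat_lit 298) (nat_lit 267)) (XT.nd (nat_lit 78) (nat_lit 228) (nat_lit 0) (XT.lf (nat_lit 0) (nat_lit 6820587136) (nat_lit 228) (nat_lit 3888434884) (nat_lit 304) (nat_lit 1157833760) (nat_lit 44) (nat_lit 5) (nat_lit 47) (nat_lit 5) (nat_lit 48) (nat_lit 5) (nat_lit 336) (nat_lit 298) (nat_lit 266)) (XT.lf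 (nat_lit 0) (nat_lit 1913719528) (nat_lit 228) (nat_lit 10293341195) (nat_lit 76) (nat_lit 18477623) (nat_lit 41) (nat_lit 5) (nat_lit 44) (nat_lit 5) (nat_lit 42) (nat_lit 5) (nat_lit 337) (nat_lit 298) (nat_lit 265))))) (XT.nd (nat_lit 234) (nat_lit 380) (nat_lit 0) (XT.nd (nat_lit 78) (nat_lit 152) (nat_lit 0) (XT.lf (nat_lit 0) (nat_lit 5183670360) (nat_lit 228) (nat_lit 3351155878) (nat_lit 76) (nat_lit 4062250364) (nat_lit 41) (nat_lit 5) (nat_lit 44) (nat_lit 5) (nat_lit 42) (nat_lit 5) (nat_lit 338) (nat_lit 298) (nat_lit 264)) (XT.nd (nat_lit 78) (nat_lit 0) (nat_lit 0) (XT.lf (nat_lit 0) (nat_lit 3966099157) (nat_lit 152) (nat_lit 4649249926) (nat_lit 228) (nat_lit 4371985587) (nat_lit 39) (nat_lit 5) (nat_lit 41) (nat_lit 5) (nat_lit 42) (nat_lit 5) (nat_lit 339) (nat_lit 298) (nat_lit 263)) (XT.lf (nat_lit 0) (nat_lit 11668178464) (nat_lit 152) (nat_lit 545007661) (nat_lit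 228) (nat_lit 1184242623) (nat_lit 39) (nat_lit 5) (nat_lit 41) (nat_lit 5) (nat_lit 42) (nat_lit 5) (nat_lit 340) (nat_lit 298) (nat_lit 262)))) (XT.nd (nat_lit 78) (nat_lit 152) (nat_lit 0) (XT.lf (nat_lit 0) (nat_lit 2187274604) (nat_lit 228) (nat_lit 7894527629) (nat_lit 76) (nat_lit 3739903218) (nat_lit 36) (nat_lit 5) (nat_lit 39) (nat_lit 5) (nat_lit 37) (nat_lit 5) (nat_lit 341) (nat_lit 298) (nat_lit 261)) (XT.nd (nat_lit 78) (nat_lit 152) (nat_lit 0) (XT.lf (nat_lit 0) (nat_lit 5666907849) (nat_lit 228) (nat_lit 363801259) (nat_lit 76) (nat_lit 8236594037) (nat_lit 36) (nat_lit 5) (nat_lit 39) (nat_lit 5) (nat_lit 37) (nat_lit 5) (nat_lit 342) (nat_lit 298) (nat_lit 260)) (XT.lf (nat_lit 0) (nat_lit 7698721849) (nat_lit 152) (nat_lit 1685464425) (nat_lit 228) (nat_lit 5347853911) (nat_lit 34) (nat_lit 5) (nat_lit 36) (nat_lit 5) (nat_lit 37) (nat_lit 5) (nat_lit 343) (nat_lit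 298) (nat_lit 259))))))) (XT.nd (nat_lit 858) (nat_lit 608) (nat_lit 0) (XT.nd (nat_lit 390) (nat_lit 380) (nat_lit 0) (XT.nd (nat_lit 156) (nat_lit 228) (nat_lit 0) (XT.nd (nat_lit 78) (nat_lit 76) (nat_lit 0) (XT.lf (nat_lit 0) (nat_lit 847457892) (nat_lit 152) (nat_lit 12448502104) (nat_lit 228) (nat_lit 1923663120) (nat_lit 32) (nat_lit 5) (nat_lit 34) (nat_lit 5) (nat_lit 35) (nat_lit 4) (nat_lit 344) (nat_lit 298) (nat_lit 258)) (XT.lf (nat_lit 0) (nat_lit 1711458817) (nat_lit 228) (nat_lit 6507189166) (nat_lit 76) (nat_lit 7507007635) (nat_lit 31) (nat_lit 5) (nat_lit 34) (nat_lit 5) (nat_lit 32) (nat_lit 5) (nat_lit 345) (nat_lit 298) (nat_lit 257))) (XT.nd (nat_lit 78) (nat_lit 76) (nat_lit 0) (XT.lf (nat_lit 0) (nat_lit 1685514130) (nat_lit 152) (nat_lit 3751663728) (nat_lit 228) (nat_lit 10819595758) (nat_lit 29) (nat_lit 5) (nat_lit 31) (nat_lit 5) (nat_lit 32) (nat_lit 5)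 (nat_lit 346) (nat_lit 298) (nat_lit 256)) (XT.nd (nat_lit 78) (nat_lit 76) (nat_lit 0) (XT.lf (nat_lit 0) (nat_lit 9423640893) (nat_lit 228) (nat_lit 6400218919) (nat_lit 76) (nat_lit 986898208) (nat_lit 29) (nat_lit 5) (nat_lit 32) (nat_lit 5) (nat_lit 30) (nat_lit 4) (nat_lit 347) (nat_lit 298) (nat_lit 255)) (XT.lf (nat_lit 0) (nat_lit 2100739029) (nat_lit 76) (nat_lit 11553268950) (nat_lit 152) (nat_lit 3736236437) (nat_lit 28) (nat_lit 5) (nat_lit 29) (nat_lit 5) (nat_lit 30) (nat_lit 4) (nat_lit 348) (nat_lit 298) (nat_lit 254))))) (XT.nd (nat_lit 234) (nat_lit 152) (nat_lit 0) (XT.nd (nat_lit 78) (nat_lit 152) (nat_lit 0) (XT.lf (nat_lit 0) (nat_lit 154769943) (nat_lit 152) (nat_lit 6832306533) (nat_lit 76) (nat_lit 11008547032) (nat_lit 27) (nat_lit 5) (nat_lit 29) (nat_lit 5) (nat_lit 28) (nat_lit 5) (nat_lit 349) (nat_lit 298) (nat_lit 253)) (XT.nd (nat_lit 78) (nat_lit 0) (nat_lit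 0) (XT.lf (nat_lit 0) (nat_lit 1968878232) (nat_lit 152) (nat_lit 2129506629) (nat_lit 228) (nat_lit 14530670674) (nat_lit 25) (nat_lit 5) (nat_lit 27) (nat_lit 5) (nat_lit 28) (nat_lit 5) (nat_lit 350) (nat_lit 298) (nat_lit 252)) (XT.lf (nat_lit 0) (nat_lit 8356537405) (nat_lit 228) (nat_lit 7970483985) (nat_lit 76) (nat_lit 2961296107) (nat_lit 25) (nat_lit 5) (nat_lit 28) (nat_lit 5) (nat_lit 26) (nat_lit 4) (nat_lit 351) (nat_lit 298) (nat_lit 251)))) (XT.nd (nat_lit 78) (nat_lit 76) (nat_lit 0) (XT.lf (nat_lit 0) (nat_lit 1075931882) (nat_lit 76) (nat_lit 11758961451) (nat_lit 152) (nat_lit 7145309366) (nat_lit 24) (nat_lit 5) (nat_lit 25) (nat_lit 5) (nat_lit 26) (nat_lit 4) (nat_lit 352) (nat_lit 298) (nat_lit 250)) (XT.nd (nat_lit 78) (nat_lit 76) (nat_lit 0) (XT.lf (nat_lit 0) (nat_lit 10775343630) (nat_lit 76) (nat_lit 6853322580) (nat_lit 152) (nat_lit 3073464734) (nat_lit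 24) (nat_lit 5) (nat_lit 25) (nat_lit 5) (nat_lit 26) (nat_lit 4) (nat_lit 353) (nat_lit 298) (nat_lit 249)) (XT.lf (nat_lit 0) (nat_lit 1121386562) (nat_lit 152) (nat_lit 593030903) (nat_lit 76) (nat_lit 19746927112) (nat_lit 23) (nat_lit 5) (nat_lit 25) (nat_lit 5) (nat_lit 24) (nat_lit 5) (nat_lit 354) (nat_lit 298) (nat_lit 248)))))) (XT.nd (nat_lit 468) (nat_lit 228) (nat_lit 0) (XT.nd (nat_lit 234) (nat_lit 152) (nat_lit 0) (XT.nd (nat_lit 78) (nat_lit 76) (nat_lit 0) (XT.lf (nat_lit 0) (nat_lit 5589376636) (nat_lit 228) (nat_lit 12923774918) (nat_lit 76) (nat_lit 3734534377) (nat_lit 21) (nat_lit 5) (nat_lit 24) (nat_lit 5) (nat_lit 22) (nat_lit 4) (nat_lit 355) (nat_lit 298) (nat_lit 247)) (XT.nd (nat_lit 78) (nat_lit 76) (nat_lit 0) (XT.lf (nat_lit 0) (nat_lit 10279332748) (nat_lit 228) (nat_lit 3414524900) (nat_lit 76) (nat_lit 9379577909) (nat_lit 21) (nat_lit 5) (nat_lit 24)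 (nat_lit 5) (nat_lit 22) (nat_lit 4) (nat_lit 356) (nat_lit 298) (nat_lit 246)) (XT.lf (nat_lit 0) (nat_lit 6717866456) (nat_lit 76) (nat_lit 8552951047) (nat_lit 152) (nat_lit 8666322222) (nat_lit 20) (nat_lit 5) (nat_lit 21) (nat_lit 5) (nat_lit 22) (nat_lit 4) (nat_lit 357) (nat_lit 298) (nat_lit 245)))) (XT.nd (nat_lit 78) (nat_lit 152) (nat_lit 0) (XT.lf (nat_lit 0) (nat_lit 17409173178) (nat_lit 76) (nat_lit 3123444302) (nat_lit 152) (nat_lit 4310392290) (nat_lit 20) (nat_lit 5) (nat_lit 21) (nat_lit 5) (nat_lit 22) (nat_lit 4) (nat_lit 358) (nat_lit 298) (nat_lit 244)) (XT.nd (nat_lit 78) (nat_lit 0) (nat_lit 0) (XT.lf (nat_lit 0) (nat_lit 304307859) (nat_lit 152) (nat_lit 22970010629) (nat_lit 76) (nat_lit 2517195225) (nat_lit 18) (nat_lit 5) (nat_lit 20) (nat_lit 5) (nat_lit 19) (nat_lit 4) (nat_lit 359) (nat_lit 298) (nat_lit 243)) (XT.lf (nat_lit 0) (nat_lit 5148418389) (nat_lit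 152) (nat_lit 13121979664) (nat_lit 76) (nat_lit 8506350357) (nat_lit 18) (nat_lit 5) (nat_lit 20) (nat_lit 5) (nat_lit 19) (nat_lit 4) (nat_lit 360) (nat_lit 298) (nat_lit 242))))) (XT.nd (nat_lit 234) (nat_lit 152) (nat_lit 0) (XT.nd (nat_lit 78) (nat_lit 76) (nat_lit 0) (XT.lf (nat_lit 0) (nat_lit 10200800475) (nat_lit 152) (nat_lit 2843068407) (nat_lit 76) (nat_lit 14769087234) (nat_lit 18) (nat_lit 5) (nat_lit 20) (nat_lit 5) (nat_lit 19) (nat_lit 4) (nat_lit 361) (nat_lit 298) (nat_lit 241)) (XT.nd (nat_lit 78) (nat_lit 0) (nat_lit 0) (XT.lf (nat_lit 0) (nat_lit 8152115342) (nat_lit 76) (nat_lit 7448645624) (nat_lit 152) (nat_lit 13295479157) (nat_lit 17) (nat_lit 5) (nat_lit 18) (nat_lit 5) (nat_lit 19) (nat_lit 4) (nat_lit 362) (nat_lit 298) (nat_lit 240)) (XT.lf (nat_lit 0) (nat_lit 19738116548) (nat_lit 76) (nat_lit 1549072535) (nat_lit 152) (nat_lit 8745688988) (nat_lit 17)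 (nat_lit 5) (nat_lit 18) (nat_lit 5) (nat_lit 19) (nat_lit 4) (nat_lit 363) (nat_lit 298) (nat_lit 239)))) (XT.nd (nat_lit 78) (nat_lit 76) (nat_lit 0) (XT.lf (nat_lit 0) (nat_lit 566640410) (nat_lit 76) (nat_lit 26742117265) (nat_lit 76) (nat_lit 3915061880) (nat_lit 16) (nat_lit 4) (nat_lit 17) (nat_lit 5) (nat_lit 17) (nat_lit 4) (nat_lit 364) (nat_lit 298) (nat_lit 238)) (XT.nd (nat_lit 78) (nat_lit 0) (nat_lit 0) (XT.lf (nat_lit 0) (nat_lit 1292196594) (nat_lit 152) (nat_lit 20239537248) (nat_lit 76) (nat_lit 10933075699) (nat_lit 15) (nat_lit 5) (nat_lit 17) (nat_lit 5) (nat_lit 16) (nat_lit 4) (nat_lit 365) (nat_lit 298) (nat_lit 237)) (XT.lf (nat_lit 0) (nat_lit 6599231749) (nat_lit 152) (nat_lit 9418672208) (nat_lit 76) (nat_lit 17748197603) (nat_lit 15) (nat_lit 5) (nat_lit 17) (nat_lit 5) (nat_lit 16) (nat_lit 4) (nat_lit 366) (nat_lit 298) (nat_lit 236))))))))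
noncomputable def xc96 : XT := (XT.nd (nat_lit 1716) (nat_lit 228) (nat_lit 0) (XT.nd (nat_lit 858) (nat_lit 304) (nat_lit 0) (XT.nd (nat_lit 390) (nat_lit 152) (nat_lit 0) (XT.nd (nat_lit 156) (nat_lit 76) (nat_lit 0) (XT.nd (nat_lit 78) (nat_lit 0) (nat_lit 0) (XT.lf (nat_lit 0) (nat_lit 1954873175) (nat_lit 76) (nat_lit 10219633688) (nat_lit 152) (nat_lit 22957817266) (nat_lit 14) (nat_lit 5) (nat_lit 15) (nat_lit 5) (nat_lit 16) (nat_lit 4) (nat_lit 367) (nat_lit 298) (nat_lit 235)) (XT.lf (nat_lit 0) (nat_lit 14173981269) (nat_lit 76) (nat_lit 3986974884) (nat_lit 152) (nat_lit 18399291017) (nat_lit 14) (nat_lit 5) (nat_lit 15) (nat_lit 5) (nat_lit 16) (nat_lit 4) (nat_lit 368) (nat_lit 298) (nat_lit 234))) (XT.nd (nat_lit 78) (nat_lit 76) (nat_lit 0) (XT.lf (nat_lit 0) (nat_lit 24460503741) (nat_lit 152) (nat_lit 11144129592) (nat_lit 0) (nat_lit 2454253635) (nat_lit 14) (nat_lit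 5) (nat_lit 16) (nat_lit 4) (nat_lit 14) (nat_lit 4) (nat_lit 369) (nat_lit 298) (nat_lit 233)) (XT.nd (nat_lit 78) (nat_lit 0) (nat_lit 0) (XT.lf (nat_lit 0) (nat_lit 566522585) (nat_lit 76) (nat_lit 30557805608) (nat_lit 76) (nat_lit 8505674538) (nat_lit 13) (nat_lit 4) (nat_lit 14) (nat_lit 5) (nat_lit 14) (nat_lit 4) (nat_lit 370) (nat_lit 298) (nat_lit 232)) (XT.lf (nat_lit 0) (nat_lit 13203991213) (nat_lit 76) (nat_lit 25081651926) (nat_lit 76) (nat_lit 2985824699) (nat_lit 13) (nat_lit 4) (nat_lit 14) (nat_lit 5) (nat_lit 14) (nat_lit 4) (nat_lit 371) (nat_lit 298) (nat_lit 231))))) (XT.nd (nat_lit 234) (nat_lit 0) (nat_lit 0) (XT.nd (nat_lit 78) (nat_lit 76) (nat_lit 0) (XT.lf (nat_lit 0) (nat_lit 2696421680) (nat_lit 152) (nat_lit 16609778169) (nat_lit 76) (nat_lit 23687803362) (nat_lit 12) (nat_lit 5) (nat_lit 14) (nat_lit 5) (nat_lit 13) (nat_lit 4) (nat_lit 372) (nat_lit 298)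 (nat_lit 230)) (XT.nd (nat_lit 78) (nat_lit 76) (nat_lit 0) (XT.lf (nat_lit 0) (nat_lit 8539905817) (nat_lit 152) (nat_lit 4670269391) (nat_lit 76) (nat_lit 31591176673) (nat_lit 12) (nat_lit 5) (nat_lit 14) (nat_lit 5) (nat_lit 13) (nat_lit 4) (nat_lit 373) (nat_lit 298) (nat_lit 229)) (XT.lf (nat_lit 0) (nat_lit 8084860220) (nat_lit 76) (nat_lit 6695472911) (nat_lit 152) (nat_lit 31913503416) (nat_lit 11) (nat_lit 5) (nat_lit 12) (nat_lit 5) (nat_lit 13) (nat_lit 4) (nat_lit 374) (nat_lit 298) (nat_lit 228)))) (XT.nd (nat_lit 78) (nat_lit 0) (nat_lit 0) (XT.lf (nat_lit 0) (nat_lit 21394094577) (nat_lit 152) (nat_lit 27080908413) (nat_lit 0) (nat_lit 202883495) (nat_lit 11) (nat_lit 5) (nat_lit 13) (nat_lit 4) (nat_lit 11) (nat_lit 4) (nat_lit 375) (nat_lit 298) (nat_lit 227)) (XT.nd (nat_lit 78) (nat_lit 0) (nat_lit 0) (XT.lf (nat_lit 0) (nat_lit 28427981737) (nat_lit 152) (nat_lit 15124527751)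 (nat_lit 0) (nat_lit 7204163909) (nat_lit 11) (nat_lit 5) (nat_lit 13) (nat_lit 4) (nat_lit 11) (nat_lit 4) (nat_lit 376) (nat_lit 298) (nat_lit 226)) (XT.lf (nat_lit 0) (nat_lit 35794206864) (nat_lit 152) (nat_lit 2606831673) (nat_lit 0) (nat_lit 14539334994) (nat_lit 11) (nat_lit 5) (nat_lit 13) (nat_lit 4) (nat_lit 11) (nat_lit 4) (nat_lit 377) (nat_lit 298) (nat_lit 225)))))) (XT.nd (nat_lit 390) (nat_lit 76) (nat_lit 0) (XT.nd (nat_lit 156) (nat_lit 152) (nat_lit 0) (XT.nd (nat_lit 78) (nat_lit 0) (nat_lit 0) (XT.lf (nat_lit 0) (nat_lit 10849226875) (nat_lit 76) (nat_lit 32830468552) (nat_lit 76) (nat_lit 11546021403) (nat_lit 10) (nat_lit 4) (nat_lit 11) (nat_lit 5) (nat_lit 11) (nat_lit 4) (nat_lit 378) (nat_lit 298) (nat_lit 224)) (XT.lf (nat_lit 0) (nat_lit 25034387043) (nat_lit 76) (nat_lit 26951128486) (nat_lit 76) (nat_lit 5638514404) (nat_lit 10) (nat_lit 4) (nat_lit 11) (nat_lit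 5) (nat_lit 11) (nat_lit 4) (nat_lit 379) (nat_lit 298) (nat_lit 223))) (XT.nd (nat_lit 78) (nat_lit 76) (nat_lit 0) (XT.lf (nat_lit 0) (nat_lit 528787754) (nat_lit 152) (nat_lit 20255424834) (nat_lit 76) (nat_lit 39358486362) (nat_lit 9) (nat_lit 5) (nat_lit 11) (nat_lit 5) (nat_lit 10) (nat_lit 4) (nat_lit 380) (nat_lit 298) (nat_lit 222)) (XT.nd (nat_lit 78) (nat_lit 76) (nat_lit 0) (XT.lf (nat_lit 0) (nat_lit 6798281211) (nat_lit 152) (nat_lit 7428511486) (nat_lit 76) (nat_lit 48556725871) (nat_lit 9) (nat_lit 5) (nat_lit 11) (nat_lit 5) (nat_lit 10) (nat_lit 4) (nat_lit 381) (nat_lit 298) (nat_lit 221)) (XT.lf (nat_lit 0) (nat_lit 6208377280) (nat_lit 76) (nat_lit 7253913892) (nat_lit 152) (nat_lit 52090040422) (nat_lit 8) (nat_lit 5) (nat_lit 9) (nat_lit 5) (nat_lit 10) (nat_lit 4) (nat_lit 382) (nat_lit 298) (nat_lit 220))))) (XT.nd (nat_lit 234) (nat_lit 76) (nat_lit 0) (XT.nd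 (nat_lit 78) (nat_lit 0) (nat_lit 0) (XT.lf (nat_lit 0) (nat_lit 20572612703) (nat_lit 152) (nat_lit 47701558739) (nat_lit 0) (nat_lit 179762580) (nat_lit 8) (nat_lit 5) (nat_lit 10) (nat_lit 4) (nat_lit 8) (nat_lit 4) (nat_lit 383) (nat_lit 298) (nat_lit 219)) (XT.nd (nat_lit 78) (nat_lit 0) (nat_lit 0) (XT.lf (nat_lit 0) (nat_lit 28142307585) (nat_lit 152) (nat_lit 35624681359) (nat_lit 0) (nat_lit 7728438863) (nat_lit 8) (nat_lit 5) (nat_lit 10) (nat_lit 4) (nat_lit 8) (nat_lit 4) (nat_lit 384) (nat_lit 298) (nat_lit 218)) (XT.lf (nat_lit 0) (nat_lit 36076144977) (nat_lit 152) (nat_lit 22971313779) (nat_lit 0) (nat_lit 15642258542) (nat_lit 8) (nat_lit 5) (nat_lit 10) (nat_lit 4) (nat_lit 8) (nat_lit 4) (nat_lit 385) (nat_lit 298) (nat_lit 217)))) (XT.nd (nat_lit 78) (nat_lit 76) (nat_lit 0) (XT.lf (nat_lit 0) (nat_lit 44393014967) (nat_lit 152) (nat_lit 9711328935) (nat_lit 0) (nat_lit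 23940064043) (nat_lit 8) (nat_lit 5) (nat_lit 10) (nat_lit 4) (nat_lit 8) (nat_lit 4) (nat_lit 386) (nat_lit 298) (nat_lit 216)) (XT.nd (nat_lit 78) (nat_lit 0) (nat_lit 0) (XT.lf (nat_lit 0) (nat_lit 4325280556) (nat_lit 76) (nat_lit 48854968821) (nat_lit 76) (nat_lit 28383861242) (nat_lit 7) (nat_lit 4) (nat_lit 8) (nat_lit 5) (nat_lit 8) (nat_lit 4) (nat_lit 387) (nat_lit 298) (nat_lit 215)) (XT.lf (nat_lit 0) (nat_lit 19376465521) (nat_lit 76) (nat_lit 43182075566) (nat_lit 76) (nat_lit 22693675934) (nat_lit 7) (nat_lit 4) (nat_lit 8) (nat_lit 5) (nat_lit 8) (nat_lit 4) (nat_lit 388) (nat_lit 298) (nat_lit 214))))))) (XT.nd (nat_lit 858) (nat_lit 76) (nat_lit 0) (XT.nd (nat_lit 390) (nat_lit 76) (nat_lit 0) (XT.nd (nat_lit 156) (nat_lit 76) (nat_lit 0) (XT.nd (nat_lit 78) (nat_lit 0) (nat_lit 0) (XT.lf (nat_lit 0) (nat_lit 35156961720) (nat_lit 76) (nat_lit 37236623303) (nat_lit 76)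 (nat_lit 16731755049) (nat_lit 7) (nat_lit 4) (nat_lit 8) (nat_lit 5) (nat_lit 8) (nat_lit 4) (nat_lit 389) (nat_lit 298) (nat_lit 213)) (XT.lf (nat_lit 0) (nat_lit 51704341764) (nat_lit 76) (nat_lit 31004456193) (nat_lit 76) (nat_lit 10483903537) (nat_lit 7) (nat_lit 4) (nat_lit 8) (nat_lit 5) (nat_lit 8) (nat_lit 4) (nat_lit 390) (nat_lit 298) (nat_lit 212))) (XT.nd (nat_lit 78) (nat_lit 76) (nat_lit 0) (XT.lf (nat_lit 0) (nat_lit 69058004177) (nat_lit 76) (nat_lit 24470735743) (nat_lit 76) (nat_lit 3935245562) (nat_lit 7) (nat_lit 4) (nat_lit 8) (nat_lit 5) (nat_lit 8) (nat_lit 4) (nat_lit 391) (nat_lit 298) (nat_lit 211)) (XT.nd (nat_lit 78) (nat_lit 0) (nat_lit 0) (XT.lf (nat_lit 0) (nat_lit 2836038673) (nat_lit 152) (nat_lit 14735837116) (nat_lit 76) (nat_lit 84375198843) (nat_lit 6) (nat_lit 5) (nat_lit 8) (nat_lit 5) (nat_lit 7) (nat_lit 4) (nat_lit 392) (nat_lit 298) (nat_lit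 210)) (XT.lf (nat_lit 0) (nat_lit 9803464471) (nat_lit 152) (nat_lit 466163005) (nat_lit 76) (nat_lit 96381976296) (nat_lit 6) (nat_lit 5) (nat_lit 8) (nat_lit 5) (nat_lit 7) (nat_lit 4) (nat_lit 393) (nat_lit 298) (nat_lit 209))))) (XT.nd (nat_lit 234) (nat_lit 0) (nat_lit 0) (XT.nd (nat_lit 78) (nat_lit 0) (nat_lit 0) (XT.lf (nat_lit 0) (nat_lit 14977841104) (nat_lit 76) (nat_lit 2365578345) (nat_lit 152) (nat_lit 94236734424) (nat_lit 5) (nat_lit 5) (nat_lit 6) (nat_lit 5) (nat_lit 7) (nat_lit 4) (nat_lit 394) (nat_lit 298) (nat_lit 208)) (XT.nd (nat_lit 78) (nat_lit 0) (nat_lit 0) (XT.lf (nat_lit 0) (nat_lit 25351389696) (nat_lit 152) (nat_lit 85655858645) (nat_lit 0) (nat_lit 5743334546) (nat_lit 5) (nat_lit 5) (nat_lit 7) (nat_lit 4) (nat_lit 5) (nat_lit 4) (nat_lit 395) (nat_lit 298) (nat_lit 207)) (XT.lf (nat_lit 0) (nat_lit 33789349982) (nat_lit 152) (nat_lit 74218557746) (nat_lit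 0) (nat_lit 14170148220) (nat_lit 5) (nat_lit 5) (nat_lit 7) (nat_lit 4) (nat_lit 5) (nat_lit 4) (nat_lit 396) (nat_lit 298) (nat_lit 206)))) (XT.nd (nat_lit 78) (nat_lit 0) (nat_lit 0) (XT.lf (nat_lit 0) (nat_lit 42640457381) (nat_lit 152) (nat_lit 62226245097) (nat_lit 0) (nat_lit 23010639799) (nat_lit 5) (nat_lit 5) (nat_lit 7) (nat_lit 4) (nat_lit 5) (nat_lit 4) (nat_lit 397) (nat_lit 298) (nat_lit 205)) (XT.nd (nat_lit 78) (nat_lit 0) (nat_lit 0) (XT.lf (nat_lit 0) (nat_lit 51925785960) (nat_lit 152) (nat_lit 49650367573) (nat_lit 0) (nat_lit 32285858072) (nat_lit 5) (nat_lit 5) (nat_lit 7) (nat_lit 4) (nat_lit 5) (nat_lit 4) (nat_lit 398) (nat_lit 298) (nat_lit 204)) (XT.lf (nat_lit 0) (nat_lit 61667443643) (nat_lit 152) (nat_lit 36460982608) (nat_lit 0) (nat_lit 42017886893) (nat_lit 5) (nat_lit 5) (nat_lit 7) (nat_lit 4) (nat_lit 5) (nat_lit 4) (nat_lit 399) (nat_lit 298) (nat_lit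 203)))))) (XT.nd (nat_lit 468) (nat_lit 0) (nat_lit 0) (XT.nd (nat_lit 234) (nat_lit 0) (nat_lit 0) (XT.nd (nat_lit 78) (nat_lit 76) (nat_lit 0) (XT.lf (nat_lit 0) (nat_lit 71888624853) (nat_lit 152) (nat_lit 22626686903) (nat_lit 0) (nat_lit 52229897758) (nat_lit 5) (nat_lit 5) (nat_lit 7) (nat_lit 4) (nat_lit 5) (nat_lit 4) (nat_lit 400) (nat_lit 298) (nat_lit 202)) (XT.nd (nat_lit 78) (nat_lit 76) (nat_lit 0) (XT.lf (nat_lit 0) (nat_lit 82613665736) (nat_lit 152) (nat_lit 8114541661) (nat_lit 0) (nat_lit 62946204979) (nat_lit 5) (nat_lit 5) (nat_lit 7) (nat_lit 4) (nat_lit 5) (nat_lit 4) (nat_lit 401) (nat_lit 298) (nat_lit 201)) (XT.lf (nat_lit 0) (nat_lit 7345094747) (nat_lit 76) (nat_lit 86637684870) (nat_lit 76) (nat_lit 66961906340) (nat_lit 4) (nat_lit 4) (nat_lit 5) (nat_lit 5) (nat_lit 5) (nat_lit 4) (nat_lit 402) (nat_lit 298) (nat_lit 200)))) (XT.nd (nat_lit 78) (nat_lit 0)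 (nat_lit 0) (XT.lf (nat_lit 0) (nat_lit 23846439527) (nat_lit 76) (nat_lit 82204600457) (nat_lit 76) (nat_lit 62520900238) (nat_lit 4) (nat_lit 4) (nat_lit 5) (nat_lit 5) (nat_lit 5) (nat_lit 4) (nat_lit 403) (nat_lit 298) (nat_lit 199)) (XT.nd (nat_lit 78) (nat_lit 0) (nat_lit 0) (XT.lf (nat_lit 0) (nat_lit 41160478199) (nat_lit 76) (nat_lit 77555822885) (nat_lit 76) (nat_lit 57864578201) (nat_lit 4) (nat_lit 4) (nat_lit 5) (nat_lit 5) (nat_lit 5) (nat_lit 4) (nat_lit 404) (nat_lit 298) (nat_lit 198)) (XT.lf (nat_lit 0) (nat_lit 59328434666) (nat_lit 76) (nat_lit 72680283636) (nat_lit 76) (nat_lit 52981853747) (nat_lit 4) (nat_lit 4) (nat_lit 5) (nat_lit 5) (nat_lit 5) (nat_lit 4) (nat_lit 405) (nat_lit 298) (nat_lit 197))))) (XT.nd (nat_lit 234) (nat_lit 0) (nat_lit 0) (XT.nd (nat_lit 78) (nat_lit 0) (nat_lit 0) (XT.lf (nat_lit 0) (nat_lit 78393565966) (nat_lit 76) (nat_lit 67566374285)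 (nat_lit 76) (nat_lit 47861101343) (nat_lit 4) (nat_lit 4) (nat_lit 5) (nat_lit 5) (nat_lit 5) (nat_lit 4) (nat_lit 406) (nat_lit 298) (nat_lit 196)) (XT.nd (nat_lit 78) (nat_lit 0) (nat_lit 0) (XT.lf (nat_lit 0) (nat_lit 98401265270) (nat_lit 76) (nat_lit 62201918855) (nat_lit 76) (nat_lit 42490128720) (nat_lit 4) (nat_lit 4) (nat_lit 5) (nat_lit 5) (nat_lit 5) (nat_lit 4) (nat_lit 407) (nat_lit 298) (nat_lit 195)) (XT.lf (nat_lit 0) (nat_lit 119399169956) (nat_lit 76) (nat_lit 56574144834) (nat_lit 76) (nat_lit 36856147849) (nat_lit 4) (nat_lit 4) (nat_lit 5) (nat_lit 5) (nat_lit 5) (nat_lit 4) (nat_lit 408) (nat_lit 298) (nat_lit 194)))) (XT.nd (nat_lit 78) (nat_lit 0) (nat_lit 0) (XT.lf (nat_lit 0) (nat_lit 141437275036) (nat_lit 76) (nat_lit 50669652761) (nat_lit 76) (nat_lit 30945744489) (nat_lit 4) (nat_lit 4) (nat_lit 5) (nat_lit 5) (nat_lit 5) (nat_lit 4) (nat_lit 409) (nat_lit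 298) (nat_lit 193)) (XT.nd (nat_lit 78) (nat_lit 0) (nat_lit 0) (XT.lf (nat_lit 0) (nat_lit 164568052188) (nat_lit 76) (nat_lit 44474384320) (nat_lit 76) (nat_lit 24744846252) (nat_lit 4) (nat_lit 4) (nat_lit 5) (nat_lit 5) (nat_lit 5) (nat_lit 4) (nat_lit 410) (nat_lit 298) (nat_lit 192)) (XT.lf (nat_lit 0) (nat_lit 188846574692) (nat_lit 76) (nat_lit 37973588872) (nat_lit 76) (nat_lit 18238689094) (nat_lit 4) (nat_lit 4) (nat_lit 5) (nat_lit 5) (nat_lit 5) (nat_lit 4) (nat_lit 411) (nat_lit 298) (nat_lit 191))))))))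
noncomputable def xc97 : XT := (XT.nd (nat_lit 38376) (nat_lit 0) (nat_lit 5092) (XT.nd (nat_lit 858) (nat_lit 0) (nat_lit 0) (XT.nd (nat_lit 390) (nat_lit 0) (nat_lit 0) (XT.nd (nat_lit 156) (nat_lit 152) (nat_lit 0) (XT.nd (nat_lit 78) (nat_lit 0) (nat_lit 0) (XT.lf (nat_lit 0) (nat_lit 214330648553) (nat_lit 76) (nat_lit 31151788334) (nat_lit 76) (nat_lit 11411782164) (nat_lit 4) (nat_lit 4) (nat_lit 5) (nat_lit 5) (nat_lit 5) (nat_lit 4) (nat_lit 412) (nat_lit 298) (nat_lit 190)) (XT.lf (nat_lit 0) (nat_lit 241080950138) (nat_lit 76) (nat_lit 23992740322) (nat_lit 76) (nat_lit 4247870923) (nat_lit 4) (nat_lit 4) (nat_lit 5) (nat_lit 5) (nat_lit 5) (nat_lit 4) (nat_lit 413) (nat_lit 298) (nat_lit 189))) (XT.nd (nat_lit 78) (nat_lit 76) (nat_lit 0) (XT.lf (nat_lit 0) (nat_lit 3165437888) (nat_lit 152) (nat_lit 13260353374) (nat_lit 76) (nat_lit 265942124529) (nat_lit 3) (nat_lit 5) (nat_lit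 5) (nat_lit 5) (nat_lit 4) (nat_lit 4) (nat_lit 414) (nat_lit 298) (nat_lit 188)) (XT.nd (nat_lit 78) (nat_lit 0) (nat_lit 0) (XT.lf (nat_lit 0) (nat_lit 2471006521) (nat_lit 76) (nat_lit 8370417215) (nat_lit 152) (nat_lit 285219944747) (nat_lit 2) (nat_lit 5) (nat_lit 3) (nat_lit 5) (nat_lit 4) (nat_lit 4) (nat_lit 415) (nat_lit 298) (nat_lit 187)) (XT.lf (nat_lit 0) (nat_lit 19127032861) (nat_lit 152) (nat_lit 290991388316) (nat_lit 0) (nat_lit 309782213) (nat_lit 2) (nat_lit 5) (nat_lit 4) (nat_lit 4) (nat_lit 2) (nat_lit 4) (nat_lit 416) (nat_lit 298) (nat_lit 186))))) (XT.nd (nat_lit 234) (nat_lit 0) (nat_lit 0) (XT.nd (nat_lit 78) (nat_lit 0) (nat_lit 0) (XT.lf (nat_lit 0) (nat_lit 27960525595) (nat_lit 152) (nat_lit 288406710554) (nat_lit 0) (nat_lit 9139464479) (nat_lit 2) (nat_lit 5) (nat_lit 4) (nat_lit 4) (nat_lit 2) (nat_lit 4) (nat_lit 417) (nat_lit 298) (nat_lit 185)) (XT.nd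 (nat_lit 78) (nat_lit 0) (nat_lit 0) (XT.lf (nat_lit 0) (nat_lit 37232248392) (nat_lit 152) (nat_lit 285699489012) (nat_lit 0) (nat_lit 18407558260) (nat_lit 2) (nat_lit 5) (nat_lit 4) (nat_lit 4) (nat_lit 2) (nat_lit 4) (nat_lit 418) (nat_lit 298) (nat_lit 184)) (XT.lf (nat_lit 0) (nat_lit 46964276784) (nat_lit 152) (nat_lit 282863277924) (nat_lit 0) (nat_lit 28136130445) (nat_lit 2) (nat_lit 5) (nat_lit 4) (nat_lit 4) (nat_lit 2) (nat_lit 4) (nat_lit 419) (nat_lit 298) (nat_lit 183)))) (XT.nd (nat_lit 78) (nat_lit 0) (nat_lit 0) (XT.lf (nat_lit 0) (nat_lit 57179782267) (nat_lit 152) (nat_lit 279891324407) (nat_lit 0) (nat_lit 38348344302) (nat_lit 2) (nat_lit 5) (nat_lit 4) (nat_lit 4) (nat_lit 2) (nat_lit 4) (nat_lit 420) (nat_lit 298) (nat_lit 182)) (XT.nd (nat_lit 78) (nat_lit 0) (nat_lit 0) (XT.lf (nat_lit 0) (nat_lit 67903087472) (nat_lit 152) (nat_lit 276776552381) (nat_lit 0)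 (nat_lit 49068514626) (nat_lit 2) (nat_lit 5) (nat_lit 4) (nat_lit 4) (nat_lit 2) (nat_lit 4) (nat_lit 421) (nat_lit 298) (nat_lit 181)) (XT.lf (nat_lit 0) (nat_lit 79159724078) (nat_lit 152) (nat_lit 273511545722) (nat_lit 0) (nat_lit 60322165632) (nat_lit 2) (nat_lit 5) (nat_lit 4) (nat_lit 4) (nat_lit 2) (nat_lit 4) (nat_lit 422) (nat_lit 298) (nat_lit 180)))))) (XT.nd (nat_lit 468) (nat_lit 0) (nat_lit 0) (XT.nd (nat_lit 234) (nat_lit 0) (nat_lit 0) (XT.nd (nat_lit 78) (nat_lit 0) (nat_lit 0) (XT.lf (nat_lit 0) (nat_lit 90976493602) (nat_lit 152) (nat_lit 270088530605) (nat_lit 0) (nat_lit 72136091726) (nat_lit 2) (nat_lit 5) (nat_lit 4) (nat_lit 4) (nat_lit 2) (nat_lit 4) (nat_lit 423) (nat_lit 298) (nat_lit 179)) (XT.nd (nat_lit 78) (nat_lit 0) (nat_lit 0) (XT.lf (nat_lit 0) (nat_lit 103381531209) (nat_lit 152) (nat_lit 266499356993) (nat_lit 0) (nat_lit 84538421304) (nat_lit 2)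 (nat_lit 5) (nat_lit 4) (nat_lit 4) (nat_lit 2) (nat_lit 4) (nat_lit 424) (nat_lit 298) (nat_lit 178)) (XT.lf (nat_lit 0) (nat_lit 116404372703) (nat_lit 152) (nat_lit 262735479235) (nat_lit 0) (nat_lit 97558683723) (nat_lit 2) (nat_lit 5) (nat_lit 4) (nat_lit 4) (nat_lit 2) (nat_lit 4) (nat_lit 425) (nat_lit 298) (nat_lit 177)))) (XT.nd (nat_lit 78) (nat_lit 0) (nat_lit 0) (XT.lf (nat_lit 0) (nat_lit 130076024848) (nat_lit 152) (nat_lit 258787935718) (nat_lit 0) (nat_lit 111227879608) (nat_lit 2) (nat_lit 5) (nat_lit 4) (nat_lit 4) (nat_lit 2) (nat_lit 4) (nat_lit 426) (nat_lit 298) (nat_lit 176)) (XT.nd (nat_lit 78) (nat_lit 0) (nat_lit 0) (XT.lf (nat_lit 0) (nat_lit 144429039199) (nat_lit 152) (nat_lit 254647327529) (nat_lit 0) (nat_lit 125578554662) (nat_lit 2) (nat_lit 5) (nat_lit 4) (nat_lit 4) (nat_lit 2) (nat_lit 4) (nat_lit 427) (nat_lit 298) (nat_lit 175)) (XT.lf (nat_lit 0)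 (nat_lit 159497589598) (nat_lit 152) (nat_lit 250303796075) (nat_lit 0) (nat_lit 140644877159) (nat_lit 2) (nat_lit 5) (nat_lit 4) (nat_lit 4) (nat_lit 2) (nat_lit 4) (nat_lit 428) (nat_lit 298) (nat_lit 174))))) (XT.nd (nat_lit 234) (nat_lit 0) (nat_lit 0) (XT.nd (nat_lit 78) (nat_lit 0) (nat_lit 0) (XT.lf (nat_lit 0) (nat_lit 175317553547) (nat_lit 152) (nat_lit 245746999617) (nat_lit 0) (nat_lit 156462719297) (nat_lit 2) (nat_lit 5) (nat_lit 4) (nat_lit 4) (nat_lit 2) (nat_lit 4) (nat_lit 429) (nat_lit 298) (nat_lit 173)) (XT.nd (nat_lit 78) (nat_lit 0) (nat_lit 0) (XT.lf (nat_lit 0) (nat_lit 191926597626) (nat_lit 152) (nat_lit 240966088638) (nat_lit 0) (nat_lit 173069742604) (nat_lit 2) (nat_lit 5) (nat_lit 4) (nat_lit 4) (nat_lit 2) (nat_lit 4) (nat_lit 430) (nat_lit 298) (nat_lit 172)) (XT.lf (nat_lit 0) (nat_lit 209364267179) (nat_lit 152) (nat_lit 235949680017) (nat_lit 0) (nat_lit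 190505487612) (nat_lit 2) (nat_lit 5) (nat_lit 4) (nat_lit 4) (nat_lit 2) (nat_lit 4) (nat_lit 431) (nat_lit 298) (nat_lit 171)))) (XT.nd (nat_lit 78) (nat_lit 0) (nat_lit 0) (XT.lf (nat_lit 0) (nat_lit 227672080466) (nat_lit 152) (nat_lit 230685829924) (nat_lit 0) (nat_lit 208811467998) (nat_lit 2) (nat_lit 5) (nat_lit 4) (nat_lit 4) (nat_lit 2) (nat_lit 4) (nat_lit 432) (nat_lit 298) (nat_lit 170)) (XT.nd (nat_lit 36660) (nat_lit 0) (nat_lit 11096) (XT.lf (nat_lit 0) (nat_lit 246893627519) (nat_lit 152) (nat_lit 225162005383) (nat_lit 0) (nat_lit 228031269432) (nat_lit 2) (nat_lit 5) (nat_lit 4) (nat_lit 4) (nat_lit 2) (nat_lit 4) (nat_lit 433) (nat_lit 298) (nat_lit 169)) (XT.lf (nat_lit 0) (nat_lit 1574843931) (nat_lit 76) (nat_lit 76835267) (nat_lit 0) (nat_lit 1574843931) (nat_lit 148) (nat_lit 5) (nat_lit 149) (nat_lit 0) (nat_lit 148) (nat_lit 4) (nat_lit 302) (nat_lit 299) (nat_lit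 299))))))) (XT.nd (nat_lit 858) (nat_lit 3496) (nat_lit 0) (XT.nd (nat_lit 390) (nat_lit 1900) (nat_lit 0) (XT.nd (nat_lit 156) (nat_lit 304) (nat_lit 0) (XT.nd (nat_lit 78) (nat_lit 228) (nat_lit 0) (XT.lf (nat_lit 0) (nat_lit 3194905050) (nat_lit 76) (nat_lit 3019008366) (nat_lit 76) (nat_lit 255036215) (nat_lit 147) (nat_lit 4) (nat_lit 148) (nat_lit 5) (nat_lit 148) (nat_lit 4) (nat_lit 303) (nat_lit 299) (nat_lit 298)) (XT.lf (nat_lit 0) (nat_lit 74567573) (nat_lit 152) (nat_lit 2594161282) (nat_lit 228) (nat_lit 3824243347) (nat_lit 144) (nat_lit 5) (nat_lit 146) (nat_lit 5) (nat_lit 147) (nat_lit 4) (nat_lit 304) (nat_lit 299) (nat_lit 297))) (XT.nd (nat_lit 78) (nat_lit 304) (nat_lit 0) (XT.lf (nat_lit 0) (nat_lit 3589261134) (nat_lit 152) (nat_lit 2016881272) (nat_lit 228) (nat_lit 918508556) (nat_lit 144) (nat_lit 5) (nat_lit 146) (nat_lit 5) (nat_lit 147) (nat_lit 4) (nat_lit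 305) (nat_lit 299) (nat_lit 296)) (XT.nd (nat_lit 78) (nat_lit 0) (nat_lit 0) (XT.lf (nat_lit 0) (nat_lit 595952390) (nat_lit 228) (nat_lit 1303573353) (nat_lit 304) (nat_lit 4665382234) (nat_lit 140) (nat_lit 5) (nat_lit 143) (nat_lit 5) (nat_lit 144) (nat_lit 5) (nat_lit 306) (nat_lit 299) (nat_lit 295)) (XT.lf (nat_lit 0) (nat_lit 4280413471) (nat_lit 228) (nat_lit 429184967) (nat_lit 304) (nat_lit 1903128558) (nat_lit 140) (nat_lit 5) (nat_lit 143) (nat_lit 5) (nat_lit 144) (nat_lit 5) (nat_lit 307) (nat_lit 299) (nat_lit 294))))) (XT.nd (nat_lit 234) (nat_lit 1140) (nat_lit 0) (XT.nd (nat_lit 78) (nat_lit 380) (nat_lit 0) (XT.lf (nat_lit 0) (nat_lit 833847045) (nat_lit 380) (nat_lit 5273356272) (nat_lit 76) (nat_lit 561893669) (nat_lit 135) (nat_lit 5) (nat_lit 140) (nat_lit 5) (nat_lit 136) (nat_lit 5) (nat_lit 308) (nat_lit 299) (nat_lit 293)) (XT.nd (nat_lit 78) (nat_lit 380) (nat_lit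 0) (XT.lf (nat_lit 0) (nat_lit 3535210635) (nat_lit 380) (nat_lit 1491471477) (nat_lit 76) (nat_lit 1705816066) (nat_lit 135) (nat_lit 5) (nat_lit 140) (nat_lit 5) (nat_lit 136) (nat_lit 5) (nat_lit 309) (nat_lit 299) (nat_lit 292)) (XT.lf (nat_lit 0) (nat_lit 2445936514) (nat_lit 380) (nat_lit 3815622009) (nat_lit 456) (nat_lit 543346037) (nat_lit 130) (nat_lit 5) (nat_lit 135) (nat_lit 5) (nat_lit 136) (nat_lit 5) (nat_lit 310) (nat_lit 299) (nat_lit 291)))) (XT.nd (nat_lit 78) (nat_lit 1064) (nat_lit 0) (XT.lf (nat_lit 0) (nat_lit 2051588381) (nat_lit 456) (nat_lit 398276835) (nat_lit 76) (nat_lit 4435610252) (nat_lit 129) (nat_lit 5) (nat_lit 135) (nat_lit 5) (nat_lit 130) (nat_lit 5) (nat_lit 311) (nat_lit 299) (nat_lit 290)) (XT.nd (nat_lit 78) (nat_lit 608) (nat_lit 0) (XT.lf (nat_lit 0) (nat_lit 3762276268) (nat_lit 456) (nat_lit 915827548) (nat_lit 532) (nat_lit 2295806902) (nat_lit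 123) (nat_lit 5) (nat_lit 129) (nat_lit 5) (nat_lit 130) (nat_lit 5) (nat_lit 312) (nat_lit 299) (nat_lit 289)) (XT.lf (nat_lit 0) (nat_lit 255189343) (nat_lit 608) (nat_lit 6092671755) (nat_lit 76) (nat_lit 723986333) (nat_lit 115) (nat_lit 5) (nat_lit 123) (nat_lit 5) (nat_lit 116) (nat_lit 5) (nat_lit 313) (nat_lit 299) (nat_lit 288)))))) (XT.nd (nat_lit 468) (nat_lit 1368) (nat_lit 0) (XT.nd (nat_lit 234) (nat_lit 1444) (nat_lit 0) (XT.nd (nat_lit 78) (nat_lit 684) (nat_lit 0) (XT.lf (nat_lit 0) (nat_lit 2795768513) (nat_lit 608) (nat_lit 1852472916) (nat_lit 76) (nat_lit 2527845330) (nat_lit 115) (nat_lit 5) (nat_lit 123) (nat_lit 5) (nat_lit 116) (nat_lit 5) (nat_lit 314) (nat_lit 299) (nat_lit 287)) (XT.nd (nat_lit 78) (nat_lit 76) (nat_lit 0) (XT.lf (nat_lit 0) (nat_lit 2569600975) (nat_lit 608) (nat_lit 2809029081) (nat_lit 684) (nat_lit 1911380516) (nat_lit 107) (nat_lit 5) (nat_lit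 115) (nat_lit 5) (nat_lit 116) (nat_lit 5) (nat_lit 315) (nat_lit 299) (nat_lit 286)) (XT.lf (nat_lit 0) (nat_lit 568254394) (nat_lit 684) (nat_lit 256956992) (nat_lit 76) (nat_lit 6588648563) (nat_lit 106) (nat_lit 5) (nat_lit 115) (nat_lit 5) (nat_lit 107) (nat_lit 5) (nat_lit 316) (nat_lit 299) (nat_lit 285)))) (XT.nd (nat_lit 78) (nat_lit 760) (nat_lit 0) (XT.lf (nat_lit 0) (nat_lit 3081226730) (nat_lit 760) (nat_lit 3135558752) (nat_lit 76) (nat_lit 1327073244) (nat_lit 97) (nat_lit 5) (nat_lit 107) (nat_lit 5) (nat_lit 98) (nat_lit 5) (nat_lit 317) (nat_lit 299) (nat_lit 284)) (XT.nd (nat_lit 78) (nat_lit 76) (nat_lit 0) (XT.lf (nat_lit 0) (nat_lit 1558335835) (nat_lit 684) (nat_lit 4090778967) (nat_lit 760) (nat_lit 2034972777) (nat_lit 88) (nat_lit 5) (nat_lit 97) (nat_lit 5) (nat_lit 98) (nat_lit 5) (nat_lit 318) (nat_lit 299) (nat_lit 283)) (XT.lf (nat_lit 0) (nat_lit 440240808)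 (nat_lit 760) (nat_lit 1357352675) (nat_lit 76) (nat_lit 6036377349) (nat_lit 87) (nat_lit 5) (nat_lit 97) (nat_lit 5) (nat_lit 88) (nat_lit 5) (nat_lit 319) (nat_lit 299) (nat_lit 282))))) (XT.nd (nat_lit 234) (nat_lit 684) (nat_lit 0) (XT.nd (nat_lit 78) (nat_lit 304) (nat_lit 0) (XT.lf (nat_lit 0) (nat_lit 2932268990) (nat_lit 456) (nat_lit 4381294168) (nat_lit 76) (nat_lit 678212107) (nat_lit 82) (nat_lit 5) (nat_lit 88) (nat_lit 5) (nat_lit 83) (nat_lit 5) (nat_lit 320) (nat_lit 299) (nat_lit 281)) (XT.nd (nat_lit 78) (nat_lit 0) (nat_lit 0) (XT.lf (nat_lit 0) (nat_lit 593153714) (nat_lit 304) (nat_lit 4915064667) (nat_lit 380) (nat_lit 2651444737) (nat_lit 78) (nat_lit 5) (nat_lit 82) (nat_lit 5) (nat_lit 83) (nat_lit 5) (nat_lit 321) (nat_lit 299) (nat_lit 280)) (XT.lf (nat_lit 0) (nat_lit 5856767657) (nat_lit 304) (nat_lit 2330773514) (nat_lit 380) (nat_lit 149827002) (nat_lit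 78) (nat_lit 5) (nat_lit 82) (nat_lit 5) (nat_lit 83) (nat_lit 5) (nat_lit 322) (nat_lit 299) (nat_lit 279)))) (XT.nd (nat_lit 78) (nat_lit 304) (nat_lit 0) (XT.lf (nat_lit 0) (nat_lit 2351873340) (nat_lit 380) (nat_lit 5731025521) (nat_lit 76) (nat_lit 441549731) (nat_lit 73) (nat_lit 5) (nat_lit 78) (nat_lit 5) (nat_lit 74) (nat_lit 5) (nat_lit 323) (nat_lit 299) (nat_lit 278)) (XT.nd (nat_lit 78) (nat_lit 304) (nat_lit 0) (XT.lf (nat_lit 0) (nat_lit 4960648754) (nat_lit 380) (nat_lit 455368934) (nat_lit 76) (nat_lit 3305522238) (nat_lit 73) (nat_lit 5) (nat_lit 78) (nat_lit 5) (nat_lit 74) (nat_lit 5) (nat_lit 324) (nat_lit 299) (nat_lit 277)) (XT.lf (nat_lit 0) (nat_lit 5141486518) (nat_lit 304) (nat_lit 2549237014) (nat_lit 380) (nat_lit 1238343991) (nat_lit 69) (nat_lit 5) (nat_lit 73) (nat_lit 5) (nat_lit 74) (nat_lit 5) (nat_lit 325) (nat_lit 299) (nat_lit 276))))))))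
noncomputable def xc98 : XT := (XT.nd (nat_lit 1794) (nat_lit 1216) (nat_lit 0) (XT.nd (nat_lit 858) (nat_lit 1140) (nat_lit 0) (XT.nd (nat_lit 390) (nat_lit 912) (nat_lit 0) (XT.nd (nat_lit 156) (nat_lit 608) (nat_lit 0) (XT.nd (nat_lit 78) (nat_lit 0) (nat_lit 0) (XT.lf (nat_lit 0) (nat_lit 1320862382) (nat_lit 380) (nat_lit 7341526324) (nat_lit 76) (nat_lit 485811402) (nat_lit 64) (nat_lit 5) (nat_lit 69) (nat_lit 5) (nat_lit 65) (nat_lit 5) (nat_lit 326) (nat_lit 299) (nat_lit 275)) (XT.lf (nat_lit 0) (nat_lit 3987275327) (nat_lit 380) (nat_lit 1736859180) (nat_lit 76) (nat_lit 3652204388) (nat_lit 64) (nat_lit 5) (nat_lit 69) (nat_lit 5) (nat_lit 65) (nat_lit 5) (nat_lit 327) (nat_lit 299) (nat_lit 274))) (XT.nd (nat_lit 78) (nat_lit 380) (nat_lit 0) (XT.lf (nat_lit 0) (nat_lit 4176209321) (nat_lit 228) (nat_lit 2593978970) (nat_lit 304) (nat_lit 2846639976) (nat_lit 61) (nat_lit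 5) (nat_lit 64) (nat_lit 5) (nat_lit 65) (nat_lit 5) (nat_lit 328) (nat_lit 299) (nat_lit 273)) (XT.nd (nat_lit 78) (nat_lit 76) (nat_lit 0) (XT.lf (nat_lit 0) (nat_lit 473720545) (nat_lit 304) (nat_lit 9186520719) (nat_lit 380) (nat_lit 210798850) (nat_lit 57) (nat_lit 5) (nat_lit 61) (nat_lit 5) (nat_lit 62) (nat_lit 5) (nat_lit 329) (nat_lit 299) (nat_lit 272)) (XT.lf (nat_lit 0) (nat_lit 2531856252) (nat_lit 380) (nat_lit 3453128163) (nat_lit 76) (nat_lit 4148227984) (nat_lit 56) (nat_lit 5) (nat_lit 61) (nat_lit 5) (nat_lit 57) (nat_lit 5) (nat_lit 330) (nat_lit 299) (nat_lit 271))))) (XT.nd (nat_lit 234) (nat_lit 380) (nat_lit 0) (XT.nd (nat_lit 78) (nat_lit 304) (nat_lit 0) (XT.lf (nat_lit 0) (nat_lit 2770163905) (nat_lit 228) (nat_lit 2602105377) (nat_lit 304) (nat_lit 5037750178) (nat_lit 53) (nat_lit 5) (nat_lit 56) (nat_lit 5) (nat_lit 57) (nat_lit 5) (nat_lit 331) (nat_lit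 299) (nat_lit 270)) (XT.nd (nat_lit 78) (nat_lit 304) (nat_lit 0) (XT.lf (nat_lit 0) (nat_lit 8355003435) (nat_lit 304) (nat_lit 1393994300) (nat_lit 76) (nat_lit 951734519) (nat_lit 53) (nat_lit 5) (nat_lit 57) (nat_lit 5) (nat_lit 54) (nat_lit 5) (nat_lit 332) (nat_lit 299) (nat_lit 269)) (XT.lf (nat_lit 0) (nat_lit 519502868) (nat_lit 304) (nat_lit 5824207881) (nat_lit 76) (nat_lit 4659267414) (nat_lit 49) (nat_lit 5) (nat_lit 53) (nat_lit 5) (nat_lit 50) (nat_lit 5) (nat_lit 333) (nat_lit 299) (nat_lit 268)))) (XT.nd (nat_lit 78) (nat_lit 228) (nat_lit 0) (XT.lf (nat_lit 0) (nat_lit 691985157) (nat_lit 152) (nat_lit 2722154148) (nat_lit 228) (nat_lit 7906095035) (nat_lit 47) (nat_lit 5) (nat_lit 49) (nat_lit 5) (nat_lit 50) (nat_lit 5) (nat_lit 334) (nat_lit 299) (nat_lit 267)) (XT.nd (nat_lit 78) (nat_lit 228) (nat_lit 0) (XT.lf (nat_lit 0) (nat_lit 6502098441) (nat_lit 228) (nat_lit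 4032809927) (nat_lit 76) (nat_lit 1116081560) (nat_lit 47) (nat_lit 5) (nat_lit 50) (nat_lit 5) (nat_lit 48) (nat_lit 5) (nat_lit 335) (nat_lit 299) (nat_lit 266)) (XT.lf (nat_lit 0) (nat_lit 2841489531) (nat_lit 228) (nat_lit 6926687278) (nat_lit 304) (nat_lit 2228983417) (nat_lit 44) (nat_lit 5) (nat_lit 47) (nat_lit 5) (nat_lit 48) (nat_lit 5) (nat_lit 336) (nat_lit 299) (nat_lit 265)))))) (XT.nd (nat_lit 468) (nat_lit 532) (nat_lit 0) (XT.nd (nat_lit 234) (nat_lit 380) (nat_lit 0) (XT.nd (nat_lit 78) (nat_lit 152) (nat_lit 0) (XT.lf (nat_lit 0) (nat_lit 814795634) (nat_lit 304) (nat_lit 2269758114) (nat_lit 76) (nat_lit 9275255986) (nat_lit 43) (nat_lit 5) (nat_lit 47) (nat_lit 5) (nat_lit 44) (nat_lit 5) (nat_lit 337) (nat_lit 299) (nat_lit 264)) (XT.nd (nat_lit 78) (nat_lit 0) (nat_lit 0) (XT.lf (nat_lit 0) (nat_lit 3968309728) (nat_lit 228) (nat_lit 7763785437) (nat_lit 76) (nat_lit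 1005101206) (nat_lit 41) (nat_lit 5) (nat_lit 44) (nat_lit 5) (nat_lit 42) (nat_lit 5) (nat_lit 338) (nat_lit 299) (nat_lit 263)) (XT.lf (nat_lit 0) (nat_lit 7308476947) (nat_lit 228) (nat_lit 619453845) (nat_lit 76) (nat_lit 5204124502) (nat_lit 41) (nat_lit 5) (nat_lit 44) (nat_lit 5) (nat_lit 42) (nat_lit 5) (nat_lit 339) (nat_lit 299) (nat_lit 262)))) (XT.nd (nat_lit 78) (nat_lit 228) (nat_lit 0) (XT.lf (nat_lit 0) (nat_lit 7016901686) (nat_lit 152) (nat_lit 3850534207) (nat_lit 228) (nat_lit 2676681462) (nat_lit 39) (nat_lit 5) (nat_lit 41) (nat_lit 5) (nat_lit 42) (nat_lit 5) (nat_lit 340) (nat_lit 299) (nat_lit 261)) (XT.nd (nat_lit 78) (nat_lit 0) (nat_lit 0) (XT.lf (nat_lit 0) (nat_lit 583382419) (nat_lit 228) (nat_lit 12972199960) (nat_lit 76) (nat_lit 421959612) (nat_lit 36) (nat_lit 5) (nat_lit 39) (nat_lit 5) (nat_lit 37) (nat_lit 5) (nat_lit 341) (nat_lit 299) (nat_lit 260))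 (XT.lf (nat_lit 0) (nat_lit 4035437564) (nat_lit 228) (nat_lit 5485935423) (nat_lit 76) (nat_lit 4903166401) (nat_lit 36) (nat_lit 5) (nat_lit 39) (nat_lit 5) (nat_lit 37) (nat_lit 5) (nat_lit 342) (nat_lit 299) (nat_lit 259))))) (XT.nd (nat_lit 234) (nat_lit 228) (nat_lit 0) (XT.nd (nat_lit 78) (nat_lit 152) (nat_lit 0) (XT.lf (nat_lit 0) (nat_lit 2363482090) (nat_lit 152) (nat_lit 5279670996) (nat_lit 228) (nat_lit 7251621296) (nat_lit 34) (nat_lit 5) (nat_lit 36) (nat_lit 5) (nat_lit 37) (nat_lit 5) (nat_lit 343) (nat_lit 299) (nat_lit 258)) (XT.nd (nat_lit 78) (nat_lit 152) (nat_lit 0) (XT.lf (nat_lit 0) (nat_lit 10710423438) (nat_lit 152) (nat_lit 761125479) (nat_lit 228) (nat_lit 3914996156) (nat_lit 34) (nat_lit 5) (nat_lit 36) (nat_lit 5) (nat_lit 37) (nat_lit 5) (nat_lit 344) (nat_lit 299) (nat_lit 257)) (XT.lf (nat_lit 0) (nat_lit 3539508798) (nat_lit 152) (nat_lit 12018713900)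 (nat_lit 228) (nat_lit 341375525) (nat_lit 32) (nat_lit 5) (nat_lit 34) (nat_lit 5) (nat_lit 35) (nat_lit 4) (nat_lit 345) (nat_lit 299) (nat_lit 256)))) (XT.nd (nat_lit 78) (nat_lit 152) (nat_lit 0) (XT.lf (nat_lit 0) (nat_lit 3344411953) (nat_lit 228) (nat_lit 4256854884) (nat_lit 76) (nat_lit 8832275058) (nat_lit 31) (nat_lit 5) (nat_lit 34) (nat_lit 5) (nat_lit 32) (nat_lit 5) (nat_lit 346) (nat_lit 299) (nat_lit 255)) (XT.nd (nat_lit 78) (nat_lit 0) (nat_lit 0) (XT.lf (nat_lit 0) (nat_lit 4303940130) (nat_lit 152) (nat_lit 2918357233) (nat_lit 228) (nat_lit 9770673337) (nat_lit 29) (nat_lit 5) (nat_lit 31) (nat_lit 5) (nat_lit 32) (nat_lit 5) (nat_lit 347) (nat_lit 299) (nat_lit 254)) (XT.lf (nat_lit 0) (nat_lit 11351203472) (nat_lit 228) (nat_lit 4248941348) (nat_lit 76) (nat_lit 1977400105) (nat_lit 29) (nat_lit 5) (nat_lit 32) (nat_lit 5) (nat_lit 30) (nat_lit 4) (nat_lit 348)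 (nat_lit 299) (nat_lit 253))))))) (XT.nd (nat_lit 858) (nat_lit 532) (nat_lit 0) (XT.nd (nat_lit 390) (nat_lit 304) (nat_lit 0) (XT.nd (nat_lit 156) (nat_lit 228) (nat_lit 0) (XT.nd (nat_lit 78) (nat_lit 76) (nat_lit 0) (XT.lf (nat_lit 0) (nat_lit 4637205005) (nat_lit 76) (nat_lit 11124493874) (nat_lit 152) (nat_lit 2425920643) (nat_lit 28) (nat_lit 5) (nat_lit 29) (nat_lit 5) (nat_lit 30) (nat_lit 4) (nat_lit 349) (nat_lit 299) (nat_lit 252)) (XT.lf (nat_lit 0) (nat_lit 1542708613) (nat_lit 152) (nat_lit 4811834449) (nat_lit 76) (nat_lit 12471046542) (nat_lit 27) (nat_lit 5) (nat_lit 29) (nat_lit 5) (nat_lit 28) (nat_lit 5) (nat_lit 350) (nat_lit 299) (nat_lit 251))) (XT.nd (nat_lit 78) (nat_lit 76) (nat_lit 0) (XT.lf (nat_lit 0) (nat_lit 4391311371) (nat_lit 152) (nat_lit 1262753074) (nat_lit 228) (nat_lit 13838139117) (nat_lit 25) (nat_lit 5) (nat_lit 27) (nat_lit 5) (nat_lit 28) (nat_lit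 5) (nat_lit 351) (nat_lit 299) (nat_lit 250)) (XT.nd (nat_lit 78) (nat_lit 76) (nat_lit 0) (XT.lf (nat_lit 0) (nat_lit 10075273962) (nat_lit 228) (nat_lit 6105104235) (nat_lit 76) (nat_lit 4006579468) (nat_lit 25) (nat_lit 5) (nat_lit 28) (nat_lit 5) (nat_lit 26) (nat_lit 4) (nat_lit 352) (nat_lit 299) (nat_lit 249)) (XT.lf (nat_lit 0) (nat_lit 3357117845) (nat_lit 76) (nat_lit 11393257550) (nat_lit 152) (nat_lit 6164455118) (nat_lit 24) (nat_lit 5) (nat_lit 25) (nat_lit 5) (nat_lit 26) (nat_lit 4) (nat_lit 353) (nat_lit 299) (nat_lit 248))))) (XT.nd (nat_lit 234) (nat_lit 76) (nat_lit 0) (XT.nd (nat_lit 78) (nat_lit 228) (nat_lit 0) (XT.lf (nat_lit 0) (nat_lit 13435434020) (nat_lit 76) (nat_lit 6287748735) (nat_lit 152) (nat_lit 1952738242) (nat_lit 24) (nat_lit 5) (nat_lit 25) (nat_lit 5) (nat_lit 26) (nat_lit 4) (nat_lit 354) (nat_lit 299) (nat_lit 247)) (XT.nd (nat_lit 78) (nat_lit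 0) (nat_lit 0) (XT.lf (nat_lit 0) (nat_lit 1484588661) (nat_lit 152) (nat_lit 890913418) (nat_lit 228) (nat_lit 20098406663) (nat_lit 21) (nat_lit 5) (nat_lit 23) (nat_lit 5) (nat_lit 24) (nat_lit 5) (nat_lit 355) (nat_lit 299) (nat_lit 246)) (XT.lf (nat_lit 0) (nat_lit 7033083227) (nat_lit 228) (nat_lit 11499006673) (nat_lit 76) (nat_lit 4769196291) (nat_lit 21) (nat_lit 5) (nat_lit 24) (nat_lit 5) (nat_lit 22) (nat_lit 4) (nat_lit 356) (nat_lit 299) (nat_lit 245)))) (XT.nd (nat_lit 78) (nat_lit 76) (nat_lit 0) (XT.lf (nat_lit 0) (nat_lit 11902097251) (nat_lit 228) (nat_lit 1612911154) (nat_lit 76) (nat_lit 10656114133) (nat_lit 21) (nat_lit 5) (nat_lit 24) (nat_lit 5) (nat_lit 22) (nat_lit 4) (nat_lit 357) (nat_lit 299) (nat_lit 244)) (XT.nd (nat_lit 78) (nat_lit 0) (nat_lit 0) (XT.lf (nat_lit 0) (nat_lit 8994287834) (nat_lit 76) (nat_lit 8126365592) (nat_lit 152) (nat_lit 7958509577)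 (nat_lit 20) (nat_lit 5) (nat_lit 21) (nat_lit 5) (nat_lit 22) (nat_lit 4) (nat_lit 358) (nat_lit 299) (nat_lit 243)) (XT.lf (nat_lit 0) (nat_lit 20127753794) (nat_lit 76) (nat_lit 2466061272) (nat_lit 152) (nat_lit 3439122612) (nat_lit 20) (nat_lit 5) (nat_lit 21) (nat_lit 5) (nat_lit 22) (nat_lit 4) (nat_lit 359) (nat_lit 299) (nat_lit 242)))))) (XT.nd (nat_lit 468) (nat_lit 228) (nat_lit 0) (XT.nd (nat_lit 234) (nat_lit 152) (nat_lit 0) (XT.nd (nat_lit 78) (nat_lit 0) (nat_lit 0) (XT.lf (nat_lit 0) (nat_lit 1363199741) (nat_lit 152) (nat_lit 22226357400) (nat_lit 76) (nat_lit 3438900140) (nat_lit 18) (nat_lit 5) (nat_lit 20) (nat_lit 5) (nat_lit 19) (nat_lit 4) (nat_lit 360) (nat_lit 299) (nat_lit 241)) (XT.nd (nat_lit 78) (nat_lit 0) (nat_lit 0) (XT.lf (nat_lit 0) (nat_lit 6399816917) (nat_lit 152) (nat_lit 11976027446) (nat_lit 76) (nat_lit 9689615641) (nat_lit 18) (nat_lit 5) (nat_lit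 20) (nat_lit 5) (nat_lit 19) (nat_lit 4) (nat_lit 361) (nat_lit 299) (nat_lit 240)) (XT.lf (nat_lit 0) (nat_lit 11657485841) (nat_lit 152) (nat_lit 1268982588) (nat_lit 76) (nat_lit 16229396611) (nat_lit 18) (nat_lit 5) (nat_lit 20) (nat_lit 5) (nat_lit 19) (nat_lit 4) (nat_lit 362) (nat_lit 299) (nat_lit 239)))) (XT.nd (nat_lit 78) (nat_lit 76) (nat_lit 0) (XT.lf (nat_lit 0) (nat_lit 10248279070) (nat_lit 76) (nat_lit 7060450058) (nat_lit 152) (nat_lit 12985539243) (nat_lit 17) (nat_lit 5) (nat_lit 18) (nat_lit 5) (nat_lit 19) (nat_lit 4) (nat_lit 363) (nat_lit 299) (nat_lit 238)) (XT.nd (nat_lit 78) (nat_lit 76) (nat_lit 0) (XT.lf (nat_lit 0) (nat_lit 22333172815) (nat_lit 76) (nat_lit 902118689) (nat_lit 152) (nat_lit 8254674512) (nat_lit 17) (nat_lit 5) (nat_lit 18) (nat_lit 5) (nat_lit 19) (nat_lit 4) (nat_lit 364) (nat_lit 299) (nat_lit 237)) (XT.lf (nat_lit 0) (nat_lit 2209894664)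 (nat_lit 76) (nat_lit 27341945783) (nat_lit 76) (nat_lit 3188936593) (nat_lit 16) (nat_lit 4) (nat_lit 17) (nat_lit 5) (nat_lit 17) (nat_lit 4) (nat_lit 365) (nat_lit 299) (nat_lit 236))))) (XT.nd (nat_lit 234) (nat_lit 76) (nat_lit 0) (XT.nd (nat_lit 78) (nat_lit 76) (nat_lit 0) (XT.lf (nat_lit 0) (nat_lit 2206685010) (nat_lit 152) (nat_lit 19685073518) (nat_lit 76) (nat_lit 12153478968) (nat_lit 15) (nat_lit 5) (nat_lit 17) (nat_lit 5) (nat_lit 16) (nat_lit 4) (nat_lit 366) (nat_lit 299) (nat_lit 235)) (XT.nd (nat_lit 78) (nat_lit 76) (nat_lit 0) (XT.lf (nat_lit 0) (nat_lit 7738601514) (nat_lit 152) (nat_lit 8397757635) (nat_lit 76) (nat_lit 19277273657) (nat_lit 15) (nat_lit 5) (nat_lit 17) (nat_lit 5) (nat_lit 16) (nat_lit 4) (nat_lit 367) (nat_lit 299) (nat_lit 234)) (XT.lf (nat_lit 0) (nat_lit 3520402949) (nat_lit 76) (nat_lit 10056610442) (nat_lit 152) (nat_lit 23271948911) (nat_lit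 14) (nat_lit 5) (nat_lit 15) (nat_lit 5) (nat_lit 16) (nat_lit 4) (nat_lit 368) (nat_lit 299) (nat_lit 233)))) (XT.nd (nat_lit 78) (nat_lit 76) (nat_lit 0) (XT.lf (nat_lit 0) (nat_lit 16280571871) (nat_lit 76) (nat_lit 3544414171) (nat_lit 152) (nat_lit 18525199169) (nat_lit 14) (nat_lit 5) (nat_lit 15) (nat_lit 5) (nat_lit 16) (nat_lit 4) (nat_lit 369) (nat_lit 299) (nat_lit 232)) (XT.nd (nat_lit 78) (nat_lit 76) (nat_lit 0) (XT.lf (nat_lit 0) (nat_lit 26413056630) (nat_lit 152) (nat_lit 10343294310) (nat_lit 0) (nat_lit 3168741885) (nat_lit 14) (nat_lit 5) (nat_lit 16) (nat_lit 4) (nat_lit 14) (nat_lit 4) (nat_lit 370) (nat_lit 299) (nat_lit 231)) (XT.lf (nat_lit 0) (nat_lit 1930986577) (nat_lit 76) (nat_lit 31465207169) (nat_lit 76) (nat_lit 8179277037) (nat_lit 13) (nat_lit 4) (nat_lit 14) (nat_lit 5) (nat_lit 14) (nat_lit 4) (nat_lit 371) (nat_lit 299) (nat_lit 230))))))))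
noncomputable def xc99 : XT := (XT.nd (nat_lit 1794) (nat_lit 228) (nat_lit 0) (XT.nd (nat_lit 858) (nat_lit 304) (nat_lit 0) (XT.nd (nat_lit 390) (nat_lit 152) (nat_lit 0) (XT.nd (nat_lit 156) (nat_lit 76) (nat_lit 0) (XT.nd (nat_lit 78) (nat_lit 76) (nat_lit 0) (XT.lf (nat_lit 0) (nat_lit 15136703023) (nat_lit 76) (nat_lit 25744792886) (nat_lit 76) (nat_lit 2419229051) (nat_lit 13) (nat_lit 4) (nat_lit 14) (nat_lit 5) (nat_lit 14) (nat_lit 4) (nat_lit 372) (nat_lit 299) (nat_lit 229)) (XT.lf (nat_lit 0) (nat_lit 3491218033) (nat_lit 152) (nat_lit 16206313249) (nat_lit 76) (nat_lit 25412957690) (nat_lit 12) (nat_lit 5) (nat_lit 14) (nat_lit 5) (nat_lit 13) (nat_lit 4) (nat_lit 373) (nat_lit 299) (nat_lit 228))) (XT.nd (nat_lit 78) (nat_lit 76) (nat_lit 0) (XT.lf (nat_lit 0) (nat_lit 9595448983) (nat_lit 152) (nat_lit 3728588738) (nat_lit 76) (nat_lit 33685748992) (nat_lit 12) (nat_lit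 5) (nat_lit 14) (nat_lit 5) (nat_lit 13) (nat_lit 4) (nat_lit 374) (nat_lit 299) (nat_lit 227)) (XT.nd (nat_lit 78) (nat_lit 0) (nat_lit 0) (XT.lf (nat_lit 0) (nat_lit 9645342609) (nat_lit 76) (nat_lit 6490676339) (nat_lit 152) (nat_lit 32861480378) (nat_lit 11) (nat_lit 5) (nat_lit 12) (nat_lit 5) (nat_lit 13) (nat_lit 4) (nat_lit 375) (nat_lit 299) (nat_lit 226)) (XT.lf (nat_lit 0) (nat_lit 23059126320) (nat_lit 152) (nat_lit 27312245051) (nat_lit 0) (nat_lit 710456813) (nat_lit 11) (nat_lit 5) (nat_lit 13) (nat_lit 4) (nat_lit 11) (nat_lit 4) (nat_lit 376) (nat_lit 299) (nat_lit 225))))) (XT.nd (nat_lit 234) (nat_lit 76) (nat_lit 0) (XT.nd (nat_lit 78) (nat_lit 76) (nat_lit 0) (XT.lf (nat_lit 0) (nat_lit 30416358932) (nat_lit 152) (nat_lit 14811507679) (nat_lit 0) (nat_lit 8038114146) (nat_lit 11) (nat_lit 5) (nat_lit 13) (nat_lit 4) (nat_lit 11) (nat_lit 4) (nat_lit 377) (nat_lit 299)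 (nat_lit 224)) (XT.nd (nat_lit 78) (nat_lit 76) (nat_lit 0) (XT.lf (nat_lit 0) (nat_lit 38123896358) (nat_lit 152) (nat_lit 1718843295) (nat_lit 0) (nat_lit 15717484640) (nat_lit 11) (nat_lit 5) (nat_lit 13) (nat_lit 4) (nat_lit 11) (nat_lit 4) (nat_lit 378) (nat_lit 299) (nat_lit 223)) (XT.lf (nat_lit 0) (nat_lit 12393593503) (nat_lit 76) (nat_lit 33999995102) (nat_lit 76) (nat_lit 11566757735) (nat_lit 10) (nat_lit 4) (nat_lit 11) (nat_lit 5) (nat_lit 11) (nat_lit 4) (nat_lit 379) (nat_lit 299) (nat_lit 222)))) (XT.nd (nat_lit 78) (nat_lit 76) (nat_lit 0) (XT.lf (nat_lit 0) (nat_lit 27240301904) (nat_lit 76) (nat_lit 27849164074) (nat_lit 76) (nat_lit 5390378469) (nat_lit 10) (nat_lit 4) (nat_lit 11) (nat_lit 5) (nat_lit 11) (nat_lit 4) (nat_lit 380) (nat_lit 299) (nat_lit 221)) (XT.nd (nat_lit 78) (nat_lit 0) (nat_lit 0) (XT.lf (nat_lit 0) (nat_lit 1043890354) (nat_lit 152) (nat_lit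 20343142034) (nat_lit 76) (nat_lit 41738229348) (nat_lit 9) (nat_lit 5) (nat_lit 11) (nat_lit 5) (nat_lit 10) (nat_lit 4) (nat_lit 381) (nat_lit 299) (nat_lit 220)) (XT.lf (nat_lit 0) (nat_lit 7603588807) (nat_lit 152) (nat_lit 6918933211) (nat_lit 76) (nat_lit 51376770420) (nat_lit 9) (nat_lit 5) (nat_lit 11) (nat_lit 5) (nat_lit 10) (nat_lit 4) (nat_lit 382) (nat_lit 299) (nat_lit 219)))))) (XT.nd (nat_lit 468) (nat_lit 152) (nat_lit 0) (XT.nd (nat_lit 234) (nat_lit 76) (nat_lit 0) (XT.nd (nat_lit 78) (nat_lit 0) (nat_lit 0) (XT.lf (nat_lit 0) (nat_lit 7385590254) (nat_lit 76) (nat_lit 7206580500) (nat_lit 152) (nat_lit 54214813090) (nat_lit 8) (nat_lit 5) (nat_lit 9) (nat_lit 5) (nat_lit 10) (nat_lit 4) (nat_lit 383) (nat_lit 299) (nat_lit 218)) (XT.nd (nat_lit 78) (nat_lit 0) (nat_lit 0) (XT.lf (nat_lit 0) (nat_lit 22042354507) (nat_lit 152) (nat_lit 49245344546) (nat_lit 0) (nat_lit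 566756038) (nat_lit 8) (nat_lit 5) (nat_lit 10) (nat_lit 4) (nat_lit 8) (nat_lit 4) (nat_lit 384) (nat_lit 299) (nat_lit 217)) (XT.lf (nat_lit 0) (nat_lit 29969528839) (nat_lit 152) (nat_lit 36604684827) (nat_lit 0) (nat_lit 8474865881) (nat_lit 8) (nat_lit 5) (nat_lit 10) (nat_lit 4) (nat_lit 8) (nat_lit 4) (nat_lit 385) (nat_lit 299) (nat_lit 216)))) (XT.nd (nat_lit 78) (nat_lit 76) (nat_lit 0) (XT.lf (nat_lit 0) (nat_lit 38280053059) (nat_lit 152) (nat_lit 23356802706) (nat_lit 0) (nat_lit 16767233445) (nat_lit 8) (nat_lit 5) (nat_lit 10) (nat_lit 4) (nat_lit 8) (nat_lit 4) (nat_lit 386) (nat_lit 299) (nat_lit 215)) (XT.nd (nat_lit 78) (nat_lit 76) (nat_lit 0) (XT.lf (nat_lit 0) (nat_lit 46993714127) (nat_lit 152) (nat_lit 9470155608) (nat_lit 0) (nat_lit 25463602461) (nat_lit 8) (nat_lit 5) (nat_lit 10) (nat_lit 4) (nat_lit 8) (nat_lit 4) (nat_lit 387) (nat_lit 299) (nat_lit 214))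 (XT.lf (nat_lit 0) (nat_lit 5256562748) (nat_lit 76) (nat_lit 50956765785) (nat_lit 76) (nat_lit 29410185497) (nat_lit 7) (nat_lit 4) (nat_lit 8) (nat_lit 5) (nat_lit 8) (nat_lit 4) (nat_lit 388) (nat_lit 299) (nat_lit 213))))) (XT.nd (nat_lit 234) (nat_lit 152) (nat_lit 0) (XT.nd (nat_lit 78) (nat_lit 0) (nat_lit 0) (XT.lf (nat_lit 0) (nat_lit 21026258476) (nat_lit 76) (nat_lit 45016463652) (nat_lit 76) (nat_lit 23454198962) (nat_lit 7) (nat_lit 4) (nat_lit 8) (nat_lit 5) (nat_lit 8) (nat_lit 4) (nat_lit 389) (nat_lit 299) (nat_lit 212)) (XT.nd (nat_lit 78) (nat_lit 0) (nat_lit 0) (XT.lf (nat_lit 0) (nat_lit 37563352358) (nat_lit 76) (nat_lit 38789201428) (nat_lit 76) (nat_lit 17211999212) (nat_lit 7) (nat_lit 4) (nat_lit 8) (nat_lit 5) (nat_lit 8) (nat_lit 4) (nat_lit 390) (nat_lit 299) (nat_lit 211)) (XT.lf (nat_lit 0) (nat_lit 54907218426) (nat_lit 76) (nat_lit 32260152298) (nat_lit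 76) (nat_lit 10668723867) (nat_lit 7) (nat_lit 4) (nat_lit 8) (nat_lit 5) (nat_lit 8) (nat_lit 4) (nat_lit 391) (nat_lit 299) (nat_lit 210)))) (XT.nd (nat_lit 78) (nat_lit 152) (nat_lit 0) (XT.lf (nat_lit 0) (nat_lit 73099151599) (nat_lit 76) (nat_lit 25413770907) (nat_lit 76) (nat_lit 3808793700) (nat_lit 7) (nat_lit 4) (nat_lit 8) (nat_lit 5) (nat_lit 8) (nat_lit 4) (nat_lit 392) (nat_lit 299) (nat_lit 209)) (XT.nd (nat_lit 78) (nat_lit 76) (nat_lit 0) (XT.lf (nat_lit 0) (nat_lit 3275811339) (nat_lit 152) (nat_lit 14902467557) (nat_lit 76) (nat_lit 88851177215) (nat_lit 6) (nat_lit 5) (nat_lit 8) (nat_lit 5) (nat_lit 7) (nat_lit 4) (nat_lit 393) (nat_lit 299) (nat_lit 208)) (XT.lf (nat_lit 0) (nat_lit 55309979) (nat_lit 76) (nat_lit 10522972909) (nat_lit 152) (nat_lit 101391598609) (nat_lit 5) (nat_lit 5) (nat_lit 6) (nat_lit 5) (nat_lit 7) (nat_lit 4) (nat_lit 394) (nat_lit 299) (nat_lit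 207))))))) (XT.nd (nat_lit 858) (nat_lit 152) (nat_lit 0) (XT.nd (nat_lit 390) (nat_lit 76) (nat_lit 0) (XT.nd (nat_lit 156) (nat_lit 0) (nat_lit 0) (XT.nd (nat_lit 78) (nat_lit 0) (nat_lit 0) (XT.lf (nat_lit 0) (nat_lit 16260985791) (nat_lit 76) (nat_lit 2228214050) (nat_lit 152) (nat_lit 98655964394) (nat_lit 5) (nat_lit 5) (nat_lit 6) (nat_lit 5) (nat_lit 7) (nat_lit 4) (nat_lit 395) (nat_lit 299) (nat_lit 206)) (XT.lf (nat_lit 0) (nat_lit 26888102729) (nat_lit 152) (nat_lit 89420309999) (nat_lit 0) (nat_lit 6266178447) (nat_lit 5) (nat_lit 5) (nat_lit 7) (nat_lit 4) (nat_lit 5) (nat_lit 4) (nat_lit 396) (nat_lit 299) (nat_lit 205))) (XT.nd (nat_lit 78) (nat_lit 0) (nat_lit 0) (XT.lf (nat_lit 0) (nat_lit 35735144670) (nat_lit 152) (nat_lit 77435826988) (nat_lit 0) (nat_lit 15103110082) (nat_lit 5) (nat_lit 5) (nat_lit 7) (nat_lit 4) (nat_lit 5) (nat_lit 4) (nat_lit 397) (nat_lit 299)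 (nat_lit 204)) (XT.nd (nat_lit 78) (nat_lit 0) (nat_lit 0) (XT.lf (nat_lit 0) (nat_lit 45016601383) (nat_lit 152) (nat_lit 64867406261) (nat_lit 0) (nat_lit 24374937933) (nat_lit 5) (nat_lit 5) (nat_lit 7) (nat_lit 4) (nat_lit 5) (nat_lit 4) (nat_lit 398) (nat_lit 299) (nat_lit 203)) (XT.lf (nat_lit 0) (nat_lit 54754571574) (nat_lit 152) (nat_lit 51685123008) (nat_lit 0) (nat_lit 34103737780) (nat_lit 5) (nat_lit 5) (nat_lit 7) (nat_lit 4) (nat_lit 5) (nat_lit 4) (nat_lit 399) (nat_lit 299) (nat_lit 202))))) (XT.nd (nat_lit 234) (nat_lit 76) (nat_lit 0) (XT.nd (nat_lit 78) (nat_lit 0) (nat_lit 0) (XT.lf (nat_lit 0) (nat_lit 64972240888) (nat_lit 152) (nat_lit 37857590839) (nat_lit 0) (nat_lit 44312673432) (nat_lit 5) (nat_lit 5) (nat_lit 7) (nat_lit 4) (nat_lit 5) (nat_lit 4) (nat_lit 400) (nat_lit 299) (nat_lit 201)) (XT.nd (nat_lit 78) (nat_lit 0) (nat_lit 0) (XT.lf (nat_lit 0) (nat_lit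 75693937108) (nat_lit 152) (nat_lit 23351887059) (nat_lit 0) (nat_lit 55026051878) (nat_lit 5) (nat_lit 5) (nat_lit 7) (nat_lit 4) (nat_lit 5) (nat_lit 4) (nat_lit 401) (nat_lit 299) (nat_lit 200)) (XT.lf (nat_lit 0) (nat_lit 86945188082) (nat_lit 152) (nat_lit 8133474278) (nat_lit 0) (nat_lit 66269381164) (nat_lit 5) (nat_lit 5) (nat_lit 7) (nat_lit 4) (nat_lit 5) (nat_lit 4) (nat_lit 402) (nat_lit 299) (nat_lit 199)))) (XT.nd (nat_lit 78) (nat_lit 0) (nat_lit 0) (XT.lf (nat_lit 0) (nat_lit 8092905330) (nat_lit 76) (nat_lit 90786230106) (nat_lit 76) (nat_lit 70102878722) (nat_lit 4) (nat_lit 4) (nat_lit 5) (nat_lit 5) (nat_lit 5) (nat_lit 4) (nat_lit 403) (nat_lit 299) (nat_lit 198)) (XT.nd (nat_lit 78) (nat_lit 0) (nat_lit 0) (XT.lf (nat_lit 0) (nat_lit 25401195642) (nat_lit 76) (nat_lit 86140221901) (nat_lit 76) (nat_lit 65449685312) (nat_lit 4) (nat_lit 4) (nat_lit 5) (nat_lit 5) (nat_lit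 5) (nat_lit 4) (nat_lit 404) (nat_lit 299) (nat_lit 197)) (XT.lf (nat_lit 0) (nat_lit 43563677480) (nat_lit 76) (nat_lit 81267320145) (nat_lit 76) (nat_lit 60569940503) (nat_lit 4) (nat_lit 4) (nat_lit 5) (nat_lit 5) (nat_lit 5) (nat_lit 4) (nat_lit 405) (nat_lit 299) (nat_lit 196)))))) (XT.nd (nat_lit 468) (nat_lit 152) (nat_lit 0) (XT.nd (nat_lit 234) (nat_lit 0) (nat_lit 0) (XT.nd (nat_lit 78) (nat_lit 0) (nat_lit 0) (XT.lf (nat_lit 0) (nat_lit 62623594847) (nat_lit 76) (nat_lit 76155922690) (nat_lit 76) (nat_lit 55452025856) (nat_lit 4) (nat_lit 4) (nat_lit 5) (nat_lit 5) (nat_lit 5) (nat_lit 4) (nat_lit 406) (nat_lit 299) (nat_lit 195)) (XT.nd (nat_lit 78) (nat_lit 0) (nat_lit 0) (XT.lf (nat_lit 0) (nat_lit 82626328501) (nat_lit 76) (nat_lit 70793859544) (nat_lit 76) (nat_lit 50083755859) (nat_lit 4) (nat_lit 4) (nat_lit 5) (nat_lit 5) (nat_lit 5) (nat_lit 4) (nat_lit 407) (nat_lit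 299) (nat_lit 194)) (XT.lf (nat_lit 0) (nat_lit 103619503996) (nat_lit 76) (nat_lit 65168363888) (nat_lit 76) (nat_lit 44452348917) (nat_lit 4) (nat_lit 4) (nat_lit 5) (nat_lit 5) (nat_lit 5) (nat_lit 4) (nat_lit 408) (nat_lit 299) (nat_lit 193)))) (XT.nd (nat_lit 78) (nat_lit 0) (nat_lit 0) (XT.lf (nat_lit 0) (nat_lit 125653105085) (nat_lit 76) (nat_lit 59266041686) (nat_lit 76) (nat_lit 38544396918) (nat_lit 4) (nat_lit 4) (nat_lit 5) (nat_lit 5) (nat_lit 5) (nat_lit 4) (nat_lit 409) (nat_lit 299) (nat_lit 192)) (XT.nd (nat_lit 78) (nat_lit 0) (nat_lit 0) (XT.lf (nat_lit 0) (nat_lit 148779592722) (nat_lit 76) (nat_lit 53072839789) (nat_lit 76) (nat_lit 32345833311) (nat_lit 4) (nat_lit 4) (nat_lit 5) (nat_lit 5) (nat_lit 5) (nat_lit 4) (nat_lit 410) (nat_lit 299) (nat_lit 191)) (XT.lf (nat_lit 0) (nat_lit 173054029973) (nat_lit 76) (nat_lit 46574012479) (nat_lit 76) (nat_lit 25841899609)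 (nat_lit 4) (nat_lit 4) (nat_lit 5) (nat_lit 5) (nat_lit 5) (nat_lit 4) (nat_lit 411) (nat_lit 299) (nat_lit 190))))) (XT.nd (nat_lit 234) (nat_lit 152) (nat_lit 0) (XT.nd (nat_lit 78) (nat_lit 0) (nat_lit 0) (XT.lf (nat_lit 0) (nat_lit 198534213118) (nat_lit 76) (nat_lit 39754086357) (nat_lit 76) (nat_lit 19017110258) (nat_lit 4) (nat_lit 4) (nat_lit 5) (nat_lit 5) (nat_lit 5) (nat_lit 4) (nat_lit 412) (nat_lit 299) (nat_lit 189)) (XT.nd (nat_lit 78) (nat_lit 0) (nat_lit 0) (XT.lf (nat_lit 0) (nat_lit 225280809258) (nat_lit 76) (nat_lit 32596823504) (nat_lit 76) (nat_lit 11855215757) (nat_lit 4) (nat_lit 4) (nat_lit 5) (nat_lit 5) (nat_lit 5) (nat_lit 4) (nat_lit 413) (nat_lit 299) (nat_lit 188)) (XT.lf (nat_lit 0) (nat_lit 253357500766) (nat_lit 76) (nat_lit 25085182818) (nat_lit 76) (nat_lit 4339163979) (nat_lit 4) (nat_lit 4) (nat_lit 5) (nat_lit 5) (nat_lit 5) (nat_lit 4) (nat_lit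 414) (nat_lit 299) (nat_lit 187)))) (XT.nd (nat_lit 78) (nat_lit 76) (nat_lit 0) (XT.lf (nat_lit 0) (nat_lit 3435352181) (nat_lit 152) (nat_lit 13707747907) (nat_lit 76) (nat_lit 279337605374) (nat_lit 3) (nat_lit 5) (nat_lit 5) (nat_lit 5) (nat_lit 4) (nat_lit 4) (nat_lit 415) (nat_lit 299) (nat_lit 186)) (XT.nd (nat_lit 78) (nat_lit 0) (nat_lit 0) (XT.lf (nat_lit 0) (nat_lit 2806702190) (nat_lit 76) (nat_lit 8686431009) (nat_lit 152) (nat_lit 299365798937) (nat_lit 2) (nat_lit 5) (nat_lit 3) (nat_lit 5) (nat_lit 4) (nat_lit 4) (nat_lit 416) (nat_lit 299) (nat_lit 185)) (XT.lf (nat_lit 0) (nat_lit 20189326123) (nat_lit 152) (nat_lit 305335196120) (nat_lit 0) (nat_lit 419772467) (nat_lit 2) (nat_lit 5) (nat_lit 4) (nat_lit 4) (nat_lit 2) (nat_lit 4) (nat_lit 417) (nat_lit 299) (nat_lit 184))))))))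
noncomputable def xc100 : XT := (XT.nd (nat_lit 38142) (nat_lit 0) (nat_lit 4484) (XT.nd (nat_lit 858) (nat_lit 0) (nat_lit 0) (XT.nd (nat_lit 390) (nat_lit 0) (nat_lit 0) (XT.nd (nat_lit 156) (nat_lit 0) (nat_lit 0) (XT.nd (nat_lit 78) (nat_lit 0) (nat_lit 0) (XT.lf (nat_lit 0) (nat_lit 29459448654) (nat_lit 152) (nat_lit 302631082643) (nat_lit 0) (nat_lit 9686438792) (nat_lit 2) (nat_lit 5) (nat_lit 4) (nat_lit 4) (nat_lit 2) (nat_lit 4) (nat_lit 418) (nat_lit 299) (nat_lit 183)) (XT.lf (nat_lit 0) (nat_lit 39189952983) (nat_lit 152) (nat_lit 299797831616) (nat_lit 0) (nat_lit 19413651496) (nat_lit 2) (nat_lit 5) (nat_lit 4) (nat_lit 4) (nat_lit 2) (nat_lit 4) (nat_lit 419) (nat_lit 299) (nat_lit 182))) (XT.nd (nat_lit 78) (nat_lit 0) (nat_lit 0) (XT.lf (nat_lit 0) (nat_lit 49404006977) (nat_lit 152) (nat_lit 296828697205) (nat_lit 0) (nat_lit 29624570608) (nat_lit 2) (nat_lit 5) (nat_lit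 4) (nat_lit 4) (nat_lit 2) (nat_lit 4) (nat_lit 420) (nat_lit 299) (nat_lit 181)) (XT.nd (nat_lit 78) (nat_lit 0) (nat_lit 0) (XT.lf (nat_lit 0) (nat_lit 60125929812) (nat_lit 152) (nat_lit 293716610041) (nat_lit 0) (nat_lit 40343507842) (nat_lit 2) (nat_lit 5) (nat_lit 4) (nat_lit 4) (nat_lit 2) (nat_lit 4) (nat_lit 421) (nat_lit 299) (nat_lit 180)) (XT.lf (nat_lit 0) (nat_lit 71381249876) (nat_lit 152) (nat_lit 290454160394) (nat_lit 0) (nat_lit 51595984476) (nat_lit 2) (nat_lit 5) (nat_lit 4) (nat_lit 4) (nat_lit 2) (nat_lit 4) (nat_lit 422) (nat_lit 299) (nat_lit 179))))) (XT.nd (nat_lit 234) (nat_lit 0) (nat_lit 0) (XT.nd (nat_lit 78) (nat_lit 0) (nat_lit 0) (XT.lf (nat_lit 0) (nat_lit 83196765549) (nat_lit 152) (nat_lit 287033580526) (nat_lit 0) (nat_lit 63408792121) (nat_lit 2) (nat_lit 5) (nat_lit 4) (nat_lit 4) (nat_lit 2) (nat_lit 4) (nat_lit 423) (nat_lit 299) (nat_lit 178))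 (XT.nd (nat_lit 78) (nat_lit 0) (nat_lit 0) (XT.lf (nat_lit 0) (nat_lit 95600609013) (nat_lit 152) (nat_lit 283446726200) (nat_lit 0) (nat_lit 75810056510) (nat_lit 2) (nat_lit 5) (nat_lit 4) (nat_lit 4) (nat_lit 2) (nat_lit 4) (nat_lit 424) (nat_lit 299) (nat_lit 177)) (XT.lf (nat_lit 0) (nat_lit 108622313227) (nat_lit 152) (nat_lit 279685057285) (nat_lit 0) (nat_lit 88829304463) (nat_lit 2) (nat_lit 5) (nat_lit 4) (nat_lit 4) (nat_lit 2) (nat_lit 4) (nat_lit 425) (nat_lit 299) (nat_lit 176)))) (XT.nd (nat_lit 78) (nat_lit 0) (nat_lit 0) (XT.lf (nat_lit 0) (nat_lit 122292882250) (nat_lit 152) (nat_lit 275739617428) (nat_lit 0) (nat_lit 102497534189) (nat_lit 2) (nat_lit 5) (nat_lit 4) (nat_lit 4) (nat_lit 2) (nat_lit 4) (nat_lit 426) (nat_lit 299) (nat_lit 175)) (XT.nd (nat_lit 78) (nat_lit 0) (nat_lit 0) (XT.lf (nat_lit 0) (nat_lit 136644865055) (nat_lit 152) (nat_lit 271601012724) (nat_lit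 0) (nat_lit 116847289092) (nat_lit 2) (nat_lit 5) (nat_lit 4) (nat_lit 4) (nat_lit 2) (nat_lit 4) (nat_lit 427) (nat_lit 299) (nat_lit 174)) (XT.lf (nat_lit 0) (nat_lit 151712433029) (nat_lit 152) (nat_lit 267259389352) (nat_lit 0) (nat_lit 131912735256) (nat_lit 2) (nat_lit 5) (nat_lit 4) (nat_lit 4) (nat_lit 2) (nat_lit 4) (nat_lit 428) (nat_lit 299) (nat_lit 173)))))) (XT.nd (nat_lit 36816) (nat_lit 0) (nat_lit 10716) (XT.nd (nat_lit 156) (nat_lit 0) (nat_lit 0) (XT.nd (nat_lit 78) (nat_lit 0) (nat_lit 0) (XT.lf (nat_lit 0) (nat_lit 167531461336) (nat_lit 152) (nat_lit 262704410115) (nat_lit 0) (nat_lit 147729742790) (nat_lit 2) (nat_lit 5) (nat_lit 4) (nat_lit 4) (nat_lit 2) (nat_lit 4) (nat_lit 429) (nat_lit 299) (nat_lit 172)) (XT.lf (nat_lit 0) (nat_lit 184139614327) (nat_lit 152) (nat_lit 257925229822) (nat_lit 0) (nat_lit 164335971236) (nat_lit 2) (nat_lit 5) (nat_lit 4) (nat_lit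 4) (nat_lit 2) (nat_lit 4) (nat_lit 430) (nat_lit 299) (nat_lit 171))) (XT.nd (nat_lit 78) (nat_lit 0) (nat_lit 0) (XT.lf (nat_lit 0) (nat_lit 201576435224) (nat_lit 152) (nat_lit 252910469474) (nat_lit 0) (nat_lit 181770959233) (nat_lit 2) (nat_lit 5) (nat_lit 4) (nat_lit 4) (nat_lit 2) (nat_lit 4) (nat_lit 431) (nat_lit 299) (nat_lit 170)) (XT.nd (nat_lit 78) (nat_lit 0) (nat_lit 0) (XT.lf (nat_lit 0) (nat_lit 219883440268) (nat_lit 152) (nat_lit 247648189164) (nat_lit 0) (nat_lit 200076218658) (nat_lit 2) (nat_lit 5) (nat_lit 4) (nat_lit 4) (nat_lit 2) (nat_lit 4) (nat_lit 432) (nat_lit 299) (nat_lit 169)) (XT.lf (nat_lit 0) (nat_lit 239104217565) (nat_lit 152) (nat_lit 242125859655) (nat_lit 0) (nat_lit 219295333461) (nat_lit 2) (nat_lit 5) (nat_lit 4) (nat_lit 4) (nat_lit 2) (nat_lit 4) (nat_lit 433) (nat_lit 299) (nat_lit 168))))) (XT.nd (nat_lit 234) (nat_lit 380) (nat_lit 0) (XT.nd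 (nat_lit 78) (nat_lit 76) (nat_lit 0) (XT.lf (nat_lit 0) (nat_lit 0) (nat_lit 0) (nat_lit 0) (nat_lit 0) (nat_lit 1073741823) (nat_lit 1) (nat_lit 0) (nat_lit 1) (nat_lit 0) (nat_lit 149) (nat_lit 0) (nat_lit 300) (nat_lit 300) (nat_lit 300)) (XT.nd (nat_lit 78) (nat_lit 0) (nat_lit 0) (XT.lf (nat_lit 0) (nat_lit 2999702726) (nat_lit 76) (nat_lit 3347871182) (nat_lit 0) (nat_lit 97531968) (nat_lit 148) (nat_lit 5) (nat_lit 149) (nat_lit 0) (nat_lit 148) (nat_lit 4) (nat_lit 301) (nat_lit 300) (nat_lit 299)) (XT.lf (nat_lit 0) (nat_lit 5958971032) (nat_lit 76) (nat_lit 206154441) (nat_lit 0) (nat_lit 292828123) (nat_lit 148) (nat_lit 5) (nat_lit 149) (nat_lit 0) (nat_lit 148) (nat_lit 4) (nat_lit 302) (nat_lit 300) (nat_lit 298)))) (XT.nd (nat_lit 78) (nat_lit 228) (nat_lit 0) (XT.lf (nat_lit 0) (nat_lit 2375907990) (nat_lit 152) (nat_lit 3427885958) (nat_lit 76) (nat_lit 672903255) (nat_lit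 146) (nat_lit 5) (nat_lit 148) (nat_lit 5) (nat_lit 147) (nat_lit 4) (nat_lit 303) (nat_lit 300) (nat_lit 297)) (XT.nd (nat_lit 78) (nat_lit 228) (nat_lit 0) (XT.lf (nat_lit 0) (nat_lit 5203701866) (nat_lit 152) (nat_lit 137912731) (nat_lit 76) (nat_lit 1163523659) (nat_lit 146) (nat_lit 5) (nat_lit 148) (nat_lit 5) (nat_lit 147) (nat_lit 4) (nat_lit 304) (nat_lit 300) (nat_lit 296)) (XT.lf (nat_lit 0) (nat_lit 1465793389) (nat_lit 228) (nat_lit 3244159050) (nat_lit 76) (nat_lit 1830176103) (nat_lit 143) (nat_lit 5) (nat_lit 146) (nat_lit 5) (nat_lit 144) (nat_lit 5) (nat_lit 305) (nat_lit 300) (nat_lit 295))))))) (XT.nd (nat_lit 858) (nat_lit 3420) (nat_lit 0) (XT.nd (nat_lit 390) (nat_lit 1748) (nat_lit 0) (XT.nd (nat_lit 156) (nat_lit 760) (nat_lit 0) (XT.nd (nat_lit 78) (nat_lit 76) (nat_lit 0) (XT.lf (nat_lit 0) (nat_lit 208596785) (nat_lit 228) (nat_lit 3958931303) (nat_lit 304)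 (nat_lit 2416681747) (nat_lit 140) (nat_lit 5) (nat_lit 143) (nat_lit 5) (nat_lit 144) (nat_lit 5) (nat_lit 306) (nat_lit 300) (nat_lit 294)) (XT.lf (nat_lit 0) (nat_lit 255255022) (nat_lit 304) (nat_lit 2798176723) (nat_lit 76) (nat_lit 3582468144) (nat_lit 139) (nat_lit 5) (nat_lit 143) (nat_lit 5) (nat_lit 140) (nat_lit 5) (nat_lit 307) (nat_lit 300) (nat_lit 293))) (XT.nd (nat_lit 78) (nat_lit 456) (nat_lit 0) (XT.lf (nat_lit 0) (nat_lit 840351816) (nat_lit 304) (nat_lit 1997601931) (nat_lit 380) (nat_lit 3857668221) (nat_lit 135) (nat_lit 5) (nat_lit 139) (nat_lit 5) (nat_lit 140) (nat_lit 5) (nat_lit 308) (nat_lit 300) (nat_lit 292)) (XT.nd (nat_lit 78) (nat_lit 456) (nat_lit 0) (XT.lf (nat_lit 0) (nat_lit 4654589274) (nat_lit 304) (nat_lit 793602549) (nat_lit 380) (nat_lit 1315549046) (nat_lit 135) (nat_lit 5) (nat_lit 139) (nat_lit 5) (nat_lit 140) (nat_lit 5) (nat_lit 309) (nat_lit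 300) (nat_lit 291)) (XT.lf (nat_lit 0) (nat_lit 1202025786) (nat_lit 456) (nat_lit 5093333085) (nat_lit 76) (nat_lit 544566491) (nat_lit 129) (nat_lit 5) (nat_lit 135) (nat_lit 5) (nat_lit 130) (nat_lit 5) (nat_lit 310) (nat_lit 300) (nat_lit 290))))) (XT.nd (nat_lit 234) (nat_lit 1216) (nat_lit 0) (XT.nd (nat_lit 78) (nat_lit 532) (nat_lit 0) (XT.lf (nat_lit 0) (nat_lit 3711937840) (nat_lit 456) (nat_lit 1194628292) (nat_lit 76) (nat_lit 2017027026) (nat_lit 129) (nat_lit 5) (nat_lit 135) (nat_lit 5) (nat_lit 130) (nat_lit 5) (nat_lit 311) (nat_lit 300) (nat_lit 289)) (XT.nd (nat_lit 78) (nat_lit 76) (nat_lit 0) (XT.lf (nat_lit 0) (nat_lit 2886953526) (nat_lit 456) (nat_lit 3373422176) (nat_lit 532) (nat_lit 755689395) (nat_lit 123) (nat_lit 5) (nat_lit 129) (nat_lit 5) (nat_lit 130) (nat_lit 5) (nat_lit 312) (nat_lit 300) (nat_lit 288)) (XT.lf (nat_lit 0) (nat_lit 1655589402) (nat_lit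 532) (nat_lit 34164113) (nat_lit 76) (nat_lit 5427687686) (nat_lit 122) (nat_lit 5) (nat_lit 129) (nat_lit 5) (nat_lit 123) (nat_lit 5) (nat_lit 313) (nat_lit 300) (nat_lit 287)))) (XT.nd (nat_lit 78) (nat_lit 684) (nat_lit 0) (XT.lf (nat_lit 0) (nat_lit 4108316835) (nat_lit 608) (nat_lit 2940991445) (nat_lit 76) (nat_lit 176879563) (nat_lit 115) (nat_lit 5) (nat_lit 123) (nat_lit 5) (nat_lit 116) (nat_lit 5) (nat_lit 314) (nat_lit 300) (nat_lit 286)) (XT.nd (nat_lit 78) (nat_lit 76) (nat_lit 0) (XT.lf (nat_lit 0) (nat_lit 1391156660) (nat_lit 608) (nat_lit 5223613489) (nat_lit 684) (nat_lit 729271183) (nat_lit 107) (nat_lit 5) (nat_lit 115) (nat_lit 5) (nat_lit 116) (nat_lit 5) (nat_lit 315) (nat_lit 300) (nat_lit 285)) (XT.lf (nat_lit 0) (nat_lit 1655460253) (nat_lit 684) (nat_lit 1561240297) (nat_lit 76) (nat_lit 4253219893) (nat_lit 106) (nat_lit 5) (nat_lit 115) (nat_lit 5) (nat_lit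 107) (nat_lit 5) (nat_lit 316) (nat_lit 300) (nat_lit 284)))))) (XT.nd (nat_lit 468) (nat_lit 1216) (nat_lit 0) (XT.nd (nat_lit 234) (nat_lit 760) (nat_lit 0) (XT.nd (nat_lit 78) (nat_lit 760) (nat_lit 0) (XT.lf (nat_lit 0) (nat_lit 3030874129) (nat_lit 684) (nat_lit 1039946640) (nat_lit 760) (nat_lit 3534073428) (nat_lit 97) (nat_lit 5) (nat_lit 106) (nat_lit 5) (nat_lit 107) (nat_lit 5) (nat_lit 317) (nat_lit 300) (nat_lit 283)) (XT.nd (nat_lit 78) (nat_lit 76) (nat_lit 0) (XT.lf (nat_lit 0) (nat_lit 34592740) (nat_lit 684) (nat_lit 6511586140) (nat_lit 760) (nat_lit 1203660560) (nat_lit 88) (nat_lit 5) (nat_lit 97) (nat_lit 5) (nat_lit 98) (nat_lit 5) (nat_lit 318) (nat_lit 300) (nat_lit 282)) (XT.lf (nat_lit 0) (nat_lit 1193216275) (nat_lit 760) (nat_lit 3013516866) (nat_lit 76) (nat_lit 3695008608) (nat_lit 87) (nat_lit 5) (nat_lit 97) (nat_lit 5) (nat_lit 88) (nat_lit 5) (nat_lit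 319) (nat_lit 300) (nat_lit 281)))) (XT.nd (nat_lit 78) (nat_lit 380) (nat_lit 0) (XT.lf (nat_lit 0) (nat_lit 1858218336) (nat_lit 380) (nat_lit 1739283902) (nat_lit 456) (nat_lit 4466508709) (nat_lit 82) (nat_lit 5) (nat_lit 87) (nat_lit 5) (nat_lit 88) (nat_lit 5) (nat_lit 320) (nat_lit 300) (nat_lit 280)) (XT.nd (nat_lit 78) (nat_lit 380) (nat_lit 0) (XT.lf (nat_lit 0) (nat_lit 6089289398) (nat_lit 456) (nat_lit 1275901572) (nat_lit 76) (nat_lit 870989895) (nat_lit 82) (nat_lit 5) (nat_lit 88) (nat_lit 5) (nat_lit 83) (nat_lit 5) (nat_lit 321) (nat_lit 300) (nat_lit 279)) (XT.lf (nat_lit 0) (nat_lit 275346830) (nat_lit 380) (nat_lit 4528092090) (nat_lit 76) (nat_lit 3613638464) (nat_lit 77) (nat_lit 5) (nat_lit 82) (nat_lit 5) (nat_lit 78) (nat_lit 5) (nat_lit 322) (nat_lit 300) (nat_lit 278))))) (XT.nd (nat_lit 234) (nat_lit 608) (nat_lit 0) (XT.nd (nat_lit 78) (nat_lit 304) (nat_lit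 0) (XT.lf (nat_lit 0) (nat_lit 630654794) (nat_lit 304) (nat_lit 2055725336) (nat_lit 380) (nat_lit 5922018179) (nat_lit 73) (nat_lit 5) (nat_lit 77) (nat_lit 5) (nat_lit 78) (nat_lit 5) (nat_lit 323) (nat_lit 300) (nat_lit 277)) (XT.nd (nat_lit 78) (nat_lit 304) (nat_lit 0) (XT.lf (nat_lit 0) (nat_lit 5219444096) (nat_lit 380) (nat_lit 2722256486) (nat_lit 76) (nat_lit 867635475) (nat_lit 73) (nat_lit 5) (nat_lit 78) (nat_lit 5) (nat_lit 74) (nat_lit 5) (nat_lit 324) (nat_lit 300) (nat_lit 276)) (XT.lf (nat_lit 0) (nat_lit 2748223221) (nat_lit 304) (nat_lit 5122391234) (nat_lit 380) (nat_lit 1150252364) (nat_lit 69) (nat_lit 5) (nat_lit 73) (nat_lit 5) (nat_lit 74) (nat_lit 5) (nat_lit 325) (nat_lit 300) (nat_lit 275)))) (XT.nd (nat_lit 78) (nat_lit 532) (nat_lit 0) (XT.lf (nat_lit 0) (nat_lit 1328923229) (nat_lit 380) (nat_lit 780007938) (nat_lit 76) (nat_lit 7134912593) (nat_lit 68)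 (nat_lit 5) (nat_lit 73) (nat_lit 5) (nat_lit 69) (nat_lit 5) (nat_lit 326) (nat_lit 300) (nat_lit 274)) (XT.nd (nat_lit 78) (nat_lit 228) (nat_lit 0) (XT.lf (nat_lit 0) (nat_lit 3909611633) (nat_lit 380) (nat_lit 4463933456) (nat_lit 76) (nat_lit 1102773741) (nat_lit 64) (nat_lit 5) (nat_lit 69) (nat_lit 5) (nat_lit 65) (nat_lit 5) (nat_lit 327) (nat_lit 300) (nat_lit 273)) (XT.lf (nat_lit 0) (nat_lit 1308333841) (nat_lit 228) (nat_lit 5301309277) (nat_lit 304) (nat_lit 3111356827) (nat_lit 61) (nat_lit 5) (nat_lit 64) (nat_lit 5) (nat_lit 65) (nat_lit 5) (nat_lit 328) (nat_lit 300) (nat_lit 272))))))))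
noncomputable def xc101 : XT := (XT.nd (nat_lit 1794) (nat_lit 1140) (nat_lit 0) (XT.nd (nat_lit 858) (nat_lit 1064) (nat_lit 0) (XT.nd (nat_lit 390) (nat_lit 684) (nat_lit 0) (XT.nd (nat_lit 156) (nat_lit 456) (nat_lit 0) (XT.nd (nat_lit 78) (nat_lit 380) (nat_lit 0) (XT.lf (nat_lit 0) (nat_lit 7425339606) (nat_lit 228) (nat_lit 2018994838) (nat_lit 304) (nat_lit 533690833) (nat_lit 61) (nat_lit 5) (nat_lit 64) (nat_lit 5) (nat_lit 65) (nat_lit 5) (nat_lit 329) (nat_lit 300) (nat_lit 271)) (XT.lf (nat_lit 0) (nat_lit 2109080270) (nat_lit 380) (nat_lit 6686141024) (nat_lit 76) (nat_lit 1450780439) (nat_lit 56) (nat_lit 5) (nat_lit 61) (nat_lit 5) (nat_lit 57) (nat_lit 5) (nat_lit 330) (nat_lit 300) (nat_lit 270))) (XT.nd (nat_lit 78) (nat_lit 456) (nat_lit 0) (XT.lf (nat_lit 0) (nat_lit 4871148912) (nat_lit 380) (nat_lit 599509518) (nat_lit 76) (nat_lit 5056106805) (nat_lit 56) (nat_lit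 5) (nat_lit 61) (nat_lit 5) (nat_lit 57) (nat_lit 5) (nat_lit 331) (nat_lit 300) (nat_lit 269)) (XT.nd (nat_lit 78) (nat_lit 228) (nat_lit 0) (XT.lf (nat_lit 0) (nat_lit 5886136265) (nat_lit 228) (nat_lit 1908566229) (nat_lit 304) (nat_lit 3025771913) (nat_lit 53) (nat_lit 5) (nat_lit 56) (nat_lit 5) (nat_lit 57) (nat_lit 5) (nat_lit 332) (nat_lit 300) (nat_lit 268)) (XT.lf (nat_lit 0) (nat_lit 1512969301) (nat_lit 228) (nat_lit 9346909944) (nat_lit 304) (nat_lit 269290445) (nat_lit 50) (nat_lit 5) (nat_lit 53) (nat_lit 5) (nat_lit 54) (nat_lit 5) (nat_lit 333) (nat_lit 300) (nat_lit 267))))) (XT.nd (nat_lit 234) (nat_lit 456) (nat_lit 0) (XT.nd (nat_lit 78) (nat_lit 152) (nat_lit 0) (XT.lf (nat_lit 0) (nat_lit 2590722683) (nat_lit 304) (nat_lit 3164749686) (nat_lit 76) (nat_lit 5693358097) (nat_lit 49) (nat_lit 5) (nat_lit 53) (nat_lit 5) (nat_lit 50) (nat_lit 5) (nat_lit 334) (nat_lit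 300) (nat_lit 266)) (XT.nd (nat_lit 78) (nat_lit 0) (nat_lit 0) (XT.lf (nat_lit 0) (nat_lit 3629661575) (nat_lit 152) (nat_lit 1948361934) (nat_lit 228) (nat_lit 6206626190) (nat_lit 47) (nat_lit 5) (nat_lit 49) (nat_lit 5) (nat_lit 50) (nat_lit 5) (nat_lit 335) (nat_lit 300) (nat_lit 265)) (XT.lf (nat_lit 0) (nat_lit 8738997007) (nat_lit 228) (nat_lit 1386386204) (nat_lit 76) (nat_lit 2010721297) (nat_lit 47) (nat_lit 5) (nat_lit 50) (nat_lit 5) (nat_lit 48) (nat_lit 5) (nat_lit 336) (nat_lit 300) (nat_lit 264)))) (XT.nd (nat_lit 78) (nat_lit 228) (nat_lit 0) (XT.lf (nat_lit 0) (nat_lit 5785691708) (nat_lit 228) (nat_lit 6335398859) (nat_lit 304) (nat_lit 380945058) (nat_lit 44) (nat_lit 5) (nat_lit 47) (nat_lit 5) (nat_lit 48) (nat_lit 5) (nat_lit 337) (nat_lit 300) (nat_lit 263)) (XT.nd (nat_lit 78) (nat_lit 0) (nat_lit 0) (XT.lf (nat_lit 0) (nat_lit 358236175) (nat_lit 152) (nat_lit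 2309341541) (nat_lit 228) (nat_lit 10218026406) (nat_lit 41) (nat_lit 5) (nat_lit 43) (nat_lit 5) (nat_lit 44) (nat_lit 5) (nat_lit 338) (nat_lit 300) (nat_lit 262)) (XT.lf (nat_lit 0) (nat_lit 5943509090) (nat_lit 228) (nat_lit 5390774874) (nat_lit 76) (nat_lit 1949414952) (nat_lit 41) (nat_lit 5) (nat_lit 44) (nat_lit 5) (nat_lit 42) (nat_lit 5) (nat_lit 339) (nat_lit 300) (nat_lit 261)))))) (XT.nd (nat_lit 468) (nat_lit 532) (nat_lit 0) (XT.nd (nat_lit 234) (nat_lit 152) (nat_lit 0) (XT.nd (nat_lit 78) (nat_lit 228) (nat_lit 0) (XT.lf (nat_lit 0) (nat_lit 2044731776) (nat_lit 152) (nat_lit 7353268131) (nat_lit 228) (nat_lit 4303007407) (nat_lit 39) (nat_lit 5) (nat_lit 41) (nat_lit 5) (nat_lit 42) (nat_lit 5) (nat_lit 340) (nat_lit 300) (nat_lit 260)) (XT.nd (nat_lit 78) (nat_lit 228) (nat_lit 0) (XT.lf (nat_lit 0) (nat_lit 9955046155) (nat_lit 152) (nat_lit 3107751880) (nat_lit 228)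 (nat_lit 1074548729) (nat_lit 39) (nat_lit 5) (nat_lit 41) (nat_lit 5) (nat_lit 42) (nat_lit 5) (nat_lit 341) (nat_lit 300) (nat_lit 259)) (XT.lf (nat_lit 0) (nat_lit 2268550806) (nat_lit 228) (nat_lit 10950982732) (nat_lit 76) (nat_lit 1372836661) (nat_lit 36) (nat_lit 5) (nat_lit 39) (nat_lit 5) (nat_lit 37) (nat_lit 5) (nat_lit 342) (nat_lit 300) (nat_lit 258)))) (XT.nd (nat_lit 78) (nat_lit 152) (nat_lit 0) (XT.lf (nat_lit 0) (nat_lit 5814351601) (nat_lit 228) (nat_lit 3217539598) (nat_lit 76) (nat_lit 6033828596) (nat_lit 36) (nat_lit 5) (nat_lit 39) (nat_lit 5) (nat_lit 37) (nat_lit 5) (nat_lit 343) (nat_lit 300) (nat_lit 257)) (XT.nd (nat_lit 78) (nat_lit 0) (nat_lit 0) (XT.lf (nat_lit 0) (nat_lit 4983337620) (nat_lit 152) (nat_lit 4583071530) (nat_lit 228) (nat_lit 5994916217) (nat_lit 34) (nat_lit 5) (nat_lit 36) (nat_lit 5) (nat_lit 37) (nat_lit 5) (nat_lit 344) (nat_lit 300)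 (nat_lit 256)) (XT.lf (nat_lit 0) (nat_lit 13514644899) (nat_lit 228) (nat_lit 2454715234) (nat_lit 76) (nat_lit 111957397) (nat_lit 34) (nat_lit 5) (nat_lit 37) (nat_lit 5) (nat_lit 35) (nat_lit 4) (nat_lit 345) (nat_lit 300) (nat_lit 255))))) (XT.nd (nat_lit 234) (nat_lit 152) (nat_lit 0) (XT.nd (nat_lit 78) (nat_lit 152) (nat_lit 0) (XT.lf (nat_lit 0) (nat_lit 1126723577) (nat_lit 228) (nat_lit 10519455918) (nat_lit 76) (nat_lit 4974015115) (nat_lit 31) (nat_lit 5) (nat_lit 34) (nat_lit 5) (nat_lit 32) (nat_lit 5) (nat_lit 346) (nat_lit 300) (nat_lit 254)) (XT.nd (nat_lit 78) (nat_lit 152) (nat_lit 0) (XT.lf (nat_lit 0) (nat_lit 4915152001) (nat_lit 228) (nat_lit 2133467477) (nat_lit 76) (nat_lit 10135491569) (nat_lit 31) (nat_lit 5) (nat_lit 34) (nat_lit 5) (nat_lit 32) (nat_lit 5) (nat_lit 347) (nat_lit 300) (nat_lit 253)) (XT.lf (nat_lit 0) (nat_lit 6817686155) (nat_lit 152) (nat_lit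 2138298059) (nat_lit 228) (nat_lit 8817118832) (nat_lit 29) (nat_lit 5) (nat_lit 31) (nat_lit 5) (nat_lit 32) (nat_lit 5) (nat_lit 348) (nat_lit 300) (nat_lit 252)))) (XT.nd (nat_lit 78) (nat_lit 152) (nat_lit 0) (XT.lf (nat_lit 0) (nat_lit 13239743721) (nat_lit 228) (nat_lit 2219856881) (nat_lit 76) (nat_lit 2929927242) (nat_lit 29) (nat_lit 5) (nat_lit 32) (nat_lit 5) (nat_lit 30) (nat_lit 4) (nat_lit 349) (nat_lit 300) (nat_lit 251)) (XT.nd (nat_lit 78) (nat_lit 76) (nat_lit 0) (XT.lf (nat_lit 0) (nat_lit 7074443055) (nat_lit 76) (nat_lit 10767849159) (nat_lit 152) (nat_lit 1189277795) (nat_lit 28) (nat_lit 5) (nat_lit 29) (nat_lit 5) (nat_lit 30) (nat_lit 4) (nat_lit 350) (nat_lit 300) (nat_lit 250)) (XT.lf (nat_lit 0) (nat_lit 2871726287) (nat_lit 152) (nat_lit 2909943259) (nat_lit 76) (nat_lit 13921875203) (nat_lit 27) (nat_lit 5) (nat_lit 29) (nat_lit 5) (nat_lit 28) (nat_lit 5)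 (nat_lit 351) (nat_lit 300) (nat_lit 249))))))) (XT.nd (nat_lit 858) (nat_lit 456) (nat_lit 0) (XT.nd (nat_lit 390) (nat_lit 228) (nat_lit 0) (XT.nd (nat_lit 156) (nat_lit 304) (nat_lit 0) (XT.nd (nat_lit 78) (nat_lit 0) (nat_lit 0) (XT.lf (nat_lit 0) (nat_lit 6718803676) (nat_lit 152) (nat_lit 443143439) (nat_lit 228) (nat_lit 13242912203) (nat_lit 25) (nat_lit 5) (nat_lit 27) (nat_lit 5) (nat_lit 28) (nat_lit 5) (nat_lit 352) (nat_lit 300) (nat_lit 248)) (XT.lf (nat_lit 0) (nat_lit 11759001095) (nat_lit 228) (nat_lit 4356931829) (nat_lit 76) (nat_lit 5020712121) (nat_lit 25) (nat_lit 5) (nat_lit 28) (nat_lit 5) (nat_lit 26) (nat_lit 4) (nat_lit 353) (nat_lit 300) (nat_lit 247))) (XT.nd (nat_lit 78) (nat_lit 228) (nat_lit 0) (XT.lf (nat_lit 0) (nat_lit 5545281556) (nat_lit 76) (nat_lit 11097929976) (nat_lit 152) (nat_lit 5258963846) (nat_lit 24) (nat_lit 5) (nat_lit 25) (nat_lit 5) (nat_lit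 26) (nat_lit 4) (nat_lit 354) (nat_lit 300) (nat_lit 246)) (XT.nd (nat_lit 78) (nat_lit 228) (nat_lit 0) (XT.lf (nat_lit 0) (nat_lit 16031308405) (nat_lit 76) (nat_lit 5778335742) (nat_lit 152) (nat_lit 894457032) (nat_lit 24) (nat_lit 5) (nat_lit 25) (nat_lit 5) (nat_lit 26) (nat_lit 4) (nat_lit 355) (nat_lit 300) (nat_lit 245)) (XT.lf (nat_lit 0) (nat_lit 3488849663) (nat_lit 152) (nat_lit 101200267) (nat_lit 228) (nat_lit 19952220708) (nat_lit 21) (nat_lit 5) (nat_lit 23) (nat_lit 5) (nat_lit 24) (nat_lit 5) (nat_lit 356) (nat_lit 300) (nat_lit 244))))) (XT.nd (nat_lit 234) (nat_lit 152) (nat_lit 0) (XT.nd (nat_lit 78) (nat_lit 76) (nat_lit 0) (XT.lf (nat_lit 0) (nat_lit 8440735356) (nat_lit 228) (nat_lit 10195537967) (nat_lit 76) (nat_lit 5776758324) (nat_lit 21) (nat_lit 5) (nat_lit 24) (nat_lit 5) (nat_lit 22) (nat_lit 4) (nat_lit 357) (nat_lit 300) (nat_lit 243)) (XT.nd (nat_lit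 78) (nat_lit 0) (nat_lit 0) (XT.lf (nat_lit 0) (nat_lit 98568612) (nat_lit 76) (nat_lit 13405884783) (nat_lit 152) (nat_lit 11824368462) (nat_lit 20) (nat_lit 5) (nat_lit 21) (nat_lit 5) (nat_lit 22) (nat_lit 4) (nat_lit 358) (nat_lit 300) (nat_lit 242)) (XT.lf (nat_lit 0) (nat_lit 11204118376) (nat_lit 76) (nat_lit 7757869353) (nat_lit 152) (nat_lit 7321397635) (nat_lit 20) (nat_lit 5) (nat_lit 21) (nat_lit 5) (nat_lit 22) (nat_lit 4) (nat_lit 359) (nat_lit 300) (nat_lit 241)))) (XT.nd (nat_lit 78) (nat_lit 152) (nat_lit 0) (XT.lf (nat_lit 0) (nat_lit 22810442580) (nat_lit 76) (nat_lit 1851445747) (nat_lit 152) (nat_lit 2625328818) (nat_lit 20) (nat_lit 5) (nat_lit 21) (nat_lit 5) (nat_lit 22) (nat_lit 4) (nat_lit 360) (nat_lit 300) (nat_lit 240)) (XT.nd (nat_lit 78) (nat_lit 0) (nat_lit 0) (XT.lf (nat_lit 0) (nat_lit 2378005070) (nat_lit 152) (nat_lit 21621436031) (nat_lit 76) (nat_lit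 4332700162) (nat_lit 18) (nat_lit 5) (nat_lit 20) (nat_lit 5) (nat_lit 19) (nat_lit 4) (nat_lit 361) (nat_lit 300) (nat_lit 239)) (XT.lf (nat_lit 0) (nat_lit 7621374755) (nat_lit 152) (nat_lit 10940315258) (nat_lit 76) (nat_lit 10861577390) (nat_lit 18) (nat_lit 5) (nat_lit 20) (nat_lit 5) (nat_lit 19) (nat_lit 4) (nat_lit 362) (nat_lit 300) (nat_lit 238)))))) (XT.nd (nat_lit 468) (nat_lit 228) (nat_lit 0) (XT.nd (nat_lit 234) (nat_lit 152) (nat_lit 0) (XT.nd (nat_lit 78) (nat_lit 0) (nat_lit 0) (XT.lf (nat_lit 0) (nat_lit 231662511) (nat_lit 76) (nat_lit 12870949753) (nat_lit 152) (nat_lit 17467564609) (nat_lit 17) (nat_lit 5) (nat_lit 18) (nat_lit 5) (nat_lit 19) (nat_lit 4) (nat_lit 363) (nat_lit 300) (nat_lit 237)) (XT.nd (nat_lit 78) (nat_lit 0) (nat_lit 0) (XT.lf (nat_lit 0) (nat_lit 12292264870) (nat_lit 76) (nat_lit 6723560682) (nat_lit 152) (nat_lit 12750721990) (nat_lit 17) (nat_lit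 5) (nat_lit 18) (nat_lit 5) (nat_lit 19) (nat_lit 4) (nat_lit 364) (nat_lit 300) (nat_lit 236)) (XT.lf (nat_lit 0) (nat_lit 24908471310) (nat_lit 76) (nat_lit 290165690) (nat_lit 152) (nat_lit 7825413746) (nat_lit 17) (nat_lit 5) (nat_lit 18) (nat_lit 5) (nat_lit 19) (nat_lit 4) (nat_lit 365) (nat_lit 300) (nat_lit 235)))) (XT.nd (nat_lit 78) (nat_lit 76) (nat_lit 0) (XT.lf (nat_lit 0) (nat_lit 3785171468) (nat_lit 76) (nat_lit 28040310785) (nat_lit 76) (nat_lit 2512212555) (nat_lit 16) (nat_lit 4) (nat_lit 17) (nat_lit 5) (nat_lit 17) (nat_lit 4) (nat_lit 366) (nat_lit 300) (nat_lit 234)) (XT.nd (nat_lit 78) (nat_lit 0) (nat_lit 0) (XT.lf (nat_lit 0) (nat_lit 3087884191) (nat_lit 152) (nat_lit 19248519400) (nat_lit 76) (nat_lit 13372263558) (nat_lit 15) (nat_lit 5) (nat_lit 17) (nat_lit 5) (nat_lit 16) (nat_lit 4) (nat_lit 367) (nat_lit 300) (nat_lit 233)) (XT.lf (nat_lit 0) (nat_lit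 8859688667) (nat_lit 152) (nat_lit 7464495237) (nat_lit 76) (nat_lit 20823147476) (nat_lit 15) (nat_lit 5) (nat_lit 17) (nat_lit 5) (nat_lit 16) (nat_lit 4) (nat_lit 368) (nat_lit 300) (nat_lit 232))))) (XT.nd (nat_lit 234) (nat_lit 152) (nat_lit 0) (XT.nd (nat_lit 78) (nat_lit 0) (nat_lit 0) (XT.lf (nat_lit 0) (nat_lit 5027748372) (nat_lit 76) (nat_lit 9948098624) (nat_lit 152) (nat_lit 23679302167) (nat_lit 14) (nat_lit 5) (nat_lit 15) (nat_lit 5) (nat_lit 16) (nat_lit 4) (nat_lit 369) (nat_lit 300) (nat_lit 231)) (XT.nd (nat_lit 78) (nat_lit 0) (nat_lit 0) (XT.lf (nat_lit 0) (nat_lit 18362529298) (nat_lit 76) (nat_lit 3139404080) (nat_lit 152) (nat_lit 18731226567) (nat_lit 14) (nat_lit 5) (nat_lit 15) (nat_lit 5) (nat_lit 16) (nat_lit 4) (nat_lit 370) (nat_lit 300) (nat_lit 230)) (XT.lf (nat_lit 0) (nat_lit 28395412592) (nat_lit 152) (nat_lit 9628675114) (nat_lit 0) (nat_lit 3863936863)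 (nat_lit 14) (nat_lit 5) (nat_lit 16) (nat_lit 4) (nat_lit 14) (nat_lit 4) (nat_lit 371) (nat_lit 300) (nat_lit 229)))) (XT.nd (nat_lit 78) (nat_lit 76) (nat_lit 0) (XT.lf (nat_lit 0) (nat_lit 3239452335) (nat_lit 76) (nat_lit 32475665969) (nat_lit 76) (nat_lit 7906443857) (nat_lit 13) (nat_lit 4) (nat_lit 14) (nat_lit 5) (nat_lit 14) (nat_lit 4) (nat_lit 372) (nat_lit 300) (nat_lit 228)) (XT.nd (nat_lit 78) (nat_lit 76) (nat_lit 0) (XT.lf (nat_lit 0) (nat_lit 17047744297) (nat_lit 76) (nat_lit 26496031046) (nat_lit 76) (nat_lit 1890859997) (nat_lit 13) (nat_lit 4) (nat_lit 14) (nat_lit 5) (nat_lit 14) (nat_lit 4) (nat_lit 373) (nat_lit 300) (nat_lit 227)) (XT.lf (nat_lit 0) (nat_lit 4264395959) (nat_lit 152) (nat_lit 15897396414) (nat_lit 76) (nat_lit 27174094607) (nat_lit 12) (nat_lit 5) (nat_lit 14) (nat_lit 5) (nat_lit 13) (nat_lit 4) (nat_lit 374) (nat_lit 300) (nat_lit 226))))))))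
noncomputable def xc102 : XT := (XT.nd (nat_lit 1794) (nat_lit 228) (nat_lit 0) (XT.nd (nat_lit 858) (nat_lit 228) (nat_lit 0) (XT.nd (nat_lit 390) (nat_lit 228) (nat_lit 0) (XT.nd (nat_lit 156) (nat_lit 0) (nat_lit 0) (XT.nd (nat_lit 78) (nat_lit 76) (nat_lit 0) (XT.lf (nat_lit 0) (nat_lit 10645332884) (nat_lit 152) (nat_lit 2849082463) (nat_lit 76) (nat_lit 35837168854) (nat_lit 12) (nat_lit 5) (nat_lit 14) (nat_lit 5) (nat_lit 13) (nat_lit 4) (nat_lit 375) (nat_lit 300) (nat_lit 225)) (XT.lf (nat_lit 0) (nat_lit 11176352940) (nat_lit 76) (nat_lit 6325804064) (nat_lit 152) (nat_lit 33917073030) (nat_lit 11) (nat_lit 5) (nat_lit 12) (nat_lit 5) (nat_lit 13) (nat_lit 4) (nat_lit 376) (nat_lit 300) (nat_lit 224))) (XT.nd (nat_lit 78) (nat_lit 0) (nat_lit 0) (XT.lf (nat_lit 0) (nat_lit 24752061786) (nat_lit 152) (nat_lit 27659527342) (nat_lit 0) (nat_lit 1197162550) (nat_lit 11) (nat_lit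 5) (nat_lit 13) (nat_lit 4) (nat_lit 11) (nat_lit 4) (nat_lit 377) (nat_lit 300) (nat_lit 223)) (XT.nd (nat_lit 78) (nat_lit 0) (nat_lit 0) (XT.lf (nat_lit 0) (nat_lit 32451442736) (nat_lit 152) (nat_lit 14582245004) (nat_lit 0) (nat_lit 8869717850) (nat_lit 11) (nat_lit 5) (nat_lit 13) (nat_lit 4) (nat_lit 11) (nat_lit 4) (nat_lit 378) (nat_lit 300) (nat_lit 222)) (XT.lf (nat_lit 0) (nat_lit 40519868183) (nat_lit 152) (nat_lit 881130165) (nat_lit 0) (nat_lit 16912595060) (nat_lit 11) (nat_lit 5) (nat_lit 13) (nat_lit 4) (nat_lit 11) (nat_lit 4) (nat_lit 379) (nat_lit 300) (nat_lit 221))))) (XT.nd (nat_lit 234) (nat_lit 76) (nat_lit 0) (XT.nd (nat_lit 78) (nat_lit 76) (nat_lit 0) (XT.lf (nat_lit 0) (nat_lit 13922030807) (nat_lit 76) (nat_lit 35271879776) (nat_lit 76) (nat_lit 11640274996) (nat_lit 10) (nat_lit 4) (nat_lit 11) (nat_lit 5) (nat_lit 11) (nat_lit 4) (nat_lit 380) (nat_lit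 300) (nat_lit 220)) (XT.nd (nat_lit 78) (nat_lit 76) (nat_lit 0) (XT.lf (nat_lit 0) (nat_lit 29467800455) (nat_lit 76) (nat_lit 28833893629) (nat_lit 76) (nat_lit 5179115845) (nat_lit 10) (nat_lit 4) (nat_lit 11) (nat_lit 5) (nat_lit 11) (nat_lit 4) (nat_lit 381) (nat_lit 300) (nat_lit 219)) (XT.lf (nat_lit 0) (nat_lit 1539316810) (nat_lit 152) (nat_lit 20521247850) (nat_lit 76) (nat_lit 44198672487) (nat_lit 9) (nat_lit 5) (nat_lit 11) (nat_lit 5) (nat_lit 10) (nat_lit 4) (nat_lit 382) (nat_lit 300) (nat_lit 218)))) (XT.nd (nat_lit 78) (nat_lit 76) (nat_lit 0) (XT.lf (nat_lit 0) (nat_lit 8405893903) (nat_lit 152) (nat_lit 6465783409) (nat_lit 76) (nat_lit 54301353390) (nat_lit 9) (nat_lit 5) (nat_lit 11) (nat_lit 5) (nat_lit 10) (nat_lit 4) (nat_lit 383) (nat_lit 300) (nat_lit 217)) (XT.nd (nat_lit 78) (nat_lit 0) (nat_lit 0) (XT.lf (nat_lit 0) (nat_lit 8541077576) (nat_lit 76) (nat_lit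 7195001057) (nat_lit 152) (nat_lit 56490425079) (nat_lit 8) (nat_lit 5) (nat_lit 9) (nat_lit 5) (nat_lit 10) (nat_lit 4) (nat_lit 384) (nat_lit 300) (nat_lit 216)) (XT.lf (nat_lit 0) (nat_lit 23544573065) (nat_lit 152) (nat_lit 50944535011) (nat_lit 0) (nat_lit 937955815) (nat_lit 8) (nat_lit 5) (nat_lit 10) (nat_lit 4) (nat_lit 8) (nat_lit 4) (nat_lit 385) (nat_lit 300) (nat_lit 215)))))) (XT.nd (nat_lit 468) (nat_lit 152) (nat_lit 0) (XT.nd (nat_lit 234) (nat_lit 76) (nat_lit 0) (XT.nd (nat_lit 78) (nat_lit 0) (nat_lit 0) (XT.lf (nat_lit 0) (nat_lit 31849053694) (nat_lit 152) (nat_lit 37708179295) (nat_lit 0) (nat_lit 9225144391) (nat_lit 8) (nat_lit 5) (nat_lit 10) (nat_lit 4) (nat_lit 8) (nat_lit 4) (nat_lit 386) (nat_lit 300) (nat_lit 214)) (XT.nd (nat_lit 78) (nat_lit 0) (nat_lit 0) (XT.lf (nat_lit 0) (nat_lit 40556958961) (nat_lit 152) (nat_lit 23832509725) (nat_lit 0) (nat_lit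 17916581036) (nat_lit 8) (nat_lit 5) (nat_lit 10) (nat_lit 4) (nat_lit 8) (nat_lit 4) (nat_lit 387) (nat_lit 300) (nat_lit 213)) (XT.lf (nat_lit 0) (nat_lit 49689021976) (nat_lit 152) (nat_lit 9284488991) (nat_lit 0) (nat_lit 27032959650) (nat_lit 8) (nat_lit 5) (nat_lit 10) (nat_lit 4) (nat_lit 8) (nat_lit 4) (nat_lit 388) (nat_lit 300) (nat_lit 212)))) (XT.nd (nat_lit 78) (nat_lit 0) (nat_lit 0) (XT.lf (nat_lit 0) (nat_lit 6167933438) (nat_lit 76) (nat_lit 53195351035) (nat_lit 76) (nat_lit 30524351182) (nat_lit 7) (nat_lit 4) (nat_lit 8) (nat_lit 5) (nat_lit 8) (nat_lit 4) (nat_lit 389) (nat_lit 300) (nat_lit 211)) (XT.nd (nat_lit 78) (nat_lit 0) (nat_lit 0) (XT.lf (nat_lit 0) (nat_lit 22695230974) (nat_lit 76) (nat_lit 46972760130) (nat_lit 76) (nat_lit 24287534063) (nat_lit 7) (nat_lit 4) (nat_lit 8) (nat_lit 5) (nat_lit 8) (nat_lit 4) (nat_lit 390) (nat_lit 300) (nat_lit 210)) (XT.lf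 (nat_lit 0) (nat_lit 40029767189) (nat_lit 76) (nat_lit 40448159876) (nat_lit 76) (nat_lit 17749385032) (nat_lit 7) (nat_lit 4) (nat_lit 8) (nat_lit 5) (nat_lit 8) (nat_lit 4) (nat_lit 391) (nat_lit 300) (nat_lit 209))))) (XT.nd (nat_lit 234) (nat_lit 76) (nat_lit 0) (XT.nd (nat_lit 78) (nat_lit 76) (nat_lit 0) (XT.lf (nat_lit 0) (nat_lit 58212814788) (nat_lit 76) (nat_lit 33606015509) (nat_lit 76) (nat_lit 10894337070) (nat_lit 7) (nat_lit 4) (nat_lit 8) (nat_lit 5) (nat_lit 8) (nat_lit 4) (nat_lit 392) (nat_lit 300) (nat_lit 208)) (XT.nd (nat_lit 78) (nat_lit 76) (nat_lit 0) (XT.lf (nat_lit 0) (nat_lit 77287666742) (nat_lit 76) (nat_lit 26430036211) (nat_lit 76) (nat_lit 3706068632) (nat_lit 7) (nat_lit 4) (nat_lit 8) (nat_lit 5) (nat_lit 8) (nat_lit 4) (nat_lit 393) (nat_lit 300) (nat_lit 207)) (XT.lf (nat_lit 0) (nat_lit 3709870144) (nat_lit 152) (nat_lit 15130437725) (nat_lit 76)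 (nat_lit 93527040774) (nat_lit 6) (nat_lit 5) (nat_lit 8) (nat_lit 5) (nat_lit 7) (nat_lit 4) (nat_lit 394) (nat_lit 300) (nat_lit 206)))) (XT.nd (nat_lit 78) (nat_lit 0) (nat_lit 0) (XT.lf (nat_lit 0) (nat_lit 566887507) (nat_lit 76) (nat_lit 10805651829) (nat_lit 152) (nat_lit 106182505443) (nat_lit 5) (nat_lit 5) (nat_lit 6) (nat_lit 5) (nat_lit 7) (nat_lit 4) (nat_lit 395) (nat_lit 300) (nat_lit 205)) (XT.nd (nat_lit 78) (nat_lit 0) (nat_lit 0) (XT.lf (nat_lit 0) (nat_lit 17558617965) (nat_lit 76) (nat_lit 2107748823) (nat_lit 152) (nat_lit 103323359664) (nat_lit 5) (nat_lit 5) (nat_lit 6) (nat_lit 5) (nat_lit 7) (nat_lit 4) (nat_lit 396) (nat_lit 300) (nat_lit 204)) (XT.lf (nat_lit 0) (nat_lit 28476628998) (nat_lit 152) (nat_lit 93421174408) (nat_lit 0) (nat_lit 6793253514) (nat_lit 5) (nat_lit 5) (nat_lit 7) (nat_lit 4) (nat_lit 5) (nat_lit 4) (nat_lit 397) (nat_lit 300) (nat_lit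 203))))))) (XT.nd (nat_lit 858) (nat_lit 152) (nat_lit 0) (XT.nd (nat_lit 390) (nat_lit 76) (nat_lit 0) (XT.nd (nat_lit 156) (nat_lit 0) (nat_lit 0) (XT.nd (nat_lit 78) (nat_lit 0) (nat_lit 0) (XT.lf (nat_lit 0) (nat_lit 37754398220) (nat_lit 152) (nat_lit 80859855393) (nat_lit 0) (nat_lit 16061852391) (nat_lit 5) (nat_lit 5) (nat_lit 7) (nat_lit 4) (nat_lit 5) (nat_lit 4) (nat_lit 398) (nat_lit 300) (nat_lit 202)) (XT.lf (nat_lit 0) (nat_lit 47488856515) (nat_lit 152) (nat_lit 67684335675) (nat_lit 0) (nat_lit 25787577024) (nat_lit 5) (nat_lit 5) (nat_lit 7) (nat_lit 4) (nat_lit 5) (nat_lit 4) (nat_lit 399) (nat_lit 300) (nat_lit 201))) (XT.nd (nat_lit 78) (nat_lit 0) (nat_lit 0) (XT.lf (nat_lit 0) (nat_lit 57703181166) (nat_lit 152) (nat_lit 53863244969) (nat_lit 0) (nat_lit 35993583901) (nat_lit 5) (nat_lit 5) (nat_lit 7) (nat_lit 4) (nat_lit 5) (nat_lit 4) (nat_lit 400) (nat_lit 300)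 (nat_lit 200)) (XT.nd (nat_lit 78) (nat_lit 0) (nat_lit 0) (XT.lf (nat_lit 0) (nat_lit 68421691992) (nat_lit 152) (nat_lit 39363675915) (nat_lit 0) (nat_lit 46704173039) (nat_lit 5) (nat_lit 5) (nat_lit 7) (nat_lit 4) (nat_lit 5) (nat_lit 4) (nat_lit 401) (nat_lit 300) (nat_lit 199)) (XT.lf (nat_lit 0) (nat_lit 79669909258) (nat_lit 152) (nat_lit 24151105730) (nat_lit 0) (nat_lit 57944845840) (nat_lit 5) (nat_lit 5) (nat_lit 7) (nat_lit 4) (nat_lit 5) (nat_lit 4) (nat_lit 402) (nat_lit 300) (nat_lit 198))))) (XT.nd (nat_lit 234) (nat_lit 0) (nat_lit 0) (XT.nd (nat_lit 78) (nat_lit 76) (nat_lit 0) (XT.lf (nat_lit 0) (nat_lit 91474614434) (nat_lit 152) (nat_lit 8189314009) (nat_lit 0) (nat_lit 69742365810) (nat_lit 5) (nat_lit 5) (nat_lit 7) (nat_lit 4) (nat_lit 5) (nat_lit 4) (nat_lit 403) (nat_lit 300) (nat_lit 197)) (XT.nd (nat_lit 78) (nat_lit 0) (nat_lit 0) (XT.lf (nat_lit 0) (nat_lit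 8842725967) (nat_lit 76) (nat_lit 95159247727) (nat_lit 76) (nat_lit 73420156050) (nat_lit 4) (nat_lit 4) (nat_lit 5) (nat_lit 5) (nat_lit 5) (nat_lit 4) (nat_lit 404) (nat_lit 300) (nat_lit 196)) (XT.lf (nat_lit 0) (nat_lit 26999993872) (nat_lit 76) (nat_lit 90288857868) (nat_lit 76) (nat_lit 68543248999) (nat_lit 4) (nat_lit 4) (nat_lit 5) (nat_lit 5) (nat_lit 5) (nat_lit 4) (nat_lit 405) (nat_lit 300) (nat_lit 195)))) (XT.nd (nat_lit 78) (nat_lit 0) (nat_lit 0) (XT.lf (nat_lit 0) (nat_lit 46054945590) (nat_lit 76) (nat_lit 85179852697) (nat_lit 76) (nat_lit 63428036977) (nat_lit 4) (nat_lit 4) (nat_lit 5) (nat_lit 5) (nat_lit 5) (nat_lit 4) (nat_lit 406) (nat_lit 300) (nat_lit 194)) (XT.nd (nat_lit 78) (nat_lit 0) (nat_lit 0) (XT.lf (nat_lit 0) (nat_lit 66052950053) (nat_lit 76) (nat_lit 79820067915) (nat_lit 76) (nat_lit 58062340909) (nat_lit 4) (nat_lit 4) (nat_lit 5) (nat_lit 5)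 (nat_lit 5) (nat_lit 4) (nat_lit 407) (nat_lit 300) (nat_lit 193)) (XT.lf (nat_lit 0) (nat_lit 87041621557) (nat_lit 76) (nat_lit 74196742131) (nat_lit 76) (nat_lit 52433385329) (nat_lit 4) (nat_lit 4) (nat_lit 5) (nat_lit 5) (nat_lit 5) (nat_lit 4) (nat_lit 408) (nat_lit 300) (nat_lit 192)))))) (XT.nd (nat_lit 468) (nat_lit 152) (nat_lit 0) (XT.nd (nat_lit 234) (nat_lit 0) (nat_lit 0) (XT.nd (nat_lit 78) (nat_lit 0) (nat_lit 0) (XT.lf (nat_lit 0) (nat_lit 109070933131) (nat_lit 76) (nat_lit 68296486473) (nat_lit 76) (nat_lit 46527767960) (nat_lit 4) (nat_lit 4) (nat_lit 5) (nat_lit 5) (nat_lit 5) (nat_lit 4) (nat_lit 409) (nat_lit 300) (nat_lit 191)) (XT.nd (nat_lit 78) (nat_lit 0) (nat_lit 0) (XT.lf (nat_lit 0) (nat_lit 132193335515) (nat_lit 76) (nat_lit 62105252713) (nat_lit 76) (nat_lit 40331427809) (nat_lit 4) (nat_lit 4) (nat_lit 5) (nat_lit 5) (nat_lit 5) (nat_lit 4) (nat_lit 410)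 (nat_lit 300) (nat_lit 190)) (XT.lf (nat_lit 0) (nat_lit 156463882050) (nat_lit 76) (nat_lit 55608299819) (nat_lit 76) (nat_lit 33829611686) (nat_lit 4) (nat_lit 4) (nat_lit 5) (nat_lit 5) (nat_lit 5) (nat_lit 4) (nat_lit 411) (nat_lit 300) (nat_lit 189)))) (XT.nd (nat_lit 78) (nat_lit 0) (nat_lit 0) (XT.lf (nat_lit 0) (nat_lit 181940359749) (nat_lit 76) (nat_lit 48790158856) (nat_lit 76) (nat_lit 27006839075) (nat_lit 4) (nat_lit 4) (nat_lit 5) (nat_lit 5) (nat_lit 5) (nat_lit 4) (nat_lit 412) (nat_lit 300) (nat_lit 188)) (XT.nd (nat_lit 78) (nat_lit 0) (nat_lit 0) (XT.lf (nat_lit 0) (nat_lit 208683426895) (nat_lit 76) (nat_lit 41634596154) (nat_lit 76) (nat_lit 19846865280) (nat_lit 4) (nat_lit 4) (nat_lit 5) (nat_lit 5) (nat_lit 5) (nat_lit 4) (nat_lit 413) (nat_lit 300) (nat_lit 187)) (XT.lf (nat_lit 0) (nat_lit 236756757455) (nat_lit 76) (nat_lit 34124574659) (nat_lit 76) (nat_lit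 12332642745) (nat_lit 4) (nat_lit 4) (nat_lit 5) (nat_lit 5) (nat_lit 5) (nat_lit 4) (nat_lit 414) (nat_lit 300) (nat_lit 186))))) (XT.nd (nat_lit 234) (nat_lit 0) (nat_lit 0) (XT.nd (nat_lit 78) (nat_lit 152) (nat_lit 0) (XT.lf (nat_lit 0) (nat_lit 266227192694) (nat_lit 76) (nat_lit 26242213369) (nat_lit 76) (nat_lit 4446280463) (nat_lit 4) (nat_lit 4) (nat_lit 5) (nat_lit 5) (nat_lit 5) (nat_lit 4) (nat_lit 415) (nat_lit 300) (nat_lit 185)) (XT.nd (nat_lit 78) (nat_lit 76) (nat_lit 0) (XT.lf (nat_lit 0) (nat_lit 3708382737) (nat_lit 152) (nat_lit 14197558761) (nat_lit 76) (nat_lit 293393714321) (nat_lit 3) (nat_lit 5) (nat_lit 5) (nat_lit 5) (nat_lit 4) (nat_lit 4) (nat_lit 416) (nat_lit 300) (nat_lit 184)) (XT.lf (nat_lit 0) (nat_lit 3139459380) (nat_lit 76) (nat_lit 9027775629) (nat_lit 152) (nat_lit 314229650745) (nat_lit 2) (nat_lit 5) (nat_lit 3) (nat_lit 5) (nat_lit 4) (nat_lit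 4) (nat_lit 417) (nat_lit 300) (nat_lit 183)))) (XT.nd (nat_lit 78) (nat_lit 0) (nat_lit 0) (XT.lf (nat_lit 0) (nat_lit 21294884600) (nat_lit 152) (nat_lit 320415324080) (nat_lit 0) (nat_lit 526476413) (nat_lit 2) (nat_lit 5) (nat_lit 4) (nat_lit 4) (nat_lit 2) (nat_lit 4) (nat_lit 418) (nat_lit 300) (nat_lit 182)) (XT.nd (nat_lit 78) (nat_lit 0) (nat_lit 0) (XT.lf (nat_lit 0) (nat_lit 31023937441) (nat_lit 152) (nat_lit 317584892159) (nat_lit 0) (nat_lit 10252394372) (nat_lit 2) (nat_lit 5) (nat_lit 4) (nat_lit 4) (nat_lit 2) (nat_lit 4) (nat_lit 419) (nat_lit 300) (nat_lit 181)) (XT.lf (nat_lit 0) (nat_lit 41236609064) (nat_lit 152) (nat_lit 314618442610) (nat_lit 0) (nat_lit 20462080395) (nat_lit 2) (nat_lit 5) (nat_lit 4) (nat_lit 4) (nat_lit 2) (nat_lit 4) (nat_lit 420) (nat_lit 300) (nat_lit 180))))))))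
noncomputable def xc103 : XT := (XT.nd (nat_lit 38298) (nat_lit 0) (nat_lit 3876) (XT.nd (nat_lit 858) (nat_lit 0) (nat_lit 0) (XT.nd (nat_lit 390) (nat_lit 0) (nat_lit 0) (XT.nd (nat_lit 156) (nat_lit 0) (nat_lit 0) (XT.nd (nat_lit 78) (nat_lit 0) (nat_lit 0) (XT.lf (nat_lit 0) (nat_lit 51957215356) (nat_lit 152) (nat_lit 311508912459) (nat_lit 0) (nat_lit 31179843257) (nat_lit 2) (nat_lit 5) (nat_lit 4) (nat_lit 4) (nat_lit 2) (nat_lit 4) (nat_lit 421) (nat_lit 300) (nat_lit 179)) (XT.lf (nat_lit 0) (nat_lit 63211281570) (nat_lit 152) (nat_lit 308248898061) (nat_lit 0) (nat_lit 42431201442) (nat_lit 2) (nat_lit 5) (nat_lit 4) (nat_lit 4) (nat_lit 2) (nat_lit 4) (nat_lit 422) (nat_lit 300) (nat_lit 178))) (XT.nd (nat_lit 78) (nat_lit 0) (nat_lit 0) (XT.lf (nat_lit 0) (nat_lit 75025603100) (nat_lit 152) (nat_lit 304830637478) (nat_lit 0) (nat_lit 54242943898) (nat_lit 2) (nat_lit 5) (nat_lit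 4) (nat_lit 4) (nat_lit 2) (nat_lit 4) (nat_lit 423) (nat_lit 300) (nat_lit 177)) (XT.nd (nat_lit 78) (nat_lit 0) (nat_lit 0) (XT.lf (nat_lit 0) (nat_lit 87428309284) (nat_lit 152) (nat_lit 301245991995) (nat_lit 0) (nat_lit 66643193821) (nat_lit 2) (nat_lit 5) (nat_lit 4) (nat_lit 4) (nat_lit 2) (nat_lit 4) (nat_lit 424) (nat_lit 300) (nat_lit 176)) (XT.lf (nat_lit 0) (nat_lit 100448930376) (nat_lit 152) (nat_lit 297486426741) (nat_lit 0) (nat_lit 79661475615) (nat_lit 2) (nat_lit 5) (nat_lit 4) (nat_lit 4) (nat_lit 2) (nat_lit 4) (nat_lit 425) (nat_lit 300) (nat_lit 175))))) (XT.nd (nat_lit 234) (nat_lit 0) (nat_lit 0) (XT.nd (nat_lit 78) (nat_lit 0) (nat_lit 0) (XT.lf (nat_lit 0) (nat_lit 114118467852) (nat_lit 152) (nat_lit 293542990369) (nat_lit 0) (nat_lit 93328785190) (nat_lit 2) (nat_lit 5) (nat_lit 4) (nat_lit 4) (nat_lit 2) (nat_lit 4) (nat_lit 426) (nat_lit 300) (nat_lit 174))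 (XT.nd (nat_lit 78) (nat_lit 0) (nat_lit 0) (XT.lf (nat_lit 0) (nat_lit 128469468233) (nat_lit 152) (nat_lit 289406293747) (nat_lit 0) (nat_lit 107677663760) (nat_lit 2) (nat_lit 5) (nat_lit 4) (nat_lit 4) (nat_lit 2) (nat_lit 4) (nat_lit 427) (nat_lit 300) (nat_lit 173)) (XT.lf (nat_lit 0) (nat_lit 143536100565) (nat_lit 152) (nat_lit 285066487596) (nat_lit 0) (nat_lit 122742275319) (nat_lit 2) (nat_lit 5) (nat_lit 4) (nat_lit 4) (nat_lit 2) (nat_lit 4) (nat_lit 428) (nat_lit 300) (nat_lit 172)))) (XT.nd (nat_lit 78) (nat_lit 0) (nat_lit 0) (XT.lf (nat_lit 0) (nat_lit 159354237783) (nat_lit 152) (nat_lit 280513239045) (nat_lit 0) (nat_lit 138558487993) (nat_lit 2) (nat_lit 5) (nat_lit 4) (nat_lit 4) (nat_lit 2) (nat_lit 4) (nat_lit 429) (nat_lit 300) (nat_lit 171)) (XT.nd (nat_lit 78) (nat_lit 0) (nat_lit 0) (XT.lf (nat_lit 0) (nat_lit 175961542119) (nat_lit 152) (nat_lit 275735707025)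 (nat_lit 0) (nat_lit 155163959428) (nat_lit 2) (nat_lit 5) (nat_lit 4) (nat_lit 4) (nat_lit 2) (nat_lit 4) (nat_lit 430) (nat_lit 300) (nat_lit 170)) (XT.lf (nat_lit 0) (nat_lit 193397554773) (nat_lit 152) (nat_lit 270722516460) (nat_lit 0) (nat_lit 172598226463) (nat_lit 2) (nat_lit 5) (nat_lit 4) (nat_lit 4) (nat_lit 2) (nat_lit 4) (nat_lit 431) (nat_lit 300) (nat_lit 169)))))) (XT.nd (nat_lit 36972) (nat_lit 0) (nat_lit 9652) (XT.nd (nat_lit 36738) (nat_lit 0) (nat_lit 10640) (XT.nd (nat_lit 78) (nat_lit 0) (nat_lit 0) (XT.lf (nat_lit 0) (nat_lit 211703790062) (nat_lit 152) (nat_lit 265461731183) (nat_lit 0) (nat_lit 190902799257) (nat_lit 2) (nat_lit 5) (nat_lit 4) (nat_lit 4) (nat_lit 2) (nat_lit 4) (nat_lit 432) (nat_lit 300) (nat_lit 168)) (XT.nd (nat_lit 36582) (nat_lit 0) (nat_lit 11096) (XT.lf (nat_lit 0) (nat_lit 230923834259) (nat_lit 152) (nat_lit 259940825513) (nat_lit 0)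 (nat_lit 210121260126) (nat_lit 2) (nat_lit 5) (nat_lit 4) (nat_lit 4) (nat_lit 2) (nat_lit 4) (nat_lit 433) (nat_lit 300) (nat_lit 167)) (XT.lf (nat_lit 0) (nat_lit 1475660212) (nat_lit 0) (nat_lit 1475660212) (nat_lit 76) (nat_lit 275110574) (nat_lit 148) (nat_lit 5) (nat_lit 148) (nat_lit 3) (nat_lit 149) (nat_lit 0) (nat_lit 301) (nat_lit 301) (nat_lit 298)))) (XT.nd (nat_lit 78) (nat_lit 228) (nat_lit 0) (XT.lf (nat_lit 0) (nat_lit 2225440056) (nat_lit 228) (nat_lit 441857740) (nat_lit 228) (nat_lit 3801483164) (nat_lit 145) (nat_lit 3) (nat_lit 148) (nat_lit 3) (nat_lit 148) (nat_lit 5) (nat_lit 302) (nat_lit 301) (nat_lit 297)) (XT.nd (nat_lit 78) (nat_lit 228) (nat_lit 0) (XT.lf (nat_lit 76) (nat_lit 2756651427) (nat_lit 0) (nat_lit 2230378873) (nat_lit 228) (nat_lit 1505198380) (nat_lit 146) (nat_lit 5) (nat_lit 145) (nat_lit 3) (nat_lit 148) (nat_lit 5) (nat_lit 303) (nat_lit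 301) (nat_lit 296)) (XT.lf (nat_lit 0) (nat_lit 1160002115) (nat_lit 228) (nat_lit 505583856) (nat_lit 304) (nat_lit 4858916093) (nat_lit 142) (nat_lit 5) (nat_lit 145) (nat_lit 3) (nat_lit 146) (nat_lit 5) (nat_lit 304) (nat_lit 301) (nat_lit 295))))) (XT.nd (nat_lit 234) (nat_lit 760) (nat_lit 0) (XT.nd (nat_lit 78) (nat_lit 228) (nat_lit 0) (XT.lf (nat_lit 76) (nat_lit 2859394513) (nat_lit 0) (nat_lit 927782836) (nat_lit 304) (nat_lit 2776415292) (nat_lit 143) (nat_lit 5) (nat_lit 142) (nat_lit 5) (nat_lit 146) (nat_lit 5) (nat_lit 305) (nat_lit 301) (nat_lit 294)) (XT.nd (nat_lit 78) (nat_lit 228) (nat_lit 0) (XT.lf (nat_lit 76) (nat_lit 6318322505) (nat_lit 0) (nat_lit 77046689) (nat_lit 304) (nat_lit 217168762) (nat_lit 143) (nat_lit 5) (nat_lit 142) (nat_lit 5) (nat_lit 146) (nat_lit 5) (nat_lit 306) (nat_lit 301) (nat_lit 293)) (XT.lf (nat_lit 0) (nat_lit 2302861407) (nat_lit 304)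 (nat_lit 3423590286) (nat_lit 76) (nat_lit 940304215) (nat_lit 139) (nat_lit 5) (nat_lit 143) (nat_lit 5) (nat_lit 140) (nat_lit 5) (nat_lit 307) (nat_lit 301) (nat_lit 292)))) (XT.nd (nat_lit 78) (nat_lit 456) (nat_lit 0) (XT.lf (nat_lit 0) (nat_lit 143837848) (nat_lit 304) (nat_lit 4658959816) (nat_lit 380) (nat_lit 1927979881) (nat_lit 135) (nat_lit 5) (nat_lit 139) (nat_lit 5) (nat_lit 140) (nat_lit 5) (nat_lit 308) (nat_lit 301) (nat_lit 291)) (XT.nd (nat_lit 78) (nat_lit 380) (nat_lit 0) (XT.lf (nat_lit 0) (nat_lit 523985083) (nat_lit 380) (nat_lit 2900907368) (nat_lit 76) (nat_lit 3377195893) (nat_lit 134) (nat_lit 5) (nat_lit 139) (nat_lit 5) (nat_lit 135) (nat_lit 5) (nat_lit 309) (nat_lit 301) (nat_lit 290)) (XT.lf (nat_lit 0) (nat_lit 866978135) (nat_lit 380) (nat_lit 2042674558) (nat_lit 456) (nat_lit 3972222696) (nat_lit 129) (nat_lit 5) (nat_lit 134) (nat_lit 5) (nat_lit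 135) (nat_lit 5) (nat_lit 310) (nat_lit 301) (nat_lit 289))))))) (XT.nd (nat_lit 858) (nat_lit 2204) (nat_lit 0) (XT.nd (nat_lit 390) (nat_lit 1824) (nat_lit 0) (XT.nd (nat_lit 156) (nat_lit 1216) (nat_lit 0) (XT.nd (nat_lit 78) (nat_lit 532) (nat_lit 0) (XT.lf (nat_lit 0) (nat_lit 4826970116) (nat_lit 380) (nat_lit 504162820) (nat_lit 456) (nat_lit 1638964652) (nat_lit 129) (nat_lit 5) (nat_lit 134) (nat_lit 5) (nat_lit 135) (nat_lit 5) (nat_lit 311) (nat_lit 301) (nat_lit 288)) (XT.lf (nat_lit 0) (nat_lit 704163803) (nat_lit 532) (nat_lit 5213221268) (nat_lit 76) (nat_lit 1149001552) (nat_lit 122) (nat_lit 5) (nat_lit 129) (nat_lit 5) (nat_lit 123) (nat_lit 5) (nat_lit 312) (nat_lit 301) (nat_lit 287))) (XT.nd (nat_lit 78) (nat_lit 1216) (nat_lit 0) (XT.lf (nat_lit 0) (nat_lit 3031000808) (nat_lit 532) (nat_lit 1179925580) (nat_lit 76) (nat_lit 2959373895) (nat_lit 122) (nat_lit 5) (nat_lit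 129) (nat_lit 5) (nat_lit 123) (nat_lit 5) (nat_lit 313) (nat_lit 301) (nat_lit 286)) (XT.nd (nat_lit 78) (nat_lit 684) (nat_lit 0) (XT.lf (nat_lit 0) (nat_lit 3055497168) (nat_lit 532) (nat_lit 2348746631) (nat_lit 608) (nat_lit 1878886612) (nat_lit 115) (nat_lit 5) (nat_lit 122) (nat_lit 5) (nat_lit 123) (nat_lit 5) (nat_lit 314) (nat_lit 301) (nat_lit 285)) (XT.lf (nat_lit 0) (nat_lit 36379708) (nat_lit 608) (nat_lit 347615143) (nat_lit 684) (nat_lit 7022160469) (nat_lit 106) (nat_lit 5) (nat_lit 114) (nat_lit 5) (nat_lit 115) (nat_lit 5) (nat_lit 315) (nat_lit 301) (nat_lit 284))))) (XT.nd (nat_lit 234) (nat_lit 1140) (nat_lit 0) (XT.nd (nat_lit 78) (nat_lit 684) (nat_lit 0) (XT.lf (nat_lit 0) (nat_lit 2685606767) (nat_lit 684) (nat_lit 3034901569) (nat_lit 76) (nat_lit 1814040097) (nat_lit 106) (nat_lit 5) (nat_lit 115) (nat_lit 5) (nat_lit 107) (nat_lit 5) (nat_lit 316) (nat_lit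 301) (nat_lit 283)) (XT.nd (nat_lit 78) (nat_lit 0) (nat_lit 0) (XT.lf (nat_lit 0) (nat_lit 1458494891) (nat_lit 684) (nat_lit 3566160249) (nat_lit 760) (nat_lit 2648772548) (nat_lit 97) (nat_lit 5) (nat_lit 106) (nat_lit 5) (nat_lit 107) (nat_lit 5) (nat_lit 317) (nat_lit 301) (nat_lit 282)) (XT.lf (nat_lit 0) (nat_lit 6184322541) (nat_lit 684) (nat_lit 1245146157) (nat_lit 760) (nat_lit 392517071) (nat_lit 97) (nat_lit 5) (nat_lit 106) (nat_lit 5) (nat_lit 107) (nat_lit 5) (nat_lit 318) (nat_lit 301) (nat_lit 281)))) (XT.nd (nat_lit 78) (nat_lit 380) (nat_lit 0) (XT.lf (nat_lit 0) (nat_lit 1882844692) (nat_lit 760) (nat_lit 4857312841) (nat_lit 76) (nat_lit 1237952658) (nat_lit 87) (nat_lit 5) (nat_lit 97) (nat_lit 5) (nat_lit 88) (nat_lit 5) (nat_lit 319) (nat_lit 301) (nat_lit 280)) (XT.nd (nat_lit 78) (nat_lit 380) (nat_lit 0) (XT.lf (nat_lit 0) (nat_lit 4211198416) (nat_lit 760)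 (nat_lit 93750754) (nat_lit 76) (nat_lit 3839300784) (nat_lit 87) (nat_lit 5) (nat_lit 97) (nat_lit 5) (nat_lit 88) (nat_lit 5) (nat_lit 320) (nat_lit 301) (nat_lit 279)) (XT.lf (nat_lit 0) (nat_lit 4972047951) (nat_lit 380) (nat_lit 1669943288) (nat_lit 456) (nat_lit 1677548783) (nat_lit 82) (nat_lit 5) (nat_lit 87) (nat_lit 5) (nat_lit 88) (nat_lit 5) (nat_lit 321) (nat_lit 301) (nat_lit 278)))))) (XT.nd (nat_lit 468) (nat_lit 836) (nat_lit 0) (XT.nd (nat_lit 234) (nat_lit 684) (nat_lit 0) (XT.nd (nat_lit 78) (nat_lit 304) (nat_lit 0) (XT.lf (nat_lit 0) (nat_lit 624768374) (nat_lit 380) (nat_lit 6784869945) (nat_lit 76) (nat_lit 1095740680) (nat_lit 77) (nat_lit 5) (nat_lit 82) (nat_lit 5) (nat_lit 78) (nat_lit 5) (nat_lit 322) (nat_lit 301) (nat_lit 277)) (XT.nd (nat_lit 78) (nat_lit 304) (nat_lit 0) (XT.lf (nat_lit 0) (nat_lit 2983225623) (nat_lit 380) (nat_lit 1694835490) (nat_lit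 76) (nat_lit 4021328456) (nat_lit 77) (nat_lit 5) (nat_lit 82) (nat_lit 5) (nat_lit 78) (nat_lit 5) (nat_lit 323) (nat_lit 301) (nat_lit 276)) (XT.lf (nat_lit 0) (nat_lit 3672499363) (nat_lit 304) (nat_lit 1761019607) (nat_lit 380) (nat_lit 3471004823) (nat_lit 73) (nat_lit 5) (nat_lit 77) (nat_lit 5) (nat_lit 78) (nat_lit 5) (nat_lit 324) (nat_lit 301) (nat_lit 275)))) (XT.nd (nat_lit 78) (nat_lit 380) (nat_lit 0) (XT.lf (nat_lit 0) (nat_lit 134901028) (nat_lit 304) (nat_lit 7841931739) (nat_lit 380) (nat_lit 1144669803) (nat_lit 69) (nat_lit 5) (nat_lit 73) (nat_lit 5) (nat_lit 74) (nat_lit 5) (nat_lit 325) (nat_lit 301) (nat_lit 274)) (XT.nd (nat_lit 78) (nat_lit 304) (nat_lit 0) (XT.lf (nat_lit 0) (nat_lit 1295241460) (nat_lit 380) (nat_lit 3542036900) (nat_lit 76) (nat_lit 4509201131) (nat_lit 68) (nat_lit 5) (nat_lit 73) (nat_lit 5) (nat_lit 69) (nat_lit 5) (nat_lit 326) (nat_lit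 301) (nat_lit 273)) (XT.lf (nat_lit 0) (nat_lit 2130497343) (nat_lit 304) (nat_lit 1645135482) (nat_lit 380) (nat_lit 5808384259) (nat_lit 64) (nat_lit 5) (nat_lit 68) (nat_lit 5) (nat_lit 69) (nat_lit 5) (nat_lit 327) (nat_lit 301) (nat_lit 272))))) (XT.nd (nat_lit 234) (nat_lit 228) (nat_lit 0) (XT.nd (nat_lit 78) (nat_lit 608) (nat_lit 0) (XT.lf (nat_lit 0) (nat_lit 6393261041) (nat_lit 380) (nat_lit 1744119530) (nat_lit 76) (nat_lit 1695483194) (nat_lit 64) (nat_lit 5) (nat_lit 69) (nat_lit 5) (nat_lit 65) (nat_lit 5) (nat_lit 328) (nat_lit 301) (nat_lit 271)) (XT.nd (nat_lit 78) (nat_lit 380) (nat_lit 0) (XT.lf (nat_lit 0) (nat_lit 4269293219) (nat_lit 228) (nat_lit 4895247998) (nat_lit 304) (nat_lit 928561677) (nat_lit 61) (nat_lit 5) (nat_lit 64) (nat_lit 5) (nat_lit 65) (nat_lit 5) (nat_lit 329) (nat_lit 301) (nat_lit 270)) (XT.lf (nat_lit 0) (nat_lit 165124897) (nat_lit 304) (nat_lit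 1450747370) (nat_lit 380) (nat_lit 8751103328) (nat_lit 56) (nat_lit 5) (nat_lit 60) (nat_lit 5) (nat_lit 61) (nat_lit 5) (nat_lit 330) (nat_lit 301) (nat_lit 269)))) (XT.nd (nat_lit 78) (nat_lit 228) (nat_lit 0) (XT.lf (nat_lit 0) (nat_lit 4321867471) (nat_lit 380) (nat_lit 4138281359) (nat_lit 76) (nat_lit 2190431291) (nat_lit 56) (nat_lit 5) (nat_lit 61) (nat_lit 5) (nat_lit 57) (nat_lit 5) (nat_lit 331) (nat_lit 301) (nat_lit 268)) (XT.nd (nat_lit 78) (nat_lit 0) (nat_lit 0) (XT.lf (nat_lit 0) (nat_lit 2185381544) (nat_lit 228) (nat_lit 4970428731) (nat_lit 304) (nat_lit 3792995131) (nat_lit 53) (nat_lit 5) (nat_lit 56) (nat_lit 5) (nat_lit 57) (nat_lit 5) (nat_lit 332) (nat_lit 301) (nat_lit 267)) (XT.lf (nat_lit 0) (nat_lit 8881090846) (nat_lit 228) (nat_lit 1256924775) (nat_lit 304) (nat_lit 1123667516) (nat_lit 53) (nat_lit 5) (nat_lit 56) (nat_lit 5) (nat_lit 57) (nat_lit 5) (nat_lit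 333) (nat_lit 301) (nat_lit 266))))))))
noncomputable def xc104 : XT := (XT.nd (nat_lit 1716) (nat_lit 988) (nat_lit 0) (XT.nd (nat_lit 858) (nat_lit 912) (nat_lit 0) (XT.nd (nat_lit 390) (nat_lit 532) (nat_lit 0) (XT.nd (nat_lit 156) (nat_lit 456) (nat_lit 0) (XT.nd (nat_lit 78) (nat_lit 0) (nat_lit 0) (XT.lf (nat_lit 0) (nat_lit 1674147024) (nat_lit 304) (nat_lit 7282435250) (nat_lit 76) (nat_lit 2629936530) (nat_lit 49) (nat_lit 5) (nat_lit 53) (nat_lit 5) (nat_lit 50) (nat_lit 5) (nat_lit 334) (nat_lit 301) (nat_lit 265)) (XT.lf (nat_lit 0) (nat_lit 4575356025) (nat_lit 304) (nat_lit 646643779) (nat_lit 76) (nat_lit 6704672091) (nat_lit 49) (nat_lit 5) (nat_lit 53) (nat_lit 5) (nat_lit 50) (nat_lit 5) (nat_lit 335) (nat_lit 301) (nat_lit 264))) (XT.nd (nat_lit 78) (nat_lit 304) (nat_lit 0) (XT.lf (nat_lit 0) (nat_lit 6444321216) (nat_lit 152) (nat_lit 1220473979) (nat_lit 228) (nat_lit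 4616936097) (nat_lit 47) (nat_lit 5) (nat_lit 49) (nat_lit 5) (nat_lit 50) (nat_lit 5) (nat_lit 336) (nat_lit 301) (nat_lit 263)) (XT.nd (nat_lit 78) (nat_lit 76) (nat_lit 0) (XT.lf (nat_lit 0) (nat_lit 1164855335) (nat_lit 228) (nat_lit 9763331370) (nat_lit 304) (nat_lit 1725437353) (nat_lit 44) (nat_lit 5) (nat_lit 47) (nat_lit 5) (nat_lit 48) (nat_lit 5) (nat_lit 337) (nat_lit 301) (nat_lit 262)) (XT.lf (nat_lit 0) (nat_lit 1333237778) (nat_lit 304) (nat_lit 4445900493) (nat_lit 76) (nat_lit 7260771914) (nat_lit 43) (nat_lit 5) (nat_lit 47) (nat_lit 5) (nat_lit 44) (nat_lit 5) (nat_lit 338) (nat_lit 301) (nat_lit 261))))) (XT.nd (nat_lit 234) (nat_lit 228) (nat_lit 0) (XT.nd (nat_lit 78) (nat_lit 152) (nat_lit 0) (XT.lf (nat_lit 0) (nat_lit 2934227868) (nat_lit 152) (nat_lit 1545170233) (nat_lit 228) (nat_lit 8965118362) (nat_lit 41) (nat_lit 5) (nat_lit 43) (nat_lit 5) (nat_lit 44)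 (nat_lit 5) (nat_lit 339) (nat_lit 301) (nat_lit 260)) (XT.nd (nat_lit 78) (nat_lit 152) (nat_lit 0) (XT.lf (nat_lit 0) (nat_lit 7852279896) (nat_lit 228) (nat_lit 3155823971) (nat_lit 76) (nat_lit 2857823284) (nat_lit 41) (nat_lit 5) (nat_lit 44) (nat_lit 5) (nat_lit 42) (nat_lit 5) (nat_lit 340) (nat_lit 301) (nat_lit 259)) (XT.lf (nat_lit 0) (nat_lit 4611063017) (nat_lit 152) (nat_lit 6830161025) (nat_lit 228) (nat_lit 2864856057) (nat_lit 39) (nat_lit 5) (nat_lit 41) (nat_lit 5) (nat_lit 42) (nat_lit 5) (nat_lit 341) (nat_lit 301) (nat_lit 258)))) (XT.nd (nat_lit 78) (nat_lit 152) (nat_lit 0) (XT.lf (nat_lit 0) (nat_lit 432012613) (nat_lit 228) (nat_lit 1975457649) (nat_lit 76) (nat_lit 12360226319) (nat_lit 38) (nat_lit 5) (nat_lit 41) (nat_lit 5) (nat_lit 39) (nat_lit 5) (nat_lit 342) (nat_lit 301) (nat_lit 257)) (XT.nd (nat_lit 78) (nat_lit 0) (nat_lit 0) (XT.lf (nat_lit 0) (nat_lit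 3884018498) (nat_lit 228) (nat_lit 9076919873) (nat_lit 76) (nat_lit 2284815518) (nat_lit 36) (nat_lit 5) (nat_lit 39) (nat_lit 5) (nat_lit 37) (nat_lit 5) (nat_lit 343) (nat_lit 301) (nat_lit 256)) (XT.lf (nat_lit 0) (nat_lit 7535583610) (nat_lit 228) (nat_lit 1072119439) (nat_lit 76) (nat_lit 7138698144) (nat_lit 36) (nat_lit 5) (nat_lit 39) (nat_lit 5) (nat_lit 37) (nat_lit 5) (nat_lit 344) (nat_lit 301) (nat_lit 255)))))) (XT.nd (nat_lit 390) (nat_lit 380) (nat_lit 0) (XT.nd (nat_lit 156) (nat_lit 380) (nat_lit 0) (XT.nd (nat_lit 78) (nat_lit 0) (nat_lit 0) (XT.lf (nat_lit 0) (nat_lit 7501603300) (nat_lit 152) (nat_lit 3940947994) (nat_lit 228) (nat_lit 4825921761) (nat_lit 34) (nat_lit 5) (nat_lit 36) (nat_lit 5) (nat_lit 37) (nat_lit 5) (nat_lit 345) (nat_lit 301) (nat_lit 254)) (XT.lf (nat_lit 0) (nat_lit 15534591204) (nat_lit 228) (nat_lit 361818328) (nat_lit 76) (nat_lit 920784603)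 (nat_lit 34) (nat_lit 5) (nat_lit 37) (nat_lit 5) (nat_lit 35) (nat_lit 4) (nat_lit 346) (nat_lit 301) (nat_lit 253))) (XT.nd (nat_lit 78) (nat_lit 152) (nat_lit 0) (XT.lf (nat_lit 0) (nat_lit 2519744948) (nat_lit 228) (nat_lit 8820447619) (nat_lit 76) (nat_lit 6043289926) (nat_lit 31) (nat_lit 5) (nat_lit 34) (nat_lit 5) (nat_lit 32) (nat_lit 5) (nat_lit 347) (nat_lit 301) (nat_lit 252)) (XT.nd (nat_lit 78) (nat_lit 152) (nat_lit 0) (XT.lf (nat_lit 0) (nat_lit 6433943117) (nat_lit 228) (nat_lit 121111236) (nat_lit 76) (nat_lit 11423765247) (nat_lit 31) (nat_lit 5) (nat_lit 34) (nat_lit 5) (nat_lit 32) (nat_lit 5) (nat_lit 348) (nat_lit 301) (nat_lit 251)) (XT.lf (nat_lit 0) (nat_lit 9243422181) (nat_lit 152) (nat_lit 1405324494) (nat_lit 228) (nat_lit 7949958291) (nat_lit 29) (nat_lit 5) (nat_lit 31) (nat_lit 5) (nat_lit 32) (nat_lit 5) (nat_lit 349) (nat_lit 301) (nat_lit 250))))) (XT.nd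 (nat_lit 234) (nat_lit 228) (nat_lit 0) (XT.nd (nat_lit 78) (nat_lit 152) (nat_lit 0) (XT.lf (nat_lit 0) (nat_lit 15099898777) (nat_lit 228) (nat_lit 297714547) (nat_lit 76) (nat_lit 3850715787) (nat_lit 29) (nat_lit 5) (nat_lit 32) (nat_lit 5) (nat_lit 30) (nat_lit 4) (nat_lit 350) (nat_lit 301) (nat_lit 249)) (XT.nd (nat_lit 78) (nat_lit 76) (nat_lit 0) (XT.lf (nat_lit 0) (nat_lit 9428507884) (nat_lit 76) (nat_lit 10478242153) (nat_lit 152) (nat_lit 17051090) (nat_lit 28) (nat_lit 5) (nat_lit 29) (nat_lit 5) (nat_lit 30) (nat_lit 4) (nat_lit 351) (nat_lit 301) (nat_lit 248)) (XT.lf (nat_lit 0) (nat_lit 4150806700) (nat_lit 152) (nat_lit 1112145263) (nat_lit 76) (nat_lit 15368332986) (nat_lit 27) (nat_lit 5) (nat_lit 29) (nat_lit 5) (nat_lit 28) (nat_lit 5) (nat_lit 352) (nat_lit 301) (nat_lit 247)))) (XT.nd (nat_lit 78) (nat_lit 76) (nat_lit 0) (XT.lf (nat_lit 0) (nat_lit 8636554524)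 (nat_lit 228) (nat_lit 12407448428) (nat_lit 76) (nat_lit 324643036) (nat_lit 25) (nat_lit 5) (nat_lit 28) (nat_lit 5) (nat_lit 26) (nat_lit 4) (nat_lit 353) (nat_lit 301) (nat_lit 246)) (XT.nd (nat_lit 78) (nat_lit 76) (nat_lit 0) (XT.lf (nat_lit 0) (nat_lit 13417212768) (nat_lit 228) (nat_lit 2712259038) (nat_lit 76) (nat_lit 6009891653) (nat_lit 25) (nat_lit 5) (nat_lit 28) (nat_lit 5) (nat_lit 26) (nat_lit 4) (nat_lit 354) (nat_lit 301) (nat_lit 245)) (XT.lf (nat_lit 0) (nat_lit 7655024380) (nat_lit 76) (nat_lit 10868254637) (nat_lit 152) (nat_lit 4421037637) (nat_lit 24) (nat_lit 5) (nat_lit 25) (nat_lit 5) (nat_lit 26) (nat_lit 4) (nat_lit 355) (nat_lit 301) (nat_lit 244))))))) (XT.nd (nat_lit 858) (nat_lit 456) (nat_lit 0) (XT.nd (nat_lit 390) (nat_lit 228) (nat_lit 0) (XT.nd (nat_lit 156) (nat_lit 76) (nat_lit 0) (XT.nd (nat_lit 78) (nat_lit 152) (nat_lit 0) (XT.lf (nat_lit 0)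 (nat_lit 105774543) (nat_lit 152) (nat_lit 5212475368) (nat_lit 76) (nat_lit 18470525793) (nat_lit 23) (nat_lit 5) (nat_lit 25) (nat_lit 5) (nat_lit 24) (nat_lit 5) (nat_lit 356) (nat_lit 301) (nat_lit 243)) (XT.lf (nat_lit 0) (nat_lit 4773605757) (nat_lit 228) (nat_lit 19265462491) (nat_lit 76) (nat_lit 629619014) (nat_lit 21) (nat_lit 5) (nat_lit 24) (nat_lit 5) (nat_lit 22) (nat_lit 4) (nat_lit 357) (nat_lit 301) (nat_lit 242))) (XT.nd (nat_lit 78) (nat_lit 76) (nat_lit 0) (XT.lf (nat_lit 0) (nat_lit 9820593409) (nat_lit 228) (nat_lit 9001533425) (nat_lit 76) (nat_lit 6763194624) (nat_lit 21) (nat_lit 5) (nat_lit 24) (nat_lit 5) (nat_lit 22) (nat_lit 4) (nat_lit 358) (nat_lit 301) (nat_lit 241)) (XT.nd (nat_lit 78) (nat_lit 0) (nat_lit 0) (XT.lf (nat_lit 0) (nat_lit 1779798138) (nat_lit 76) (nat_lit 13338260433) (nat_lit 152) (nat_lit 11429836961) (nat_lit 20) (nat_lit 5) (nat_lit 21)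 (nat_lit 5) (nat_lit 22) (nat_lit 4) (nat_lit 359) (nat_lit 301) (nat_lit 240)) (XT.lf (nat_lit 0) (nat_lit 13360801529) (nat_lit 76) (nat_lit 7442983212) (nat_lit 152) (nat_lit 6748658064) (nat_lit 20) (nat_lit 5) (nat_lit 21) (nat_lit 5) (nat_lit 22) (nat_lit 4) (nat_lit 360) (nat_lit 301) (nat_lit 239))))) (XT.nd (nat_lit 234) (nat_lit 76) (nat_lit 0) (XT.nd (nat_lit 78) (nat_lit 152) (nat_lit 0) (XT.lf (nat_lit 0) (nat_lit 25471419217) (nat_lit 76) (nat_lit 1274704121) (nat_lit 152) (nat_lit 1862491019) (nat_lit 20) (nat_lit 5) (nat_lit 21) (nat_lit 5) (nat_lit 22) (nat_lit 4) (nat_lit 361) (nat_lit 301) (nat_lit 238)) (XT.nd (nat_lit 78) (nat_lit 0) (nat_lit 0) (XT.lf (nat_lit 0) (nat_lit 3355540554) (nat_lit 152) (nat_lit 21145828251) (nat_lit 76) (nat_lit 5204078948) (nat_lit 18) (nat_lit 5) (nat_lit 20) (nat_lit 5) (nat_lit 19) (nat_lit 4) (nat_lit 362) (nat_lit 301) (nat_lit 237))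 (XT.lf (nat_lit 0) (nat_lit 8820191332) (nat_lit 152) (nat_lit 10004779038) (nat_lit 76) (nat_lit 12028221762) (nat_lit 18) (nat_lit 5) (nat_lit 20) (nat_lit 5) (nat_lit 19) (nat_lit 4) (nat_lit 363) (nat_lit 301) (nat_lit 236)))) (XT.nd (nat_lit 78) (nat_lit 0) (nat_lit 0) (XT.lf (nat_lit 0) (nat_lit 1701885490) (nat_lit 76) (nat_lit 12857438308) (nat_lit 152) (nat_lit 17498948349) (nat_lit 17) (nat_lit 5) (nat_lit 18) (nat_lit 5) (nat_lit 19) (nat_lit 4) (nat_lit 364) (nat_lit 301) (nat_lit 235)) (XT.nd (nat_lit 78) (nat_lit 0) (nat_lit 0) (XT.lf (nat_lit 0) (nat_lit 14296058927) (nat_lit 76) (nat_lit 6433968304) (nat_lit 152) (nat_lit 12586358575) (nat_lit 17) (nat_lit 5) (nat_lit 18) (nat_lit 5) (nat_lit 19) (nat_lit 4) (nat_lit 365) (nat_lit 301) (nat_lit 234)) (XT.lf (nat_lit 0) (nat_lit 27190174352) (nat_lit 152) (nat_lit 7166220740) (nat_lit 0) (nat_lit 281974495) (nat_lit 17)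 (nat_lit 5) (nat_lit 19) (nat_lit 4) (nat_lit 17) (nat_lit 4) (nat_lit 366) (nat_lit 301) (nat_lit 233)))))) (XT.nd (nat_lit 468) (nat_lit 228) (nat_lit 0) (XT.nd (nat_lit 234) (nat_lit 76) (nat_lit 0) (XT.nd (nat_lit 78) (nat_lit 76) (nat_lit 0) (XT.lf (nat_lit 0) (nat_lit 5303030559) (nat_lit 76) (nat_lit 28835766427) (nat_lit 76) (nat_lit 1879391558) (nat_lit 16) (nat_lit 4) (nat_lit 17) (nat_lit 5) (nat_lit 17) (nat_lit 4) (nat_lit 367) (nat_lit 301) (nat_lit 232)) (XT.nd (nat_lit 78) (nat_lit 0) (nat_lit 0) (XT.lf (nat_lit 0) (nat_lit 3941475617) (nat_lit 152) (nat_lit 18922230818) (nat_lit 76) (nat_lit 14595172104) (nat_lit 15) (nat_lit 5) (nat_lit 17) (nat_lit 5) (nat_lit 16) (nat_lit 4) (nat_lit 368) (nat_lit 301) (nat_lit 231)) (XT.lf (nat_lit 0) (nat_lit 9968575211) (nat_lit 152) (nat_lit 6610372807) (nat_lit 76) (nat_lit 22392205199) (nat_lit 15) (nat_lit 5) (nat_lit 17) (nat_lit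 5) (nat_lit 16) (nat_lit 4) (nat_lit 369) (nat_lit 301) (nat_lit 230)))) (XT.nd (nat_lit 78) (nat_lit 0) (nat_lit 0) (XT.lf (nat_lit 0) (nat_lit 6486687060) (nat_lit 76) (nat_lit 9890998031) (nat_lit 152) (nat_lit 24177331503) (nat_lit 14) (nat_lit 5) (nat_lit 15) (nat_lit 5) (nat_lit 16) (nat_lit 4) (nat_lit 370) (nat_lit 301) (nat_lit 229)) (XT.nd (nat_lit 78) (nat_lit 0) (nat_lit 0) (XT.lf (nat_lit 0) (nat_lit 20430704592) (nat_lit 76) (nat_lit 2768273785) (nat_lit 152) (nat_lit 19014515731) (nat_lit 14) (nat_lit 5) (nat_lit 15) (nat_lit 5) (nat_lit 16) (nat_lit 4) (nat_lit 371) (nat_lit 301) (nat_lit 228)) (XT.lf (nat_lit 0) (nat_lit 30415367468) (nat_lit 152) (nat_lit 8992844551) (nat_lit 0) (nat_lit 4543988930) (nat_lit 14) (nat_lit 5) (nat_lit 16) (nat_lit 4) (nat_lit 14) (nat_lit 4) (nat_lit 372) (nat_lit 301) (nat_lit 227))))) (XT.nd (nat_lit 234) (nat_lit 76) (nat_lit 0) (XT.nd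 (nat_lit 78) (nat_lit 76) (nat_lit 0) (XT.lf (nat_lit 0) (nat_lit 4500668878) (nat_lit 76) (nat_lit 33588971663) (nat_lit 76) (nat_lit 7683356043) (nat_lit 13) (nat_lit 4) (nat_lit 14) (nat_lit 5) (nat_lit 14) (nat_lit 4) (nat_lit 373) (nat_lit 301) (nat_lit 226)) (XT.nd (nat_lit 78) (nat_lit 76) (nat_lit 0) (XT.lf (nat_lit 0) (nat_lit 18947030490) (nat_lit 76) (nat_lit 27334663451) (nat_lit 76) (nat_lit 1396441086) (nat_lit 13) (nat_lit 4) (nat_lit 14) (nat_lit 5) (nat_lit 14) (nat_lit 4) (nat_lit 374) (nat_lit 301) (nat_lit 225)) (XT.lf (nat_lit 0) (nat_lit 5020579044) (nat_lit 152) (nat_lit 15677089367) (nat_lit 76) (nat_lit 28977687350) (nat_lit 12) (nat_lit 5) (nat_lit 14) (nat_lit 5) (nat_lit 13) (nat_lit 4) (nat_lit 375) (nat_lit 301) (nat_lit 224)))) (XT.nd (nat_lit 78) (nat_lit 76) (nat_lit 0) (XT.lf (nat_lit 0) (nat_lit 11694707420) (nat_lit 152) (nat_lit 2024701473) (nat_lit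 76) (nat_lit 38052730166) (nat_lit 12) (nat_lit 5) (nat_lit 14) (nat_lit 5) (nat_lit 13) (nat_lit 4) (nat_lit 376) (nat_lit 301) (nat_lit 223)) (XT.nd (nat_lit 78) (nat_lit 0) (nat_lit 0) (XT.lf (nat_lit 0) (nat_lit 12686411585) (nat_lit 76) (nat_lit 6198188514) (nat_lit 152) (nat_lit 35080063763) (nat_lit 11) (nat_lit 5) (nat_lit 12) (nat_lit 5) (nat_lit 13) (nat_lit 4) (nat_lit 377) (nat_lit 301) (nat_lit 222)) (XT.lf (nat_lit 0) (nat_lit 26479441883) (nat_lit 152) (nat_lit 28118848415) (nat_lit 0) (nat_lit 1666256865) (nat_lit 11) (nat_lit 5) (nat_lit 13) (nat_lit 4) (nat_lit 11) (nat_lit 4) (nat_lit 378) (nat_lit 301) (nat_lit 221))))))))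
noncomputable def xc105 : XT := (XT.nd (nat_lit 1794) (nat_lit 228) (nat_lit 0) (XT.nd (nat_lit 858) (nat_lit 228) (nat_lit 0) (XT.nd (nat_lit 390) (nat_lit 76) (nat_lit 0) (XT.nd (nat_lit 156) (nat_lit 152) (nat_lit 0) (XT.nd (nat_lit 78) (nat_lit 0) (nat_lit 0) (XT.lf (nat_lit 0) (nat_lit 34540469166) (nat_lit 152) (nat_lit 14431685546) (nat_lit 0) (nat_lit 9702952492) (nat_lit 11) (nat_lit 5) (nat_lit 13) (nat_lit 4) (nat_lit 11) (nat_lit 4) (nat_lit 379) (nat_lit 301) (nat_lit 220)) (XT.lf (nat_lit 0) (nat_lit 42990103776) (nat_lit 152) (nat_lit 87404094) (nat_lit 0) (nat_lit 18129414098) (nat_lit 11) (nat_lit 5) (nat_lit 13) (nat_lit 4) (nat_lit 11) (nat_lit 4) (nat_lit 380) (nat_lit 301) (nat_lit 219))) (XT.nd (nat_lit 78) (nat_lit 76) (nat_lit 0) (XT.lf (nat_lit 0) (nat_lit 15442402304) (nat_lit 76) (nat_lit 36647160765) (nat_lit 76) (nat_lit 11764401558) (nat_lit 10) (nat_lit 4)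 (nat_lit 11) (nat_lit 5) (nat_lit 11) (nat_lit 4) (nat_lit 381) (nat_lit 301) (nat_lit 218)) (XT.nd (nat_lit 78) (nat_lit 76) (nat_lit 0) (XT.lf (nat_lit 0) (nat_lit 31726209485) (nat_lit 76) (nat_lit 29905766406) (nat_lit 76) (nat_lit 5001988601) (nat_lit 10) (nat_lit 4) (nat_lit 11) (nat_lit 5) (nat_lit 11) (nat_lit 4) (nat_lit 382) (nat_lit 301) (nat_lit 217)) (XT.lf (nat_lit 0) (nat_lit 2018307085) (nat_lit 152) (nat_lit 20786265993) (nat_lit 76) (nat_lit 46747410348) (nat_lit 9) (nat_lit 5) (nat_lit 11) (nat_lit 5) (nat_lit 10) (nat_lit 4) (nat_lit 383) (nat_lit 301) (nat_lit 216))))) (XT.nd (nat_lit 234) (nat_lit 0) (nat_lit 0) (XT.nd (nat_lit 78) (nat_lit 76) (nat_lit 0) (XT.lf (nat_lit 0) (nat_lit 9209069011) (nat_lit 152) (nat_lit 6064268532) (nat_lit 76) (nat_lit 57339091762) (nat_lit 9) (nat_lit 5) (nat_lit 11) (nat_lit 5) (nat_lit 10) (nat_lit 4) (nat_lit 384) (nat_lit 301)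 (nat_lit 215)) (XT.nd (nat_lit 78) (nat_lit 0) (nat_lit 0) (XT.lf (nat_lit 0) (nat_lit 9681245115) (nat_lit 76) (nat_lit 7217419166) (nat_lit 152) (nat_lit 58920271807) (nat_lit 8) (nat_lit 5) (nat_lit 9) (nat_lit 5) (nat_lit 10) (nat_lit 4) (nat_lit 385) (nat_lit 301) (nat_lit 214)) (XT.lf (nat_lit 0) (nat_lit 25084704969) (nat_lit 152) (nat_lit 52799628645) (nat_lit 0) (nat_lit 1295839525) (nat_lit 8) (nat_lit 5) (nat_lit 10) (nat_lit 4) (nat_lit 8) (nat_lit 4) (nat_lit 386) (nat_lit 301) (nat_lit 213)))) (XT.nd (nat_lit 78) (nat_lit 0) (nat_lit 0) (XT.lf (nat_lit 0) (nat_lit 33787128521) (nat_lit 152) (nat_lit 38934413863) (nat_lit 0) (nat_lit 9982578676) (nat_lit 8) (nat_lit 5) (nat_lit 10) (nat_lit 4) (nat_lit 8) (nat_lit 4) (nat_lit 387) (nat_lit 301) (nat_lit 212)) (XT.nd (nat_lit 78) (nat_lit 0) (nat_lit 0) (XT.lf (nat_lit 0) (nat_lit 42913970855) (nat_lit 152) (nat_lit 24396350071)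 (nat_lit 0) (nat_lit 19094483484) (nat_lit 8) (nat_lit 5) (nat_lit 10) (nat_lit 4) (nat_lit 8) (nat_lit 4) (nat_lit 388) (nat_lit 301) (nat_lit 211)) (XT.lf (nat_lit 0) (nat_lit 52486962547) (nat_lit 152) (nat_lit 9150822831) (nat_lit 0) (nat_lit 28653248962) (nat_lit 8) (nat_lit 5) (nat_lit 10) (nat_lit 4) (nat_lit 8) (nat_lit 4) (nat_lit 389) (nat_lit 301) (nat_lit 210)))))) (XT.nd (nat_lit 468) (nat_lit 76) (nat_lit 0) (XT.nd (nat_lit 234) (nat_lit 76) (nat_lit 0) (XT.nd (nat_lit 78) (nat_lit 0) (nat_lit 0) (XT.lf (nat_lit 0) (nat_lit 7064577322) (nat_lit 76) (nat_lit 55574616963) (nat_lit 76) (nat_lit 31727354601) (nat_lit 7) (nat_lit 4) (nat_lit 8) (nat_lit 5) (nat_lit 8) (nat_lit 4) (nat_lit 390) (nat_lit 301) (nat_lit 209)) (XT.nd (nat_lit 78) (nat_lit 0) (nat_lit 0) (XT.lf (nat_lit 0) (nat_lit 24390227963) (nat_lit 76) (nat_lit 49054253733) (nat_lit 76) (nat_lit 25194087775) (nat_lit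 7) (nat_lit 4) (nat_lit 8) (nat_lit 5) (nat_lit 8) (nat_lit 4) (nat_lit 391) (nat_lit 301) (nat_lit 208)) (XT.lf (nat_lit 0) (nat_lit 42564813111) (nat_lit 76) (nat_lit 42216144628) (nat_lit 76) (nat_lit 18343689531) (nat_lit 7) (nat_lit 4) (nat_lit 8) (nat_lit 5) (nat_lit 8) (nat_lit 4) (nat_lit 392) (nat_lit 301) (nat_lit 207)))) (XT.nd (nat_lit 78) (nat_lit 76) (nat_lit 0) (XT.lf (nat_lit 0) (nat_lit 61631605587) (nat_lit 76) (nat_lit 35044008436) (nat_lit 76) (nat_lit 11159849397) (nat_lit 7) (nat_lit 4) (nat_lit 8) (nat_lit 5) (nat_lit 8) (nat_lit 4) (nat_lit 393) (nat_lit 301) (nat_lit 206)) (XT.nd (nat_lit 78) (nat_lit 76) (nat_lit 0) (XT.lf (nat_lit 0) (nat_lit 81636002517) (nat_lit 76) (nat_lit 27520768641) (nat_lit 76) (nat_lit 3625462990) (nat_lit 7) (nat_lit 4) (nat_lit 8) (nat_lit 5) (nat_lit 8) (nat_lit 4) (nat_lit 394) (nat_lit 301) (nat_lit 205)) (XT.lf (nat_lit 0) (nat_lit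 4140504910) (nat_lit 152) (nat_lit 15417886404) (nat_lit 76) (nat_lit 98415007051) (nat_lit 6) (nat_lit 5) (nat_lit 8) (nat_lit 5) (nat_lit 7) (nat_lit 4) (nat_lit 395) (nat_lit 301) (nat_lit 204))))) (XT.nd (nat_lit 234) (nat_lit 0) (nat_lit 0) (XT.nd (nat_lit 78) (nat_lit 0) (nat_lit 0) (XT.lf (nat_lit 0) (nat_lit 1056739392) (nat_lit 76) (nat_lit 11125100202) (nat_lit 152) (nat_lit 111238866001) (nat_lit 5) (nat_lit 5) (nat_lit 6) (nat_lit 5) (nat_lit 7) (nat_lit 4) (nat_lit 396) (nat_lit 301) (nat_lit 203)) (XT.nd (nat_lit 78) (nat_lit 0) (nat_lit 0) (XT.lf (nat_lit 0) (nat_lit 18876079825) (nat_lit 76) (nat_lit 2002817961) (nat_lit 152) (nat_lit 108248799348) (nat_lit 5) (nat_lit 5) (nat_lit 6) (nat_lit 5) (nat_lit 7) (nat_lit 4) (nat_lit 397) (nat_lit 301) (nat_lit 202)) (XT.lf (nat_lit 0) (nat_lit 30121885511) (nat_lit 152) (nat_lit 97665792230) (nat_lit 0) (nat_lit 7326808384)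 (nat_lit 5) (nat_lit 5) (nat_lit 7) (nat_lit 4) (nat_lit 5) (nat_lit 4) (nat_lit 398) (nat_lit 301) (nat_lit 201)))) (XT.nd (nat_lit 78) (nat_lit 0) (nat_lit 0) (XT.lf (nat_lit 0) (nat_lit 39852999143) (nat_lit 152) (nat_lit 84496713974) (nat_lit 0) (nat_lit 17049604243) (nat_lit 5) (nat_lit 5) (nat_lit 7) (nat_lit 4) (nat_lit 5) (nat_lit 4) (nat_lit 399) (nat_lit 301) (nat_lit 200)) (XT.nd (nat_lit 78) (nat_lit 0) (nat_lit 0) (XT.lf (nat_lit 0) (nat_lit 50064138401) (nat_lit 152) (nat_lit 70681757993) (nat_lit 0) (nat_lit 27252821811) (nat_lit 5) (nat_lit 5) (nat_lit 7) (nat_lit 4) (nat_lit 5) (nat_lit 4) (nat_lit 400) (nat_lit 301) (nat_lit 199)) (XT.lf (nat_lit 0) (nat_lit 60779615519) (nat_lit 152) (nat_lit 56188031535) (nat_lit 0) (nat_lit 37960754464) (nat_lit 5) (nat_lit 5) (nat_lit 7) (nat_lit 4) (nat_lit 5) (nat_lit 4) (nat_lit 401) (nat_lit 301) (nat_lit 198))))))) (XT.nd (nat_lit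 858) (nat_lit 152) (nat_lit 0) (XT.nd (nat_lit 390) (nat_lit 0) (nat_lit 0) (XT.nd (nat_lit 156) (nat_lit 76) (nat_lit 0) (XT.nd (nat_lit 78) (nat_lit 0) (nat_lit 0) (XT.lf (nat_lit 0) (nat_lit 72024943539) (nat_lit 152) (nat_lit 40981025728) (nat_lit 0) (nat_lit 49198897279) (nat_lit 5) (nat_lit 5) (nat_lit 7) (nat_lit 4) (nat_lit 5) (nat_lit 4) (nat_lit 402) (nat_lit 301) (nat_lit 197)) (XT.lf (nat_lit 0) (nat_lit 83826897052) (nat_lit 152) (nat_lit 25024533414) (nat_lit 0) (nat_lit 60994007740) (nat_lit 5) (nat_lit 5) (nat_lit 7) (nat_lit 4) (nat_lit 5) (nat_lit 4) (nat_lit 403) (nat_lit 301) (nat_lit 196))) (XT.nd (nat_lit 78) (nat_lit 76) (nat_lit 0) (XT.lf (nat_lit 0) (nat_lit 96213575947) (nat_lit 152) (nat_lit 8280562945) (nat_lit 0) (nat_lit 73374169442) (nat_lit 5) (nat_lit 5) (nat_lit 7) (nat_lit 4) (nat_lit 5) (nat_lit 4) (nat_lit 404) (nat_lit 301) (nat_lit 195)) (XT.nd (nat_lit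 78) (nat_lit 0) (nat_lit 0) (XT.lf (nat_lit 0) (nat_lit 9597946502) (nat_lit 76) (nat_lit 99766376658) (nat_lit 76) (nat_lit 76920763302) (nat_lit 4) (nat_lit 4) (nat_lit 5) (nat_lit 5) (nat_lit 5) (nat_lit 4) (nat_lit 405) (nat_lit 301) (nat_lit 194)) (XT.lf (nat_lit 0) (nat_lit 28648169029) (nat_lit 76) (nat_lit 94659649851) (nat_lit 76) (nat_lit 71808125209) (nat_lit 4) (nat_lit 4) (nat_lit 5) (nat_lit 5) (nat_lit 5) (nat_lit 4) (nat_lit 406) (nat_lit 301) (nat_lit 193))))) (XT.nd (nat_lit 234) (nat_lit 0) (nat_lit 0) (XT.nd (nat_lit 78) (nat_lit 0) (nat_lit 0) (XT.lf (nat_lit 0) (nat_lit 48641669501) (nat_lit 76) (nat_lit 89302034941) (nat_lit 76) (nat_lit 66444880503) (nat_lit 4) (nat_lit 4) (nat_lit 5) (nat_lit 5) (nat_lit 5) (nat_lit 4) (nat_lit 407) (nat_lit 301) (nat_lit 192)) (XT.nd (nat_lit 78) (nat_lit 0) (nat_lit 0) (XT.lf (nat_lit 0) (nat_lit 69626051490) (nat_lit 76) (nat_lit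 83680775701) (nat_lit 76) (nat_lit 60818259552) (nat_lit 4) (nat_lit 4) (nat_lit 5) (nat_lit 5) (nat_lit 5) (nat_lit 4) (nat_lit 408) (nat_lit 301) (nat_lit 191)) (XT.lf (nat_lit 0) (nat_lit 91651277811) (nat_lit 76) (nat_lit 77782488180) (nat_lit 76) (nat_lit 54914865640) (nat_lit 4) (nat_lit 4) (nat_lit 5) (nat_lit 5) (nat_lit 5) (nat_lit 4) (nat_lit 409) (nat_lit 301) (nat_lit 190)))) (XT.nd (nat_lit 78) (nat_lit 0) (nat_lit 0) (XT.lf (nat_lit 0) (nat_lit 114769789479) (nat_lit 76) (nat_lit 71593128837) (nat_lit 76) (nat_lit 48720643067) (nat_lit 4) (nat_lit 4) (nat_lit 5) (nat_lit 5) (nat_lit 5) (nat_lit 4) (nat_lit 410) (nat_lit 301) (nat_lit 189)) (XT.nd (nat_lit 78) (nat_lit 0) (nat_lit 0) (XT.lf (nat_lit 0) (nat_lit 139036630569) (nat_lit 76) (nat_lit 65097961102) (nat_lit 76) (nat_lit 42220843685) (nat_lit 4) (nat_lit 4) (nat_lit 5) (nat_lit 5) (nat_lit 5) (nat_lit 4) (nat_lit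 411) (nat_lit 301) (nat_lit 188)) (XT.lf (nat_lit 0) (nat_lit 164509579274) (nat_lit 76) (nat_lit 58281520290) (nat_lit 76) (nat_lit 35399991780) (nat_lit 4) (nat_lit 4) (nat_lit 5) (nat_lit 5) (nat_lit 5) (nat_lit 4) (nat_lit 412) (nat_lit 301) (nat_lit 187)))))) (XT.nd (nat_lit 468) (nat_lit 0) (nat_lit 0) (XT.nd (nat_lit 234) (nat_lit 152) (nat_lit 0) (XT.nd (nat_lit 78) (nat_lit 0) (nat_lit 0) (XT.lf (nat_lit 0) (nat_lit 191249285472) (nat_lit 76) (nat_lit 51127576779) (nat_lit 76) (nat_lit 28241847228) (nat_lit 4) (nat_lit 4) (nat_lit 5) (nat_lit 5) (nat_lit 5) (nat_lit 4) (nat_lit 413) (nat_lit 301) (nat_lit 186)) (XT.nd (nat_lit 78) (nat_lit 0) (nat_lit 0) (XT.lf (nat_lit 0) (nat_lit 219319415130) (nat_lit 76) (nat_lit 43619097372) (nat_lit 76) (nat_lit 20729366830) (nat_lit 4) (nat_lit 4) (nat_lit 5) (nat_lit 5) (nat_lit 5) (nat_lit 4) (nat_lit 414) (nat_lit 301) (nat_lit 185))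 (XT.lf (nat_lit 0) (nat_lit 248786801890) (nat_lit 76) (nat_lit 35738204735) (nat_lit 76) (nat_lit 12844663725) (nat_lit 4) (nat_lit 4) (nat_lit 5) (nat_lit 5) (nat_lit 5) (nat_lit 4) (nat_lit 415) (nat_lit 301) (nat_lit 184)))) (XT.nd (nat_lit 78) (nat_lit 152) (nat_lit 0) (XT.lf (nat_lit 0) (nat_lit 279721606198) (nat_lit 76) (nat_lit 27466134840) (nat_lit 76) (nat_lit 4568964813) (nat_lit 4) (nat_lit 4) (nat_lit 5) (nat_lit 5) (nat_lit 5) (nat_lit 4) (nat_lit 416) (nat_lit 301) (nat_lit 183)) (XT.nd (nat_lit 78) (nat_lit 76) (nat_lit 0) (XT.lf (nat_lit 0) (nat_lit 3985650351) (nat_lit 152) (nat_lit 14730043012) (nat_lit 76) (nat_lit 308144333079) (nat_lit 3) (nat_lit 5) (nat_lit 5) (nat_lit 5) (nat_lit 4) (nat_lit 4) (nat_lit 417) (nat_lit 301) (nat_lit 182)) (XT.lf (nat_lit 0) (nat_lit 3470964849) (nat_lit 76) (nat_lit 9394831593) (nat_lit 152) (nat_lit 329846404812) (nat_lit 2) (nat_lit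 5) (nat_lit 3) (nat_lit 5) (nat_lit 4) (nat_lit 4) (nat_lit 418) (nat_lit 301) (nat_lit 181))))) (XT.nd (nat_lit 234) (nat_lit 0) (nat_lit 0) (XT.nd (nat_lit 78) (nat_lit 0) (nat_lit 0) (XT.lf (nat_lit 0) (nat_lit 22446787262) (nat_lit 152) (nat_lit 336266809697) (nat_lit 0) (nat_lit 630546558) (nat_lit 2) (nat_lit 5) (nat_lit 4) (nat_lit 4) (nat_lit 2) (nat_lit 4) (nat_lit 419) (nat_lit 301) (nat_lit 180)) (XT.nd (nat_lit 78) (nat_lit 0) (nat_lit 0) (XT.lf (nat_lit 0) (nat_lit 32658142343) (nat_lit 152) (nat_lit 333302917160) (nat_lit 0) (nat_lit 10839058209) (nat_lit 2) (nat_lit 5) (nat_lit 4) (nat_lit 4) (nat_lit 2) (nat_lit 4) (nat_lit 420) (nat_lit 301) (nat_lit 179)) (XT.lf (nat_lit 0) (nat_lit 43377494785) (nat_lit 152) (nat_lit 330195822258) (nat_lit 0) (nat_lit 21555702622) (nat_lit 2) (nat_lit 5) (nat_lit 4) (nat_lit 4) (nat_lit 2) (nat_lit 4) (nat_lit 421) (nat_lit 301) (nat_lit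 178)))) (XT.nd (nat_lit 78) (nat_lit 0) (nat_lit 0) (XT.lf (nat_lit 0) (nat_lit 54630366855) (nat_lit 152) (nat_lit 326938127146) (nat_lit 0) (nat_lit 32805995618) (nat_lit 2) (nat_lit 5) (nat_lit 4) (nat_lit 4) (nat_lit 2) (nat_lit 4) (nat_lit 422) (nat_lit 301) (nat_lit 177)) (XT.nd (nat_lit 78) (nat_lit 0) (nat_lit 0) (XT.lf (nat_lit 0) (nat_lit 66443551106) (nat_lit 152) (nat_lit 323522075407) (nat_lit 0) (nat_lit 44616723607) (nat_lit 2) (nat_lit 5) (nat_lit 4) (nat_lit 4) (nat_lit 2) (nat_lit 4) (nat_lit 423) (nat_lit 301) (nat_lit 176)) (XT.lf (nat_lit 0) (nat_lit 78845174167) (nat_lit 152) (nat_lit 319939533583) (nat_lit 0) (nat_lit 57016007372) (nat_lit 2) (nat_lit 5) (nat_lit 4) (nat_lit 4) (nat_lit 2) (nat_lit 4) (nat_lit 424) (nat_lit 301) (nat_lit 175))))))))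
noncomputable def xc106 : XT := (XT.nd (nat_lit 38376) (nat_lit 0) (nat_lit 3192) (XT.nd (nat_lit 37440) (nat_lit 0) (nat_lit 8512) (XT.nd (nat_lit 390) (nat_lit 0) (nat_lit 0) (XT.nd (nat_lit 156) (nat_lit 0) (nat_lit 0) (XT.nd (nat_lit 78) (nat_lit 0) (nat_lit 0) (XT.lf (nat_lit 0) (nat_lit 91864763713) (nat_lit 152) (nat_lit 316181971815) (nat_lit 0) (nat_lit 70033369016) (nat_lit 2) (nat_lit 5) (nat_lit 4) (nat_lit 4) (nat_lit 2) (nat_lit 4) (nat_lit 425) (nat_lit 301) (nat_lit 174)) (XT.lf (nat_lit 0) (nat_lit 105533318765) (nat_lit 152) (nat_lit 312240443525) (nat_lit 0) (nat_lit 83699802257) (nat_lit 2) (nat_lit 5) (nat_lit 4) (nat_lit 4) (nat_lit 2) (nat_lit 4) (nat_lit 426) (nat_lit 301) (nat_lit 173))) (XT.nd (nat_lit 78) (nat_lit 0) (nat_lit 0) (XT.lf (nat_lit 0) (nat_lit 119883383503) (nat_lit 152) (nat_lit 308105564124) (nat_lit 0) (nat_lit 98047846222) (nat_lit 2) (nat_lit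 5) (nat_lit 4) (nat_lit 4) (nat_lit 2) (nat_lit 4) (nat_lit 427) (nat_lit 301) (nat_lit 172)) (XT.nd (nat_lit 78) (nat_lit 0) (nat_lit 0) (XT.lf (nat_lit 0) (nat_lit 134949124747) (nat_lit 152) (nat_lit 303767488659) (nat_lit 0) (nat_lit 113111662921) (nat_lit 2) (nat_lit 5) (nat_lit 4) (nat_lit 4) (nat_lit 2) (nat_lit 4) (nat_lit 428) (nat_lit 301) (nat_lit 171)) (XT.lf (nat_lit 0) (nat_lit 150766413310) (nat_lit 152) (nat_lit 299215888380) (nat_lit 0) (nat_lit 128927118584) (nat_lit 2) (nat_lit 5) (nat_lit 4) (nat_lit 4) (nat_lit 2) (nat_lit 4) (nat_lit 429) (nat_lit 301) (nat_lit 170))))) (XT.nd (nat_lit 234) (nat_lit 0) (nat_lit 0) (XT.nd (nat_lit 78) (nat_lit 0) (nat_lit 0) (XT.lf (nat_lit 0) (nat_lit 167372909402) (nat_lit 152) (nat_lit 294439926144) (nat_lit 0) (nat_lit 145531869058) (nat_lit 2) (nat_lit 5) (nat_lit 4) (nat_lit 4) (nat_lit 2) (nat_lit 4) (nat_lit 430) (nat_lit 301)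 (nat_lit 169)) (XT.nd (nat_lit 78) (nat_lit 0) (nat_lit 0) (XT.lf (nat_lit 0) (nat_lit 184808152301) (nat_lit 152) (nat_lit 289428230611) (nat_lit 0) (nat_lit 162965449462) (nat_lit 2) (nat_lit 5) (nat_lit 4) (nat_lit 4) (nat_lit 2) (nat_lit 4) (nat_lit 431) (nat_lit 301) (nat_lit 168)) (XT.lf (nat_lit 0) (nat_lit 203113654489) (nat_lit 152) (nat_lit 284168869174) (nat_lit 0) (nat_lit 181269368322) (nat_lit 2) (nat_lit 5) (nat_lit 4) (nat_lit 4) (nat_lit 2) (nat_lit 4) (nat_lit 432) (nat_lit 301) (nat_lit 167)))) (XT.nd (nat_lit 36660) (nat_lit 0) (nat_lit 10640) (XT.lf (nat_lit 0) (nat_lit 222333000496) (nat_lit 152) (nat_lit 278649319542) (nat_lit 0) (nat_lit 200487206397) (nat_lit 2) (nat_lit 5) (nat_lit 4) (nat_lit 4) (nat_lit 2) (nat_lit 4) (nat_lit 433) (nat_lit 301) (nat_lit 166)) (XT.nd (nat_lit 78) (nat_lit 228) (nat_lit 0) (XT.lf (nat_lit 0) (nat_lit 2448476585) (nat_lit 228)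 (nat_lit 397967814) (nat_lit 228) (nat_lit 397967814) (nat_lit 145) (nat_lit 3) (nat_lit 148) (nat_lit 3) (nat_lit 148) (nat_lit 5) (nat_lit 302) (nat_lit 302) (nat_lit 296)) (XT.lf (nat_lit 0) (nat_lit 1019090524) (nat_lit 228) (nat_lit 4187311867) (nat_lit 304) (nat_lit 1309705612) (nat_lit 142) (nat_lit 5) (nat_lit 145) (nat_lit 3) (nat_lit 146) (nat_lit 5) (nat_lit 303) (nat_lit 302) (nat_lit 295)))))) (XT.nd (nat_lit 468) (nat_lit 1520) (nat_lit 0) (XT.nd (nat_lit 234) (nat_lit 304) (nat_lit 0) (XT.nd (nat_lit 78) (nat_lit 304) (nat_lit 0) (XT.lf (nat_lit 0) (nat_lit 3555459705) (nat_lit 228) (nat_lit 1026359222) (nat_lit 304) (nat_lit 1969616442) (nat_lit 142) (nat_lit 5) (nat_lit 145) (nat_lit 3) (nat_lit 146) (nat_lit 5) (nat_lit 304) (nat_lit 302) (nat_lit 294)) (XT.nd (nat_lit 78) (nat_lit 304) (nat_lit 0) (XT.lf (nat_lit 76) (nat_lit 2276594095) (nat_lit 0) (nat_lit 3820126872)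 (nat_lit 304) (nat_lit 498287557) (nat_lit 143) (nat_lit 5) (nat_lit 142) (nat_lit 5) (nat_lit 146) (nat_lit 5) (nat_lit 305) (nat_lit 302) (nat_lit 293)) (XT.lf (nat_lit 0) (nat_lit 1919789704) (nat_lit 304) (nat_lit 985937497) (nat_lit 380) (nat_lit 3740547561) (nat_lit 138) (nat_lit 5) (nat_lit 142) (nat_lit 5) (nat_lit 143) (nat_lit 5) (nat_lit 306) (nat_lit 302) (nat_lit 292)))) (XT.nd (nat_lit 78) (nat_lit 304) (nat_lit 0) (XT.lf (nat_lit 76) (nat_lit 2496396612) (nat_lit 0) (nat_lit 1837774038) (nat_lit 380) (nat_lit 2371248889) (nat_lit 139) (nat_lit 5) (nat_lit 138) (nat_lit 5) (nat_lit 143) (nat_lit 5) (nat_lit 307) (nat_lit 302) (nat_lit 291)) (XT.nd (nat_lit 78) (nat_lit 304) (nat_lit 0) (XT.lf (nat_lit 76) (nat_lit 6100006042) (nat_lit 0) (nat_lit 644764230) (nat_lit 380) (nat_lit 29291481) (nat_lit 139) (nat_lit 5) (nat_lit 138) (nat_lit 5) (nat_lit 143) (nat_lit 5) (nat_lit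 308) (nat_lit 302) (nat_lit 290)) (XT.lf (nat_lit 0) (nat_lit 2273646051) (nat_lit 380) (nat_lit 3852408235) (nat_lit 76) (nat_lit 722388403) (nat_lit 134) (nat_lit 5) (nat_lit 139) (nat_lit 5) (nat_lit 135) (nat_lit 5) (nat_lit 309) (nat_lit 302) (nat_lit 289))))) (XT.nd (nat_lit 234) (nat_lit 608) (nat_lit 0) (XT.nd (nat_lit 78) (nat_lit 912) (nat_lit 0) (XT.lf (nat_lit 0) (nat_lit 4581834013) (nat_lit 380) (nat_lit 158074432) (nat_lit 76) (nat_lit 2192328083) (nat_lit 134) (nat_lit 5) (nat_lit 139) (nat_lit 5) (nat_lit 135) (nat_lit 5) (nat_lit 310) (nat_lit 302) (nat_lit 288)) (XT.nd (nat_lit 78) (nat_lit 532) (nat_lit 0) (XT.lf (nat_lit 0) (nat_lit 3751626664) (nat_lit 380) (nat_lit 3187535672) (nat_lit 456) (nat_lit 84630473) (nat_lit 129) (nat_lit 5) (nat_lit 134) (nat_lit 5) (nat_lit 135) (nat_lit 5) (nat_lit 311) (nat_lit 302) (nat_lit 287)) (XT.lf (nat_lit 0) (nat_lit 634687814)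 (nat_lit 456) (nat_lit 1476454545) (nat_lit 532) (nat_lit 5012721198) (nat_lit 122) (nat_lit 5) (nat_lit 128) (nat_lit 5) (nat_lit 129) (nat_lit 5) (nat_lit 312) (nat_lit 302) (nat_lit 286)))) (XT.nd (nat_lit 78) (nat_lit 608) (nat_lit 0) (XT.lf (nat_lit 0) (nat_lit 4357542045) (nat_lit 532) (nat_lit 2480307836) (nat_lit 76) (nat_lit 394058466) (nat_lit 122) (nat_lit 5) (nat_lit 129) (nat_lit 5) (nat_lit 123) (nat_lit 5) (nat_lit 313) (nat_lit 302) (nat_lit 285)) (XT.nd (nat_lit 78) (nat_lit 76) (nat_lit 0) (XT.lf (nat_lit 0) (nat_lit 1665404824) (nat_lit 532) (nat_lit 4989023901) (nat_lit 608) (nat_lit 694231626) (nat_lit 115) (nat_lit 5) (nat_lit 122) (nat_lit 5) (nat_lit 123) (nat_lit 5) (nat_lit 314) (nat_lit 302) (nat_lit 284)) (XT.lf (nat_lit 0) (nat_lit 1476459737) (nat_lit 608) (nat_lit 1485261999) (nat_lit 76) (nat_lit 4511846810) (nat_lit 114) (nat_lit 5) (nat_lit 122) (nat_lit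 5) (nat_lit 115) (nat_lit 5) (nat_lit 315) (nat_lit 302) (nat_lit 283))))))) (XT.nd (nat_lit 858) (nat_lit 1824) (nat_lit 0) (XT.nd (nat_lit 390) (nat_lit 1444) (nat_lit 0) (XT.nd (nat_lit 156) (nat_lit 1444) (nat_lit 0) (XT.nd (nat_lit 78) (nat_lit 0) (nat_lit 0) (XT.lf (nat_lit 0) (nat_lit 2914005801) (nat_lit 608) (nat_lit 758990840) (nat_lit 684) (nat_lit 3934308660) (nat_lit 106) (nat_lit 5) (nat_lit 114) (nat_lit 5) (nat_lit 115) (nat_lit 5) (nat_lit 316) (nat_lit 302) (nat_lit 282)) (XT.lf (nat_lit 0) (nat_lit 5928125851) (nat_lit 684) (nat_lit 280821640) (nat_lit 76) (nat_lit 1541518635) (nat_lit 106) (nat_lit 5) (nat_lit 115) (nat_lit 5) (nat_lit 107) (nat_lit 5) (nat_lit 317) (nat_lit 302) (nat_lit 281))) (XT.nd (nat_lit 78) (nat_lit 684) (nat_lit 0) (XT.lf (nat_lit 0) (nat_lit 366904935) (nat_lit 760) (nat_lit 3517256456) (nat_lit 76) (nat_lit 4017257849) (nat_lit 96) (nat_lit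 5) (nat_lit 106) (nat_lit 5) (nat_lit 97) (nat_lit 5) (nat_lit 318) (nat_lit 302) (nat_lit 280)) (XT.nd (nat_lit 78) (nat_lit 0) (nat_lit 0) (XT.lf (nat_lit 0) (nat_lit 1147422998) (nat_lit 684) (nat_lit 1384968268) (nat_lit 760) (nat_lit 5529785557) (nat_lit 87) (nat_lit 5) (nat_lit 96) (nat_lit 5) (nat_lit 97) (nat_lit 5) (nat_lit 319) (nat_lit 302) (nat_lit 279)) (XT.lf (nat_lit 0) (nat_lit 4794435809) (nat_lit 760) (nat_lit 2175948049) (nat_lit 76) (nat_lit 1261318620) (nat_lit 87) (nat_lit 5) (nat_lit 97) (nat_lit 5) (nat_lit 88) (nat_lit 5) (nat_lit 320) (nat_lit 302) (nat_lit 278))))) (XT.nd (nat_lit 234) (nat_lit 684) (nat_lit 0) (XT.nd (nat_lit 78) (nat_lit 380) (nat_lit 0) (XT.lf (nat_lit 0) (nat_lit 2775372320) (nat_lit 380) (nat_lit 4373002006) (nat_lit 456) (nat_lit 1262528014) (nat_lit 82) (nat_lit 5) (nat_lit 87) (nat_lit 5) (nat_lit 88) (nat_lit 5) (nat_lit 321) (nat_lit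 302) (nat_lit 277)) (XT.nd (nat_lit 78) (nat_lit 304) (nat_lit 0) (XT.lf (nat_lit 0) (nat_lit 939733563) (nat_lit 456) (nat_lit 656018978) (nat_lit 76) (nat_lit 7005064254) (nat_lit 81) (nat_lit 5) (nat_lit 87) (nat_lit 5) (nat_lit 82) (nat_lit 5) (nat_lit 322) (nat_lit 302) (nat_lit 276)) (XT.lf (nat_lit 0) (nat_lit 3221827223) (nat_lit 380) (nat_lit 4210150391) (nat_lit 76) (nat_lit 1366725876) (nat_lit 77) (nat_lit 5) (nat_lit 82) (nat_lit 5) (nat_lit 78) (nat_lit 5) (nat_lit 323) (nat_lit 302) (nat_lit 275)))) (XT.nd (nat_lit 78) (nat_lit 380) (nat_lit 0) (XT.lf (nat_lit 0) (nat_lit 1028545521) (nat_lit 304) (nat_lit 4563538366) (nat_lit 380) (nat_lit 3415810846) (nat_lit 73) (nat_lit 5) (nat_lit 77) (nat_lit 5) (nat_lit 78) (nat_lit 5) (nat_lit 324) (nat_lit 302) (nat_lit 274)) (XT.nd (nat_lit 78) (nat_lit 380) (nat_lit 0) (XT.lf (nat_lit 0) (nat_lit 6586565901) (nat_lit 304) (nat_lit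 1488533629) (nat_lit 380) (nat_lit 1152841445) (nat_lit 73) (nat_lit 5) (nat_lit 77) (nat_lit 5) (nat_lit 78) (nat_lit 5) (nat_lit 325) (nat_lit 302) (nat_lit 273)) (XT.lf (nat_lit 0) (nat_lit 1183565518) (nat_lit 380) (nat_lit 6535850082) (nat_lit 76) (nat_lit 1738744640) (nat_lit 68) (nat_lit 5) (nat_lit 73) (nat_lit 5) (nat_lit 69) (nat_lit 5) (nat_lit 326) (nat_lit 302) (nat_lit 272)))))) (XT.nd (nat_lit 468) (nat_lit 912) (nat_lit 0) (XT.nd (nat_lit 234) (nat_lit 380) (nat_lit 0) (XT.nd (nat_lit 78) (nat_lit 532) (nat_lit 0) (XT.lf (nat_lit 0) (nat_lit 3595242010) (nat_lit 380) (nat_lit 975027832) (nat_lit 76) (nat_lit 5128909135) (nat_lit 68) (nat_lit 5) (nat_lit 73) (nat_lit 5) (nat_lit 69) (nat_lit 5) (nat_lit 327) (nat_lit 302) (nat_lit 271)) (XT.nd (nat_lit 78) (nat_lit 228) (nat_lit 0) (XT.lf (nat_lit 0) (nat_lit 4936873270) (nat_lit 304) (nat_lit 1198491987) (nat_lit 380) (nat_lit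 3816578889) (nat_lit 64) (nat_lit 5) (nat_lit 68) (nat_lit 5) (nat_lit 69) (nat_lit 5) (nat_lit 328) (nat_lit 302) (nat_lit 270)) (XT.lf (nat_lit 0) (nat_lit 865782301) (nat_lit 228) (nat_lit 7936095657) (nat_lit 304) (nat_lit 1415584871) (nat_lit 61) (nat_lit 5) (nat_lit 64) (nat_lit 5) (nat_lit 65) (nat_lit 5) (nat_lit 329) (nat_lit 302) (nat_lit 269)))) (XT.nd (nat_lit 78) (nat_lit 304) (nat_lit 0) (XT.lf (nat_lit 0) (nat_lit 1109296066) (nat_lit 304) (nat_lit 3403196127) (nat_lit 76) (nat_lit 5981017920) (nat_lit 60) (nat_lit 5) (nat_lit 64) (nat_lit 5) (nat_lit 61) (nat_lit 5) (nat_lit 330) (nat_lit 302) (nat_lit 268)) (XT.nd (nat_lit 78) (nat_lit 0) (nat_lit 0) (XT.lf (nat_lit 0) (nat_lit 2826469599) (nat_lit 304) (nat_lit 866932776) (nat_lit 380) (nat_lit 7089842280) (nat_lit 56) (nat_lit 5) (nat_lit 60) (nat_lit 5) (nat_lit 61) (nat_lit 5) (nat_lit 331) (nat_lit 302) (nat_lit 267))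 (XT.lf (nat_lit 0) (nat_lit 6449374166) (nat_lit 380) (nat_lit 1730985253) (nat_lit 76) (nat_lit 2905042951) (nat_lit 56) (nat_lit 5) (nat_lit 61) (nat_lit 5) (nat_lit 57) (nat_lit 5) (nat_lit 332) (nat_lit 302) (nat_lit 266))))) (XT.nd (nat_lit 234) (nat_lit 380) (nat_lit 0) (XT.nd (nat_lit 78) (nat_lit 304) (nat_lit 0) (XT.lf (nat_lit 0) (nat_lit 4866696115) (nat_lit 228) (nat_lit 4507455152) (nat_lit 304) (nat_lit 2027032513) (nat_lit 53) (nat_lit 5) (nat_lit 56) (nat_lit 5) (nat_lit 57) (nat_lit 5) (nat_lit 333) (nat_lit 302) (nat_lit 265)) (XT.nd (nat_lit 78) (nat_lit 0) (nat_lit 0) (XT.lf (nat_lit 0) (nat_lit 30808556) (nat_lit 228) (nat_lit 630460883) (nat_lit 304) (nat_lit 11072405772) (nat_lit 49) (nat_lit 5) (nat_lit 52) (nat_lit 5) (nat_lit 53) (nat_lit 5) (nat_lit 334) (nat_lit 302) (nat_lit 264)) (XT.lf (nat_lit 0) (nat_lit 3524613621) (nat_lit 304) (nat_lit 5097658545) (nat_lit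 76) (nat_lit 3453477250) (nat_lit 49) (nat_lit 5) (nat_lit 53) (nat_lit 5) (nat_lit 50) (nat_lit 5) (nat_lit 335) (nat_lit 302) (nat_lit 263)))) (XT.nd (nat_lit 78) (nat_lit 228) (nat_lit 0) (XT.lf (nat_lit 0) (nat_lit 1806361222) (nat_lit 152) (nat_lit 4708592817) (nat_lit 228) (nat_lit 5920836257) (nat_lit 47) (nat_lit 5) (nat_lit 49) (nat_lit 5) (nat_lit 50) (nat_lit 5) (nat_lit 336) (nat_lit 302) (nat_lit 262)) (XT.nd (nat_lit 78) (nat_lit 228) (nat_lit 0) (XT.lf (nat_lit 0) (nat_lit 9154906041) (nat_lit 152) (nat_lit 532920760) (nat_lit 228) (nat_lit 3124407480) (nat_lit 47) (nat_lit 5) (nat_lit 49) (nat_lit 5) (nat_lit 50) (nat_lit 5) (nat_lit 337) (nat_lit 302) (nat_lit 261)) (XT.lf (nat_lit 0) (nat_lit 3643681365) (nat_lit 228) (nat_lit 9441544126) (nat_lit 304) (nat_lit 119030218) (nat_lit 44) (nat_lit 5) (nat_lit 47) (nat_lit 5) (nat_lit 48) (nat_lit 5) (nat_lit 338) (nat_lit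 302) (nat_lit 260))))))))
noncomputable def xc107 : XT := (XT.nd (nat_lit 1794) (nat_lit 836) (nat_lit 0) (XT.nd (nat_lit 858) (nat_lit 684) (nat_lit 0) (XT.nd (nat_lit 390) (nat_lit 532) (nat_lit 0) (XT.nd (nat_lit 156) (nat_lit 380) (nat_lit 0) (XT.nd (nat_lit 78) (nat_lit 152) (nat_lit 0) (XT.lf (nat_lit 0) (nat_lit 2960378432) (nat_lit 304) (nat_lit 2309904706) (nat_lit 76) (nat_lit 8342221676) (nat_lit 43) (nat_lit 5) (nat_lit 47) (nat_lit 5) (nat_lit 44) (nat_lit 5) (nat_lit 339) (nat_lit 302) (nat_lit 259)) (XT.lf (nat_lit 0) (nat_lit 5401193124) (nat_lit 152) (nat_lit 824570799) (nat_lit 228) (nat_lit 7813547193) (nat_lit 41) (nat_lit 5) (nat_lit 43) (nat_lit 5) (nat_lit 44) (nat_lit 5) (nat_lit 340) (nat_lit 302) (nat_lit 258))) (XT.nd (nat_lit 78) (nat_lit 380) (nat_lit 0) (XT.lf (nat_lit 0) (nat_lit 9706658383) (nat_lit 228) (nat_lit 1041969232) (nat_lit 76) (nat_lit 3736258742)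 (nat_lit 41) (nat_lit 5) (nat_lit 44) (nat_lit 5) (nat_lit 42) (nat_lit 5) (nat_lit 341) (nat_lit 302) (nat_lit 257)) (XT.nd (nat_lit 78) (nat_lit 228) (nat_lit 0) (XT.lf (nat_lit 0) (nat_lit 7076622655) (nat_lit 152) (nat_lit 6363713963) (nat_lit 228) (nat_lit 1508505463) (nat_lit 39) (nat_lit 5) (nat_lit 41) (nat_lit 5) (nat_lit 42) (nat_lit 5) (nat_lit 342) (nat_lit 302) (nat_lit 256)) (XT.lf (nat_lit 0) (nat_lit 104480796) (nat_lit 152) (nat_lit 1733237059) (nat_lit 228) (nat_lit 13598079452) (nat_lit 36) (nat_lit 5) (nat_lit 38) (nat_lit 5) (nat_lit 39) (nat_lit 5) (nat_lit 343) (nat_lit 302) (nat_lit 255))))) (XT.nd (nat_lit 234) (nat_lit 380) (nat_lit 0) (XT.nd (nat_lit 78) (nat_lit 152) (nat_lit 0) (XT.lf (nat_lit 0) (nat_lit 5440614117) (nat_lit 228) (nat_lit 7334292400) (nat_lit 76) (nat_lit 3163987834) (nat_lit 36) (nat_lit 5) (nat_lit 39) (nat_lit 5) (nat_lit 37) (nat_lit 5)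 (nat_lit 344) (nat_lit 302) (nat_lit 254)) (XT.nd (nat_lit 78) (nat_lit 0) (nat_lit 0) (XT.lf (nat_lit 0) (nat_lit 998099497) (nat_lit 152) (nat_lit 8227365180) (nat_lit 228) (nat_lit 7241622913) (nat_lit 34) (nat_lit 5) (nat_lit 36) (nat_lit 5) (nat_lit 37) (nat_lit 5) (nat_lit 345) (nat_lit 302) (nat_lit 253)) (XT.lf (nat_lit 0) (nat_lit 9934822964) (nat_lit 152) (nat_lit 3347721369) (nat_lit 228) (nat_lit 3735027132) (nat_lit 34) (nat_lit 5) (nat_lit 36) (nat_lit 5) (nat_lit 37) (nat_lit 5) (nat_lit 346) (nat_lit 302) (nat_lit 252)))) (XT.nd (nat_lit 78) (nat_lit 228) (nat_lit 0) (XT.lf (nat_lit 0) (nat_lit 1683621294) (nat_lit 152) (nat_lit 15873227296) (nat_lit 228) (nat_lit 38041272) (nat_lit 32) (nat_lit 5) (nat_lit 34) (nat_lit 5) (nat_lit 35) (nat_lit 4) (nat_lit 347) (nat_lit 302) (nat_lit 251)) (XT.nd (nat_lit 78) (nat_lit 152) (nat_lit 0) (XT.lf (nat_lit 0) (nat_lit 3858145067)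 (nat_lit 228) (nat_lit 7243346557) (nat_lit 76) (nat_lit 7089739280) (nat_lit 31) (nat_lit 5) (nat_lit 34) (nat_lit 5) (nat_lit 32) (nat_lit 5) (nat_lit 348) (nat_lit 302) (nat_lit 250)) (XT.lf (nat_lit 0) (nat_lit 1854201557) (nat_lit 152) (nat_lit 6085066924) (nat_lit 228) (nat_lit 10878543956) (nat_lit 29) (nat_lit 5) (nat_lit 31) (nat_lit 5) (nat_lit 32) (nat_lit 5) (nat_lit 349) (nat_lit 302) (nat_lit 249)))))) (XT.nd (nat_lit 468) (nat_lit 380) (nat_lit 0) (XT.nd (nat_lit 234) (nat_lit 152) (nat_lit 0) (XT.nd (nat_lit 78) (nat_lit 152) (nat_lit 0) (XT.lf (nat_lit 0) (nat_lit 11596615256) (nat_lit 152) (nat_lit 713787120) (nat_lit 228) (nat_lit 7161046697) (nat_lit 29) (nat_lit 5) (nat_lit 31) (nat_lit 5) (nat_lit 32) (nat_lit 5) (nat_lit 350) (nat_lit 302) (nat_lit 248)) (XT.nd (nat_lit 78) (nat_lit 76) (nat_lit 0) (XT.lf (nat_lit 0) (nat_lit 1582152010) (nat_lit 76) (nat_lit 15384217109)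 (nat_lit 152) (nat_lit 3188107226) (nat_lit 28) (nat_lit 5) (nat_lit 29) (nat_lit 5) (nat_lit 30) (nat_lit 4) (nat_lit 351) (nat_lit 302) (nat_lit 247)) (XT.lf (nat_lit 0) (nat_lit 1064092333) (nat_lit 152) (nat_lit 9169021086) (nat_lit 76) (nat_lit 10632189799) (nat_lit 27) (nat_lit 5) (nat_lit 29) (nat_lit 5) (nat_lit 28) (nat_lit 5) (nat_lit 352) (nat_lit 302) (nat_lit 246)))) (XT.nd (nat_lit 78) (nat_lit 0) (nat_lit 0) (XT.lf (nat_lit 0) (nat_lit 614542670) (nat_lit 152) (nat_lit 4783325718) (nat_lit 228) (nat_lit 16212403986) (nat_lit 25) (nat_lit 5) (nat_lit 27) (nat_lit 5) (nat_lit 28) (nat_lit 5) (nat_lit 353) (nat_lit 302) (nat_lit 245)) (XT.nd (nat_lit 78) (nat_lit 0) (nat_lit 0) (XT.lf (nat_lit 0) (nat_lit 10087679030) (nat_lit 228) (nat_lit 11253992867) (nat_lit 76) (nat_lit 1043869404) (nat_lit 25) (nat_lit 5) (nat_lit 28) (nat_lit 5) (nat_lit 26) (nat_lit 4) (nat_lit 354)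 (nat_lit 302) (nat_lit 244)) (XT.lf (nat_lit 0) (nat_lit 15058832244) (nat_lit 228) (nat_lit 1158512007) (nat_lit 76) (nat_lit 6979904537) (nat_lit 25) (nat_lit 5) (nat_lit 28) (nat_lit 5) (nat_lit 26) (nat_lit 4) (nat_lit 355) (nat_lit 302) (nat_lit 243))))) (XT.nd (nat_lit 234) (nat_lit 76) (nat_lit 0) (XT.nd (nat_lit 78) (nat_lit 228) (nat_lit 0) (XT.lf (nat_lit 0) (nat_lit 9699887840) (nat_lit 76) (nat_lit 10700037584) (nat_lit 152) (nat_lit 3643563984) (nat_lit 24) (nat_lit 5) (nat_lit 25) (nat_lit 5) (nat_lit 26) (nat_lit 4) (nat_lit 356) (nat_lit 302) (nat_lit 242)) (XT.nd (nat_lit 78) (nat_lit 152) (nat_lit 0) (XT.lf (nat_lit 0) (nat_lit 1031602776) (nat_lit 152) (nat_lit 3859227196) (nat_lit 76) (nat_lit 20040886834) (nat_lit 23) (nat_lit 5) (nat_lit 25) (nat_lit 5) (nat_lit 24) (nat_lit 5) (nat_lit 357) (nat_lit 302) (nat_lit 241)) (XT.lf (nat_lit 0) (nat_lit 5924496793) (nat_lit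 228) (nat_lit 18606086624) (nat_lit 76) (nat_lit 1325479377) (nat_lit 21) (nat_lit 5) (nat_lit 24) (nat_lit 5) (nat_lit 22) (nat_lit 4) (nat_lit 358) (nat_lit 302) (nat_lit 240)))) (XT.nd (nat_lit 78) (nat_lit 76) (nat_lit 0) (XT.lf (nat_lit 0) (nat_lit 11180395221) (nat_lit 228) (nat_lit 7906230104) (nat_lit 76) (nat_lit 7734096653) (nat_lit 21) (nat_lit 5) (nat_lit 24) (nat_lit 5) (nat_lit 22) (nat_lit 4) (nat_lit 359) (nat_lit 302) (nat_lit 239)) (XT.nd (nat_lit 78) (nat_lit 0) (nat_lit 0) (XT.lf (nat_lit 0) (nat_lit 3389242554) (nat_lit 76) (nat_lit 13335859542) (nat_lit 152) (nat_lit 11107224569) (nat_lit 20) (nat_lit 5) (nat_lit 21) (nat_lit 5) (nat_lit 22) (nat_lit 4) (nat_lit 360) (nat_lit 302) (nat_lit 238)) (XT.lf (nat_lit 0) (nat_lit 15476893518) (nat_lit 76) (nat_lit 7177690551) (nat_lit 152) (nat_lit 6234563120) (nat_lit 20) (nat_lit 5) (nat_lit 21) (nat_lit 5) (nat_lit 22)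 (nat_lit 4) (nat_lit 361) (nat_lit 302) (nat_lit 237))))))) (XT.nd (nat_lit 858) (nat_lit 380) (nat_lit 0) (XT.nd (nat_lit 390) (nat_lit 228) (nat_lit 0) (XT.nd (nat_lit 156) (nat_lit 76) (nat_lit 0) (XT.nd (nat_lit 78) (nat_lit 152) (nat_lit 0) (XT.lf (nat_lit 0) (nat_lit 28124087238) (nat_lit 76) (nat_lit 731351877) (nat_lit 152) (nat_lit 1144636668) (nat_lit 20) (nat_lit 5) (nat_lit 21) (nat_lit 5) (nat_lit 22) (nat_lit 4) (nat_lit 362) (nat_lit 302) (nat_lit 236)) (XT.lf (nat_lit 0) (nat_lit 4302125048) (nat_lit 152) (nat_lit 20791165394) (nat_lit 76) (nat_lit 6058154803) (nat_lit 18) (nat_lit 5) (nat_lit 20) (nat_lit 5) (nat_lit 19) (nat_lit 4) (nat_lit 363) (nat_lit 302) (nat_lit 235))) (XT.nd (nat_lit 78) (nat_lit 76) (nat_lit 0) (XT.lf (nat_lit 0) (nat_lit 10002922294) (nat_lit 152) (nat_lit 9160299638) (nat_lit 76) (nat_lit 13195225143) (nat_lit 18) (nat_lit 5) (nat_lit 20) (nat_lit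 5) (nat_lit 19) (nat_lit 4) (nat_lit 364) (nat_lit 302) (nat_lit 234)) (XT.nd (nat_lit 78) (nat_lit 0) (nat_lit 0) (XT.lf (nat_lit 0) (nat_lit 3110009111) (nat_lit 76) (nat_lit 12904338403) (nat_lit 152) (nat_lit 17610181942) (nat_lit 17) (nat_lit 5) (nat_lit 18) (nat_lit 5) (nat_lit 19) (nat_lit 4) (nat_lit 365) (nat_lit 302) (nat_lit 233)) (XT.lf (nat_lit 0) (nat_lit 16270889822) (nat_lit 76) (nat_lit 6188074509) (nat_lit 152) (nat_lit 12488330005) (nat_lit 17) (nat_lit 5) (nat_lit 18) (nat_lit 5) (nat_lit 19) (nat_lit 4) (nat_lit 366) (nat_lit 302) (nat_lit 232))))) (XT.nd (nat_lit 234) (nat_lit 76) (nat_lit 0) (XT.nd (nat_lit 78) (nat_lit 152) (nat_lit 0) (XT.lf (nat_lit 0) (nat_lit 29217585396) (nat_lit 152) (nat_lit 6299696535) (nat_lit 0) (nat_lit 819335805) (nat_lit 17) (nat_lit 5) (nat_lit 19) (nat_lit 4) (nat_lit 17) (nat_lit 4) (nat_lit 367) (nat_lit 302) (nat_lit 231)) (XT.nd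 (nat_lit 78) (nat_lit 76) (nat_lit 0) (XT.lf (nat_lit 0) (nat_lit 6773261922) (nat_lit 76) (nat_lit 29727387042) (nat_lit 76) (nat_lit 1285441294) (nat_lit 16) (nat_lit 4) (nat_lit 17) (nat_lit 5) (nat_lit 17) (nat_lit 4) (nat_lit 368) (nat_lit 302) (nat_lit 230)) (XT.lf (nat_lit 0) (nat_lit 4772741884) (nat_lit 152) (nat_lit 18699440271) (nat_lit 76) (nat_lit 15827692947) (nat_lit 15) (nat_lit 5) (nat_lit 17) (nat_lit 5) (nat_lit 16) (nat_lit 4) (nat_lit 369) (nat_lit 302) (nat_lit 229)))) (XT.nd (nat_lit 78) (nat_lit 76) (nat_lit 0) (XT.lf (nat_lit 0) (nat_lit 11070996816) (nat_lit 152) (nat_lit 5827651364) (nat_lit 76) (nat_lit 23990636638) (nat_lit 15) (nat_lit 5) (nat_lit 17) (nat_lit 5) (nat_lit 16) (nat_lit 4) (nat_lit 370) (nat_lit 302) (nat_lit 228)) (XT.nd (nat_lit 78) (nat_lit 0) (nat_lit 0) (XT.lf (nat_lit 0) (nat_lit 7906306011) (nat_lit 76) (nat_lit 9882595077) (nat_lit 152)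 (nat_lit 24764034113) (nat_lit 14) (nat_lit 5) (nat_lit 15) (nat_lit 5) (nat_lit 16) (nat_lit 4) (nat_lit 371) (nat_lit 302) (nat_lit 227)) (XT.lf (nat_lit 0) (nat_lit 22495368010) (nat_lit 76) (nat_lit 2427684754) (nat_lit 152) (nat_lit 19372704407) (nat_lit 14) (nat_lit 5) (nat_lit 15) (nat_lit 5) (nat_lit 16) (nat_lit 4) (nat_lit 372) (nat_lit 302) (nat_lit 226)))))) (XT.nd (nat_lit 468) (nat_lit 152) (nat_lit 0) (XT.nd (nat_lit 234) (nat_lit 152) (nat_lit 0) (XT.nd (nat_lit 78) (nat_lit 76) (nat_lit 0) (XT.lf (nat_lit 0) (nat_lit 32480520645) (nat_lit 152) (nat_lit 8429095106) (nat_lit 0) (nat_lit 5212780417) (nat_lit 14) (nat_lit 5) (nat_lit 16) (nat_lit 4) (nat_lit 14) (nat_lit 4) (nat_lit 373) (nat_lit 302) (nat_lit 225)) (XT.nd (nat_lit 78) (nat_lit 0) (nat_lit 0) (XT.lf (nat_lit 0) (nat_lit 5722748967) (nat_lit 76) (nat_lit 34805402011) (nat_lit 76) (nat_lit 7506607740) (nat_lit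 13) (nat_lit 4) (nat_lit 14) (nat_lit 5) (nat_lit 14) (nat_lit 4) (nat_lit 374) (nat_lit 302) (nat_lit 224)) (XT.lf (nat_lit 0) (nat_lit 20843950248) (nat_lit 76) (nat_lit 28260426876) (nat_lit 76) (nat_lit 932057326) (nat_lit 13) (nat_lit 4) (nat_lit 14) (nat_lit 5) (nat_lit 14) (nat_lit 4) (nat_lit 375) (nat_lit 302) (nat_lit 223)))) (XT.nd (nat_lit 78) (nat_lit 76) (nat_lit 0) (XT.lf (nat_lit 0) (nat_lit 5764091703) (nat_lit 152) (nat_lit 15540148490) (nat_lit 76) (nat_lit 30830098259) (nat_lit 12) (nat_lit 5) (nat_lit 14) (nat_lit 5) (nat_lit 13) (nat_lit 4) (nat_lit 376) (nat_lit 302) (nat_lit 222)) (XT.nd (nat_lit 78) (nat_lit 76) (nat_lit 0) (XT.lf (nat_lit 0) (nat_lit 12748474893) (nat_lit 152) (nat_lit 1248988599) (nat_lit 76) (nat_lit 40339677666) (nat_lit 12) (nat_lit 5) (nat_lit 14) (nat_lit 5) (nat_lit 13) (nat_lit 4) (nat_lit 377) (nat_lit 302) (nat_lit 221)) (XT.lf (nat_lit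 0) (nat_lit 14183535791) (nat_lit 76) (nat_lit 6105462336) (nat_lit 152) (nat_lit 36350744576) (nat_lit 11) (nat_lit 5) (nat_lit 12) (nat_lit 5) (nat_lit 13) (nat_lit 4) (nat_lit 378) (nat_lit 302) (nat_lit 220))))) (XT.nd (nat_lit 234) (nat_lit 76) (nat_lit 0) (XT.nd (nat_lit 78) (nat_lit 76) (nat_lit 0) (XT.lf (nat_lit 0) (nat_lit 28247656161) (nat_lit 152) (nat_lit 28687008256) (nat_lit 0) (nat_lit 2120758994) (nat_lit 11) (nat_lit 5) (nat_lit 13) (nat_lit 4) (nat_lit 11) (nat_lit 4) (nat_lit 379) (nat_lit 302) (nat_lit 219)) (XT.nd (nat_lit 78) (nat_lit 76) (nat_lit 0) (XT.lf (nat_lit 0) (nat_lit 36690580418) (nat_lit 152) (nat_lit 14355381652) (nat_lit 0) (nat_lit 10541613722) (nat_lit 11) (nat_lit 5) (nat_lit 13) (nat_lit 4) (nat_lit 11) (nat_lit 4) (nat_lit 380) (nat_lit 302) (nat_lit 218)) (XT.lf (nat_lit 0) (nat_lit 690210235) (nat_lit 76) (nat_lit 44863115602) (nat_lit 76) (nat_lit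 18693130308) (nat_lit 10) (nat_lit 4) (nat_lit 11) (nat_lit 5) (nat_lit 11) (nat_lit 4) (nat_lit 381) (nat_lit 302) (nat_lit 217)))) (XT.nd (nat_lit 78) (nat_lit 76) (nat_lit 0) (XT.lf (nat_lit 0) (nat_lit 16962159569) (nat_lit 76) (nat_lit 38127307466) (nat_lit 76) (nat_lit 11937304459) (nat_lit 10) (nat_lit 4) (nat_lit 11) (nat_lit 5) (nat_lit 11) (nat_lit 4) (nat_lit 382) (nat_lit 302) (nat_lit 216)) (XT.nd (nat_lit 78) (nat_lit 76) (nat_lit 0) (XT.lf (nat_lit 0) (nat_lit 34024555339) (nat_lit 76) (nat_lit 31065615357) (nat_lit 76) (nat_lit 4856547862) (nat_lit 10) (nat_lit 4) (nat_lit 11) (nat_lit 5) (nat_lit 11) (nat_lit 4) (nat_lit 383) (nat_lit 302) (nat_lit 215)) (XT.lf (nat_lit 0) (nat_lit 2483870451) (nat_lit 152) (nat_lit 21135289724) (nat_lit 76) (nat_lit 49392086296) (nat_lit 9) (nat_lit 5) (nat_lit 11) (nat_lit 5) (nat_lit 10) (nat_lit 4) (nat_lit 384) (nat_lit 302) (nat_lit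 214))))))))
noncomputable def xc108 : XT := (XT.nd (nat_lit 1794) (nat_lit 152) (nat_lit 0) (XT.nd (nat_lit 858) (nat_lit 228) (nat_lit 0) (XT.nd (nat_lit 390) (nat_lit 76) (nat_lit 0) (XT.nd (nat_lit 156) (nat_lit 0) (nat_lit 0) (XT.nd (nat_lit 78) (nat_lit 76) (nat_lit 0) (XT.lf (nat_lit 0) (nat_lit 10016806283) (nat_lit 152) (nat_lit 5710063322) (nat_lit 76) (nat_lit 60498718188) (nat_lit 9) (nat_lit 5) (nat_lit 11) (nat_lit 5) (nat_lit 10) (nat_lit 4) (nat_lit 385) (nat_lit 302) (nat_lit 213)) (XT.lf (nat_lit 0) (nat_lit 10812122481) (nat_lit 76) (nat_lit 7272320107) (nat_lit 152) (nat_lit 61508303968) (nat_lit 8) (nat_lit 5) (nat_lit 9) (nat_lit 5) (nat_lit 10) (nat_lit 4) (nat_lit 386) (nat_lit 302) (nat_lit 212))) (XT.nd (nat_lit 78) (nat_lit 0) (nat_lit 0) (XT.lf (nat_lit 0) (nat_lit 26668104163) (nat_lit 152) (nat_lit 54811824937) (nat_lit 0) (nat_lit 1642704898) (nat_lit 8) (nat_lit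 5) (nat_lit 10) (nat_lit 4) (nat_lit 8) (nat_lit 4) (nat_lit 387) (nat_lit 302) (nat_lit 211)) (XT.nd (nat_lit 78) (nat_lit 0) (nat_lit 0) (XT.lf (nat_lit 0) (nat_lit 35789974419) (nat_lit 152) (nat_lit 40283243946) (nat_lit 0) (nat_lit 10750348939) (nat_lit 8) (nat_lit 5) (nat_lit 10) (nat_lit 4) (nat_lit 8) (nat_lit 4) (nat_lit 388) (nat_lit 302) (nat_lit 210)) (XT.lf (nat_lit 0) (nat_lit 45358230800) (nat_lit 152) (nat_lit 25046747946) (nat_lit 0) (nat_lit 20305056544) (nat_lit 8) (nat_lit 5) (nat_lit 10) (nat_lit 4) (nat_lit 8) (nat_lit 4) (nat_lit 389) (nat_lit 302) (nat_lit 209))))) (XT.nd (nat_lit 234) (nat_lit 0) (nat_lit 0) (XT.nd (nat_lit 78) (nat_lit 76) (nat_lit 0) (XT.lf (nat_lit 0) (nat_lit 55395654867) (nat_lit 152) (nat_lit 9066059565) (nat_lit 0) (nat_lit 30329577015) (nat_lit 8) (nat_lit 5) (nat_lit 10) (nat_lit 4) (nat_lit 8) (nat_lit 4) (nat_lit 390) (nat_lit 302) (nat_lit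 208)) (XT.nd (nat_lit 78) (nat_lit 0) (nat_lit 0) (XT.lf (nat_lit 0) (nat_lit 7951363751) (nat_lit 76) (nat_lit 58098924570) (nat_lit 76) (nat_lit 33020557578) (nat_lit 7) (nat_lit 4) (nat_lit 8) (nat_lit 5) (nat_lit 8) (nat_lit 4) (nat_lit 391) (nat_lit 302) (nat_lit 207)) (XT.lf (nat_lit 0) (nat_lit 26117889421) (nat_lit 76) (nat_lit 51264658571) (nat_lit 76) (nat_lit 26174587638) (nat_lit 7) (nat_lit 4) (nat_lit 8) (nat_lit 5) (nat_lit 8) (nat_lit 4) (nat_lit 392) (nat_lit 302) (nat_lit 206)))) (XT.nd (nat_lit 78) (nat_lit 0) (nat_lit 0) (XT.lf (nat_lit 0) (nat_lit 45177006205) (nat_lit 76) (nat_lit 44096182480) (nat_lit 76) (nat_lit 18994964935) (nat_lit 7) (nat_lit 4) (nat_lit 8) (nat_lit 5) (nat_lit 8) (nat_lit 4) (nat_lit 393) (nat_lit 302) (nat_lit 205)) (XT.nd (nat_lit 78) (nat_lit 0) (nat_lit 0) (XT.lf (nat_lit 0) (nat_lit 65174092950) (nat_lit 76) (nat_lit 36576428496) (nat_lit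 76) (nat_lit 11464595130) (nat_lit 7) (nat_lit 4) (nat_lit 8) (nat_lit 5) (nat_lit 8) (nat_lit 4) (nat_lit 394) (nat_lit 302) (nat_lit 204)) (XT.lf (nat_lit 0) (nat_lit 86156761770) (nat_lit 76) (nat_lit 28687492443) (nat_lit 76) (nat_lit 3565548772) (nat_lit 7) (nat_lit 4) (nat_lit 8) (nat_lit 5) (nat_lit 8) (nat_lit 4) (nat_lit 395) (nat_lit 302) (nat_lit 203)))))) (XT.nd (nat_lit 468) (nat_lit 76) (nat_lit 0) (XT.nd (nat_lit 234) (nat_lit 0) (nat_lit 0) (XT.nd (nat_lit 78) (nat_lit 76) (nat_lit 0) (XT.lf (nat_lit 0) (nat_lit 4569880504) (nat_lit 152) (nat_lit 15763317499) (nat_lit 76) (nat_lit 103527697757) (nat_lit 6) (nat_lit 5) (nat_lit 8) (nat_lit 5) (nat_lit 7) (nat_lit 4) (nat_lit 396) (nat_lit 302) (nat_lit 202)) (XT.nd (nat_lit 78) (nat_lit 0) (nat_lit 0) (XT.lf (nat_lit 0) (nat_lit 1528177278) (nat_lit 76) (nat_lit 11481052066) (nat_lit 152) (nat_lit 116571544255) (nat_lit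 5) (nat_lit 5) (nat_lit 6) (nat_lit 5) (nat_lit 7) (nat_lit 4) (nat_lit 397) (nat_lit 302) (nat_lit 201)) (XT.lf (nat_lit 0) (nat_lit 20218551355) (nat_lit 76) (nat_lit 1912193959) (nat_lit 152) (nat_lit 113442891653) (nat_lit 5) (nat_lit 5) (nat_lit 6) (nat_lit 5) (nat_lit 7) (nat_lit 4) (nat_lit 398) (nat_lit 302) (nat_lit 200)))) (XT.nd (nat_lit 78) (nat_lit 0) (nat_lit 0) (XT.lf (nat_lit 0) (nat_lit 31828818847) (nat_lit 152) (nat_lit 102162287375) (nat_lit 0) (nat_lit 7869014739) (nat_lit 5) (nat_lit 5) (nat_lit 7) (nat_lit 4) (nat_lit 5) (nat_lit 4) (nat_lit 399) (nat_lit 302) (nat_lit 199)) (XT.nd (nat_lit 78) (nat_lit 0) (nat_lit 0) (XT.lf (nat_lit 0) (nat_lit 42036924396) (nat_lit 152) (nat_lit 88353173990) (nat_lit 0) (nat_lit 18069575823) (nat_lit 5) (nat_lit 5) (nat_lit 7) (nat_lit 4) (nat_lit 5) (nat_lit 4) (nat_lit 400) (nat_lit 302) (nat_lit 198)) (XT.lf (nat_lit 0) (nat_lit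 52749512268) (nat_lit 152) (nat_lit 73865011910) (nat_lit 0) (nat_lit 28774978490) (nat_lit 5) (nat_lit 5) (nat_lit 7) (nat_lit 4) (nat_lit 5) (nat_lit 4) (nat_lit 401) (nat_lit 302) (nat_lit 197))))) (XT.nd (nat_lit 234) (nat_lit 76) (nat_lit 0) (XT.nd (nat_lit 78) (nat_lit 0) (nat_lit 0) (XT.lf (nat_lit 0) (nat_lit 63992088626) (nat_lit 152) (nat_lit 58663305509) (nat_lit 0) (nat_lit 40010711795) (nat_lit 5) (nat_lit 5) (nat_lit 7) (nat_lit 4) (nat_lit 5) (nat_lit 4) (nat_lit 402) (nat_lit 302) (nat_lit 196)) (XT.nd (nat_lit 78) (nat_lit 0) (nat_lit 0) (XT.lf (nat_lit 0) (nat_lit 75791421508) (nat_lit 152) (nat_lit 42711860249) (nat_lit 0) (nat_lit 51803527484) (nat_lit 5) (nat_lit 5) (nat_lit 7) (nat_lit 4) (nat_lit 5) (nat_lit 4) (nat_lit 403) (nat_lit 302) (nat_lit 195)) (XT.lf (nat_lit 0) (nat_lit 88175604564) (nat_lit 152) (nat_lit 25972696499) (nat_lit 0) (nat_lit 64181503689)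 (nat_lit 5) (nat_lit 5) (nat_lit 7) (nat_lit 4) (nat_lit 5) (nat_lit 4) (nat_lit 404) (nat_lit 302) (nat_lit 194)))) (XT.nd (nat_lit 78) (nat_lit 76) (nat_lit 0) (XT.lf (nat_lit 0) (nat_lit 101174123943) (nat_lit 152) (nat_lit 8405959107) (nat_lit 0) (nat_lit 77174111783) (nat_lit 5) (nat_lit 5) (nat_lit 7) (nat_lit 4) (nat_lit 5) (nat_lit 4) (nat_lit 405) (nat_lit 302) (nat_lit 193)) (XT.nd (nat_lit 78) (nat_lit 0) (nat_lit 0) (XT.lf (nat_lit 0) (nat_lit 10361820458) (nat_lit 76) (nat_lit 104617885100) (nat_lit 76) (nat_lit 80612243144) (nat_lit 4) (nat_lit 4) (nat_lit 5) (nat_lit 5) (nat_lit 5) (nat_lit 4) (nat_lit 406) (nat_lit 302) (nat_lit 192)) (XT.lf (nat_lit 0) (nat_lit 30351031415) (nat_lit 76) (nat_lit 99262336734) (nat_lit 76) (nat_lit 75251333067) (nat_lit 4) (nat_lit 4) (nat_lit 5) (nat_lit 5) (nat_lit 5) (nat_lit 4) (nat_lit 407) (nat_lit 302) (nat_lit 191))))))) (XT.nd (nat_lit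 858) (nat_lit 76) (nat_lit 0) (XT.nd (nat_lit 390) (nat_lit 76) (nat_lit 0) (XT.nd (nat_lit 156) (nat_lit 0) (nat_lit 0) (XT.nd (nat_lit 78) (nat_lit 0) (nat_lit 0) (XT.lf (nat_lit 0) (nat_lit 51331328152) (nat_lit 76) (nat_lit 93643045631) (nat_lit 76) (nat_lit 69626935573) (nat_lit 4) (nat_lit 4) (nat_lit 5) (nat_lit 5) (nat_lit 5) (nat_lit 4) (nat_lit 408) (nat_lit 302) (nat_lit 190)) (XT.lf (nat_lit 0) (nat_lit 73352663756) (nat_lit 76) (nat_lit 87746632527) (nat_lit 76) (nat_lit 63725659239) (nat_lit 4) (nat_lit 4) (nat_lit 5) (nat_lit 5) (nat_lit 5) (nat_lit 4) (nat_lit 409) (nat_lit 302) (nat_lit 189))) (XT.nd (nat_lit 78) (nat_lit 0) (nat_lit 0) (XT.lf (nat_lit 0) (nat_lit 96467469979) (nat_lit 76) (nat_lit 81559058343) (nat_lit 76) (nat_lit 57533453407) (nat_lit 4) (nat_lit 4) (nat_lit 5) (nat_lit 5) (nat_lit 5) (nat_lit 4) (nat_lit 410) (nat_lit 302) (nat_lit 188)) (XT.nd (nat_lit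 78) (nat_lit 0) (nat_lit 0) (XT.lf (nat_lit 0) (nat_lit 120730782074) (nat_lit 76) (nat_lit 75065590759) (nat_lit 76) (nat_lit 51035574730) (nat_lit 4) (nat_lit 4) (nat_lit 5) (nat_lit 5) (nat_lit 5) (nat_lit 4) (nat_lit 411) (nat_lit 302) (nat_lit 187)) (XT.lf (nat_lit 0) (nat_lit 146200369832) (nat_lit 76) (nat_lit 68250769138) (nat_lit 76) (nat_lit 44216552069) (nat_lit 4) (nat_lit 4) (nat_lit 5) (nat_lit 5) (nat_lit 5) (nat_lit 4) (nat_lit 412) (nat_lit 302) (nat_lit 186))))) (XT.nd (nat_lit 234) (nat_lit 76) (nat_lit 0) (XT.nd (nat_lit 78) (nat_lit 0) (nat_lit 0) (XT.lf (nat_lit 0) (nat_lit 172936875127) (nat_lit 76) (nat_lit 61098367714) (nat_lit 76) (nat_lit 37060149654) (nat_lit 4) (nat_lit 4) (nat_lit 5) (nat_lit 5) (nat_lit 5) (nat_lit 4) (nat_lit 413) (nat_lit 302) (nat_lit 185)) (XT.nd (nat_lit 78) (nat_lit 0) (nat_lit 0) (XT.lf (nat_lit 0) (nat_lit 201003956307) (nat_lit 76)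 (nat_lit 53591356961) (nat_lit 76) (nat_lit 29549328433) (nat_lit 4) (nat_lit 4) (nat_lit 5) (nat_lit 5) (nat_lit 5) (nat_lit 4) (nat_lit 414) (nat_lit 302) (nat_lit 184)) (XT.lf (nat_lit 0) (nat_lit 230468439755) (nat_lit 76) (nat_lit 45711863043) (nat_lit 76) (nat_lit 21666205498) (nat_lit 4) (nat_lit 4) (nat_lit 5) (nat_lit 5) (nat_lit 5) (nat_lit 4) (nat_lit 415) (nat_lit 302) (nat_lit 183)))) (XT.nd (nat_lit 78) (nat_lit 76) (nat_lit 0) (XT.lf (nat_lit 0) (nat_lit 261400479002) (nat_lit 76) (nat_lit 37441125260) (nat_lit 76) (nat_lit 13392011509) (nat_lit 4) (nat_lit 4) (nat_lit 5) (nat_lit 5) (nat_lit 5) (nat_lit 4) (nat_lit 416) (nat_lit 302) (nat_lit 182)) (XT.nd (nat_lit 78) (nat_lit 76) (nat_lit 0) (XT.lf (nat_lit 0) (nat_lit 293873721762) (nat_lit 76) (nat_lit 28759451380) (nat_lit 76) (nat_lit 4707046003) (nat_lit 4) (nat_lit 4) (nat_lit 5) (nat_lit 5) (nat_lit 5) (nat_lit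 4) (nat_lit 417) (nat_lit 302) (nat_lit 181)) (XT.lf (nat_lit 0) (nat_lit 4268242145) (nat_lit 152) (nat_lit 15305643858) (nat_lit 76) (nat_lit 323624958387) (nat_lit 3) (nat_lit 5) (nat_lit 5) (nat_lit 5) (nat_lit 4) (nat_lit 4) (nat_lit 418) (nat_lit 302) (nat_lit 180)))))) (XT.nd (nat_lit 468) (nat_lit 0) (nat_lit 0) (XT.nd (nat_lit 234) (nat_lit 0) (nat_lit 0) (XT.nd (nat_lit 78) (nat_lit 0) (nat_lit 0) (XT.lf (nat_lit 0) (nat_lit 3802819213) (nat_lit 76) (nat_lit 9788080822) (nat_lit 152) (nat_lit 346252803538) (nat_lit 2) (nat_lit 5) (nat_lit 3) (nat_lit 5) (nat_lit 4) (nat_lit 4) (nat_lit 419) (nat_lit 302) (nat_lit 179)) (XT.nd (nat_lit 78) (nat_lit 0) (nat_lit 0) (XT.lf (nat_lit 0) (nat_lit 23648181893) (nat_lit 152) (nat_lit 352926607700) (nat_lit 0) (nat_lit 732592094) (nat_lit 2) (nat_lit 5) (nat_lit 4) (nat_lit 4) (nat_lit 2) (nat_lit 4) (nat_lit 420) (nat_lit 302) (nat_lit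 178)) (XT.lf (nat_lit 0) (nat_lit 34366340191) (nat_lit 152) (nat_lit 349821832083) (nat_lit 0) (nat_lit 11448171318) (nat_lit 2) (nat_lit 5) (nat_lit 4) (nat_lit 4) (nat_lit 2) (nat_lit 4) (nat_lit 421) (nat_lit 302) (nat_lit 177)))) (XT.nd (nat_lit 78) (nat_lit 0) (nat_lit 0) (XT.lf (nat_lit 0) (nat_lit 45618074982) (nat_lit 152) (nat_lit 346566345814) (nat_lit 0) (nat_lit 22697449847) (nat_lit 2) (nat_lit 5) (nat_lit 4) (nat_lit 4) (nat_lit 2) (nat_lit 4) (nat_lit 422) (nat_lit 302) (nat_lit 176)) (XT.nd (nat_lit 78) (nat_lit 0) (nat_lit 0) (XT.lf (nat_lit 0) (nat_lit 57430176110) (nat_lit 152) (nat_lit 343152397734) (nat_lit 0) (nat_lit 34507211678) (nat_lit 2) (nat_lit 5) (nat_lit 4) (nat_lit 4) (nat_lit 2) (nat_lit 4) (nat_lit 423) (nat_lit 302) (nat_lit 175)) (XT.lf (nat_lit 0) (nat_lit 69830767625) (nat_lit 152) (nat_lit 339571859397) (nat_lit 0) (nat_lit 46905575292) (nat_lit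 2) (nat_lit 5) (nat_lit 4) (nat_lit 4) (nat_lit 2) (nat_lit 4) (nat_lit 424) (nat_lit 302) (nat_lit 174))))) (XT.nd (nat_lit 234) (nat_lit 0) (nat_lit 0) (XT.nd (nat_lit 78) (nat_lit 0) (nat_lit 0) (XT.lf (nat_lit 0) (nat_lit 82849374746) (nat_lit 152) (nat_lit 335816205710) (nat_lit 0) (nat_lit 59922060602) (nat_lit 2) (nat_lit 5) (nat_lit 4) (nat_lit 4) (nat_lit 2) (nat_lit 4) (nat_lit 425) (nat_lit 302) (nat_lit 173)) (XT.nd (nat_lit 78) (nat_lit 0) (nat_lit 0) (XT.lf (nat_lit 0) (nat_lit 96516994156) (nat_lit 152) (nat_lit 331876494641) (nat_lit 0) (nat_lit 73587659239) (nat_lit 2) (nat_lit 5) (nat_lit 4) (nat_lit 4) (nat_lit 2) (nat_lit 4) (nat_lit 426) (nat_lit 302) (nat_lit 172)) (XT.lf (nat_lit 0) (nat_lit 110866167805) (nat_lit 152) (nat_lit 327743345926) (nat_lit 0) (nat_lit 87934908344) (nat_lit 2) (nat_lit 5) (nat_lit 4) (nat_lit 4) (nat_lit 2) (nat_lit 4) (nat_lit 427) (nat_lit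 302) (nat_lit 171)))) (XT.nd (nat_lit 78) (nat_lit 0) (nat_lit 0) (XT.lf (nat_lit 0) (nat_lit 125931060394) (nat_lit 152) (nat_lit 323406918734) (nat_lit 0) (nat_lit 102997968032) (nat_lit 2) (nat_lit 5) (nat_lit 4) (nat_lit 4) (nat_lit 2) (nat_lit 4) (nat_lit 428) (nat_lit 302) (nat_lit 170)) (XT.nd (nat_lit 78) (nat_lit 0) (nat_lit 0) (XT.lf (nat_lit 0) (nat_lit 141747540714) (nat_lit 152) (nat_lit 318856888239) (nat_lit 0) (nat_lit 118812702733) (nat_lit 2) (nat_lit 5) (nat_lit 4) (nat_lit 4) (nat_lit 2) (nat_lit 4) (nat_lit 429) (nat_lit 302) (nat_lit 169)) (XT.lf (nat_lit 0) (nat_lit 158353267051) (nat_lit 152) (nat_lit 314082421034) (nat_lit 0) (nat_lit 135416766576) (nat_lit 2) (nat_lit 5) (nat_lit 4) (nat_lit 4) (nat_lit 2) (nat_lit 4) (nat_lit 430) (nat_lit 302) (nat_lit 168))))))))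
noncomputable def xc109 : XT := (XT.nd (nat_lit 38454) (nat_lit 0) (nat_lit 2584) (XT.nd (nat_lit 37518) (nat_lit 0) (nat_lit 6004) (XT.nd (nat_lit 37050) (nat_lit 0) (nat_lit 9956) (XT.nd (nat_lit 156) (nat_lit 0) (nat_lit 0) (XT.nd (nat_lit 78) (nat_lit 0) (nat_lit 0) (XT.lf (nat_lit 0) (nat_lit 175787776850) (nat_lit 152) (nat_lit 309072149342) (nat_lit 0) (nat_lit 152849693046) (nat_lit 2) (nat_lit 5) (nat_lit 4) (nat_lit 4) (nat_lit 2) (nat_lit 4) (nat_lit 431) (nat_lit 302) (nat_lit 167)) (XT.lf (nat_lit 0) (nat_lit 194092580847) (nat_lit 152) (nat_lit 303814143942) (nat_lit 0) (nat_lit 171152989112) (nat_lit 2) (nat_lit 5) (nat_lit 4) (nat_lit 4) (nat_lit 2) (nat_lit 4) (nat_lit 432) (nat_lit 302) (nat_lit 166))) (XT.nd (nat_lit 36738) (nat_lit 0) (nat_lit 10640) (XT.lf (nat_lit 0) (nat_lit 213311261910) (nat_lit 152) (nat_lit 298295885776) (nat_lit 0) (nat_lit 190370234050) (nat_lit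 2) (nat_lit 5) (nat_lit 4) (nat_lit 4) (nat_lit 2) (nat_lit 4) (nat_lit 433) (nat_lit 302) (nat_lit 165)) (XT.nd (nat_lit 78) (nat_lit 0) (nat_lit 0) (XT.lf (nat_lit 0) (nat_lit 870209562) (nat_lit 0) (nat_lit 870209562) (nat_lit 228) (nat_lit 1533210043) (nat_lit 142) (nat_lit 5) (nat_lit 142) (nat_lit 3) (nat_lit 145) (nat_lit 3) (nat_lit 303) (nat_lit 303) (nat_lit 294)) (XT.lf (nat_lit 0) (nat_lit 4909165448) (nat_lit 0) (nat_lit 1019979066) (nat_lit 228) (nat_lit 658031209) (nat_lit 142) (nat_lit 5) (nat_lit 142) (nat_lit 3) (nat_lit 145) (nat_lit 3) (nat_lit 304) (nat_lit 303) (nat_lit 293))))) (XT.nd (nat_lit 234) (nat_lit 304) (nat_lit 0) (XT.nd (nat_lit 78) (nat_lit 0) (nat_lit 76) (XT.lf (nat_lit 76) (nat_lit 1546536115) (nat_lit 0) (nat_lit 134527375) (nat_lit 380) (nat_lit 4953404428) (nat_lit 138) (nat_lit 5) (nat_lit 137) (nat_lit 3) (nat_lit 142) (nat_lit 5) (nat_lit 305)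 (nat_lit 303) (nat_lit 292)) (XT.nd (nat_lit 78) (nat_lit 0) (nat_lit 0) (XT.lf (nat_lit 0) (nat_lit 4009467604) (nat_lit 304) (nat_lit 1804304090) (nat_lit 380) (nat_lit 875421153) (nat_lit 138) (nat_lit 5) (nat_lit 142) (nat_lit 5) (nat_lit 143) (nat_lit 5) (nat_lit 306) (nat_lit 303) (nat_lit 291)) (XT.lf (nat_lit 76) (nat_lit 1608497509) (nat_lit 0) (nat_lit 4733274653) (nat_lit 380) (nat_lit 410823028) (nat_lit 139) (nat_lit 5) (nat_lit 138) (nat_lit 5) (nat_lit 143) (nat_lit 5) (nat_lit 307) (nat_lit 303) (nat_lit 290)))) (XT.nd (nat_lit 78) (nat_lit 0) (nat_lit 0) (XT.lf (nat_lit 0) (nat_lit 1802511844) (nat_lit 380) (nat_lit 1682080577) (nat_lit 456) (nat_lit 3338617622) (nat_lit 133) (nat_lit 5) (nat_lit 138) (nat_lit 5) (nat_lit 139) (nat_lit 5) (nat_lit 308) (nat_lit 303) (nat_lit 289)) (XT.nd (nat_lit 78) (nat_lit 0) (nat_lit 0) (XT.lf (nat_lit 76) (nat_lit 1924331914) (nat_lit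 0) (nat_lit 2087972693) (nat_lit 456) (nat_lit 2890006681) (nat_lit 134) (nat_lit 5) (nat_lit 133) (nat_lit 5) (nat_lit 139) (nat_lit 5) (nat_lit 309) (nat_lit 303) (nat_lit 288)) (XT.lf (nat_lit 76) (nat_lit 5687249530) (nat_lit 0) (nat_lit 548305771) (nat_lit 456) (nat_lit 754923176) (nat_lit 134) (nat_lit 5) (nat_lit 133) (nat_lit 5) (nat_lit 139) (nat_lit 5) (nat_lit 310) (nat_lit 303) (nat_lit 287)))))) (XT.nd (nat_lit 468) (nat_lit 1900) (nat_lit 0) (XT.nd (nat_lit 234) (nat_lit 1216) (nat_lit 0) (XT.nd (nat_lit 78) (nat_lit 456) (nat_lit 0) (XT.lf (nat_lit 0) (nat_lit 1375411371) (nat_lit 456) (nat_lit 4574083861) (nat_lit 76) (nat_lit 1135828869) (nat_lit 128) (nat_lit 5) (nat_lit 134) (nat_lit 5) (nat_lit 129) (nat_lit 5) (nat_lit 311) (nat_lit 303) (nat_lit 286)) (XT.nd (nat_lit 78) (nat_lit 456) (nat_lit 0) (XT.lf (nat_lit 0) (nat_lit 3501664074) (nat_lit 456) (nat_lit 731730484)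 (nat_lit 76) (nat_lit 2955384061) (nat_lit 128) (nat_lit 5) (nat_lit 134) (nat_lit 5) (nat_lit 129) (nat_lit 5) (nat_lit 312) (nat_lit 303) (nat_lit 285)) (XT.lf (nat_lit 0) (nat_lit 3325487555) (nat_lit 456) (nat_lit 2349567321) (nat_lit 532) (nat_lit 1625523038) (nat_lit 122) (nat_lit 5) (nat_lit 128) (nat_lit 5) (nat_lit 129) (nat_lit 5) (nat_lit 313) (nat_lit 303) (nat_lit 284)))) (XT.nd (nat_lit 78) (nat_lit 608) (nat_lit 0) (XT.lf (nat_lit 0) (nat_lit 102132608) (nat_lit 532) (nat_lit 324906985) (nat_lit 608) (nat_lit 6995442810) (nat_lit 114) (nat_lit 5) (nat_lit 121) (nat_lit 5) (nat_lit 122) (nat_lit 5) (nat_lit 314) (nat_lit 303) (nat_lit 283)) (XT.nd (nat_lit 78) (nat_lit 608) (nat_lit 0) (XT.lf (nat_lit 0) (nat_lit 2519290165) (nat_lit 608) (nat_lit 3172274138) (nat_lit 76) (nat_lit 1858185294) (nat_lit 114) (nat_lit 5) (nat_lit 122) (nat_lit 5) (nat_lit 115) (nat_lit 5) (nat_lit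 315) (nat_lit 303) (nat_lit 282)) (XT.lf (nat_lit 0) (nat_lit 1127773869) (nat_lit 608) (nat_lit 3511452412) (nat_lit 684) (nat_lit 3048175722) (nat_lit 106) (nat_lit 5) (nat_lit 114) (nat_lit 5) (nat_lit 115) (nat_lit 5) (nat_lit 316) (nat_lit 303) (nat_lit 281))))) (XT.nd (nat_lit 234) (nat_lit 1140) (nat_lit 0) (XT.nd (nat_lit 78) (nat_lit 760) (nat_lit 0) (XT.lf (nat_lit 0) (nat_lit 5668147912) (nat_lit 608) (nat_lit 1154305407) (nat_lit 684) (nat_lit 1011786150) (nat_lit 106) (nat_lit 5) (nat_lit 114) (nat_lit 5) (nat_lit 115) (nat_lit 5) (nat_lit 317) (nat_lit 303) (nat_lit 280)) (XT.nd (nat_lit 78) (nat_lit 0) (nat_lit 0) (XT.lf (nat_lit 0) (nat_lit 1056380035) (nat_lit 760) (nat_lit 5589077064) (nat_lit 76) (nat_lit 1343933501) (nat_lit 96) (nat_lit 5) (nat_lit 106) (nat_lit 5) (nat_lit 97) (nat_lit 5) (nat_lit 318) (nat_lit 303) (nat_lit 279)) (XT.lf (nat_lit 0) (nat_lit 3159944046)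 (nat_lit 760) (nat_lit 1003776439) (nat_lit 76) (nat_lit 3989594247) (nat_lit 96) (nat_lit 5) (nat_lit 106) (nat_lit 5) (nat_lit 97) (nat_lit 5) (nat_lit 319) (nat_lit 303) (nat_lit 278)))) (XT.nd (nat_lit 78) (nat_lit 456) (nat_lit 0) (XT.lf (nat_lit 0) (nat_lit 3850760491) (nat_lit 684) (nat_lit 1492126874) (nat_lit 760) (nat_lit 2983975161) (nat_lit 87) (nat_lit 5) (nat_lit 96) (nat_lit 5) (nat_lit 97) (nat_lit 5) (nat_lit 320) (nat_lit 303) (nat_lit 277)) (XT.nd (nat_lit 78) (nat_lit 76) (nat_lit 0) (XT.lf (nat_lit 0) (nat_lit 379772856) (nat_lit 380) (nat_lit 7215823253) (nat_lit 456) (nat_lit 915591652) (nat_lit 82) (nat_lit 5) (nat_lit 87) (nat_lit 5) (nat_lit 88) (nat_lit 5) (nat_lit 321) (nat_lit 303) (nat_lit 276)) (XT.lf (nat_lit 0) (nat_lit 1235615896) (nat_lit 456) (nat_lit 3200088487) (nat_lit 76) (nat_lit 4267182440) (nat_lit 81) (nat_lit 5) (nat_lit 87) (nat_lit 5) (nat_lit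 82) (nat_lit 5) (nat_lit 322) (nat_lit 303) (nat_lit 275))))))) (XT.nd (nat_lit 858) (nat_lit 1292) (nat_lit 0) (XT.nd (nat_lit 390) (nat_lit 1140) (nat_lit 0) (XT.nd (nat_lit 156) (nat_lit 684) (nat_lit 0) (XT.nd (nat_lit 78) (nat_lit 0) (nat_lit 0) (XT.lf (nat_lit 0) (nat_lit 1941433157) (nat_lit 304) (nat_lit 1474494573) (nat_lit 380) (nat_lit 5489990064) (nat_lit 77) (nat_lit 5) (nat_lit 81) (nat_lit 5) (nat_lit 82) (nat_lit 5) (nat_lit 323) (nat_lit 303) (nat_lit 274)) (XT.lf (nat_lit 0) (nat_lit 5710193351) (nat_lit 380) (nat_lit 1777607523) (nat_lit 76) (nat_lit 1631160275) (nat_lit 77) (nat_lit 5) (nat_lit 82) (nat_lit 5) (nat_lit 78) (nat_lit 5) (nat_lit 324) (nat_lit 303) (nat_lit 273))) (XT.nd (nat_lit 78) (nat_lit 380) (nat_lit 0) (XT.lf (nat_lit 0) (nat_lit 3680393340) (nat_lit 304) (nat_lit 4448346753) (nat_lit 380) (nat_lit 1213540798) (nat_lit 73) (nat_lit 5) (nat_lit 77)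 (nat_lit 5) (nat_lit 78) (nat_lit 5) (nat_lit 325) (nat_lit 303) (nat_lit 272)) (XT.nd (nat_lit 78) (nat_lit 304) (nat_lit 0) (XT.lf (nat_lit 0) (nat_lit 1015981257) (nat_lit 380) (nat_lit 202755270) (nat_lit 76) (nat_lit 8359297797) (nat_lit 72) (nat_lit 5) (nat_lit 77) (nat_lit 5) (nat_lit 73) (nat_lit 5) (nat_lit 326) (nat_lit 303) (nat_lit 271)) (XT.lf (nat_lit 0) (nat_lit 3371542343) (nat_lit 380) (nat_lit 4249203621) (nat_lit 76) (nat_lit 2201156108) (nat_lit 68) (nat_lit 5) (nat_lit 73) (nat_lit 5) (nat_lit 69) (nat_lit 5) (nat_lit 327) (nat_lit 303) (nat_lit 270))))) (XT.nd (nat_lit 234) (nat_lit 532) (nat_lit 0) (XT.nd (nat_lit 78) (nat_lit 304) (nat_lit 0) (XT.lf (nat_lit 0) (nat_lit 1513656734) (nat_lit 304) (nat_lit 4312406989) (nat_lit 380) (nat_lit 4252924791) (nat_lit 64) (nat_lit 5) (nat_lit 68) (nat_lit 5) (nat_lit 69) (nat_lit 5) (nat_lit 328) (nat_lit 303) (nat_lit 269))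 (XT.nd (nat_lit 78) (nat_lit 304) (nat_lit 0) (XT.lf (nat_lit 0) (nat_lit 7632561432) (nat_lit 304) (nat_lit 778688451) (nat_lit 380) (nat_lit 1937362861) (nat_lit 64) (nat_lit 5) (nat_lit 68) (nat_lit 5) (nat_lit 69) (nat_lit 5) (nat_lit 329) (nat_lit 303) (nat_lit 268)) (XT.lf (nat_lit 0) (nat_lit 516523167) (nat_lit 304) (nat_lit 7227885189) (nat_lit 76) (nat_lit 2885079318) (nat_lit 60) (nat_lit 5) (nat_lit 64) (nat_lit 5) (nat_lit 61) (nat_lit 5) (nat_lit 330) (nat_lit 303) (nat_lit 267)))) (XT.nd (nat_lit 78) (nat_lit 532) (nat_lit 0) (XT.lf (nat_lit 0) (nat_lit 3026965010) (nat_lit 304) (nat_lit 1127476831) (nat_lit 76) (nat_lit 6768497479) (nat_lit 60) (nat_lit 5) (nat_lit 64) (nat_lit 5) (nat_lit 61) (nat_lit 5) (nat_lit 331) (nat_lit 303) (nat_lit 266)) (XT.nd (nat_lit 78) (nat_lit 228) (nat_lit 0) (XT.lf (nat_lit 0) (nat_lit 5374222518) (nat_lit 304) (nat_lit 314948837) (nat_lit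 380) (nat_lit 5540646219) (nat_lit 56) (nat_lit 5) (nat_lit 60) (nat_lit 5) (nat_lit 61) (nat_lit 5) (nat_lit 332) (nat_lit 303) (nat_lit 265)) (XT.lf (nat_lit 0) (nat_lit 571936721) (nat_lit 228) (nat_lit 7942543917) (nat_lit 304) (nat_lit 3036122467) (nat_lit 53) (nat_lit 5) (nat_lit 56) (nat_lit 5) (nat_lit 57) (nat_lit 5) (nat_lit 333) (nat_lit 303) (nat_lit 264)))))) (XT.nd (nat_lit 468) (nat_lit 532) (nat_lit 0) (XT.nd (nat_lit 234) (nat_lit 456) (nat_lit 0) (XT.nd (nat_lit 78) (nat_lit 304) (nat_lit 0) (XT.lf (nat_lit 0) (nat_lit 7442952003) (nat_lit 228) (nat_lit 4087480957) (nat_lit 304) (nat_lit 354586068) (nat_lit 53) (nat_lit 5) (nat_lit 56) (nat_lit 5) (nat_lit 57) (nat_lit 5) (nat_lit 334) (nat_lit 303) (nat_lit 263)) (XT.nd (nat_lit 78) (nat_lit 0) (nat_lit 0) (XT.lf (nat_lit 0) (nat_lit 2366625340) (nat_lit 304) (nat_lit 9850152214) (nat_lit 76) (nat_lit 18293114) (nat_lit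 49) (nat_lit 5) (nat_lit 53) (nat_lit 5) (nat_lit 50) (nat_lit 5) (nat_lit 335) (nat_lit 303) (nat_lit 262)) (XT.lf (nat_lit 0) (nat_lit 5303347019) (nat_lit 304) (nat_lit 3040615424) (nat_lit 76) (nat_lit 4253855324) (nat_lit 49) (nat_lit 5) (nat_lit 53) (nat_lit 5) (nat_lit 50) (nat_lit 5) (nat_lit 336) (nat_lit 303) (nat_lit 261)))) (XT.nd (nat_lit 78) (nat_lit 304) (nat_lit 0) (XT.lf (nat_lit 0) (nat_lit 4171316201) (nat_lit 152) (nat_lit 4231092061) (nat_lit 228) (nat_lit 4575568144) (nat_lit 47) (nat_lit 5) (nat_lit 49) (nat_lit 5) (nat_lit 50) (nat_lit 5) (nat_lit 337) (nat_lit 303) (nat_lit 260)) (XT.nd (nat_lit 78) (nat_lit 304) (nat_lit 0) (XT.lf (nat_lit 0) (nat_lit 11661422081) (nat_lit 228) (nat_lit 1599925406) (nat_lit 76) (nat_lit 115592521) (nat_lit 47) (nat_lit 5) (nat_lit 50) (nat_lit 5) (nat_lit 48) (nat_lit 5) (nat_lit 338) (nat_lit 303) (nat_lit 259)) (XT.lf (nat_lit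 0) (nat_lit 1365188718) (nat_lit 304) (nat_lit 7790660498) (nat_lit 76) (nat_lit 4633096958) (nat_lit 43) (nat_lit 5) (nat_lit 47) (nat_lit 5) (nat_lit 44) (nat_lit 5) (nat_lit 339) (nat_lit 303) (nat_lit 258))))) (XT.nd (nat_lit 234) (nat_lit 228) (nat_lit 0) (XT.nd (nat_lit 78) (nat_lit 304) (nat_lit 0) (XT.lf (nat_lit 0) (nat_lit 4523797594) (nat_lit 304) (nat_lit 286360656) (nat_lit 76) (nat_lit 9410952865) (nat_lit 43) (nat_lit 5) (nat_lit 47) (nat_lit 5) (nat_lit 44) (nat_lit 5) (nat_lit 340) (nat_lit 303) (nat_lit 257)) (XT.nd (nat_lit 78) (nat_lit 152) (nat_lit 0) (XT.lf (nat_lit 0) (nat_lit 7775791432) (nat_lit 152) (nat_lit 142118663) (nat_lit 228) (nat_lit 6753134224) (nat_lit 41) (nat_lit 5) (nat_lit 43) (nat_lit 5) (nat_lit 44) (nat_lit 5) (nat_lit 341) (nat_lit 303) (nat_lit 256)) (XT.lf (nat_lit 0) (nat_lit 998335093) (nat_lit 152) (nat_lit 10535106502) (nat_lit 228) (nat_lit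 3607483752) (nat_lit 39) (nat_lit 5) (nat_lit 41) (nat_lit 5) (nat_lit 42) (nat_lit 5) (nat_lit 342) (nat_lit 303) (nat_lit 255)))) (XT.nd (nat_lit 78) (nat_lit 228) (nat_lit 0) (XT.lf (nat_lit 0) (nat_lit 9457670556) (nat_lit 152) (nat_lit 5949060556) (nat_lit 228) (nat_lit 223755319) (nat_lit 39) (nat_lit 5) (nat_lit 41) (nat_lit 5) (nat_lit 42) (nat_lit 5) (nat_lit 343) (nat_lit 303) (nat_lit 254)) (XT.nd (nat_lit 78) (nat_lit 0) (nat_lit 0) (XT.lf (nat_lit 0) (nat_lit 2148067428) (nat_lit 152) (nat_lit 1067304977) (nat_lit 228) (nat_lit 12926947768) (nat_lit 36) (nat_lit 5) (nat_lit 38) (nat_lit 5) (nat_lit 39) (nat_lit 5) (nat_lit 344) (nat_lit 303) (nat_lit 253)) (XT.lf (nat_lit 0) (nat_lit 6948376973) (nat_lit 228) (nat_lit 5708740838) (nat_lit 76) (nat_lit 4016002683) (nat_lit 36) (nat_lit 5) (nat_lit 39) (nat_lit 5) (nat_lit 37) (nat_lit 5) (nat_lit 345) (nat_lit 303) (nat_lit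 252))))))))
noncomputable def xc110 : XT := (XT.nd (nat_lit 1794) (nat_lit 684) (nat_lit 0) (XT.nd (nat_lit 858) (nat_lit 532) (nat_lit 0) (XT.nd (nat_lit 390) (nat_lit 380) (nat_lit 0) (XT.nd (nat_lit 156) (nat_lit 380) (nat_lit 0) (XT.nd (nat_lit 78) (nat_lit 0) (nat_lit 0) (XT.lf (nat_lit 0) (nat_lit 3008137329) (nat_lit 152) (nat_lit 7886091511) (nat_lit 228) (nat_lit 6334950994) (nat_lit 34) (nat_lit 5) (nat_lit 36) (nat_lit 5) (nat_lit 37) (nat_lit 5) (nat_lit 346) (nat_lit 303) (nat_lit 251)) (XT.lf (nat_lit 0) (nat_lit 12298357310) (nat_lit 152) (nat_lit 2798305601) (nat_lit 228) (nat_lit 2713442236) (nat_lit 34) (nat_lit 5) (nat_lit 36) (nat_lit 5) (nat_lit 37) (nat_lit 5) (nat_lit 347) (nat_lit 303) (nat_lit 250))) (XT.nd (nat_lit 78) (nat_lit 152) (nat_lit 0) (XT.lf (nat_lit 0) (nat_lit 1116014025) (nat_lit 228) (nat_lit 14784186043) (nat_lit 76) (nat_lit 2515964789) (nat_lit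 31) (nat_lit 5) (nat_lit 34) (nat_lit 5) (nat_lit 32) (nat_lit 5) (nat_lit 348) (nat_lit 303) (nat_lit 249)) (XT.nd (nat_lit 78) (nat_lit 152) (nat_lit 0) (XT.lf (nat_lit 0) (nat_lit 5150746535) (nat_lit 228) (nat_lit 5775016431) (nat_lit 76) (nat_lit 8119314550) (nat_lit 31) (nat_lit 5) (nat_lit 34) (nat_lit 5) (nat_lit 32) (nat_lit 5) (nat_lit 349) (nat_lit 303) (nat_lit 248)) (XT.lf (nat_lit 0) (nat_lit 3747884936) (nat_lit 152) (nat_lit 5663793033) (nat_lit 228) (nat_lit 10292557337) (nat_lit 29) (nat_lit 5) (nat_lit 31) (nat_lit 5) (nat_lit 32) (nat_lit 5) (nat_lit 350) (nat_lit 303) (nat_lit 247))))) (XT.nd (nat_lit 234) (nat_lit 228) (nat_lit 0) (XT.nd (nat_lit 78) (nat_lit 152) (nat_lit 0) (XT.lf (nat_lit 0) (nat_lit 13891658687) (nat_lit 152) (nat_lit 58498155) (nat_lit 228) (nat_lit 6442990635) (nat_lit 29) (nat_lit 5) (nat_lit 31) (nat_lit 5) (nat_lit 32) (nat_lit 5) (nat_lit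 351) (nat_lit 303) (nat_lit 246)) (XT.nd (nat_lit 78) (nat_lit 76) (nat_lit 0) (XT.lf (nat_lit 0) (nat_lit 3389230824) (nat_lit 76) (nat_lit 15438170896) (nat_lit 152) (nat_lit 2283531942) (nat_lit 28) (nat_lit 5) (nat_lit 29) (nat_lit 5) (nat_lit 30) (nat_lit 4) (nat_lit 352) (nat_lit 303) (nat_lit 245)) (XT.lf (nat_lit 0) (nat_lit 2098179445) (nat_lit 152) (nat_lit 7948780717) (nat_lit 76) (nat_lit 11811991944) (nat_lit 27) (nat_lit 5) (nat_lit 29) (nat_lit 5) (nat_lit 28) (nat_lit 5) (nat_lit 353) (nat_lit 303) (nat_lit 244)))) (XT.nd (nat_lit 78) (nat_lit 76) (nat_lit 0) (XT.lf (nat_lit 0) (nat_lit 2296885558) (nat_lit 152) (nat_lit 4330836405) (nat_lit 228) (nat_lit 16014521119) (nat_lit 25) (nat_lit 5) (nat_lit 27) (nat_lit 5) (nat_lit 28) (nat_lit 5) (nat_lit 354) (nat_lit 303) (nat_lit 243)) (XT.nd (nat_lit 78) (nat_lit 76) (nat_lit 0) (XT.lf (nat_lit 0) (nat_lit 11516595208) (nat_lit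 228) (nat_lit 10207778240) (nat_lit 76) (nat_lit 1733699351) (nat_lit 25) (nat_lit 5) (nat_lit 28) (nat_lit 5) (nat_lit 26) (nat_lit 4) (nat_lit 355) (nat_lit 303) (nat_lit 242)) (XT.lf (nat_lit 0) (nat_lit 326305510) (nat_lit 76) (nat_lit 16371069771) (nat_lit 152) (nat_lit 7614961631) (nat_lit 24) (nat_lit 5) (nat_lit 25) (nat_lit 5) (nat_lit 26) (nat_lit 4) (nat_lit 356) (nat_lit 303) (nat_lit 241)))))) (XT.nd (nat_lit 468) (nat_lit 228) (nat_lit 0) (XT.nd (nat_lit 234) (nat_lit 76) (nat_lit 0) (XT.nd (nat_lit 78) (nat_lit 228) (nat_lit 0) (XT.lf (nat_lit 0) (nat_lit 11692467032) (nat_lit 76) (nat_lit 10589570270) (nat_lit 152) (nat_lit 2920050088) (nat_lit 24) (nat_lit 5) (nat_lit 25) (nat_lit 5) (nat_lit 26) (nat_lit 4) (nat_lit 357) (nat_lit 303) (nat_lit 240)) (XT.nd (nat_lit 78) (nat_lit 152) (nat_lit 0) (XT.lf (nat_lit 0) (nat_lit 1918139383) (nat_lit 152) (nat_lit 2588359131)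 (nat_lit 76) (nat_lit 21629629363) (nat_lit 23) (nat_lit 5) (nat_lit 25) (nat_lit 5) (nat_lit 24) (nat_lit 5) (nat_lit 358) (nat_lit 303) (nat_lit 239)) (XT.lf (nat_lit 0) (nat_lit 7048123672) (nat_lit 228) (nat_lit 18064600486) (nat_lit 76) (nat_lit 1994365059) (nat_lit 21) (nat_lit 5) (nat_lit 24) (nat_lit 5) (nat_lit 22) (nat_lit 4) (nat_lit 359) (nat_lit 303) (nat_lit 238)))) (XT.nd (nat_lit 78) (nat_lit 76) (nat_lit 0) (XT.lf (nat_lit 0) (nat_lit 12527416924) (nat_lit 228) (nat_lit 6899836401) (nat_lit 76) (nat_lit 8694717402) (nat_lit 21) (nat_lit 5) (nat_lit 24) (nat_lit 5) (nat_lit 22) (nat_lit 4) (nat_lit 360) (nat_lit 303) (nat_lit 237)) (XT.nd (nat_lit 78) (nat_lit 0) (nat_lit 0) (XT.lf (nat_lit 0) (nat_lit 4937801741) (nat_lit 76) (nat_lit 13395565069) (nat_lit 152) (nat_lit 10851606895) (nat_lit 20) (nat_lit 5) (nat_lit 21) (nat_lit 5) (nat_lit 22) (nat_lit 4) (nat_lit 361)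 (nat_lit 303) (nat_lit 236)) (XT.lf (nat_lit 0) (nat_lit 17564163965) (nat_lit 76) (nat_lit 6958396555) (nat_lit 152) (nat_lit 5773930417) (nat_lit 20) (nat_lit 5) (nat_lit 21) (nat_lit 5) (nat_lit 22) (nat_lit 4) (nat_lit 362) (nat_lit 303) (nat_lit 235))))) (XT.nd (nat_lit 234) (nat_lit 76) (nat_lit 0) (XT.nd (nat_lit 78) (nat_lit 152) (nat_lit 0) (XT.lf (nat_lit 0) (nat_lit 30781173286) (nat_lit 76) (nat_lit 217273258) (nat_lit 152) (nat_lit 466286730) (nat_lit 20) (nat_lit 5) (nat_lit 21) (nat_lit 5) (nat_lit 22) (nat_lit 4) (nat_lit 363) (nat_lit 303) (nat_lit 234)) (XT.nd (nat_lit 78) (nat_lit 0) (nat_lit 0) (XT.lf (nat_lit 0) (nat_lit 5223632629) (nat_lit 152) (nat_lit 20550039519) (nat_lit 76) (nat_lit 6899721870) (nat_lit 18) (nat_lit 5) (nat_lit 20) (nat_lit 5) (nat_lit 19) (nat_lit 4) (nat_lit 364) (nat_lit 303) (nat_lit 233)) (XT.lf (nat_lit 0) (nat_lit 11175831579) (nat_lit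 152) (nat_lit 8398615435) (nat_lit 76) (nat_lit 14367995282) (nat_lit 18) (nat_lit 5) (nat_lit 20) (nat_lit 5) (nat_lit 19) (nat_lit 4) (nat_lit 365) (nat_lit 303) (nat_lit 232)))) (XT.nd (nat_lit 78) (nat_lit 0) (nat_lit 0) (XT.lf (nat_lit 0) (nat_lit 4465536184) (nat_lit 76) (nat_lit 13008991313) (nat_lit 152) (nat_lit 17797980088) (nat_lit 17) (nat_lit 5) (nat_lit 18) (nat_lit 5) (nat_lit 19) (nat_lit 4) (nat_lit 366) (nat_lit 303) (nat_lit 231)) (XT.nd (nat_lit 78) (nat_lit 0) (nat_lit 0) (XT.lf (nat_lit 0) (nat_lit 18227316806) (nat_lit 76) (nat_lit 5982655368) (nat_lit 152) (nat_lit 12453021789) (nat_lit 17) (nat_lit 5) (nat_lit 18) (nat_lit 5) (nat_lit 19) (nat_lit 4) (nat_lit 367) (nat_lit 303) (nat_lit 230)) (XT.lf (nat_lit 0) (nat_lit 31284271765) (nat_lit 152) (nat_lit 5503719692) (nat_lit 0) (nat_lit 1334917186) (nat_lit 17) (nat_lit 5) (nat_lit 19) (nat_lit 4) (nat_lit 17)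 (nat_lit 4) (nat_lit 368) (nat_lit 303) (nat_lit 229))))))) (XT.nd (nat_lit 858) (nat_lit 228) (nat_lit 0) (XT.nd (nat_lit 390) (nat_lit 228) (nat_lit 0) (XT.nd (nat_lit 156) (nat_lit 76) (nat_lit 0) (XT.nd (nat_lit 78) (nat_lit 76) (nat_lit 0) (XT.lf (nat_lit 0) (nat_lit 8204967952) (nat_lit 76) (nat_lit 30714738065) (nat_lit 76) (nat_lit 725749783) (nat_lit 16) (nat_lit 4) (nat_lit 17) (nat_lit 5) (nat_lit 17) (nat_lit 4) (nat_lit 369) (nat_lit 303) (nat_lit 228)) (XT.lf (nat_lit 0) (nat_lit 5586610259) (nat_lit 152) (nat_lit 18574183634) (nat_lit 76) (nat_lit 17075097764) (nat_lit 15) (nat_lit 5) (nat_lit 17) (nat_lit 5) (nat_lit 16) (nat_lit 4) (nat_lit 370) (nat_lit 303) (nat_lit 227))) (XT.nd (nat_lit 78) (nat_lit 76) (nat_lit 0) (XT.lf (nat_lit 0) (nat_lit 12172385971) (nat_lit 152) (nat_lit 5109292359) (nat_lit 76) (nat_lit 25624473394) (nat_lit 15) (nat_lit 5) (nat_lit 17) (nat_lit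 5) (nat_lit 16) (nat_lit 4) (nat_lit 371) (nat_lit 303) (nat_lit 226)) (XT.nd (nat_lit 78) (nat_lit 0) (nat_lit 0) (XT.lf (nat_lit 0) (nat_lit 9295076730) (nat_lit 76) (nat_lit 9920531764) (nat_lit 152) (nat_lit 25437914761) (nat_lit 14) (nat_lit 5) (nat_lit 15) (nat_lit 5) (nat_lit 16) (nat_lit 4) (nat_lit 372) (nat_lit 303) (nat_lit 225)) (XT.lf (nat_lit 0) (nat_lit 24566284428) (nat_lit 76) (nat_lit 2114599404) (nat_lit 152) (nat_lit 19803891001) (nat_lit 14) (nat_lit 5) (nat_lit 15) (nat_lit 5) (nat_lit 16) (nat_lit 4) (nat_lit 373) (nat_lit 303) (nat_lit 224))))) (XT.nd (nat_lit 234) (nat_lit 152) (nat_lit 0) (XT.nd (nat_lit 78) (nat_lit 76) (nat_lit 0) (XT.lf (nat_lit 0) (nat_lit 34598319741) (nat_lit 152) (nat_lit 7931373742) (nat_lit 0) (nat_lit 5873956435) (nat_lit 14) (nat_lit 5) (nat_lit 16) (nat_lit 4) (nat_lit 14) (nat_lit 4) (nat_lit 374) (nat_lit 303) (nat_lit 223)) (XT.nd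 (nat_lit 78) (nat_lit 0) (nat_lit 0) (XT.lf (nat_lit 0) (nat_lit 6913237114) (nat_lit 76) (nat_lit 36125700923) (nat_lit 76) (nat_lit 7373170684) (nat_lit 13) (nat_lit 4) (nat_lit 14) (nat_lit 5) (nat_lit 14) (nat_lit 4) (nat_lit 375) (nat_lit 303) (nat_lit 222)) (XT.lf (nat_lit 0) (nat_lit 22747434140) (nat_lit 76) (nat_lit 29273475659) (nat_lit 76) (nat_lit 494119770) (nat_lit 13) (nat_lit 4) (nat_lit 14) (nat_lit 5) (nat_lit 14) (nat_lit 4) (nat_lit 376) (nat_lit 303) (nat_lit 221)))) (XT.nd (nat_lit 78) (nat_lit 76) (nat_lit 0) (XT.lf (nat_lit 0) (nat_lit 6498993528) (nat_lit 152) (nat_lit 15481967392) (nat_lit 76) (nat_lit 32737613641) (nat_lit 12) (nat_lit 5) (nat_lit 14) (nat_lit 5) (nat_lit 13) (nat_lit 4) (nat_lit 377) (nat_lit 303) (nat_lit 220)) (XT.nd (nat_lit 78) (nat_lit 76) (nat_lit 0) (XT.lf (nat_lit 0) (nat_lit 13811324581) (nat_lit 152) (nat_lit 516020389) (nat_lit 76)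 (nat_lit 42705242948) (nat_lit 12) (nat_lit 5) (nat_lit 14) (nat_lit 5) (nat_lit 13) (nat_lit 4) (nat_lit 378) (nat_lit 303) (nat_lit 219)) (XT.lf (nat_lit 0) (nat_lit 15675300904) (nat_lit 76) (nat_lit 6045533091) (nat_lit 152) (nat_lit 37729894163) (nat_lit 11) (nat_lit 5) (nat_lit 12) (nat_lit 5) (nat_lit 13) (nat_lit 4) (nat_lit 379) (nat_lit 303) (nat_lit 218)))))) (XT.nd (nat_lit 468) (nat_lit 76) (nat_lit 0) (XT.nd (nat_lit 234) (nat_lit 76) (nat_lit 0) (XT.nd (nat_lit 78) (nat_lit 76) (nat_lit 0) (XT.lf (nat_lit 0) (nat_lit 30062979725) (nat_lit 152) (nat_lit 29361465172) (nat_lit 0) (nat_lit 2563476568) (nat_lit 11) (nat_lit 5) (nat_lit 13) (nat_lit 4) (nat_lit 11) (nat_lit 4) (nat_lit 380) (nat_lit 303) (nat_lit 217)) (XT.nd (nat_lit 78) (nat_lit 76) (nat_lit 0) (XT.lf (nat_lit 0) (nat_lit 38908862540) (nat_lit 152) (nat_lit 14349442643) (nat_lit 0) (nat_lit 11389341670) (nat_lit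 11) (nat_lit 5) (nat_lit 13) (nat_lit 4) (nat_lit 11) (nat_lit 4) (nat_lit 381) (nat_lit 303) (nat_lit 216)) (XT.lf (nat_lit 0) (nat_lit 1436756127) (nat_lit 76) (nat_lit 46770832013) (nat_lit 76) (nat_lit 19232246655) (nat_lit 10) (nat_lit 4) (nat_lit 11) (nat_lit 5) (nat_lit 11) (nat_lit 4) (nat_lit 382) (nat_lit 303) (nat_lit 215)))) (XT.nd (nat_lit 78) (nat_lit 76) (nat_lit 0) (XT.lf (nat_lit 0) (nat_lit 18488396482) (nat_lit 76) (nat_lit 39714206774) (nat_lit 76) (nat_lit 12157464759) (nat_lit 10) (nat_lit 4) (nat_lit 11) (nat_lit 5) (nat_lit 11) (nat_lit 4) (nat_lit 383) (nat_lit 303) (nat_lit 214)) (XT.nd (nat_lit 78) (nat_lit 76) (nat_lit 0) (XT.lf (nat_lit 0) (nat_lit 36371620186) (nat_lit 76) (nat_lit 32314642729) (nat_lit 76) (nat_lit 4740608662) (nat_lit 10) (nat_lit 4) (nat_lit 11) (nat_lit 5) (nat_lit 11) (nat_lit 4) (nat_lit 384) (nat_lit 303) (nat_lit 213)) (XT.lf (nat_lit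 0) (nat_lit 2938810471) (nat_lit 152) (nat_lit 21565941223) (nat_lit 76) (nat_lit 52140425696) (nat_lit 9) (nat_lit 5) (nat_lit 11) (nat_lit 5) (nat_lit 10) (nat_lit 4) (nat_lit 385) (nat_lit 303) (nat_lit 212))))) (XT.nd (nat_lit 234) (nat_lit 0) (nat_lit 0) (XT.nd (nat_lit 78) (nat_lit 76) (nat_lit 0) (XT.lf (nat_lit 0) (nat_lit 10832643261) (nat_lit 152) (nat_lit 5399268404) (nat_lit 76) (nat_lit 63789116083) (nat_lit 9) (nat_lit 5) (nat_lit 11) (nat_lit 5) (nat_lit 10) (nat_lit 4) (nat_lit 386) (nat_lit 303) (nat_lit 211)) (XT.nd (nat_lit 78) (nat_lit 0) (nat_lit 0) (XT.lf (nat_lit 0) (nat_lit 11939408977) (nat_lit 76) (nat_lit 7358412287) (nat_lit 152) (nat_lit 64259019457) (nat_lit 8) (nat_lit 5) (nat_lit 9) (nat_lit 5) (nat_lit 10) (nat_lit 4) (nat_lit 387) (nat_lit 303) (nat_lit 210)) (XT.lf (nat_lit 0) (nat_lit 28300070773) (nat_lit 152) (nat_lit 56982996555) (nat_lit 0) (nat_lit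 1980689028) (nat_lit 8) (nat_lit 5) (nat_lit 10) (nat_lit 4) (nat_lit 8) (nat_lit 4) (nat_lit 388) (nat_lit 303) (nat_lit 209)))) (XT.nd (nat_lit 78) (nat_lit 0) (nat_lit 0) (XT.lf (nat_lit 0) (nat_lit 37863817332) (nat_lit 152) (nat_lit 41755101735) (nat_lit 0) (nat_lit 11531531992) (nat_lit 8) (nat_lit 5) (nat_lit 10) (nat_lit 4) (nat_lit 8) (nat_lit 4) (nat_lit 389) (nat_lit 303) (nat_lit 208)) (XT.nd (nat_lit 78) (nat_lit 0) (nat_lit 0) (XT.lf (nat_lit 0) (nat_lit 47896946332) (nat_lit 152) (nat_lit 25782604954) (nat_lit 0) (nat_lit 21552371852) (nat_lit 8) (nat_lit 5) (nat_lit 10) (nat_lit 4) (nat_lit 8) (nat_lit 4) (nat_lit 390) (nat_lit 303) (nat_lit 207)) (XT.lf (nat_lit 0) (nat_lit 58423346175) (nat_lit 152) (nat_lit 9027476459) (nat_lit 0) (nat_lit 32067067752) (nat_lit 8) (nat_lit 5) (nat_lit 10) (nat_lit 4) (nat_lit 8) (nat_lit 4) (nat_lit 391) (nat_lit 303) (nat_lit 206))))))))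
noncomputable def xc111 : XT := (XT.nd (nat_lit 1794) (nat_lit 152) (nat_lit 0) (XT.nd (nat_lit 858) (nat_lit 76) (nat_lit 0) (XT.nd (nat_lit 390) (nat_lit 152) (nat_lit 0) (XT.nd (nat_lit 156) (nat_lit 0) (nat_lit 0) (XT.nd (nat_lit 78) (nat_lit 0) (nat_lit 0) (XT.lf (nat_lit 0) (nat_lit 8832884377) (nat_lit 76) (nat_lit 60773101418) (nat_lit 76) (nat_lit 34405676384) (nat_lit 7) (nat_lit 4) (nat_lit 8) (nat_lit 5) (nat_lit 8) (nat_lit 4) (nat_lit 392) (nat_lit 303) (nat_lit 205)) (XT.lf (nat_lit 0) (nat_lit 27884690976) (nat_lit 76) (nat_lit 53608111138) (nat_lit 76) (nat_lit 27230070283) (nat_lit 7) (nat_lit 4) (nat_lit 8) (nat_lit 5) (nat_lit 8) (nat_lit 4) (nat_lit 393) (nat_lit 303) (nat_lit 204))) (XT.nd (nat_lit 78) (nat_lit 0) (nat_lit 0) (XT.lf (nat_lit 0) (nat_lit 47874815642) (nat_lit 76) (nat_lit 46091676974) (nat_lit 76) (nat_lit 19703525814) (nat_lit 7) (nat_lit 4) (nat_lit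 8) (nat_lit 5) (nat_lit 8) (nat_lit 4) (nat_lit 394) (nat_lit 303) (nat_lit 203)) (XT.nd (nat_lit 78) (nat_lit 0) (nat_lit 0) (XT.lf (nat_lit 0) (nat_lit 68850853910) (nat_lit 76) (nat_lit 38205902654) (nat_lit 76) (nat_lit 11808122632) (nat_lit 7) (nat_lit 4) (nat_lit 8) (nat_lit 5) (nat_lit 8) (nat_lit 4) (nat_lit 395) (nat_lit 303) (nat_lit 202)) (XT.lf (nat_lit 0) (nat_lit 90862748727) (nat_lit 76) (nat_lit 29932012526) (nat_lit 76) (nat_lit 3525062159) (nat_lit 7) (nat_lit 4) (nat_lit 8) (nat_lit 5) (nat_lit 8) (nat_lit 4) (nat_lit 396) (nat_lit 303) (nat_lit 201))))) (XT.nd (nat_lit 234) (nat_lit 0) (nat_lit 0) (XT.nd (nat_lit 78) (nat_lit 76) (nat_lit 0) (XT.lf (nat_lit 0) (nat_lit 5000052850) (nat_lit 152) (nat_lit 16165575686) (nat_lit 76) (nat_lit 108878178203) (nat_lit 6) (nat_lit 5) (nat_lit 8) (nat_lit 5) (nat_lit 7) (nat_lit 4) (nat_lit 397) (nat_lit 303) (nat_lit 200)) (XT.nd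 (nat_lit 78) (nat_lit 0) (nat_lit 0) (XT.lf (nat_lit 0) (nat_lit 1984269512) (nat_lit 76) (nat_lit 11873423811) (nat_lit 152) (nat_lit 122192171312) (nat_lit 5) (nat_lit 5) (nat_lit 6) (nat_lit 5) (nat_lit 7) (nat_lit 4) (nat_lit 398) (nat_lit 303) (nat_lit 199)) (XT.lf (nat_lit 0) (nat_lit 21591082133) (nat_lit 76) (nat_lit 1834774268) (nat_lit 152) (nat_lit 118916988468) (nat_lit 5) (nat_lit 5) (nat_lit 6) (nat_lit 5) (nat_lit 7) (nat_lit 4) (nat_lit 399) (nat_lit 303) (nat_lit 198)))) (XT.nd (nat_lit 78) (nat_lit 0) (nat_lit 0) (XT.lf (nat_lit 0) (nat_lit 33602426737) (nat_lit 152) (nat_lit 106919567761) (nat_lit 0) (nat_lit 8421981064) (nat_lit 5) (nat_lit 5) (nat_lit 7) (nat_lit 4) (nat_lit 5) (nat_lit 4) (nat_lit 400) (nat_lit 303) (nat_lit 197)) (XT.nd (nat_lit 78) (nat_lit 0) (nat_lit 0) (XT.lf (nat_lit 0) (nat_lit 44312262946) (nat_lit 152) (nat_lit 92436705087) (nat_lit 0) (nat_lit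 19124974221) (nat_lit 5) (nat_lit 5) (nat_lit 7) (nat_lit 4) (nat_lit 5) (nat_lit 4) (nat_lit 401) (nat_lit 303) (nat_lit 196)) (XT.lf (nat_lit 0) (nat_lit 55552218673) (nat_lit 152) (nat_lit 77240045741) (nat_lit 0) (nat_lit 30358412755) (nat_lit 5) (nat_lit 5) (nat_lit 7) (nat_lit 4) (nat_lit 5) (nat_lit 4) (nat_lit 402) (nat_lit 303) (nat_lit 195)))))) (XT.nd (nat_lit 468) (nat_lit 0) (nat_lit 0) (XT.nd (nat_lit 234) (nat_lit 76) (nat_lit 0) (XT.nd (nat_lit 78) (nat_lit 0) (nat_lit 0) (XT.lf (nat_lit 0) (nat_lit 67349055716) (nat_lit 152) (nat_lit 61293407199) (nat_lit 0) (nat_lit 42149042947) (nat_lit 5) (nat_lit 5) (nat_lit 7) (nat_lit 4) (nat_lit 5) (nat_lit 4) (nat_lit 403) (nat_lit 303) (nat_lit 194)) (XT.nd (nat_lit 78) (nat_lit 0) (nat_lit 0) (XT.lf (nat_lit 0) (nat_lit 79730861782) (nat_lit 152) (nat_lit 44558821276) (nat_lit 0) (nat_lit 54524937727) (nat_lit 5) (nat_lit 5)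 (nat_lit 7) (nat_lit 4) (nat_lit 5) (nat_lit 4) (nat_lit 404) (nat_lit 303) (nat_lit 193)) (XT.lf (nat_lit 0) (nat_lit 92727117362) (nat_lit 152) (nat_lit 26996443718) (nat_lit 0) (nat_lit 67515563511) (nat_lit 5) (nat_lit 5) (nat_lit 7) (nat_lit 4) (nat_lit 5) (nat_lit 4) (nat_lit 405) (nat_lit 303) (nat_lit 192)))) (XT.nd (nat_lit 78) (nat_lit 76) (nat_lit 0) (XT.lf (nat_lit 0) (nat_lit 106368765922) (nat_lit 152) (nat_lit 8564459342) (nat_lit 0) (nat_lit 81151850360) (nat_lit 5) (nat_lit 5) (nat_lit 7) (nat_lit 4) (nat_lit 5) (nat_lit 4) (nat_lit 406) (nat_lit 303) (nat_lit 191)) (XT.nd (nat_lit 78) (nat_lit 0) (nat_lit 0) (XT.lf (nat_lit 0) (nat_lit 11137486657) (nat_lit 76) (nat_lit 109724688299) (nat_lit 76) (nat_lit 84502666346) (nat_lit 4) (nat_lit 4) (nat_lit 5) (nat_lit 5) (nat_lit 5) (nat_lit 4) (nat_lit 407) (nat_lit 303) (nat_lit 190)) (XT.lf (nat_lit 0) (nat_lit 32113892677)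 (nat_lit 76) (nat_lit 104107271612) (nat_lit 76) (nat_lit 78880386430) (nat_lit 4) (nat_lit 4) (nat_lit 5) (nat_lit 5) (nat_lit 5) (nat_lit 4) (nat_lit 408) (nat_lit 303) (nat_lit 189))))) (XT.nd (nat_lit 234) (nat_lit 0) (nat_lit 0) (XT.nd (nat_lit 78) (nat_lit 0) (nat_lit 0) (XT.lf (nat_lit 0) (nat_lit 54131522837) (nat_lit 76) (nat_lit 98212643666) (nat_lit 76) (nat_lit 72981126837) (nat_lit 4) (nat_lit 4) (nat_lit 5) (nat_lit 5) (nat_lit 5) (nat_lit 4) (nat_lit 409) (nat_lit 303) (nat_lit 188)) (XT.nd (nat_lit 78) (nat_lit 0) (nat_lit 0) (XT.lf (nat_lit 0) (nat_lit 77242800065) (nat_lit 76) (nat_lit 92026769633) (nat_lit 76) (nat_lit 66790841710) (nat_lit 4) (nat_lit 4) (nat_lit 5) (nat_lit 5) (nat_lit 5) (nat_lit 4) (nat_lit 410) (nat_lit 303) (nat_lit 187)) (XT.lf (nat_lit 0) (nat_lit 101502751213) (nat_lit 76) (nat_lit 85534921240) (nat_lit 76) (nat_lit 60294792277) (nat_lit 4)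 (nat_lit 4) (nat_lit 5) (nat_lit 5) (nat_lit 5) (nat_lit 4) (nat_lit 411) (nat_lit 303) (nat_lit 186)))) (XT.nd (nat_lit 78) (nat_lit 0) (nat_lit 0) (XT.lf (nat_lit 0) (nat_lit 126969138068) (nat_lit 76) (nat_lit 78721641706) (nat_lit 76) (nat_lit 53477511752) (nat_lit 4) (nat_lit 4) (nat_lit 5) (nat_lit 5) (nat_lit 5) (nat_lit 4) (nat_lit 412) (nat_lit 303) (nat_lit 185)) (XT.nd (nat_lit 78) (nat_lit 0) (nat_lit 0) (XT.lf (nat_lit 0) (nat_lit 153702594885) (nat_lit 76) (nat_lit 71570708937) (nat_lit 76) (nat_lit 46322768515) (nat_lit 4) (nat_lit 4) (nat_lit 5) (nat_lit 5) (nat_lit 5) (nat_lit 4) (nat_lit 413) (nat_lit 303) (nat_lit 184)) (XT.lf (nat_lit 0) (nat_lit 181766772752) (nat_lit 76) (nat_lit 64065096903) (nat_lit 76) (nat_lit 38813527464) (nat_lit 4) (nat_lit 4) (nat_lit 5) (nat_lit 5) (nat_lit 5) (nat_lit 4) (nat_lit 414) (nat_lit 303) (nat_lit 183))))))) (XT.nd (nat_lit 858)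 (nat_lit 0) (nat_lit 0) (XT.nd (nat_lit 390) (nat_lit 76) (nat_lit 0) (XT.nd (nat_lit 156) (nat_lit 76) (nat_lit 0) (XT.nd (nat_lit 78) (nat_lit 0) (nat_lit 0) (XT.lf (nat_lit 0) (nat_lit 211228491140) (nat_lit 76) (nat_lit 56186935097) (nat_lit 76) (nat_lit 30931909452) (nat_lit 4) (nat_lit 4) (nat_lit 5) (nat_lit 5) (nat_lit 5) (nat_lit 4) (nat_lit 415) (nat_lit 303) (nat_lit 182)) (XT.lf (nat_lit 0) (nat_lit 242157896998) (nat_lit 76) (nat_lit 47917465993) (nat_lit 76) (nat_lit 22659148723) (nat_lit 4) (nat_lit 4) (nat_lit 5) (nat_lit 5) (nat_lit 5) (nat_lit 4) (nat_lit 416) (nat_lit 303) (nat_lit 181))) (XT.nd (nat_lit 78) (nat_lit 76) (nat_lit 0) (XT.lf (nat_lit 0) (nat_lit 274628631767) (nat_lit 76) (nat_lit 39237000379) (nat_lit 76) (nat_lit 13975548227) (nat_lit 4) (nat_lit 4) (nat_lit 5) (nat_lit 5) (nat_lit 5) (nat_lit 4) (nat_lit 417) (nat_lit 303) (nat_lit 180)) (XT.nd (nat_lit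 78) (nat_lit 76) (nat_lit 0) (XT.lf (nat_lit 0) (nat_lit 308718006721) (nat_lit 76) (nat_lit 30124870478) (nat_lit 76) (nat_lit 4860432725) (nat_lit 4) (nat_lit 4) (nat_lit 5) (nat_lit 5) (nat_lit 5) (nat_lit 4) (nat_lit 418) (nat_lit 303) (nat_lit 179)) (XT.lf (nat_lit 0) (nat_lit 4557218222) (nat_lit 152) (nat_lit 15924983825) (nat_lit 76) (nat_lit 339872790121) (nat_lit 3) (nat_lit 5) (nat_lit 5) (nat_lit 5) (nat_lit 4) (nat_lit 4) (nat_lit 419) (nat_lit 303) (nat_lit 178))))) (XT.nd (nat_lit 234) (nat_lit 0) (nat_lit 0) (XT.nd (nat_lit 78) (nat_lit 0) (nat_lit 0) (XT.lf (nat_lit 0) (nat_lit 4136548492) (nat_lit 76) (nat_lit 10208104045) (nat_lit 152) (nat_lit 363487510367) (nat_lit 2) (nat_lit 5) (nat_lit 3) (nat_lit 5) (nat_lit 4) (nat_lit 4) (nat_lit 420) (nat_lit 303) (nat_lit 177)) (XT.nd (nat_lit 78) (nat_lit 0) (nat_lit 0) (XT.lf (nat_lit 0) (nat_lit 24902296445) (nat_lit 152)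 (nat_lit 370433670527) (nat_lit 0) (nat_lit 833183792) (nat_lit 2) (nat_lit 5) (nat_lit 4) (nat_lit 4) (nat_lit 2) (nat_lit 4) (nat_lit 421) (nat_lit 303) (nat_lit 176)) (XT.lf (nat_lit 0) (nat_lit 36152948113) (nat_lit 152) (nat_lit 367180287918) (nat_lit 0) (nat_lit 12081496163) (nat_lit 2) (nat_lit 5) (nat_lit 4) (nat_lit 4) (nat_lit 2) (nat_lit 4) (nat_lit 422) (nat_lit 303) (nat_lit 175)))) (XT.nd (nat_lit 78) (nat_lit 0) (nat_lit 0) (XT.lf (nat_lit 0) (nat_lit 47964017695) (nat_lit 152) (nat_lit 363768343324) (nat_lit 0) (nat_lit 23890337843) (nat_lit 2) (nat_lit 5) (nat_lit 4) (nat_lit 4) (nat_lit 2) (nat_lit 4) (nat_lit 423) (nat_lit 303) (nat_lit 174)) (XT.nd (nat_lit 78) (nat_lit 0) (nat_lit 0) (XT.lf (nat_lit 0) (nat_lit 60363626786) (nat_lit 152) (nat_lit 360189713069) (nat_lit 0) (nat_lit 36287825123) (nat_lit 2) (nat_lit 5) (nat_lit 4) (nat_lit 4) (nat_lit 2) (nat_lit 4)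 (nat_lit 424) (nat_lit 303) (nat_lit 173)) (XT.lf (nat_lit 0) (nat_lit 73381298264) (nat_lit 152) (nat_lit 356435876602) (nat_lit 0) (nat_lit 49303475829) (nat_lit 2) (nat_lit 5) (nat_lit 4) (nat_lit 4) (nat_lit 2) (nat_lit 4) (nat_lit 425) (nat_lit 303) (nat_lit 172)))))) (XT.nd (nat_lit 468) (nat_lit 0) (nat_lit 0) (XT.nd (nat_lit 234) (nat_lit 0) (nat_lit 0) (XT.nd (nat_lit 78) (nat_lit 0) (nat_lit 0) (XT.lf (nat_lit 0) (nat_lit 87048026586) (nat_lit 152) (nat_lit 352497896220) (nat_lit 0) (nat_lit 62968279606) (nat_lit 2) (nat_lit 5) (nat_lit 4) (nat_lit 4) (nat_lit 2) (nat_lit 4) (nat_lit 426) (nat_lit 303) (nat_lit 171)) (XT.nd (nat_lit 78) (nat_lit 0) (nat_lit 0) (XT.lf (nat_lit 0) (nat_lit 101396351580) (nat_lit 152) (nat_lit 348366395777) (nat_lit 0) (nat_lit 77314771700) (nat_lit 2) (nat_lit 5) (nat_lit 4) (nat_lit 4) (nat_lit 2) (nat_lit 4) (nat_lit 427) (nat_lit 303) (nat_lit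 170)) (XT.lf (nat_lit 0) (nat_lit 116460435926) (nat_lit 152) (nat_lit 344031538369) (nat_lit 0) (nat_lit 92377110427) (nat_lit 2) (nat_lit 5) (nat_lit 4) (nat_lit 4) (nat_lit 2) (nat_lit 4) (nat_lit 428) (nat_lit 303) (nat_lit 169)))) (XT.nd (nat_lit 78) (nat_lit 0) (nat_lit 0) (XT.lf (nat_lit 0) (nat_lit 132276146490) (nat_lit 152) (nat_lit 339483002906) (nat_lit 0) (nat_lit 108191158497) (nat_lit 2) (nat_lit 5) (nat_lit 4) (nat_lit 4) (nat_lit 2) (nat_lit 4) (nat_lit 429) (nat_lit 303) (nat_lit 168)) (XT.nd (nat_lit 78) (nat_lit 0) (nat_lit 0) (XT.lf (nat_lit 0) (nat_lit 148881139727) (nat_lit 152) (nat_lit 334709959541) (nat_lit 0) (nat_lit 124794568405) (nat_lit 2) (nat_lit 5) (nat_lit 4) (nat_lit 4) (nat_lit 2) (nat_lit 4) (nat_lit 430) (nat_lit 303) (nat_lit 167)) (XT.lf (nat_lit 0) (nat_lit 166314951335) (nat_lit 152) (nat_lit 329701043887) (nat_lit 0) (nat_lit 142226872082) (nat_lit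 2) (nat_lit 5) (nat_lit 4) (nat_lit 4) (nat_lit 2) (nat_lit 4) (nat_lit 431) (nat_lit 303) (nat_lit 166))))) (XT.nd (nat_lit 36972) (nat_lit 0) (nat_lit 9880) (XT.nd (nat_lit 78) (nat_lit 0) (nat_lit 0) (XT.lf (nat_lit 0) (nat_lit 184619090388) (nat_lit 152) (nat_lit 324444329952) (nat_lit 0) (nat_lit 160529575010) (nat_lit 2) (nat_lit 5) (nat_lit 4) (nat_lit 4) (nat_lit 2) (nat_lit 4) (nat_lit 432) (nat_lit 303) (nat_lit 165)) (XT.nd (nat_lit 36816) (nat_lit 0) (nat_lit 10260) (XT.lf (nat_lit 0) (nat_lit 203837138171) (nat_lit 152) (nat_lit 318927301752) (nat_lit 0) (nat_lit 179746255055) (nat_lit 2) (nat_lit 5) (nat_lit 4) (nat_lit 4) (nat_lit 2) (nat_lit 4) (nat_lit 433) (nat_lit 303) (nat_lit 164)) (XT.lf (nat_lit 0) (nat_lit 809610857) (nat_lit 380) (nat_lit 1252607546) (nat_lit 380) (nat_lit 1252607546) (nat_lit 137) (nat_lit 3) (nat_lit 142) (nat_lit 3) (nat_lit 142) (nat_lit 5)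 (nat_lit 304) (nat_lit 304) (nat_lit 292)))) (XT.nd (nat_lit 78) (nat_lit 380) (nat_lit 0) (XT.lf (nat_lit 76) (nat_lit 642484795) (nat_lit 0) (nat_lit 3209118997) (nat_lit 380) (nat_lit 2829270624) (nat_lit 138) (nat_lit 5) (nat_lit 137) (nat_lit 3) (nat_lit 142) (nat_lit 5) (nat_lit 305) (nat_lit 304) (nat_lit 291)) (XT.nd (nat_lit 78) (nat_lit 380) (nat_lit 0) (XT.lf (nat_lit 76) (nat_lit 3958632670) (nat_lit 0) (nat_lit 2138547162) (nat_lit 380) (nat_lit 642714662) (nat_lit 138) (nat_lit 5) (nat_lit 137) (nat_lit 3) (nat_lit 142) (nat_lit 5) (nat_lit 306) (nat_lit 304) (nat_lit 290)) (XT.lf (nat_lit 76) (nat_lit 553526902) (nat_lit 0) (nat_lit 918737978) (nat_lit 456) (nat_lit 5334995667) (nat_lit 133) (nat_lit 5) (nat_lit 132) (nat_lit 5) (nat_lit 138) (nat_lit 5) (nat_lit 307) (nat_lit 304) (nat_lit 289))))))))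
noncomputable def xc112 : XT := (XT.nd (nat_lit 1716) (nat_lit 2660) (nat_lit 0) (XT.nd (nat_lit 858) (nat_lit 2432) (nat_lit 0) (XT.nd (nat_lit 390) (nat_lit 2356) (nat_lit 0) (XT.nd (nat_lit 156) (nat_lit 456) (nat_lit 0) (XT.nd (nat_lit 78) (nat_lit 0) (nat_lit 0) (XT.lf (nat_lit 0) (nat_lit 3594474230) (nat_lit 380) (nat_lit 2824548177) (nat_lit 456) (nat_lit 462563931) (nat_lit 133) (nat_lit 5) (nat_lit 138) (nat_lit 5) (nat_lit 139) (nat_lit 5) (nat_lit 308) (nat_lit 304) (nat_lit 288)) (XT.lf (nat_lit 76) (nat_lit 703985010) (nat_lit 0) (nat_lit 5020626523) (nat_lit 456) (nat_lit 1240185309) (nat_lit 134) (nat_lit 5) (nat_lit 133) (nat_lit 5) (nat_lit 139) (nat_lit 5) (nat_lit 309) (nat_lit 304) (nat_lit 287))) (XT.nd (nat_lit 78) (nat_lit 0) (nat_lit 0) (XT.lf (nat_lit 0) (nat_lit 806870388) (nat_lit 456) (nat_lit 2640305998) (nat_lit 532) (nat_lit 3608173054) (nat_lit 127) (nat_lit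 5) (nat_lit 133) (nat_lit 5) (nat_lit 134) (nat_lit 5) (nat_lit 310) (nat_lit 304) (nat_lit 286)) (XT.nd (nat_lit 78) (nat_lit 0) (nat_lit 76) (XT.lf (nat_lit 76) (nat_lit 1097389852) (nat_lit 0) (nat_lit 1718400919) (nat_lit 532) (nat_lit 4338786828) (nat_lit 128) (nat_lit 5) (nat_lit 127) (nat_lit 5) (nat_lit 134) (nat_lit 5) (nat_lit 311) (nat_lit 304) (nat_lit 285)) (XT.lf (nat_lit 0) (nat_lit 4861021876) (nat_lit 456) (nat_lit 2228829402) (nat_lit 76) (nat_lit 172335980) (nat_lit 128) (nat_lit 5) (nat_lit 134) (nat_lit 5) (nat_lit 129) (nat_lit 5) (nat_lit 312) (nat_lit 304) (nat_lit 284))))) (XT.nd (nat_lit 234) (nat_lit 1368) (nat_lit 0) (XT.nd (nat_lit 78) (nat_lit 608) (nat_lit 0) (XT.lf (nat_lit 0) (nat_lit 1738722152) (nat_lit 456) (nat_lit 5219304724) (nat_lit 532) (nat_lit 419878074) (nat_lit 122) (nat_lit 5) (nat_lit 128) (nat_lit 5) (nat_lit 129) (nat_lit 5) (nat_lit 313)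 (nat_lit 304) (nat_lit 283)) (XT.nd (nat_lit 78) (nat_lit 532) (nat_lit 0) (XT.lf (nat_lit 0) (nat_lit 1541843378) (nat_lit 532) (nat_lit 1624070080) (nat_lit 76) (nat_lit 4335657347) (nat_lit 121) (nat_lit 5) (nat_lit 128) (nat_lit 5) (nat_lit 122) (nat_lit 5) (nat_lit 314) (nat_lit 304) (nat_lit 282)) (XT.lf (nat_lit 0) (nat_lit 2589670523) (nat_lit 532) (nat_lit 939397175) (nat_lit 608) (nat_lit 4105107226) (nat_lit 114) (nat_lit 5) (nat_lit 121) (nat_lit 5) (nat_lit 122) (nat_lit 5) (nat_lit 315) (nat_lit 304) (nat_lit 281)))) (XT.nd (nat_lit 78) (nat_lit 1368) (nat_lit 0) (XT.lf (nat_lit 0) (nat_lit 5570336432) (nat_lit 608) (nat_lit 805932452) (nat_lit 76) (nat_lit 1399573349) (nat_lit 114) (nat_lit 5) (nat_lit 122) (nat_lit 5) (nat_lit 115) (nat_lit 5) (nat_lit 316) (nat_lit 304) (nat_lit 280)) (XT.nd (nat_lit 78) (nat_lit 760) (nat_lit 0) (XT.lf (nat_lit 0) (nat_lit 3668392868)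 (nat_lit 608) (nat_lit 4027372676) (nat_lit 684) (nat_lit 229881705) (nat_lit 106) (nat_lit 5) (nat_lit 114) (nat_lit 5) (nat_lit 115) (nat_lit 5) (nat_lit 317) (nat_lit 304) (nat_lit 279)) (XT.lf (nat_lit 0) (nat_lit 209834306) (nat_lit 684) (nat_lit 1503756377) (nat_lit 760) (nat_lit 6371651140) (nat_lit 96) (nat_lit 5) (nat_lit 105) (nat_lit 5) (nat_lit 106) (nat_lit 5) (nat_lit 318) (nat_lit 304) (nat_lit 278)))))) (XT.nd (nat_lit 390) (nat_lit 1292) (nat_lit 0) (XT.nd (nat_lit 156) (nat_lit 456) (nat_lit 0) (XT.nd (nat_lit 78) (nat_lit 684) (nat_lit 0) (XT.lf (nat_lit 0) (nat_lit 3751764621) (nat_lit 760) (nat_lit 3307252022) (nat_lit 76) (nat_lit 1193485895) (nat_lit 96) (nat_lit 5) (nat_lit 106) (nat_lit 5) (nat_lit 97) (nat_lit 5) (nat_lit 319) (nat_lit 304) (nat_lit 277)) (XT.lf (nat_lit 0) (nat_lit 1431153832) (nat_lit 684) (nat_lit 4425860866) (nat_lit 760) (nat_lit 2572984181)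 (nat_lit 87) (nat_lit 5) (nat_lit 96) (nat_lit 5) (nat_lit 97) (nat_lit 5) (nat_lit 320) (nat_lit 304) (nat_lit 276))) (XT.nd (nat_lit 78) (nat_lit 456) (nat_lit 0) (XT.lf (nat_lit 0) (nat_lit 6443267987) (nat_lit 684) (nat_lit 1601118879) (nat_lit 760) (nat_lit 573264918) (nat_lit 87) (nat_lit 5) (nat_lit 96) (nat_lit 5) (nat_lit 97) (nat_lit 5) (nat_lit 321) (nat_lit 304) (nat_lit 275)) (XT.nd (nat_lit 78) (nat_lit 0) (nat_lit 0) (XT.lf (nat_lit 0) (nat_lit 1468294925) (nat_lit 456) (nat_lit 5954860852) (nat_lit 76) (nat_lit 1390917577) (nat_lit 81) (nat_lit 5) (nat_lit 87) (nat_lit 5) (nat_lit 82) (nat_lit 5) (nat_lit 322) (nat_lit 304) (nat_lit 274)) (XT.lf (nat_lit 0) (nat_lit 3582059812) (nat_lit 456) (nat_lit 914269007) (nat_lit 76) (nat_lit 4524155412) (nat_lit 81) (nat_lit 5) (nat_lit 87) (nat_lit 5) (nat_lit 82) (nat_lit 5) (nat_lit 323) (nat_lit 304) (nat_lit 273))))) (XT.nd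 (nat_lit 234) (nat_lit 608) (nat_lit 0) (XT.nd (nat_lit 78) (nat_lit 380) (nat_lit 0) (XT.lf (nat_lit 0) (nat_lit 4444879947) (nat_lit 304) (nat_lit 1355284069) (nat_lit 380) (nat_lit 3437221695) (nat_lit 77) (nat_lit 5) (nat_lit 81) (nat_lit 5) (nat_lit 82) (nat_lit 5) (nat_lit 324) (nat_lit 304) (nat_lit 272)) (XT.nd (nat_lit 78) (nat_lit 76) (nat_lit 0) (XT.lf (nat_lit 0) (nat_lit 548388573) (nat_lit 304) (nat_lit 7566783145) (nat_lit 380) (nat_lit 1350758360) (nat_lit 73) (nat_lit 5) (nat_lit 77) (nat_lit 5) (nat_lit 78) (nat_lit 5) (nat_lit 325) (nat_lit 304) (nat_lit 271)) (XT.lf (nat_lit 0) (nat_lit 850109607) (nat_lit 380) (nat_lit 3494812086) (nat_lit 76) (nat_lit 5358564470) (nat_lit 72) (nat_lit 5) (nat_lit 77) (nat_lit 5) (nat_lit 73) (nat_lit 5) (nat_lit 326) (nat_lit 304) (nat_lit 270)))) (XT.nd (nat_lit 78) (nat_lit 304) (nat_lit 0) (XT.lf (nat_lit 0) (nat_lit 2171145496)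 (nat_lit 304) (nat_lit 913860601) (nat_lit 380) (nat_lit 6868422223) (nat_lit 68) (nat_lit 5) (nat_lit 72) (nat_lit 5) (nat_lit 73) (nat_lit 5) (nat_lit 327) (nat_lit 304) (nat_lit 269)) (XT.nd (nat_lit 78) (nat_lit 304) (nat_lit 0) (XT.lf (nat_lit 0) (nat_lit 5471002498) (nat_lit 380) (nat_lit 2091197621) (nat_lit 76) (nat_lit 2651780113) (nat_lit 68) (nat_lit 5) (nat_lit 73) (nat_lit 5) (nat_lit 69) (nat_lit 5) (nat_lit 328) (nat_lit 304) (nat_lit 268)) (XT.lf (nat_lit 0) (nat_lit 3921572427) (nat_lit 304) (nat_lit 4071143400) (nat_lit 380) (nat_lit 2494099628) (nat_lit 64) (nat_lit 5) (nat_lit 68) (nat_lit 5) (nat_lit 69) (nat_lit 5) (nat_lit 329) (nat_lit 304) (nat_lit 267))))))) (XT.nd (nat_lit 858) (nat_lit 1064) (nat_lit 0) (XT.nd (nat_lit 390) (nat_lit 760) (nat_lit 0) (XT.nd (nat_lit 156) (nat_lit 532) (nat_lit 0) (XT.nd (nat_lit 78) (nat_lit 304) (nat_lit 0) (XT.lf (nat_lit 0)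 (nat_lit 10235363652) (nat_lit 304) (nat_lit 382495314) (nat_lit 380) (nat_lit 156639192) (nat_lit 64) (nat_lit 5) (nat_lit 68) (nat_lit 5) (nat_lit 69) (nat_lit 5) (nat_lit 330) (nat_lit 304) (nat_lit 266)) (XT.lf (nat_lit 0) (nat_lit 2315877079) (nat_lit 304) (nat_lit 5259870780) (nat_lit 76) (nat_lit 3494503440) (nat_lit 60) (nat_lit 5) (nat_lit 64) (nat_lit 5) (nat_lit 61) (nat_lit 5) (nat_lit 331) (nat_lit 304) (nat_lit 265))) (XT.nd (nat_lit 78) (nat_lit 228) (nat_lit 0) (XT.lf (nat_lit 0) (nat_lit 1068843438) (nat_lit 304) (nat_lit 3815231515) (nat_lit 380) (nat_lit 6497785752) (nat_lit 56) (nat_lit 5) (nat_lit 60) (nat_lit 5) (nat_lit 61) (nat_lit 5) (nat_lit 332) (nat_lit 304) (nat_lit 264)) (XT.nd (nat_lit 78) (nat_lit 228) (nat_lit 0) (XT.lf (nat_lit 0) (nat_lit 7619617522) (nat_lit 380) (nat_lit 3884958675) (nat_lit 76) (nat_lit 202587641) (nat_lit 56) (nat_lit 5) (nat_lit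 61) (nat_lit 5) (nat_lit 57) (nat_lit 5) (nat_lit 333) (nat_lit 304) (nat_lit 263)) (XT.lf (nat_lit 0) (nat_lit 2822363159) (nat_lit 228) (nat_lit 7725054968) (nat_lit 304) (nat_lit 1498597093) (nat_lit 53) (nat_lit 5) (nat_lit 56) (nat_lit 5) (nat_lit 57) (nat_lit 5) (nat_lit 334) (nat_lit 304) (nat_lit 262))))) (XT.nd (nat_lit 234) (nat_lit 456) (nat_lit 0) (XT.nd (nat_lit 78) (nat_lit 228) (nat_lit 0) (XT.lf (nat_lit 0) (nat_lit 1196993749) (nat_lit 304) (nat_lit 2489240878) (nat_lit 76) (nat_lit 8713862379) (nat_lit 52) (nat_lit 5) (nat_lit 56) (nat_lit 5) (nat_lit 53) (nat_lit 5) (nat_lit 335) (nat_lit 304) (nat_lit 261)) (XT.nd (nat_lit 78) (nat_lit 0) (nat_lit 0) (XT.lf (nat_lit 0) (nat_lit 4011149671) (nat_lit 304) (nat_lit 8140825494) (nat_lit 76) (nat_lit 617021305) (nat_lit 49) (nat_lit 5) (nat_lit 53) (nat_lit 5) (nat_lit 50) (nat_lit 5) (nat_lit 336) (nat_lit 304) (nat_lit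 260)) (XT.lf (nat_lit 0) (nat_lit 7022031573) (nat_lit 304) (nat_lit 1095661118) (nat_lit 76) (nat_lit 5035894315) (nat_lit 49) (nat_lit 5) (nat_lit 53) (nat_lit 5) (nat_lit 50) (nat_lit 5) (nat_lit 337) (nat_lit 304) (nat_lit 259)))) (XT.nd (nat_lit 78) (nat_lit 304) (nat_lit 0) (XT.lf (nat_lit 0) (nat_lit 6443044749) (nat_lit 152) (nat_lit 3795997777) (nat_lit 228) (nat_lit 3315630065) (nat_lit 47) (nat_lit 5) (nat_lit 49) (nat_lit 5) (nat_lit 50) (nat_lit 5) (nat_lit 338) (nat_lit 304) (nat_lit 258)) (XT.nd (nat_lit 78) (nat_lit 76) (nat_lit 0) (XT.lf (nat_lit 0) (nat_lit 355523358) (nat_lit 228) (nat_lit 13253196591) (nat_lit 304) (nat_lit 367544346) (nat_lit 44) (nat_lit 5) (nat_lit 47) (nat_lit 5) (nat_lit 48) (nat_lit 5) (nat_lit 339) (nat_lit 304) (nat_lit 257)) (XT.lf (nat_lit 0) (nat_lit 2781448383) (nat_lit 304) (nat_lit 6143013251) (nat_lit 76) (nat_lit 5485342382) (nat_lit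 43) (nat_lit 5) (nat_lit 47) (nat_lit 5) (nat_lit 44) (nat_lit 5) (nat_lit 340) (nat_lit 304) (nat_lit 256)))))) (XT.nd (nat_lit 468) (nat_lit 532) (nat_lit 0) (XT.nd (nat_lit 234) (nat_lit 228) (nat_lit 0) (XT.nd (nat_lit 78) (nat_lit 152) (nat_lit 0) (XT.lf (nat_lit 0) (nat_lit 1693702040) (nat_lit 152) (nat_lit 4366538611) (nat_lit 228) (nat_lit 8805280547) (nat_lit 41) (nat_lit 5) (nat_lit 43) (nat_lit 5) (nat_lit 44) (nat_lit 5) (nat_lit 341) (nat_lit 304) (nat_lit 255)) (XT.nd (nat_lit 78) (nat_lit 152) (nat_lit 0) (XT.lf (nat_lit 0) (nat_lit 9574202915) (nat_lit 228) (nat_lit 5275352546) (nat_lit 76) (nat_lit 490942338) (nat_lit 41) (nat_lit 5) (nat_lit 44) (nat_lit 5) (nat_lit 42) (nat_lit 5) (nat_lit 342) (nat_lit 304) (nat_lit 254)) (XT.lf (nat_lit 0) (nat_lit 2978934484) (nat_lit 152) (nat_lit 10363919822) (nat_lit 228) (nat_lit 2492452780) (nat_lit 39) (nat_lit 5) (nat_lit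 41) (nat_lit 5) (nat_lit 42) (nat_lit 5) (nat_lit 343) (nat_lit 304) (nat_lit 253)))) (XT.nd (nat_lit 78) (nat_lit 152) (nat_lit 0) (XT.lf (nat_lit 0) (nat_lit 966809040) (nat_lit 228) (nat_lit 4598624493) (nat_lit 76) (nat_lit 10786117033) (nat_lit 38) (nat_lit 5) (nat_lit 41) (nat_lit 5) (nat_lit 39) (nat_lit 5) (nat_lit 344) (nat_lit 304) (nat_lit 252)) (XT.nd (nat_lit 78) (nat_lit 0) (nat_lit 0) (XT.lf (nat_lit 0) (nat_lit 4104325758) (nat_lit 152) (nat_lit 438045341) (nat_lit 228) (nat_lit 12347865990) (nat_lit 36) (nat_lit 5) (nat_lit 38) (nat_lit 5) (nat_lit 39) (nat_lit 5) (nat_lit 345) (nat_lit 304) (nat_lit 251)) (XT.lf (nat_lit 0) (nat_lit 8416641308) (nat_lit 228) (nat_lit 4187133723) (nat_lit 76) (nat_lit 4846113888) (nat_lit 36) (nat_lit 5) (nat_lit 39) (nat_lit 5) (nat_lit 37) (nat_lit 5) (nat_lit 346) (nat_lit 304) (nat_lit 250))))) (XT.nd (nat_lit 234) (nat_lit 152) (nat_lit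 0) (XT.nd (nat_lit 78) (nat_lit 228) (nat_lit 0) (XT.lf (nat_lit 0) (nat_lit 4936442478) (nat_lit 152) (nat_lit 7597727671) (nat_lit 228) (nat_lit 5500902114) (nat_lit 34) (nat_lit 5) (nat_lit 36) (nat_lit 5) (nat_lit 37) (nat_lit 5) (nat_lit 347) (nat_lit 304) (nat_lit 249)) (XT.nd (nat_lit 78) (nat_lit 228) (nat_lit 0) (XT.lf (nat_lit 0) (nat_lit 14606511635) (nat_lit 152) (nat_lit 2288060485) (nat_lit 228) (nat_lit 1753117748) (nat_lit 34) (nat_lit 5) (nat_lit 36) (nat_lit 5) (nat_lit 37) (nat_lit 5) (nat_lit 348) (nat_lit 304) (nat_lit 248)) (XT.lf (nat_lit 0) (nat_lit 2219142550) (nat_lit 228) (nat_lit 13780064437) (nat_lit 76) (nat_lit 3284704272) (nat_lit 31) (nat_lit 5) (nat_lit 34) (nat_lit 5) (nat_lit 32) (nat_lit 5) (nat_lit 349) (nat_lit 304) (nat_lit 247)))) (XT.nd (nat_lit 78) (nat_lit 152) (nat_lit 0) (XT.lf (nat_lit 0) (nat_lit 6405738932) (nat_lit 228) (nat_lit 4403452102)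 (nat_lit 76) (nat_lit 9137605271) (nat_lit 31) (nat_lit 5) (nat_lit 34) (nat_lit 5) (nat_lit 32) (nat_lit 5) (nat_lit 350) (nat_lit 304) (nat_lit 246)) (XT.nd (nat_lit 78) (nat_lit 0) (nat_lit 0) (XT.lf (nat_lit 0) (nat_lit 5568815057) (nat_lit 152) (nat_lit 5288908093) (nat_lit 228) (nat_lit 9782320064) (nat_lit 29) (nat_lit 5) (nat_lit 31) (nat_lit 5) (nat_lit 32) (nat_lit 5) (nat_lit 351) (nat_lit 304) (nat_lit 245)) (XT.lf (nat_lit 0) (nat_lit 15585501576) (nat_lit 228) (nat_lit 5232589631) (nat_lit 76) (nat_lit 547221044) (nat_lit 29) (nat_lit 5) (nat_lit 32) (nat_lit 5) (nat_lit 30) (nat_lit 4) (nat_lit 352) (nat_lit 304) (nat_lit 244))))))))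
noncomputable def xc113 : XT := (XT.nd (nat_lit 1794) (nat_lit 608) (nat_lit 0) (XT.nd (nat_lit 858) (nat_lit 456) (nat_lit 0) (XT.nd (nat_lit 390) (nat_lit 304) (nat_lit 0) (XT.nd (nat_lit 156) (nat_lit 228) (nat_lit 0) (XT.nd (nat_lit 78) (nat_lit 76) (nat_lit 0) (XT.lf (nat_lit 0) (nat_lit 5126013194) (nat_lit 76) (nat_lit 15561320195) (nat_lit 152) (nat_lit 1432646730) (nat_lit 28) (nat_lit 5) (nat_lit 29) (nat_lit 5) (nat_lit 30) (nat_lit 4) (nat_lit 353) (nat_lit 304) (nat_lit 243)) (XT.lf (nat_lit 0) (nat_lit 3092777755) (nat_lit 152) (nat_lit 6823597147) (nat_lit 76) (nat_lit 12990521387) (nat_lit 27) (nat_lit 5) (nat_lit 29) (nat_lit 5) (nat_lit 28) (nat_lit 5) (nat_lit 354) (nat_lit 304) (nat_lit 242))) (XT.nd (nat_lit 78) (nat_lit 76) (nat_lit 0) (XT.lf (nat_lit 0) (nat_lit 3909794013) (nat_lit 152) (nat_lit 3920026207) (nat_lit 228) (nat_lit 15900505165) (nat_lit 25) (nat_lit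 5) (nat_lit 27) (nat_lit 5) (nat_lit 28) (nat_lit 5) (nat_lit 355) (nat_lit 304) (nat_lit 241)) (XT.nd (nat_lit 78) (nat_lit 76) (nat_lit 0) (XT.lf (nat_lit 0) (nat_lit 12931002951) (nat_lit 228) (nat_lit 9258834481) (nat_lit 76) (nat_lit 2398739400) (nat_lit 25) (nat_lit 5) (nat_lit 28) (nat_lit 5) (nat_lit 26) (nat_lit 4) (nat_lit 356) (nat_lit 304) (nat_lit 240)) (XT.lf (nat_lit 0) (nat_lit 1778415833) (nat_lit 76) (nat_lit 16574890695) (nat_lit 152) (nat_lit 7133145813) (nat_lit 24) (nat_lit 5) (nat_lit 25) (nat_lit 5) (nat_lit 26) (nat_lit 4) (nat_lit 357) (nat_lit 304) (nat_lit 239))))) (XT.nd (nat_lit 234) (nat_lit 76) (nat_lit 0) (XT.nd (nat_lit 78) (nat_lit 228) (nat_lit 0) (XT.lf (nat_lit 0) (nat_lit 13644514238) (nat_lit 76) (nat_lit 10533589199) (nat_lit 152) (nat_lit 2244563164) (nat_lit 24) (nat_lit 5) (nat_lit 25) (nat_lit 5) (nat_lit 26) (nat_lit 4) (nat_lit 358) (nat_lit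 304) (nat_lit 238)) (XT.nd (nat_lit 78) (nat_lit 152) (nat_lit 0) (XT.lf (nat_lit 0) (nat_lit 2771376483) (nat_lit 152) (nat_lit 1390040648) (nat_lit 76) (nat_lit 23243263382) (nat_lit 23) (nat_lit 5) (nat_lit 25) (nat_lit 5) (nat_lit 24) (nat_lit 5) (nat_lit 359) (nat_lit 304) (nat_lit 237)) (XT.lf (nat_lit 0) (nat_lit 8151007896) (nat_lit 228) (nat_lit 17632873169) (nat_lit 76) (nat_lit 2640669899) (nat_lit 21) (nat_lit 5) (nat_lit 24) (nat_lit 5) (nat_lit 22) (nat_lit 4) (nat_lit 360) (nat_lit 304) (nat_lit 236)))) (XT.nd (nat_lit 78) (nat_lit 76) (nat_lit 0) (XT.lf (nat_lit 0) (nat_lit 13868528761) (nat_lit 228) (nat_lit 5973440277) (nat_lit 76) (nat_lit 9650011927) (nat_lit 21) (nat_lit 5) (nat_lit 24) (nat_lit 5) (nat_lit 22) (nat_lit 4) (nat_lit 361) (nat_lit 304) (nat_lit 235)) (XT.nd (nat_lit 78) (nat_lit 0) (nat_lit 0) (XT.lf (nat_lit 0) (nat_lit 6435573515) (nat_lit 76) (nat_lit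 13514697110) (nat_lit 152) (nat_lit 10658605469) (nat_lit 20) (nat_lit 5) (nat_lit 21) (nat_lit 5) (nat_lit 22) (nat_lit 4) (nat_lit 362) (nat_lit 304) (nat_lit 234)) (XT.lf (nat_lit 0) (nat_lit 19633688056) (nat_lit 76) (nat_lit 6781891418) (nat_lit 152) (nat_lit 5362072870) (nat_lit 20) (nat_lit 5) (nat_lit 21) (nat_lit 5) (nat_lit 22) (nat_lit 4) (nat_lit 363) (nat_lit 304) (nat_lit 233)))))) (XT.nd (nat_lit 468) (nat_lit 228) (nat_lit 0) (XT.nd (nat_lit 234) (nat_lit 76) (nat_lit 0) (XT.nd (nat_lit 78) (nat_lit 0) (nat_lit 0) (XT.lf (nat_lit 0) (nat_lit 183504342) (nat_lit 152) (nat_lit 32548923545) (nat_lit 76) (nat_lit 272763525) (nat_lit 18) (nat_lit 5) (nat_lit 20) (nat_lit 5) (nat_lit 19) (nat_lit 4) (nat_lit 364) (nat_lit 304) (nat_lit 232)) (XT.nd (nat_lit 78) (nat_lit 0) (nat_lit 0) (XT.lf (nat_lit 0) (nat_lit 6125541090) (nat_lit 152) (nat_lit 20415923224) (nat_lit 76) (nat_lit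 7733287851) (nat_lit 18) (nat_lit 5) (nat_lit 20) (nat_lit 5) (nat_lit 19) (nat_lit 4) (nat_lit 365) (nat_lit 304) (nat_lit 231)) (XT.lf (nat_lit 0) (nat_lit 12344839186) (nat_lit 152) (nat_lit 7712243091) (nat_lit 76) (nat_lit 15551709225) (nat_lit 18) (nat_lit 5) (nat_lit 20) (nat_lit 5) (nat_lit 19) (nat_lit 4) (nat_lit 366) (nat_lit 304) (nat_lit 230)))) (XT.nd (nat_lit 78) (nat_lit 0) (nat_lit 0) (XT.lf (nat_lit 0) (nat_lit 5777272510) (nat_lit 76) (nat_lit 13169133387) (nat_lit 152) (nat_lit 18059569840) (nat_lit 17) (nat_lit 5) (nat_lit 18) (nat_lit 5) (nat_lit 19) (nat_lit 4) (nat_lit 367) (nat_lit 304) (nat_lit 229)) (XT.nd (nat_lit 78) (nat_lit 0) (nat_lit 0) (XT.lf (nat_lit 0) (nat_lit 20175310758) (nat_lit 76) (nat_lit 5814828620) (nat_lit 152) (nat_lit 12477283114) (nat_lit 17) (nat_lit 5) (nat_lit 18) (nat_lit 5) (nat_lit 19) (nat_lit 4) (nat_lit 368) (nat_lit 304) (nat_lit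 228)) (XT.lf (nat_lit 0) (nat_lit 33397970251) (nat_lit 152) (nat_lit 4771230691) (nat_lit 0) (nat_lit 1832152469) (nat_lit 17) (nat_lit 5) (nat_lit 19) (nat_lit 4) (nat_lit 17) (nat_lit 4) (nat_lit 369) (nat_lit 304) (nat_lit 227))))) (XT.nd (nat_lit 234) (nat_lit 76) (nat_lit 0) (XT.nd (nat_lit 78) (nat_lit 76) (nat_lit 0) (XT.lf (nat_lit 0) (nat_lit 9606638512) (nat_lit 76) (nat_lit 31797850634) (nat_lit 76) (nat_lit 196083916) (nat_lit 16) (nat_lit 4) (nat_lit 17) (nat_lit 5) (nat_lit 17) (nat_lit 4) (nat_lit 370) (nat_lit 304) (nat_lit 226)) (XT.nd (nat_lit 78) (nat_lit 0) (nat_lit 0) (XT.lf (nat_lit 0) (nat_lit 6387692499) (nat_lit 152) (nat_lit 18541234175) (nat_lit 76) (nat_lit 18342476390) (nat_lit 15) (nat_lit 5) (nat_lit 17) (nat_lit 5) (nat_lit 16) (nat_lit 4) (nat_lit 371) (nat_lit 304) (nat_lit 225)) (XT.lf (nat_lit 0) (nat_lit 13277911677) (nat_lit 152) (nat_lit 4448891606)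 (nat_lit 76) (nat_lit 27299624433) (nat_lit 15) (nat_lit 5) (nat_lit 17) (nat_lit 5) (nat_lit 16) (nat_lit 4) (nat_lit 372) (nat_lit 304) (nat_lit 224)))) (XT.nd (nat_lit 78) (nat_lit 0) (nat_lit 0) (XT.lf (nat_lit 0) (nat_lit 10660923916) (nat_lit 76) (nat_lit 10002777792) (nat_lit 152) (nat_lit 26197954664) (nat_lit 14) (nat_lit 5) (nat_lit 15) (nat_lit 5) (nat_lit 16) (nat_lit 4) (nat_lit 373) (nat_lit 304) (nat_lit 223)) (XT.nd (nat_lit 78) (nat_lit 0) (nat_lit 0) (XT.lf (nat_lit 0) (nat_lit 26652782792) (nat_lit 76) (nat_lit 1826252651) (nat_lit 152) (nat_lit 20306603804) (nat_lit 14) (nat_lit 5) (nat_lit 15) (nat_lit 5) (nat_lit 16) (nat_lit 4) (nat_lit 374) (nat_lit 304) (nat_lit 222)) (XT.lf (nat_lit 0) (nat_lit 36776102454) (nat_lit 152) (nat_lit 7494222592) (nat_lit 0) (nat_lit 6530953121) (nat_lit 14) (nat_lit 5) (nat_lit 16) (nat_lit 4) (nat_lit 14) (nat_lit 4) (nat_lit 375)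 (nat_lit 304) (nat_lit 221))))))) (XT.nd (nat_lit 858) (nat_lit 228) (nat_lit 0) (XT.nd (nat_lit 390) (nat_lit 152) (nat_lit 0) (XT.nd (nat_lit 156) (nat_lit 152) (nat_lit 0) (XT.nd (nat_lit 78) (nat_lit 0) (nat_lit 0) (XT.lf (nat_lit 0) (nat_lit 8079171712) (nat_lit 76) (nat_lit 37551059721) (nat_lit 76) (nat_lit 7280362150) (nat_lit 13) (nat_lit 4) (nat_lit 14) (nat_lit 5) (nat_lit 14) (nat_lit 4) (nat_lit 376) (nat_lit 304) (nat_lit 220)) (XT.lf (nat_lit 0) (nat_lit 24666017983) (nat_lit 76) (nat_lit 30374362539) (nat_lit 76) (nat_lit 79333313) (nat_lit 13) (nat_lit 4) (nat_lit 14) (nat_lit 5) (nat_lit 14) (nat_lit 4) (nat_lit 377) (nat_lit 304) (nat_lit 219))) (XT.nd (nat_lit 78) (nat_lit 76) (nat_lit 0) (XT.lf (nat_lit 0) (nat_lit 7229110769) (nat_lit 152) (nat_lit 15498525152) (nat_lit 76) (nat_lit 34706476607) (nat_lit 12) (nat_lit 5) (nat_lit 14) (nat_lit 5) (nat_lit 13) (nat_lit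 4) (nat_lit 378) (nat_lit 304) (nat_lit 218)) (XT.nd (nat_lit 78) (nat_lit 0) (nat_lit 0) (XT.lf (nat_lit 0) (nat_lit 185585740) (nat_lit 76) (nat_lit 14705076454) (nat_lit 152) (nat_lit 44973990473) (nat_lit 11) (nat_lit 5) (nat_lit 12) (nat_lit 5) (nat_lit 13) (nat_lit 4) (nat_lit 379) (nat_lit 304) (nat_lit 217)) (XT.lf (nat_lit 0) (nat_lit 17168896627) (nat_lit 76) (nat_lit 6016560438) (nat_lit 152) (nat_lit 39218758357) (nat_lit 11) (nat_lit 5) (nat_lit 12) (nat_lit 5) (nat_lit 13) (nat_lit 4) (nat_lit 380) (nat_lit 304) (nat_lit 216))))) (XT.nd (nat_lit 234) (nat_lit 76) (nat_lit 0) (XT.nd (nat_lit 78) (nat_lit 76) (nat_lit 0) (XT.lf (nat_lit 0) (nat_lit 31931607855) (nat_lit 152) (nat_lit 30140292629) (nat_lit 0) (nat_lit 2997028740) (nat_lit 11) (nat_lit 5) (nat_lit 13) (nat_lit 4) (nat_lit 11) (nat_lit 4) (nat_lit 381) (nat_lit 304) (nat_lit 215)) (XT.nd (nat_lit 78) (nat_lit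 76) (nat_lit 0) (XT.lf (nat_lit 0) (nat_lit 41202381042) (nat_lit 152) (nat_lit 14410490202) (nat_lit 0) (nat_lit 12249645271) (nat_lit 11) (nat_lit 5) (nat_lit 13) (nat_lit 4) (nat_lit 11) (nat_lit 4) (nat_lit 382) (nat_lit 304) (nat_lit 214)) (XT.lf (nat_lit 0) (nat_lit 2154431013) (nat_lit 76) (nat_lit 48805120218) (nat_lit 76) (nat_lit 19835092394) (nat_lit 10) (nat_lit 4) (nat_lit 11) (nat_lit 5) (nat_lit 11) (nat_lit 4) (nat_lit 383) (nat_lit 304) (nat_lit 213)))) (XT.nd (nat_lit 78) (nat_lit 76) (nat_lit 0) (XT.lf (nat_lit 0) (nat_lit 20027899239) (nat_lit 76) (nat_lit 41410151973) (nat_lit 76) (nat_lit 12423655527) (nat_lit 10) (nat_lit 4) (nat_lit 11) (nat_lit 5) (nat_lit 11) (nat_lit 4) (nat_lit 384) (nat_lit 304) (nat_lit 212)) (XT.nd (nat_lit 78) (nat_lit 76) (nat_lit 0) (XT.lf (nat_lit 0) (nat_lit 38775994465) (nat_lit 76) (nat_lit 33654408067) (nat_lit 76) (nat_lit 4652227219)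 (nat_lit 10) (nat_lit 4) (nat_lit 11) (nat_lit 5) (nat_lit 11) (nat_lit 4) (nat_lit 385) (nat_lit 304) (nat_lit 211)) (XT.lf (nat_lit 0) (nat_lit 3385747817) (nat_lit 152) (nat_lit 22076335347) (nat_lit 76) (nat_lit 55000267919) (nat_lit 9) (nat_lit 5) (nat_lit 11) (nat_lit 5) (nat_lit 10) (nat_lit 4) (nat_lit 386) (nat_lit 304) (nat_lit 210)))))) (XT.nd (nat_lit 468) (nat_lit 152) (nat_lit 0) (XT.nd (nat_lit 234) (nat_lit 0) (nat_lit 0) (XT.nd (nat_lit 78) (nat_lit 76) (nat_lit 0) (XT.lf (nat_lit 0) (nat_lit 11659986684) (nat_lit 152) (nat_lit 5128371885) (nat_lit 76) (nat_lit 67219353733) (nat_lit 9) (nat_lit 5) (nat_lit 11) (nat_lit 5) (nat_lit 10) (nat_lit 4) (nat_lit 387) (nat_lit 304) (nat_lit 209)) (XT.nd (nat_lit 78) (nat_lit 0) (nat_lit 0) (XT.lf (nat_lit 0) (nat_lit 13068515819) (nat_lit 76) (nat_lit 7474610611) (nat_lit 152) (nat_lit 67177458222) (nat_lit 8) (nat_lit 5) (nat_lit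 9) (nat_lit 5) (nat_lit 10) (nat_lit 4) (nat_lit 388) (nat_lit 304) (nat_lit 208)) (XT.lf (nat_lit 0) (nat_lit 29985878304) (nat_lit 152) (nat_lit 59315665994) (nat_lit 0) (nat_lit 2311785960) (nat_lit 8) (nat_lit 5) (nat_lit 10) (nat_lit 4) (nat_lit 8) (nat_lit 4) (nat_lit 389) (nat_lit 304) (nat_lit 207)))) (XT.nd (nat_lit 78) (nat_lit 0) (nat_lit 0) (XT.lf (nat_lit 0) (nat_lit 40014916763) (nat_lit 152) (nat_lit 43350970738) (nat_lit 0) (nat_lit 12329120478) (nat_lit 8) (nat_lit 5) (nat_lit 10) (nat_lit 4) (nat_lit 8) (nat_lit 4) (nat_lit 390) (nat_lit 304) (nat_lit 206)) (XT.nd (nat_lit 78) (nat_lit 0) (nat_lit 0) (XT.lf (nat_lit 0) (nat_lit 50537420853) (nat_lit 152) (nat_lit 26603272265) (nat_lit 0) (nat_lit 22840477956) (nat_lit 8) (nat_lit 5) (nat_lit 10) (nat_lit 4) (nat_lit 8) (nat_lit 4) (nat_lit 391) (nat_lit 304) (nat_lit 205)) (XT.lf (nat_lit 0) (nat_lit 61578444154) (nat_lit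 152) (nat_lit 9032695103) (nat_lit 0) (nat_lit 33870885436) (nat_lit 8) (nat_lit 5) (nat_lit 10) (nat_lit 4) (nat_lit 8) (nat_lit 4) (nat_lit 392) (nat_lit 304) (nat_lit 204))))) (XT.nd (nat_lit 234) (nat_lit 76) (nat_lit 0) (XT.nd (nat_lit 78) (nat_lit 0) (nat_lit 0) (XT.lf (nat_lit 0) (nat_lit 9713487723) (nat_lit 76) (nat_lit 63602441859) (nat_lit 76) (nat_lit 35884772836) (nat_lit 7) (nat_lit 4) (nat_lit 8) (nat_lit 5) (nat_lit 8) (nat_lit 4) (nat_lit 393) (nat_lit 304) (nat_lit 203)) (XT.nd (nat_lit 78) (nat_lit 0) (nat_lit 0) (XT.lf (nat_lit 0) (nat_lit 29696981837) (nat_lit 76) (nat_lit 56089169428) (nat_lit 76) (nat_lit 28361871543) (nat_lit 7) (nat_lit 4) (nat_lit 8) (nat_lit 5) (nat_lit 8) (nat_lit 4) (nat_lit 394) (nat_lit 304) (nat_lit 202)) (XT.lf (nat_lit 0) (nat_lit 50666705293) (nat_lit 76) (nat_lit 48206406282) (nat_lit 76) (nat_lit 20469938052) (nat_lit 7) (nat_lit 4)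 (nat_lit 8) (nat_lit 5) (nat_lit 8) (nat_lit 4) (nat_lit 395) (nat_lit 304) (nat_lit 201)))) (XT.nd (nat_lit 78) (nat_lit 76) (nat_lit 0) (XT.lf (nat_lit 0) (nat_lit 72672586004) (nat_lit 76) (nat_lit 39935383939) (nat_lit 76) (nat_lit 12190182047) (nat_lit 7) (nat_lit 4) (nat_lit 8) (nat_lit 5) (nat_lit 8) (nat_lit 4) (nat_lit 396) (nat_lit 304) (nat_lit 200)) (XT.nd (nat_lit 78) (nat_lit 76) (nat_lit 0) (XT.lf (nat_lit 0) (nat_lit 95767018924) (nat_lit 76) (nat_lit 31256409487) (nat_lit 76) (nat_lit 3502889822) (nat_lit 7) (nat_lit 4) (nat_lit 8) (nat_lit 5) (nat_lit 8) (nat_lit 4) (nat_lit 397) (nat_lit 304) (nat_lit 199)) (XT.lf (nat_lit 0) (nat_lit 5432983674) (nat_lit 152) (nat_lit 16623824821) (nat_lit 76) (nat_lit 114479996916) (nat_lit 6) (nat_lit 5) (nat_lit 8) (nat_lit 5) (nat_lit 7) (nat_lit 4) (nat_lit 398) (nat_lit 304) (nat_lit 198))))))))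
noncomputable def xc114 : XT := (XT.nd (nat_lit 1794) (nat_lit 0) (nat_lit 0) (XT.nd (nat_lit 858) (nat_lit 152) (nat_lit 0) (XT.nd (nat_lit 390) (nat_lit 76) (nat_lit 0) (XT.nd (nat_lit 156) (nat_lit 0) (nat_lit 0) (XT.nd (nat_lit 78) (nat_lit 0) (nat_lit 0) (XT.lf (nat_lit 0) (nat_lit 2427866997) (nat_lit 76) (nat_lit 12302305108) (nat_lit 152) (nat_lit 128113162956) (nat_lit 5) (nat_lit 5) (nat_lit 6) (nat_lit 5) (nat_lit 7) (nat_lit 4) (nat_lit 399) (nat_lit 304) (nat_lit 197)) (XT.lf (nat_lit 0) (nat_lit 22998621011) (nat_lit 76) (nat_lit 1769570225) (nat_lit 152) (nat_lit 124683202729) (nat_lit 5) (nat_lit 5) (nat_lit 6) (nat_lit 5) (nat_lit 7) (nat_lit 4) (nat_lit 400) (nat_lit 304) (nat_lit 196))) (XT.nd (nat_lit 78) (nat_lit 0) (nat_lit 0) (XT.lf (nat_lit 0) (nat_lit 35447778865) (nat_lit 152) (nat_lit 111947329384) (nat_lit 0) (nat_lit 8987765458) (nat_lit 5) (nat_lit 5) (nat_lit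 7) (nat_lit 4) (nat_lit 5) (nat_lit 4) (nat_lit 401) (nat_lit 304) (nat_lit 195)) (XT.nd (nat_lit 78) (nat_lit 0) (nat_lit 0) (XT.lf (nat_lit 0) (nat_lit 46685238752) (nat_lit 152) (nat_lit 96755476756) (nat_lit 0) (nat_lit 20219018495) (nat_lit 5) (nat_lit 5) (nat_lit 7) (nat_lit 4) (nat_lit 5) (nat_lit 4) (nat_lit 402) (nat_lit 304) (nat_lit 194)) (XT.lf (nat_lit 0) (nat_lit 58479698805) (nat_lit 152) (nat_lit 80813416042) (nat_lit 0) (nat_lit 32007567262) (nat_lit 5) (nat_lit 5) (nat_lit 7) (nat_lit 4) (nat_lit 5) (nat_lit 4) (nat_lit 403) (nat_lit 304) (nat_lit 193))))) (XT.nd (nat_lit 234) (nat_lit 76) (nat_lit 0) (XT.nd (nat_lit 78) (nat_lit 0) (nat_lit 0) (XT.lf (nat_lit 0) (nat_lit 70859241072) (nat_lit 152) (nat_lit 64083189953) (nat_lit 0) (nat_lit 44381479732) (nat_lit 5) (nat_lit 5) (nat_lit 7) (nat_lit 4) (nat_lit 5) (nat_lit 4) (nat_lit 404) (nat_lit 304) (nat_lit 192)) (XT.nd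 (nat_lit 78) (nat_lit 0) (nat_lit 0) (XT.lf (nat_lit 0) (nat_lit 83853340652) (nat_lit 152) (nat_lit 46524964620) (nat_lit 0) (nat_lit 57370217602) (nat_lit 5) (nat_lit 5) (nat_lit 7) (nat_lit 4) (nat_lit 5) (nat_lit 4) (nat_lit 405) (nat_lit 304) (nat_lit 191)) (XT.lf (nat_lit 0) (nat_lit 97492935879) (nat_lit 152) (nat_lit 28096934743) (nat_lit 0) (nat_lit 71004706437) (nat_lit 5) (nat_lit 5) (nat_lit 7) (nat_lit 4) (nat_lit 5) (nat_lit 4) (nat_lit 406) (nat_lit 304) (nat_lit 190)))) (XT.nd (nat_lit 78) (nat_lit 76) (nat_lit 0) (XT.lf (nat_lit 0) (nat_lit 111810501978) (nat_lit 152) (nat_lit 8755224060) (nat_lit 0) (nat_lit 85317409307) (nat_lit 5) (nat_lit 5) (nat_lit 7) (nat_lit 4) (nat_lit 5) (nat_lit 4) (nat_lit 407) (nat_lit 304) (nat_lit 189)) (XT.nd (nat_lit 78) (nat_lit 0) (nat_lit 0) (XT.lf (nat_lit 0) (nat_lit 11927989267) (nat_lit 76) (nat_lit 115098368467) (nat_lit 76) (nat_lit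 88600644148) (nat_lit 4) (nat_lit 4) (nat_lit 5) (nat_lit 5) (nat_lit 5) (nat_lit 4) (nat_lit 408) (nat_lit 304) (nat_lit 188)) (XT.lf (nat_lit 0) (nat_lit 33942090432) (nat_lit 76) (nat_lit 109205440672) (nat_lit 76) (nat_lit 82703305261) (nat_lit 4) (nat_lit 4) (nat_lit 5) (nat_lit 5) (nat_lit 5) (nat_lit 4) (nat_lit 409) (nat_lit 304) (nat_lit 187)))))) (XT.nd (nat_lit 468) (nat_lit 152) (nat_lit 0) (XT.nd (nat_lit 234) (nat_lit 0) (nat_lit 0) (XT.nd (nat_lit 78) (nat_lit 0) (nat_lit 0) (XT.lf (nat_lit 0) (nat_lit 57050006713) (nat_lit 76) (nat_lit 103021185830) (nat_lit 76) (nat_lit 76514849378) (nat_lit 4) (nat_lit 4) (nat_lit 5) (nat_lit 5) (nat_lit 5) (nat_lit 4) (nat_lit 410) (nat_lit 304) (nat_lit 186)) (XT.nd (nat_lit 78) (nat_lit 0) (nat_lit 0) (XT.lf (nat_lit 0) (nat_lit 81306756958) (nat_lit 76) (nat_lit 96530879524) (nat_lit 76) (nat_lit 70020542081) (nat_lit 4) (nat_lit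 4) (nat_lit 5) (nat_lit 5) (nat_lit 5) (nat_lit 4) (nat_lit 411) (nat_lit 304) (nat_lit 185)) (XT.lf (nat_lit 0) (nat_lit 106770095335) (nat_lit 76) (nat_lit 89719068645) (nat_lit 76) (nat_lit 63204920734) (nat_lit 4) (nat_lit 4) (nat_lit 5) (nat_lit 5) (nat_lit 5) (nat_lit 4) (nat_lit 412) (nat_lit 304) (nat_lit 184)))) (XT.nd (nat_lit 78) (nat_lit 0) (nat_lit 0) (XT.lf (nat_lit 0) (nat_lit 133500648840) (nat_lit 76) (nat_lit 82569534594) (nat_lit 76) (nat_lit 56051757667) (nat_lit 4) (nat_lit 4) (nat_lit 5) (nat_lit 5) (nat_lit 5) (nat_lit 4) (nat_lit 413) (nat_lit 304) (nat_lit 183)) (XT.nd (nat_lit 78) (nat_lit 0) (nat_lit 0) (XT.lf (nat_lit 0) (nat_lit 161562061647) (nat_lit 76) (nat_lit 75065254672) (nat_lit 76) (nat_lit 48544021538) (nat_lit 4) (nat_lit 4) (nat_lit 5) (nat_lit 5) (nat_lit 5) (nat_lit 4) (nat_lit 414) (nat_lit 304) (nat_lit 182)) (XT.lf (nat_lit 0) (nat_lit 191021146645)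 (nat_lit 76) (nat_lit 67188361546) (nat_lit 76) (nat_lit 40663836786) (nat_lit 4) (nat_lit 4) (nat_lit 5) (nat_lit 5) (nat_lit 5) (nat_lit 4) (nat_lit 415) (nat_lit 304) (nat_lit 181))))) (XT.nd (nat_lit 234) (nat_lit 152) (nat_lit 0) (XT.nd (nat_lit 78) (nat_lit 0) (nat_lit 0) (XT.lf (nat_lit 0) (nat_lit 221948044512) (nat_lit 76) (nat_lit 58920100708) (nat_lit 76) (nat_lit 32392441067) (nat_lit 4) (nat_lit 4) (nat_lit 5) (nat_lit 5) (nat_lit 5) (nat_lit 4) (nat_lit 416) (nat_lit 304) (nat_lit 180)) (XT.nd (nat_lit 78) (nat_lit 0) (nat_lit 0) (XT.lf (nat_lit 0) (nat_lit 254416390718) (nat_lit 76) (nat_lit 50240785822) (nat_lit 76) (nat_lit 23710140580) (nat_lit 4) (nat_lit 4) (nat_lit 5) (nat_lit 5) (nat_lit 5) (nat_lit 4) (nat_lit 417) (nat_lit 304) (nat_lit 179)) (XT.lf (nat_lit 0) (nat_lit 288503490851) (nat_lit 76) (nat_lit 41129751854) (nat_lit 76) (nat_lit 14596263182) (nat_lit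 4) (nat_lit 4) (nat_lit 5) (nat_lit 5) (nat_lit 5) (nat_lit 4) (nat_lit 418) (nat_lit 304) (nat_lit 178)))) (XT.nd (nat_lit 78) (nat_lit 152) (nat_lit 0) (XT.lf (nat_lit 0) (nat_lit 324290504673) (nat_lit 76) (nat_lit 31565305865) (nat_lit 76) (nat_lit 5029109165) (nat_lit 4) (nat_lit 4) (nat_lit 5) (nat_lit 5) (nat_lit 5) (nat_lit 4) (nat_lit 419) (nat_lit 304) (nat_lit 177)) (XT.nd (nat_lit 78) (nat_lit 76) (nat_lit 0) (XT.lf (nat_lit 0) (nat_lit 4853617882) (nat_lit 152) (nat_lit 16588859116) (nat_lit 76) (nat_lit 356926823109) (nat_lit 3) (nat_lit 5) (nat_lit 5) (nat_lit 5) (nat_lit 4) (nat_lit 4) (nat_lit 420) (nat_lit 304) (nat_lit 176)) (XT.lf (nat_lit 0) (nat_lit 4473614755) (nat_lit 76) (nat_lit 10655578801) (nat_lit 152) (nat_lit 381591198043) (nat_lit 2) (nat_lit 5) (nat_lit 3) (nat_lit 5) (nat_lit 4) (nat_lit 4) (nat_lit 421) (nat_lit 304) (nat_lit 175))))))) (XT.nd (nat_lit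 858) (nat_lit 0) (nat_lit 0) (XT.nd (nat_lit 390) (nat_lit 0) (nat_lit 0) (XT.nd (nat_lit 156) (nat_lit 0) (nat_lit 0) (XT.nd (nat_lit 78) (nat_lit 0) (nat_lit 0) (XT.lf (nat_lit 0) (nat_lit 26212450231) (nat_lit 152) (nat_lit 388829034273) (nat_lit 0) (nat_lit 932858486) (nat_lit 2) (nat_lit 5) (nat_lit 4) (nat_lit 4) (nat_lit 2) (nat_lit 4) (nat_lit 422) (nat_lit 304) (nat_lit 174)) (XT.lf (nat_lit 0) (nat_lit 38022537389) (nat_lit 152) (nat_lit 385418997761) (nat_lit 0) (nat_lit 12740823832) (nat_lit 2) (nat_lit 5) (nat_lit 4) (nat_lit 4) (nat_lit 2) (nat_lit 4) (nat_lit 423) (nat_lit 304) (nat_lit 173))) (XT.nd (nat_lit 78) (nat_lit 0) (nat_lit 0) (XT.lf (nat_lit 0) (nat_lit 50421210837) (nat_lit 152) (nat_lit 381842184726) (nat_lit 0) (nat_lit 25137476508) (nat_lit 2) (nat_lit 5) (nat_lit 4) (nat_lit 4) (nat_lit 2) (nat_lit 4) (nat_lit 424) (nat_lit 304) (nat_lit 172)) (XT.nd (nat_lit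 78) (nat_lit 0) (nat_lit 0) (XT.lf (nat_lit 0) (nat_lit 63437991227) (nat_lit 152) (nat_lit 378090078946) (nat_lit 0) (nat_lit 38152332353) (nat_lit 2) (nat_lit 5) (nat_lit 4) (nat_lit 4) (nat_lit 2) (nat_lit 4) (nat_lit 425) (nat_lit 304) (nat_lit 171)) (XT.lf (nat_lit 0) (nat_lit 77103870894) (nat_lit 152) (nat_lit 374153746837) (nat_lit 0) (nat_lit 51816379119) (nat_lit 2) (nat_lit 5) (nat_lit 4) (nat_lit 4) (nat_lit 2) (nat_lit 4) (nat_lit 426) (nat_lit 304) (nat_lit 170))))) (XT.nd (nat_lit 234) (nat_lit 0) (nat_lit 0) (XT.nd (nat_lit 78) (nat_lit 0) (nat_lit 0) (XT.lf (nat_lit 0) (nat_lit 91451387645) (nat_lit 152) (nat_lit 370023816178) (nat_lit 0) (nat_lit 66162150252) (nat_lit 2) (nat_lit 5) (nat_lit 4) (nat_lit 4) (nat_lit 2) (nat_lit 4) (nat_lit 427) (nat_lit 304) (nat_lit 169)) (XT.nd (nat_lit 78) (nat_lit 0) (nat_lit 0) (XT.lf (nat_lit 0) (nat_lit 106514702235) (nat_lit 152)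 (nat_lit 365690453801) (nat_lit 0) (nat_lit 81223802347) (nat_lit 2) (nat_lit 5) (nat_lit 4) (nat_lit 4) (nat_lit 2) (nat_lit 4) (nat_lit 428) (nat_lit 304) (nat_lit 168)) (XT.lf (nat_lit 0) (nat_lit 122329679699) (nat_lit 152) (nat_lit 361143342178) (nat_lit 0) (nat_lit 97037196484) (nat_lit 2) (nat_lit 5) (nat_lit 4) (nat_lit 4) (nat_lit 2) (nat_lit 4) (nat_lit 429) (nat_lit 304) (nat_lit 167)))) (XT.nd (nat_lit 78) (nat_lit 0) (nat_lit 0) (XT.lf (nat_lit 0) (nat_lit 138933974746) (nat_lit 152) (nat_lit 356371654852) (nat_lit 0) (nat_lit 113639983598) (nat_lit 2) (nat_lit 5) (nat_lit 4) (nat_lit 4) (nat_lit 2) (nat_lit 4) (nat_lit 430) (nat_lit 304) (nat_lit 166)) (XT.nd (nat_lit 78) (nat_lit 0) (nat_lit 0) (XT.lf (nat_lit 0) (nat_lit 156367121410) (nat_lit 152) (nat_lit 351364030662) (nat_lit 0) (nat_lit 131071694137) (nat_lit 2) (nat_lit 5) (nat_lit 4) (nat_lit 4) (nat_lit 2) (nat_lit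 4) (nat_lit 431) (nat_lit 304) (nat_lit 165)) (XT.lf (nat_lit 0) (nat_lit 174670627183) (nat_lit 152) (nat_lit 346108546694) (nat_lit 0) (nat_lit 149373832173) (nat_lit 2) (nat_lit 5) (nat_lit 4) (nat_lit 4) (nat_lit 2) (nat_lit 4) (nat_lit 432) (nat_lit 304) (nat_lit 164)))))) (XT.nd (nat_lit 37284) (nat_lit 0) (nat_lit 8512) (XT.nd (nat_lit 37050) (nat_lit 0) (nat_lit 9424) (XT.nd (nat_lit 36894) (nat_lit 0) (nat_lit 9880) (XT.lf (nat_lit 0) (nat_lit 193888071843) (nat_lit 152) (nat_lit 340592689891) (nat_lit 0) (nat_lit 168589974224) (nat_lit 2) (nat_lit 5) (nat_lit 4) (nat_lit 4) (nat_lit 2) (nat_lit 4) (nat_lit 433) (nat_lit 304) (nat_lit 163)) (XT.nd (nat_lit 78) (nat_lit 380) (nat_lit 0) (XT.lf (nat_lit 0) (nat_lit 2997896834) (nat_lit 380) (nat_lit 185216655) (nat_lit 380) (nat_lit 185216655) (nat_lit 137) (nat_lit 3) (nat_lit 142) (nat_lit 3) (nat_lit 142) (nat_lit 5) (nat_lit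 305) (nat_lit 305) (nat_lit 290)) (XT.lf (nat_lit 0) (nat_lit 1326694556) (nat_lit 380) (nat_lit 3922596384) (nat_lit 456) (nat_lit 1549036501) (nat_lit 132) (nat_lit 5) (nat_lit 137) (nat_lit 3) (nat_lit 138) (nat_lit 5) (nat_lit 306) (nat_lit 305) (nat_lit 289)))) (XT.nd (nat_lit 78) (nat_lit 456) (nat_lit 0) (XT.lf (nat_lit 0) (nat_lit 3348983951) (nat_lit 380) (nat_lit 651377912) (nat_lit 456) (nat_lit 2868568677) (nat_lit 132) (nat_lit 5) (nat_lit 137) (nat_lit 3) (nat_lit 138) (nat_lit 5) (nat_lit 307) (nat_lit 305) (nat_lit 288)) (XT.nd (nat_lit 78) (nat_lit 456) (nat_lit 0) (XT.lf (nat_lit 76) (nat_lit 2803187966) (nat_lit 0) (nat_lit 2589033872) (nat_lit 456) (nat_lit 1555109552) (nat_lit 133) (nat_lit 5) (nat_lit 132) (nat_lit 5) (nat_lit 138) (nat_lit 5) (nat_lit 308) (nat_lit 305) (nat_lit 287)) (XT.lf (nat_lit 0) (nat_lit 381627478) (nat_lit 456) (nat_lit 657166739) (nat_lit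 532) (nat_lit 5996200900) (nat_lit 126) (nat_lit 5) (nat_lit 132) (nat_lit 5) (nat_lit 133) (nat_lit 5) (nat_lit 309) (nat_lit 305) (nat_lit 286))))) (XT.nd (nat_lit 234) (nat_lit 988) (nat_lit 0) (XT.nd (nat_lit 78) (nat_lit 0) (nat_lit 0) (XT.lf (nat_lit 0) (nat_lit 2305440191) (nat_lit 456) (nat_lit 4135240387) (nat_lit 532) (nat_lit 688185727) (nat_lit 127) (nat_lit 5) (nat_lit 133) (nat_lit 5) (nat_lit 134) (nat_lit 5) (nat_lit 310) (nat_lit 305) (nat_lit 285)) (XT.nd (nat_lit 78) (nat_lit 0) (nat_lit 0) (XT.lf (nat_lit 0) (nat_lit 4243362867) (nat_lit 456) (nat_lit 469196412) (nat_lit 532) (nat_lit 2519189133) (nat_lit 127) (nat_lit 5) (nat_lit 133) (nat_lit 5) (nat_lit 134) (nat_lit 5) (nat_lit 311) (nat_lit 305) (nat_lit 284)) (XT.lf (nat_lit 76) (nat_lit 3418237055) (nat_lit 0) (nat_lit 2808149098) (nat_lit 532) (nat_lit 1116181414) (nat_lit 128) (nat_lit 5) (nat_lit 127) (nat_lit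 5) (nat_lit 134) (nat_lit 5) (nat_lit 312) (nat_lit 305) (nat_lit 283)))) (XT.nd (nat_lit 78) (nat_lit 456) (nat_lit 0) (XT.lf (nat_lit 0) (nat_lit 727417042) (nat_lit 532) (nat_lit 29354695) (nat_lit 608) (nat_lit 6706428080) (nat_lit 120) (nat_lit 5) (nat_lit 127) (nat_lit 5) (nat_lit 128) (nat_lit 5) (nat_lit 313) (nat_lit 305) (nat_lit 282)) (XT.nd (nat_lit 78) (nat_lit 532) (nat_lit 0) (XT.lf (nat_lit 0) (nat_lit 2615157094) (nat_lit 532) (nat_lit 3511280711) (nat_lit 76) (nat_lit 1463212840) (nat_lit 121) (nat_lit 5) (nat_lit 128) (nat_lit 5) (nat_lit 122) (nat_lit 5) (nat_lit 314) (nat_lit 305) (nat_lit 281)) (XT.lf (nat_lit 0) (nat_lit 602562640) (nat_lit 532) (nat_lit 3922845756) (nat_lit 608) (nat_lit 3200776552) (nat_lit 114) (nat_lit 5) (nat_lit 121) (nat_lit 5) (nat_lit 122) (nat_lit 5) (nat_lit 315) (nat_lit 305) (nat_lit 280))))))))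
noncomputable def xc115 : XT := (XT.nd (nat_lit 1794) (nat_lit 1976) (nat_lit 0) (XT.nd (nat_lit 858) (nat_lit 1900) (nat_lit 0) (XT.nd (nat_lit 390) (nat_lit 1824) (nat_lit 0) (XT.nd (nat_lit 156) (nat_lit 684) (nat_lit 0) (XT.nd (nat_lit 78) (nat_lit 684) (nat_lit 0) (XT.lf (nat_lit 0) (nat_lit 4970792402) (nat_lit 532) (nat_lit 1528992740) (nat_lit 608) (nat_lit 1371489368) (nat_lit 114) (nat_lit 5) (nat_lit 121) (nat_lit 5) (nat_lit 122) (nat_lit 5) (nat_lit 316) (nat_lit 305) (nat_lit 279)) (XT.lf (nat_lit 0) (nat_lit 483153148) (nat_lit 684) (nat_lit 6542218659) (nat_lit 76) (nat_lit 1000388813) (nat_lit 105) (nat_lit 5) (nat_lit 114) (nat_lit 5) (nat_lit 106) (nat_lit 5) (nat_lit 317) (nat_lit 305) (nat_lit 278))) (XT.nd (nat_lit 78) (nat_lit 684) (nat_lit 0) (XT.lf (nat_lit 0) (nat_lit 2374623448) (nat_lit 684) (nat_lit 2122607808) (nat_lit 76) (nat_lit 3690243784) (nat_lit 105)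 (nat_lit 5) (nat_lit 114) (nat_lit 5) (nat_lit 106) (nat_lit 5) (nat_lit 318) (nat_lit 305) (nat_lit 277)) (XT.nd (nat_lit 78) (nat_lit 0) (nat_lit 0) (XT.lf (nat_lit 0) (nat_lit 2526264490) (nat_lit 684) (nat_lit 1793078086) (nat_lit 760) (nat_lit 4040129804) (nat_lit 96) (nat_lit 5) (nat_lit 105) (nat_lit 5) (nat_lit 106) (nat_lit 5) (nat_lit 319) (nat_lit 305) (nat_lit 276)) (XT.lf (nat_lit 0) (nat_lit 6336237736) (nat_lit 760) (nat_lit 1149459163) (nat_lit 76) (nat_lit 1055750411) (nat_lit 96) (nat_lit 5) (nat_lit 106) (nat_lit 5) (nat_lit 97) (nat_lit 5) (nat_lit 320) (nat_lit 305) (nat_lit 275))))) (XT.nd (nat_lit 234) (nat_lit 684) (nat_lit 0) (XT.nd (nat_lit 78) (nat_lit 456) (nat_lit 0) (XT.lf (nat_lit 0) (nat_lit 3788396734) (nat_lit 684) (nat_lit 4679902159) (nat_lit 760) (nat_lit 263624818) (nat_lit 87) (nat_lit 5) (nat_lit 96) (nat_lit 5) (nat_lit 97) (nat_lit 5) (nat_lit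 321) (nat_lit 305) (nat_lit 274)) (XT.nd (nat_lit 78) (nat_lit 380) (nat_lit 0) (XT.lf (nat_lit 0) (nat_lit 1664934507) (nat_lit 760) (nat_lit 19232654) (nat_lit 76) (nat_lit 7249143466) (nat_lit 86) (nat_lit 5) (nat_lit 96) (nat_lit 5) (nat_lit 87) (nat_lit 5) (nat_lit 322) (nat_lit 305) (nat_lit 273)) (XT.lf (nat_lit 0) (nat_lit 3717579311) (nat_lit 456) (nat_lit 3923247795) (nat_lit 76) (nat_lit 1502000456) (nat_lit 81) (nat_lit 5) (nat_lit 87) (nat_lit 5) (nat_lit 82) (nat_lit 5) (nat_lit 323) (nat_lit 305) (nat_lit 272)))) (XT.nd (nat_lit 78) (nat_lit 380) (nat_lit 0) (XT.lf (nat_lit 0) (nat_lit 1300062026) (nat_lit 304) (nat_lit 4553655187) (nat_lit 380) (nat_lit 3510157816) (nat_lit 77) (nat_lit 5) (nat_lit 81) (nat_lit 5) (nat_lit 82) (nat_lit 5) (nat_lit 324) (nat_lit 305) (nat_lit 271)) (XT.nd (nat_lit 78) (nat_lit 380) (nat_lit 0) (XT.lf (nat_lit 0) (nat_lit 6849777125) (nat_lit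 304) (nat_lit 1248050329) (nat_lit 380) (nat_lit 1498182216) (nat_lit 77) (nat_lit 5) (nat_lit 81) (nat_lit 5) (nat_lit 82) (nat_lit 5) (nat_lit 325) (nat_lit 305) (nat_lit 270)) (XT.lf (nat_lit 0) (nat_lit 611426172) (nat_lit 380) (nat_lit 7026726684) (nat_lit 76) (nat_lit 2200368068) (nat_lit 72) (nat_lit 5) (nat_lit 77) (nat_lit 5) (nat_lit 73) (nat_lit 5) (nat_lit 326) (nat_lit 305) (nat_lit 269)))))) (XT.nd (nat_lit 468) (nat_lit 988) (nat_lit 0) (XT.nd (nat_lit 234) (nat_lit 608) (nat_lit 0) (XT.nd (nat_lit 78) (nat_lit 304) (nat_lit 0) (XT.lf (nat_lit 0) (nat_lit 2782451384) (nat_lit 380) (nat_lit 1465220961) (nat_lit 76) (nat_lit 5844023520) (nat_lit 72) (nat_lit 5) (nat_lit 77) (nat_lit 5) (nat_lit 73) (nat_lit 5) (nat_lit 327) (nat_lit 305) (nat_lit 268)) (XT.nd (nat_lit 78) (nat_lit 0) (nat_lit 0) (XT.lf (nat_lit 0) (nat_lit 4448480763) (nat_lit 304) (nat_lit 624480434) (nat_lit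 380) (nat_lit 5284098260) (nat_lit 68) (nat_lit 5) (nat_lit 72) (nat_lit 5) (nat_lit 73) (nat_lit 5) (nat_lit 328) (nat_lit 305) (nat_lit 267)) (XT.lf (nat_lit 0) (nat_lit 7495920458) (nat_lit 380) (nat_lit 45674798) (nat_lit 76) (nat_lit 3093272702) (nat_lit 68) (nat_lit 5) (nat_lit 73) (nat_lit 5) (nat_lit 69) (nat_lit 5) (nat_lit 329) (nat_lit 305) (nat_lit 266)))) (XT.nd (nat_lit 78) (nat_lit 304) (nat_lit 0) (XT.lf (nat_lit 0) (nat_lit 6233054999) (nat_lit 304) (nat_lit 3860293370) (nat_lit 380) (nat_lit 830621931) (nat_lit 64) (nat_lit 5) (nat_lit 68) (nat_lit 5) (nat_lit 69) (nat_lit 5) (nat_lit 330) (nat_lit 305) (nat_lit 265)) (XT.nd (nat_lit 78) (nat_lit 0) (nat_lit 0) (XT.lf (nat_lit 0) (nat_lit 1514316404) (nat_lit 304) (nat_lit 9671015958) (nat_lit 76) (nat_lit 42405427) (nat_lit 60) (nat_lit 5) (nat_lit 64) (nat_lit 5) (nat_lit 61) (nat_lit 5) (nat_lit 331) (nat_lit 305)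 (nat_lit 264)) (XT.lf (nat_lit 0) (nat_lit 4040312887) (nat_lit 304) (nat_lit 3410021989) (nat_lit 76) (nat_lit 4091151655) (nat_lit 60) (nat_lit 5) (nat_lit 64) (nat_lit 5) (nat_lit 61) (nat_lit 5) (nat_lit 332) (nat_lit 305) (nat_lit 263))))) (XT.nd (nat_lit 234) (nat_lit 456) (nat_lit 0) (XT.nd (nat_lit 78) (nat_lit 228) (nat_lit 0) (XT.lf (nat_lit 0) (nat_lit 3201049837) (nat_lit 304) (nat_lit 3491724154) (nat_lit 380) (nat_lit 5178197618) (nat_lit 56) (nat_lit 5) (nat_lit 60) (nat_lit 5) (nat_lit 61) (nat_lit 5) (nat_lit 333) (nat_lit 305) (nat_lit 262)) (XT.nd (nat_lit 78) (nat_lit 228) (nat_lit 0) (XT.lf (nat_lit 0) (nat_lit 9498240750) (nat_lit 380) (nat_lit 2030904533) (nat_lit 76) (nat_lit 686820946) (nat_lit 56) (nat_lit 5) (nat_lit 61) (nat_lit 5) (nat_lit 57) (nat_lit 5) (nat_lit 334) (nat_lit 305) (nat_lit 261)) (XT.lf (nat_lit 0) (nat_lit 4978746262) (nat_lit 228) (nat_lit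 7553832754) (nat_lit 304) (nat_lit 41253482) (nat_lit 53) (nat_lit 5) (nat_lit 56) (nat_lit 5) (nat_lit 57) (nat_lit 5) (nat_lit 335) (nat_lit 305) (nat_lit 260)))) (XT.nd (nat_lit 78) (nat_lit 380) (nat_lit 0) (XT.lf (nat_lit 0) (nat_lit 2669444528) (nat_lit 304) (nat_lit 646250213) (nat_lit 76) (nat_lit 9632331271) (nat_lit 52) (nat_lit 5) (nat_lit 56) (nat_lit 5) (nat_lit 53) (nat_lit 5) (nat_lit 336) (nat_lit 305) (nat_lit 259)) (XT.nd (nat_lit 78) (nat_lit 152) (nat_lit 0) (XT.lf (nat_lit 0) (nat_lit 5596009253) (nat_lit 304) (nat_lit 6550738123) (nat_lit 76) (nat_lit 1190106870) (nat_lit 49) (nat_lit 5) (nat_lit 53) (nat_lit 5) (nat_lit 50) (nat_lit 5) (nat_lit 337) (nat_lit 305) (nat_lit 258)) (XT.lf (nat_lit 0) (nat_lit 776433838) (nat_lit 152) (nat_lit 7927204572) (nat_lit 228) (nat_lit 5039791309) (nat_lit 47) (nat_lit 5) (nat_lit 49) (nat_lit 5) (nat_lit 50) (nat_lit 5) (nat_lit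 338) (nat_lit 305) (nat_lit 257))))))) (XT.nd (nat_lit 858) (nat_lit 988) (nat_lit 0) (XT.nd (nat_lit 390) (nat_lit 532) (nat_lit 0) (XT.nd (nat_lit 156) (nat_lit 152) (nat_lit 0) (XT.nd (nat_lit 78) (nat_lit 304) (nat_lit 0) (XT.lf (nat_lit 0) (nat_lit 8636546408) (nat_lit 152) (nat_lit 3399268063) (nat_lit 228) (nat_lit 2131101830) (nat_lit 47) (nat_lit 5) (nat_lit 49) (nat_lit 5) (nat_lit 50) (nat_lit 5) (nat_lit 339) (nat_lit 305) (nat_lit 256)) (XT.lf (nat_lit 0) (nat_lit 910240077) (nat_lit 304) (nat_lit 12355580981) (nat_lit 76) (nat_lit 1344234417) (nat_lit 43) (nat_lit 5) (nat_lit 47) (nat_lit 5) (nat_lit 44) (nat_lit 5) (nat_lit 340) (nat_lit 305) (nat_lit 255))) (XT.nd (nat_lit 78) (nat_lit 152) (nat_lit 0) (XT.lf (nat_lit 0) (nat_lit 4143196747) (nat_lit 304) (nat_lit 4602381355) (nat_lit 76) (nat_lit 6322503448) (nat_lit 43) (nat_lit 5) (nat_lit 47) (nat_lit 5) (nat_lit 44)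 (nat_lit 5) (nat_lit 341) (nat_lit 305) (nat_lit 254)) (XT.nd (nat_lit 78) (nat_lit 0) (nat_lit 0) (XT.lf (nat_lit 0) (nat_lit 3596366756) (nat_lit 152) (nat_lit 3959722965) (nat_lit 228) (nat_lit 7992038190) (nat_lit 41) (nat_lit 5) (nat_lit 43) (nat_lit 5) (nat_lit 44) (nat_lit 5) (nat_lit 342) (nat_lit 305) (nat_lit 253)) (XT.lf (nat_lit 0) (nat_lit 11198243789) (nat_lit 228) (nat_lit 3759226140) (nat_lit 76) (nat_lit 1091807656) (nat_lit 41) (nat_lit 5) (nat_lit 44) (nat_lit 5) (nat_lit 42) (nat_lit 5) (nat_lit 343) (nat_lit 305) (nat_lit 252))))) (XT.nd (nat_lit 234) (nat_lit 152) (nat_lit 0) (XT.nd (nat_lit 78) (nat_lit 228) (nat_lit 0) (XT.lf (nat_lit 0) (nat_lit 4879067273) (nat_lit 152) (nat_lit 10249061840) (nat_lit 228) (nat_lit 1442104754) (nat_lit 39) (nat_lit 5) (nat_lit 41) (nat_lit 5) (nat_lit 42) (nat_lit 5) (nat_lit 344) (nat_lit 305) (nat_lit 251)) (XT.nd (nat_lit 78)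 (nat_lit 152) (nat_lit 0) (XT.lf (nat_lit 0) (nat_lit 2098353555) (nat_lit 228) (nat_lit 3124098524) (nat_lit 76) (nat_lit 11891670488) (nat_lit 38) (nat_lit 5) (nat_lit 41) (nat_lit 5) (nat_lit 39) (nat_lit 5) (nat_lit 345) (nat_lit 305) (nat_lit 250)) (XT.lf (nat_lit 0) (nat_lit 5829780476) (nat_lit 228) (nat_lit 11697031392) (nat_lit 76) (nat_lit 154117464) (nat_lit 36) (nat_lit 5) (nat_lit 39) (nat_lit 5) (nat_lit 37) (nat_lit 5) (nat_lit 346) (nat_lit 305) (nat_lit 249)))) (XT.nd (nat_lit 78) (nat_lit 152) (nat_lit 0) (XT.lf (nat_lit 0) (nat_lit 9854113271) (nat_lit 228) (nat_lit 2757448091) (nat_lit 76) (nat_lit 5659223276) (nat_lit 36) (nat_lit 5) (nat_lit 39) (nat_lit 5) (nat_lit 37) (nat_lit 5) (nat_lit 347) (nat_lit 305) (nat_lit 248)) (XT.nd (nat_lit 78) (nat_lit 0) (nat_lit 0) (XT.lf (nat_lit 0) (nat_lit 6795870754) (nat_lit 152) (nat_lit 7358413677) (nat_lit 228) (nat_lit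 4732140933) (nat_lit 34) (nat_lit 5) (nat_lit 36) (nat_lit 5) (nat_lit 37) (nat_lit 5) (nat_lit 348) (nat_lit 305) (nat_lit 247)) (XT.lf (nat_lit 0) (nat_lit 16872652600) (nat_lit 152) (nat_lit 1812748865) (nat_lit 228) (nat_lit 846672410) (nat_lit 34) (nat_lit 5) (nat_lit 36) (nat_lit 5) (nat_lit 37) (nat_lit 5) (nat_lit 349) (nat_lit 305) (nat_lit 246)))))) (XT.nd (nat_lit 468) (nat_lit 456) (nat_lit 0) (XT.nd (nat_lit 234) (nat_lit 152) (nat_lit 0) (XT.nd (nat_lit 78) (nat_lit 152) (nat_lit 0) (XT.lf (nat_lit 0) (nat_lit 3280056887) (nat_lit 228) (nat_lit 12887815134) (nat_lit 76) (nat_lit 4032106146) (nat_lit 31) (nat_lit 5) (nat_lit 34) (nat_lit 5) (nat_lit 32) (nat_lit 5) (nat_lit 350) (nat_lit 305) (nat_lit 245)) (XT.nd (nat_lit 78) (nat_lit 152) (nat_lit 0) (XT.lf (nat_lit 0) (nat_lit 7630747031) (nat_lit 228) (nat_lit 3117669922) (nat_lit 76) (nat_lit 10149882355) (nat_lit 31)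 (nat_lit 5) (nat_lit 34) (nat_lit 5) (nat_lit 32) (nat_lit 5) (nat_lit 351) (nat_lit 305) (nat_lit 244)) (XT.lf (nat_lit 0) (nat_lit 7328921002) (nat_lit 152) (nat_lit 4956460444) (nat_lit 228) (nat_lit 9341853173) (nat_lit 29) (nat_lit 5) (nat_lit 31) (nat_lit 5) (nat_lit 32) (nat_lit 5) (nat_lit 352) (nat_lit 305) (nat_lit 243)))) (XT.nd (nat_lit 78) (nat_lit 152) (nat_lit 0) (XT.lf (nat_lit 0) (nat_lit 17216292190) (nat_lit 228) (nat_lit 4049307900) (nat_lit 76) (nat_lit 1124857094) (nat_lit 29) (nat_lit 5) (nat_lit 32) (nat_lit 5) (nat_lit 30) (nat_lit 4) (nat_lit 353) (nat_lit 305) (nat_lit 242)) (XT.nd (nat_lit 78) (nat_lit 76) (nat_lit 0) (XT.lf (nat_lit 0) (nat_lit 6803920047) (nat_lit 76) (nat_lit 15750942444) (nat_lit 152) (nat_lit 628939556) (nat_lit 28) (nat_lit 5) (nat_lit 29) (nat_lit 5) (nat_lit 30) (nat_lit 4) (nat_lit 354) (nat_lit 305) (nat_lit 241)) (XT.lf (nat_lit 0)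 (nat_lit 4054391099) (nat_lit 152) (nat_lit 5783713417) (nat_lit 76) (nat_lit 14173317158) (nat_lit 27) (nat_lit 5) (nat_lit 29) (nat_lit 5) (nat_lit 28) (nat_lit 5) (nat_lit 355) (nat_lit 305) (nat_lit 240))))) (XT.nd (nat_lit 234) (nat_lit 228) (nat_lit 0) (XT.nd (nat_lit 78) (nat_lit 76) (nat_lit 0) (XT.lf (nat_lit 0) (nat_lit 5464072082) (nat_lit 152) (nat_lit 3547000744) (nat_lit 228) (nat_lit 15865832455) (nat_lit 25) (nat_lit 5) (nat_lit 27) (nat_lit 5) (nat_lit 28) (nat_lit 5) (nat_lit 356) (nat_lit 305) (nat_lit 239)) (XT.nd (nat_lit 78) (nat_lit 76) (nat_lit 0) (XT.lf (nat_lit 0) (nat_lit 14338168049) (nat_lit 228) (nat_lit 8398118454) (nat_lit 76) (nat_lit 3043261477) (nat_lit 25) (nat_lit 5) (nat_lit 28) (nat_lit 5) (nat_lit 26) (nat_lit 4) (nat_lit 357) (nat_lit 305) (nat_lit 238)) (XT.lf (nat_lit 0) (nat_lit 3169645058) (nat_lit 76) (nat_lit 16846054673) (nat_lit 152) (nat_lit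 6707432220) (nat_lit 24) (nat_lit 5) (nat_lit 25) (nat_lit 5) (nat_lit 26) (nat_lit 4) (nat_lit 358) (nat_lit 305) (nat_lit 237)))) (XT.nd (nat_lit 78) (nat_lit 228) (nat_lit 0) (XT.lf (nat_lit 0) (nat_lit 15567033696) (nat_lit 76) (nat_lit 10529239556) (nat_lit 152) (nat_lit 1611676195) (nat_lit 24) (nat_lit 5) (nat_lit 25) (nat_lit 5) (nat_lit 26) (nat_lit 4) (nat_lit 359) (nat_lit 305) (nat_lit 236)) (XT.nd (nat_lit 78) (nat_lit 152) (nat_lit 0) (XT.lf (nat_lit 0) (nat_lit 3596866059) (nat_lit 152) (nat_lit 255246590) (nat_lit 76) (nat_lit 24888104602) (nat_lit 23) (nat_lit 5) (nat_lit 25) (nat_lit 5) (nat_lit 24) (nat_lit 5) (nat_lit 360) (nat_lit 305) (nat_lit 235)) (XT.lf (nat_lit 0) (nat_lit 9239263996) (nat_lit 228) (nat_lit 17303671167) (nat_lit 76) (nat_lit 3268473541) (nat_lit 21) (nat_lit 5) (nat_lit 24) (nat_lit 5) (nat_lit 22) (nat_lit 4) (nat_lit 361) (nat_lit 305) (nat_lit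 234))))))))
noncomputable def xc116 : XT := (XT.nd (nat_lit 1716) (nat_lit 456) (nat_lit 0) (XT.nd (nat_lit 858) (nat_lit 304) (nat_lit 0) (XT.nd (nat_lit 390) (nat_lit 228) (nat_lit 0) (XT.nd (nat_lit 156) (nat_lit 152) (nat_lit 0) (XT.nd (nat_lit 78) (nat_lit 76) (nat_lit 0) (XT.lf (nat_lit 0) (nat_lit 15210246347) (nat_lit 228) (nat_lit 5118925947) (nat_lit 76) (nat_lit 10604674568) (nat_lit 21) (nat_lit 5) (nat_lit 24) (nat_lit 5) (nat_lit 22) (nat_lit 4) (nat_lit 362) (nat_lit 305) (nat_lit 233)) (XT.lf (nat_lit 0) (nat_lit 7891938755) (nat_lit 76) (nat_lit 13690979618) (nat_lit 152) (nat_lit 10524341392) (nat_lit 20) (nat_lit 5) (nat_lit 21) (nat_lit 5) (nat_lit 22) (nat_lit 4) (nat_lit 363) (nat_lit 305) (nat_lit 232))) (XT.nd (nat_lit 78) (nat_lit 152) (nat_lit 0) (XT.lf (nat_lit 0) (nat_lit 21695931091) (nat_lit 76) (nat_lit 6645317087) (nat_lit 152) (nat_lit 4994753323) (nat_lit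 20) (nat_lit 5) (nat_lit 21) (nat_lit 5) (nat_lit 22) (nat_lit 4) (nat_lit 364) (nat_lit 305) (nat_lit 231)) (XT.nd (nat_lit 78) (nat_lit 0) (nat_lit 0) (XT.lf (nat_lit 0) (nat_lit 802895586) (nat_lit 152) (nat_lit 33070066606) (nat_lit 76) (nat_lit 751715880) (nat_lit 18) (nat_lit 5) (nat_lit 20) (nat_lit 5) (nat_lit 19) (nat_lit 4) (nat_lit 365) (nat_lit 305) (nat_lit 230)) (XT.lf (nat_lit 0) (nat_lit 7012976266) (nat_lit 152) (nat_lit 20383097370) (nat_lit 76) (nat_lit 8563108605) (nat_lit 18) (nat_lit 5) (nat_lit 20) (nat_lit 5) (nat_lit 19) (nat_lit 4) (nat_lit 366) (nat_lit 305) (nat_lit 229))))) (XT.nd (nat_lit 234) (nat_lit 152) (nat_lit 0) (XT.nd (nat_lit 78) (nat_lit 76) (nat_lit 0) (XT.lf (nat_lit 0) (nat_lit 13515565071) (nat_lit 152) (nat_lit 7094405707) (nat_lit 76) (nat_lit 16751348363) (nat_lit 18) (nat_lit 5) (nat_lit 20) (nat_lit 5) (nat_lit 19) (nat_lit 4) (nat_lit 367)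 (nat_lit 305) (nat_lit 228)) (XT.nd (nat_lit 78) (nat_lit 0) (nat_lit 0) (XT.lf (nat_lit 0) (nat_lit 7053401004) (nat_lit 76) (nat_lit 13382866708) (nat_lit 152) (nat_lit 18392653318) (nat_lit 17) (nat_lit 5) (nat_lit 18) (nat_lit 5) (nat_lit 19) (nat_lit 4) (nat_lit 368) (nat_lit 305) (nat_lit 227)) (XT.lf (nat_lit 0) (nat_lit 22124328551) (nat_lit 76) (nat_lit 5682024005) (nat_lit 152) (nat_lit 12558390114) (nat_lit 17) (nat_lit 5) (nat_lit 18) (nat_lit 5) (nat_lit 19) (nat_lit 4) (nat_lit 369) (nat_lit 305) (nat_lit 226)))) (XT.nd (nat_lit 78) (nat_lit 152) (nat_lit 0) (XT.lf (nat_lit 0) (nat_lit 35566267763) (nat_lit 152) (nat_lit 4095801310) (nat_lit 0) (nat_lit 2314226690) (nat_lit 17) (nat_lit 5) (nat_lit 19) (nat_lit 4) (nat_lit 17) (nat_lit 4) (nat_lit 370) (nat_lit 305) (nat_lit 225)) (XT.nd (nat_lit 78) (nat_lit 0) (nat_lit 0) (XT.lf (nat_lit 0) (nat_lit 297608000) (nat_lit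 152) (nat_lit 32674551416) (nat_lit 76) (nat_lit 10683571429) (nat_lit 15) (nat_lit 5) (nat_lit 17) (nat_lit 5) (nat_lit 16) (nat_lit 4) (nat_lit 371) (nat_lit 305) (nat_lit 224)) (XT.lf (nat_lit 0) (nat_lit 7180321322) (nat_lit 152) (nat_lit 18596043149) (nat_lit 76) (nat_lit 19634769132) (nat_lit 15) (nat_lit 5) (nat_lit 17) (nat_lit 5) (nat_lit 16) (nat_lit 4) (nat_lit 372) (nat_lit 305) (nat_lit 223)))))) (XT.nd (nat_lit 390) (nat_lit 152) (nat_lit 0) (XT.nd (nat_lit 156) (nat_lit 76) (nat_lit 0) (XT.nd (nat_lit 78) (nat_lit 76) (nat_lit 0) (XT.lf (nat_lit 0) (nat_lit 14392516021) (nat_lit 152) (nat_lit 3840619295) (nat_lit 76) (nat_lit 29021909391) (nat_lit 15) (nat_lit 5) (nat_lit 17) (nat_lit 5) (nat_lit 16) (nat_lit 4) (nat_lit 373) (nat_lit 305) (nat_lit 222)) (XT.lf (nat_lit 0) (nat_lit 12011288343) (nat_lit 76) (nat_lit 10127605517) (nat_lit 152) (nat_lit 27043584067) (nat_lit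 14) (nat_lit 5) (nat_lit 15) (nat_lit 5) (nat_lit 16) (nat_lit 4) (nat_lit 374) (nat_lit 305) (nat_lit 221))) (XT.nd (nat_lit 78) (nat_lit 76) (nat_lit 0) (XT.lf (nat_lit 0) (nat_lit 28763820247) (nat_lit 76) (nat_lit 1560126078) (nat_lit 152) (nat_lit 20879773679) (nat_lit 14) (nat_lit 5) (nat_lit 15) (nat_lit 5) (nat_lit 16) (nat_lit 4) (nat_lit 375) (nat_lit 305) (nat_lit 220)) (XT.nd (nat_lit 78) (nat_lit 76) (nat_lit 0) (XT.lf (nat_lit 0) (nat_lit 39021135898) (nat_lit 152) (nat_lit 7112725253) (nat_lit 0) (nat_lit 7187023556) (nat_lit 14) (nat_lit 5) (nat_lit 16) (nat_lit 4) (nat_lit 14) (nat_lit 4) (nat_lit 376) (nat_lit 305) (nat_lit 219)) (XT.lf (nat_lit 0) (nat_lit 9227141856) (nat_lit 76) (nat_lit 39083101371) (nat_lit 76) (nat_lit 7225816024) (nat_lit 13) (nat_lit 4) (nat_lit 14) (nat_lit 5) (nat_lit 14) (nat_lit 4) (nat_lit 377) (nat_lit 305) (nat_lit 218))))) (XT.nd (nat_lit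 234) (nat_lit 0) (nat_lit 0) (XT.nd (nat_lit 78) (nat_lit 76) (nat_lit 0) (XT.lf (nat_lit 0) (nat_lit 305240011) (nat_lit 152) (nat_lit 31253612852) (nat_lit 76) (nat_lit 26297491919) (nat_lit 12) (nat_lit 5) (nat_lit 14) (nat_lit 5) (nat_lit 13) (nat_lit 4) (nat_lit 378) (nat_lit 305) (nat_lit 217)) (XT.nd (nat_lit 78) (nat_lit 76) (nat_lit 0) (XT.lf (nat_lit 0) (nat_lit 7958065233) (nat_lit 152) (nat_lit 15586339746) (nat_lit 76) (nat_lit 36742918156) (nat_lit 12) (nat_lit 5) (nat_lit 14) (nat_lit 5) (nat_lit 13) (nat_lit 4) (nat_lit 379) (nat_lit 305) (nat_lit 216)) (XT.lf (nat_lit 0) (nat_lit 870894245) (nat_lit 76) (nat_lit 15124854746) (nat_lit 152) (nat_lit 46843994268) (nat_lit 11) (nat_lit 5) (nat_lit 12) (nat_lit 5) (nat_lit 13) (nat_lit 4) (nat_lit 380) (nat_lit 305) (nat_lit 215)))) (XT.nd (nat_lit 78) (nat_lit 0) (nat_lit 0) (XT.lf (nat_lit 0) (nat_lit 18671178809) (nat_lit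 76) (nat_lit 6016935573) (nat_lit 152) (nat_lit 40819033677) (nat_lit 11) (nat_lit 5) (nat_lit 12) (nat_lit 5) (nat_lit 13) (nat_lit 4) (nat_lit 381) (nat_lit 305) (nat_lit 214)) (XT.nd (nat_lit 78) (nat_lit 0) (nat_lit 0) (XT.lf (nat_lit 0) (nat_lit 33859688605) (nat_lit 152) (nat_lit 31022141001) (nat_lit 0) (nat_lit 3423867337) (nat_lit 11) (nat_lit 5) (nat_lit 13) (nat_lit 4) (nat_lit 11) (nat_lit 4) (nat_lit 382) (nat_lit 305) (nat_lit 213)) (XT.lf (nat_lit 0) (nat_lit 43578214720) (nat_lit 152) (nat_lit 14535618274) (nat_lit 0) (nat_lit 13125924830) (nat_lit 11) (nat_lit 5) (nat_lit 13) (nat_lit 4) (nat_lit 11) (nat_lit 4) (nat_lit 383) (nat_lit 305) (nat_lit 212))))))) (XT.nd (nat_lit 858) (nat_lit 152) (nat_lit 0) (XT.nd (nat_lit 390) (nat_lit 152) (nat_lit 0) (XT.nd (nat_lit 156) (nat_lit 76) (nat_lit 0) (XT.nd (nat_lit 78) (nat_lit 0) (nat_lit 0) (XT.lf (nat_lit 0) (nat_lit 2847945834)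 (nat_lit 76) (nat_lit 50969409430) (nat_lit 76) (nat_lit 20501435138) (nat_lit 10) (nat_lit 4) (nat_lit 11) (nat_lit 5) (nat_lit 11) (nat_lit 4) (nat_lit 384) (nat_lit 305) (nat_lit 211)) (XT.lf (nat_lit 0) (nat_lit 21587192553) (nat_lit 76) (nat_lit 43217834049) (nat_lit 76) (nat_lit 12734922232) (nat_lit 10) (nat_lit 4) (nat_lit 11) (nat_lit 5) (nat_lit 11) (nat_lit 4) (nat_lit 385) (nat_lit 305) (nat_lit 210))) (XT.nd (nat_lit 78) (nat_lit 76) (nat_lit 0) (XT.lf (nat_lit 0) (nat_lit 41246125952) (nat_lit 76) (nat_lit 35086818449) (nat_lit 76) (nat_lit 4589680416) (nat_lit 10) (nat_lit 4) (nat_lit 11) (nat_lit 5) (nat_lit 11) (nat_lit 4) (nat_lit 386) (nat_lit 305) (nat_lit 209)) (XT.nd (nat_lit 78) (nat_lit 0) (nat_lit 0) (XT.lf (nat_lit 0) (nat_lit 3827141169) (nat_lit 152) (nat_lit 22665047410) (nat_lit 76) (nat_lit 57979597359) (nat_lit 9) (nat_lit 5) (nat_lit 11) (nat_lit 5) (nat_lit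 10) (nat_lit 4) (nat_lit 387) (nat_lit 305) (nat_lit 208)) (XT.lf (nat_lit 0) (nat_lit 12502134553) (nat_lit 152) (nat_lit 4894214570) (nat_lit 76) (nat_lit 70798717652) (nat_lit 9) (nat_lit 5) (nat_lit 11) (nat_lit 5) (nat_lit 10) (nat_lit 4) (nat_lit 388) (nat_lit 305) (nat_lit 207))))) (XT.nd (nat_lit 234) (nat_lit 76) (nat_lit 0) (XT.nd (nat_lit 78) (nat_lit 0) (nat_lit 0) (XT.lf (nat_lit 0) (nat_lit 14204605004) (nat_lit 76) (nat_lit 7620021604) (nat_lit 152) (nat_lit 70269199878) (nat_lit 8) (nat_lit 5) (nat_lit 9) (nat_lit 5) (nat_lit 10) (nat_lit 4) (nat_lit 389) (nat_lit 305) (nat_lit 206)) (XT.nd (nat_lit 78) (nat_lit 0) (nat_lit 0) (XT.lf (nat_lit 0) (nat_lit 31730799423) (nat_lit 152) (nat_lit 61812986357) (nat_lit 0) (nat_lit 2637862770) (nat_lit 8) (nat_lit 5) (nat_lit 10) (nat_lit 4) (nat_lit 8) (nat_lit 4) (nat_lit 390) (nat_lit 305) (nat_lit 205)) (XT.lf (nat_lit 0) (nat_lit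 42249593272) (nat_lit 152) (nat_lit 45072364096) (nat_lit 0) (nat_lit 13146040798) (nat_lit 8) (nat_lit 5) (nat_lit 10) (nat_lit 4) (nat_lit 8) (nat_lit 4) (nat_lit 391) (nat_lit 305) (nat_lit 204)))) (XT.nd (nat_lit 78) (nat_lit 76) (nat_lit 0) (XT.lf (nat_lit 0) (nat_lit 53287083011) (nat_lit 152) (nat_lit 27508526184) (nat_lit 0) (nat_lit 24173420231) (nat_lit 8) (nat_lit 5) (nat_lit 10) (nat_lit 4) (nat_lit 8) (nat_lit 4) (nat_lit 392) (nat_lit 305) (nat_lit 203)) (XT.nd (nat_lit 78) (nat_lit 76) (nat_lit 0) (XT.lf (nat_lit 0) (nat_lit 64869548376) (nat_lit 152) (nat_lit 9079653959) (nat_lit 0) (nat_lit 35746256734) (nat_lit 8) (nat_lit 5) (nat_lit 10) (nat_lit 4) (nat_lit 8) (nat_lit 4) (nat_lit 393) (nat_lit 305) (nat_lit 202)) (XT.lf (nat_lit 0) (nat_lit 10597310977) (nat_lit 76) (nat_lit 66592709412) (nat_lit 76) (nat_lit 37460247425) (nat_lit 7) (nat_lit 4) (nat_lit 8) (nat_lit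 5) (nat_lit 8) (nat_lit 4) (nat_lit 394) (nat_lit 305) (nat_lit 201)))))) (XT.nd (nat_lit 468) (nat_lit 0) (nat_lit 0) (XT.nd (nat_lit 234) (nat_lit 152) (nat_lit 0) (XT.nd (nat_lit 78) (nat_lit 0) (nat_lit 0) (XT.lf (nat_lit 0) (nat_lit 31561020327) (nat_lit 76) (nat_lit 58712814052) (nat_lit 76) (nat_lit 29571618403) (nat_lit 7) (nat_lit 4) (nat_lit 8) (nat_lit 5) (nat_lit 8) (nat_lit 4) (nat_lit 395) (nat_lit 305) (nat_lit 200)) (XT.nd (nat_lit 78) (nat_lit 0) (nat_lit 0) (XT.lf (nat_lit 0) (nat_lit 53561173318) (nat_lit 76) (nat_lit 50444522932) (nat_lit 76) (nat_lit 21295009511) (nat_lit 7) (nat_lit 4) (nat_lit 8) (nat_lit 5) (nat_lit 8) (nat_lit 4) (nat_lit 396) (nat_lit 305) (nat_lit 199)) (XT.lf (nat_lit 0) (nat_lit 76650151266) (nat_lit 76) (nat_lit 41768149646) (nat_lit 76) (nat_lit 12610714536) (nat_lit 7) (nat_lit 4) (nat_lit 8) (nat_lit 5) (nat_lit 8) (nat_lit 4) (nat_lit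 397) (nat_lit 305) (nat_lit 198)))) (XT.nd (nat_lit 78) (nat_lit 152) (nat_lit 0) (XT.lf (nat_lit 0) (nat_lit 100882927929) (nat_lit 76) (nat_lit 32663036162) (nat_lit 76) (nat_lit 3498056586) (nat_lit 7) (nat_lit 4) (nat_lit 8) (nat_lit 5) (nat_lit 8) (nat_lit 4) (nat_lit 398) (nat_lit 305) (nat_lit 197)) (XT.nd (nat_lit 78) (nat_lit 76) (nat_lit 0) (XT.lf (nat_lit 0) (nat_lit 5870554111) (nat_lit 152) (nat_lit 17137528852) (nat_lit 76) (nat_lit 120347225608) (nat_lit 6) (nat_lit 5) (nat_lit 8) (nat_lit 5) (nat_lit 7) (nat_lit 4) (nat_lit 399) (nat_lit 305) (nat_lit 196)) (XT.lf (nat_lit 0) (nat_lit 2861626795) (nat_lit 76) (nat_lit 12767951072) (nat_lit 152) (nat_lit 134347739996) (nat_lit 5) (nat_lit 5) (nat_lit 6) (nat_lit 5) (nat_lit 7) (nat_lit 4) (nat_lit 400) (nat_lit 305) (nat_lit 195))))) (XT.nd (nat_lit 234) (nat_lit 0) (nat_lit 0) (XT.nd (nat_lit 78) (nat_lit 0) (nat_lit 0)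 (XT.lf (nat_lit 0) (nat_lit 24446043917) (nat_lit 76) (nat_lit 1715697030) (nat_lit 152) (nat_lit 130754428477) (nat_lit 5) (nat_lit 5) (nat_lit 6) (nat_lit 5) (nat_lit 7) (nat_lit 4) (nat_lit 401) (nat_lit 305) (nat_lit 194)) (XT.nd (nat_lit 78) (nat_lit 0) (nat_lit 0) (XT.lf (nat_lit 0) (nat_lit 37370037007) (nat_lit 152) (nat_lit 117256063867) (nat_lit 0) (nat_lit 9568387600) (nat_lit 5) (nat_lit 5) (nat_lit 7) (nat_lit 4) (nat_lit 5) (nat_lit 4) (nat_lit 402) (nat_lit 305) (nat_lit 193)) (XT.lf (nat_lit 0) (nat_lit 49162233260) (nat_lit 152) (nat_lit 101318362988) (nat_lit 0) (nat_lit 21354954057) (nat_lit 5) (nat_lit 5) (nat_lit 7) (nat_lit 4) (nat_lit 5) (nat_lit 4) (nat_lit 403) (nat_lit 305) (nat_lit 192)))) (XT.nd (nat_lit 78) (nat_lit 0) (nat_lit 0) (XT.lf (nat_lit 0) (nat_lit 61539619527) (nat_lit 152) (nat_lit 84592289124) (nat_lit 0) (nat_lit 33726978613) (nat_lit 5) (nat_lit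 5) (nat_lit 7) (nat_lit 4) (nat_lit 5) (nat_lit 4) (nat_lit 404) (nat_lit 305) (nat_lit 191)) (XT.nd (nat_lit 78) (nat_lit 0) (nat_lit 0) (XT.lf (nat_lit 0) (nat_lit 74531665774) (nat_lit 152) (nat_lit 67038018289) (nat_lit 0) (nat_lit 46713918469) (nat_lit 5) (nat_lit 5) (nat_lit 7) (nat_lit 4) (nat_lit 5) (nat_lit 4) (nat_lit 405) (nat_lit 305) (nat_lit 190)) (XT.lf (nat_lit 0) (nat_lit 88169305445) (nat_lit 152) (nat_lit 48613754602) (nat_lit 0) (nat_lit 60346694911) (nat_lit 5) (nat_lit 5) (nat_lit 7) (nat_lit 4) (nat_lit 5) (nat_lit 4) (nat_lit 406) (nat_lit 305) (nat_lit 189))))))))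
noncomputable def xc117 : XT := (XT.nd (nat_lit 1794) (nat_lit 0) (nat_lit 0) (XT.nd (nat_lit 858) (nat_lit 152) (nat_lit 0) (XT.nd (nat_lit 390) (nat_lit 0) (nat_lit 0) (XT.nd (nat_lit 156) (nat_lit 76) (nat_lit 0) (XT.nd (nat_lit 78) (nat_lit 0) (nat_lit 0) (XT.lf (nat_lit 0) (nat_lit 102485009111) (nat_lit 152) (nat_lit 29275630766) (nat_lit 0) (nat_lit 74657766929) (nat_lit 5) (nat_lit 5) (nat_lit 7) (nat_lit 4) (nat_lit 5) (nat_lit 4) (nat_lit 407) (nat_lit 305) (nat_lit 188)) (XT.lf (nat_lit 0) (nat_lit 117512861781) (nat_lit 152) (nat_lit 8977603631) (nat_lit 0) (nat_lit 89681208506) (nat_lit 5) (nat_lit 5) (nat_lit 7) (nat_lit 4) (nat_lit 5) (nat_lit 4) (nat_lit 408) (nat_lit 305) (nat_lit 187))) (XT.nd (nat_lit 78) (nat_lit 0) (nat_lit 0) (XT.lf (nat_lit 0) (nat_lit 12736296465) (nat_lit 76) (nat_lit 120751196871) (nat_lit 76) (nat_lit 92915342555) (nat_lit 4) (nat_lit 4) (nat_lit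 5) (nat_lit 5) (nat_lit 5) (nat_lit 4) (nat_lit 409) (nat_lit 305) (nat_lit 186)) (XT.nd (nat_lit 78) (nat_lit 0) (nat_lit 0) (XT.lf (nat_lit 0) (nat_lit 35841011844) (nat_lit 76) (nat_lit 114568484116) (nat_lit 76) (nat_lit 86728628809) (nat_lit 4) (nat_lit 4) (nat_lit 5) (nat_lit 5) (nat_lit 5) (nat_lit 4) (nat_lit 410) (nat_lit 305) (nat_lit 185)) (XT.lf (nat_lit 0) (nat_lit 60094713611) (nat_lit 76) (nat_lit 108079646464) (nat_lit 76) (nat_lit 80235980690) (nat_lit 4) (nat_lit 4) (nat_lit 5) (nat_lit 5) (nat_lit 5) (nat_lit 4) (nat_lit 411) (nat_lit 305) (nat_lit 184))))) (XT.nd (nat_lit 234) (nat_lit 0) (nat_lit 0) (XT.nd (nat_lit 78) (nat_lit 0) (nat_lit 0) (XT.lf (nat_lit 0) (nat_lit 85555148675) (nat_lit 76) (nat_lit 101269234303) (nat_lit 76) (nat_lit 73421939512) (nat_lit 4) (nat_lit 4) (nat_lit 5) (nat_lit 5) (nat_lit 5) (nat_lit 4) (nat_lit 412) (nat_lit 305) (nat_lit 183))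 (XT.nd (nat_lit 78) (nat_lit 0) (nat_lit 0) (XT.lf (nat_lit 0) (nat_lit 112282937120) (nat_lit 76) (nat_lit 94121032365) (nat_lit 76) (nat_lit 66270281368) (nat_lit 4) (nat_lit 4) (nat_lit 5) (nat_lit 5) (nat_lit 5) (nat_lit 4) (nat_lit 413) (nat_lit 305) (nat_lit 182)) (XT.lf (nat_lit 0) (nat_lit 140341716537) (nat_lit 76) (nat_lit 86618021122) (nat_lit 76) (nat_lit 58763978499) (nat_lit 4) (nat_lit 4) (nat_lit 5) (nat_lit 5) (nat_lit 5) (nat_lit 4) (nat_lit 414) (nat_lit 305) (nat_lit 181)))) (XT.nd (nat_lit 78) (nat_lit 0) (nat_lit 0) (XT.lf (nat_lit 0) (nat_lit 169798293544) (nat_lit 76) (nat_lit 78742336262) (nat_lit 76) (nat_lit 50885158757) (nat_lit 4) (nat_lit 4) (nat_lit 5) (nat_lit 5) (nat_lit 5) (nat_lit 4) (nat_lit 415) (nat_lit 305) (nat_lit 180)) (XT.nd (nat_lit 78) (nat_lit 0) (nat_lit 0) (XT.lf (nat_lit 0) (nat_lit 200722802848) (nat_lit 76) (nat_lit 70475226152) (nat_lit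 76) (nat_lit 42615063047) (nat_lit 4) (nat_lit 4) (nat_lit 5) (nat_lit 5) (nat_lit 5) (nat_lit 4) (nat_lit 416) (nat_lit 305) (nat_lit 179)) (XT.lf (nat_lit 0) (nat_lit 233188874233) (nat_lit 76) (nat_lit 61797007199) (nat_lit 76) (nat_lit 33934000664) (nat_lit 4) (nat_lit 4) (nat_lit 5) (nat_lit 5) (nat_lit 5) (nat_lit 4) (nat_lit 417) (nat_lit 305) (nat_lit 178)))))) (XT.nd (nat_lit 468) (nat_lit 0) (nat_lit 0) (XT.nd (nat_lit 234) (nat_lit 152) (nat_lit 0) (XT.nd (nat_lit 78) (nat_lit 0) (nat_lit 0) (XT.lf (nat_lit 0) (nat_lit 267273807869) (nat_lit 76) (nat_lit 52687016976) (nat_lit 76) (nat_lit 24821302413) (nat_lit 4) (nat_lit 4) (nat_lit 5) (nat_lit 5) (nat_lit 5) (nat_lit 4) (nat_lit 418) (nat_lit 305) (nat_lit 177)) (XT.nd (nat_lit 78) (nat_lit 0) (nat_lit 0) (XT.lf (nat_lit 0) (nat_lit 303058758361) (nat_lit 76) (nat_lit 43123565031) (nat_lit 76) (nat_lit 15255271393) (nat_lit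 4) (nat_lit 4) (nat_lit 5) (nat_lit 5) (nat_lit 5) (nat_lit 4) (nat_lit 419) (nat_lit 305) (nat_lit 176)) (XT.lf (nat_lit 0) (nat_lit 340628927970) (nat_lit 76) (nat_lit 33083881238) (nat_lit 76) (nat_lit 5213131339) (nat_lit 4) (nat_lit 4) (nat_lit 5) (nat_lit 5) (nat_lit 5) (nat_lit 4) (nat_lit 420) (nat_lit 305) (nat_lit 175)))) (XT.nd (nat_lit 78) (nat_lit 76) (nat_lit 0) (XT.lf (nat_lit 0) (nat_lit 5158465441) (nat_lit 152) (nat_lit 17298235041) (nat_lit 76) (nat_lit 374827942932) (nat_lit 3) (nat_lit 5) (nat_lit 5) (nat_lit 5) (nat_lit 4) (nat_lit 4) (nat_lit 421) (nat_lit 305) (nat_lit 174)) (XT.nd (nat_lit 78) (nat_lit 0) (nat_lit 0) (XT.lf (nat_lit 0) (nat_lit 4815425958) (nat_lit 76) (nat_lit 11131277971) (nat_lit 152) (nat_lit 400606641988) (nat_lit 2) (nat_lit 5) (nat_lit 3) (nat_lit 5) (nat_lit 4) (nat_lit 4) (nat_lit 422) (nat_lit 305) (nat_lit 173)) (XT.lf (nat_lit 0) (nat_lit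 27582065000) (nat_lit 152) (nat_lit 408155910223) (nat_lit 0) (nat_lit 1032123182) (nat_lit 2) (nat_lit 5) (nat_lit 4) (nat_lit 4) (nat_lit 2) (nat_lit 4) (nat_lit 423) (nat_lit 305) (nat_lit 172))))) (XT.nd (nat_lit 234) (nat_lit 0) (nat_lit 0) (XT.nd (nat_lit 78) (nat_lit 0) (nat_lit 0) (XT.lf (nat_lit 0) (nat_lit 39979847360) (nat_lit 152) (nat_lit 404580827874) (nat_lit 0) (nat_lit 13427980998) (nat_lit 2) (nat_lit 5) (nat_lit 4) (nat_lit 4) (nat_lit 2) (nat_lit 4) (nat_lit 424) (nat_lit 305) (nat_lit 171)) (XT.nd (nat_lit 78) (nat_lit 0) (nat_lit 0) (XT.lf (nat_lit 0) (nat_lit 52995779095) (nat_lit 152) (nat_lit 400830370367) (nat_lit 0) (nat_lit 26442079832) (nat_lit 2) (nat_lit 5) (nat_lit 4) (nat_lit 4) (nat_lit 2) (nat_lit 4) (nat_lit 425) (nat_lit 305) (nat_lit 170)) (XT.lf (nat_lit 0) (nat_lit 66660850519) (nat_lit 152) (nat_lit 396895608041) (nat_lit 0) (nat_lit 40105405636)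 (nat_lit 2) (nat_lit 5) (nat_lit 4) (nat_lit 4) (nat_lit 2) (nat_lit 4) (nat_lit 426) (nat_lit 305) (nat_lit 169)))) (XT.nd (nat_lit 78) (nat_lit 0) (nat_lit 0) (XT.lf (nat_lit 0) (nat_lit 81007597515) (nat_lit 152) (nat_lit 392767172414) (nat_lit 0) (nat_lit 54450490138) (nat_lit 2) (nat_lit 5) (nat_lit 4) (nat_lit 4) (nat_lit 2) (nat_lit 4) (nat_lit 427) (nat_lit 305) (nat_lit 168)) (XT.nd (nat_lit 78) (nat_lit 0) (nat_lit 0) (XT.lf (nat_lit 0) (nat_lit 96070179004) (nat_lit 152) (nat_lit 388435233877) (nat_lit 0) (nat_lit 69511488300) (nat_lit 2) (nat_lit 5) (nat_lit 4) (nat_lit 4) (nat_lit 2) (nat_lit 4) (nat_lit 428) (nat_lit 305) (nat_lit 167)) (XT.lf (nat_lit 0) (nat_lit 111884458278) (nat_lit 152) (nat_lit 383889478292) (nat_lit 0) (nat_lit 85324259642) (nat_lit 2) (nat_lit 5) (nat_lit 4) (nat_lit 4) (nat_lit 2) (nat_lit 4) (nat_lit 429) (nat_lit 305) (nat_lit 166))))))) (XT.nd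 (nat_lit 37830) (nat_lit 0) (nat_lit 5700) (XT.nd (nat_lit 37362) (nat_lit 0) (nat_lit 8968) (XT.nd (nat_lit 156) (nat_lit 0) (nat_lit 0) (XT.nd (nat_lit 78) (nat_lit 0) (nat_lit 0) (XT.lf (nat_lit 0) (nat_lit 128488088380) (nat_lit 152) (nat_lit 379119082431) (nat_lit 0) (nat_lit 101926453619) (nat_lit 2) (nat_lit 5) (nat_lit 4) (nat_lit 4) (nat_lit 2) (nat_lit 4) (nat_lit 430) (nat_lit 305) (nat_lit 165)) (XT.lf (nat_lit 0) (nat_lit 145920601765) (nat_lit 152) (nat_lit 374112688207) (nat_lit 0) (nat_lit 119357599265) (nat_lit 2) (nat_lit 5) (nat_lit 4) (nat_lit 4) (nat_lit 2) (nat_lit 4) (nat_lit 431) (nat_lit 305) (nat_lit 164))) (XT.nd (nat_lit 37050) (nat_lit 0) (nat_lit 9880) (XT.lf (nat_lit 0) (nat_lit 164223504415) (nat_lit 152) (nat_lit 368858375636) (nat_lit 0) (nat_lit 137659199308) (nat_lit 2) (nat_lit 5) (nat_lit 4) (nat_lit 4) (nat_lit 2) (nat_lit 4) (nat_lit 432) (nat_lit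 305) (nat_lit 163)) (XT.nd (nat_lit 78) (nat_lit 0) (nat_lit 0) (XT.lf (nat_lit 0) (nat_lit 817090192) (nat_lit 0) (nat_lit 817090192) (nat_lit 380) (nat_lit 1798148709) (nat_lit 132) (nat_lit 5) (nat_lit 132) (nat_lit 3) (nat_lit 137) (nat_lit 3) (nat_lit 306) (nat_lit 306) (nat_lit 288)) (XT.lf (nat_lit 0) (nat_lit 4967883829) (nat_lit 0) (nat_lit 240553474) (nat_lit 380) (nat_lit 1731061111) (nat_lit 132) (nat_lit 5) (nat_lit 132) (nat_lit 3) (nat_lit 137) (nat_lit 3) (nat_lit 307) (nat_lit 306) (nat_lit 287))))) (XT.nd (nat_lit 234) (nat_lit 456) (nat_lit 0) (XT.nd (nat_lit 78) (nat_lit 0) (nat_lit 0) (XT.lf (nat_lit 0) (nat_lit 141725961) (nat_lit 456) (nat_lit 5614845334) (nat_lit 532) (nat_lit 1265488585) (nat_lit 126) (nat_lit 5) (nat_lit 132) (nat_lit 5) (nat_lit 133) (nat_lit 5) (nat_lit 308) (nat_lit 306) (nat_lit 286)) (XT.nd (nat_lit 78) (nat_lit 0) (nat_lit 0) (XT.lf (nat_lit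 0) (nat_lit 1972338597) (nat_lit 456) (nat_lit 2186085952) (nat_lit 532) (nat_lit 2953011900) (nat_lit 126) (nat_lit 5) (nat_lit 132) (nat_lit 5) (nat_lit 133) (nat_lit 5) (nat_lit 309) (nat_lit 306) (nat_lit 285)) (XT.lf (nat_lit 76) (nat_lit 1392418186) (nat_lit 0) (nat_lit 2413784261) (nat_lit 532) (nat_lit 3403706693) (nat_lit 127) (nat_lit 5) (nat_lit 126) (nat_lit 5) (nat_lit 133) (nat_lit 5) (nat_lit 310) (nat_lit 306) (nat_lit 284)))) (XT.nd (nat_lit 78) (nat_lit 456) (nat_lit 0) (XT.lf (nat_lit 76) (nat_lit 5160552909) (nat_lit 0) (nat_lit 502431231) (nat_lit 532) (nat_lit 1653963263) (nat_lit 127) (nat_lit 5) (nat_lit 126) (nat_lit 5) (nat_lit 133) (nat_lit 5) (nat_lit 311) (nat_lit 306) (nat_lit 283)) (XT.nd (nat_lit 78) (nat_lit 0) (nat_lit 0) (XT.lf (nat_lit 0) (nat_lit 125460426) (nat_lit 532) (nat_lit 5784972248) (nat_lit 608) (nat_lit 1521543176) (nat_lit 120) (nat_lit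 5) (nat_lit 127) (nat_lit 5) (nat_lit 128) (nat_lit 5) (nat_lit 312) (nat_lit 306) (nat_lit 282)) (XT.lf (nat_lit 0) (nat_lit 1885436940) (nat_lit 532) (nat_lit 1941690533) (nat_lit 608) (nat_lit 3727089761) (nat_lit 120) (nat_lit 5) (nat_lit 127) (nat_lit 5) (nat_lit 128) (nat_lit 5) (nat_lit 313) (nat_lit 306) (nat_lit 281)))))) (XT.nd (nat_lit 468) (nat_lit 2128) (nat_lit 0) (XT.nd (nat_lit 234) (nat_lit 684) (nat_lit 0) (XT.nd (nat_lit 78) (nat_lit 456) (nat_lit 0) (XT.lf (nat_lit 76) (nat_lit 2093869172) (nat_lit 0) (nat_lit 1578720755) (nat_lit 608) (nat_lit 4013189023) (nat_lit 121) (nat_lit 5) (nat_lit 120) (nat_lit 5) (nat_lit 128) (nat_lit 5) (nat_lit 314) (nat_lit 306) (nat_lit 280)) (XT.nd (nat_lit 78) (nat_lit 532) (nat_lit 0) (XT.lf (nat_lit 0) (nat_lit 5505024623) (nat_lit 532) (nat_lit 1507272882) (nat_lit 76) (nat_lit 813984231) (nat_lit 121) (nat_lit 5) (nat_lit 128)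 (nat_lit 5) (nat_lit 122) (nat_lit 5) (nat_lit 315) (nat_lit 306) (nat_lit 279)) (XT.lf (nat_lit 0) (nat_lit 2777108251) (nat_lit 532) (nat_lit 4635774431) (nat_lit 608) (nat_lit 561888504) (nat_lit 114) (nat_lit 5) (nat_lit 121) (nat_lit 5) (nat_lit 122) (nat_lit 5) (nat_lit 316) (nat_lit 306) (nat_lit 278)))) (XT.nd (nat_lit 78) (nat_lit 608) (nat_lit 0) (XT.lf (nat_lit 0) (nat_lit 1186354567) (nat_lit 608) (nat_lit 891173832) (nat_lit 76) (nat_lit 6055188327) (nat_lit 113) (nat_lit 5) (nat_lit 121) (nat_lit 5) (nat_lit 114) (nat_lit 5) (nat_lit 317) (nat_lit 306) (nat_lit 277)) (XT.nd (nat_lit 78) (nat_lit 0) (nat_lit 0) (XT.lf (nat_lit 0) (nat_lit 2991381002) (nat_lit 684) (nat_lit 4637195555) (nat_lit 76) (nat_lit 670240668) (nat_lit 105) (nat_lit 5) (nat_lit 114) (nat_lit 5) (nat_lit 106) (nat_lit 5) (nat_lit 318) (nat_lit 306) (nat_lit 276)) (XT.lf (nat_lit 0) (nat_lit 4859135760)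 (nat_lit 684) (nat_lit 102896259) (nat_lit 76) (nat_lit 3512691606) (nat_lit 105) (nat_lit 5) (nat_lit 114) (nat_lit 5) (nat_lit 106) (nat_lit 5) (nat_lit 319) (nat_lit 306) (nat_lit 275))))) (XT.nd (nat_lit 234) (nat_lit 684) (nat_lit 0) (XT.nd (nat_lit 78) (nat_lit 760) (nat_lit 0) (XT.lf (nat_lit 0) (nat_lit 4744131882) (nat_lit 684) (nat_lit 2076957740) (nat_lit 760) (nat_lit 1838413943) (nat_lit 96) (nat_lit 5) (nat_lit 105) (nat_lit 5) (nat_lit 106) (nat_lit 5) (nat_lit 320) (nat_lit 306) (nat_lit 274)) (XT.nd (nat_lit 78) (nat_lit 76) (nat_lit 0) (XT.lf (nat_lit 0) (nat_lit 930004310) (nat_lit 684) (nat_lit 7911610533) (nat_lit 760) (nat_lit 13997106) (nat_lit 87) (nat_lit 5) (nat_lit 96) (nat_lit 5) (nat_lit 97) (nat_lit 5) (nat_lit 321) (nat_lit 306) (nat_lit 273)) (XT.lf (nat_lit 0) (nat_lit 1872622236) (nat_lit 760) (nat_lit 3039264894) (nat_lit 76) (nat_lit 4146664436) (nat_lit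 86) (nat_lit 5) (nat_lit 96) (nat_lit 5) (nat_lit 87) (nat_lit 5) (nat_lit 322) (nat_lit 306) (nat_lit 272)))) (XT.nd (nat_lit 78) (nat_lit 304) (nat_lit 0) (XT.lf (nat_lit 0) (nat_lit 2091623797) (nat_lit 380) (nat_lit 1727850470) (nat_lit 456) (nat_lit 5453931545) (nat_lit 81) (nat_lit 5) (nat_lit 86) (nat_lit 5) (nat_lit 87) (nat_lit 5) (nat_lit 323) (nat_lit 306) (nat_lit 271)) (XT.nd (nat_lit 78) (nat_lit 304) (nat_lit 0) (XT.lf (nat_lit 0) (nat_lit 5877036180) (nat_lit 456) (nat_lit 2006615537) (nat_lit 76) (nat_lit 1614775762) (nat_lit 81) (nat_lit 5) (nat_lit 87) (nat_lit 5) (nat_lit 82) (nat_lit 5) (nat_lit 324) (nat_lit 306) (nat_lit 270)) (XT.lf (nat_lit 0) (nat_lit 3443782442) (nat_lit 304) (nat_lit 4614673239) (nat_lit 380) (nat_lit 1675284217) (nat_lit 77) (nat_lit 5) (nat_lit 81) (nat_lit 5) (nat_lit 82) (nat_lit 5) (nat_lit 325) (nat_lit 306) (nat_lit 269))))))))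
noncomputable def xc118 : XT := (XT.nd (nat_lit 1794) (nat_lit 1444) (nat_lit 0) (XT.nd (nat_lit 858) (nat_lit 1216) (nat_lit 0) (XT.nd (nat_lit 390) (nat_lit 912) (nat_lit 0) (XT.nd (nat_lit 156) (nat_lit 608) (nat_lit 0) (XT.nd (nat_lit 78) (nat_lit 304) (nat_lit 0) (XT.lf (nat_lit 0) (nat_lit 330625730) (nat_lit 380) (nat_lit 815499515) (nat_lit 76) (nat_lit 8835771720) (nat_lit 76) (nat_lit 5) (nat_lit 81) (nat_lit 5) (nat_lit 77) (nat_lit 5) (nat_lit 326) (nat_lit 306) (nat_lit 268)) (XT.lf (nat_lit 0) (nat_lit 2441841573) (nat_lit 380) (nat_lit 5278699467) (nat_lit 76) (nat_lit 2517558687) (nat_lit 72) (nat_lit 5) (nat_lit 77) (nat_lit 5) (nat_lit 73) (nat_lit 5) (nat_lit 327) (nat_lit 306) (nat_lit 267))) (XT.nd (nat_lit 78) (nat_lit 304) (nat_lit 0) (XT.lf (nat_lit 0) (nat_lit 476151676) (nat_lit 304) (nat_lit 4166993570) (nat_lit 380) (nat_lit 5864813953) (nat_lit 68) (nat_lit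 5) (nat_lit 72) (nat_lit 5) (nat_lit 73) (nat_lit 5) (nat_lit 328) (nat_lit 306) (nat_lit 266)) (XT.nd (nat_lit 78) (nat_lit 304) (nat_lit 0) (XT.lf (nat_lit 0) (nat_lit 6638050372) (nat_lit 304) (nat_lit 351783189) (nat_lit 380) (nat_lit 3799781564) (nat_lit 68) (nat_lit 5) (nat_lit 72) (nat_lit 5) (nat_lit 73) (nat_lit 5) (nat_lit 329) (nat_lit 306) (nat_lit 265)) (XT.lf (nat_lit 0) (nat_lit 1965126165) (nat_lit 304) (nat_lit 7524813696) (nat_lit 380) (nat_lit 1593675954) (nat_lit 64) (nat_lit 5) (nat_lit 68) (nat_lit 5) (nat_lit 69) (nat_lit 5) (nat_lit 330) (nat_lit 306) (nat_lit 264))))) (XT.nd (nat_lit 234) (nat_lit 608) (nat_lit 0) (XT.nd (nat_lit 78) (nat_lit 228) (nat_lit 0) (XT.lf (nat_lit 0) (nat_lit 725783687) (nat_lit 380) (nat_lit 2939353307) (nat_lit 76) (nat_lit 7725366306) (nat_lit 63) (nat_lit 5) (nat_lit 68) (nat_lit 5) (nat_lit 64) (nat_lit 5) (nat_lit 331) (nat_lit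 306) (nat_lit 263)) (XT.nd (nat_lit 78) (nat_lit 0) (nat_lit 0) (XT.lf (nat_lit 0) (nat_lit 3122072180) (nat_lit 304) (nat_lit 8142335966) (nat_lit 76) (nat_lit 446357168) (nat_lit 60) (nat_lit 5) (nat_lit 64) (nat_lit 5) (nat_lit 61) (nat_lit 5) (nat_lit 332) (nat_lit 306) (nat_lit 262)) (XT.lf (nat_lit 0) (nat_lit 5701414203) (nat_lit 304) (nat_lit 1664112812) (nat_lit 76) (nat_lit 4678405876) (nat_lit 60) (nat_lit 5) (nat_lit 64) (nat_lit 5) (nat_lit 61) (nat_lit 5) (nat_lit 333) (nat_lit 306) (nat_lit 261)))) (XT.nd (nat_lit 78) (nat_lit 304) (nat_lit 0) (XT.lf (nat_lit 0) (nat_lit 5246602762) (nat_lit 304) (nat_lit 3199853277) (nat_lit 380) (nat_lit 3945518000) (nat_lit 56) (nat_lit 5) (nat_lit 60) (nat_lit 5) (nat_lit 61) (nat_lit 5) (nat_lit 334) (nat_lit 306) (nat_lit 260)) (XT.nd (nat_lit 78) (nat_lit 304) (nat_lit 0) (XT.lf (nat_lit 0) (nat_lit 11331558550) (nat_lit 380) (nat_lit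 274579396) (nat_lit 76) (nat_lit 1151188227) (nat_lit 56) (nat_lit 5) (nat_lit 61) (nat_lit 5) (nat_lit 57) (nat_lit 5) (nat_lit 335) (nat_lit 306) (nat_lit 259)) (XT.lf (nat_lit 0) (nat_lit 1303404604) (nat_lit 304) (nat_lit 6100399777) (nat_lit 76) (nat_lit 5730109896) (nat_lit 52) (nat_lit 5) (nat_lit 56) (nat_lit 5) (nat_lit 53) (nat_lit 5) (nat_lit 336) (nat_lit 306) (nat_lit 258)))))) (XT.nd (nat_lit 468) (nat_lit 532) (nat_lit 0) (XT.nd (nat_lit 234) (nat_lit 304) (nat_lit 0) (XT.nd (nat_lit 78) (nat_lit 152) (nat_lit 0) (XT.lf (nat_lit 0) (nat_lit 1142543405) (nat_lit 228) (nat_lit 2959482484) (nat_lit 304) (nat_lit 9427134592) (nat_lit 49) (nat_lit 5) (nat_lit 52) (nat_lit 5) (nat_lit 53) (nat_lit 5) (nat_lit 337) (nat_lit 306) (nat_lit 257)) (XT.nd (nat_lit 78) (nat_lit 152) (nat_lit 0) (XT.lf (nat_lit 0) (nat_lit 7131412526) (nat_lit 304) (nat_lit 5066820476) (nat_lit 76) (nat_lit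 1741434888) (nat_lit 49) (nat_lit 5) (nat_lit 53) (nat_lit 5) (nat_lit 50) (nat_lit 5) (nat_lit 338) (nat_lit 306) (nat_lit 256)) (XT.lf (nat_lit 0) (nat_lit 2597493075) (nat_lit 152) (nat_lit 7764965179) (nat_lit 228) (nat_lit 4005771600) (nat_lit 47) (nat_lit 5) (nat_lit 49) (nat_lit 5) (nat_lit 50) (nat_lit 5) (nat_lit 339) (nat_lit 306) (nat_lit 255)))) (XT.nd (nat_lit 78) (nat_lit 304) (nat_lit 0) (XT.lf (nat_lit 0) (nat_lit 10765742819) (nat_lit 152) (nat_lit 3037231827) (nat_lit 228) (nat_lit 1012886184) (nat_lit 47) (nat_lit 5) (nat_lit 49) (nat_lit 5) (nat_lit 50) (nat_lit 5) (nat_lit 340) (nat_lit 306) (nat_lit 254)) (XT.nd (nat_lit 78) (nat_lit 0) (nat_lit 0) (XT.lf (nat_lit 0) (nat_lit 2120205362) (nat_lit 304) (nat_lit 11213567117) (nat_lit 76) (nat_lit 1947535611) (nat_lit 43) (nat_lit 5) (nat_lit 47) (nat_lit 5) (nat_lit 44) (nat_lit 5) (nat_lit 341) (nat_lit 306) (nat_lit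 253)) (XT.lf (nat_lit 0) (nat_lit 5459359708) (nat_lit 304) (nat_lit 3156507172) (nat_lit 76) (nat_lit 7149190023) (nat_lit 43) (nat_lit 5) (nat_lit 47) (nat_lit 5) (nat_lit 44) (nat_lit 5) (nat_lit 342) (nat_lit 306) (nat_lit 252))))) (XT.nd (nat_lit 234) (nat_lit 228) (nat_lit 0) (XT.nd (nat_lit 78) (nat_lit 152) (nat_lit 0) (XT.lf (nat_lit 0) (nat_lit 5425146196) (nat_lit 152) (nat_lit 3590686367) (nat_lit 228) (nat_lit 7254672857) (nat_lit 41) (nat_lit 5) (nat_lit 43) (nat_lit 5) (nat_lit 44) (nat_lit 5) (nat_lit 343) (nat_lit 306) (nat_lit 251)) (XT.nd (nat_lit 78) (nat_lit 152) (nat_lit 0) (XT.lf (nat_lit 0) (nat_lit 12797004711) (nat_lit 228) (nat_lit 2332771091) (nat_lit 76) (nat_lit 1669135635) (nat_lit 41) (nat_lit 5) (nat_lit 44) (nat_lit 5) (nat_lit 42) (nat_lit 5) (nat_lit 344) (nat_lit 306) (nat_lit 250)) (XT.lf (nat_lit 0) (nat_lit 6711398019) (nat_lit 152) (nat_lit 10187316318)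 (nat_lit 228) (nat_lit 448476961) (nat_lit 39) (nat_lit 5) (nat_lit 41) (nat_lit 5) (nat_lit 42) (nat_lit 5) (nat_lit 345) (nat_lit 306) (nat_lit 249)))) (XT.nd (nat_lit 78) (nat_lit 152) (nat_lit 0) (XT.lf (nat_lit 0) (nat_lit 3185769250) (nat_lit 228) (nat_lit 1734310530) (nat_lit 76) (nat_lit 12999857281) (nat_lit 38) (nat_lit 5) (nat_lit 41) (nat_lit 5) (nat_lit 39) (nat_lit 5) (nat_lit 346) (nat_lit 306) (nat_lit 248)) (XT.nd (nat_lit 78) (nat_lit 0) (nat_lit 0) (XT.lf (nat_lit 0) (nat_lit 7089497973) (nat_lit 228) (nat_lit 10720890277) (nat_lit 76) (nat_lit 705445903) (nat_lit 36) (nat_lit 5) (nat_lit 39) (nat_lit 5) (nat_lit 37) (nat_lit 5) (nat_lit 347) (nat_lit 306) (nat_lit 247)) (XT.lf (nat_lit 0) (nat_lit 11268941291) (nat_lit 228) (nat_lit 1408660796) (nat_lit 76) (nat_lit 6459920216) (nat_lit 36) (nat_lit 5) (nat_lit 39) (nat_lit 5) (nat_lit 37) (nat_lit 5) (nat_lit 348)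 (nat_lit 306) (nat_lit 246))))))) (XT.nd (nat_lit 858) (nat_lit 532) (nat_lit 0) (XT.nd (nat_lit 390) (nat_lit 380) (nat_lit 0) (XT.nd (nat_lit 156) (nat_lit 304) (nat_lit 0) (XT.nd (nat_lit 78) (nat_lit 76) (nat_lit 0) (XT.lf (nat_lit 0) (nat_lit 8598345609) (nat_lit 152) (nat_lit 7164701366) (nat_lit 228) (nat_lit 4021984909) (nat_lit 34) (nat_lit 5) (nat_lit 36) (nat_lit 5) (nat_lit 37) (nat_lit 5) (nat_lit 349) (nat_lit 306) (nat_lit 245)) (XT.lf (nat_lit 0) (nat_lit 12267466) (nat_lit 228) (nat_lit 1356022519) (nat_lit 76) (nat_lit 19096839834) (nat_lit 33) (nat_lit 5) (nat_lit 36) (nat_lit 5) (nat_lit 34) (nat_lit 5) (nat_lit 350) (nat_lit 306) (nat_lit 244))) (XT.nd (nat_lit 78) (nat_lit 152) (nat_lit 0) (XT.lf (nat_lit 0) (nat_lit 4305698924) (nat_lit 228) (nat_lit 12097963238) (nat_lit 76) (nat_lit 4762660806) (nat_lit 31) (nat_lit 5) (nat_lit 34) (nat_lit 5) (nat_lit 32) (nat_lit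 5) (nat_lit 351) (nat_lit 306) (nat_lit 243)) (XT.nd (nat_lit 78) (nat_lit 152) (nat_lit 0) (XT.lf (nat_lit 0) (nat_lit 8832893138) (nat_lit 228) (nat_lit 1907608034) (nat_lit 76) (nat_lit 11161137761) (nat_lit 31) (nat_lit 5) (nat_lit 34) (nat_lit 5) (nat_lit 32) (nat_lit 5) (nat_lit 352) (nat_lit 306) (nat_lit 242)) (XT.lf (nat_lit 0) (nat_lit 9039281058) (nat_lit 152) (nat_lit 4662883872) (nat_lit 228) (nat_lit 8965786745) (nat_lit 29) (nat_lit 5) (nat_lit 31) (nat_lit 5) (nat_lit 32) (nat_lit 5) (nat_lit 353) (nat_lit 306) (nat_lit 241))))) (XT.nd (nat_lit 234) (nat_lit 228) (nat_lit 0) (XT.nd (nat_lit 78) (nat_lit 152) (nat_lit 0) (XT.lf (nat_lit 0) (nat_lit 18849456491) (nat_lit 228) (nat_lit 2941196231) (nat_lit 76) (nat_lit 1680215593) (nat_lit 29) (nat_lit 5) (nat_lit 32) (nat_lit 5) (nat_lit 30) (nat_lit 4) (nat_lit 354) (nat_lit 306) (nat_lit 240)) (XT.nd (nat_lit 78) (nat_lit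 0) (nat_lit 0) (XT.lf (nat_lit 0) (nat_lit 129297059) (nat_lit 152) (nat_lit 15873266962) (nat_lit 76) (nat_lit 8302068006) (nat_lit 27) (nat_lit 5) (nat_lit 29) (nat_lit 5) (nat_lit 28) (nat_lit 5) (nat_lit 355) (nat_lit 306) (nat_lit 239)) (XT.lf (nat_lit 0) (nat_lit 4989060274) (nat_lit 152) (nat_lit 4820233701) (nat_lit 76) (nat_lit 15365674355) (nat_lit 27) (nat_lit 5) (nat_lit 29) (nat_lit 5) (nat_lit 28) (nat_lit 5) (nat_lit 356) (nat_lit 306) (nat_lit 238)))) (XT.nd (nat_lit 78) (nat_lit 76) (nat_lit 0) (XT.lf (nat_lit 0) (nat_lit 6969736792) (nat_lit 152) (nat_lit 3208226724) (nat_lit 228) (nat_lit 15906563562) (nat_lit 25) (nat_lit 5) (nat_lit 27) (nat_lit 5) (nat_lit 28) (nat_lit 5) (nat_lit 357) (nat_lit 306) (nat_lit 237)) (XT.nd (nat_lit 78) (nat_lit 76) (nat_lit 0) (XT.lf (nat_lit 0) (nat_lit 15744976634) (nat_lit 228) (nat_lit 7617427777) (nat_lit 76) (nat_lit 3671238708)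 (nat_lit 25) (nat_lit 5) (nat_lit 28) (nat_lit 5) (nat_lit 26) (nat_lit 4) (nat_lit 358) (nat_lit 306) (nat_lit 236)) (XT.lf (nat_lit 0) (nat_lit 4509359450) (nat_lit 76) (nat_lit 17182615404) (nat_lit 152) (nat_lit 6333170375) (nat_lit 24) (nat_lit 5) (nat_lit 25) (nat_lit 5) (nat_lit 26) (nat_lit 4) (nat_lit 359) (nat_lit 306) (nat_lit 235)))))) (XT.nd (nat_lit 468) (nat_lit 228) (nat_lit 0) (XT.nd (nat_lit 234) (nat_lit 76) (nat_lit 0) (XT.nd (nat_lit 78) (nat_lit 228) (nat_lit 0) (XT.lf (nat_lit 0) (nat_lit 17470368370) (nat_lit 76) (nat_lit 10574042484) (nat_lit 152) (nat_lit 1016418618) (nat_lit 24) (nat_lit 5) (nat_lit 25) (nat_lit 5) (nat_lit 26) (nat_lit 4) (nat_lit 360) (nat_lit 306) (nat_lit 234)) (XT.nd (nat_lit 78) (nat_lit 0) (nat_lit 0) (XT.lf (nat_lit 0) (nat_lit 851578979) (nat_lit 152) (nat_lit 3561483289) (nat_lit 228) (nat_lit 25732029607) (nat_lit 21) (nat_lit 5) (nat_lit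 23) (nat_lit 5) (nat_lit 24) (nat_lit 5) (nat_lit 361) (nat_lit 306) (nat_lit 233)) (XT.lf (nat_lit 0) (nat_lit 10318647337) (nat_lit 228) (nat_lit 17070582017) (nat_lit 76) (nat_lit 3881575356) (nat_lit 21) (nat_lit 5) (nat_lit 24) (nat_lit 5) (nat_lit 22) (nat_lit 4) (nat_lit 362) (nat_lit 306) (nat_lit 232)))) (XT.nd (nat_lit 78) (nat_lit 76) (nat_lit 0) (XT.lf (nat_lit 0) (nat_lit 16558777846) (nat_lit 228) (nat_lit 4328898236) (nat_lit 76) (nat_lit 11563173190) (nat_lit 21) (nat_lit 5) (nat_lit 24) (nat_lit 5) (nat_lit 22) (nat_lit 4) (nat_lit 363) (nat_lit 306) (nat_lit 231)) (XT.nd (nat_lit 78) (nat_lit 0) (nat_lit 0) (XT.lf (nat_lit 0) (nat_lit 9315639152) (nat_lit 76) (nat_lit 13922510597) (nat_lit 152) (nat_lit 10445393519) (nat_lit 20) (nat_lit 5) (nat_lit 21) (nat_lit 5) (nat_lit 22) (nat_lit 4) (nat_lit 364) (nat_lit 306) (nat_lit 230)) (XT.lf (nat_lit 0) (nat_lit 23760826179)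 (nat_lit 76) (nat_lit 6546137225) (nat_lit 152) (nat_lit 4668143424) (nat_lit 20) (nat_lit 5) (nat_lit 21) (nat_lit 5) (nat_lit 22) (nat_lit 4) (nat_lit 365) (nat_lit 306) (nat_lit 229))))) (XT.nd (nat_lit 234) (nat_lit 76) (nat_lit 0) (XT.nd (nat_lit 78) (nat_lit 0) (nat_lit 0) (XT.lf (nat_lit 0) (nat_lit 1396524291) (nat_lit 152) (nat_lit 33720120398) (nat_lit 76) (nat_lit 1211355351) (nat_lit 18) (nat_lit 5) (nat_lit 20) (nat_lit 5) (nat_lit 19) (nat_lit 4) (nat_lit 366) (nat_lit 306) (nat_lit 228)) (XT.nd (nat_lit 78) (nat_lit 0) (nat_lit 0) (XT.lf (nat_lit 0) (nat_lit 7890752628) (nat_lit 152) (nat_lit 20446586011) (nat_lit 76) (nat_lit 9393219918) (nat_lit 18) (nat_lit 5) (nat_lit 20) (nat_lit 5) (nat_lit 19) (nat_lit 4) (nat_lit 367) (nat_lit 306) (nat_lit 227)) (XT.lf (nat_lit 0) (nat_lit 14693369561) (nat_lit 152) (nat_lit 6538967681) (nat_lit 76) (nat_lit 17971730908) (nat_lit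 18) (nat_lit 5) (nat_lit 20) (nat_lit 5) (nat_lit 19) (nat_lit 4) (nat_lit 368) (nat_lit 306) (nat_lit 226)))) (XT.nd (nat_lit 78) (nat_lit 0) (nat_lit 0) (XT.lf (nat_lit 0) (nat_lit 8301549393) (nat_lit 76) (nat_lit 13648632856) (nat_lit 152) (nat_lit 18795374407) (nat_lit 17) (nat_lit 5) (nat_lit 18) (nat_lit 5) (nat_lit 19) (nat_lit 4) (nat_lit 369) (nat_lit 306) (nat_lit 225)) (XT.nd (nat_lit 78) (nat_lit 0) (nat_lit 0) (XT.lf (nat_lit 0) (nat_lit 24083381492) (nat_lit 76) (nat_lit 5581956455) (nat_lit 152) (nat_lit 12694012879) (nat_lit 17) (nat_lit 5) (nat_lit 18) (nat_lit 5) (nat_lit 19) (nat_lit 4) (nat_lit 370) (nat_lit 306) (nat_lit 224)) (XT.lf (nat_lit 0) (nat_lit 37796643736) (nat_lit 152) (nat_lit 3471574672) (nat_lit 0) (nat_lit 2784102740) (nat_lit 17) (nat_lit 5) (nat_lit 19) (nat_lit 4) (nat_lit 17) (nat_lit 4) (nat_lit 371) (nat_lit 306) (nat_lit 223))))))))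
noncomputable def xc119 : XT := (XT.nd (nat_lit 1794) (nat_lit 304) (nat_lit 0) (XT.nd (nat_lit 858) (nat_lit 228) (nat_lit 0) (XT.nd (nat_lit 390) (nat_lit 228) (nat_lit 0) (XT.nd (nat_lit 156) (nat_lit 76) (nat_lit 0) (XT.nd (nat_lit 78) (nat_lit 0) (nat_lit 0) (XT.lf (nat_lit 0) (nat_lit 763197160) (nat_lit 152) (nat_lit 33477562096) (nat_lit 76) (nat_lit 11575053736) (nat_lit 15) (nat_lit 5) (nat_lit 17) (nat_lit 5) (nat_lit 16) (nat_lit 4) (nat_lit 372) (nat_lit 306) (nat_lit 222)) (XT.lf (nat_lit 0) (nat_lit 7968583826) (nat_lit 152) (nat_lit 18734686363) (nat_lit 76) (nat_lit 20956796861) (nat_lit 15) (nat_lit 5) (nat_lit 17) (nat_lit 5) (nat_lit 16) (nat_lit 4) (nat_lit 373) (nat_lit 306) (nat_lit 221))) (XT.nd (nat_lit 78) (nat_lit 76) (nat_lit 0) (XT.lf (nat_lit 0) (nat_lit 15520947953) (nat_lit 152) (nat_lit 3279165552) (nat_lit 76) (nat_lit 30797089882) (nat_lit 15) (nat_lit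 5) (nat_lit 17) (nat_lit 5) (nat_lit 16) (nat_lit 4) (nat_lit 374) (nat_lit 306) (nat_lit 220)) (XT.nd (nat_lit 78) (nat_lit 0) (nat_lit 0) (XT.lf (nat_lit 0) (nat_lit 13353184490) (nat_lit 76) (nat_lit 10293567502) (nat_lit 152) (nat_lit 27974658208) (nat_lit 14) (nat_lit 5) (nat_lit 15) (nat_lit 5) (nat_lit 16) (nat_lit 4) (nat_lit 375) (nat_lit 306) (nat_lit 219)) (XT.lf (nat_lit 0) (nat_lit 30908041477) (nat_lit 76) (nat_lit 1313924487) (nat_lit 152) (nat_lit 21522709924) (nat_lit 14) (nat_lit 5) (nat_lit 15) (nat_lit 5) (nat_lit 16) (nat_lit 4) (nat_lit 376) (nat_lit 306) (nat_lit 218))))) (XT.nd (nat_lit 234) (nat_lit 76) (nat_lit 0) (XT.nd (nat_lit 78) (nat_lit 152) (nat_lit 0) (XT.lf (nat_lit 0) (nat_lit 41340653756) (nat_lit 152) (nat_lit 6782458143) (nat_lit 0) (nat_lit 7845261608) (nat_lit 14) (nat_lit 5) (nat_lit 16) (nat_lit 4) (nat_lit 14) (nat_lit 4) (nat_lit 377) (nat_lit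 306) (nat_lit 217)) (XT.nd (nat_lit 78) (nat_lit 76) (nat_lit 0) (XT.lf (nat_lit 0) (nat_lit 10363339364) (nat_lit 76) (nat_lit 40723867473) (nat_lit 76) (nat_lit 7207456726) (nat_lit 13) (nat_lit 4) (nat_lit 14) (nat_lit 5) (nat_lit 14) (nat_lit 4) (nat_lit 378) (nat_lit 306) (nat_lit 216)) (XT.lf (nat_lit 0) (nat_lit 670500988) (nat_lit 152) (nat_lit 32161901434) (nat_lit 76) (nat_lit 27899145294) (nat_lit 12) (nat_lit 5) (nat_lit 14) (nat_lit 5) (nat_lit 13) (nat_lit 4) (nat_lit 379) (nat_lit 306) (nat_lit 215)))) (XT.nd (nat_lit 78) (nat_lit 76) (nat_lit 0) (XT.lf (nat_lit 0) (nat_lit 8689300852) (nat_lit 152) (nat_lit 15742426199) (nat_lit 76) (nat_lit 38853186711) (nat_lit 12) (nat_lit 5) (nat_lit 14) (nat_lit 5) (nat_lit 13) (nat_lit 4) (nat_lit 380) (nat_lit 306) (nat_lit 214)) (XT.nd (nat_lit 78) (nat_lit 0) (nat_lit 0) (XT.lf (nat_lit 0) (nat_lit 1527617386) (nat_lit 76) (nat_lit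 15594951877) (nat_lit 152) (nat_lit 48842705793) (nat_lit 11) (nat_lit 5) (nat_lit 12) (nat_lit 5) (nat_lit 13) (nat_lit 4) (nat_lit 381) (nat_lit 306) (nat_lit 213)) (XT.lf (nat_lit 0) (nat_lit 20188717205) (nat_lit 76) (nat_lit 6045262727) (nat_lit 152) (nat_lit 42532853752) (nat_lit 11) (nat_lit 5) (nat_lit 12) (nat_lit 5) (nat_lit 13) (nat_lit 4) (nat_lit 382) (nat_lit 306) (nat_lit 212)))))) (XT.nd (nat_lit 468) (nat_lit 76) (nat_lit 0) (XT.nd (nat_lit 234) (nat_lit 76) (nat_lit 0) (XT.nd (nat_lit 78) (nat_lit 76) (nat_lit 0) (XT.lf (nat_lit 0) (nat_lit 35853353632) (nat_lit 152) (nat_lit 32006203824) (nat_lit 0) (nat_lit 3846296223) (nat_lit 11) (nat_lit 5) (nat_lit 13) (nat_lit 4) (nat_lit 11) (nat_lit 4) (nat_lit 383) (nat_lit 306) (nat_lit 211)) (XT.nd (nat_lit 78) (nat_lit 76) (nat_lit 0) (XT.lf (nat_lit 0) (nat_lit 46043487929) (nat_lit 152) (nat_lit 14722357067) (nat_lit 0)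 (nat_lit 14021492994) (nat_lit 11) (nat_lit 5) (nat_lit 13) (nat_lit 4) (nat_lit 11) (nat_lit 4) (nat_lit 384) (nat_lit 306) (nat_lit 210)) (XT.lf (nat_lit 0) (nat_lit 3521674889) (nat_lit 76) (nat_lit 53267569880) (nat_lit 76) (nat_lit 21231348731) (nat_lit 10) (nat_lit 4) (nat_lit 11) (nat_lit 5) (nat_lit 11) (nat_lit 4) (nat_lit 385) (nat_lit 306) (nat_lit 209)))) (XT.nd (nat_lit 78) (nat_lit 76) (nat_lit 0) (XT.lf (nat_lit 0) (nat_lit 23172582432) (nat_lit 76) (nat_lit 45140335255) (nat_lit 76) (nat_lit 13090565330) (nat_lit 10) (nat_lit 4) (nat_lit 11) (nat_lit 5) (nat_lit 11) (nat_lit 4) (nat_lit 386) (nat_lit 306) (nat_lit 208)) (XT.nd (nat_lit 78) (nat_lit 76) (nat_lit 0) (XT.lf (nat_lit 0) (nat_lit 43790365823) (nat_lit 76) (nat_lit 36614120803) (nat_lit 76) (nat_lit 4551447281) (nat_lit 10) (nat_lit 4) (nat_lit 11) (nat_lit 5) (nat_lit 11) (nat_lit 4) (nat_lit 387) (nat_lit 306)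 (nat_lit 207)) (XT.lf (nat_lit 0) (nat_lit 4265306356) (nat_lit 152) (nat_lit 23331084629) (nat_lit 76) (nat_lit 61086573638) (nat_lit 9) (nat_lit 5) (nat_lit 11) (nat_lit 5) (nat_lit 10) (nat_lit 4) (nat_lit 388) (nat_lit 306) (nat_lit 206))))) (XT.nd (nat_lit 234) (nat_lit 0) (nat_lit 0) (XT.nd (nat_lit 78) (nat_lit 76) (nat_lit 0) (XT.lf (nat_lit 0) (nat_lit 13362296641) (nat_lit 152) (nat_lit 4693958488) (nat_lit 76) (nat_lit 74536745355) (nat_lit 9) (nat_lit 5) (nat_lit 11) (nat_lit 5) (nat_lit 10) (nat_lit 4) (nat_lit 389) (nat_lit 306) (nat_lit 205)) (XT.nd (nat_lit 78) (nat_lit 0) (nat_lit 0) (XT.lf (nat_lit 0) (nat_lit 15352625181) (nat_lit 76) (nat_lit 7793930133) (nat_lit 152) (nat_lit 73540363950) (nat_lit 8) (nat_lit 5) (nat_lit 9) (nat_lit 5) (nat_lit 10) (nat_lit 4) (nat_lit 390) (nat_lit 306) (nat_lit 204)) (XT.lf (nat_lit 0) (nat_lit 33540130509) (nat_lit 152) (nat_lit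 64478725981) (nat_lit 0) (nat_lit 2960674285) (nat_lit 8) (nat_lit 5) (nat_lit 10) (nat_lit 4) (nat_lit 8) (nat_lit 4) (nat_lit 391) (nat_lit 306) (nat_lit 203)))) (XT.nd (nat_lit 78) (nat_lit 0) (nat_lit 0) (XT.lf (nat_lit 0) (nat_lit 44574254950) (nat_lit 152) (nat_lit 46921306402) (nat_lit 0) (nat_lit 13985169864) (nat_lit 8) (nat_lit 5) (nat_lit 10) (nat_lit 4) (nat_lit 8) (nat_lit 4) (nat_lit 392) (nat_lit 306) (nat_lit 202)) (XT.nd (nat_lit 78) (nat_lit 0) (nat_lit 0) (XT.lf (nat_lit 0) (nat_lit 56153515270) (nat_lit 152) (nat_lit 28498546875) (nat_lit 0) (nat_lit 25555259839) (nat_lit 8) (nat_lit 5) (nat_lit 10) (nat_lit 4) (nat_lit 8) (nat_lit 4) (nat_lit 393) (nat_lit 306) (nat_lit 201)) (XT.lf (nat_lit 0) (nat_lit 68305481136) (nat_lit 152) (nat_lit 9166583688) (nat_lit 0) (nat_lit 37698492044) (nat_lit 8) (nat_lit 5) (nat_lit 10) (nat_lit 4) (nat_lit 8) (nat_lit 4) (nat_lit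 394) (nat_lit 306) (nat_lit 200))))))) (XT.nd (nat_lit 858) (nat_lit 76) (nat_lit 0) (XT.nd (nat_lit 390) (nat_lit 152) (nat_lit 0) (XT.nd (nat_lit 156) (nat_lit 0) (nat_lit 0) (XT.nd (nat_lit 78) (nat_lit 0) (nat_lit 0) (XT.lf (nat_lit 0) (nat_lit 11488309287) (nat_lit 76) (nat_lit 69750141218) (nat_lit 76) (nat_lit 39134834352) (nat_lit 7) (nat_lit 4) (nat_lit 8) (nat_lit 5) (nat_lit 8) (nat_lit 4) (nat_lit 395) (nat_lit 306) (nat_lit 199)) (XT.lf (nat_lit 0) (nat_lit 33483007306) (nat_lit 76) (nat_lit 61484451264) (nat_lit 76) (nat_lit 30861222710) (nat_lit 7) (nat_lit 4) (nat_lit 8) (nat_lit 5) (nat_lit 8) (nat_lit 4) (nat_lit 396) (nat_lit 306) (nat_lit 198))) (XT.nd (nat_lit 78) (nat_lit 0) (nat_lit 0) (XT.lf (nat_lit 0) (nat_lit 56566790043) (nat_lit 76) (nat_lit 52810555279) (nat_lit 76) (nat_lit 22179782259) (nat_lit 7) (nat_lit 4) (nat_lit 8) (nat_lit 5) (nat_lit 8) (nat_lit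 4) (nat_lit 397) (nat_lit 306) (nat_lit 197)) (XT.nd (nat_lit 78) (nat_lit 0) (nat_lit 0) (XT.lf (nat_lit 0) (nat_lit 80794618886) (nat_lit 76) (nat_lit 43707801129) (nat_lit 76) (nat_lit 13069842903) (nat_lit 7) (nat_lit 4) (nat_lit 8) (nat_lit 5) (nat_lit 8) (nat_lit 4) (nat_lit 398) (nat_lit 306) (nat_lit 196)) (XT.lf (nat_lit 0) (nat_lit 106224179141) (nat_lit 76) (nat_lit 34154515589) (nat_lit 76) (nat_lit 3509714311) (nat_lit 7) (nat_lit 4) (nat_lit 8) (nat_lit 5) (nat_lit 8) (nat_lit 4) (nat_lit 399) (nat_lit 306) (nat_lit 195))))) (XT.nd (nat_lit 234) (nat_lit 0) (nat_lit 0) (XT.nd (nat_lit 78) (nat_lit 76) (nat_lit 0) (XT.lf (nat_lit 0) (nat_lit 6314577284) (nat_lit 152) (nat_lit 17706435037) (nat_lit 76) (nat_lit 126494499675) (nat_lit 6) (nat_lit 5) (nat_lit 8) (nat_lit 5) (nat_lit 7) (nat_lit 4) (nat_lit 400) (nat_lit 306) (nat_lit 194)) (XT.nd (nat_lit 78) (nat_lit 0) (nat_lit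 0) (XT.lf (nat_lit 0) (nat_lit 3288033712) (nat_lit 76) (nat_lit 13270775572) (nat_lit 152) (nat_lit 140909951388) (nat_lit 5) (nat_lit 5) (nat_lit 6) (nat_lit 5) (nat_lit 7) (nat_lit 4) (nat_lit 401) (nat_lit 306) (nat_lit 193)) (XT.lf (nat_lit 0) (nat_lit 25938179995) (nat_lit 76) (nat_lit 1672364688) (nat_lit 152) (nat_lit 137144363608) (nat_lit 5) (nat_lit 5) (nat_lit 6) (nat_lit 5) (nat_lit 7) (nat_lit 4) (nat_lit 402) (nat_lit 306) (nat_lit 192)))) (XT.nd (nat_lit 78) (nat_lit 0) (nat_lit 0) (XT.lf (nat_lit 0) (nat_lit 39374474638) (nat_lit 152) (nat_lit 122857069341) (nat_lit 0) (nat_lit 10165839968) (nat_lit 5) (nat_lit 5) (nat_lit 7) (nat_lit 4) (nat_lit 5) (nat_lit 4) (nat_lit 403) (nat_lit 306) (nat_lit 191)) (XT.nd (nat_lit 78) (nat_lit 0) (nat_lit 0) (XT.lf (nat_lit 0) (nat_lit 51749807572) (nat_lit 152) (nat_lit 106134949976) (nat_lit 0) (nat_lit 22536066510) (nat_lit 5)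 (nat_lit 5) (nat_lit 7) (nat_lit 4) (nat_lit 5) (nat_lit 4) (nat_lit 404) (nat_lit 306) (nat_lit 190)) (XT.lf (nat_lit 0) (nat_lit 64739898264) (nat_lit 152) (nat_lit 88584445331) (nat_lit 0) (nat_lit 35521293973) (nat_lit 5) (nat_lit 5) (nat_lit 7) (nat_lit 4) (nat_lit 5) (nat_lit 4) (nat_lit 405) (nat_lit 306) (nat_lit 189)))))) (XT.nd (nat_lit 468) (nat_lit 0) (nat_lit 0) (XT.nd (nat_lit 234) (nat_lit 76) (nat_lit 0) (XT.nd (nat_lit 78) (nat_lit 0) (nat_lit 0) (XT.lf (nat_lit 0) (nat_lit 78375675501) (nat_lit 152) (nat_lit 70163768490) (nat_lit 0) (nat_lit 49152439563) (nat_lit 5) (nat_lit 5) (nat_lit 7) (nat_lit 4) (nat_lit 5) (nat_lit 4) (nat_lit 406) (nat_lit 306) (nat_lit 188)) (XT.nd (nat_lit 78) (nat_lit 0) (nat_lit 0) (XT.lf (nat_lit 0) (nat_lit 92689605421) (nat_lit 152) (nat_lit 50829060700) (nat_lit 0) (nat_lit 63461958390) (nat_lit 5) (nat_lit 5) (nat_lit 7) (nat_lit 4) (nat_lit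 5) (nat_lit 4) (nat_lit 407) (nat_lit 306) (nat_lit 187)) (XT.lf (nat_lit 0) (nat_lit 107715768808) (nat_lit 152) (nat_lit 30534286941) (nat_lit 0) (nat_lit 78483920736) (nat_lit 5) (nat_lit 5) (nat_lit 7) (nat_lit 4) (nat_lit 5) (nat_lit 4) (nat_lit 408) (nat_lit 306) (nat_lit 186)))) (XT.nd (nat_lit 78) (nat_lit 76) (nat_lit 0) (XT.lf (nat_lit 0) (nat_lit 123489942242) (nat_lit 152) (nat_lit 9231126324) (nat_lit 0) (nat_lit 94254093180) (nat_lit 5) (nat_lit 5) (nat_lit 7) (nat_lit 4) (nat_lit 5) (nat_lit 4) (nat_lit 409) (nat_lit 306) (nat_lit 185)) (XT.nd (nat_lit 78) (nat_lit 0) (nat_lit 0) (XT.lf (nat_lit 0) (nat_lit 13565317851) (nat_lit 76) (nat_lit 126696158057) (nat_lit 76) (nat_lit 97456498526) (nat_lit 4) (nat_lit 4) (nat_lit 5) (nat_lit 5) (nat_lit 5) (nat_lit 4) (nat_lit 410) (nat_lit 306) (nat_lit 184)) (XT.lf (nat_lit 0) (nat_lit 37816116305) (nat_lit 76) (nat_lit 120208719124)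 (nat_lit 76) (nat_lit 90965430577) (nat_lit 4) (nat_lit 4) (nat_lit 5) (nat_lit 5) (nat_lit 5) (nat_lit 4) (nat_lit 411) (nat_lit 306) (nat_lit 183))))) (XT.nd (nat_lit 234) (nat_lit 0) (nat_lit 0) (XT.nd (nat_lit 78) (nat_lit 0) (nat_lit 0) (XT.lf (nat_lit 0) (nat_lit 63273786309) (nat_lit 76) (nat_lit 113399639076) (nat_lit 76) (nat_lit 84152894322) (nat_lit 4) (nat_lit 4) (nat_lit 5) (nat_lit 5) (nat_lit 5) (nat_lit 4) (nat_lit 412) (nat_lit 306) (nat_lit 182)) (XT.nd (nat_lit 78) (nat_lit 0) (nat_lit 0) (XT.lf (nat_lit 0) (nat_lit 89998941364) (nat_lit 76) (nat_lit 106252705817) (nat_lit 76) (nat_lit 77002669437) (nat_lit 4) (nat_lit 4) (nat_lit 5) (nat_lit 5) (nat_lit 5) (nat_lit 4) (nat_lit 413) (nat_lit 306) (nat_lit 181)) (XT.lf (nat_lit 0) (nat_lit 118055212790) (nat_lit 76) (nat_lit 98750902839) (nat_lit 76) (nat_lit 69497731579) (nat_lit 4) (nat_lit 4) (nat_lit 5) (nat_lit 5)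 (nat_lit 5) (nat_lit 4) (nat_lit 414) (nat_lit 306) (nat_lit 180)))) (XT.nd (nat_lit 78) (nat_lit 0) (nat_lit 0) (XT.lf (nat_lit 0) (nat_lit 147509401234) (nat_lit 76) (nat_lit 90876368708) (nat_lit 76) (nat_lit 61620211846) (nat_lit 4) (nat_lit 4) (nat_lit 5) (nat_lit 5) (nat_lit 5) (nat_lit 4) (nat_lit 415) (nat_lit 306) (nat_lit 179)) (XT.nd (nat_lit 78) (nat_lit 0) (nat_lit 0) (XT.lf (nat_lit 0) (nat_lit 178431635717) (nat_lit 76) (nat_lit 82610354531) (nat_lit 76) (nat_lit 53351354239) (nat_lit 4) (nat_lit 4) (nat_lit 5) (nat_lit 5) (nat_lit 5) (nat_lit 4) (nat_lit 416) (nat_lit 306) (nat_lit 178)) (XT.lf (nat_lit 0) (nat_lit 210895540606) (nat_lit 76) (nat_lit 73933179323) (nat_lit 76) (nat_lit 44671471003) (nat_lit 4) (nat_lit 4) (nat_lit 5) (nat_lit 5) (nat_lit 5) (nat_lit 4) (nat_lit 417) (nat_lit 306) (nat_lit 177))))))))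
noncomputable def xc120 : XT := (XT.nd (nat_lit 38766) (nat_lit 0) (nat_lit 3876) (XT.nd (nat_lit 858) (nat_lit 0) (nat_lit 0) (XT.nd (nat_lit 390) (nat_lit 76) (nat_lit 0) (XT.nd (nat_lit 156) (nat_lit 76) (nat_lit 0) (XT.nd (nat_lit 78) (nat_lit 0) (nat_lit 0) (XT.lf (nat_lit 0) (nat_lit 244978410912) (nat_lit 76) (nat_lit 64824183143) (nat_lit 76) (nat_lit 35559895749) (nat_lit 4) (nat_lit 4) (nat_lit 5) (nat_lit 5) (nat_lit 5) (nat_lit 4) (nat_lit 418) (nat_lit 306) (nat_lit 176)) (XT.lf (nat_lit 0) (nat_lit 280761396326) (nat_lit 76) (nat_lit 55261677905) (nat_lit 76) (nat_lit 25994934249) (nat_lit 4) (nat_lit 4) (nat_lit 5) (nat_lit 5) (nat_lit 5) (nat_lit 4) (nat_lit 419) (nat_lit 306) (nat_lit 175))) (XT.nd (nat_lit 78) (nat_lit 76) (nat_lit 0) (XT.lf (nat_lit 0) (nat_lit 318329694434) (nat_lit 76) (nat_lit 45222895739) (nat_lit 76) (nat_lit 15953812787) (nat_lit 4) (nat_lit 4)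 (nat_lit 5) (nat_lit 5) (nat_lit 5) (nat_lit 4) (nat_lit 420) (nat_lit 306) (nat_lit 174)) (XT.nd (nat_lit 78) (nat_lit 76) (nat_lit 0) (XT.lf (nat_lit 0) (nat_lit 357772753564) (nat_lit 76) (nat_lit 34683934783) (nat_lit 76) (nat_lit 5412623929) (nat_lit 4) (nat_lit 4) (nat_lit 5) (nat_lit 5) (nat_lit 5) (nat_lit 4) (nat_lit 421) (nat_lit 306) (nat_lit 173)) (XT.lf (nat_lit 0) (nat_lit 5472775710) (nat_lit 152) (nat_lit 18054242457) (nat_lit 76) (nat_lit 393619025946) (nat_lit 3) (nat_lit 5) (nat_lit 5) (nat_lit 5) (nat_lit 4) (nat_lit 4) (nat_lit 422) (nat_lit 306) (nat_lit 172))))) (XT.nd (nat_lit 234) (nat_lit 0) (nat_lit 0) (XT.nd (nat_lit 78) (nat_lit 0) (nat_lit 0) (XT.lf (nat_lit 0) (nat_lit 5163345071) (nat_lit 76) (nat_lit 11636068835) (nat_lit 152) (nat_lit 420578819023) (nat_lit 2) (nat_lit 5) (nat_lit 3) (nat_lit 5) (nat_lit 4) (nat_lit 4) (nat_lit 423) (nat_lit 306) (nat_lit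 171)) (XT.nd (nat_lit 78) (nat_lit 0) (nat_lit 0) (XT.lf (nat_lit 0) (nat_lit 29014675967) (nat_lit 152) (nat_lit 428459782138) (nat_lit 0) (nat_lit 1131458840) (nat_lit 2) (nat_lit 5) (nat_lit 4) (nat_lit 4) (nat_lit 2) (nat_lit 4) (nat_lit 424) (nat_lit 306) (nat_lit 170)) (XT.lf (nat_lit 0) (nat_lit 42029799458) (nat_lit 152) (nat_lit 424710894415) (nat_lit 0) (nat_lit 14144836713) (nat_lit 2) (nat_lit 5) (nat_lit 4) (nat_lit 4) (nat_lit 2) (nat_lit 4) (nat_lit 425) (nat_lit 306) (nat_lit 169)))) (XT.nd (nat_lit 78) (nat_lit 0) (nat_lit 0) (XT.lf (nat_lit 0) (nat_lit 55694101126) (nat_lit 152) (nat_lit 420777627120) (nat_lit 0) (nat_lit 27807475886) (nat_lit 2) (nat_lit 5) (nat_lit 4) (nat_lit 4) (nat_lit 2) (nat_lit 4) (nat_lit 426) (nat_lit 306) (nat_lit 168)) (XT.nd (nat_lit 78) (nat_lit 0) (nat_lit 0) (XT.lf (nat_lit 0) (nat_lit 70040115022) (nat_lit 152) (nat_lit 416650615333)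 (nat_lit 0) (nat_lit 42151906454) (nat_lit 2) (nat_lit 5) (nat_lit 4) (nat_lit 4) (nat_lit 2) (nat_lit 4) (nat_lit 427) (nat_lit 306) (nat_lit 167)) (XT.lf (nat_lit 0) (nat_lit 85101998321) (nat_lit 152) (nat_lit 412320032835) (nat_lit 0) (nat_lit 57212281822) (nat_lit 2) (nat_lit 5) (nat_lit 4) (nat_lit 4) (nat_lit 2) (nat_lit 4) (nat_lit 428) (nat_lit 306) (nat_lit 166)))))) (XT.nd (nat_lit 37440) (nat_lit 0) (nat_lit 8892) (XT.nd (nat_lit 156) (nat_lit 0) (nat_lit 0) (XT.nd (nat_lit 78) (nat_lit 0) (nat_lit 0) (XT.lf (nat_lit 0) (nat_lit 100915612651) (nat_lit 152) (nat_lit 407775568715) (nat_lit 0) (nat_lit 73024460026) (nat_lit 2) (nat_lit 5) (nat_lit 4) (nat_lit 4) (nat_lit 2) (nat_lit 4) (nat_lit 429) (nat_lit 306) (nat_lit 165)) (XT.lf (nat_lit 0) (nat_lit 117518609474) (nat_lit 152) (nat_lit 403006402820) (nat_lit 0) (nat_lit 89626089111) (nat_lit 2) (nat_lit 5) (nat_lit 4) (nat_lit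 4) (nat_lit 2) (nat_lit 4) (nat_lit 430) (nat_lit 306) (nat_lit 164))) (XT.nd (nat_lit 78) (nat_lit 0) (nat_lit 0) (XT.lf (nat_lit 0) (nat_lit 134950519735) (nat_lit 152) (nat_lit 398001179993) (nat_lit 0) (nat_lit 107056696764) (nat_lit 2) (nat_lit 5) (nat_lit 4) (nat_lit 4) (nat_lit 2) (nat_lit 4) (nat_lit 431) (nat_lit 306) (nat_lit 163)) (XT.nd (nat_lit 37128) (nat_lit 0) (nat_lit 9348) (XT.lf (nat_lit 0) (nat_lit 153252847982) (nat_lit 152) (nat_lit 392747983037) (nat_lit 0) (nat_lit 125357784432) (nat_lit 2) (nat_lit 5) (nat_lit 4) (nat_lit 4) (nat_lit 2) (nat_lit 4) (nat_lit 432) (nat_lit 306) (nat_lit 162)) (XT.lf (nat_lit 0) (nat_lit 35392102) (nat_lit 532) (nat_lit 1736629812) (nat_lit 532) (nat_lit 1736629812) (nat_lit 125) (nat_lit 3) (nat_lit 132) (nat_lit 3) (nat_lit 132) (nat_lit 5) (nat_lit 307) (nat_lit 307) (nat_lit 286))))) (XT.nd (nat_lit 234) (nat_lit 456) (nat_lit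 0) (XT.nd (nat_lit 78) (nat_lit 0) (nat_lit 0) (XT.lf (nat_lit 0) (nat_lit 1789167807) (nat_lit 532) (nat_lit 175354052) (nat_lit 532) (nat_lit 5139050925) (nat_lit 125) (nat_lit 3) (nat_lit 132) (nat_lit 3) (nat_lit 132) (nat_lit 5) (nat_lit 308) (nat_lit 307) (nat_lit 285)) (XT.nd (nat_lit 78) (nat_lit 0) (nat_lit 76) (XT.lf (nat_lit 76) (nat_lit 3336437484) (nat_lit 0) (nat_lit 199239508) (nat_lit 532) (nat_lit 3661581594) (nat_lit 126) (nat_lit 5) (nat_lit 125) (nat_lit 3) (nat_lit 132) (nat_lit 5) (nat_lit 309) (nat_lit 307) (nat_lit 284)) (XT.lf (nat_lit 0) (nat_lit 5293578428) (nat_lit 456) (nat_lit 354554835) (nat_lit 532) (nat_lit 1651495243) (nat_lit 126) (nat_lit 5) (nat_lit 132) (nat_lit 5) (nat_lit 133) (nat_lit 5) (nat_lit 310) (nat_lit 307) (nat_lit 283)))) (XT.nd (nat_lit 78) (nat_lit 532) (nat_lit 0) (XT.lf (nat_lit 76) (nat_lit 3371570714) (nat_lit 0) (nat_lit 3723919665)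 (nat_lit 532) (nat_lit 314014263) (nat_lit 127) (nat_lit 5) (nat_lit 126) (nat_lit 5) (nat_lit 133) (nat_lit 5) (nat_lit 311) (nat_lit 307) (nat_lit 282)) (XT.nd (nat_lit 78) (nat_lit 0) (nat_lit 76) (XT.lf (nat_lit 0) (nat_lit 1324200031) (nat_lit 532) (nat_lit 313732689) (nat_lit 608) (nat_lit 5890556095) (nat_lit 119) (nat_lit 5) (nat_lit 126) (nat_lit 5) (nat_lit 127) (nat_lit 5) (nat_lit 312) (nat_lit 307) (nat_lit 281)) (XT.lf (nat_lit 0) (nat_lit 3007844315) (nat_lit 532) (nat_lit 4016546148) (nat_lit 608) (nat_lit 630237881) (nat_lit 120) (nat_lit 5) (nat_lit 127) (nat_lit 5) (nat_lit 128) (nat_lit 5) (nat_lit 313) (nat_lit 307) (nat_lit 280))))))) (XT.nd (nat_lit 858) (nat_lit 2128) (nat_lit 0) (XT.nd (nat_lit 390) (nat_lit 1824) (nat_lit 0) (XT.nd (nat_lit 156) (nat_lit 1140) (nat_lit 0) (XT.nd (nat_lit 78) (nat_lit 0) (nat_lit 0) (XT.lf (nat_lit 0) (nat_lit 4718861994) (nat_lit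 532) (nat_lit 79084857) (nat_lit 608) (nat_lit 2992127627) (nat_lit 120) (nat_lit 5) (nat_lit 127) (nat_lit 5) (nat_lit 128) (nat_lit 5) (nat_lit 314) (nat_lit 307) (nat_lit 279)) (XT.lf (nat_lit 76) (nat_lit 4126644927) (nat_lit 0) (nat_lit 2368394605) (nat_lit 608) (nat_lit 1438424544) (nat_lit 121) (nat_lit 5) (nat_lit 120) (nat_lit 5) (nat_lit 128) (nat_lit 5) (nat_lit 315) (nat_lit 307) (nat_lit 278))) (XT.nd (nat_lit 78) (nat_lit 608) (nat_lit 0) (XT.lf (nat_lit 0) (nat_lit 195071996) (nat_lit 608) (nat_lit 7683516972) (nat_lit 76) (nat_lit 208961087) (nat_lit 113) (nat_lit 5) (nat_lit 121) (nat_lit 5) (nat_lit 114) (nat_lit 5) (nat_lit 316) (nat_lit 307) (nat_lit 277)) (XT.nd (nat_lit 78) (nat_lit 608) (nat_lit 0) (XT.lf (nat_lit 0) (nat_lit 1886354844) (nat_lit 608) (nat_lit 3418002463) (nat_lit 76) (nat_lit 2942712354) (nat_lit 113) (nat_lit 5) (nat_lit 121) (nat_lit 5) (nat_lit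 114) (nat_lit 5) (nat_lit 317) (nat_lit 307) (nat_lit 276)) (XT.lf (nat_lit 0) (nat_lit 1030912969) (nat_lit 608) (nat_lit 2571287753) (nat_lit 684) (nat_lit 4815489308) (nat_lit 105) (nat_lit 5) (nat_lit 113) (nat_lit 5) (nat_lit 114) (nat_lit 5) (nat_lit 318) (nat_lit 307) (nat_lit 275))))) (XT.nd (nat_lit 234) (nat_lit 1064) (nat_lit 0) (XT.nd (nat_lit 78) (nat_lit 760) (nat_lit 0) (XT.lf (nat_lit 0) (nat_lit 5394074947) (nat_lit 684) (nat_lit 2844443961) (nat_lit 76) (nat_lit 358929494) (nat_lit 105) (nat_lit 5) (nat_lit 114) (nat_lit 5) (nat_lit 106) (nat_lit 5) (nat_lit 319) (nat_lit 307) (nat_lit 274)) (XT.nd (nat_lit 78) (nat_lit 76) (nat_lit 0) (XT.lf (nat_lit 0) (nat_lit 1880342951) (nat_lit 684) (nat_lit 5396940253) (nat_lit 760) (nat_lit 1508937604) (nat_lit 96) (nat_lit 5) (nat_lit 105) (nat_lit 5) (nat_lit 106) (nat_lit 5) (nat_lit 320) (nat_lit 307) (nat_lit 273)) (XT.lf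 (nat_lit 0) (nat_lit 241913633) (nat_lit 760) (nat_lit 2110963550) (nat_lit 76) (nat_lit 6632429203) (nat_lit 95) (nat_lit 5) (nat_lit 105) (nat_lit 5) (nat_lit 96) (nat_lit 5) (nat_lit 321) (nat_lit 307) (nat_lit 272)))) (XT.nd (nat_lit 78) (nat_lit 380) (nat_lit 0) (XT.lf (nat_lit 0) (nat_lit 2024410359) (nat_lit 760) (nat_lit 6276785500) (nat_lit 76) (nat_lit 892270620) (nat_lit 86) (nat_lit 5) (nat_lit 96) (nat_lit 5) (nat_lit 87) (nat_lit 5) (nat_lit 322) (nat_lit 307) (nat_lit 271)) (XT.nd (nat_lit 78) (nat_lit 380) (nat_lit 0) (XT.lf (nat_lit 0) (nat_lit 3907812325) (nat_lit 760) (nat_lit 1243729986) (nat_lit 76) (nat_lit 4259996319) (nat_lit 86) (nat_lit 5) (nat_lit 96) (nat_lit 5) (nat_lit 87) (nat_lit 5) (nat_lit 323) (nat_lit 307) (nat_lit 270)) (XT.lf (nat_lit 0) (nat_lit 4112291879) (nat_lit 380) (nat_lit 1777175376) (nat_lit 456) (nat_lit 3750931631) (nat_lit 81) (nat_lit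 5) (nat_lit 86) (nat_lit 5) (nat_lit 87) (nat_lit 5) (nat_lit 324) (nat_lit 307) (nat_lit 269)))))) (XT.nd (nat_lit 468) (nat_lit 1140) (nat_lit 0) (XT.nd (nat_lit 234) (nat_lit 304) (nat_lit 0) (XT.nd (nat_lit 78) (nat_lit 684) (nat_lit 0) (XT.lf (nat_lit 0) (nat_lit 7960981327) (nat_lit 456) (nat_lit 190579286) (nat_lit 76) (nat_lit 1729687143) (nat_lit 81) (nat_lit 5) (nat_lit 87) (nat_lit 5) (nat_lit 82) (nat_lit 5) (nat_lit 325) (nat_lit 307) (nat_lit 268)) (XT.nd (nat_lit 78) (nat_lit 304) (nat_lit 0) (XT.lf (nat_lit 0) (nat_lit 62364784) (nat_lit 380) (nat_lit 4630816135) (nat_lit 76) (nat_lit 5438008484) (nat_lit 76) (nat_lit 5) (nat_lit 81) (nat_lit 5) (nat_lit 77) (nat_lit 5) (nat_lit 326) (nat_lit 307) (nat_lit 267)) (XT.lf (nat_lit 0) (nat_lit 1030198797) (nat_lit 304) (nat_lit 1014102202) (nat_lit 380) (nat_lit 8349590720) (nat_lit 72) (nat_lit 5) (nat_lit 76) (nat_lit 5)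 (nat_lit 77) (nat_lit 5) (nat_lit 327) (nat_lit 307) (nat_lit 266)))) (XT.nd (nat_lit 78) (nat_lit 304) (nat_lit 0) (XT.lf (nat_lit 0) (nat_lit 4196445300) (nat_lit 380) (nat_lit 3638449812) (nat_lit 76) (nat_lit 2831347928) (nat_lit 72) (nat_lit 5) (nat_lit 77) (nat_lit 5) (nat_lit 73) (nat_lit 5) (nat_lit 328) (nat_lit 307) (nat_lit 265)) (XT.nd (nat_lit 78) (nat_lit 0) (nat_lit 0) (XT.lf (nat_lit 0) (nat_lit 2373431232) (nat_lit 304) (nat_lit 4085894423) (nat_lit 380) (nat_lit 4492795975) (nat_lit 68) (nat_lit 5) (nat_lit 72) (nat_lit 5) (nat_lit 73) (nat_lit 5) (nat_lit 329) (nat_lit 307) (nat_lit 264)) (XT.lf (nat_lit 0) (nat_lit 8754211912) (nat_lit 304) (nat_lit 93706800) (nat_lit 380) (nat_lit 2403809999) (nat_lit 68) (nat_lit 5) (nat_lit 72) (nat_lit 5) (nat_lit 73) (nat_lit 5) (nat_lit 330) (nat_lit 307) (nat_lit 263))))) (XT.nd (nat_lit 234) (nat_lit 532) (nat_lit 0) (XT.nd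 (nat_lit 78) (nat_lit 304) (nat_lit 0) (XT.lf (nat_lit 0) (nat_lit 3890747942) (nat_lit 304) (nat_lit 7543073860) (nat_lit 380) (nat_lit 128660321) (nat_lit 64) (nat_lit 5) (nat_lit 68) (nat_lit 5) (nat_lit 69) (nat_lit 5) (nat_lit 331) (nat_lit 307) (nat_lit 262)) (XT.nd (nat_lit 78) (nat_lit 228) (nat_lit 0) (XT.lf (nat_lit 0) (nat_lit 2186129444) (nat_lit 380) (nat_lit 1297213482) (nat_lit 76) (nat_lit 8403809027) (nat_lit 63) (nat_lit 5) (nat_lit 68) (nat_lit 5) (nat_lit 64) (nat_lit 5) (nat_lit 332) (nat_lit 307) (nat_lit 261)) (XT.lf (nat_lit 0) (nat_lit 4667781191) (nat_lit 304) (nat_lit 6724300120) (nat_lit 76) (nat_lit 833148015) (nat_lit 60) (nat_lit 5) (nat_lit 64) (nat_lit 5) (nat_lit 61) (nat_lit 5) (nat_lit 333) (nat_lit 307) (nat_lit 260)))) (XT.nd (nat_lit 78) (nat_lit 532) (nat_lit 0) (XT.lf (nat_lit 0) (nat_lit 7309918629) (nat_lit 304) (nat_lit 9077839) (nat_lit 76)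 (nat_lit 5259443303) (nat_lit 60) (nat_lit 5) (nat_lit 64) (nat_lit 5) (nat_lit 61) (nat_lit 5) (nat_lit 334) (nat_lit 307) (nat_lit 259)) (XT.nd (nat_lit 78) (nat_lit 228) (nat_lit 0) (XT.lf (nat_lit 0) (nat_lit 7219137375) (nat_lit 304) (nat_lit 2936755614) (nat_lit 380) (nat_lit 2789878255) (nat_lit 56) (nat_lit 5) (nat_lit 60) (nat_lit 5) (nat_lit 61) (nat_lit 5) (nat_lit 335) (nat_lit 307) (nat_lit 258)) (XT.lf (nat_lit 0) (nat_lit 1443020487) (nat_lit 228) (nat_lit 11709759654) (nat_lit 304) (nat_lit 178303215) (nat_lit 53) (nat_lit 5) (nat_lit 56) (nat_lit 5) (nat_lit 57) (nat_lit 5) (nat_lit 336) (nat_lit 307) (nat_lit 257))))))))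
noncomputable def xc121 : XT := (XT.nd (nat_lit 1794) (nat_lit 1064) (nat_lit 0) (XT.nd (nat_lit 858) (nat_lit 988) (nat_lit 0) (XT.nd (nat_lit 390) (nat_lit 608) (nat_lit 0) (XT.nd (nat_lit 156) (nat_lit 228) (nat_lit 0) (XT.nd (nat_lit 78) (nat_lit 228) (nat_lit 0) (XT.lf (nat_lit 0) (nat_lit 2588832768) (nat_lit 304) (nat_lit 4705860142) (nat_lit 76) (nat_lit 6433655256) (nat_lit 52) (nat_lit 5) (nat_lit 56) (nat_lit 5) (nat_lit 53) (nat_lit 5) (nat_lit 337) (nat_lit 307) (nat_lit 256)) (XT.lf (nat_lit 0) (nat_lit 2871817947) (nat_lit 228) (nat_lit 2623566557) (nat_lit 304) (nat_lit 8649631680) (nat_lit 49) (nat_lit 5) (nat_lit 52) (nat_lit 5) (nat_lit 53) (nat_lit 5) (nat_lit 338) (nat_lit 307) (nat_lit 255))) (XT.nd (nat_lit 78) (nat_lit 228) (nat_lit 0) (XT.lf (nat_lit 0) (nat_lit 8626851914) (nat_lit 304) (nat_lit 3677118820) (nat_lit 76) (nat_lit 2274604297) (nat_lit 49) (nat_lit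 5) (nat_lit 53) (nat_lit 5) (nat_lit 50) (nat_lit 5) (nat_lit 339) (nat_lit 307) (nat_lit 254)) (XT.nd (nat_lit 78) (nat_lit 76) (nat_lit 0) (XT.lf (nat_lit 0) (nat_lit 4343909719) (nat_lit 152) (nat_lit 7646547115) (nat_lit 228) (nat_lit 3039611859) (nat_lit 47) (nat_lit 5) (nat_lit 49) (nat_lit 5) (nat_lit 50) (nat_lit 5) (nat_lit 340) (nat_lit 307) (nat_lit 253)) (XT.lf (nat_lit 0) (nat_lit 45856447) (nat_lit 228) (nat_lit 2659921014) (nat_lit 76) (nat_lit 12796960711) (nat_lit 46) (nat_lit 5) (nat_lit 49) (nat_lit 5) (nat_lit 47) (nat_lit 5) (nat_lit 341) (nat_lit 307) (nat_lit 252))))) (XT.nd (nat_lit 234) (nat_lit 228) (nat_lit 0) (XT.nd (nat_lit 78) (nat_lit 152) (nat_lit 0) (XT.lf (nat_lit 0) (nat_lit 3282409082) (nat_lit 304) (nat_lit 10178061424) (nat_lit 76) (nat_lit 2531161347) (nat_lit 43) (nat_lit 5) (nat_lit 47) (nat_lit 5) (nat_lit 44) (nat_lit 5) (nat_lit 342) (nat_lit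 307) (nat_lit 251)) (XT.nd (nat_lit 78) (nat_lit 152) (nat_lit 0) (XT.lf (nat_lit 0) (nat_lit 6738226219) (nat_lit 304) (nat_lit 1794157246) (nat_lit 76) (nat_lit 7969743767) (nat_lit 43) (nat_lit 5) (nat_lit 47) (nat_lit 5) (nat_lit 44) (nat_lit 5) (nat_lit 343) (nat_lit 307) (nat_lit 250)) (XT.lf (nat_lit 0) (nat_lit 7192059833) (nat_lit 152) (nat_lit 3255914340) (nat_lit 228) (nat_lit 6586143694) (nat_lit 41) (nat_lit 5) (nat_lit 43) (nat_lit 5) (nat_lit 44) (nat_lit 5) (nat_lit 344) (nat_lit 307) (nat_lit 249)))) (XT.nd (nat_lit 78) (nat_lit 228) (nat_lit 0) (XT.lf (nat_lit 0) (nat_lit 14379121372) (nat_lit 228) (nat_lit 985086419) (nat_lit 76) (nat_lit 2226730827) (nat_lit 41) (nat_lit 5) (nat_lit 44) (nat_lit 5) (nat_lit 42) (nat_lit 5) (nat_lit 345) (nat_lit 307) (nat_lit 248)) (XT.nd (nat_lit 78) (nat_lit 0) (nat_lit 0) (XT.lf (nat_lit 0) (nat_lit 479883353) (nat_lit 228) (nat_lit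 9687856653) (nat_lit 76) (nat_lit 7999662619) (nat_lit 38) (nat_lit 5) (nat_lit 41) (nat_lit 5) (nat_lit 39) (nat_lit 5) (nat_lit 346) (nat_lit 307) (nat_lit 247)) (XT.lf (nat_lit 0) (nat_lit 4236212376) (nat_lit 228) (nat_lit 418764905) (nat_lit 76) (nat_lit 14115703451) (nat_lit 38) (nat_lit 5) (nat_lit 41) (nat_lit 5) (nat_lit 39) (nat_lit 5) (nat_lit 347) (nat_lit 307) (nat_lit 246)))))) (XT.nd (nat_lit 468) (nat_lit 456) (nat_lit 0) (XT.nd (nat_lit 234) (nat_lit 228) (nat_lit 0) (XT.nd (nat_lit 78) (nat_lit 152) (nat_lit 0) (XT.lf (nat_lit 0) (nat_lit 8322184640) (nat_lit 228) (nat_lit 9841068410) (nat_lit 76) (nat_lit 1233799889) (nat_lit 36) (nat_lit 5) (nat_lit 39) (nat_lit 5) (nat_lit 37) (nat_lit 5) (nat_lit 348) (nat_lit 307) (nat_lit 245)) (XT.nd (nat_lit 78) (nat_lit 152) (nat_lit 0) (XT.lf (nat_lit 0) (nat_lit 12668780515) (nat_lit 228) (nat_lit 130649664) (nat_lit 76) (nat_lit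 7252517838) (nat_lit 36) (nat_lit 5) (nat_lit 39) (nat_lit 5) (nat_lit 37) (nat_lit 5) (nat_lit 349) (nat_lit 307) (nat_lit 244)) (XT.lf (nat_lit 0) (nat_lit 10354957962) (nat_lit 152) (nat_lit 7013518752) (nat_lit 228) (nat_lit 3364342139) (nat_lit 34) (nat_lit 5) (nat_lit 36) (nat_lit 5) (nat_lit 37) (nat_lit 5) (nat_lit 350) (nat_lit 307) (nat_lit 243)))) (XT.nd (nat_lit 78) (nat_lit 152) (nat_lit 0) (XT.lf (nat_lit 0) (nat_lit 804554084) (nat_lit 228) (nat_lit 133583333) (nat_lit 76) (nat_lit 20510120328) (nat_lit 33) (nat_lit 5) (nat_lit 36) (nat_lit 5) (nat_lit 34) (nat_lit 5) (nat_lit 351) (nat_lit 307) (nat_lit 242)) (XT.nd (nat_lit 78) (nat_lit 0) (nat_lit 0) (XT.lf (nat_lit 0) (nat_lit 5302516018) (nat_lit 228) (nat_lit 11401961035) (nat_lit 76) (nat_lit 5480566502) (nat_lit 31) (nat_lit 5) (nat_lit 34) (nat_lit 5) (nat_lit 32) (nat_lit 5) (nat_lit 352) (nat_lit 307) (nat_lit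 241)) (XT.lf (nat_lit 0) (nat_lit 10018854125) (nat_lit 228) (nat_lit 764035707) (nat_lit 76) (nat_lit 12176120987) (nat_lit 31) (nat_lit 5) (nat_lit 34) (nat_lit 5) (nat_lit 32) (nat_lit 5) (nat_lit 353) (nat_lit 307) (nat_lit 240))))) (XT.nd (nat_lit 234) (nat_lit 152) (nat_lit 0) (XT.nd (nat_lit 78) (nat_lit 152) (nat_lit 0) (XT.lf (nat_lit 0) (nat_lit 10710214731) (nat_lit 152) (nat_lit 4404962673) (nat_lit 228) (nat_lit 8649305935) (nat_lit 29) (nat_lit 5) (nat_lit 31) (nat_lit 5) (nat_lit 32) (nat_lit 5) (nat_lit 354) (nat_lit 307) (nat_lit 239)) (XT.nd (nat_lit 78) (nat_lit 152) (nat_lit 0) (XT.lf (nat_lit 0) (nat_lit 20492473254) (nat_lit 228) (nat_lit 1899524012) (nat_lit 76) (nat_lit 2216938976) (nat_lit 29) (nat_lit 5) (nat_lit 32) (nat_lit 5) (nat_lit 30) (nat_lit 4) (nat_lit 355) (nat_lit 307) (nat_lit 238)) (XT.lf (nat_lit 0) (nat_lit 832856789) (nat_lit 152) (nat_lit 15473915656)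 (nat_lit 76) (nat_lit 9177829824) (nat_lit 27) (nat_lit 5) (nat_lit 29) (nat_lit 5) (nat_lit 28) (nat_lit 5) (nat_lit 356) (nat_lit 307) (nat_lit 237)))) (XT.nd (nat_lit 78) (nat_lit 152) (nat_lit 0) (XT.lf (nat_lit 0) (nat_lit 5902413170) (nat_lit 152) (nat_lit 3925040955) (nat_lit 76) (nat_lit 16572680376) (nat_lit 27) (nat_lit 5) (nat_lit 29) (nat_lit 5) (nat_lit 28) (nat_lit 5) (nat_lit 357) (nat_lit 307) (nat_lit 236)) (XT.nd (nat_lit 78) (nat_lit 0) (nat_lit 0) (XT.lf (nat_lit 0) (nat_lit 8436102186) (nat_lit 152) (nat_lit 2900498326) (nat_lit 228) (nat_lit 16019297168) (nat_lit 25) (nat_lit 5) (nat_lit 27) (nat_lit 5) (nat_lit 28) (nat_lit 5) (nat_lit 358) (nat_lit 307) (nat_lit 235)) (XT.lf (nat_lit 0) (nat_lit 17157985268) (nat_lit 228) (nat_lit 6909322657) (nat_lit 76) (nat_lit 4286378109) (nat_lit 25) (nat_lit 5) (nat_lit 28) (nat_lit 5) (nat_lit 26) (nat_lit 4) (nat_lit 359)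 (nat_lit 307) (nat_lit 234))))))) (XT.nd (nat_lit 858) (nat_lit 456) (nat_lit 0) (XT.nd (nat_lit 390) (nat_lit 304) (nat_lit 0) (XT.nd (nat_lit 156) (nat_lit 228) (nat_lit 0) (XT.nd (nat_lit 78) (nat_lit 0) (nat_lit 0) (XT.lf (nat_lit 0) (nat_lit 5806239793) (nat_lit 76) (nat_lit 17583023270) (nat_lit 152) (nat_lit 6006170432) (nat_lit 24) (nat_lit 5) (nat_lit 25) (nat_lit 5) (nat_lit 26) (nat_lit 4) (nat_lit 360) (nat_lit 307) (nat_lit 233)) (XT.lf (nat_lit 0) (nat_lit 19364279523) (nat_lit 76) (nat_lit 10665865652) (nat_lit 152) (nat_lit 454231490) (nat_lit 24) (nat_lit 5) (nat_lit 25) (nat_lit 5) (nat_lit 26) (nat_lit 4) (nat_lit 361) (nat_lit 307) (nat_lit 232))) (XT.nd (nat_lit 78) (nat_lit 0) (nat_lit 0) (XT.lf (nat_lit 0) (nat_lit 1917694877) (nat_lit 152) (nat_lit 3297132189) (nat_lit 228) (nat_lit 26408174846) (nat_lit 21) (nat_lit 5) (nat_lit 23) (nat_lit 5) (nat_lit 24) (nat_lit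 5) (nat_lit 362) (nat_lit 307) (nat_lit 231)) (XT.nd (nat_lit 78) (nat_lit 0) (nat_lit 0) (XT.lf (nat_lit 0) (nat_lit 11394597972) (nat_lit 228) (nat_lit 16927945396) (nat_lit 76) (nat_lit 4483525451) (nat_lit 21) (nat_lit 5) (nat_lit 24) (nat_lit 5) (nat_lit 22) (nat_lit 4) (nat_lit 363) (nat_lit 307) (nat_lit 230)) (XT.lf (nat_lit 0) (nat_lit 17920067470) (nat_lit 228) (nat_lit 3596613889) (nat_lit 76) (nat_lit 12529780732) (nat_lit 21) (nat_lit 5) (nat_lit 24) (nat_lit 5) (nat_lit 22) (nat_lit 4) (nat_lit 364) (nat_lit 307) (nat_lit 229))))) (XT.nd (nat_lit 234) (nat_lit 76) (nat_lit 0) (XT.nd (nat_lit 78) (nat_lit 152) (nat_lit 0) (XT.lf (nat_lit 0) (nat_lit 10714848284) (nat_lit 76) (nat_lit 14207735445) (nat_lit 152) (nat_lit 10418760752) (nat_lit 20) (nat_lit 5) (nat_lit 21) (nat_lit 5) (nat_lit 22) (nat_lit 4) (nat_lit 365) (nat_lit 307) (nat_lit 228)) (XT.nd (nat_lit 78) (nat_lit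 152) (nat_lit 0) (XT.lf (nat_lit 0) (nat_lit 25837845749) (nat_lit 76) (nat_lit 6482110103) (nat_lit 152) (nat_lit 4378786364) (nat_lit 20) (nat_lit 5) (nat_lit 21) (nat_lit 5) (nat_lit 22) (nat_lit 4) (nat_lit 366) (nat_lit 307) (nat_lit 227)) (XT.lf (nat_lit 0) (nat_lit 1968376742) (nat_lit 152) (nat_lit 34495968107) (nat_lit 76) (nat_lit 1654738245) (nat_lit 18) (nat_lit 5) (nat_lit 20) (nat_lit 5) (nat_lit 19) (nat_lit 4) (nat_lit 367) (nat_lit 307) (nat_lit 226)))) (XT.nd (nat_lit 78) (nat_lit 76) (nat_lit 0) (XT.lf (nat_lit 0) (nat_lit 8763410484) (nat_lit 152) (nat_lit 20602097873) (nat_lit 76) (nat_lit 10227466748) (nat_lit 18) (nat_lit 5) (nat_lit 20) (nat_lit 5) (nat_lit 19) (nat_lit 4) (nat_lit 368) (nat_lit 307) (nat_lit 225)) (XT.nd (nat_lit 78) (nat_lit 76) (nat_lit 0) (XT.lf (nat_lit 0) (nat_lit 15883390634) (nat_lit 152) (nat_lit 6040375647) (nat_lit 76) (nat_lit 19217542058)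 (nat_lit 18) (nat_lit 5) (nat_lit 20) (nat_lit 5) (nat_lit 19) (nat_lit 4) (nat_lit 369) (nat_lit 307) (nat_lit 224)) (XT.lf (nat_lit 0) (nat_lit 9528852113) (nat_lit 76) (nat_lit 13965189499) (nat_lit 152) (nat_lit 19266289089) (nat_lit 17) (nat_lit 5) (nat_lit 18) (nat_lit 5) (nat_lit 19) (nat_lit 4) (nat_lit 370) (nat_lit 307) (nat_lit 223)))))) (XT.nd (nat_lit 468) (nat_lit 228) (nat_lit 0) (XT.nd (nat_lit 234) (nat_lit 76) (nat_lit 0) (XT.nd (nat_lit 78) (nat_lit 152) (nat_lit 0) (XT.lf (nat_lit 0) (nat_lit 26061098424) (nat_lit 76) (nat_lit 5512601898) (nat_lit 152) (nat_lit 12882185868) (nat_lit 17) (nat_lit 5) (nat_lit 18) (nat_lit 5) (nat_lit 19) (nat_lit 4) (nat_lit 371) (nat_lit 307) (nat_lit 222)) (XT.nd (nat_lit 78) (nat_lit 152) (nat_lit 0) (XT.lf (nat_lit 0) (nat_lit 40096510014) (nat_lit 152) (nat_lit 2893210817) (nat_lit 0) (nat_lit 3244545713) (nat_lit 17) (nat_lit 5)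 (nat_lit 19) (nat_lit 4) (nat_lit 17) (nat_lit 4) (nat_lit 372) (nat_lit 307) (nat_lit 221)) (XT.lf (nat_lit 0) (nat_lit 1210163149) (nat_lit 152) (nat_lit 34397955493) (nat_lit 76) (nat_lit 12477891445) (nat_lit 15) (nat_lit 5) (nat_lit 17) (nat_lit 5) (nat_lit 16) (nat_lit 4) (nat_lit 373) (nat_lit 307) (nat_lit 220)))) (XT.nd (nat_lit 78) (nat_lit 76) (nat_lit 0) (XT.lf (nat_lit 0) (nat_lit 8756352190) (nat_lit 152) (nat_lit 18953816197) (nat_lit 76) (nat_lit 22313289106) (nat_lit 15) (nat_lit 5) (nat_lit 17) (nat_lit 5) (nat_lit 16) (nat_lit 4) (nat_lit 374) (nat_lit 307) (nat_lit 219)) (XT.nd (nat_lit 78) (nat_lit 76) (nat_lit 0) (XT.lf (nat_lit 0) (nat_lit 16667794563) (nat_lit 152) (nat_lit 2759690988) (nat_lit 76) (nat_lit 32630899043) (nat_lit 15) (nat_lit 5) (nat_lit 17) (nat_lit 5) (nat_lit 16) (nat_lit 4) (nat_lit 375) (nat_lit 307) (nat_lit 218)) (XT.lf (nat_lit 0) (nat_lit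 14693253445) (nat_lit 76) (nat_lit 10499476453) (nat_lit 152) (nat_lit 28991436414) (nat_lit 14) (nat_lit 5) (nat_lit 15) (nat_lit 5) (nat_lit 16) (nat_lit 4) (nat_lit 376) (nat_lit 307) (nat_lit 217))))) (XT.nd (nat_lit 234) (nat_lit 152) (nat_lit 0) (XT.nd (nat_lit 78) (nat_lit 76) (nat_lit 0) (XT.lf (nat_lit 0) (nat_lit 33093833772) (nat_lit 76) (nat_lit 1085554593) (nat_lit 152) (nat_lit 22235079034) (nat_lit 14) (nat_lit 5) (nat_lit 15) (nat_lit 5) (nat_lit 16) (nat_lit 4) (nat_lit 377) (nat_lit 307) (nat_lit 216)) (XT.nd (nat_lit 78) (nat_lit 76) (nat_lit 0) (XT.lf (nat_lit 0) (nat_lit 43741891490) (nat_lit 152) (nat_lit 6499446472) (nat_lit 0) (nat_lit 8508623894) (nat_lit 14) (nat_lit 5) (nat_lit 16) (nat_lit 4) (nat_lit 14) (nat_lit 4) (nat_lit 378) (nat_lit 307) (nat_lit 215)) (XT.lf (nat_lit 0) (nat_lit 11493606482) (nat_lit 76) (nat_lit 42475807815) (nat_lit 76) (nat_lit 7223475731)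 (nat_lit 13) (nat_lit 4) (nat_lit 14) (nat_lit 5) (nat_lit 14) (nat_lit 4) (nat_lit 379) (nat_lit 307) (nat_lit 214)))) (XT.nd (nat_lit 78) (nat_lit 76) (nat_lit 0) (XT.lf (nat_lit 0) (nat_lit 1021485426) (nat_lit 152) (nat_lit 33176443616) (nat_lit 76) (nat_lit 29554219366) (nat_lit 12) (nat_lit 5) (nat_lit 14) (nat_lit 5) (nat_lit 13) (nat_lit 4) (nat_lit 380) (nat_lit 307) (nat_lit 213)) (XT.nd (nat_lit 78) (nat_lit 76) (nat_lit 0) (XT.lf (nat_lit 0) (nat_lit 9426108170) (nat_lit 152) (nat_lit 15964259043) (nat_lit 76) (nat_lit 41043576338) (nat_lit 12) (nat_lit 5) (nat_lit 14) (nat_lit 5) (nat_lit 13) (nat_lit 4) (nat_lit 381) (nat_lit 307) (nat_lit 212)) (XT.lf (nat_lit 0) (nat_lit 2160169166) (nat_lit 76) (nat_lit 16115156970) (nat_lit 152) (nat_lit 50973287171) (nat_lit 11) (nat_lit 5) (nat_lit 12) (nat_lit 5) (nat_lit 13) (nat_lit 4) (nat_lit 382) (nat_lit 307) (nat_lit 211))))))))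
noncomputable def xc122 : XT := (XT.nd (nat_lit 1794) (nat_lit 228) (nat_lit 0) (XT.nd (nat_lit 858) (nat_lit 228) (nat_lit 0) (XT.nd (nat_lit 390) (nat_lit 152) (nat_lit 0) (XT.nd (nat_lit 156) (nat_lit 76) (nat_lit 0) (XT.nd (nat_lit 78) (nat_lit 0) (nat_lit 0) (XT.lf (nat_lit 0) (nat_lit 21727839647) (nat_lit 76) (nat_lit 6100342530) (nat_lit 152) (nat_lit 44362778428) (nat_lit 11) (nat_lit 5) (nat_lit 12) (nat_lit 5) (nat_lit 13) (nat_lit 4) (nat_lit 383) (nat_lit 307) (nat_lit 210)) (XT.lf (nat_lit 0) (nat_lit 37918747477) (nat_lit 152) (nat_lit 33092188186) (nat_lit 0) (nat_lit 4266489056) (nat_lit 11) (nat_lit 5) (nat_lit 13) (nat_lit 4) (nat_lit 11) (nat_lit 4) (nat_lit 384) (nat_lit 307) (nat_lit 209))) (XT.nd (nat_lit 78) (nat_lit 76) (nat_lit 0) (XT.lf (nat_lit 0) (nat_lit 48605401529) (nat_lit 152) (nat_lit 14968640798) (nat_lit 0) (nat_lit 14939594332) (nat_lit 11) (nat_lit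 5) (nat_lit 13) (nat_lit 4) (nat_lit 11) (nat_lit 4) (nat_lit 385) (nat_lit 307) (nat_lit 208)) (XT.nd (nat_lit 78) (nat_lit 0) (nat_lit 0) (XT.lf (nat_lit 0) (nat_lit 4179692206) (nat_lit 76) (nat_lit 55703909806) (nat_lit 76) (nat_lit 22025199012) (nat_lit 10) (nat_lit 4) (nat_lit 11) (nat_lit 5) (nat_lit 11) (nat_lit 4) (nat_lit 386) (nat_lit 307) (nat_lit 207)) (XT.lf (nat_lit 0) (nat_lit 24790195909) (nat_lit 76) (nat_lit 47181124810) (nat_lit 76) (nat_lit 13490124877) (nat_lit 10) (nat_lit 4) (nat_lit 11) (nat_lit 5) (nat_lit 11) (nat_lit 4) (nat_lit 387) (nat_lit 307) (nat_lit 206))))) (XT.nd (nat_lit 234) (nat_lit 76) (nat_lit 0) (XT.nd (nat_lit 78) (nat_lit 76) (nat_lit 0) (XT.lf (nat_lit 0) (nat_lit 46417012071) (nat_lit 76) (nat_lit 38238896168) (nat_lit 76) (nat_lit 4536192293) (nat_lit 10) (nat_lit 4) (nat_lit 11) (nat_lit 5) (nat_lit 11) (nat_lit 4) (nat_lit 388) (nat_lit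 307) (nat_lit 205)) (XT.nd (nat_lit 78) (nat_lit 0) (nat_lit 0) (XT.lf (nat_lit 0) (nat_lit 4702433922) (nat_lit 152) (nat_lit 24073860946) (nat_lit 76) (nat_lit 64329561197) (nat_lit 9) (nat_lit 5) (nat_lit 11) (nat_lit 5) (nat_lit 10) (nat_lit 4) (nat_lit 389) (nat_lit 307) (nat_lit 204)) (XT.lf (nat_lit 0) (nat_lit 14243613613) (nat_lit 152) (nat_lit 4525058398) (nat_lit 76) (nat_lit 78443257744) (nat_lit 9) (nat_lit 5) (nat_lit 11) (nat_lit 5) (nat_lit 10) (nat_lit 4) (nat_lit 390) (nat_lit 307) (nat_lit 203)))) (XT.nd (nat_lit 78) (nat_lit 0) (nat_lit 0) (XT.lf (nat_lit 0) (nat_lit 16517344809) (nat_lit 76) (nat_lit 7995787591) (nat_lit 152) (nat_lit 76997612603) (nat_lit 8) (nat_lit 5) (nat_lit 9) (nat_lit 5) (nat_lit 10) (nat_lit 4) (nat_lit 391) (nat_lit 307) (nat_lit 202)) (XT.nd (nat_lit 78) (nat_lit 0) (nat_lit 0) (XT.lf (nat_lit 0) (nat_lit 35419215143) (nat_lit 152) (nat_lit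 67317256662) (nat_lit 0) (nat_lit 3281876596) (nat_lit 8) (nat_lit 5) (nat_lit 10) (nat_lit 4) (nat_lit 8) (nat_lit 4) (nat_lit 392) (nat_lit 307) (nat_lit 201)) (XT.lf (nat_lit 0) (nat_lit 46995423039) (nat_lit 152) (nat_lit 48900318752) (nat_lit 0) (nat_lit 14849350830) (nat_lit 8) (nat_lit 5) (nat_lit 10) (nat_lit 4) (nat_lit 8) (nat_lit 4) (nat_lit 393) (nat_lit 307) (nat_lit 200)))))) (XT.nd (nat_lit 468) (nat_lit 152) (nat_lit 0) (XT.nd (nat_lit 234) (nat_lit 0) (nat_lit 0) (XT.nd (nat_lit 78) (nat_lit 76) (nat_lit 0) (XT.lf (nat_lit 0) (nat_lit 59144481835) (nat_lit 152) (nat_lit 29573899962) (nat_lit 0) (nat_lit 26990091853) (nat_lit 8) (nat_lit 5) (nat_lit 10) (nat_lit 4) (nat_lit 8) (nat_lit 4) (nat_lit 394) (nat_lit 307) (nat_lit 199)) (XT.nd (nat_lit 78) (nat_lit 76) (nat_lit 0) (XT.lf (nat_lit 0) (nat_lit 71895317861) (nat_lit 152) (nat_lit 9291985009) (nat_lit 0) (nat_lit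 39733006190) (nat_lit 8) (nat_lit 5) (nat_lit 10) (nat_lit 4) (nat_lit 8) (nat_lit 4) (nat_lit 395) (nat_lit 307) (nat_lit 198)) (XT.lf (nat_lit 0) (nat_lit 12390282810) (nat_lit 76) (nat_lit 73081454479) (nat_lit 76) (nat_lit 40911598343) (nat_lit 7) (nat_lit 4) (nat_lit 8) (nat_lit 5) (nat_lit 8) (nat_lit 4) (nat_lit 396) (nat_lit 307) (nat_lit 197)))) (XT.nd (nat_lit 78) (nat_lit 0) (nat_lit 0) (XT.lf (nat_lit 0) (nat_lit 35469117727) (nat_lit 76) (nat_lit 64409917828) (nat_lit 76) (nat_lit 32232876486) (nat_lit 7) (nat_lit 4) (nat_lit 8) (nat_lit 5) (nat_lit 8) (nat_lit 4) (nat_lit 397) (nat_lit 307) (nat_lit 196)) (XT.nd (nat_lit 78) (nat_lit 0) (nat_lit 0) (XT.lf (nat_lit 0) (nat_lit 59692234361) (nat_lit 76) (nat_lit 55309410662) (nat_lit 76) (nat_lit 23125526268) (nat_lit 7) (nat_lit 4) (nat_lit 8) (nat_lit 5) (nat_lit 8) (nat_lit 4) (nat_lit 398) (nat_lit 307) (nat_lit 195)) (XT.lf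 (nat_lit 0) (nat_lit 85117306797) (nat_lit 76) (nat_lit 45758265108) (nat_lit 76) (nat_lit 13567863521) (nat_lit 7) (nat_lit 4) (nat_lit 8) (nat_lit 5) (nat_lit 8) (nat_lit 4) (nat_lit 399) (nat_lit 307) (nat_lit 194))))) (XT.nd (nat_lit 234) (nat_lit 0) (nat_lit 0) (XT.nd (nat_lit 78) (nat_lit 152) (nat_lit 0) (XT.lf (nat_lit 0) (nat_lit 111804870924) (nat_lit 76) (nat_lit 35733740343) (nat_lit 76) (nat_lit 3537131905) (nat_lit 7) (nat_lit 4) (nat_lit 8) (nat_lit 5) (nat_lit 8) (nat_lit 4) (nat_lit 400) (nat_lit 307) (nat_lit 193)) (XT.nd (nat_lit 78) (nat_lit 76) (nat_lit 0) (XT.lf (nat_lit 0) (nat_lit 6766809974) (nat_lit 152) (nat_lit 18330559275) (nat_lit 76) (nat_lit 132937059385) (nat_lit 6) (nat_lit 5) (nat_lit 8) (nat_lit 5) (nat_lit 7) (nat_lit 4) (nat_lit 401) (nat_lit 307) (nat_lit 192)) (XT.lf (nat_lit 0) (nat_lit 3709420048) (nat_lit 76) (nat_lit 13811345594) (nat_lit 152)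 (nat_lit 147814700107) (nat_lit 5) (nat_lit 5) (nat_lit 6) (nat_lit 5) (nat_lit 7) (nat_lit 4) (nat_lit 402) (nat_lit 307) (nat_lit 191)))) (XT.nd (nat_lit 78) (nat_lit 0) (nat_lit 0) (XT.lf (nat_lit 0) (nat_lit 27479836281) (nat_lit 76) (nat_lit 1638869822) (nat_lit 152) (nat_lit 143867535264) (nat_lit 5) (nat_lit 5) (nat_lit 6) (nat_lit 5) (nat_lit 7) (nat_lit 4) (nat_lit 403) (nat_lit 307) (nat_lit 190)) (XT.nd (nat_lit 78) (nat_lit 0) (nat_lit 0) (XT.lf (nat_lit 0) (nat_lit 41466496131) (nat_lit 152) (nat_lit 128762464559) (nat_lit 0) (nat_lit 10782098395) (nat_lit 5) (nat_lit 5) (nat_lit 7) (nat_lit 4) (nat_lit 5) (nat_lit 4) (nat_lit 404) (nat_lit 307) (nat_lit 189)) (XT.lf (nat_lit 0) (nat_lit 54454724389) (nat_lit 152) (nat_lit 111215546761) (nat_lit 0) (nat_lit 23765695006) (nat_lit 5) (nat_lit 5) (nat_lit 7) (nat_lit 4) (nat_lit 5) (nat_lit 4) (nat_lit 405) (nat_lit 307) (nat_lit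 188))))))) (XT.nd (nat_lit 858) (nat_lit 152) (nat_lit 0) (XT.nd (nat_lit 390) (nat_lit 76) (nat_lit 0) (XT.nd (nat_lit 156) (nat_lit 0) (nat_lit 0) (XT.nd (nat_lit 78) (nat_lit 0) (nat_lit 0) (XT.lf (nat_lit 0) (nat_lit 68088727880) (nat_lit 152) (nat_lit 92798285966) (nat_lit 0) (nat_lit 37395287405) (nat_lit 5) (nat_lit 5) (nat_lit 7) (nat_lit 4) (nat_lit 5) (nat_lit 4) (nat_lit 406) (nat_lit 307) (nat_lit 187)) (XT.lf (nat_lit 0) (nat_lit 82400968518) (nat_lit 152) (nat_lit 73466831551) (nat_lit 0) (nat_lit 51703327002) (nat_lit 5) (nat_lit 5) (nat_lit 7) (nat_lit 4) (nat_lit 5) (nat_lit 4) (nat_lit 407) (nat_lit 307) (nat_lit 186))) (XT.nd (nat_lit 78) (nat_lit 0) (nat_lit 0) (XT.lf (nat_lit 0) (nat_lit 97425523065) (nat_lit 152) (nat_lit 53175156246) (nat_lit 0) (nat_lit 66723880558) (nat_lit 5) (nat_lit 5) (nat_lit 7) (nat_lit 4) (nat_lit 5) (nat_lit 4) (nat_lit 408) (nat_lit 307)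 (nat_lit 185)) (XT.nd (nat_lit 78) (nat_lit 0) (nat_lit 0) (XT.lf (nat_lit 0) (nat_lit 113198164270) (nat_lit 152) (nat_lit 31874946536) (nat_lit 0) (nat_lit 82492711295) (nat_lit 5) (nat_lit 5) (nat_lit 7) (nat_lit 4) (nat_lit 5) (nat_lit 4) (nat_lit 409) (nat_lit 307) (nat_lit 184)) (XT.lf (nat_lit 0) (nat_lit 129756446042) (nat_lit 152) (nat_lit 9515487638) (nat_lit 0) (nat_lit 99047364050) (nat_lit 5) (nat_lit 5) (nat_lit 7) (nat_lit 4) (nat_lit 5) (nat_lit 4) (nat_lit 410) (nat_lit 307) (nat_lit 183))))) (XT.nd (nat_lit 234) (nat_lit 0) (nat_lit 0) (XT.nd (nat_lit 78) (nat_lit 0) (nat_lit 0) (XT.lf (nat_lit 0) (nat_lit 14417920761) (nat_lit 76) (nat_lit 132946976248) (nat_lit 76) (nat_lit 102234438050) (nat_lit 4) (nat_lit 4) (nat_lit 5) (nat_lit 5) (nat_lit 5) (nat_lit 4) (nat_lit 411) (nat_lit 307) (nat_lit 182)) (XT.nd (nat_lit 78) (nat_lit 0) (nat_lit 0) (XT.lf (nat_lit 0) (nat_lit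 39872957375) (nat_lit 76) (nat_lit 126139164879) (nat_lit 76) (nat_lit 95423335055) (nat_lit 4) (nat_lit 4) (nat_lit 5) (nat_lit 5) (nat_lit 5) (nat_lit 4) (nat_lit 412) (nat_lit 307) (nat_lit 181)) (XT.lf (nat_lit 0) (nat_lit 66595604439) (nat_lit 76) (nat_lit 118993439885) (nat_lit 76) (nat_lit 88274475180) (nat_lit 4) (nat_lit 4) (nat_lit 5) (nat_lit 5) (nat_lit 5) (nat_lit 4) (nat_lit 413) (nat_lit 307) (nat_lit 180)))) (XT.nd (nat_lit 78) (nat_lit 0) (nat_lit 0) (XT.lf (nat_lit 0) (nat_lit 94649487303) (nat_lit 76) (nat_lit 111492787637) (nat_lit 76) (nat_lit 80770837331) (nat_lit 4) (nat_lit 4) (nat_lit 5) (nat_lit 5) (nat_lit 5) (nat_lit 4) (nat_lit 414) (nat_lit 307) (nat_lit 179)) (XT.nd (nat_lit 78) (nat_lit 0) (nat_lit 0) (XT.lf (nat_lit 0) (nat_lit 124101400926) (nat_lit 76) (nat_lit 103619349438) (nat_lit 76) (nat_lit 72894555702) (nat_lit 4) (nat_lit 4) (nat_lit 5) (nat_lit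 5) (nat_lit 5) (nat_lit 4) (nat_lit 415) (nat_lit 307) (nat_lit 178)) (XT.lf (nat_lit 0) (nat_lit 155021468911) (nat_lit 76) (nat_lit 95354379006) (nat_lit 76) (nat_lit 64626877242) (nat_lit 4) (nat_lit 4) (nat_lit 5) (nat_lit 5) (nat_lit 5) (nat_lit 4) (nat_lit 416) (nat_lit 307) (nat_lit 177)))))) (XT.nd (nat_lit 468) (nat_lit 152) (nat_lit 0) (XT.nd (nat_lit 234) (nat_lit 0) (nat_lit 0) (XT.nd (nat_lit 78) (nat_lit 0) (nat_lit 0) (XT.lf (nat_lit 0) (nat_lit 187483310470) (nat_lit 76) (nat_lit 86678197841) (nat_lit 76) (nat_lit 55948117003) (nat_lit 4) (nat_lit 4) (nat_lit 5) (nat_lit 5) (nat_lit 5) (nat_lit 4) (nat_lit 417) (nat_lit 307) (nat_lit 176)) (XT.nd (nat_lit 78) (nat_lit 0) (nat_lit 0) (XT.lf (nat_lit 0) (nat_lit 221564215699) (nat_lit 76) (nat_lit 77570148369) (nat_lit 76) (nat_lit 46837611269) (nat_lit 4) (nat_lit 4) (nat_lit 5) (nat_lit 5) (nat_lit 5) (nat_lit 4) (nat_lit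 418) (nat_lit 307) (nat_lit 175)) (XT.lf (nat_lit 0) (nat_lit 257345329613) (nat_lit 76) (nat_lit 68008544757) (nat_lit 76) (nat_lit 37273668361) (nat_lit 4) (nat_lit 4) (nat_lit 5) (nat_lit 5) (nat_lit 5) (nat_lit 4) (nat_lit 419) (nat_lit 307) (nat_lit 174)))) (XT.nd (nat_lit 78) (nat_lit 0) (nat_lit 0) (XT.lf (nat_lit 0) (nat_lit 294911845339) (nat_lit 76) (nat_lit 57970621283) (nat_lit 76) (nat_lit 27233516985) (nat_lit 4) (nat_lit 4) (nat_lit 5) (nat_lit 5) (nat_lit 5) (nat_lit 4) (nat_lit 420) (nat_lit 307) (nat_lit 173)) (XT.nd (nat_lit 78) (nat_lit 0) (nat_lit 0) (XT.lf (nat_lit 0) (nat_lit 334353206962) (nat_lit 76) (nat_lit 47432478129) (nat_lit 76) (nat_lit 16693252020) (nat_lit 4) (nat_lit 4) (nat_lit 5) (nat_lit 5) (nat_lit 5) (nat_lit 4) (nat_lit 421) (nat_lit 307) (nat_lit 172)) (XT.lf (nat_lit 0) (nat_lit 375763322486) (nat_lit 76) (nat_lit 36369024477) (nat_lit 76) (nat_lit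 5627777596) (nat_lit 4) (nat_lit 4) (nat_lit 5) (nat_lit 5) (nat_lit 5) (nat_lit 4) (nat_lit 422) (nat_lit 307) (nat_lit 171))))) (XT.nd (nat_lit 234) (nat_lit 0) (nat_lit 0) (XT.nd (nat_lit 78) (nat_lit 76) (nat_lit 0) (XT.lf (nat_lit 0) (nat_lit 5797559165) (nat_lit 152) (nat_lit 18858175137) (nat_lit 76) (nat_lit 413345043789) (nat_lit 3) (nat_lit 5) (nat_lit 5) (nat_lit 5) (nat_lit 4) (nat_lit 4) (nat_lit 423) (nat_lit 307) (nat_lit 170)) (XT.nd (nat_lit 78) (nat_lit 0) (nat_lit 0) (XT.lf (nat_lit 0) (nat_lit 5518698551) (nat_lit 76) (nat_lit 12170912608) (nat_lit 152) (nat_lit 441555011618) (nat_lit 2) (nat_lit 5) (nat_lit 3) (nat_lit 5) (nat_lit 4) (nat_lit 4) (nat_lit 424) (nat_lit 307) (nat_lit 169)) (XT.lf (nat_lit 0) (nat_lit 30513942841) (nat_lit 152) (nat_lit 449788509480) (nat_lit 0) (nat_lit 1231323845) (nat_lit 2) (nat_lit 5) (nat_lit 4) (nat_lit 4) (nat_lit 2) (nat_lit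 4) (nat_lit 425) (nat_lit 307) (nat_lit 168)))) (XT.nd (nat_lit 78) (nat_lit 0) (nat_lit 0) (XT.lf (nat_lit 0) (nat_lit 44177511409) (nat_lit 152) (nat_lit 445856666026) (nat_lit 0) (nat_lit 14893309084) (nat_lit 2) (nat_lit 5) (nat_lit 4) (nat_lit 4) (nat_lit 2) (nat_lit 4) (nat_lit 426) (nat_lit 307) (nat_lit 167)) (XT.nd (nat_lit 78) (nat_lit 0) (nat_lit 0) (XT.lf (nat_lit 0) (nat_lit 58522827113) (nat_lit 152) (nat_lit 441731010277) (nat_lit 0) (nat_lit 29237116858) (nat_lit 2) (nat_lit 5) (nat_lit 4) (nat_lit 4) (nat_lit 2) (nat_lit 4) (nat_lit 427) (nat_lit 307) (nat_lit 166)) (XT.lf (nat_lit 0) (nat_lit 73584045469) (nat_lit 152) (nat_lit 437401719244) (nat_lit 0) (nat_lit 44296899088) (nat_lit 2) (nat_lit 5) (nat_lit 4) (nat_lit 4) (nat_lit 2) (nat_lit 4) (nat_lit 428) (nat_lit 307) (nat_lit 165))))))))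
noncomputable def xc123 : XT := (XT.nd (nat_lit 38922) (nat_lit 0) (nat_lit 2584) (XT.nd (nat_lit 37986) (nat_lit 0) (nat_lit 5700) (XT.nd (nat_lit 37518) (nat_lit 0) (nat_lit 8892) (XT.nd (nat_lit 156) (nat_lit 0) (nat_lit 0) (XT.nd (nat_lit 78) (nat_lit 0) (nat_lit 0) (XT.lf (nat_lit 0) (nat_lit 89397026519) (nat_lit 152) (nat_lit 432858485090) (nat_lit 0) (nat_lit 60108512400) (nat_lit 2) (nat_lit 5) (nat_lit 4) (nat_lit 4) (nat_lit 2) (nat_lit 4) (nat_lit 429) (nat_lit 307) (nat_lit 164)) (XT.lf (nat_lit 0) (nat_lit 105999420218) (nat_lit 152) (nat_lit 428090490591) (nat_lit 0) (nat_lit 76709603491) (nat_lit 2) (nat_lit 5) (nat_lit 4) (nat_lit 4) (nat_lit 2) (nat_lit 4) (nat_lit 430) (nat_lit 307) (nat_lit 163))) (XT.nd (nat_lit 78) (nat_lit 0) (nat_lit 0) (XT.lf (nat_lit 0) (nat_lit 123430756076) (nat_lit 152) (nat_lit 423086383380) (nat_lit 0) (nat_lit 94139698770) (nat_lit 2) (nat_lit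 5) (nat_lit 4) (nat_lit 4) (nat_lit 2) (nat_lit 4) (nat_lit 431) (nat_lit 307) (nat_lit 162)) (XT.nd (nat_lit 37206) (nat_lit 0) (nat_lit 9348) (XT.lf (nat_lit 0) (nat_lit 141732537272) (nat_lit 152) (nat_lit 417834248916) (nat_lit 0) (nat_lit 112440298462) (nat_lit 2) (nat_lit 5) (nat_lit 4) (nat_lit 4) (nat_lit 2) (nat_lit 4) (nat_lit 432) (nat_lit 307) (nat_lit 161)) (XT.lf (nat_lit 0) (nat_lit 1726974549) (nat_lit 532) (nat_lit 934669298) (nat_lit 532) (nat_lit 934669298) (nat_lit 125) (nat_lit 3) (nat_lit 132) (nat_lit 3) (nat_lit 132) (nat_lit 5) (nat_lit 308) (nat_lit 308) (nat_lit 284))))) (XT.nd (nat_lit 234) (nat_lit 0) (nat_lit 0) (XT.nd (nat_lit 78) (nat_lit 456) (nat_lit 0) (XT.lf (nat_lit 76) (nat_lit 1558703648) (nat_lit 0) (nat_lit 3562949410) (nat_lit 532) (nat_lit 2168698402) (nat_lit 126) (nat_lit 5) (nat_lit 125) (nat_lit 3) (nat_lit 132) (nat_lit 5) (nat_lit 309) (nat_lit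 308) (nat_lit 283)) (XT.nd (nat_lit 78) (nat_lit 456) (nat_lit 0) (XT.lf (nat_lit 76) (nat_lit 5168891073) (nat_lit 0) (nat_lit 1634995070) (nat_lit 532) (nat_lit 592713039) (nat_lit 126) (nat_lit 5) (nat_lit 125) (nat_lit 3) (nat_lit 132) (nat_lit 5) (nat_lit 310) (nat_lit 308) (nat_lit 282)) (XT.lf (nat_lit 0) (nat_lit 960238308) (nat_lit 532) (nat_lit 6093150199) (nat_lit 608) (nat_lit 457509212) (nat_lit 119) (nat_lit 5) (nat_lit 126) (nat_lit 5) (nat_lit 127) (nat_lit 5) (nat_lit 311) (nat_lit 308) (nat_lit 281)))) (XT.nd (nat_lit 78) (nat_lit 0) (nat_lit 0) (XT.lf (nat_lit 0) (nat_lit 2543006958) (nat_lit 532) (nat_lit 2402904393) (nat_lit 608) (nat_lit 2686076705) (nat_lit 119) (nat_lit 5) (nat_lit 126) (nat_lit 5) (nat_lit 127) (nat_lit 5) (nat_lit 312) (nat_lit 308) (nat_lit 280)) (XT.nd (nat_lit 78) (nat_lit 0) (nat_lit 0) (XT.lf (nat_lit 76) (nat_lit 1461922227) (nat_lit 0)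 (nat_lit 2677187742) (nat_lit 608) (nat_lit 3623472332) (nat_lit 120) (nat_lit 5) (nat_lit 119) (nat_lit 5) (nat_lit 127) (nat_lit 5) (nat_lit 313) (nat_lit 308) (nat_lit 279)) (XT.lf (nat_lit 76) (nat_lit 5547606352) (nat_lit 0) (nat_lit 222826464) (nat_lit 608) (nat_lit 2131654314) (nat_lit 120) (nat_lit 5) (nat_lit 119) (nat_lit 5) (nat_lit 127) (nat_lit 5) (nat_lit 314) (nat_lit 308) (nat_lit 278)))))) (XT.nd (nat_lit 468) (nat_lit 2128) (nat_lit 0) (XT.nd (nat_lit 234) (nat_lit 532) (nat_lit 0) (XT.nd (nat_lit 78) (nat_lit 608) (nat_lit 0) (XT.lf (nat_lit 76) (nat_lit 1750484105) (nat_lit 0) (nat_lit 5716143656) (nat_lit 608) (nat_lit 582918530) (nat_lit 121) (nat_lit 5) (nat_lit 120) (nat_lit 5) (nat_lit 128) (nat_lit 5) (nat_lit 315) (nat_lit 308) (nat_lit 277)) (XT.nd (nat_lit 78) (nat_lit 0) (nat_lit 0) (XT.lf (nat_lit 0) (nat_lit 974813801) (nat_lit 608) (nat_lit 2140151737)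 (nat_lit 684) (nat_lit 5090481908) (nat_lit 112) (nat_lit 5) (nat_lit 120) (nat_lit 5) (nat_lit 121) (nat_lit 5) (nat_lit 316) (nat_lit 308) (nat_lit 276)) (XT.lf (nat_lit 76) (nat_lit 2231806764) (nat_lit 0) (nat_lit 318423298) (nat_lit 684) (nat_lit 5820591161) (nat_lit 113) (nat_lit 5) (nat_lit 112) (nat_lit 5) (nat_lit 121) (nat_lit 5) (nat_lit 317) (nat_lit 308) (nat_lit 275)))) (XT.nd (nat_lit 78) (nat_lit 608) (nat_lit 0) (XT.lf (nat_lit 0) (nat_lit 4209656383) (nat_lit 608) (nat_lit 1747331309) (nat_lit 76) (nat_lit 2587332823) (nat_lit 113) (nat_lit 5) (nat_lit 121) (nat_lit 5) (nat_lit 114) (nat_lit 5) (nat_lit 318) (nat_lit 308) (nat_lit 274)) (XT.nd (nat_lit 78) (nat_lit 0) (nat_lit 0) (XT.lf (nat_lit 0) (nat_lit 2894327132) (nat_lit 608) (nat_lit 3039113683) (nat_lit 684) (nat_lit 2794097748) (nat_lit 105) (nat_lit 5) (nat_lit 113) (nat_lit 5) (nat_lit 114) (nat_lit 5) (nat_lit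 319) (nat_lit 308) (nat_lit 273)) (XT.lf (nat_lit 0) (nat_lit 7707429392) (nat_lit 684) (nat_lit 1150283963) (nat_lit 76) (nat_lit 64111155) (nat_lit 105) (nat_lit 5) (nat_lit 114) (nat_lit 5) (nat_lit 106) (nat_lit 5) (nat_lit 320) (nat_lit 308) (nat_lit 272))))) (XT.nd (nat_lit 234) (nat_lit 684) (nat_lit 0) (XT.nd (nat_lit 78) (nat_lit 684) (nat_lit 0) (XT.lf (nat_lit 0) (nat_lit 476292865) (nat_lit 760) (nat_lit 5350207655) (nat_lit 76) (nat_lit 3296764111) (nat_lit 95) (nat_lit 5) (nat_lit 105) (nat_lit 5) (nat_lit 96) (nat_lit 5) (nat_lit 321) (nat_lit 308) (nat_lit 271)) (XT.nd (nat_lit 78) (nat_lit 684) (nat_lit 0) (XT.lf (nat_lit 0) (nat_lit 2168263745) (nat_lit 760) (nat_lit 429628477) (nat_lit 76) (nat_lit 6738104196) (nat_lit 95) (nat_lit 5) (nat_lit 105) (nat_lit 5) (nat_lit 96) (nat_lit 5) (nat_lit 322) (nat_lit 308) (nat_lit 270)) (XT.lf (nat_lit 0) (nat_lit 3974734666)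 (nat_lit 760) (nat_lit 4735864629) (nat_lit 76) (nat_lit 847359066) (nat_lit 86) (nat_lit 5) (nat_lit 96) (nat_lit 5) (nat_lit 87) (nat_lit 5) (nat_lit 323) (nat_lit 308) (nat_lit 269)))) (XT.nd (nat_lit 78) (nat_lit 304) (nat_lit 0) (XT.lf (nat_lit 0) (nat_lit 475748676) (nat_lit 380) (nat_lit 5395933262) (nat_lit 456) (nat_lit 3919413243) (nat_lit 81) (nat_lit 5) (nat_lit 86) (nat_lit 5) (nat_lit 87) (nat_lit 5) (nat_lit 324) (nat_lit 308) (nat_lit 268)) (XT.nd (nat_lit 78) (nat_lit 304) (nat_lit 0) (XT.lf (nat_lit 0) (nat_lit 6055853768) (nat_lit 380) (nat_lit 1832412723) (nat_lit 456) (nat_lit 2146463255) (nat_lit 81) (nat_lit 5) (nat_lit 86) (nat_lit 5) (nat_lit 87) (nat_lit 5) (nat_lit 325) (nat_lit 308) (nat_lit 267)) (XT.lf (nat_lit 0) (nat_lit 1588949439) (nat_lit 304) (nat_lit 8418556333) (nat_lit 380) (nat_lit 283025564) (nat_lit 77) (nat_lit 5) (nat_lit 81) (nat_lit 5) (nat_lit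 82) (nat_lit 5) (nat_lit 326) (nat_lit 308) (nat_lit 266))))))) (XT.nd (nat_lit 858) (nat_lit 1216) (nat_lit 0) (XT.nd (nat_lit 390) (nat_lit 1216) (nat_lit 0) (XT.nd (nat_lit 156) (nat_lit 304) (nat_lit 0) (XT.nd (nat_lit 78) (nat_lit 304) (nat_lit 0) (XT.lf (nat_lit 0) (nat_lit 1666492255) (nat_lit 380) (nat_lit 3097118377) (nat_lit 76) (nat_lit 5791951690) (nat_lit 76) (nat_lit 5) (nat_lit 81) (nat_lit 5) (nat_lit 77) (nat_lit 5) (nat_lit 327) (nat_lit 308) (nat_lit 265)) (XT.lf (nat_lit 0) (nat_lit 2818475712) (nat_lit 304) (nat_lit 879926833) (nat_lit 380) (nat_lit 7135555063) (nat_lit 72) (nat_lit 5) (nat_lit 76) (nat_lit 5) (nat_lit 77) (nat_lit 5) (nat_lit 328) (nat_lit 308) (nat_lit 264))) (XT.nd (nat_lit 78) (nat_lit 304) (nat_lit 0) (XT.lf (nat_lit 0) (nat_lit 5887003754) (nat_lit 380) (nat_lit 2093220713) (nat_lit 76) (nat_lit 3143356418) (nat_lit 72) (nat_lit 5) (nat_lit 77)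 (nat_lit 5) (nat_lit 73) (nat_lit 5) (nat_lit 329) (nat_lit 308) (nat_lit 263)) (XT.nd (nat_lit 78) (nat_lit 0) (nat_lit 0) (XT.lf (nat_lit 0) (nat_lit 4191397100) (nat_lit 304) (nat_lit 4027650526) (nat_lit 380) (nat_lit 3206997066) (nat_lit 68) (nat_lit 5) (nat_lit 72) (nat_lit 5) (nat_lit 73) (nat_lit 5) (nat_lit 330) (nat_lit 308) (nat_lit 262)) (XT.lf (nat_lit 0) (nat_lit 10661020997) (nat_lit 380) (nat_lit 936210404) (nat_lit 76) (nat_lit 146791062) (nat_lit 68) (nat_lit 5) (nat_lit 73) (nat_lit 5) (nat_lit 69) (nat_lit 5) (nat_lit 331) (nat_lit 308) (nat_lit 261))))) (XT.nd (nat_lit 234) (nat_lit 608) (nat_lit 0) (XT.nd (nat_lit 78) (nat_lit 228) (nat_lit 0) (XT.lf (nat_lit 0) (nat_lit 1225474848) (nat_lit 380) (nat_lit 6349299810) (nat_lit 76) (nat_lit 4496530830) (nat_lit 63) (nat_lit 5) (nat_lit 68) (nat_lit 5) (nat_lit 64) (nat_lit 5) (nat_lit 332) (nat_lit 308) (nat_lit 260))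 (XT.nd (nat_lit 78) (nat_lit 0) (nat_lit 0) (XT.lf (nat_lit 0) (nat_lit 269318965) (nat_lit 228) (nat_lit 3321983066) (nat_lit 304) (nat_lit 8823896135) (nat_lit 60) (nat_lit 5) (nat_lit 63) (nat_lit 5) (nat_lit 64) (nat_lit 5) (nat_lit 333) (nat_lit 308) (nat_lit 259)) (XT.lf (nat_lit 0) (nat_lit 6161583313) (nat_lit 304) (nat_lit 5405047875) (nat_lit 76) (nat_lit 1205393161) (nat_lit 60) (nat_lit 5) (nat_lit 64) (nat_lit 5) (nat_lit 61) (nat_lit 5) (nat_lit 334) (nat_lit 308) (nat_lit 258)))) (XT.nd (nat_lit 78) (nat_lit 304) (nat_lit 0) (XT.lf (nat_lit 0) (nat_lit 1618919272) (nat_lit 304) (nat_lit 7282164549) (nat_lit 380) (nat_lit 4243617533) (nat_lit 56) (nat_lit 5) (nat_lit 60) (nat_lit 5) (nat_lit 61) (nat_lit 5) (nat_lit 335) (nat_lit 308) (nat_lit 257)) (XT.nd (nat_lit 78) (nat_lit 304) (nat_lit 0) (XT.lf (nat_lit 0) (nat_lit 9131300117) (nat_lit 304) (nat_lit 2699837996) (nat_lit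 380) (nat_lit 1702237796) (nat_lit 56) (nat_lit 5) (nat_lit 60) (nat_lit 5) (nat_lit 61) (nat_lit 5) (nat_lit 336) (nat_lit 308) (nat_lit 256)) (XT.lf (nat_lit 0) (nat_lit 980924194) (nat_lit 304) (nat_lit 10860914797) (nat_lit 76) (nat_lit 2096647708) (nat_lit 52) (nat_lit 5) (nat_lit 56) (nat_lit 5) (nat_lit 53) (nat_lit 5) (nat_lit 337) (nat_lit 308) (nat_lit 255)))))) (XT.nd (nat_lit 468) (nat_lit 532) (nat_lit 0) (XT.nd (nat_lit 234) (nat_lit 456) (nat_lit 0) (XT.nd (nat_lit 78) (nat_lit 228) (nat_lit 0) (XT.lf (nat_lit 0) (nat_lit 3825084325) (nat_lit 304) (nat_lit 3399602470) (nat_lit 76) (nat_lit 7133605470) (nat_lit 52) (nat_lit 5) (nat_lit 56) (nat_lit 5) (nat_lit 53) (nat_lit 5) (nat_lit 338) (nat_lit 308) (nat_lit 254)) (XT.nd (nat_lit 78) (nat_lit 0) (nat_lit 0) (XT.lf (nat_lit 0) (nat_lit 4532095803) (nat_lit 228) (nat_lit 2315842344) (nat_lit 304) (nat_lit 7949360755) (nat_lit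 49) (nat_lit 5) (nat_lit 52) (nat_lit 5) (nat_lit 53) (nat_lit 5) (nat_lit 339) (nat_lit 308) (nat_lit 253)) (XT.lf (nat_lit 0) (nat_lit 10091182050) (nat_lit 304) (nat_lit 2370686617) (nat_lit 76) (nat_lit 2792958244) (nat_lit 49) (nat_lit 5) (nat_lit 53) (nat_lit 5) (nat_lit 50) (nat_lit 5) (nat_lit 340) (nat_lit 308) (nat_lit 252)))) (XT.nd (nat_lit 78) (nat_lit 304) (nat_lit 0) (XT.lf (nat_lit 0) (nat_lit 6027356444) (nat_lit 152) (nat_lit 7569313179) (nat_lit 228) (nat_lit 2133589439) (nat_lit 47) (nat_lit 5) (nat_lit 49) (nat_lit 5) (nat_lit 50) (nat_lit 5) (nat_lit 341) (nat_lit 308) (nat_lit 251)) (XT.nd (nat_lit 78) (nat_lit 228) (nat_lit 0) (XT.lf (nat_lit 0) (nat_lit 1023520992) (nat_lit 228) (nat_lit 1363349530) (nat_lit 76) (nat_lit 13841348383) (nat_lit 46) (nat_lit 5) (nat_lit 49) (nat_lit 5) (nat_lit 47) (nat_lit 5) (nat_lit 342) (nat_lit 308) (nat_lit 250)) (XT.lf (nat_lit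 0) (nat_lit 4404528132) (nat_lit 304) (nat_lit 9239178510) (nat_lit 76) (nat_lit 3098761550) (nat_lit 43) (nat_lit 5) (nat_lit 47) (nat_lit 5) (nat_lit 44) (nat_lit 5) (nat_lit 343) (nat_lit 308) (nat_lit 249))))) (XT.nd (nat_lit 234) (nat_lit 228) (nat_lit 0) (XT.nd (nat_lit 78) (nat_lit 304) (nat_lit 0) (XT.lf (nat_lit 0) (nat_lit 7987517145) (nat_lit 304) (nat_lit 505021313) (nat_lit 76) (nat_lit 8788271085) (nat_lit 43) (nat_lit 5) (nat_lit 47) (nat_lit 5) (nat_lit 44) (nat_lit 5) (nat_lit 344) (nat_lit 308) (nat_lit 248)) (XT.nd (nat_lit 78) (nat_lit 152) (nat_lit 0) (XT.lf (nat_lit 0) (nat_lit 8908267204) (nat_lit 152) (nat_lit 2952219041) (nat_lit 228) (nat_lit 5980065115) (nat_lit 41) (nat_lit 5) (nat_lit 43) (nat_lit 5) (nat_lit 44) (nat_lit 5) (nat_lit 345) (nat_lit 308) (nat_lit 247)) (XT.lf (nat_lit 0) (nat_lit 303559387) (nat_lit 152) (nat_lit 15653920890) (nat_lit 228) (nat_lit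 2469304909) (nat_lit 39) (nat_lit 5) (nat_lit 41) (nat_lit 5) (nat_lit 42) (nat_lit 5) (nat_lit 346) (nat_lit 308) (nat_lit 246)))) (XT.nd (nat_lit 78) (nat_lit 152) (nat_lit 0) (XT.lf (nat_lit 0) (nat_lit 1352596248) (nat_lit 228) (nat_lit 8836762675) (nat_lit 76) (nat_lit 8843315564) (nat_lit 38) (nat_lit 5) (nat_lit 41) (nat_lit 5) (nat_lit 39) (nat_lit 5) (nat_lit 347) (nat_lit 308) (nat_lit 245)) (XT.nd (nat_lit 78) (nat_lit 0) (nat_lit 0) (XT.lf (nat_lit 0) (nat_lit 859704978) (nat_lit 152) (nat_lit 4410043971) (nat_lit 228) (nat_lit 14397748729) (nat_lit 36) (nat_lit 5) (nat_lit 38) (nat_lit 5) (nat_lit 39) (nat_lit 5) (nat_lit 348) (nat_lit 308) (nat_lit 244)) (XT.lf (nat_lit 0) (nat_lit 9534857833) (nat_lit 228) (nat_lit 9048889286) (nat_lit 76) (nat_lit 1742729513) (nat_lit 36) (nat_lit 5) (nat_lit 39) (nat_lit 5) (nat_lit 37) (nat_lit 5) (nat_lit 349) (nat_lit 308) (nat_lit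 243))))))))
noncomputable def xc124 : XT := (XT.nd (nat_lit 1794) (nat_lit 684) (nat_lit 0) (XT.nd (nat_lit 858) (nat_lit 608) (nat_lit 0) (XT.nd (nat_lit 390) (nat_lit 304) (nat_lit 0) (XT.nd (nat_lit 156) (nat_lit 380) (nat_lit 0) (XT.nd (nat_lit 78) (nat_lit 0) (nat_lit 0) (XT.lf (nat_lit 0) (nat_lit 1121801107) (nat_lit 152) (nat_lit 12956565237) (nat_lit 228) (nat_lit 6936799585) (nat_lit 34) (nat_lit 5) (nat_lit 36) (nat_lit 5) (nat_lit 37) (nat_lit 5) (nat_lit 350) (nat_lit 308) (nat_lit 242)) (XT.lf (nat_lit 0) (nat_lit 12076057400) (nat_lit 152) (nat_lit 6902137835) (nat_lit 228) (nat_lit 2753654925) (nat_lit 34) (nat_lit 5) (nat_lit 36) (nat_lit 5) (nat_lit 37) (nat_lit 5) (nat_lit 351) (nat_lit 308) (nat_lit 241))) (XT.nd (nat_lit 78) (nat_lit 152) (nat_lit 0) (XT.lf (nat_lit 0) (nat_lit 1064080725) (nat_lit 152) (nat_lit 515385316) (nat_lit 228) (nat_lit 20903976136) (nat_lit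 31) (nat_lit 5) (nat_lit 33) (nat_lit 5) (nat_lit 34) (nat_lit 5) (nat_lit 352) (nat_lit 308) (nat_lit 240)) (XT.nd (nat_lit 78) (nat_lit 152) (nat_lit 0) (XT.lf (nat_lit 0) (nat_lit 6276514515) (nat_lit 228) (nat_lit 10792104107) (nat_lit 76) (nat_lit 6189762768) (nat_lit 31) (nat_lit 5) (nat_lit 34) (nat_lit 5) (nat_lit 32) (nat_lit 5) (nat_lit 353) (nat_lit 308) (nat_lit 239)) (XT.lf (nat_lit 0) (nat_lit 332160360) (nat_lit 152) (nat_lit 10867939279) (nat_lit 228) (nat_lit 12872398289) (nat_lit 29) (nat_lit 5) (nat_lit 31) (nat_lit 5) (nat_lit 32) (nat_lit 5) (nat_lit 354) (nat_lit 308) (nat_lit 238))))) (XT.nd (nat_lit 234) (nat_lit 152) (nat_lit 0) (XT.nd (nat_lit 78) (nat_lit 152) (nat_lit 0) (XT.lf (nat_lit 0) (nat_lit 12351366847) (nat_lit 152) (nat_lit 4179800020) (nat_lit 228) (nat_lit 8388102164) (nat_lit 29) (nat_lit 5) (nat_lit 31) (nat_lit 5) (nat_lit 32) (nat_lit 5) (nat_lit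 355) (nat_lit 308) (nat_lit 237)) (XT.nd (nat_lit 78) (nat_lit 152) (nat_lit 0) (XT.lf (nat_lit 0) (nat_lit 22152510919) (nat_lit 228) (nat_lit 916285218) (nat_lit 76) (nat_lit 2738409601) (nat_lit 29) (nat_lit 5) (nat_lit 32) (nat_lit 5) (nat_lit 30) (nat_lit 4) (nat_lit 356) (nat_lit 308) (nat_lit 236)) (XT.lf (nat_lit 0) (nat_lit 1506785230) (nat_lit 152) (nat_lit 15165511980) (nat_lit 76) (nat_lit 10054552080) (nat_lit 27) (nat_lit 5) (nat_lit 29) (nat_lit 5) (nat_lit 28) (nat_lit 5) (nat_lit 357) (nat_lit 308) (nat_lit 235)))) (XT.nd (nat_lit 78) (nat_lit 152) (nat_lit 0) (XT.lf (nat_lit 0) (nat_lit 6799710593) (nat_lit 152) (nat_lit 3090722089) (nat_lit 76) (nat_lit 17799248456) (nat_lit 27) (nat_lit 5) (nat_lit 29) (nat_lit 5) (nat_lit 28) (nat_lit 5) (nat_lit 358) (nat_lit 308) (nat_lit 234)) (XT.nd (nat_lit 78) (nat_lit 0) (nat_lit 0) (XT.lf (nat_lit 0) (nat_lit 9871856097) (nat_lit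 152) (nat_lit 2620906703) (nat_lit 228) (nat_lit 16201128628) (nat_lit 25) (nat_lit 5) (nat_lit 27) (nat_lit 5) (nat_lit 28) (nat_lit 5) (nat_lit 359) (nat_lit 308) (nat_lit 233)) (XT.lf (nat_lit 0) (nat_lit 18583467118) (nat_lit 228) (nat_lit 6267054996) (nat_lit 76) (nat_lit 4892150499) (nat_lit 25) (nat_lit 5) (nat_lit 28) (nat_lit 5) (nat_lit 26) (nat_lit 4) (nat_lit 360) (nat_lit 308) (nat_lit 232)))))) (XT.nd (nat_lit 468) (nat_lit 228) (nat_lit 0) (XT.nd (nat_lit 234) (nat_lit 76) (nat_lit 0) (XT.nd (nat_lit 78) (nat_lit 228) (nat_lit 0) (XT.lf (nat_lit 0) (nat_lit 7068354386) (nat_lit 76) (nat_lit 18046099237) (nat_lit 152) (nat_lit 5722661754) (nat_lit 24) (nat_lit 5) (nat_lit 25) (nat_lit 5) (nat_lit 26) (nat_lit 4) (nat_lit 361) (nat_lit 308) (nat_lit 231)) (XT.nd (nat_lit 78) (nat_lit 152) (nat_lit 0) (XT.lf (nat_lit 0) (nat_lit 76542476) (nat_lit 152) (nat_lit 10725058082)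 (nat_lit 76) (nat_lit 21180181028) (nat_lit 23) (nat_lit 5) (nat_lit 25) (nat_lit 5) (nat_lit 24) (nat_lit 5) (nat_lit 362) (nat_lit 308) (nat_lit 230)) (XT.lf (nat_lit 0) (nat_lit 2941957805) (nat_lit 152) (nat_lit 3060696041) (nat_lit 228) (nat_lit 27174881782) (nat_lit 21) (nat_lit 5) (nat_lit 23) (nat_lit 5) (nat_lit 24) (nat_lit 5) (nat_lit 363) (nat_lit 308) (nat_lit 229)))) (XT.nd (nat_lit 78) (nat_lit 76) (nat_lit 0) (XT.lf (nat_lit 0) (nat_lit 12472280949) (nat_lit 228) (nat_lit 16870790990) (nat_lit 76) (nat_lit 5077653041) (nat_lit 21) (nat_lit 5) (nat_lit 24) (nat_lit 5) (nat_lit 22) (nat_lit 4) (nat_lit 364) (nat_lit 308) (nat_lit 228)) (XT.nd (nat_lit 78) (nat_lit 76) (nat_lit 0) (XT.lf (nat_lit 0) (nat_lit 19299835680) (nat_lit 228) (nat_lit 2915919178) (nat_lit 76) (nat_lit 13508604357) (nat_lit 21) (nat_lit 5) (nat_lit 24) (nat_lit 5) (nat_lit 22) (nat_lit 4) (nat_lit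 365) (nat_lit 308) (nat_lit 227)) (XT.lf (nat_lit 0) (nat_lit 12097236661) (nat_lit 76) (nat_lit 14545423186) (nat_lit 152) (nat_lit 10441828093) (nat_lit 20) (nat_lit 5) (nat_lit 21) (nat_lit 5) (nat_lit 22) (nat_lit 4) (nat_lit 366) (nat_lit 308) (nat_lit 226))))) (XT.nd (nat_lit 234) (nat_lit 76) (nat_lit 0) (XT.nd (nat_lit 78) (nat_lit 152) (nat_lit 0) (XT.lf (nat_lit 0) (nat_lit 27936067525) (nat_lit 76) (nat_lit 6451264150) (nat_lit 152) (nat_lit 4123563114) (nat_lit 20) (nat_lit 5) (nat_lit 21) (nat_lit 5) (nat_lit 22) (nat_lit 4) (nat_lit 367) (nat_lit 308) (nat_lit 225)) (XT.nd (nat_lit 78) (nat_lit 0) (nat_lit 0) (XT.lf (nat_lit 0) (nat_lit 2522148175) (nat_lit 152) (nat_lit 35395226094) (nat_lit 76) (nat_lit 2084699762) (nat_lit 18) (nat_lit 5) (nat_lit 20) (nat_lit 5) (nat_lit 19) (nat_lit 4) (nat_lit 368) (nat_lit 308) (nat_lit 224)) (XT.lf (nat_lit 0) (nat_lit 9635250147)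 (nat_lit 152) (nat_lit 20845973796) (nat_lit 76) (nat_lit 11069530185) (nat_lit 18) (nat_lit 5) (nat_lit 20) (nat_lit 5) (nat_lit 19) (nat_lit 4) (nat_lit 369) (nat_lit 308) (nat_lit 223)))) (XT.nd (nat_lit 78) (nat_lit 76) (nat_lit 0) (XT.lf (nat_lit 0) (nat_lit 17090578393) (nat_lit 152) (nat_lit 5593604934) (nat_lit 76) (nat_lit 20493362113) (nat_lit 18) (nat_lit 5) (nat_lit 20) (nat_lit 5) (nat_lit 19) (nat_lit 4) (nat_lit 370) (nat_lit 308) (nat_lit 222)) (XT.nd (nat_lit 78) (nat_lit 0) (nat_lit 0) (XT.lf (nat_lit 0) (nat_lit 10742006964) (nat_lit 76) (nat_lit 14331589564) (nat_lit 152) (nat_lit 19804339109) (nat_lit 17) (nat_lit 5) (nat_lit 18) (nat_lit 5) (nat_lit 19) (nat_lit 4) (nat_lit 371) (nat_lit 308) (nat_lit 221)) (XT.lf (nat_lit 0) (nat_lit 28065784055) (nat_lit 76) (nat_lit 5472175411) (nat_lit 152) (nat_lit 13121281415) (nat_lit 17) (nat_lit 5) (nat_lit 18) (nat_lit 5)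 (nat_lit 19) (nat_lit 4) (nat_lit 372) (nat_lit 308) (nat_lit 220))))))) (XT.nd (nat_lit 858) (nat_lit 228) (nat_lit 0) (XT.nd (nat_lit 390) (nat_lit 228) (nat_lit 0) (XT.nd (nat_lit 156) (nat_lit 76) (nat_lit 0) (XT.nd (nat_lit 78) (nat_lit 152) (nat_lit 0) (XT.lf (nat_lit 0) (nat_lit 42473248522) (nat_lit 152) (nat_lit 2355837264) (nat_lit 0) (nat_lit 3698145186) (nat_lit 17) (nat_lit 5) (nat_lit 19) (nat_lit 4) (nat_lit 17) (nat_lit 4) (nat_lit 373) (nat_lit 308) (nat_lit 219)) (XT.lf (nat_lit 0) (nat_lit 1641470519) (nat_lit 152) (nat_lit 35434420426) (nat_lit 76) (nat_lit 13395740685) (nat_lit 15) (nat_lit 5) (nat_lit 17) (nat_lit 5) (nat_lit 16) (nat_lit 4) (nat_lit 374) (nat_lit 308) (nat_lit 218))) (XT.nd (nat_lit 78) (nat_lit 76) (nat_lit 0) (XT.lf (nat_lit 0) (nat_lit 9547311906) (nat_lit 152) (nat_lit 19250618586) (nat_lit 76) (nat_lit 23708910387) (nat_lit 15) (nat_lit 5) (nat_lit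 17) (nat_lit 5) (nat_lit 16) (nat_lit 4) (nat_lit 375) (nat_lit 308) (nat_lit 217)) (XT.nd (nat_lit 78) (nat_lit 76) (nat_lit 0) (XT.lf (nat_lit 0) (nat_lit 17837510107) (nat_lit 152) (nat_lit 2277781803) (nat_lit 76) (nat_lit 34529069545) (nat_lit 15) (nat_lit 5) (nat_lit 17) (nat_lit 5) (nat_lit 16) (nat_lit 4) (nat_lit 376) (nat_lit 308) (nat_lit 216)) (XT.lf (nat_lit 0) (nat_lit 16037811566) (nat_lit 76) (nat_lit 10744387306) (nat_lit 152) (nat_lit 30094564059) (nat_lit 14) (nat_lit 5) (nat_lit 15) (nat_lit 5) (nat_lit 16) (nat_lit 4) (nat_lit 377) (nat_lit 308) (nat_lit 215))))) (XT.nd (nat_lit 234) (nat_lit 152) (nat_lit 0) (XT.nd (nat_lit 78) (nat_lit 76) (nat_lit 0) (XT.lf (nat_lit 0) (nat_lit 35329378268) (nat_lit 76) (nat_lit 873105684) (nat_lit 152) (nat_lit 23016886151) (nat_lit 14) (nat_lit 5) (nat_lit 15) (nat_lit 5) (nat_lit 16) (nat_lit 4) (nat_lit 378) (nat_lit 308) (nat_lit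 214)) (XT.nd (nat_lit 78) (nat_lit 76) (nat_lit 0) (XT.lf (nat_lit 0) (nat_lit 46232119893) (nat_lit 152) (nat_lit 6260124393) (nat_lit 0) (nat_lit 9179950061) (nat_lit 14) (nat_lit 5) (nat_lit 16) (nat_lit 4) (nat_lit 14) (nat_lit 4) (nat_lit 379) (nat_lit 308) (nat_lit 213)) (XT.lf (nat_lit 0) (nat_lit 12623479686) (nat_lit 76) (nat_lit 44341772327) (nat_lit 76) (nat_lit 7272310442) (nat_lit 13) (nat_lit 4) (nat_lit 14) (nat_lit 5) (nat_lit 14) (nat_lit 4) (nat_lit 380) (nat_lit 308) (nat_lit 212)))) (XT.nd (nat_lit 78) (nat_lit 76) (nat_lit 0) (XT.lf (nat_lit 0) (nat_lit 1360504721) (nat_lit 152) (nat_lit 34296895829) (nat_lit 76) (nat_lit 31267863946) (nat_lit 12) (nat_lit 5) (nat_lit 14) (nat_lit 5) (nat_lit 13) (nat_lit 4) (nat_lit 381) (nat_lit 308) (nat_lit 211)) (XT.nd (nat_lit 78) (nat_lit 76) (nat_lit 0) (XT.lf (nat_lit 0) (nat_lit 10171646934) (nat_lit 152) (nat_lit 16249738692)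 (nat_lit 76) (nat_lit 43320453833) (nat_lit 12) (nat_lit 5) (nat_lit 14) (nat_lit 5) (nat_lit 13) (nat_lit 4) (nat_lit 382) (nat_lit 308) (nat_lit 210)) (XT.lf (nat_lit 0) (nat_lit 2772641035) (nat_lit 76) (nat_lit 16685502120) (nat_lit 152) (nat_lit 53239362947) (nat_lit 11) (nat_lit 5) (nat_lit 12) (nat_lit 5) (nat_lit 13) (nat_lit 4) (nat_lit 383) (nat_lit 308) (nat_lit 209)))))) (XT.nd (nat_lit 468) (nat_lit 152) (nat_lit 0) (XT.nd (nat_lit 234) (nat_lit 76) (nat_lit 0) (XT.nd (nat_lit 78) (nat_lit 0) (nat_lit 0) (XT.lf (nat_lit 0) (nat_lit 23294672973) (nat_lit 76) (nat_lit 6181157086) (nat_lit 152) (nat_lit 46311785366) (nat_lit 11) (nat_lit 5) (nat_lit 12) (nat_lit 5) (nat_lit 13) (nat_lit 4) (nat_lit 384) (nat_lit 308) (nat_lit 208)) (XT.nd (nat_lit 78) (nat_lit 0) (nat_lit 0) (XT.lf (nat_lit 0) (nat_lit 40062055522) (nat_lit 152) (nat_lit 34280288907) (nat_lit 0) (nat_lit 4686505592)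 (nat_lit 11) (nat_lit 5) (nat_lit 13) (nat_lit 4) (nat_lit 11) (nat_lit 4) (nat_lit 385) (nat_lit 308) (nat_lit 207)) (XT.lf (nat_lit 0) (nat_lit 51271262720) (nat_lit 152) (nat_lit 15272778848) (nat_lit 0) (nat_lit 15883423652) (nat_lit 11) (nat_lit 5) (nat_lit 13) (nat_lit 4) (nat_lit 11) (nat_lit 4) (nat_lit 386) (nat_lit 308) (nat_lit 206)))) (XT.nd (nat_lit 78) (nat_lit 0) (nat_lit 0) (XT.lf (nat_lit 0) (nat_lit 4825804774) (nat_lit 76) (nat_lit 58283174622) (nat_lit 76) (nat_lit 22883631611) (nat_lit 10) (nat_lit 4) (nat_lit 11) (nat_lit 5) (nat_lit 11) (nat_lit 4) (nat_lit 387) (nat_lit 308) (nat_lit 205)) (XT.nd (nat_lit 78) (nat_lit 0) (nat_lit 0) (XT.lf (nat_lit 0) (nat_lit 26446018044) (nat_lit 76) (nat_lit 49344056598) (nat_lit 76) (nat_lit 13933366976) (nat_lit 10) (nat_lit 4) (nat_lit 11) (nat_lit 5) (nat_lit 11) (nat_lit 4) (nat_lit 388) (nat_lit 308) (nat_lit 204)) (XT.lf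 (nat_lit 0) (nat_lit 49134350618) (nat_lit 76) (nat_lit 39964055785) (nat_lit 76) (nat_lit 4542750342) (nat_lit 10) (nat_lit 4) (nat_lit 11) (nat_lit 5) (nat_lit 11) (nat_lit 4) (nat_lit 389) (nat_lit 308) (nat_lit 203))))) (XT.nd (nat_lit 234) (nat_lit 0) (nat_lit 0) (XT.nd (nat_lit 78) (nat_lit 76) (nat_lit 0) (XT.lf (nat_lit 0) (nat_lit 5140605276) (nat_lit 152) (nat_lit 24893174932) (nat_lit 76) (nat_lit 67717158419) (nat_lit 9) (nat_lit 5) (nat_lit 11) (nat_lit 5) (nat_lit 10) (nat_lit 4) (nat_lit 390) (nat_lit 308) (nat_lit 202)) (XT.nd (nat_lit 78) (nat_lit 76) (nat_lit 0) (XT.lf (nat_lit 0) (nat_lit 15149174921) (nat_lit 152) (nat_lit 4385236022) (nat_lit 76) (nat_lit 82528391262) (nat_lit 9) (nat_lit 5) (nat_lit 11) (nat_lit 5) (nat_lit 10) (nat_lit 4) (nat_lit 391) (nat_lit 308) (nat_lit 201)) (XT.lf (nat_lit 0) (nat_lit 17703382906) (nat_lit 76) (nat_lit 8225201416) (nat_lit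 152) (nat_lit 80648155778) (nat_lit 8) (nat_lit 5) (nat_lit 9) (nat_lit 5) (nat_lit 10) (nat_lit 4) (nat_lit 392) (nat_lit 308) (nat_lit 200)))) (XT.nd (nat_lit 78) (nat_lit 0) (nat_lit 0) (XT.lf (nat_lit 0) (nat_lit 37373466702) (nat_lit 152) (nat_lit 70333545238) (nat_lit 0) (nat_lit 3603039448) (nat_lit 8) (nat_lit 5) (nat_lit 10) (nat_lit 4) (nat_lit 8) (nat_lit 4) (nat_lit 393) (nat_lit 308) (nat_lit 199)) (XT.nd (nat_lit 78) (nat_lit 0) (nat_lit 0) (XT.lf (nat_lit 0) (nat_lit 49519756859) (nat_lit 152) (nat_lit 51012406826) (nat_lit 0) (nat_lit 15741407916) (nat_lit 8) (nat_lit 5) (nat_lit 10) (nat_lit 4) (nat_lit 8) (nat_lit 4) (nat_lit 394) (nat_lit 308) (nat_lit 198)) (XT.lf (nat_lit 0) (nat_lit 62267956087) (nat_lit 152) (nat_lit 30735520805) (nat_lit 0) (nat_lit 28482062678) (nat_lit 8) (nat_lit 5) (nat_lit 10) (nat_lit 4) (nat_lit 8) (nat_lit 4) (nat_lit 395) (nat_lit 308)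 (nat_lit 197))))))))
noncomputable def xc125 : XT := (XT.nd (nat_lit 1794) (nat_lit 152) (nat_lit 0) (XT.nd (nat_lit 858) (nat_lit 76) (nat_lit 0) (XT.nd (nat_lit 390) (nat_lit 152) (nat_lit 0) (XT.nd (nat_lit 156) (nat_lit 0) (nat_lit 0) (XT.nd (nat_lit 78) (nat_lit 76) (nat_lit 0) (XT.lf (nat_lit 0) (nat_lit 75648417240) (nat_lit 152) (nat_lit 9454608873) (nat_lit 0) (nat_lit 41855338626) (nat_lit 8) (nat_lit 5) (nat_lit 10) (nat_lit 4) (nat_lit 8) (nat_lit 4) (nat_lit 396) (nat_lit 308) (nat_lit 196)) (XT.lf (nat_lit 0) (nat_lit 13306901766) (nat_lit 76) (nat_lit 76593854823) (nat_lit 76) (nat_lit 42793933156) (nat_lit 7) (nat_lit 4) (nat_lit 8) (nat_lit 5) (nat_lit 8) (nat_lit 4) (nat_lit 397) (nat_lit 308) (nat_lit 195))) (XT.nd (nat_lit 78) (nat_lit 0) (nat_lit 0) (XT.lf (nat_lit 0) (nat_lit 37525530581) (nat_lit 76) (nat_lit 67495487642) (nat_lit 76) (nat_lit 33689048783) (nat_lit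 7) (nat_lit 4) (nat_lit 8) (nat_lit 5) (nat_lit 8) (nat_lit 4) (nat_lit 398) (nat_lit 308) (nat_lit 194)) (XT.nd (nat_lit 78) (nat_lit 0) (nat_lit 0) (XT.lf (nat_lit 0) (nat_lit 62946328905) (nat_lit 76) (nat_lit 57946380170) (nat_lit 76) (nat_lit 24133734460) (nat_lit 7) (nat_lit 4) (nat_lit 8) (nat_lit 5) (nat_lit 8) (nat_lit 4) (nat_lit 399) (nat_lit 308) (nat_lit 193)) (XT.lf (nat_lit 0) (nat_lit 89629822448) (nat_lit 76) (nat_lit 47923796434) (nat_lit 76) (nat_lit 14105239438) (nat_lit 7) (nat_lit 4) (nat_lit 8) (nat_lit 5) (nat_lit 8) (nat_lit 4) (nat_lit 400) (nat_lit 308) (nat_lit 192))))) (XT.nd (nat_lit 234) (nat_lit 0) (nat_lit 0) (XT.nd (nat_lit 78) (nat_lit 152) (nat_lit 0) (XT.lf (nat_lit 0) (nat_lit 117639543338) (nat_lit 76) (nat_lit 37403873142) (nat_lit 76) (nat_lit 3579686350) (nat_lit 7) (nat_lit 4) (nat_lit 8) (nat_lit 5) (nat_lit 8) (nat_lit 4) (nat_lit 401) (nat_lit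 308) (nat_lit 191)) (XT.nd (nat_lit 78) (nat_lit 76) (nat_lit 0) (XT.lf (nat_lit 0) (nat_lit 7228963467) (nat_lit 152) (nat_lit 19010173395) (nat_lit 76) (nat_lit 139690791924) (nat_lit 6) (nat_lit 5) (nat_lit 8) (nat_lit 5) (nat_lit 7) (nat_lit 4) (nat_lit 402) (nat_lit 308) (nat_lit 190)) (XT.lf (nat_lit 0) (nat_lit 4127983703) (nat_lit 76) (nat_lit 14390376587) (nat_lit 152) (nat_lit 155077771756) (nat_lit 5) (nat_lit 5) (nat_lit 6) (nat_lit 5) (nat_lit 7) (nat_lit 4) (nat_lit 403) (nat_lit 308) (nat_lit 189)))) (XT.nd (nat_lit 78) (nat_lit 0) (nat_lit 0) (XT.lf (nat_lit 0) (nat_lit 29075821098) (nat_lit 76) (nat_lit 1614588278) (nat_lit 152) (nat_lit 150939327878) (nat_lit 5) (nat_lit 5) (nat_lit 6) (nat_lit 5) (nat_lit 7) (nat_lit 4) (nat_lit 404) (nat_lit 308) (nat_lit 188)) (XT.nd (nat_lit 78) (nat_lit 0) (nat_lit 0) (XT.lf (nat_lit 0) (nat_lit 43651655641) (nat_lit 152) (nat_lit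 134985206155) (nat_lit 0) (nat_lit 11419132049) (nat_lit 5) (nat_lit 5) (nat_lit 7) (nat_lit 4) (nat_lit 5) (nat_lit 4) (nat_lit 405) (nat_lit 308) (nat_lit 187)) (XT.lf (nat_lit 0) (nat_lit 57283969850) (nat_lit 152) (nat_lit 116571198736) (nat_lit 0) (nat_lit 25047245217) (nat_lit 5) (nat_lit 5) (nat_lit 7) (nat_lit 4) (nat_lit 5) (nat_lit 4) (nat_lit 406) (nat_lit 308) (nat_lit 186)))))) (XT.nd (nat_lit 468) (nat_lit 0) (nat_lit 0) (XT.nd (nat_lit 234) (nat_lit 76) (nat_lit 0) (XT.nd (nat_lit 78) (nat_lit 0) (nat_lit 0) (XT.lf (nat_lit 0) (nat_lit 71594601647) (nat_lit 152) (nat_lit 97242842775) (nat_lit 0) (nat_lit 39353876024) (nat_lit 5) (nat_lit 5) (nat_lit 7) (nat_lit 4) (nat_lit 5) (nat_lit 4) (nat_lit 407) (nat_lit 308) (nat_lit 185)) (XT.nd (nat_lit 78) (nat_lit 0) (nat_lit 0) (XT.lf (nat_lit 0) (nat_lit 86617623966) (nat_lit 152) (nat_lit 76954118377) (nat_lit 0) (nat_lit 54373087874)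 (nat_lit 5) (nat_lit 5) (nat_lit 7) (nat_lit 4) (nat_lit 5) (nat_lit 4) (nat_lit 408) (nat_lit 308) (nat_lit 184)) (XT.lf (nat_lit 0) (nat_lit 102388805906) (nat_lit 152) (nat_lit 55656719056) (nat_lit 0) (nat_lit 70140640797) (nat_lit 5) (nat_lit 5) (nat_lit 7) (nat_lit 4) (nat_lit 5) (nat_lit 4) (nat_lit 409) (nat_lit 308) (nat_lit 183)))) (XT.nd (nat_lit 78) (nat_lit 76) (nat_lit 0) (XT.lf (nat_lit 0) (nat_lit 118945697900) (nat_lit 152) (nat_lit 33299936719) (nat_lit 0) (nat_lit 86694076586) (nat_lit 5) (nat_lit 5) (nat_lit 7) (nat_lit 4) (nat_lit 5) (nat_lit 4) (nat_lit 410) (nat_lit 308) (nat_lit 182)) (XT.nd (nat_lit 78) (nat_lit 76) (nat_lit 0) (XT.lf (nat_lit 0) (nat_lit 136327721122) (nat_lit 152) (nat_lit 9830540930) (nat_lit 0) (nat_lit 104072808182) (nat_lit 5) (nat_lit 5) (nat_lit 7) (nat_lit 4) (nat_lit 5) (nat_lit 4) (nat_lit 411) (nat_lit 308) (nat_lit 181)) (XT.lf (nat_lit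 0) (nat_lit 15296945613) (nat_lit 76) (nat_lit 139518143916) (nat_lit 76) (nat_lit 107260096095) (nat_lit 4) (nat_lit 4) (nat_lit 5) (nat_lit 5) (nat_lit 5) (nat_lit 4) (nat_lit 412) (nat_lit 308) (nat_lit 180))))) (XT.nd (nat_lit 234) (nat_lit 0) (nat_lit 0) (XT.nd (nat_lit 78) (nat_lit 0) (nat_lit 0) (XT.lf (nat_lit 0) (nat_lit 42017204114) (nat_lit 76) (nat_lit 132373569652) (nat_lit 76) (nat_lit 100112536229) (nat_lit 4) (nat_lit 4) (nat_lit 5) (nat_lit 5) (nat_lit 5) (nat_lit 4) (nat_lit 413) (nat_lit 308) (nat_lit 179)) (XT.nd (nat_lit 78) (nat_lit 0) (nat_lit 0) (XT.lf (nat_lit 0) (nat_lit 70068812157) (nat_lit 76) (nat_lit 124874013336) (nat_lit 76) (nat_lit 92610136483) (nat_lit 4) (nat_lit 4) (nat_lit 5) (nat_lit 5) (nat_lit 5) (nat_lit 4) (nat_lit 414) (nat_lit 308) (nat_lit 178)) (XT.lf (nat_lit 0) (nat_lit 99518559283) (nat_lit 76) (nat_lit 117001618882) (nat_lit 76) (nat_lit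 84735034001) (nat_lit 4) (nat_lit 4) (nat_lit 5) (nat_lit 5) (nat_lit 5) (nat_lit 4) (nat_lit 415) (nat_lit 308) (nat_lit 177)))) (XT.nd (nat_lit 78) (nat_lit 0) (nat_lit 0) (XT.lf (nat_lit 0) (nat_lit 130436563939) (nat_lit 76) (nat_lit 108737642493) (nat_lit 76) (nat_lit 76468478538) (nat_lit 4) (nat_lit 4) (nat_lit 5) (nat_lit 5) (nat_lit 5) (nat_lit 4) (nat_lit 416) (nat_lit 308) (nat_lit 176)) (XT.nd (nat_lit 78) (nat_lit 0) (nat_lit 0) (XT.lf (nat_lit 0) (nat_lit 162896440421) (nat_lit 76) (nat_lit 100062408036) (nat_lit 76) (nat_lit 67790787820) (nat_lit 4) (nat_lit 4) (nat_lit 5) (nat_lit 5) (nat_lit 5) (nat_lit 4) (nat_lit 417) (nat_lit 308) (nat_lit 175)) (XT.lf (nat_lit 0) (nat_lit 196975474149) (nat_lit 76) (nat_lit 90955260191) (nat_lit 76) (nat_lit 58681300677) (nat_lit 4) (nat_lit 4) (nat_lit 5) (nat_lit 5) (nat_lit 5) (nat_lit 4) (nat_lit 418) (nat_lit 308) (nat_lit 174)))))))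 (XT.nd (nat_lit 858) (nat_lit 0) (nat_lit 0) (XT.nd (nat_lit 390) (nat_lit 152) (nat_lit 0) (XT.nd (nat_lit 156) (nat_lit 0) (nat_lit 0) (XT.nd (nat_lit 78) (nat_lit 0) (nat_lit 0) (XT.lf (nat_lit 0) (nat_lit 232754805681) (nat_lit 76) (nat_lit 81394515271) (nat_lit 76) (nat_lit 49118327856) (nat_lit 4) (nat_lit 4) (nat_lit 5) (nat_lit 5) (nat_lit 5) (nat_lit 4) (nat_lit 419) (nat_lit 308) (nat_lit 173)) (XT.lf (nat_lit 0) (nat_lit 270319623900) (nat_lit 76) (nat_lit 71357409598) (nat_lit 76) (nat_lit 39079100372) (nat_lit 4) (nat_lit 4) (nat_lit 5) (nat_lit 5) (nat_lit 5) (nat_lit 4) (nat_lit 420) (nat_lit 308) (nat_lit 172))) (XT.nd (nat_lit 78) (nat_lit 0) (nat_lit 0) (XT.lf (nat_lit 0) (nat_lit 309759368849) (nat_lit 76) (nat_lit 60820045303) (nat_lit 76) (nat_lit 28539715304) (nat_lit 4) (nat_lit 4) (nat_lit 5) (nat_lit 5) (nat_lit 5) (nat_lit 4) (nat_lit 421) (nat_lit 308) (nat_lit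 171)) (XT.nd (nat_lit 78) (nat_lit 0) (nat_lit 0) (XT.lf (nat_lit 0) (nat_lit 351167944685) (nat_lit 76) (nat_lit 49757333421) (nat_lit 76) (nat_lit 17475078878) (nat_lit 4) (nat_lit 4) (nat_lit 5) (nat_lit 5) (nat_lit 5) (nat_lit 4) (nat_lit 422) (nat_lit 308) (nat_lit 170)) (XT.lf (nat_lit 0) (nat_lit 394643943253) (nat_lit 76) (nat_lit 38142934164) (nat_lit 76) (nat_lit 5858846720) (nat_lit 4) (nat_lit 4) (nat_lit 5) (nat_lit 5) (nat_lit 5) (nat_lit 4) (nat_lit 423) (nat_lit 308) (nat_lit 169))))) (XT.nd (nat_lit 234) (nat_lit 0) (nat_lit 0) (XT.nd (nat_lit 78) (nat_lit 76) (nat_lit 0) (XT.lf (nat_lit 0) (nat_lit 6133826846) (nat_lit 152) (nat_lit 19711488027) (nat_lit 76) (nat_lit 434053172665) (nat_lit 3) (nat_lit 5) (nat_lit 5) (nat_lit 5) (nat_lit 4) (nat_lit 4) (nat_lit 424) (nat_lit 308) (nat_lit 168)) (XT.nd (nat_lit 78) (nat_lit 0) (nat_lit 0) (XT.lf (nat_lit 0) (nat_lit 5882784250)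 (nat_lit 76) (nat_lit 12736864435) (nat_lit 152) (nat_lit 463584917884) (nat_lit 2) (nat_lit 5) (nat_lit 3) (nat_lit 5) (nat_lit 4) (nat_lit 4) (nat_lit 425) (nat_lit 308) (nat_lit 167)) (XT.lf (nat_lit 0) (nat_lit 32083660914) (nat_lit 152) (nat_lit 472192436755) (nat_lit 0) (nat_lit 1332157214) (nat_lit 2) (nat_lit 5) (nat_lit 4) (nat_lit 4) (nat_lit 2) (nat_lit 4) (nat_lit 426) (nat_lit 308) (nat_lit 166)))) (XT.nd (nat_lit 78) (nat_lit 0) (nat_lit 0) (XT.lf (nat_lit 0) (nat_lit 46428311675) (nat_lit 152) (nat_lit 468068072471) (nat_lit 0) (nat_lit 15675371850) (nat_lit 2) (nat_lit 5) (nat_lit 4) (nat_lit 4) (nat_lit 2) (nat_lit 4) (nat_lit 427) (nat_lit 308) (nat_lit 165)) (XT.nd (nat_lit 78) (nat_lit 0) (nat_lit 0) (XT.lf (nat_lit 0) (nat_lit 61488896751) (nat_lit 152) (nat_lit 463740011404) (nat_lit 0) (nat_lit 30734589187) (nat_lit 2) (nat_lit 5) (nat_lit 4) (nat_lit 4) (nat_lit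 2) (nat_lit 4) (nat_lit 428) (nat_lit 308) (nat_lit 164)) (XT.lf (nat_lit 0) (nat_lit 77301274678) (nat_lit 152) (nat_lit 459197948647) (nat_lit 0) (nat_lit 46545664506) (nat_lit 2) (nat_lit 5) (nat_lit 4) (nat_lit 4) (nat_lit 2) (nat_lit 4) (nat_lit 429) (nat_lit 308) (nat_lit 163)))))) (XT.nd (nat_lit 37674) (nat_lit 0) (nat_lit 8284) (XT.nd (nat_lit 37440) (nat_lit 0) (nat_lit 8816) (XT.nd (nat_lit 78) (nat_lit 0) (nat_lit 0) (XT.lf (nat_lit 0) (nat_lit 93903093974) (nat_lit 152) (nat_lit 454431069764) (nat_lit 0) (nat_lit 63146243223) (nat_lit 2) (nat_lit 5) (nat_lit 4) (nat_lit 4) (nat_lit 2) (nat_lit 4) (nat_lit 430) (nat_lit 308) (nat_lit 162)) (XT.nd (nat_lit 78) (nat_lit 0) (nat_lit 0) (XT.lf (nat_lit 0) (nat_lit 111333882781) (nat_lit 152) (nat_lit 449428025044) (nat_lit 0) (nat_lit 80575850526) (nat_lit 2) (nat_lit 5) (nat_lit 4) (nat_lit 4) (nat_lit 2) (nat_lit 4) (nat_lit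 431) (nat_lit 308) (nat_lit 161)) (XT.lf (nat_lit 0) (nat_lit 129635142976) (nat_lit 152) (nat_lit 444176902477) (nat_lit 0) (nat_lit 98875985480) (nat_lit 2) (nat_lit 5) (nat_lit 4) (nat_lit 4) (nat_lit 2) (nat_lit 4) (nat_lit 432) (nat_lit 308) (nat_lit 160)))) (XT.nd (nat_lit 78) (nat_lit 532) (nat_lit 0) (XT.lf (nat_lit 0) (nat_lit 3346033338) (nat_lit 532) (nat_lit 175242214) (nat_lit 532) (nat_lit 175242214) (nat_lit 125) (nat_lit 3) (nat_lit 132) (nat_lit 3) (nat_lit 132) (nat_lit 5) (nat_lit 309) (nat_lit 309) (nat_lit 282)) (XT.nd (nat_lit 78) (nat_lit 0) (nat_lit 0) (XT.lf (nat_lit 0) (nat_lit 793715831) (nat_lit 532) (nat_lit 4291837741) (nat_lit 608) (nat_lit 2415796956) (nat_lit 118) (nat_lit 5) (nat_lit 125) (nat_lit 3) (nat_lit 126) (nat_lit 5) (nat_lit 310) (nat_lit 309) (nat_lit 281)) (XT.lf (nat_lit 0) (nat_lit 2252776702) (nat_lit 532) (nat_lit 719053071) (nat_lit 608)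 (nat_lit 4647184127) (nat_lit 118) (nat_lit 5) (nat_lit 125) (nat_lit 3) (nat_lit 126) (nat_lit 5) (nat_lit 311) (nat_lit 309) (nat_lit 280))))) (XT.nd (nat_lit 234) (nat_lit 532) (nat_lit 0) (XT.nd (nat_lit 78) (nat_lit 0) (nat_lit 76) (XT.lf (nat_lit 76) (nat_lit 3081121315) (nat_lit 0) (nat_lit 663361067) (nat_lit 608) (nat_lit 4000252656) (nat_lit 119) (nat_lit 5) (nat_lit 118) (nat_lit 5) (nat_lit 126) (nat_lit 5) (nat_lit 312) (nat_lit 309) (nat_lit 279)) (XT.nd (nat_lit 78) (nat_lit 0) (nat_lit 0) (XT.lf (nat_lit 0) (nat_lit 5266228958) (nat_lit 532) (nat_lit 861572556) (nat_lit 608) (nat_lit 1751319546) (nat_lit 119) (nat_lit 5) (nat_lit 126) (nat_lit 5) (nat_lit 127) (nat_lit 5) (nat_lit 313) (nat_lit 309) (nat_lit 278)) (XT.lf (nat_lit 76) (nat_lit 3169697379) (nat_lit 0) (nat_lit 3674339203) (nat_lit 608) (nat_lit 1177335501) (nat_lit 120) (nat_lit 5) (nat_lit 119) (nat_lit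 5) (nat_lit 127) (nat_lit 5) (nat_lit 314) (nat_lit 309) (nat_lit 277)))) (XT.nd (nat_lit 78) (nat_lit 0) (nat_lit 76) (XT.lf (nat_lit 0) (nat_lit 255514918) (nat_lit 608) (nat_lit 796308527) (nat_lit 684) (nat_lit 7121981664) (nat_lit 111) (nat_lit 5) (nat_lit 119) (nat_lit 5) (nat_lit 120) (nat_lit 5) (nat_lit 315) (nat_lit 309) (nat_lit 276)) (XT.nd (nat_lit 78) (nat_lit 0) (nat_lit 0) (XT.lf (nat_lit 0) (nat_lit 1728305500) (nat_lit 608) (nat_lit 4858337693) (nat_lit 684) (nat_lit 1745983100) (nat_lit 112) (nat_lit 5) (nat_lit 120) (nat_lit 5) (nat_lit 121) (nat_lit 5) (nat_lit 316) (nat_lit 309) (nat_lit 275)) (XT.lf (nat_lit 0) (nat_lit 3233821227) (nat_lit 608) (nat_lit 584186408) (nat_lit 684) (nat_lit 4683545408) (nat_lit 112) (nat_lit 5) (nat_lit 120) (nat_lit 5) (nat_lit 121) (nat_lit 5) (nat_lit 317) (nat_lit 309) (nat_lit 274))))))))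
noncomputable def xc126 : XT := (XT.nd (nat_lit 1794) (nat_lit 1976) (nat_lit 0) (XT.nd (nat_lit 858) (nat_lit 2052) (nat_lit 0) (XT.nd (nat_lit 390) (nat_lit 1444) (nat_lit 0) (XT.nd (nat_lit 156) (nat_lit 1292) (nat_lit 0) (XT.nd (nat_lit 78) (nat_lit 0) (nat_lit 76) (XT.lf (nat_lit 76) (nat_lit 3979547874) (nat_lit 0) (nat_lit 828754529) (nat_lit 684) (nat_lit 3871052374) (nat_lit 113) (nat_lit 5) (nat_lit 112) (nat_lit 5) (nat_lit 121) (nat_lit 5) (nat_lit 318) (nat_lit 309) (nat_lit 273)) (XT.lf (nat_lit 0) (nat_lit 6441893213) (nat_lit 608) (nat_lit 164338440) (nat_lit 76) (nat_lit 2260903411) (nat_lit 113) (nat_lit 5) (nat_lit 121) (nat_lit 5) (nat_lit 114) (nat_lit 5) (nat_lit 319) (nat_lit 309) (nat_lit 272))) (XT.nd (nat_lit 78) (nat_lit 760) (nat_lit 0) (XT.lf (nat_lit 0) (nat_lit 4682461642) (nat_lit 608) (nat_lit 3498789587) (nat_lit 684) (nat_lit 881951366) (nat_lit 105)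 (nat_lit 5) (nat_lit 113) (nat_lit 5) (nat_lit 114) (nat_lit 5) (nat_lit 320) (nat_lit 309) (nat_lit 271)) (XT.nd (nat_lit 78) (nat_lit 0) (nat_lit 0) (XT.lf (nat_lit 0) (nat_lit 458454438) (nat_lit 684) (nat_lit 204895784) (nat_lit 760) (nat_lit 8607815682) (nat_lit 95) (nat_lit 5) (nat_lit 104) (nat_lit 5) (nat_lit 105) (nat_lit 5) (nat_lit 321) (nat_lit 309) (nat_lit 270)) (XT.lf (nat_lit 0) (nat_lit 2323206967) (nat_lit 760) (nat_lit 3915924466) (nat_lit 76) (nat_lit 3246415205) (nat_lit 95) (nat_lit 5) (nat_lit 105) (nat_lit 5) (nat_lit 96) (nat_lit 5) (nat_lit 322) (nat_lit 309) (nat_lit 269))))) (XT.nd (nat_lit 234) (nat_lit 380) (nat_lit 0) (XT.nd (nat_lit 78) (nat_lit 380) (nat_lit 0) (XT.lf (nat_lit 0) (nat_lit 1208319656) (nat_lit 684) (nat_lit 2823507730) (nat_lit 760) (nat_lit 5680614900) (nat_lit 86) (nat_lit 5) (nat_lit 95) (nat_lit 5) (nat_lit 96) (nat_lit 5) (nat_lit 323)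 (nat_lit 309) (nat_lit 268)) (XT.nd (nat_lit 78) (nat_lit 380) (nat_lit 0) (XT.lf (nat_lit 0) (nat_lit 5850663044) (nat_lit 760) (nat_lit 3290335733) (nat_lit 76) (nat_lit 808525129) (nat_lit 86) (nat_lit 5) (nat_lit 96) (nat_lit 5) (nat_lit 87) (nat_lit 5) (nat_lit 324) (nat_lit 309) (nat_lit 267)) (XT.lf (nat_lit 0) (nat_lit 2154724010) (nat_lit 380) (nat_lit 5633709524) (nat_lit 456) (nat_lit 2408702993) (nat_lit 81) (nat_lit 5) (nat_lit 86) (nat_lit 5) (nat_lit 87) (nat_lit 5) (nat_lit 325) (nat_lit 309) (nat_lit 266)))) (XT.nd (nat_lit 78) (nat_lit 380) (nat_lit 0) (XT.lf (nat_lit 0) (nat_lit 7935015884) (nat_lit 380) (nat_lit 1893537739) (nat_lit 456) (nat_lit 628376026) (nat_lit 81) (nat_lit 5) (nat_lit 86) (nat_lit 5) (nat_lit 87) (nat_lit 5) (nat_lit 326) (nat_lit 309) (nat_lit 265)) (XT.nd (nat_lit 78) (nat_lit 0) (nat_lit 0) (XT.lf (nat_lit 0) (nat_lit 1237105369) (nat_lit 380)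 (nat_lit 7450841643) (nat_lit 76) (nat_lit 2039069973) (nat_lit 76) (nat_lit 5) (nat_lit 81) (nat_lit 5) (nat_lit 77) (nat_lit 5) (nat_lit 327) (nat_lit 309) (nat_lit 264)) (XT.lf (nat_lit 0) (nat_lit 3201979435) (nat_lit 380) (nat_lit 1650850881) (nat_lit 76) (nat_lit 6155964497) (nat_lit 76) (nat_lit 5) (nat_lit 81) (nat_lit 5) (nat_lit 77) (nat_lit 5) (nat_lit 328) (nat_lit 309) (nat_lit 263)))))) (XT.nd (nat_lit 468) (nat_lit 836) (nat_lit 0) (XT.nd (nat_lit 234) (nat_lit 608) (nat_lit 0) (XT.nd (nat_lit 78) (nat_lit 304) (nat_lit 0) (XT.lf (nat_lit 0) (nat_lit 4534698342) (nat_lit 304) (nat_lit 756231131) (nat_lit 380) (nat_lit 6012500442) (nat_lit 72) (nat_lit 5) (nat_lit 76) (nat_lit 5) (nat_lit 77) (nat_lit 5) (nat_lit 329) (nat_lit 309) (nat_lit 262)) (XT.nd (nat_lit 78) (nat_lit 304) (nat_lit 0) (XT.lf (nat_lit 0) (nat_lit 7524425316) (nat_lit 380) (nat_lit 631304343) (nat_lit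 76) (nat_lit 3455119336) (nat_lit 72) (nat_lit 5) (nat_lit 77) (nat_lit 5) (nat_lit 73) (nat_lit 5) (nat_lit 330) (nat_lit 309) (nat_lit 261)) (XT.lf (nat_lit 0) (nat_lit 5942276983) (nat_lit 304) (nat_lit 3990902787) (nat_lit 380) (nat_lit 1997334486) (nat_lit 68) (nat_lit 5) (nat_lit 72) (nat_lit 5) (nat_lit 73) (nat_lit 5) (nat_lit 331) (nat_lit 309) (nat_lit 260)))) (XT.nd (nat_lit 78) (nat_lit 228) (nat_lit 0) (XT.lf (nat_lit 0) (nat_lit 174790604) (nat_lit 380) (nat_lit 11706753105) (nat_lit 76) (nat_lit 385272194) (nat_lit 63) (nat_lit 5) (nat_lit 68) (nat_lit 5) (nat_lit 64) (nat_lit 5) (nat_lit 332) (nat_lit 309) (nat_lit 259)) (XT.nd (nat_lit 78) (nat_lit 228) (nat_lit 0) (XT.lf (nat_lit 0) (nat_lit 2516902201) (nat_lit 380) (nat_lit 5121266483) (nat_lit 76) (nat_lit 4973748608) (nat_lit 63) (nat_lit 5) (nat_lit 68) (nat_lit 5) (nat_lit 64) (nat_lit 5) (nat_lit 333) (nat_lit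 309) (nat_lit 258)) (XT.lf (nat_lit 0) (nat_lit 1803355838) (nat_lit 228) (nat_lit 3162826535) (nat_lit 304) (nat_lit 8008632997) (nat_lit 60) (nat_lit 5) (nat_lit 63) (nat_lit 5) (nat_lit 64) (nat_lit 5) (nat_lit 334) (nat_lit 309) (nat_lit 257))))) (XT.nd (nat_lit 234) (nat_lit 532) (nat_lit 0) (XT.nd (nat_lit 78) (nat_lit 304) (nat_lit 0) (XT.lf (nat_lit 0) (nat_lit 7612894282) (nat_lit 304) (nat_lit 4173742672) (nat_lit 76) (nat_lit 1565515649) (nat_lit 60) (nat_lit 5) (nat_lit 64) (nat_lit 5) (nat_lit 61) (nat_lit 5) (nat_lit 335) (nat_lit 309) (nat_lit 256)) (XT.nd (nat_lit 78) (nat_lit 0) (nat_lit 0) (XT.lf (nat_lit 0) (nat_lit 3177204162) (nat_lit 304) (nat_lit 7280791444) (nat_lit 380) (nat_lit 3287099008) (nat_lit 56) (nat_lit 5) (nat_lit 60) (nat_lit 5) (nat_lit 61) (nat_lit 5) (nat_lit 336) (nat_lit 309) (nat_lit 255)) (XT.lf (nat_lit 0) (nat_lit 10994854576) (nat_lit 304)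 (nat_lit 2486752437) (nat_lit 380) (nat_lit 674302636) (nat_lit 56) (nat_lit 5) (nat_lit 60) (nat_lit 5) (nat_lit 61) (nat_lit 5) (nat_lit 337) (nat_lit 309) (nat_lit 254)))) (XT.nd (nat_lit 78) (nat_lit 228) (nat_lit 0) (XT.lf (nat_lit 0) (nat_lit 2084075088) (nat_lit 304) (nat_lit 9935817032) (nat_lit 76) (nat_lit 2561734809) (nat_lit 52) (nat_lit 5) (nat_lit 56) (nat_lit 5) (nat_lit 53) (nat_lit 5) (nat_lit 338) (nat_lit 309) (nat_lit 253)) (XT.nd (nat_lit 78) (nat_lit 228) (nat_lit 0) (XT.lf (nat_lit 0) (nat_lit 5020247764) (nat_lit 304) (nat_lit 2171350685) (nat_lit 76) (nat_lit 7833385472) (nat_lit 52) (nat_lit 5) (nat_lit 56) (nat_lit 5) (nat_lit 53) (nat_lit 5) (nat_lit 339) (nat_lit 309) (nat_lit 252)) (XT.lf (nat_lit 0) (nat_lit 6134380374) (nat_lit 228) (nat_lit 2033536919) (nat_lit 304) (nat_lit 7319388875) (nat_lit 49) (nat_lit 5) (nat_lit 52) (nat_lit 5) (nat_lit 53) (nat_lit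 5) (nat_lit 340) (nat_lit 309) (nat_lit 251))))))) (XT.nd (nat_lit 858) (nat_lit 836) (nat_lit 0) (XT.nd (nat_lit 390) (nat_lit 532) (nat_lit 0) (XT.nd (nat_lit 156) (nat_lit 456) (nat_lit 0) (XT.nd (nat_lit 78) (nat_lit 152) (nat_lit 0) (XT.lf (nat_lit 0) (nat_lit 11532691301) (nat_lit 304) (nat_lit 1137485670) (nat_lit 76) (nat_lit 3299611808) (nat_lit 49) (nat_lit 5) (nat_lit 53) (nat_lit 5) (nat_lit 50) (nat_lit 5) (nat_lit 341) (nat_lit 309) (nat_lit 250)) (XT.lf (nat_lit 0) (nat_lit 7658657362) (nat_lit 152) (nat_lit 7530943200) (nat_lit 228) (nat_lit 1280628990) (nat_lit 47) (nat_lit 5) (nat_lit 49) (nat_lit 5) (nat_lit 50) (nat_lit 5) (nat_lit 342) (nat_lit 309) (nat_lit 249))) (XT.nd (nat_lit 78) (nat_lit 380) (nat_lit 0) (XT.lf (nat_lit 0) (nat_lit 1959387947) (nat_lit 228) (nat_lit 134857111) (nat_lit 76) (nat_lit 14900345178) (nat_lit 46) (nat_lit 5) (nat_lit 49) (nat_lit 5)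 (nat_lit 47) (nat_lit 5) (nat_lit 343) (nat_lit 309) (nat_lit 248)) (XT.nd (nat_lit 78) (nat_lit 152) (nat_lit 0) (XT.lf (nat_lit 0) (nat_lit 5493687505) (nat_lit 304) (nat_lit 8387952869) (nat_lit 76) (nat_lit 3653737846) (nat_lit 43) (nat_lit 5) (nat_lit 47) (nat_lit 5) (nat_lit 44) (nat_lit 5) (nat_lit 344) (nat_lit 309) (nat_lit 247)) (XT.lf (nat_lit 0) (nat_lit 744198591) (nat_lit 152) (nat_lit 8481868642) (nat_lit 228) (nat_lit 8876093853) (nat_lit 41) (nat_lit 5) (nat_lit 43) (nat_lit 5) (nat_lit 44) (nat_lit 5) (nat_lit 345) (nat_lit 309) (nat_lit 246))))) (XT.nd (nat_lit 234) (nat_lit 304) (nat_lit 0) (XT.nd (nat_lit 78) (nat_lit 228) (nat_lit 0) (XT.lf (nat_lit 0) (nat_lit 10584160727) (nat_lit 152) (nat_lit 2676708889) (nat_lit 228) (nat_lit 5430645909) (nat_lit 41) (nat_lit 5) (nat_lit 43) (nat_lit 5) (nat_lit 44) (nat_lit 5) (nat_lit 346) (nat_lit 309) (nat_lit 245)) (XT.nd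 (nat_lit 78) (nat_lit 76) (nat_lit 0) (XT.lf (nat_lit 0) (nat_lit 1563272598) (nat_lit 152) (nat_lit 15986717295) (nat_lit 228) (nat_lit 1757740439) (nat_lit 39) (nat_lit 5) (nat_lit 41) (nat_lit 5) (nat_lit 42) (nat_lit 5) (nat_lit 347) (nat_lit 309) (nat_lit 244)) (XT.lf (nat_lit 0) (nat_lit 2190038965) (nat_lit 228) (nat_lit 8067274903) (nat_lit 76) (nat_lit 9687902943) (nat_lit 38) (nat_lit 5) (nat_lit 41) (nat_lit 5) (nat_lit 39) (nat_lit 5) (nat_lit 348) (nat_lit 309) (nat_lit 243)))) (XT.nd (nat_lit 78) (nat_lit 152) (nat_lit 0) (XT.lf (nat_lit 0) (nat_lit 2094478618) (nat_lit 152) (nat_lit 4190520082) (nat_lit 228) (nat_lit 14327713598) (nat_lit 36) (nat_lit 5) (nat_lit 38) (nat_lit 5) (nat_lit 39) (nat_lit 5) (nat_lit 349) (nat_lit 309) (nat_lit 242)) (XT.nd (nat_lit 78) (nat_lit 152) (nat_lit 0) (XT.lf (nat_lit 0) (nat_lit 10734107720) (nat_lit 228) (nat_lit 8336496975) (nat_lit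 76) (nat_lit 2235525517) (nat_lit 36) (nat_lit 5) (nat_lit 39) (nat_lit 5) (nat_lit 37) (nat_lit 5) (nat_lit 350) (nat_lit 309) (nat_lit 241)) (XT.lf (nat_lit 0) (nat_lit 2323940248) (nat_lit 152) (nat_lit 13164339351) (nat_lit 228) (nat_lit 6541825924) (nat_lit 34) (nat_lit 5) (nat_lit 36) (nat_lit 5) (nat_lit 37) (nat_lit 5) (nat_lit 351) (nat_lit 309) (nat_lit 240)))))) (XT.nd (nat_lit 468) (nat_lit 380) (nat_lit 0) (XT.nd (nat_lit 234) (nat_lit 228) (nat_lit 0) (XT.nd (nat_lit 78) (nat_lit 228) (nat_lit 0) (XT.lf (nat_lit 0) (nat_lit 13771335589) (nat_lit 152) (nat_lit 6828145538) (nat_lit 228) (nat_lit 2184848490) (nat_lit 34) (nat_lit 5) (nat_lit 36) (nat_lit 5) (nat_lit 37) (nat_lit 5) (nat_lit 352) (nat_lit 309) (nat_lit 239)) (XT.nd (nat_lit 78) (nat_lit 0) (nat_lit 0) (XT.lf (nat_lit 0) (nat_lit 2213866111) (nat_lit 152) (nat_lit 113005478) (nat_lit 228) (nat_lit 21246872791)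 (nat_lit 31) (nat_lit 5) (nat_lit 33) (nat_lit 5) (nat_lit 34) (nat_lit 5) (nat_lit 353) (nat_lit 309) (nat_lit 238)) (XT.lf (nat_lit 0) (nat_lit 7233308673) (nat_lit 228) (nat_lit 10261455362) (nat_lit 76) (nat_lit 6893961057) (nat_lit 31) (nat_lit 5) (nat_lit 34) (nat_lit 5) (nat_lit 32) (nat_lit 5) (nat_lit 354) (nat_lit 309) (nat_lit 237)))) (XT.nd (nat_lit 78) (nat_lit 76) (nat_lit 0) (XT.lf (nat_lit 0) (nat_lit 1401760167) (nat_lit 152) (nat_lit 10987135494) (nat_lit 228) (nat_lit 12855380996) (nat_lit 29) (nat_lit 5) (nat_lit 31) (nat_lit 5) (nat_lit 32) (nat_lit 5) (nat_lit 355) (nat_lit 309) (nat_lit 236)) (XT.nd (nat_lit 78) (nat_lit 76) (nat_lit 0) (XT.lf (nat_lit 0) (nat_lit 13971784513) (nat_lit 152) (nat_lit 3984789308) (nat_lit 228) (nat_lit 8178328980) (nat_lit 29) (nat_lit 5) (nat_lit 31) (nat_lit 5) (nat_lit 32) (nat_lit 5) (nat_lit 356) (nat_lit 309) (nat_lit 235)) (XT.lf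 (nat_lit 0) (nat_lit 16398147) (nat_lit 76) (nat_lit 23820333571) (nat_lit 152) (nat_lit 3231635733) (nat_lit 28) (nat_lit 5) (nat_lit 29) (nat_lit 5) (nat_lit 30) (nat_lit 4) (nat_lit 357) (nat_lit 309) (nat_lit 234))))) (XT.nd (nat_lit 234) (nat_lit 152) (nat_lit 0) (XT.nd (nat_lit 78) (nat_lit 152) (nat_lit 0) (XT.lf (nat_lit 0) (nat_lit 2155626172) (nat_lit 152) (nat_lit 14942291472) (nat_lit 76) (nat_lit 10936264505) (nat_lit 27) (nat_lit 5) (nat_lit 29) (nat_lit 5) (nat_lit 28) (nat_lit 5) (nat_lit 358) (nat_lit 309) (nat_lit 233)) (XT.nd (nat_lit 78) (nat_lit 152) (nat_lit 0) (XT.lf (nat_lit 0) (nat_lit 7685888199) (nat_lit 152) (nat_lit 2310499996) (nat_lit 76) (nat_lit 19050148804) (nat_lit 27) (nat_lit 5) (nat_lit 29) (nat_lit 5) (nat_lit 28) (nat_lit 5) (nat_lit 359) (nat_lit 309) (nat_lit 232)) (XT.lf (nat_lit 0) (nat_lit 11285130354) (nat_lit 152) (nat_lit 2366812320) (nat_lit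 228) (nat_lit 16449612816) (nat_lit 25) (nat_lit 5) (nat_lit 27) (nat_lit 5) (nat_lit 28) (nat_lit 5) (nat_lit 360) (nat_lit 309) (nat_lit 231)))) (XT.nd (nat_lit 78) (nat_lit 152) (nat_lit 0) (XT.lf (nat_lit 0) (nat_lit 20027454612) (nat_lit 228) (nat_lit 5684504078) (nat_lit 76) (nat_lit 5491817874) (nat_lit 25) (nat_lit 5) (nat_lit 28) (nat_lit 5) (nat_lit 26) (nat_lit 4) (nat_lit 361) (nat_lit 309) (nat_lit 230)) (XT.nd (nat_lit 78) (nat_lit 76) (nat_lit 0) (XT.lf (nat_lit 0) (nat_lit 8303225714) (nat_lit 76) (nat_lit 18571011730) (nat_lit 152) (nat_lit 5479255431) (nat_lit 24) (nat_lit 5) (nat_lit 25) (nat_lit 5) (nat_lit 26) (nat_lit 4) (nat_lit 362) (nat_lit 309) (nat_lit 229)) (XT.lf (nat_lit 0) (nat_lit 568551354) (nat_lit 152) (nat_lit 10405440239) (nat_lit 76) (nat_lit 22582220359) (nat_lit 23) (nat_lit 5) (nat_lit 25) (nat_lit 5) (nat_lit 24) (nat_lit 5) (nat_lit 363) (nat_lit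 309) (nat_lit 228))))))))
noncomputable def xc127 : XT := (XT.nd (nat_lit 1794) (nat_lit 456) (nat_lit 0) (XT.nd (nat_lit 858) (nat_lit 456) (nat_lit 0) (XT.nd (nat_lit 390) (nat_lit 228) (nat_lit 0) (XT.nd (nat_lit 156) (nat_lit 76) (nat_lit 0) (XT.nd (nat_lit 78) (nat_lit 0) (nat_lit 0) (XT.lf (nat_lit 0) (nat_lit 3931122076) (nat_lit 152) (nat_lit 2849746483) (nat_lit 228) (nat_lit 28031402010) (nat_lit 21) (nat_lit 5) (nat_lit 23) (nat_lit 5) (nat_lit 24) (nat_lit 5) (nat_lit 364) (nat_lit 309) (nat_lit 227)) (XT.lf (nat_lit 0) (nat_lit 13556623412) (nat_lit 228) (nat_lit 16894782535) (nat_lit 76) (nat_lit 5667092443) (nat_lit 21) (nat_lit 5) (nat_lit 24) (nat_lit 5) (nat_lit 22) (nat_lit 4) (nat_lit 365) (nat_lit 309) (nat_lit 226))) (XT.nd (nat_lit 78) (nat_lit 76) (nat_lit 0) (XT.lf (nat_lit 0) (nat_lit 20703616431) (nat_lit 228) (nat_lit 2281193228) (nat_lit 76) (nat_lit 14503612432)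 (nat_lit 21) (nat_lit 5) (nat_lit 24) (nat_lit 5) (nat_lit 22) (nat_lit 4) (nat_lit 366) (nat_lit 309) (nat_lit 225)) (XT.nd (nat_lit 78) (nat_lit 0) (nat_lit 0) (XT.lf (nat_lit 0) (nat_lit 13470031340) (nat_lit 76) (nat_lit 14934645337) (nat_lit 152) (nat_lit 10512336099) (nat_lit 20) (nat_lit 5) (nat_lit 21) (nat_lit 5) (nat_lit 22) (nat_lit 4) (nat_lit 367) (nat_lit 309) (nat_lit 224)) (XT.lf (nat_lit 0) (nat_lit 30064235516) (nat_lit 76) (nat_lit 6451875921) (nat_lit 152) (nat_lit 3899661843) (nat_lit 20) (nat_lit 5) (nat_lit 21) (nat_lit 5) (nat_lit 22) (nat_lit 4) (nat_lit 368) (nat_lit 309) (nat_lit 223))))) (XT.nd (nat_lit 234) (nat_lit 76) (nat_lit 0) (XT.nd (nat_lit 78) (nat_lit 0) (nat_lit 0) (XT.lf (nat_lit 0) (nat_lit 3061273810) (nat_lit 152) (nat_lit 36416197904) (nat_lit 76) (nat_lit 2503877702) (nat_lit 18) (nat_lit 5) (nat_lit 20) (nat_lit 5) (nat_lit 19) (nat_lit 4)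 (nat_lit 369) (nat_lit 309) (nat_lit 222)) (XT.nd (nat_lit 78) (nat_lit 0) (nat_lit 0) (XT.lf (nat_lit 0) (nat_lit 10510363346) (nat_lit 152) (nat_lit 21175139634) (nat_lit 76) (nat_lit 11922952363) (nat_lit 18) (nat_lit 5) (nat_lit 20) (nat_lit 5) (nat_lit 19) (nat_lit 4) (nat_lit 370) (nat_lit 309) (nat_lit 221)) (XT.lf (nat_lit 0) (nat_lit 18319727020) (nat_lit 152) (nat_lit 5194111036) (nat_lit 76) (nat_lit 21803692760) (nat_lit 18) (nat_lit 5) (nat_lit 20) (nat_lit 5) (nat_lit 19) (nat_lit 4) (nat_lit 371) (nat_lit 309) (nat_lit 220)))) (XT.nd (nat_lit 78) (nat_lit 0) (nat_lit 0) (XT.lf (nat_lit 0) (nat_lit 11947327035) (nat_lit 76) (nat_lit 14747162775) (nat_lit 152) (nat_lit 20408828687) (nat_lit 17) (nat_lit 5) (nat_lit 18) (nat_lit 5) (nat_lit 19) (nat_lit 4) (nat_lit 372) (nat_lit 309) (nat_lit 219)) (XT.nd (nat_lit 78) (nat_lit 0) (nat_lit 0) (XT.lf (nat_lit 0) (nat_lit 30105472994)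 (nat_lit 76) (nat_lit 5459111546) (nat_lit 152) (nat_lit 13409986078) (nat_lit 17) (nat_lit 5) (nat_lit 18) (nat_lit 5) (nat_lit 19) (nat_lit 4) (nat_lit 373) (nat_lit 309) (nat_lit 218)) (XT.lf (nat_lit 0) (nat_lit 44934247009) (nat_lit 152) (nat_lit 1855004099) (nat_lit 0) (nat_lit 4147335608) (nat_lit 17) (nat_lit 5) (nat_lit 19) (nat_lit 4) (nat_lit 17) (nat_lit 4) (nat_lit 374) (nat_lit 309) (nat_lit 217)))))) (XT.nd (nat_lit 468) (nat_lit 228) (nat_lit 0) (XT.nd (nat_lit 234) (nat_lit 76) (nat_lit 0) (XT.nd (nat_lit 78) (nat_lit 0) (nat_lit 0) (XT.lf (nat_lit 0) (nat_lit 2059869861) (nat_lit 152) (nat_lit 36586247713) (nat_lit 76) (nat_lit 14332153268) (nat_lit 15) (nat_lit 5) (nat_lit 17) (nat_lit 5) (nat_lit 16) (nat_lit 4) (nat_lit 375) (nat_lit 309) (nat_lit 216)) (XT.nd (nat_lit 78) (nat_lit 0) (nat_lit 0) (XT.lf (nat_lit 0) (nat_lit 10344987803) (nat_lit 152) (nat_lit 19622774531)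 (nat_lit 76) (nat_lit 25148285001) (nat_lit 15) (nat_lit 5) (nat_lit 17) (nat_lit 5) (nat_lit 16) (nat_lit 4) (nat_lit 376) (nat_lit 309) (nat_lit 215)) (XT.lf (nat_lit 0) (nat_lit 19034443042) (nat_lit 152) (nat_lit 1829409003) (nat_lit 76) (nat_lit 36497360255) (nat_lit 15) (nat_lit 5) (nat_lit 17) (nat_lit 5) (nat_lit 16) (nat_lit 4) (nat_lit 377) (nat_lit 309) (nat_lit 214)))) (XT.nd (nat_lit 78) (nat_lit 0) (nat_lit 0) (XT.lf (nat_lit 0) (nat_lit 17392895294) (nat_lit 76) (nat_lit 11027581302) (nat_lit 152) (nat_lit 31285057181) (nat_lit 14) (nat_lit 5) (nat_lit 15) (nat_lit 5) (nat_lit 16) (nat_lit 4) (nat_lit 378) (nat_lit 309) (nat_lit 213)) (XT.nd (nat_lit 78) (nat_lit 0) (nat_lit 0) (XT.lf (nat_lit 0) (nat_lit 37622697800) (nat_lit 76) (nat_lit 674832045) (nat_lit 152) (nat_lit 23868458954) (nat_lit 14) (nat_lit 5) (nat_lit 15) (nat_lit 5) (nat_lit 16) (nat_lit 4) (nat_lit 379)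 (nat_lit 309) (nat_lit 212)) (XT.lf (nat_lit 0) (nat_lit 48818677206) (nat_lit 152) (nat_lit 6061298955) (nat_lit 0) (nat_lit 9861981551) (nat_lit 14) (nat_lit 5) (nat_lit 16) (nat_lit 4) (nat_lit 14) (nat_lit 4) (nat_lit 380) (nat_lit 309) (nat_lit 211))))) (XT.nd (nat_lit 234) (nat_lit 76) (nat_lit 0) (XT.nd (nat_lit 78) (nat_lit 76) (nat_lit 0) (XT.lf (nat_lit 0) (nat_lit 13758229978) (nat_lit 76) (nat_lit 46325005272) (nat_lit 76) (nat_lit 7352625215) (nat_lit 13) (nat_lit 4) (nat_lit 14) (nat_lit 5) (nat_lit 14) (nat_lit 4) (nat_lit 381) (nat_lit 309) (nat_lit 210)) (XT.nd (nat_lit 78) (nat_lit 0) (nat_lit 0) (XT.lf (nat_lit 0) (nat_lit 1689704582) (nat_lit 152) (nat_lit 35523423189) (nat_lit 76) (nat_lit 33045255883) (nat_lit 12) (nat_lit 5) (nat_lit 14) (nat_lit 5) (nat_lit 13) (nat_lit 4) (nat_lit 382) (nat_lit 309) (nat_lit 209)) (XT.lf (nat_lit 0) (nat_lit 10928967019) (nat_lit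 152) (nat_lit 16597161407) (nat_lit 76) (nat_lit 45690284849) (nat_lit 12) (nat_lit 5) (nat_lit 14) (nat_lit 5) (nat_lit 13) (nat_lit 4) (nat_lit 383) (nat_lit 309) (nat_lit 208)))) (XT.nd (nat_lit 78) (nat_lit 0) (nat_lit 0) (XT.lf (nat_lit 0) (nat_lit 3368836271) (nat_lit 76) (nat_lit 17306250969) (nat_lit 152) (nat_lit 55645014919) (nat_lit 11) (nat_lit 5) (nat_lit 12) (nat_lit 5) (nat_lit 13) (nat_lit 4) (nat_lit 384) (nat_lit 309) (nat_lit 207)) (XT.nd (nat_lit 78) (nat_lit 0) (nat_lit 0) (XT.lf (nat_lit 0) (nat_lit 24895181083) (nat_lit 76) (nat_lit 6286856600) (nat_lit 152) (nat_lit 48383263992) (nat_lit 11) (nat_lit 5) (nat_lit 12) (nat_lit 5) (nat_lit 13) (nat_lit 4) (nat_lit 385) (nat_lit 309) (nat_lit 206)) (XT.lf (nat_lit 0) (nat_lit 42289530788) (nat_lit 152) (nat_lit 35571166220) (nat_lit 0) (nat_lit 5108306685) (nat_lit 11) (nat_lit 5) (nat_lit 13) (nat_lit 4) (nat_lit 11)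 (nat_lit 4) (nat_lit 386) (nat_lit 309) (nat_lit 205))))))) (XT.nd (nat_lit 858) (nat_lit 228) (nat_lit 0) (XT.nd (nat_lit 390) (nat_lit 76) (nat_lit 0) (XT.nd (nat_lit 156) (nat_lit 76) (nat_lit 0) (XT.nd (nat_lit 78) (nat_lit 76) (nat_lit 0) (XT.lf (nat_lit 0) (nat_lit 54048513943) (nat_lit 152) (nat_lit 15633430045) (nat_lit 0) (nat_lit 16856143227) (nat_lit 11) (nat_lit 5) (nat_lit 13) (nat_lit 4) (nat_lit 11) (nat_lit 4) (nat_lit 387) (nat_lit 309) (nat_lit 204)) (XT.lf (nat_lit 0) (nat_lit 5463582956) (nat_lit 76) (nat_lit 61010548161) (nat_lit 76) (nat_lit 23807561625) (nat_lit 10) (nat_lit 4) (nat_lit 11) (nat_lit 5) (nat_lit 11) (nat_lit 4) (nat_lit 388) (nat_lit 309) (nat_lit 203))) (XT.nd (nat_lit 78) (nat_lit 76) (nat_lit 0) (XT.lf (nat_lit 0) (nat_lit 28145926511) (nat_lit 76) (nat_lit 51633368769) (nat_lit 76) (nat_lit 14420271928) (nat_lit 10) (nat_lit 4) (nat_lit 11) (nat_lit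 5) (nat_lit 11) (nat_lit 4) (nat_lit 389) (nat_lit 309) (nat_lit 202)) (XT.nd (nat_lit 78) (nat_lit 76) (nat_lit 0) (XT.lf (nat_lit 0) (nat_lit 51950694401) (nat_lit 76) (nat_lit 41792838899) (nat_lit 76) (nat_lit 4570113195) (nat_lit 10) (nat_lit 4) (nat_lit 11) (nat_lit 5) (nat_lit 11) (nat_lit 4) (nat_lit 390) (nat_lit 309) (nat_lit 201)) (XT.lf (nat_lit 0) (nat_lit 5581807565) (nat_lit 152) (nat_lit 25789190539) (nat_lit 76) (nat_lit 71258226465) (nat_lit 9) (nat_lit 5) (nat_lit 11) (nat_lit 5) (nat_lit 10) (nat_lit 4) (nat_lit 391) (nat_lit 309) (nat_lit 200))))) (XT.nd (nat_lit 234) (nat_lit 0) (nat_lit 0) (XT.nd (nat_lit 78) (nat_lit 76) (nat_lit 0) (XT.lf (nat_lit 0) (nat_lit 16082035596) (nat_lit 152) (nat_lit 4272456737) (nat_lit 76) (nat_lit 86802629992) (nat_lit 9) (nat_lit 5) (nat_lit 11) (nat_lit 5) (nat_lit 10) (nat_lit 4) (nat_lit 392) (nat_lit 309) (nat_lit 199)) (XT.nd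 (nat_lit 78) (nat_lit 0) (nat_lit 0) (XT.lf (nat_lit 0) (nat_lit 18915237635) (nat_lit 76) (nat_lit 8481925837) (nat_lit 152) (nat_lit 84499758620) (nat_lit 8) (nat_lit 5) (nat_lit 9) (nat_lit 5) (nat_lit 10) (nat_lit 4) (nat_lit 393) (nat_lit 309) (nat_lit 198)) (XT.lf (nat_lit 0) (nat_lit 39408390197) (nat_lit 152) (nat_lit 73533148344) (nat_lit 0) (nat_lit 3925657653) (nat_lit 8) (nat_lit 5) (nat_lit 10) (nat_lit 4) (nat_lit 8) (nat_lit 4) (nat_lit 394) (nat_lit 309) (nat_lit 197)))) (XT.nd (nat_lit 78) (nat_lit 0) (nat_lit 0) (XT.lf (nat_lit 0) (nat_lit 52154078188) (nat_lit 152) (nat_lit 53261051781) (nat_lit 0) (nat_lit 16664160438) (nat_lit 8) (nat_lit 5) (nat_lit 10) (nat_lit 4) (nat_lit 8) (nat_lit 4) (nat_lit 395) (nat_lit 309) (nat_lit 196)) (XT.nd (nat_lit 78) (nat_lit 0) (nat_lit 0) (XT.lf (nat_lit 0) (nat_lit 65532147687) (nat_lit 152) (nat_lit 31984701239) (nat_lit 0) (nat_lit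 30035386885) (nat_lit 8) (nat_lit 5) (nat_lit 10) (nat_lit 4) (nat_lit 8) (nat_lit 4) (nat_lit 396) (nat_lit 309) (nat_lit 195)) (XT.lf (nat_lit 0) (nat_lit 79574451241) (nat_lit 152) (nat_lit 9653438739) (nat_lit 0) (nat_lit 44071173246) (nat_lit 8) (nat_lit 5) (nat_lit 10) (nat_lit 4) (nat_lit 8) (nat_lit 4) (nat_lit 397) (nat_lit 309) (nat_lit 194)))))) (XT.nd (nat_lit 468) (nat_lit 76) (nat_lit 0) (XT.nd (nat_lit 234) (nat_lit 76) (nat_lit 0) (XT.nd (nat_lit 78) (nat_lit 0) (nat_lit 0) (XT.lf (nat_lit 0) (nat_lit 14241729681) (nat_lit 76) (nat_lit 80295046538) (nat_lit 76) (nat_lit 44785561692) (nat_lit 7) (nat_lit 4) (nat_lit 8) (nat_lit 5) (nat_lit 8) (nat_lit 4) (nat_lit 398) (nat_lit 309) (nat_lit 193)) (XT.nd (nat_lit 78) (nat_lit 0) (nat_lit 0) (XT.lf (nat_lit 0) (nat_lit 39658457421) (nat_lit 76) (nat_lit 70747880095) (nat_lit 76) (nat_lit 35232483963) (nat_lit 7) (nat_lit 4)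 (nat_lit 8) (nat_lit 5) (nat_lit 8) (nat_lit 4) (nat_lit 399) (nat_lit 309) (nat_lit 192)) (XT.lf (nat_lit 0) (nat_lit 66338074217) (nat_lit 76) (nat_lit 60727144960) (nat_lit 76) (nat_lit 25206119031) (nat_lit 7) (nat_lit 4) (nat_lit 8) (nat_lit 5) (nat_lit 8) (nat_lit 4) (nat_lit 400) (nat_lit 309) (nat_lit 191)))) (XT.nd (nat_lit 78) (nat_lit 76) (nat_lit 0) (XT.lf (nat_lit 0) (nat_lit 94344102967) (nat_lit 76) (nat_lit 50208982239) (nat_lit 76) (nat_lit 14682594600) (nat_lit 7) (nat_lit 4) (nat_lit 8) (nat_lit 5) (nat_lit 8) (nat_lit 4) (nat_lit 401) (nat_lit 309) (nat_lit 190)) (XT.nd (nat_lit 78) (nat_lit 76) (nat_lit 0) (XT.lf (nat_lit 0) (nat_lit 123743224692) (nat_lit 76) (nat_lit 39168348687) (nat_lit 76) (nat_lit 3636854657) (nat_lit 7) (nat_lit 4) (nat_lit 8) (nat_lit 5) (nat_lit 8) (nat_lit 4) (nat_lit 402) (nat_lit 309) (nat_lit 189)) (XT.lf (nat_lit 0) (nat_lit 7702713675)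 (nat_lit 152) (nat_lit 19745794224) (nat_lit 76) (nat_lit 146772274442) (nat_lit 6) (nat_lit 5) (nat_lit 8) (nat_lit 5) (nat_lit 7) (nat_lit 4) (nat_lit 403) (nat_lit 309) (nat_lit 188))))) (XT.nd (nat_lit 234) (nat_lit 0) (nat_lit 0) (XT.nd (nat_lit 78) (nat_lit 0) (nat_lit 0) (XT.lf (nat_lit 0) (nat_lit 4545804796) (nat_lit 76) (nat_lit 15008728717) (nat_lit 152) (nat_lit 162715865916) (nat_lit 5) (nat_lit 5) (nat_lit 6) (nat_lit 5) (nat_lit 7) (nat_lit 4) (nat_lit 404) (nat_lit 309) (nat_lit 187)) (XT.nd (nat_lit 78) (nat_lit 0) (nat_lit 0) (XT.lf (nat_lit 0) (nat_lit 30730966351) (nat_lit 76) (nat_lit 1598968454) (nat_lit 152) (nat_lit 158376013864) (nat_lit 5) (nat_lit 5) (nat_lit 6) (nat_lit 5) (nat_lit 7) (nat_lit 4) (nat_lit 405) (nat_lit 309) (nat_lit 186)) (XT.lf (nat_lit 0) (nat_lit 45935675796) (nat_lit 152) (nat_lit 141539108974) (nat_lit 0) (nat_lit 12078912900) (nat_lit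 5) (nat_lit 5) (nat_lit 7) (nat_lit 4) (nat_lit 5) (nat_lit 4) (nat_lit 406) (nat_lit 309) (nat_lit 185)))) (XT.nd (nat_lit 78) (nat_lit 0) (nat_lit 0) (XT.lf (nat_lit 0) (nat_lit 60244775364) (nat_lit 152) (nat_lit 122213703921) (nat_lit 0) (nat_lit 26384202000) (nat_lit 5) (nat_lit 5) (nat_lit 7) (nat_lit 4) (nat_lit 5) (nat_lit 4) (nat_lit 407) (nat_lit 309) (nat_lit 184)) (XT.nd (nat_lit 78) (nat_lit 0) (nat_lit 0) (XT.lf (nat_lit 0) (nat_lit 75266338417) (nat_lit 152) (nat_lit 101927789912) (nat_lit 0) (nat_lit 41402136036) (nat_lit 5) (nat_lit 5) (nat_lit 7) (nat_lit 4) (nat_lit 5) (nat_lit 4) (nat_lit 408) (nat_lit 309) (nat_lit 183)) (XT.lf (nat_lit 0) (nat_lit 91036130580) (nat_lit 152) (nat_lit 80633067152) (nat_lit 0) (nat_lit 57168471993) (nat_lit 5) (nat_lit 5) (nat_lit 7) (nat_lit 4) (nat_lit 5) (nat_lit 4) (nat_lit 409) (nat_lit 309) (nat_lit 182))))))))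
noncomputable def xc128 : XT := (XT.nd (nat_lit 1716) (nat_lit 0) (nat_lit 0) (XT.nd (nat_lit 858) (nat_lit 152) (nat_lit 0) (XT.nd (nat_lit 390) (nat_lit 0) (nat_lit 0) (XT.nd (nat_lit 156) (nat_lit 76) (nat_lit 0) (XT.nd (nat_lit 78) (nat_lit 0) (nat_lit 0) (XT.lf (nat_lit 0) (nat_lit 107591698978) (nat_lit 152) (nat_lit 58278833919) (nat_lit 0) (nat_lit 73720748766) (nat_lit 5) (nat_lit 5) (nat_lit 7) (nat_lit 4) (nat_lit 5) (nat_lit 4) (nat_lit 410) (nat_lit 309) (nat_lit 181)) (XT.lf (nat_lit 0) (nat_lit 124972461631) (nat_lit 152) (nat_lit 34811865850) (nat_lit 0) (nat_lit 91098376538) (nat_lit 5) (nat_lit 5) (nat_lit 7) (nat_lit 4) (nat_lit 5) (nat_lit 4) (nat_lit 411) (nat_lit 309) (nat_lit 180))) (XT.nd (nat_lit 78) (nat_lit 76) (nat_lit 0) (XT.lf (nat_lit 0) (nat_lit 143219801307) (nat_lit 152) (nat_lit 10176289210) (nat_lit 0) (nat_lit 109342730612) (nat_lit 5) (nat_lit 5) (nat_lit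 7) (nat_lit 4) (nat_lit 5) (nat_lit 4) (nat_lit 412) (nat_lit 309) (nat_lit 179)) (XT.nd (nat_lit 78) (nat_lit 0) (nat_lit 0) (XT.lf (nat_lit 0) (nat_lit 16205220390) (nat_lit 76) (nat_lit 146424952568) (nat_lit 76) (nat_lit 112545038443) (nat_lit 4) (nat_lit 4) (nat_lit 5) (nat_lit 5) (nat_lit 5) (nat_lit 4) (nat_lit 413) (nat_lit 309) (nat_lit 178)) (XT.lf (nat_lit 0) (nat_lit 44254661935) (nat_lit 76) (nat_lit 138926439997) (nat_lit 76) (nat_lit 105043817844) (nat_lit 4) (nat_lit 4) (nat_lit 5) (nat_lit 5) (nat_lit 5) (nat_lit 4) (nat_lit 414) (nat_lit 309) (nat_lit 177))))) (XT.nd (nat_lit 234) (nat_lit 0) (nat_lit 0) (XT.nd (nat_lit 78) (nat_lit 0) (nat_lit 0) (XT.lf (nat_lit 0) (nat_lit 73702345731) (nat_lit 76) (nat_lit 131055039586) (nat_lit 76) (nat_lit 97169838359) (nat_lit 4) (nat_lit 4) (nat_lit 5) (nat_lit 5) (nat_lit 5) (nat_lit 4) (nat_lit 415) (nat_lit 309) (nat_lit 176))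 (XT.nd (nat_lit 78) (nat_lit 0) (nat_lit 0) (XT.lf (nat_lit 0) (nat_lit 104618385311) (nat_lit 76) (nat_lit 122792009906) (nat_lit 76) (nat_lit 88904352417) (nat_lit 4) (nat_lit 4) (nat_lit 5) (nat_lit 5) (nat_lit 5) (nat_lit 4) (nat_lit 416) (nat_lit 309) (nat_lit 175)) (XT.lf (nat_lit 0) (nat_lit 137076390291) (nat_lit 76) (nat_lit 114117677075) (nat_lit 76) (nat_lit 80227680290) (nat_lit 4) (nat_lit 4) (nat_lit 5) (nat_lit 5) (nat_lit 5) (nat_lit 4) (nat_lit 417) (nat_lit 309) (nat_lit 174)))) (XT.nd (nat_lit 78) (nat_lit 0) (nat_lit 0) (XT.lf (nat_lit 0) (nat_lit 171153641638) (nat_lit 76) (nat_lit 105011387921) (nat_lit 76) (nat_lit 71119163234) (nat_lit 4) (nat_lit 4) (nat_lit 5) (nat_lit 5) (nat_lit 5) (nat_lit 4) (nat_lit 418) (nat_lit 309) (nat_lit 173)) (XT.nd (nat_lit 78) (nat_lit 0) (nat_lit 0) (XT.lf (nat_lit 0) (nat_lit 206931275662) (nat_lit 76) (nat_lit 95451460803) (nat_lit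 76) (nat_lit 61557114305) (nat_lit 4) (nat_lit 4) (nat_lit 5) (nat_lit 5) (nat_lit 5) (nat_lit 4) (nat_lit 419) (nat_lit 309) (nat_lit 172)) (XT.lf (nat_lit 0) (nat_lit 244494477208) (nat_lit 76) (nat_lit 85415133989) (nat_lit 76) (nat_lit 51518766719) (nat_lit 4) (nat_lit 4) (nat_lit 5) (nat_lit 5) (nat_lit 5) (nat_lit 4) (nat_lit 420) (nat_lit 309) (nat_lit 171)))))) (XT.nd (nat_lit 390) (nat_lit 76) (nat_lit 0) (XT.nd (nat_lit 156) (nat_lit 76) (nat_lit 0) (XT.nd (nat_lit 78) (nat_lit 0) (nat_lit 0) (XT.lf (nat_lit 0) (nat_lit 283932682469) (nat_lit 76) (nat_lit 74878511464) (nat_lit 76) (nat_lit 40980219648) (nat_lit 4) (nat_lit 4) (nat_lit 5) (nat_lit 5) (nat_lit 5) (nat_lit 4) (nat_lit 421) (nat_lit 309) (nat_lit 170)) (XT.lf (nat_lit 0) (nat_lit 325339791935) (nat_lit 76) (nat_lit 63816506030) (nat_lit 76) (nat_lit 29916381315) (nat_lit 4) (nat_lit 4) (nat_lit 5) (nat_lit 5) (nat_lit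 5) (nat_lit 4) (nat_lit 422) (nat_lit 309) (nat_lit 169))) (XT.nd (nat_lit 78) (nat_lit 76) (nat_lit 0) (XT.lf (nat_lit 0) (nat_lit 368814393960) (nat_lit 76) (nat_lit 52202779580) (nat_lit 76) (nat_lit 18300909246) (nat_lit 4) (nat_lit 4) (nat_lit 5) (nat_lit 5) (nat_lit 5) (nat_lit 4) (nat_lit 423) (nat_lit 309) (nat_lit 168)) (XT.nd (nat_lit 78) (nat_lit 76) (nat_lit 0) (XT.lf (nat_lit 0) (nat_lit 414459999502) (nat_lit 76) (nat_lit 40009680385) (nat_lit 76) (nat_lit 6106147555) (nat_lit 4) (nat_lit 4) (nat_lit 5) (nat_lit 5) (nat_lit 5) (nat_lit 4) (nat_lit 424) (nat_lit 309) (nat_lit 167)) (XT.lf (nat_lit 0) (nat_lit 6482595034) (nat_lit 152) (nat_lit 20615796336) (nat_lit 76) (nat_lit 455792907657) (nat_lit 3) (nat_lit 5) (nat_lit 5) (nat_lit 5) (nat_lit 4) (nat_lit 4) (nat_lit 425) (nat_lit 309) (nat_lit 166))))) (XT.nd (nat_lit 234) (nat_lit 0) (nat_lit 0) (XT.nd (nat_lit 78) (nat_lit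 0) (nat_lit 0) (XT.lf (nat_lit 0) (nat_lit 6256878812) (nat_lit 76) (nat_lit 13335073822) (nat_lit 152) (nat_lit 486720767575) (nat_lit 2) (nat_lit 5) (nat_lit 3) (nat_lit 5) (nat_lit 4) (nat_lit 4) (nat_lit 426) (nat_lit 309) (nat_lit 165)) (XT.nd (nat_lit 78) (nat_lit 0) (nat_lit 0) (XT.lf (nat_lit 0) (nat_lit 33727772242) (nat_lit 152) (nat_lit 495724509206) (nat_lit 0) (nat_lit 1434381562) (nat_lit 2) (nat_lit 5) (nat_lit 4) (nat_lit 4) (nat_lit 2) (nat_lit 4) (nat_lit 427) (nat_lit 309) (nat_lit 164)) (XT.lf (nat_lit 0) (nat_lit 48787754194) (nat_lit 152) (nat_lit 491397619535) (nat_lit 0) (nat_lit 16493060906) (nat_lit 2) (nat_lit 5) (nat_lit 4) (nat_lit 4) (nat_lit 2) (nat_lit 4) (nat_lit 428) (nat_lit 309) (nat_lit 163)))) (XT.nd (nat_lit 78) (nat_lit 0) (nat_lit 0) (XT.lf (nat_lit 0) (nat_lit 64599557717) (nat_lit 152) (nat_lit 486856672394) (nat_lit 0) (nat_lit 32303623850) (nat_lit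 2) (nat_lit 5) (nat_lit 4) (nat_lit 4) (nat_lit 2) (nat_lit 4) (nat_lit 429) (nat_lit 309) (nat_lit 162)) (XT.nd (nat_lit 78) (nat_lit 0) (nat_lit 0) (XT.lf (nat_lit 0) (nat_lit 81200829963) (nat_lit 152) (nat_lit 482090856003) (nat_lit 0) (nat_lit 48903714592) (nat_lit 2) (nat_lit 5) (nat_lit 4) (nat_lit 4) (nat_lit 2) (nat_lit 4) (nat_lit 430) (nat_lit 309) (nat_lit 161)) (XT.lf (nat_lit 0) (nat_lit 98631097769) (nat_lit 152) (nat_lit 477088823179) (nat_lit 0) (nat_lit 66332857156) (nat_lit 2) (nat_lit 5) (nat_lit 4) (nat_lit 4) (nat_lit 2) (nat_lit 4) (nat_lit 431) (nat_lit 309) (nat_lit 160))))))) (XT.nd (nat_lit 38142) (nat_lit 0) (nat_lit 5016) (XT.nd (nat_lit 37674) (nat_lit 0) (nat_lit 8284) (XT.nd (nat_lit 37440) (nat_lit 0) (nat_lit 8816) (XT.nd (nat_lit 37362) (nat_lit 0) (nat_lit 8816) (XT.lf (nat_lit 0) (nat_lit 116931861773) (nat_lit 152) (nat_lit 471838664323) (nat_lit 0)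 (nat_lit 84632549502) (nat_lit 2) (nat_lit 5) (nat_lit 4) (nat_lit 4) (nat_lit 2) (nat_lit 4) (nat_lit 432) (nat_lit 309) (nat_lit 159)) (XT.lf (nat_lit 0) (nat_lit 538381137) (nat_lit 0) (nat_lit 538381137) (nat_lit 532) (nat_lit 2730648667) (nat_lit 118) (nat_lit 5) (nat_lit 118) (nat_lit 3) (nat_lit 125) (nat_lit 3) (nat_lit 310) (nat_lit 310) (nat_lit 280))) (XT.nd (nat_lit 78) (nat_lit 0) (nat_lit 0) (XT.lf (nat_lit 0) (nat_lit 3552645766) (nat_lit 532) (nat_lit 2972787878) (nat_lit 608) (nat_lit 1210126246) (nat_lit 118) (nat_lit 5) (nat_lit 125) (nat_lit 3) (nat_lit 126) (nat_lit 5) (nat_lit 311) (nat_lit 310) (nat_lit 279)) (XT.nd (nat_lit 78) (nat_lit 0) (nat_lit 0) (XT.lf (nat_lit 76) (nat_lit 728935968) (nat_lit 0) (nat_lit 4237616628) (nat_lit 608) (nat_lit 2898692328) (nat_lit 119) (nat_lit 5) (nat_lit 118) (nat_lit 5) (nat_lit 126) (nat_lit 5) (nat_lit 312) (nat_lit 310)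 (nat_lit 278)) (XT.lf (nat_lit 76) (nat_lit 4672230326) (nat_lit 0) (nat_lit 1748347196) (nat_lit 608) (nat_lit 1582509939) (nat_lit 119) (nat_lit 5) (nat_lit 118) (nat_lit 5) (nat_lit 126) (nat_lit 5) (nat_lit 313) (nat_lit 310) (nat_lit 277))))) (XT.nd (nat_lit 234) (nat_lit 0) (nat_lit 76) (XT.nd (nat_lit 78) (nat_lit 608) (nat_lit 0) (XT.lf (nat_lit 76) (nat_lit 622274143) (nat_lit 0) (nat_lit 7271695223) (nat_lit 608) (nat_lit 256656987) (nat_lit 120) (nat_lit 5) (nat_lit 119) (nat_lit 5) (nat_lit 127) (nat_lit 5) (nat_lit 314) (nat_lit 310) (nat_lit 276)) (XT.nd (nat_lit 78) (nat_lit 0) (nat_lit 0) (XT.lf (nat_lit 0) (nat_lit 1110139521) (nat_lit 608) (nat_lit 3512147250) (nat_lit 684) (nat_lit 3681944054) (nat_lit 111) (nat_lit 5) (nat_lit 119) (nat_lit 5) (nat_lit 120) (nat_lit 5) (nat_lit 315) (nat_lit 310) (nat_lit 275)) (XT.lf (nat_lit 76) (nat_lit 673833996) (nat_lit 0) (nat_lit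 1801906252) (nat_lit 684) (nat_lit 5992729198) (nat_lit 112) (nat_lit 5) (nat_lit 111) (nat_lit 5) (nat_lit 120) (nat_lit 5) (nat_lit 316) (nat_lit 310) (nat_lit 274)))) (XT.nd (nat_lit 78) (nat_lit 0) (nat_lit 0) (XT.lf (nat_lit 0) (nat_lit 3919736715) (nat_lit 608) (nat_lit 3517470848) (nat_lit 684) (nat_lit 1203319782) (nat_lit 112) (nat_lit 5) (nat_lit 120) (nat_lit 5) (nat_lit 121) (nat_lit 5) (nat_lit 317) (nat_lit 310) (nat_lit 273)) (XT.nd (nat_lit 78) (nat_lit 0) (nat_lit 0) (XT.lf (nat_lit 76) (nat_lit 924561468) (nat_lit 0) (nat_lit 4490162900) (nat_lit 684) (nat_lit 3407631945) (nat_lit 113) (nat_lit 5) (nat_lit 112) (nat_lit 5) (nat_lit 121) (nat_lit 5) (nat_lit 318) (nat_lit 310) (nat_lit 272)) (XT.lf (nat_lit 76) (nat_lit 5662562250) (nat_lit 0) (nat_lit 1318636760) (nat_lit 684) (nat_lit 2032343454) (nat_lit 113) (nat_lit 5) (nat_lit 112) (nat_lit 5) (nat_lit 121) (nat_lit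 5) (nat_lit 319) (nat_lit 310) (nat_lit 271)))))) (XT.nd (nat_lit 468) (nat_lit 1368) (nat_lit 0) (XT.nd (nat_lit 234) (nat_lit 684) (nat_lit 0) (XT.nd (nat_lit 78) (nat_lit 760) (nat_lit 0) (XT.lf (nat_lit 0) (nat_lit 1386899324) (nat_lit 608) (nat_lit 7232532421) (nat_lit 684) (nat_lit 595282186) (nat_lit 105) (nat_lit 5) (nat_lit 113) (nat_lit 5) (nat_lit 114) (nat_lit 5) (nat_lit 320) (nat_lit 310) (nat_lit 270)) (XT.nd (nat_lit 78) (nat_lit 684) (nat_lit 0) (XT.lf (nat_lit 0) (nat_lit 905113512) (nat_lit 684) (nat_lit 3032398329) (nat_lit 76) (nat_lit 5486771387) (nat_lit 104) (nat_lit 5) (nat_lit 113) (nat_lit 5) (nat_lit 105) (nat_lit 5) (nat_lit 321) (nat_lit 310) (nat_lit 269)) (XT.lf (nat_lit 0) (nat_lit 2009251492) (nat_lit 684) (nat_lit 426856924) (nat_lit 760) (nat_lit 7209039818) (nat_lit 95) (nat_lit 5) (nat_lit 104) (nat_lit 5) (nat_lit 105) (nat_lit 5) (nat_lit 322) (nat_lit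 310) (nat_lit 268)))) (XT.nd (nat_lit 78) (nat_lit 684) (nat_lit 0) (XT.lf (nat_lit 0) (nat_lit 4092972266) (nat_lit 760) (nat_lit 2568143753) (nat_lit 76) (nat_lit 3213554912) (nat_lit 95) (nat_lit 5) (nat_lit 105) (nat_lit 5) (nat_lit 96) (nat_lit 5) (nat_lit 323) (nat_lit 310) (nat_lit 267)) (XT.nd (nat_lit 78) (nat_lit 0) (nat_lit 0) (XT.lf (nat_lit 0) (nat_lit 2787416173) (nat_lit 684) (nat_lit 3044575300) (nat_lit 760) (nat_lit 4283789252) (nat_lit 86) (nat_lit 5) (nat_lit 95) (nat_lit 5) (nat_lit 96) (nat_lit 5) (nat_lit 324) (nat_lit 310) (nat_lit 266)) (XT.lf (nat_lit 0) (nat_lit 7664458459) (nat_lit 760) (nat_lit 1928936758) (nat_lit 76) (nat_lit 775298877) (nat_lit 86) (nat_lit 5) (nat_lit 96) (nat_lit 5) (nat_lit 87) (nat_lit 5) (nat_lit 325) (nat_lit 310) (nat_lit 265))))) (XT.nd (nat_lit 234) (nat_lit 608) (nat_lit 0) (XT.nd (nat_lit 78) (nat_lit 380) (nat_lit 0) (XT.lf (nat_lit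 0) (nat_lit 3763764427) (nat_lit 380) (nat_lit 5886351552) (nat_lit 456) (nat_lit 981128245) (nat_lit 81) (nat_lit 5) (nat_lit 86) (nat_lit 5) (nat_lit 87) (nat_lit 5) (nat_lit 326) (nat_lit 310) (nat_lit 264)) (XT.nd (nat_lit 78) (nat_lit 304) (nat_lit 0) (XT.lf (nat_lit 0) (nat_lit 788431216) (nat_lit 456) (nat_lit 1158770518) (nat_lit 76) (nat_lit 8959796538) (nat_lit 80) (nat_lit 5) (nat_lit 86) (nat_lit 5) (nat_lit 81) (nat_lit 5) (nat_lit 327) (nat_lit 310) (nat_lit 263)) (XT.lf (nat_lit 0) (nat_lit 2681972607) (nat_lit 380) (nat_lit 6298504282) (nat_lit 76) (nat_lit 2211895112) (nat_lit 76) (nat_lit 5) (nat_lit 81) (nat_lit 5) (nat_lit 77) (nat_lit 5) (nat_lit 328) (nat_lit 310) (nat_lit 262)))) (XT.nd (nat_lit 78) (nat_lit 608) (nat_lit 0) (XT.lf (nat_lit 0) (nat_lit 4679232664) (nat_lit 380) (nat_lit 281127289) (nat_lit 76) (nat_lit 6531259521) (nat_lit 76) (nat_lit 5) (nat_lit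 81) (nat_lit 5) (nat_lit 77) (nat_lit 5) (nat_lit 329) (nat_lit 310) (nat_lit 261)) (XT.nd (nat_lit 78) (nat_lit 304) (nat_lit 0) (XT.lf (nat_lit 0) (nat_lit 6190275747) (nat_lit 304) (nat_lit 641941060) (nat_lit 380) (nat_lit 4970873878) (nat_lit 72) (nat_lit 5) (nat_lit 76) (nat_lit 5) (nat_lit 77) (nat_lit 5) (nat_lit 330) (nat_lit 310) (nat_lit 260)) (XT.lf (nat_lit 0) (nat_lit 783127290) (nat_lit 304) (nat_lit 8347951430) (nat_lit 380) (nat_lit 2997197135) (nat_lit 68) (nat_lit 5) (nat_lit 72) (nat_lit 5) (nat_lit 73) (nat_lit 5) (nat_lit 331) (nat_lit 310) (nat_lit 259))))))))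
noncomputable def xc129 : XT := (XT.nd (nat_lit 1794) (nat_lit 1216) (nat_lit 0) (XT.nd (nat_lit 858) (nat_lit 1216) (nat_lit 0) (XT.nd (nat_lit 390) (nat_lit 988) (nat_lit 0) (XT.nd (nat_lit 156) (nat_lit 228) (nat_lit 0) (XT.nd (nat_lit 78) (nat_lit 380) (nat_lit 0) (XT.lf (nat_lit 0) (nat_lit 7637404463) (nat_lit 304) (nat_lit 3974456756) (nat_lit 380) (nat_lit 854559548) (nat_lit 68) (nat_lit 5) (nat_lit 72) (nat_lit 5) (nat_lit 73) (nat_lit 5) (nat_lit 332) (nat_lit 310) (nat_lit 258)) (XT.lf (nat_lit 0) (nat_lit 1355105001) (nat_lit 380) (nat_lit 10820187601) (nat_lit 76) (nat_lit 644908410) (nat_lit 63) (nat_lit 5) (nat_lit 68) (nat_lit 5) (nat_lit 64) (nat_lit 5) (nat_lit 333) (nat_lit 310) (nat_lit 257))) (XT.nd (nat_lit 78) (nat_lit 228) (nat_lit 0) (XT.lf (nat_lit 0) (nat_lit 3758532898) (nat_lit 380) (nat_lit 3975517275) (nat_lit 76) (nat_lit 5451362330) (nat_lit 63) (nat_lit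 5) (nat_lit 68) (nat_lit 5) (nat_lit 64) (nat_lit 5) (nat_lit 334) (nat_lit 310) (nat_lit 256)) (XT.nd (nat_lit 78) (nat_lit 0) (nat_lit 0) (XT.lf (nat_lit 0) (nat_lit 3272726283) (nat_lit 228) (nat_lit 3025951368) (nat_lit 304) (nat_lit 7269420252) (nat_lit 60) (nat_lit 5) (nat_lit 63) (nat_lit 5) (nat_lit 64) (nat_lit 5) (nat_lit 335) (nat_lit 310) (nat_lit 255)) (XT.lf (nat_lit 0) (nat_lit 9030483943) (nat_lit 304) (nat_lit 3020472801) (nat_lit 76) (nat_lit 1915766787) (nat_lit 60) (nat_lit 5) (nat_lit 64) (nat_lit 5) (nat_lit 61) (nat_lit 5) (nat_lit 336) (nat_lit 310) (nat_lit 254))))) (XT.nd (nat_lit 234) (nat_lit 380) (nat_lit 0) (XT.nd (nat_lit 78) (nat_lit 304) (nat_lit 0) (XT.lf (nat_lit 0) (nat_lit 4676054326) (nat_lit 304) (nat_lit 7313328674) (nat_lit 380) (nat_lit 2391409150) (nat_lit 56) (nat_lit 5) (nat_lit 60) (nat_lit 5) (nat_lit 61) (nat_lit 5) (nat_lit 337) (nat_lit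 310) (nat_lit 253)) (XT.nd (nat_lit 78) (nat_lit 228) (nat_lit 0) (XT.lf (nat_lit 0) (nat_lit 291897273) (nat_lit 380) (nat_lit 1998532847) (nat_lit 76) (nat_lit 12523937520) (nat_lit 55) (nat_lit 5) (nat_lit 60) (nat_lit 5) (nat_lit 56) (nat_lit 5) (nat_lit 338) (nat_lit 310) (nat_lit 252)) (XT.lf (nat_lit 0) (nat_lit 3144382864) (nat_lit 304) (nat_lit 9100958447) (nat_lit 76) (nat_lit 3016583196) (nat_lit 52) (nat_lit 5) (nat_lit 56) (nat_lit 5) (nat_lit 53) (nat_lit 5) (nat_lit 339) (nat_lit 310) (nat_lit 251)))) (XT.nd (nat_lit 78) (nat_lit 380) (nat_lit 0) (XT.lf (nat_lit 0) (nat_lit 6181835411) (nat_lit 304) (nat_lit 1011680660) (nat_lit 76) (nat_lit 8536256314) (nat_lit 52) (nat_lit 5) (nat_lit 56) (nat_lit 5) (nat_lit 53) (nat_lit 5) (nat_lit 340) (nat_lit 310) (nat_lit 250)) (XT.nd (nat_lit 78) (nat_lit 152) (nat_lit 0) (XT.lf (nat_lit 0) (nat_lit 7688881507) (nat_lit 228) (nat_lit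 1774127559) (nat_lit 304) (nat_lit 6753440026) (nat_lit 49) (nat_lit 5) (nat_lit 52) (nat_lit 5) (nat_lit 53) (nat_lit 5) (nat_lit 341) (nat_lit 310) (nat_lit 249)) (XT.lf (nat_lit 0) (nat_lit 32752060) (nat_lit 152) (nat_lit 12926926562) (nat_lit 228) (nat_lit 3765236635) (nat_lit 47) (nat_lit 5) (nat_lit 49) (nat_lit 5) (nat_lit 50) (nat_lit 5) (nat_lit 342) (nat_lit 310) (nat_lit 248)))))) (XT.nd (nat_lit 468) (nat_lit 608) (nat_lit 0) (XT.nd (nat_lit 234) (nat_lit 304) (nat_lit 0) (XT.nd (nat_lit 78) (nat_lit 304) (nat_lit 0) (XT.lf (nat_lit 0) (nat_lit 9247878753) (nat_lit 152) (nat_lit 7529408149) (nat_lit 228) (nat_lit 474238743) (nat_lit 47) (nat_lit 5) (nat_lit 49) (nat_lit 5) (nat_lit 50) (nat_lit 5) (nat_lit 343) (nat_lit 310) (nat_lit 247)) (XT.nd (nat_lit 78) (nat_lit 0) (nat_lit 0) (XT.lf (nat_lit 0) (nat_lit 1068714313) (nat_lit 228) (nat_lit 1807769386) (nat_lit 304) (nat_lit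 14926149508) (nat_lit 43) (nat_lit 5) (nat_lit 46) (nat_lit 5) (nat_lit 47) (nat_lit 5) (nat_lit 344) (nat_lit 310) (nat_lit 246)) (XT.lf (nat_lit 0) (nat_lit 6556519696) (nat_lit 304) (nat_lit 7616253400) (nat_lit 76) (nat_lit 4199271196) (nat_lit 43) (nat_lit 5) (nat_lit 47) (nat_lit 5) (nat_lit 44) (nat_lit 5) (nat_lit 345) (nat_lit 310) (nat_lit 245)))) (XT.nd (nat_lit 78) (nat_lit 152) (nat_lit 0) (XT.lf (nat_lit 0) (nat_lit 1953294390) (nat_lit 152) (nat_lit 8502989595) (nat_lit 228) (nat_lit 8511877153) (nat_lit 41) (nat_lit 5) (nat_lit 43) (nat_lit 5) (nat_lit 44) (nat_lit 5) (nat_lit 346) (nat_lit 310) (nat_lit 244)) (XT.nd (nat_lit 78) (nat_lit 152) (nat_lit 0) (XT.lf (nat_lit 0) (nat_lit 12229450544) (nat_lit 152) (nat_lit 2426761020) (nat_lit 228) (nat_lit 4932634021) (nat_lit 41) (nat_lit 5) (nat_lit 43) (nat_lit 5) (nat_lit 44) (nat_lit 5) (nat_lit 347) (nat_lit 310) (nat_lit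 243)) (XT.lf (nat_lit 0) (nat_lit 2770266379) (nat_lit 152) (nat_lit 16377980925) (nat_lit 228) (nat_lit 1088230894) (nat_lit 39) (nat_lit 5) (nat_lit 41) (nat_lit 5) (nat_lit 42) (nat_lit 5) (nat_lit 348) (nat_lit 310) (nat_lit 242))))) (XT.nd (nat_lit 234) (nat_lit 380) (nat_lit 0) (XT.nd (nat_lit 78) (nat_lit 152) (nat_lit 0) (XT.lf (nat_lit 0) (nat_lit 2997783911) (nat_lit 228) (nat_lit 7371930344) (nat_lit 76) (nat_lit 10537306344) (nat_lit 38) (nat_lit 5) (nat_lit 41) (nat_lit 5) (nat_lit 39) (nat_lit 5) (nat_lit 349) (nat_lit 310) (nat_lit 241)) (XT.nd (nat_lit 78) (nat_lit 0) (nat_lit 0) (XT.lf (nat_lit 0) (nat_lit 3280189751) (nat_lit 152) (nat_lit 4000929454) (nat_lit 228) (nat_lit 14327616224) (nat_lit 36) (nat_lit 5) (nat_lit 38) (nat_lit 5) (nat_lit 39) (nat_lit 5) (nat_lit 350) (nat_lit 310) (nat_lit 240)) (XT.lf (nat_lit 0) (nat_lit 11926148248) (nat_lit 228) (nat_lit 7696780531)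 (nat_lit 76) (nat_lit 2715246942) (nat_lit 36) (nat_lit 5) (nat_lit 39) (nat_lit 5) (nat_lit 37) (nat_lit 5) (nat_lit 351) (nat_lit 310) (nat_lit 239)))) (XT.nd (nat_lit 78) (nat_lit 228) (nat_lit 0) (XT.lf (nat_lit 0) (nat_lit 3479637565) (nat_lit 152) (nat_lit 13423414234) (nat_lit 228) (nat_lit 6196070382) (nat_lit 34) (nat_lit 5) (nat_lit 36) (nat_lit 5) (nat_lit 37) (nat_lit 5) (nat_lit 352) (nat_lit 310) (nat_lit 238)) (XT.nd (nat_lit 78) (nat_lit 228) (nat_lit 0) (XT.lf (nat_lit 0) (nat_lit 15449902658) (nat_lit 152) (nat_lit 6789417497) (nat_lit 228) (nat_lit 1653284401) (nat_lit 34) (nat_lit 5) (nat_lit 36) (nat_lit 5) (nat_lit 37) (nat_lit 5) (nat_lit 353) (nat_lit 310) (nat_lit 237)) (XT.lf (nat_lit 0) (nat_lit 3053713508) (nat_lit 228) (nat_lit 21406730158) (nat_lit 76) (nat_lit 261056402) (nat_lit 31) (nat_lit 5) (nat_lit 34) (nat_lit 5) (nat_lit 32) (nat_lit 5) (nat_lit 354)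 (nat_lit 310) (nat_lit 236))))))) (XT.nd (nat_lit 858) (nat_lit 456) (nat_lit 0) (XT.nd (nat_lit 390) (nat_lit 456) (nat_lit 0) (XT.nd (nat_lit 156) (nat_lit 152) (nat_lit 0) (XT.nd (nat_lit 78) (nat_lit 152) (nat_lit 0) (XT.lf (nat_lit 0) (nat_lit 8178165428) (nat_lit 228) (nat_lit 9803776248) (nat_lit 76) (nat_lit 7596672852) (nat_lit 31) (nat_lit 5) (nat_lit 34) (nat_lit 5) (nat_lit 32) (nat_lit 5) (nat_lit 355) (nat_lit 310) (nat_lit 235)) (XT.lf (nat_lit 0) (nat_lit 2426942769) (nat_lit 152) (nat_lit 11151729684) (nat_lit 228) (nat_lit 12898932624) (nat_lit 29) (nat_lit 5) (nat_lit 31) (nat_lit 5) (nat_lit 32) (nat_lit 5) (nat_lit 356) (nat_lit 310) (nat_lit 234))) (XT.nd (nat_lit 78) (nat_lit 152) (nat_lit 0) (XT.lf (nat_lit 0) (nat_lit 15579987637) (nat_lit 152) (nat_lit 3817588217) (nat_lit 228) (nat_lit 8016562170) (nat_lit 29) (nat_lit 5) (nat_lit 31) (nat_lit 5) (nat_lit 32)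 (nat_lit 5) (nat_lit 357) (nat_lit 310) (nat_lit 233)) (XT.nd (nat_lit 78) (nat_lit 76) (nat_lit 0) (XT.lf (nat_lit 0) (nat_lit 933598082) (nat_lit 76) (nat_lit 24632034154) (nat_lit 152) (nat_lit 2828965867) (nat_lit 28) (nat_lit 5) (nat_lit 29) (nat_lit 5) (nat_lit 30) (nat_lit 4) (nat_lit 358) (nat_lit 310) (nat_lit 232)) (XT.lf (nat_lit 0) (nat_lit 2783590410) (nat_lit 152) (nat_lit 14799160142) (nat_lit 76) (nat_lit 11826828134) (nat_lit 27) (nat_lit 5) (nat_lit 29) (nat_lit 5) (nat_lit 28) (nat_lit 5) (nat_lit 359) (nat_lit 310) (nat_lit 231))))) (XT.nd (nat_lit 234) (nat_lit 304) (nat_lit 0) (XT.nd (nat_lit 78) (nat_lit 152) (nat_lit 0) (XT.lf (nat_lit 0) (nat_lit 8565594923) (nat_lit 152) (nat_lit 1578171755) (nat_lit 76) (nat_lit 20330037581) (nat_lit 27) (nat_lit 5) (nat_lit 29) (nat_lit 5) (nat_lit 28) (nat_lit 5) (nat_lit 360) (nat_lit 310) (nat_lit 230)) (XT.nd (nat_lit 78)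 (nat_lit 0) (nat_lit 0) (XT.lf (nat_lit 0) (nat_lit 12683565060) (nat_lit 152) (nat_lit 2135819858) (nat_lit 228) (nat_lit 16762730877) (nat_lit 25) (nat_lit 5) (nat_lit 27) (nat_lit 5) (nat_lit 28) (nat_lit 5) (nat_lit 361) (nat_lit 310) (nat_lit 229)) (XT.lf (nat_lit 0) (nat_lit 21495778942) (nat_lit 228) (nat_lit 5156118245) (nat_lit 76) (nat_lit 6088458517) (nat_lit 25) (nat_lit 5) (nat_lit 28) (nat_lit 5) (nat_lit 26) (nat_lit 4) (nat_lit 362) (nat_lit 310) (nat_lit 228)))) (XT.nd (nat_lit 78) (nat_lit 228) (nat_lit 0) (XT.lf (nat_lit 0) (nat_lit 9517891407) (nat_lit 76) (nat_lit 19157256222) (nat_lit 152) (nat_lit 5272910348) (nat_lit 24) (nat_lit 5) (nat_lit 25) (nat_lit 5) (nat_lit 26) (nat_lit 4) (nat_lit 363) (nat_lit 310) (nat_lit 227)) (XT.nd (nat_lit 78) (nat_lit 152) (nat_lit 0) (XT.lf (nat_lit 0) (nat_lit 1039774163) (nat_lit 152) (nat_lit 10149412253) (nat_lit 76) (nat_lit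 24022469952) (nat_lit 23) (nat_lit 5) (nat_lit 25) (nat_lit 5) (nat_lit 24) (nat_lit 5) (nat_lit 364) (nat_lit 310) (nat_lit 226)) (XT.lf (nat_lit 0) (nat_lit 4891457210) (nat_lit 152) (nat_lit 2662089262) (nat_lit 228) (nat_lit 28977440264) (nat_lit 21) (nat_lit 5) (nat_lit 23) (nat_lit 5) (nat_lit 24) (nat_lit 5) (nat_lit 365) (nat_lit 310) (nat_lit 225)))))) (XT.nd (nat_lit 468) (nat_lit 228) (nat_lit 0) (XT.nd (nat_lit 234) (nat_lit 152) (nat_lit 0) (XT.nd (nat_lit 78) (nat_lit 76) (nat_lit 0) (XT.lf (nat_lit 0) (nat_lit 14652348836) (nat_lit 228) (nat_lit 16996167463) (nat_lit 76) (nat_lit 6254806929) (nat_lit 21) (nat_lit 5) (nat_lit 24) (nat_lit 5) (nat_lit 22) (nat_lit 4) (nat_lit 366) (nat_lit 310) (nat_lit 224)) (XT.nd (nat_lit 78) (nat_lit 76) (nat_lit 0) (XT.lf (nat_lit 0) (nat_lit 22136791781) (nat_lit 228) (nat_lit 1687296509) (nat_lit 76) (nat_lit 15518659591) (nat_lit 21)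 (nat_lit 5) (nat_lit 24) (nat_lit 5) (nat_lit 22) (nat_lit 4) (nat_lit 367) (nat_lit 310) (nat_lit 223)) (XT.lf (nat_lit 0) (nat_lit 14840070636) (nat_lit 76) (nat_lit 15374757188) (nat_lit 152) (nat_lit 10628353450) (nat_lit 20) (nat_lit 5) (nat_lit 21) (nat_lit 5) (nat_lit 22) (nat_lit 4) (nat_lit 368) (nat_lit 310) (nat_lit 222)))) (XT.nd (nat_lit 78) (nat_lit 152) (nat_lit 0) (XT.lf (nat_lit 0) (nat_lit 32230816558) (nat_lit 76) (nat_lit 6482450274) (nat_lit 152) (nat_lit 3704550217) (nat_lit 20) (nat_lit 5) (nat_lit 21) (nat_lit 5) (nat_lit 22) (nat_lit 4) (nat_lit 369) (nat_lit 310) (nat_lit 221)) (XT.nd (nat_lit 78) (nat_lit 0) (nat_lit 0) (XT.lf (nat_lit 0) (nat_lit 3588957208) (nat_lit 152) (nat_lit 37557833654) (nat_lit 76) (nat_lit 2914734129) (nat_lit 18) (nat_lit 5) (nat_lit 20) (nat_lit 5) (nat_lit 19) (nat_lit 4) (nat_lit 370) (nat_lit 310) (nat_lit 220)) (XT.lf (nat_lit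 0) (nat_lit 11392662187) (nat_lit 152) (nat_lit 21587064096) (nat_lit 76) (nat_lit 12791159545) (nat_lit 18) (nat_lit 5) (nat_lit 20) (nat_lit 5) (nat_lit 19) (nat_lit 4) (nat_lit 371) (nat_lit 310) (nat_lit 219))))) (XT.nd (nat_lit 234) (nat_lit 152) (nat_lit 0) (XT.nd (nat_lit 78) (nat_lit 76) (nat_lit 0) (XT.lf (nat_lit 0) (nat_lit 19575504488) (nat_lit 152) (nat_lit 4837785617) (nat_lit 76) (nat_lit 23152981744) (nat_lit 18) (nat_lit 5) (nat_lit 20) (nat_lit 5) (nat_lit 19) (nat_lit 4) (nat_lit 372) (nat_lit 310) (nat_lit 218)) (XT.nd (nat_lit 78) (nat_lit 0) (nat_lit 0) (XT.lf (nat_lit 0) (nat_lit 13150788375) (nat_lit 76) (nat_lit 15211499356) (nat_lit 152) (nat_lit 21079404019) (nat_lit 17) (nat_lit 5) (nat_lit 18) (nat_lit 5) (nat_lit 19) (nat_lit 4) (nat_lit 373) (nat_lit 310) (nat_lit 217)) (XT.lf (nat_lit 0) (nat_lit 32187979965) (nat_lit 76) (nat_lit 5472046592) (nat_lit 152)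 (nat_lit 13747279571) (nat_lit 17) (nat_lit 5) (nat_lit 18) (nat_lit 5) (nat_lit 19) (nat_lit 4) (nat_lit 374) (nat_lit 310) (nat_lit 216)))) (XT.nd (nat_lit 78) (nat_lit 152) (nat_lit 0) (XT.lf (nat_lit 0) (nat_lit 47486933111) (nat_lit 152) (nat_lit 1386643167) (nat_lit 0) (nat_lit 4594415008) (nat_lit 17) (nat_lit 5) (nat_lit 19) (nat_lit 4) (nat_lit 17) (nat_lit 4) (nat_lit 375) (nat_lit 310) (nat_lit 215)) (XT.nd (nat_lit 78) (nat_lit 0) (nat_lit 0) (XT.lf (nat_lit 0) (nat_lit 2467920783) (nat_lit 152) (nat_lit 37853298209) (nat_lit 76) (nat_lit 15290598164) (nat_lit 15) (nat_lit 5) (nat_lit 17) (nat_lit 5) (nat_lit 16) (nat_lit 4) (nat_lit 376) (nat_lit 310) (nat_lit 214)) (XT.lf (nat_lit 0) (nat_lit 11152768078) (nat_lit 152) (nat_lit 20068425743) (nat_lit 76) (nat_lit 26636020425) (nat_lit 15) (nat_lit 5) (nat_lit 17) (nat_lit 5) (nat_lit 16) (nat_lit 4) (nat_lit 377) (nat_lit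 310) (nat_lit 213))))))))
noncomputable def xc130 : XT := (XT.nd (nat_lit 1794) (nat_lit 228) (nat_lit 0) (XT.nd (nat_lit 858) (nat_lit 304) (nat_lit 0) (XT.nd (nat_lit 390) (nat_lit 152) (nat_lit 0) (XT.nd (nat_lit 156) (nat_lit 76) (nat_lit 0) (XT.nd (nat_lit 78) (nat_lit 76) (nat_lit 0) (XT.lf (nat_lit 0) (nat_lit 20262861275) (nat_lit 152) (nat_lit 1410891344) (nat_lit 76) (nat_lit 38541581766) (nat_lit 15) (nat_lit 5) (nat_lit 17) (nat_lit 5) (nat_lit 16) (nat_lit 4) (nat_lit 378) (nat_lit 310) (nat_lit 212)) (XT.lf (nat_lit 0) (nat_lit 18764302553) (nat_lit 76) (nat_lit 11348551868) (nat_lit 152) (nat_lit 32564289559) (nat_lit 14) (nat_lit 5) (nat_lit 15) (nat_lit 5) (nat_lit 16) (nat_lit 4) (nat_lit 379) (nat_lit 310) (nat_lit 211))) (XT.nd (nat_lit 78) (nat_lit 76) (nat_lit 0) (XT.lf (nat_lit 0) (nat_lit 39981701733) (nat_lit 76) (nat_lit 489136982) (nat_lit 152) (nat_lit 24790433824)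 (nat_lit 14) (nat_lit 5) (nat_lit 15) (nat_lit 5) (nat_lit 16) (nat_lit 4) (nat_lit 380) (nat_lit 310) (nat_lit 210)) (XT.nd (nat_lit 78) (nat_lit 76) (nat_lit 0) (XT.lf (nat_lit 0) (nat_lit 51509000017) (nat_lit 152) (nat_lit 5900117501) (nat_lit 0) (nat_lit 10557379030) (nat_lit 14) (nat_lit 5) (nat_lit 16) (nat_lit 4) (nat_lit 14) (nat_lit 4) (nat_lit 381) (nat_lit 310) (nat_lit 209)) (XT.lf (nat_lit 0) (nat_lit 14902900033) (nat_lit 76) (nat_lit 48429141547) (nat_lit 76) (nat_lit 7463294345) (nat_lit 13) (nat_lit 4) (nat_lit 14) (nat_lit 5) (nat_lit 14) (nat_lit 4) (nat_lit 382) (nat_lit 310) (nat_lit 208))))) (XT.nd (nat_lit 234) (nat_lit 0) (nat_lit 0) (XT.nd (nat_lit 78) (nat_lit 76) (nat_lit 0) (XT.lf (nat_lit 0) (nat_lit 2011082894) (nat_lit 152) (nat_lit 36856676043) (nat_lit 76) (nat_lit 34891621844) (nat_lit 12) (nat_lit 5) (nat_lit 14) (nat_lit 5) (nat_lit 13) (nat_lit 4)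 (nat_lit 383) (nat_lit 310) (nat_lit 207)) (XT.nd (nat_lit 78) (nat_lit 76) (nat_lit 0) (XT.lf (nat_lit 0) (nat_lit 11701027831) (nat_lit 152) (nat_lit 17005192520) (nat_lit 76) (nat_lit 48159659249) (nat_lit 12) (nat_lit 5) (nat_lit 14) (nat_lit 5) (nat_lit 13) (nat_lit 4) (nat_lit 384) (nat_lit 310) (nat_lit 206)) (XT.lf (nat_lit 0) (nat_lit 3952301381) (nat_lit 76) (nat_lit 17977888908) (nat_lit 152) (nat_lit 58194779339) (nat_lit 11) (nat_lit 5) (nat_lit 12) (nat_lit 5) (nat_lit 13) (nat_lit 4) (nat_lit 385) (nat_lit 310) (nat_lit 205)))) (XT.nd (nat_lit 78) (nat_lit 0) (nat_lit 0) (XT.lf (nat_lit 0) (nat_lit 26535200420) (nat_lit 76) (nat_lit 6416747421) (nat_lit 152) (nat_lit 50581011643) (nat_lit 11) (nat_lit 5) (nat_lit 12) (nat_lit 5) (nat_lit 13) (nat_lit 4) (nat_lit 386) (nat_lit 310) (nat_lit 204)) (XT.nd (nat_lit 78) (nat_lit 0) (nat_lit 0) (XT.lf (nat_lit 0) (nat_lit 44607519791)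 (nat_lit 152) (nat_lit 36965926678) (nat_lit 0) (nat_lit 5533768107) (nat_lit 11) (nat_lit 5) (nat_lit 13) (nat_lit 4) (nat_lit 11) (nat_lit 4) (nat_lit 387) (nat_lit 310) (nat_lit 203)) (XT.lf (nat_lit 0) (nat_lit 56944761033) (nat_lit 152) (nat_lit 16049579783) (nat_lit 0) (nat_lit 17860899044) (nat_lit 11) (nat_lit 5) (nat_lit 13) (nat_lit 4) (nat_lit 11) (nat_lit 4) (nat_lit 388) (nat_lit 310) (nat_lit 202)))))) (XT.nd (nat_lit 468) (nat_lit 76) (nat_lit 0) (XT.nd (nat_lit 234) (nat_lit 152) (nat_lit 0) (XT.nd (nat_lit 78) (nat_lit 0) (nat_lit 0) (XT.lf (nat_lit 0) (nat_lit 6096388355) (nat_lit 76) (nat_lit 63891655893) (nat_lit 76) (nat_lit 24798165043) (nat_lit 10) (nat_lit 4) (nat_lit 11) (nat_lit 5) (nat_lit 11) (nat_lit 4) (nat_lit 389) (nat_lit 310) (nat_lit 201)) (XT.nd (nat_lit 78) (nat_lit 0) (nat_lit 0) (XT.lf (nat_lit 0) (nat_lit 29895724029) (nat_lit 76) (nat_lit 54053685136)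 (nat_lit 76) (nat_lit 14951023940) (nat_lit 10) (nat_lit 4) (nat_lit 11) (nat_lit 5) (nat_lit 11) (nat_lit 4) (nat_lit 390) (nat_lit 310) (nat_lit 200)) (XT.lf (nat_lit 0) (nat_lit 54874420733) (nat_lit 76) (nat_lit 43728812204) (nat_lit 76) (nat_lit 4617417346) (nat_lit 10) (nat_lit 4) (nat_lit 11) (nat_lit 5) (nat_lit 11) (nat_lit 4) (nat_lit 391) (nat_lit 310) (nat_lit 199)))) (XT.nd (nat_lit 78) (nat_lit 76) (nat_lit 0) (XT.lf (nat_lit 0) (nat_lit 6027947399) (nat_lit 152) (nat_lit 26762420461) (nat_lit 76) (nat_lit 74961917947) (nat_lit 9) (nat_lit 5) (nat_lit 11) (nat_lit 5) (nat_lit 10) (nat_lit 4) (nat_lit 392) (nat_lit 310) (nat_lit 198)) (XT.nd (nat_lit 78) (nat_lit 76) (nat_lit 0) (XT.lf (nat_lit 0) (nat_lit 17045232096) (nat_lit 152) (nat_lit 4184908522) (nat_lit 76) (nat_lit 91276837833) (nat_lit 9) (nat_lit 5) (nat_lit 11) (nat_lit 5) (nat_lit 10) (nat_lit 4) (nat_lit 393)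 (nat_lit 310) (nat_lit 197)) (XT.lf (nat_lit 0) (nat_lit 20157312971) (nat_lit 76) (nat_lit 8765853738) (nat_lit 152) (nat_lit 88560751133) (nat_lit 8) (nat_lit 5) (nat_lit 9) (nat_lit 5) (nat_lit 10) (nat_lit 4) (nat_lit 394) (nat_lit 310) (nat_lit 196))))) (XT.nd (nat_lit 234) (nat_lit 76) (nat_lit 0) (XT.nd (nat_lit 78) (nat_lit 0) (nat_lit 0) (XT.lf (nat_lit 0) (nat_lit 41529603503) (nat_lit 152) (nat_lit 76922210155) (nat_lit 0) (nat_lit 4251161608) (nat_lit 8) (nat_lit 5) (nat_lit 10) (nat_lit 4) (nat_lit 8) (nat_lit 4) (nat_lit 395) (nat_lit 310) (nat_lit 195)) (XT.nd (nat_lit 78) (nat_lit 0) (nat_lit 0) (XT.lf (nat_lit 0) (nat_lit 54905395237) (nat_lit 152) (nat_lit 55650203793) (nat_lit 0) (nat_lit 17620436149) (nat_lit 8) (nat_lit 5) (nat_lit 10) (nat_lit 4) (nat_lit 8) (nat_lit 4) (nat_lit 396) (nat_lit 310) (nat_lit 194)) (XT.lf (nat_lit 0) (nat_lit 68945529490) (nat_lit 152)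 (nat_lit 33323078608) (nat_lit 0) (nat_lit 31654363551) (nat_lit 8) (nat_lit 5) (nat_lit 10) (nat_lit 4) (nat_lit 8) (nat_lit 4) (nat_lit 397) (nat_lit 310) (nat_lit 193)))) (XT.nd (nat_lit 78) (nat_lit 76) (nat_lit 0) (XT.lf (nat_lit 0) (nat_lit 83683435154) (nat_lit 152) (nat_lit 9887674778) (nat_lit 0) (nat_lit 46386357929) (nat_lit 8) (nat_lit 5) (nat_lit 10) (nat_lit 4) (nat_lit 8) (nat_lit 4) (nat_lit 398) (nat_lit 310) (nat_lit 192)) (XT.nd (nat_lit 78) (nat_lit 0) (nat_lit 0) (XT.lf (nat_lit 0) (nat_lit 15198245032) (nat_lit 76) (nat_lit 84193244647) (nat_lit 76) (nat_lit 46890537626) (nat_lit 7) (nat_lit 4) (nat_lit 8) (nat_lit 5) (nat_lit 8) (nat_lit 4) (nat_lit 399) (nat_lit 310) (nat_lit 191)) (XT.lf (nat_lit 0) (nat_lit 41874169689) (nat_lit 76) (nat_lit 74174270083) (nat_lit 76) (nat_lit 36866201351) (nat_lit 7) (nat_lit 4) (nat_lit 8) (nat_lit 5) (nat_lit 8) (nat_lit 4)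 (nat_lit 400) (nat_lit 310) (nat_lit 190))))))) (XT.nd (nat_lit 858) (nat_lit 76) (nat_lit 0) (XT.nd (nat_lit 390) (nat_lit 0) (nat_lit 0) (XT.nd (nat_lit 156) (nat_lit 152) (nat_lit 0) (XT.nd (nat_lit 78) (nat_lit 0) (nat_lit 0) (XT.lf (nat_lit 0) (nat_lit 69876682116) (nat_lit 76) (nat_lit 63657784096) (nat_lit 76) (nat_lit 26344608973) (nat_lit 7) (nat_lit 4) (nat_lit 8) (nat_lit 5) (nat_lit 8) (nat_lit 4) (nat_lit 401) (nat_lit 310) (nat_lit 189)) (XT.lf (nat_lit 0) (nat_lit 99272454961) (nat_lit 76) (nat_lit 52618747435) (nat_lit 76) (nat_lit 15300709082) (nat_lit 7) (nat_lit 4) (nat_lit 8) (nat_lit 5) (nat_lit 8) (nat_lit 4) (nat_lit 402) (nat_lit 310) (nat_lit 188))) (XT.nd (nat_lit 78) (nat_lit 152) (nat_lit 0) (XT.lf (nat_lit 0) (nat_lit 130131478161) (nat_lit 76) (nat_lit 41030876678) (nat_lit 76) (nat_lit 3708206678) (nat_lit 7) (nat_lit 4) (nat_lit 8) (nat_lit 5) (nat_lit 8)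 (nat_lit 4) (nat_lit 403) (nat_lit 310) (nat_lit 187)) (XT.nd (nat_lit 78) (nat_lit 76) (nat_lit 0) (XT.lf (nat_lit 0) (nat_lit 8189710616) (nat_lit 152) (nat_lit 20538174329) (nat_lit 76) (nat_lit 154198818251) (nat_lit 6) (nat_lit 5) (nat_lit 8) (nat_lit 5) (nat_lit 7) (nat_lit 4) (nat_lit 404) (nat_lit 310) (nat_lit 186)) (XT.lf (nat_lit 0) (nat_lit 4964860939) (nat_lit 76) (nat_lit 15667403974) (nat_lit 152) (nat_lit 170746630253) (nat_lit 5) (nat_lit 5) (nat_lit 6) (nat_lit 5) (nat_lit 7) (nat_lit 4) (nat_lit 405) (nat_lit 310) (nat_lit 185))))) (XT.nd (nat_lit 234) (nat_lit 0) (nat_lit 0) (XT.nd (nat_lit 78) (nat_lit 0) (nat_lit 0) (XT.lf (nat_lit 0) (nat_lit 32450148862) (nat_lit 76) (nat_lit 1591525277) (nat_lit 152) (nat_lit 166194786977) (nat_lit 5) (nat_lit 5) (nat_lit 6) (nat_lit 5) (nat_lit 7) (nat_lit 4) (nat_lit 406) (nat_lit 310) (nat_lit 184)) (XT.nd (nat_lit 78) (nat_lit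 0) (nat_lit 0) (XT.lf (nat_lit 0) (nat_lit 48324466273) (nat_lit 152) (nat_lit 148438869421) (nat_lit 0) (nat_lit 12763424756) (nat_lit 5) (nat_lit 5) (nat_lit 7) (nat_lit 4) (nat_lit 5) (nat_lit 4) (nat_lit 407) (nat_lit 310) (nat_lit 183)) (XT.lf (nat_lit 0) (nat_lit 63344639549) (nat_lit 152) (nat_lit 128155631972) (nat_lit 0) (nat_lit 27780141826) (nat_lit 5) (nat_lit 5) (nat_lit 7) (nat_lit 4) (nat_lit 5) (nat_lit 4) (nat_lit 408) (nat_lit 310) (nat_lit 182)))) (XT.nd (nat_lit 78) (nat_lit 0) (nat_lit 0) (XT.lf (nat_lit 0) (nat_lit 79113108115) (nat_lit 152) (nat_lit 106863458317) (nat_lit 0) (nat_lit 43545318767) (nat_lit 5) (nat_lit 5) (nat_lit 7) (nat_lit 4) (nat_lit 5) (nat_lit 4) (nat_lit 409) (nat_lit 310) (nat_lit 181)) (XT.nd (nat_lit 78) (nat_lit 0) (nat_lit 0) (XT.lf (nat_lit 0) (nat_lit 95667415945) (nat_lit 152) (nat_lit 84511652805) (nat_lit 0) (nat_lit 60096491716) (nat_lit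 5) (nat_lit 5) (nat_lit 7) (nat_lit 4) (nat_lit 5) (nat_lit 4) (nat_lit 410) (nat_lit 310) (nat_lit 180)) (XT.lf (nat_lit 0) (nat_lit 113046978057) (nat_lit 152) (nat_lit 61046996849) (nat_lit 0) (nat_lit 77473068226) (nat_lit 5) (nat_lit 5) (nat_lit 7) (nat_lit 4) (nat_lit 5) (nat_lit 4) (nat_lit 411) (nat_lit 310) (nat_lit 179)))))) (XT.nd (nat_lit 468) (nat_lit 0) (nat_lit 0) (XT.nd (nat_lit 234) (nat_lit 0) (nat_lit 0) (XT.nd (nat_lit 78) (nat_lit 76) (nat_lit 0) (XT.lf (nat_lit 0) (nat_lit 131293174360) (nat_lit 152) (nat_lit 36413622222) (nat_lit 0) (nat_lit 95716421099) (nat_lit 5) (nat_lit 5) (nat_lit 7) (nat_lit 4) (nat_lit 5) (nat_lit 4) (nat_lit 412) (nat_lit 310) (nat_lit 178)) (XT.nd (nat_lit 78) (nat_lit 76) (nat_lit 0) (XT.lf (nat_lit 0) (nat_lit 150449448179) (nat_lit 152) (nat_lit 10552878032) (nat_lit 0) (nat_lit 114869986890) (nat_lit 5) (nat_lit 5) (nat_lit 7) (nat_lit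 4) (nat_lit 5) (nat_lit 4) (nat_lit 413) (nat_lit 310) (nat_lit 177)) (XT.lf (nat_lit 0) (nat_lit 17145574376) (nat_lit 76) (nat_lit 153683525780) (nat_lit 76) (nat_lit 118101485417) (nat_lit 4) (nat_lit 4) (nat_lit 5) (nat_lit 5) (nat_lit 5) (nat_lit 4) (nat_lit 414) (nat_lit 310) (nat_lit 176)))) (XT.nd (nat_lit 78) (nat_lit 0) (nat_lit 0) (XT.lf (nat_lit 0) (nat_lit 46591293096) (nat_lit 76) (nat_lit 145813072077) (nat_lit 76) (nat_lit 110228575452) (nat_lit 4) (nat_lit 4) (nat_lit 5) (nat_lit 5) (nat_lit 5) (nat_lit 4) (nat_lit 415) (nat_lit 310) (nat_lit 175)) (XT.nd (nat_lit 78) (nat_lit 0) (nat_lit 0) (XT.lf (nat_lit 0) (nat_lit 77505461174) (nat_lit 76) (nat_lit 137550944023) (nat_lit 76) (nat_lit 101964108101) (nat_lit 4) (nat_lit 4) (nat_lit 5) (nat_lit 5) (nat_lit 5) (nat_lit 4) (nat_lit 416) (nat_lit 310) (nat_lit 174)) (XT.lf (nat_lit 0) (nat_lit 109961683772) (nat_lit 76)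 (nat_lit 128877469884) (nat_lit 76) (nat_lit 93288406061) (nat_lit 4) (nat_lit 4) (nat_lit 5) (nat_lit 5) (nat_lit 5) (nat_lit 4) (nat_lit 417) (nat_lit 310) (nat_lit 173))))) (XT.nd (nat_lit 234) (nat_lit 0) (nat_lit 0) (XT.nd (nat_lit 78) (nat_lit 0) (nat_lit 0) (XT.lf (nat_lit 0) (nat_lit 144037237612) (nat_lit 76) (nat_lit 119771998532) (nat_lit 76) (nat_lit 84180812898) (nat_lit 4) (nat_lit 4) (nat_lit 5) (nat_lit 5) (nat_lit 5) (nat_lit 4) (nat_lit 418) (nat_lit 310) (nat_lit 172)) (XT.nd (nat_lit 78) (nat_lit 0) (nat_lit 0) (XT.lf (nat_lit 0) (nat_lit 179813254963) (nat_lit 76) (nat_lit 110212850272) (nat_lit 76) (nat_lit 74619643866) (nat_lit 4) (nat_lit 4) (nat_lit 5) (nat_lit 5) (nat_lit 5) (nat_lit 4) (nat_lit 419) (nat_lit 310) (nat_lit 171)) (XT.lf (nat_lit 0) (nat_lit 217374916820) (nat_lit 76) (nat_lit 100177265229) (nat_lit 76) (nat_lit 64582134277) (nat_lit 4) (nat_lit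 4) (nat_lit 5) (nat_lit 5) (nat_lit 5) (nat_lit 4) (nat_lit 420) (nat_lit 310) (nat_lit 170)))) (XT.nd (nat_lit 78) (nat_lit 0) (nat_lit 0) (XT.lf (nat_lit 0) (nat_lit 256811655711) (nat_lit 76) (nat_lit 89641349151) (nat_lit 76) (nat_lit 54044385300) (nat_lit 4) (nat_lit 4) (nat_lit 5) (nat_lit 5) (nat_lit 5) (nat_lit 4) (nat_lit 421) (nat_lit 310) (nat_lit 169)) (XT.nd (nat_lit 78) (nat_lit 0) (nat_lit 0) (XT.lf (nat_lit 0) (nat_lit 298217368634) (nat_lit 76) (nat_lit 78580016525) (nat_lit 76) (nat_lit 42981307054) (nat_lit 4) (nat_lit 4) (nat_lit 5) (nat_lit 5) (nat_lit 5) (nat_lit 4) (nat_lit 422) (nat_lit 310) (nat_lit 168)) (XT.lf (nat_lit 0) (nat_lit 341690640618) (nat_lit 76) (nat_lit 66966930844) (nat_lit 76) (nat_lit 31366558879) (nat_lit 4) (nat_lit 4) (nat_lit 5) (nat_lit 5) (nat_lit 5) (nat_lit 4) (nat_lit 423) (nat_lit 310) (nat_lit 167))))))))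
noncomputable def xc131 : XT := (XT.nd (nat_lit 39156) (nat_lit 0) (nat_lit 2964) (XT.nd (nat_lit 38220) (nat_lit 0) (nat_lit 7068) (XT.nd (nat_lit 390) (nat_lit 0) (nat_lit 0) (XT.nd (nat_lit 156) (nat_lit 152) (nat_lit 0) (XT.nd (nat_lit 78) (nat_lit 0) (nat_lit 0) (XT.lf (nat_lit 0) (nat_lit 387334979454) (nat_lit 76) (nat_lit 54774441905) (nat_lit 76) (nat_lit 19172486611) (nat_lit 4) (nat_lit 4) (nat_lit 5) (nat_lit 5) (nat_lit 5) (nat_lit 4) (nat_lit 424) (nat_lit 310) (nat_lit 166)) (XT.lf (nat_lit 0) (nat_lit 435259062141) (nat_lit 76) (nat_lit 41973519971) (nat_lit 76) (nat_lit 6370056746) (nat_lit 4) (nat_lit 4) (nat_lit 5) (nat_lit 5) (nat_lit 5) (nat_lit 4) (nat_lit 425) (nat_lit 310) (nat_lit 165))) (XT.nd (nat_lit 78) (nat_lit 76) (nat_lit 0) (XT.lf (nat_lit 0) (nat_lit 6844889725) (nat_lit 152) (nat_lit 21572875412) (nat_lit 76) (nat_lit 478616182390) (nat_lit 3) (nat_lit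 5) (nat_lit 5) (nat_lit 5) (nat_lit 4) (nat_lit 4) (nat_lit 426) (nat_lit 310) (nat_lit 164)) (XT.nd (nat_lit 78) (nat_lit 0) (nat_lit 0) (XT.lf (nat_lit 0) (nat_lit 6642244611) (nat_lit 76) (nat_lit 13966785486) (nat_lit 152) (nat_lit 511017444317) (nat_lit 2) (nat_lit 5) (nat_lit 3) (nat_lit 5) (nat_lit 4) (nat_lit 4) (nat_lit 427) (nat_lit 310) (nat_lit 163)) (XT.lf (nat_lit 0) (nat_lit 35450376983) (nat_lit 152) (nat_lit 520440395086) (nat_lit 0) (nat_lit 1538405843) (nat_lit 2) (nat_lit 5) (nat_lit 4) (nat_lit 4) (nat_lit 2) (nat_lit 4) (nat_lit 428) (nat_lit 310) (nat_lit 162))))) (XT.nd (nat_lit 234) (nat_lit 0) (nat_lit 0) (XT.nd (nat_lit 78) (nat_lit 0) (nat_lit 0) (XT.lf (nat_lit 0) (nat_lit 51261633455) (nat_lit 152) (nat_lit 515900510436) (nat_lit 0) (nat_lit 17348480812) (nat_lit 2) (nat_lit 5) (nat_lit 4) (nat_lit 4) (nat_lit 2) (nat_lit 4) (nat_lit 429) (nat_lit 310) (nat_lit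 161)) (XT.nd (nat_lit 78) (nat_lit 0) (nat_lit 0) (XT.lf (nat_lit 0) (nat_lit 67862384700) (nat_lit 152) (nat_lit 511135705941) (nat_lit 0) (nat_lit 33948106815) (nat_lit 2) (nat_lit 5) (nat_lit 4) (nat_lit 4) (nat_lit 2) (nat_lit 4) (nat_lit 430) (nat_lit 310) (nat_lit 160)) (XT.lf (nat_lit 0) (nat_lit 85292156315) (nat_lit 152) (nat_lit 506134636829) (nat_lit 0) (nat_lit 51376806771) (nat_lit 2) (nat_lit 5) (nat_lit 4) (nat_lit 4) (nat_lit 2) (nat_lit 4) (nat_lit 431) (nat_lit 310) (nat_lit 159)))) (XT.nd (nat_lit 37440) (nat_lit 0) (nat_lit 8816) (XT.lf (nat_lit 0) (nat_lit 103592447756) (nat_lit 152) (nat_lit 500885395792) (nat_lit 0) (nat_lit 69676077585) (nat_lit 2) (nat_lit 5) (nat_lit 4) (nat_lit 4) (nat_lit 2) (nat_lit 4) (nat_lit 432) (nat_lit 310) (nat_lit 158)) (XT.nd (nat_lit 78) (nat_lit 0) (nat_lit 0) (XT.lf (nat_lit 0) (nat_lit 1217833210) (nat_lit 0) (nat_lit 1217833210)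 (nat_lit 532) (nat_lit 1494530359) (nat_lit 118) (nat_lit 5) (nat_lit 118) (nat_lit 3) (nat_lit 125) (nat_lit 3) (nat_lit 311) (nat_lit 311) (nat_lit 278)) (XT.lf (nat_lit 0) (nat_lit 6196712651) (nat_lit 532) (nat_lit 1730368995) (nat_lit 608) (nat_lit 67493731) (nat_lit 118) (nat_lit 5) (nat_lit 125) (nat_lit 3) (nat_lit 126) (nat_lit 5) (nat_lit 312) (nat_lit 311) (nat_lit 277)))))) (XT.nd (nat_lit 468) (nat_lit 1140) (nat_lit 0) (XT.nd (nat_lit 234) (nat_lit 0) (nat_lit 76) (XT.nd (nat_lit 78) (nat_lit 608) (nat_lit 0) (XT.lf (nat_lit 76) (nat_lit 2134004620) (nat_lit 0) (nat_lit 5451228960) (nat_lit 608) (nat_lit 550526612) (nat_lit 119) (nat_lit 5) (nat_lit 118) (nat_lit 5) (nat_lit 126) (nat_lit 5) (nat_lit 313) (nat_lit 311) (nat_lit 276)) (XT.nd (nat_lit 78) (nat_lit 0) (nat_lit 76) (XT.lf (nat_lit 0) (nat_lit 689933514) (nat_lit 608) (nat_lit 2088176683) (nat_lit 684) (nat_lit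 5507673354) (nat_lit 110) (nat_lit 5) (nat_lit 118) (nat_lit 5) (nat_lit 119) (nat_lit 5) (nat_lit 314) (nat_lit 311) (nat_lit 275)) (XT.lf (nat_lit 0) (nat_lit 1936064669) (nat_lit 608) (nat_lit 6412171274) (nat_lit 684) (nat_lit 96632206) (nat_lit 111) (nat_lit 5) (nat_lit 119) (nat_lit 5) (nat_lit 120) (nat_lit 5) (nat_lit 315) (nat_lit 311) (nat_lit 274)))) (XT.nd (nat_lit 78) (nat_lit 0) (nat_lit 0) (XT.lf (nat_lit 0) (nat_lit 3257959972) (nat_lit 608) (nat_lit 2270239322) (nat_lit 684) (nat_lit 3083147933) (nat_lit 111) (nat_lit 5) (nat_lit 119) (nat_lit 5) (nat_lit 120) (nat_lit 5) (nat_lit 316) (nat_lit 311) (nat_lit 273)) (XT.nd (nat_lit 78) (nat_lit 0) (nat_lit 76) (XT.lf (nat_lit 76) (nat_lit 2102177836) (nat_lit 0) (nat_lit 2511803352) (nat_lit 684) (nat_lit 4173875257) (nat_lit 112) (nat_lit 5) (nat_lit 111) (nat_lit 5) (nat_lit 120) (nat_lit 5) (nat_lit 317) (nat_lit 311)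 (nat_lit 272)) (XT.lf (nat_lit 0) (nat_lit 6025035060) (nat_lit 608) (nat_lit 2256805860) (nat_lit 684) (nat_lit 692091239) (nat_lit 112) (nat_lit 5) (nat_lit 120) (nat_lit 5) (nat_lit 121) (nat_lit 5) (nat_lit 318) (nat_lit 311) (nat_lit 271))))) (XT.nd (nat_lit 234) (nat_lit 684) (nat_lit 0) (XT.nd (nat_lit 78) (nat_lit 608) (nat_lit 0) (XT.lf (nat_lit 76) (nat_lit 2384158096) (nat_lit 0) (nat_lit 5141761049) (nat_lit 684) (nat_lit 1642526364) (nat_lit 113) (nat_lit 5) (nat_lit 112) (nat_lit 5) (nat_lit 121) (nat_lit 5) (nat_lit 319) (nat_lit 311) (nat_lit 270)) (XT.nd (nat_lit 78) (nat_lit 608) (nat_lit 0) (XT.lf (nat_lit 76) (nat_lit 7291755651) (nat_lit 0) (nat_lit 1791320983) (nat_lit 684) (nat_lit 290639504) (nat_lit 113) (nat_lit 5) (nat_lit 112) (nat_lit 5) (nat_lit 121) (nat_lit 5) (nat_lit 320) (nat_lit 311) (nat_lit 269)) (XT.lf (nat_lit 0) (nat_lit 1110695372) (nat_lit 684)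 (nat_lit 6730473801) (nat_lit 76) (nat_lit 1746385145) (nat_lit 104) (nat_lit 5) (nat_lit 113) (nat_lit 5) (nat_lit 105) (nat_lit 5) (nat_lit 321) (nat_lit 311) (nat_lit 268)))) (XT.nd (nat_lit 78) (nat_lit 684) (nat_lit 0) (XT.lf (nat_lit 0) (nat_lit 2584403743) (nat_lit 684) (nat_lit 1775472710) (nat_lit 76) (nat_lit 5451446417) (nat_lit 104) (nat_lit 5) (nat_lit 113) (nat_lit 5) (nat_lit 105) (nat_lit 5) (nat_lit 322) (nat_lit 311) (nat_lit 267)) (XT.nd (nat_lit 78) (nat_lit 0) (nat_lit 0) (XT.lf (nat_lit 0) (nat_lit 3495541125) (nat_lit 684) (nat_lit 640232742) (nat_lit 760) (nat_lit 5910383737) (nat_lit 95) (nat_lit 5) (nat_lit 104) (nat_lit 5) (nat_lit 105) (nat_lit 5) (nat_lit 323) (nat_lit 311) (nat_lit 266)) (XT.lf (nat_lit 0) (nat_lit 5797489315) (nat_lit 760) (nat_lit 1296481157) (nat_lit 76) (nat_lit 3197197689) (nat_lit 95) (nat_lit 5) (nat_lit 105) (nat_lit 5) (nat_lit 96)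 (nat_lit 5) (nat_lit 324) (nat_lit 311) (nat_lit 265))))))) (XT.nd (nat_lit 858) (nat_lit 1672) (nat_lit 0) (XT.nd (nat_lit 390) (nat_lit 988) (nat_lit 0) (XT.nd (nat_lit 156) (nat_lit 760) (nat_lit 0) (XT.nd (nat_lit 78) (nat_lit 0) (nat_lit 0) (XT.lf (nat_lit 0) (nat_lit 4304274994) (nat_lit 684) (nat_lit 3269268630) (nat_lit 760) (nat_lit 2973392418) (nat_lit 86) (nat_lit 5) (nat_lit 95) (nat_lit 5) (nat_lit 96) (nat_lit 5) (nat_lit 325) (nat_lit 311) (nat_lit 264)) (XT.lf (nat_lit 0) (nat_lit 9427511099) (nat_lit 760) (nat_lit 641333018) (nat_lit 76) (nat_lit 747258824) (nat_lit 86) (nat_lit 5) (nat_lit 96) (nat_lit 5) (nat_lit 87) (nat_lit 5) (nat_lit 326) (nat_lit 311) (nat_lit 263))) (XT.nd (nat_lit 78) (nat_lit 304) (nat_lit 0) (XT.lf (nat_lit 0) (nat_lit 361938626) (nat_lit 456) (nat_lit 5786257633) (nat_lit 76) (nat_lit 4945611598) (nat_lit 80) (nat_lit 5) (nat_lit 86) (nat_lit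 5) (nat_lit 81) (nat_lit 5) (nat_lit 327) (nat_lit 311) (nat_lit 262)) (XT.nd (nat_lit 78) (nat_lit 0) (nat_lit 0) (XT.lf (nat_lit 0) (nat_lit 128855207) (nat_lit 304) (nat_lit 1995438829) (nat_lit 380) (nat_lit 9261474721) (nat_lit 76) (nat_lit 5) (nat_lit 80) (nat_lit 5) (nat_lit 81) (nat_lit 5) (nat_lit 328) (nat_lit 311) (nat_lit 261)) (XT.lf (nat_lit 0) (nat_lit 4070503862) (nat_lit 380) (nat_lit 5230318891) (nat_lit 76) (nat_lit 2386772534) (nat_lit 76) (nat_lit 5) (nat_lit 81) (nat_lit 5) (nat_lit 77) (nat_lit 5) (nat_lit 329) (nat_lit 311) (nat_lit 260))))) (XT.nd (nat_lit 234) (nat_lit 380) (nat_lit 0) (XT.nd (nat_lit 78) (nat_lit 304) (nat_lit 0) (XT.lf (nat_lit 0) (nat_lit 1055858611) (nat_lit 304) (nat_lit 5068518336) (nat_lit 380) (nat_lit 5879670385) (nat_lit 72) (nat_lit 5) (nat_lit 76) (nat_lit 5) (nat_lit 77) (nat_lit 5) (nat_lit 330) (nat_lit 311) (nat_lit 259)) (XT.nd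 (nat_lit 78) (nat_lit 304) (nat_lit 0) (XT.lf (nat_lit 0) (nat_lit 7795791792) (nat_lit 304) (nat_lit 536077453) (nat_lit 380) (nat_lit 4001955815) (nat_lit 72) (nat_lit 5) (nat_lit 76) (nat_lit 5) (nat_lit 77) (nat_lit 5) (nat_lit 331) (nat_lit 311) (nat_lit 258)) (XT.lf (nat_lit 0) (nat_lit 2153725207) (nat_lit 304) (nat_lit 8559643125) (nat_lit 380) (nat_lit 1963588741) (nat_lit 68) (nat_lit 5) (nat_lit 72) (nat_lit 5) (nat_lit 73) (nat_lit 5) (nat_lit 332) (nat_lit 311) (nat_lit 257)))) (XT.nd (nat_lit 78) (nat_lit 304) (nat_lit 0) (XT.lf (nat_lit 0) (nat_lit 222469255) (nat_lit 380) (nat_lit 3751032355) (nat_lit 76) (nat_lit 9061077381) (nat_lit 67) (nat_lit 5) (nat_lit 72) (nat_lit 5) (nat_lit 68) (nat_lit 5) (nat_lit 333) (nat_lit 311) (nat_lit 256)) (XT.nd (nat_lit 78) (nat_lit 0) (nat_lit 0) (XT.lf (nat_lit 0) (nat_lit 2485513192) (nat_lit 380) (nat_lit 10026137426) (nat_lit 76)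 (nat_lit 895178870) (nat_lit 63) (nat_lit 5) (nat_lit 68) (nat_lit 5) (nat_lit 64) (nat_lit 5) (nat_lit 334) (nat_lit 311) (nat_lit 255)) (XT.lf (nat_lit 0) (nat_lit 4958509963) (nat_lit 380) (nat_lit 2902807848) (nat_lit 76) (nat_lit 5931573341) (nat_lit 63) (nat_lit 5) (nat_lit 68) (nat_lit 5) (nat_lit 64) (nat_lit 5) (nat_lit 335) (nat_lit 311) (nat_lit 254)))))) (XT.nd (nat_lit 468) (nat_lit 608) (nat_lit 0) (XT.nd (nat_lit 234) (nat_lit 532) (nat_lit 0) (XT.nd (nat_lit 78) (nat_lit 304) (nat_lit 0) (XT.lf (nat_lit 0) (nat_lit 4687340061) (nat_lit 228) (nat_lit 2909660280) (nat_lit 304) (nat_lit 6599200203) (nat_lit 60) (nat_lit 5) (nat_lit 63) (nat_lit 5) (nat_lit 64) (nat_lit 5) (nat_lit 336) (nat_lit 311) (nat_lit 253)) (XT.nd (nat_lit 78) (nat_lit 304) (nat_lit 0) (XT.lf (nat_lit 0) (nat_lit 10422547774) (nat_lit 304) (nat_lit 1936161290) (nat_lit 76) (nat_lit 2258244792) (nat_lit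 60) (nat_lit 5) (nat_lit 64) (nat_lit 5) (nat_lit 61) (nat_lit 5) (nat_lit 337) (nat_lit 311) (nat_lit 252)) (XT.lf (nat_lit 0) (nat_lit 6125267433) (nat_lit 304) (nat_lit 7378312712) (nat_lit 380) (nat_lit 1549487717) (nat_lit 56) (nat_lit 5) (nat_lit 60) (nat_lit 5) (nat_lit 61) (nat_lit 5) (nat_lit 338) (nat_lit 311) (nat_lit 251)))) (XT.nd (nat_lit 78) (nat_lit 456) (nat_lit 0) (XT.lf (nat_lit 0) (nat_lit 1192890370) (nat_lit 380) (nat_lit 910685486) (nat_lit 76) (nat_lit 13406258285) (nat_lit 55) (nat_lit 5) (nat_lit 60) (nat_lit 5) (nat_lit 56) (nat_lit 5) (nat_lit 339) (nat_lit 311) (nat_lit 250)) (XT.nd (nat_lit 78) (nat_lit 228) (nat_lit 0) (XT.lf (nat_lit 0) (nat_lit 4168816539) (nat_lit 304) (nat_lit 8348161076) (nat_lit 76) (nat_lit 3463794802) (nat_lit 52) (nat_lit 5) (nat_lit 56) (nat_lit 5) (nat_lit 53) (nat_lit 5) (nat_lit 340) (nat_lit 311) (nat_lit 249)) (XT.lf (nat_lit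 0) (nat_lit 90975956) (nat_lit 228) (nat_lit 7227290216) (nat_lit 304) (nat_lit 9155782559) (nat_lit 49) (nat_lit 5) (nat_lit 52) (nat_lit 5) (nat_lit 53) (nat_lit 5) (nat_lit 341) (nat_lit 311) (nat_lit 248))))) (XT.nd (nat_lit 234) (nat_lit 380) (nat_lit 0) (XT.nd (nat_lit 78) (nat_lit 228) (nat_lit 0) (XT.lf (nat_lit 0) (nat_lit 9205100743) (nat_lit 228) (nat_lit 1535318103) (nat_lit 304) (nat_lit 6245834664) (nat_lit 49) (nat_lit 5) (nat_lit 52) (nat_lit 5) (nat_lit 53) (nat_lit 5) (nat_lit 342) (nat_lit 311) (nat_lit 247)) (XT.nd (nat_lit 78) (nat_lit 76) (nat_lit 0) (XT.lf (nat_lit 0) (nat_lit 1183235875) (nat_lit 152) (nat_lit 13213194594) (nat_lit 228) (nat_lit 3124525422) (nat_lit 47) (nat_lit 5) (nat_lit 49) (nat_lit 5) (nat_lit 50) (nat_lit 5) (nat_lit 343) (nat_lit 311) (nat_lit 246)) (XT.lf (nat_lit 0) (nat_lit 282216117) (nat_lit 228) (nat_lit 7275951262) (nat_lit 76) (nat_lit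 10517416357) (nat_lit 46) (nat_lit 5) (nat_lit 49) (nat_lit 5) (nat_lit 47) (nat_lit 5) (nat_lit 344) (nat_lit 311) (nat_lit 245)))) (XT.nd (nat_lit 78) (nat_lit 152) (nat_lit 0) (XT.lf (nat_lit 0) (nat_lit 2224187413) (nat_lit 228) (nat_lit 1541163761) (nat_lit 304) (nat_lit 14889499197) (nat_lit 43) (nat_lit 5) (nat_lit 46) (nat_lit 5) (nat_lit 47) (nat_lit 5) (nat_lit 345) (nat_lit 311) (nat_lit 244)) (XT.nd (nat_lit 78) (nat_lit 152) (nat_lit 0) (XT.lf (nat_lit 0) (nat_lit 7599218982) (nat_lit 304) (nat_lit 6916705877) (nat_lit 76) (nat_lit 4738347188) (nat_lit 43) (nat_lit 5) (nat_lit 47) (nat_lit 5) (nat_lit 44) (nat_lit 5) (nat_lit 346) (nat_lit 311) (nat_lit 243)) (XT.lf (nat_lit 0) (nat_lit 3113894138) (nat_lit 152) (nat_lit 8562631157) (nat_lit 228) (nat_lit 8204571789) (nat_lit 41) (nat_lit 5) (nat_lit 43) (nat_lit 5) (nat_lit 44) (nat_lit 5) (nat_lit 347) (nat_lit 311) (nat_lit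 242))))))))
noncomputable def xc132 : XT := (XT.nd (nat_lit 1716) (nat_lit 760) (nat_lit 0) (XT.nd (nat_lit 858) (nat_lit 684) (nat_lit 0) (XT.nd (nat_lit 390) (nat_lit 532) (nat_lit 0) (XT.nd (nat_lit 156) (nat_lit 228) (nat_lit 0) (XT.nd (nat_lit 78) (nat_lit 152) (nat_lit 0) (XT.lf (nat_lit 0) (nat_lit 13853242146) (nat_lit 152) (nat_lit 2199996293) (nat_lit 228) (nat_lit 4481266463) (nat_lit 41) (nat_lit 5) (nat_lit 43) (nat_lit 5) (nat_lit 44) (nat_lit 5) (nat_lit 348) (nat_lit 311) (nat_lit 241)) (XT.lf (nat_lit 0) (nat_lit 3932661921) (nat_lit 152) (nat_lit 16826746424) (nat_lit 228) (nat_lit 455661425) (nat_lit 39) (nat_lit 5) (nat_lit 41) (nat_lit 5) (nat_lit 42) (nat_lit 5) (nat_lit 349) (nat_lit 311) (nat_lit 240))) (XT.nd (nat_lit 78) (nat_lit 152) (nat_lit 0) (XT.lf (nat_lit 0) (nat_lit 3781000088) (nat_lit 228) (nat_lit 6743966040) (nat_lit 76) (nat_lit 11395244908) (nat_lit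 38) (nat_lit 5) (nat_lit 41) (nat_lit 5) (nat_lit 39) (nat_lit 5) (nat_lit 350) (nat_lit 311) (nat_lit 239)) (XT.nd (nat_lit 78) (nat_lit 0) (nat_lit 0) (XT.lf (nat_lit 0) (nat_lit 4424686497) (nat_lit 152) (nat_lit 3838965376) (nat_lit 228) (nat_lit 14394125784) (nat_lit 36) (nat_lit 5) (nat_lit 38) (nat_lit 5) (nat_lit 39) (nat_lit 5) (nat_lit 351) (nat_lit 311) (nat_lit 238)) (XT.lf (nat_lit 0) (nat_lit 13116863953) (nat_lit 228) (nat_lit 7123305460) (nat_lit 76) (nat_lit 3184746387) (nat_lit 36) (nat_lit 5) (nat_lit 39) (nat_lit 5) (nat_lit 37) (nat_lit 5) (nat_lit 352) (nat_lit 311) (nat_lit 237))))) (XT.nd (nat_lit 234) (nat_lit 152) (nat_lit 0) (XT.nd (nat_lit 78) (nat_lit 228) (nat_lit 0) (XT.lf (nat_lit 0) (nat_lit 4596476862) (nat_lit 152) (nat_lit 13732551310) (nat_lit 228) (nat_lit 5895581983) (nat_lit 34) (nat_lit 5) (nat_lit 36) (nat_lit 5) (nat_lit 37) (nat_lit 5) (nat_lit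 353) (nat_lit 311) (nat_lit 236)) (XT.nd (nat_lit 78) (nat_lit 228) (nat_lit 0) (XT.lf (nat_lit 0) (nat_lit 17120357238) (nat_lit 152) (nat_lit 6784094433) (nat_lit 228) (nat_lit 1154718224) (nat_lit 34) (nat_lit 5) (nat_lit 36) (nat_lit 5) (nat_lit 37) (nat_lit 5) (nat_lit 354) (nat_lit 311) (nat_lit 235)) (XT.lf (nat_lit 0) (nat_lit 3761819489) (nat_lit 228) (nat_lit 21552541064) (nat_lit 76) (nat_lit 615074691) (nat_lit 31) (nat_lit 5) (nat_lit 34) (nat_lit 5) (nat_lit 32) (nat_lit 5) (nat_lit 355) (nat_lit 311) (nat_lit 234)))) (XT.nd (nat_lit 78) (nat_lit 152) (nat_lit 0) (XT.lf (nat_lit 0) (nat_lit 9116045419) (nat_lit 228) (nat_lit 9413464487) (nat_lit 76) (nat_lit 8301235513) (nat_lit 31) (nat_lit 5) (nat_lit 34) (nat_lit 5) (nat_lit 32) (nat_lit 5) (nat_lit 356) (nat_lit 311) (nat_lit 233)) (XT.nd (nat_lit 78) (nat_lit 0) (nat_lit 0) (XT.lf (nat_lit 0) (nat_lit 3414588859) (nat_lit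 152) (nat_lit 11360325162) (nat_lit 228) (nat_lit 13000371390) (nat_lit 29) (nat_lit 5) (nat_lit 31) (nat_lit 5) (nat_lit 32) (nat_lit 5) (nat_lit 357) (nat_lit 311) (nat_lit 232)) (XT.lf (nat_lit 0) (nat_lit 17184033639) (nat_lit 152) (nat_lit 3676095241) (nat_lit 228) (nat_lit 7899763740) (nat_lit 29) (nat_lit 5) (nat_lit 31) (nat_lit 5) (nat_lit 32) (nat_lit 5) (nat_lit 358) (nat_lit 311) (nat_lit 231)))))) (XT.nd (nat_lit 390) (nat_lit 380) (nat_lit 0) (XT.nd (nat_lit 156) (nat_lit 152) (nat_lit 0) (XT.nd (nat_lit 78) (nat_lit 76) (nat_lit 0) (XT.lf (nat_lit 0) (nat_lit 1811461684) (nat_lit 76) (nat_lit 25519584983) (nat_lit 152) (nat_lit 2458621278) (nat_lit 28) (nat_lit 5) (nat_lit 29) (nat_lit 5) (nat_lit 30) (nat_lit 4) (nat_lit 359) (nat_lit 311) (nat_lit 230)) (XT.lf (nat_lit 0) (nat_lit 3394591182) (nat_lit 152) (nat_lit 14731638873) (nat_lit 76) (nat_lit 12729961291) (nat_lit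 27) (nat_lit 5) (nat_lit 29) (nat_lit 5) (nat_lit 28) (nat_lit 5) (nat_lit 360) (nat_lit 311) (nat_lit 229))) (XT.nd (nat_lit 78) (nat_lit 152) (nat_lit 0) (XT.lf (nat_lit 0) (nat_lit 9443228241) (nat_lit 152) (nat_lit 888052460) (nat_lit 76) (nat_lit 21643483984) (nat_lit 27) (nat_lit 5) (nat_lit 29) (nat_lit 5) (nat_lit 28) (nat_lit 5) (nat_lit 361) (nat_lit 311) (nat_lit 228)) (XT.nd (nat_lit 78) (nat_lit 0) (nat_lit 0) (XT.lf (nat_lit 0) (nat_lit 14074367521) (nat_lit 152) (nat_lit 1925755451) (nat_lit 228) (nat_lit 17138860547) (nat_lit 25) (nat_lit 5) (nat_lit 27) (nat_lit 5) (nat_lit 28) (nat_lit 5) (nat_lit 362) (nat_lit 311) (nat_lit 227)) (XT.lf (nat_lit 0) (nat_lit 22994106754) (nat_lit 228) (nat_lit 4676861992) (nat_lit 76) (nat_lit 6684990060) (nat_lit 25) (nat_lit 5) (nat_lit 28) (nat_lit 5) (nat_lit 26) (nat_lit 4) (nat_lit 363) (nat_lit 311) (nat_lit 226))))) (XT.nd (nat_lit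 234) (nat_lit 76) (nat_lit 0) (XT.nd (nat_lit 78) (nat_lit 228) (nat_lit 0) (XT.lf (nat_lit 0) (nat_lit 10718960043) (nat_lit 76) (nat_lit 19804637315) (nat_lit 152) (nat_lit 5100902482) (nat_lit 24) (nat_lit 5) (nat_lit 25) (nat_lit 5) (nat_lit 26) (nat_lit 4) (nat_lit 364) (nat_lit 311) (nat_lit 225)) (XT.nd (nat_lit 78) (nat_lit 152) (nat_lit 0) (XT.lf (nat_lit 0) (nat_lit 1493391209) (nat_lit 152) (nat_lit 9952755884) (nat_lit 76) (nat_lit 25505805309) (nat_lit 23) (nat_lit 5) (nat_lit 25) (nat_lit 5) (nat_lit 24) (nat_lit 5) (nat_lit 365) (nat_lit 311) (nat_lit 224)) (XT.lf (nat_lit 0) (nat_lit 5828800165) (nat_lit 152) (nat_lit 2495742892) (nat_lit 228) (nat_lit 30013131465) (nat_lit 21) (nat_lit 5) (nat_lit 23) (nat_lit 5) (nat_lit 24) (nat_lit 5) (nat_lit 366) (nat_lit 311) (nat_lit 223)))) (XT.nd (nat_lit 78) (nat_lit 76) (nat_lit 0) (XT.lf (nat_lit 0) (nat_lit 15764008686) (nat_lit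 228) (nat_lit 17171731664) (nat_lit 76) (nat_lit 6843610644) (nat_lit 21) (nat_lit 5) (nat_lit 24) (nat_lit 5) (nat_lit 22) (nat_lit 4) (nat_lit 367) (nat_lit 311) (nat_lit 222)) (XT.nd (nat_lit 78) (nat_lit 76) (nat_lit 0) (XT.lf (nat_lit 0) (nat_lit 23604624139) (nat_lit 228) (nat_lit 1129524028) (nat_lit 76) (nat_lit 16557510064) (nat_lit 21) (nat_lit 5) (nat_lit 24) (nat_lit 5) (nat_lit 22) (nat_lit 4) (nat_lit 368) (nat_lit 311) (nat_lit 221)) (XT.lf (nat_lit 0) (nat_lit 16213854421) (nat_lit 76) (nat_lit 15865381292) (nat_lit 152) (nat_lit 10788252343) (nat_lit 20) (nat_lit 5) (nat_lit 21) (nat_lit 5) (nat_lit 22) (nat_lit 4) (nat_lit 369) (nat_lit 311) (nat_lit 220))))))) (XT.nd (nat_lit 858) (nat_lit 304) (nat_lit 0) (XT.nd (nat_lit 390) (nat_lit 228) (nat_lit 0) (XT.nd (nat_lit 156) (nat_lit 76) (nat_lit 0) (XT.nd (nat_lit 78) (nat_lit 152) (nat_lit 0) (XT.lf (nat_lit 0) (nat_lit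 34444052865) (nat_lit 76) (nat_lit 6541702544) (nat_lit 152) (nat_lit 3535950319) (nat_lit 20) (nat_lit 5) (nat_lit 21) (nat_lit 5) (nat_lit 22) (nat_lit 4) (nat_lit 370) (nat_lit 311) (nat_lit 219)) (XT.lf (nat_lit 0) (nat_lit 4108196186) (nat_lit 152) (nat_lit 38819694366) (nat_lit 76) (nat_lit 3319575182) (nat_lit 18) (nat_lit 5) (nat_lit 20) (nat_lit 5) (nat_lit 19) (nat_lit 4) (nat_lit 371) (nat_lit 311) (nat_lit 218))) (XT.nd (nat_lit 78) (nat_lit 76) (nat_lit 0) (XT.lf (nat_lit 0) (nat_lit 12285905884) (nat_lit 152) (nat_lit 22079721138) (nat_lit 76) (nat_lit 13677483566) (nat_lit 18) (nat_lit 5) (nat_lit 20) (nat_lit 5) (nat_lit 19) (nat_lit 4) (nat_lit 372) (nat_lit 311) (nat_lit 217)) (XT.nd (nat_lit 78) (nat_lit 76) (nat_lit 0) (XT.lf (nat_lit 0) (nat_lit 20862480273) (nat_lit 152) (nat_lit 4520916648) (nat_lit 76) (nat_lit 24545646111) (nat_lit 18) (nat_lit 5) (nat_lit 20)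 (nat_lit 5) (nat_lit 19) (nat_lit 4) (nat_lit 373) (nat_lit 311) (nat_lit 216)) (XT.lf (nat_lit 0) (nat_lit 14358073814) (nat_lit 76) (nat_lit 15724435722) (nat_lit 152) (nat_lit 21816035352) (nat_lit 17) (nat_lit 5) (nat_lit 18) (nat_lit 5) (nat_lit 19) (nat_lit 4) (nat_lit 374) (nat_lit 311) (nat_lit 215))))) (XT.nd (nat_lit 234) (nat_lit 76) (nat_lit 0) (XT.nd (nat_lit 78) (nat_lit 152) (nat_lit 0) (XT.lf (nat_lit 0) (nat_lit 34320946602) (nat_lit 76) (nat_lit 5509802635) (nat_lit 152) (nat_lit 14132416056) (nat_lit 17) (nat_lit 5) (nat_lit 18) (nat_lit 5) (nat_lit 19) (nat_lit 4) (nat_lit 375) (nat_lit 311) (nat_lit 214)) (XT.nd (nat_lit 78) (nat_lit 152) (nat_lit 0) (XT.lf (nat_lit 0) (nat_lit 50138806979) (nat_lit 152) (nat_lit 947030983) (nat_lit 0) (nat_lit 5041562171) (nat_lit 17) (nat_lit 5) (nat_lit 19) (nat_lit 4) (nat_lit 17) (nat_lit 4) (nat_lit 376) (nat_lit 311) (nat_lit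 213)) (XT.lf (nat_lit 0) (nat_lit 2868012903) (nat_lit 152) (nat_lit 39235975010) (nat_lit 76) (nat_lit 16274481571) (nat_lit 15) (nat_lit 5) (nat_lit 17) (nat_lit 5) (nat_lit 16) (nat_lit 4) (nat_lit 377) (nat_lit 311) (nat_lit 212)))) (XT.nd (nat_lit 78) (nat_lit 76) (nat_lit 0) (XT.lf (nat_lit 0) (nat_lit 11973926559) (nat_lit 152) (nat_lit 20586144069) (nat_lit 76) (nat_lit 28176729541) (nat_lit 15) (nat_lit 5) (nat_lit 17) (nat_lit 5) (nat_lit 16) (nat_lit 4) (nat_lit 378) (nat_lit 311) (nat_lit 211)) (XT.nd (nat_lit 78) (nat_lit 76) (nat_lit 0) (XT.lf (nat_lit 0) (nat_lit 21526975841) (nat_lit 152) (nat_lit 1018861663) (nat_lit 76) (nat_lit 40667620945) (nat_lit 15) (nat_lit 5) (nat_lit 17) (nat_lit 5) (nat_lit 16) (nat_lit 4) (nat_lit 379) (nat_lit 311) (nat_lit 210)) (XT.lf (nat_lit 0) (nat_lit 20157631055) (nat_lit 76) (nat_lit 11706992162) (nat_lit 152) (nat_lit 33933982058)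 (nat_lit 14) (nat_lit 5) (nat_lit 15) (nat_lit 5) (nat_lit 16) (nat_lit 4) (nat_lit 380) (nat_lit 311) (nat_lit 209)))))) (XT.nd (nat_lit 468) (nat_lit 76) (nat_lit 0) (XT.nd (nat_lit 234) (nat_lit 152) (nat_lit 0) (XT.nd (nat_lit 78) (nat_lit 76) (nat_lit 0) (XT.lf (nat_lit 0) (nat_lit 42414228128) (nat_lit 76) (nat_lit 314558307) (nat_lit 152) (nat_lit 25783744107) (nat_lit 14) (nat_lit 5) (nat_lit 15) (nat_lit 5) (nat_lit 16) (nat_lit 4) (nat_lit 381) (nat_lit 311) (nat_lit 208)) (XT.nd (nat_lit 78) (nat_lit 76) (nat_lit 0) (XT.lf (nat_lit 0) (nat_lit 54310653148) (nat_lit 152) (nat_lit 5774038205) (nat_lit 0) (nat_lit 11268738595) (nat_lit 14) (nat_lit 5) (nat_lit 16) (nat_lit 4) (nat_lit 14) (nat_lit 4) (nat_lit 382) (nat_lit 311) (nat_lit 207)) (XT.lf (nat_lit 0) (nat_lit 16062338510) (nat_lit 76) (nat_lit 50658204984) (nat_lit 76) (nat_lit 7603386834) (nat_lit 13) (nat_lit 4) (nat_lit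 14) (nat_lit 5) (nat_lit 14) (nat_lit 4) (nat_lit 383) (nat_lit 311) (nat_lit 206)))) (XT.nd (nat_lit 78) (nat_lit 76) (nat_lit 0) (XT.lf (nat_lit 0) (nat_lit 2326506049) (nat_lit 152) (nat_lit 38297769886) (nat_lit 76) (nat_lit 36812260229) (nat_lit 12) (nat_lit 5) (nat_lit 14) (nat_lit 5) (nat_lit 13) (nat_lit 4) (nat_lit 384) (nat_lit 311) (nat_lit 205)) (XT.nd (nat_lit 78) (nat_lit 76) (nat_lit 0) (XT.lf (nat_lit 0) (nat_lit 12490716375) (nat_lit 152) (nat_lit 17472842661) (nat_lit 76) (nat_lit 50735315825) (nat_lit 12) (nat_lit 5) (nat_lit 14) (nat_lit 5) (nat_lit 13) (nat_lit 4) (nat_lit 385) (nat_lit 311) (nat_lit 204)) (XT.lf (nat_lit 0) (nat_lit 4526354815) (nat_lit 76) (nat_lit 18701114773) (nat_lit 152) (nat_lit 60893646354) (nat_lit 11) (nat_lit 5) (nat_lit 12) (nat_lit 5) (nat_lit 13) (nat_lit 4) (nat_lit 386) (nat_lit 311) (nat_lit 203))))) (XT.nd (nat_lit 234) (nat_lit 76)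 (nat_lit 0) (XT.nd (nat_lit 78) (nat_lit 0) (nat_lit 0) (XT.lf (nat_lit 0) (nat_lit 28220473169) (nat_lit 76) (nat_lit 6570281383) (nat_lit 152) (nat_lit 52909231795) (nat_lit 11) (nat_lit 5) (nat_lit 12) (nat_lit 5) (nat_lit 13) (nat_lit 4) (nat_lit 387) (nat_lit 311) (nat_lit 202)) (XT.nd (nat_lit 78) (nat_lit 0) (nat_lit 0) (XT.lf (nat_lit 0) (nat_lit 47022487583) (nat_lit 152) (nat_lit 38466107046) (nat_lit 0) (nat_lit 5964693328) (nat_lit 11) (nat_lit 5) (nat_lit 13) (nat_lit 4) (nat_lit 11) (nat_lit 4) (nat_lit 388) (nat_lit 311) (nat_lit 201)) (XT.lf (nat_lit 0) (nat_lit 59967800802) (nat_lit 152) (nat_lit 16520519757) (nat_lit 0) (nat_lit 18900836201) (nat_lit 11) (nat_lit 5) (nat_lit 13) (nat_lit 4) (nat_lit 11) (nat_lit 4) (nat_lit 389) (nat_lit 311) (nat_lit 200)))) (XT.nd (nat_lit 78) (nat_lit 0) (nat_lit 0) (XT.lf (nat_lit 0) (nat_lit 6727399385) (nat_lit 76) (nat_lit 66932570048)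 (nat_lit 76) (nat_lit 25856871786) (nat_lit 10) (nat_lit 4) (nat_lit 11) (nat_lit 5) (nat_lit 11) (nat_lit 4) (nat_lit 390) (nat_lit 311) (nat_lit 199)) (XT.nd (nat_lit 78) (nat_lit 0) (nat_lit 0) (XT.lf (nat_lit 0) (nat_lit 31701168909) (nat_lit 76) (nat_lit 56610018307) (nat_lit 76) (nat_lit 15526002272) (nat_lit 10) (nat_lit 4) (nat_lit 11) (nat_lit 5) (nat_lit 11) (nat_lit 4) (nat_lit 391) (nat_lit 311) (nat_lit 198)) (XT.lf (nat_lit 0) (nat_lit 57914007177) (nat_lit 76) (nat_lit 45775870828) (nat_lit 76) (nat_lit 4683933104) (nat_lit 10) (nat_lit 4) (nat_lit 11) (nat_lit 5) (nat_lit 11) (nat_lit 4) (nat_lit 392) (nat_lit 311) (nat_lit 197))))))))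
noncomputable def xc133 : XT := (XT.nd (nat_lit 1794) (nat_lit 152) (nat_lit 0) (XT.nd (nat_lit 858) (nat_lit 228) (nat_lit 0) (XT.nd (nat_lit 390) (nat_lit 76) (nat_lit 0) (XT.nd (nat_lit 156) (nat_lit 76) (nat_lit 0) (XT.nd (nat_lit 78) (nat_lit 0) (nat_lit 0) (XT.lf (nat_lit 0) (nat_lit 6480863550) (nat_lit 152) (nat_lit 27813711910) (nat_lit 76) (nat_lit 78837705598) (nat_lit 9) (nat_lit 5) (nat_lit 11) (nat_lit 5) (nat_lit 10) (nat_lit 4) (nat_lit 393) (nat_lit 311) (nat_lit 196)) (XT.lf (nat_lit 0) (nat_lit 18041797301) (nat_lit 152) (nat_lit 4120982925) (nat_lit 76) (nat_lit 95962290918) (nat_lit 9) (nat_lit 5) (nat_lit 11) (nat_lit 5) (nat_lit 10) (nat_lit 4) (nat_lit 394) (nat_lit 311) (nat_lit 195))) (XT.nd (nat_lit 78) (nat_lit 0) (nat_lit 0) (XT.lf (nat_lit 0) (nat_lit 21433943658) (nat_lit 76) (nat_lit 9077009563) (nat_lit 152) (nat_lit 92840040012) (nat_lit 8) (nat_lit 5)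 (nat_lit 9) (nat_lit 5) (nat_lit 10) (nat_lit 4) (nat_lit 395) (nat_lit 311) (nat_lit 194)) (XT.nd (nat_lit 78) (nat_lit 0) (nat_lit 0) (XT.lf (nat_lit 0) (nat_lit 43742858097) (nat_lit 152) (nat_lit 80507462970) (nat_lit 0) (nat_lit 4580927011) (nat_lit 8) (nat_lit 5) (nat_lit 10) (nat_lit 4) (nat_lit 8) (nat_lit 4) (nat_lit 396) (nat_lit 311) (nat_lit 193)) (XT.lf (nat_lit 0) (nat_lit 57780926349) (nat_lit 152) (nat_lit 58184278085) (nat_lit 0) (nat_lit 18613083977) (nat_lit 8) (nat_lit 5) (nat_lit 10) (nat_lit 4) (nat_lit 8) (nat_lit 4) (nat_lit 397) (nat_lit 311) (nat_lit 192))))) (XT.nd (nat_lit 234) (nat_lit 0) (nat_lit 0) (XT.nd (nat_lit 78) (nat_lit 76) (nat_lit 0) (XT.lf (nat_lit 0) (nat_lit 72516864394) (nat_lit 152) (nat_lit 34752626922) (nat_lit 0) (nat_lit 33343392225) (nat_lit 8) (nat_lit 5) (nat_lit 10) (nat_lit 4) (nat_lit 8) (nat_lit 4) (nat_lit 398) (nat_lit 311) (nat_lit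 191)) (XT.nd (nat_lit 78) (nat_lit 76) (nat_lit 0) (XT.lf (nat_lit 0) (nat_lit 87985757797) (nat_lit 152) (nat_lit 10156719834) (nat_lit 0) (nat_lit 48806923918) (nat_lit 8) (nat_lit 5) (nat_lit 10) (nat_lit 4) (nat_lit 8) (nat_lit 4) (nat_lit 399) (nat_lit 311) (nat_lit 190)) (XT.lf (nat_lit 0) (nat_lit 16179861471) (nat_lit 76) (nat_lit 88297188767) (nat_lit 76) (nat_lit 49113248497) (nat_lit 7) (nat_lit 4) (nat_lit 8) (nat_lit 5) (nat_lit 8) (nat_lit 4) (nat_lit 400) (nat_lit 311) (nat_lit 189)))) (XT.nd (nat_lit 78) (nat_lit 0) (nat_lit 0) (XT.lf (nat_lit 0) (nat_lit 44179025019) (nat_lit 76) (nat_lit 77782299671) (nat_lit 76) (nat_lit 38593496171) (nat_lit 7) (nat_lit 4) (nat_lit 8) (nat_lit 5) (nat_lit 8) (nat_lit 4) (nat_lit 401) (nat_lit 311) (nat_lit 188)) (XT.nd (nat_lit 78) (nat_lit 0) (nat_lit 0) (XT.lf (nat_lit 0) (nat_lit 73571608456) (nat_lit 76) (nat_lit 66744783857) (nat_lit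 76) (nat_lit 27551348710) (nat_lit 7) (nat_lit 4) (nat_lit 8) (nat_lit 5) (nat_lit 8) (nat_lit 4) (nat_lit 402) (nat_lit 311) (nat_lit 187)) (XT.lf (nat_lit 0) (nat_lit 104427594123) (nat_lit 76) (nat_lit 55158361527) (nat_lit 76) (nat_lit 15960515286) (nat_lit 7) (nat_lit 4) (nat_lit 8) (nat_lit 5) (nat_lit 8) (nat_lit 4) (nat_lit 403) (nat_lit 311) (nat_lit 186)))))) (XT.nd (nat_lit 468) (nat_lit 76) (nat_lit 0) (XT.nd (nat_lit 234) (nat_lit 0) (nat_lit 0) (XT.nd (nat_lit 78) (nat_lit 152) (nat_lit 0) (XT.lf (nat_lit 0) (nat_lit 136820448653) (nat_lit 76) (nat_lit 42995445960) (nat_lit 76) (nat_lit 3793398679) (nat_lit 7) (nat_lit 4) (nat_lit 8) (nat_lit 5) (nat_lit 8) (nat_lit 4) (nat_lit 404) (nat_lit 311) (nat_lit 185)) (XT.nd (nat_lit 78) (nat_lit 76) (nat_lit 0) (XT.lf (nat_lit 0) (nat_lit 8691587309) (nat_lit 152) (nat_lit 21388294287) (nat_lit 76) (nat_lit 161988514345) (nat_lit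 6) (nat_lit 5) (nat_lit 8) (nat_lit 5) (nat_lit 7) (nat_lit 4) (nat_lit 405) (nat_lit 311) (nat_lit 184)) (XT.lf (nat_lit 0) (nat_lit 5387041313) (nat_lit 76) (nat_lit 16367544078) (nat_lit 152) (nat_lit 179188697403) (nat_lit 5) (nat_lit 5) (nat_lit 6) (nat_lit 5) (nat_lit 7) (nat_lit 4) (nat_lit 406) (nat_lit 311) (nat_lit 183)))) (XT.nd (nat_lit 78) (nat_lit 0) (nat_lit 0) (XT.lf (nat_lit 0) (nat_lit 34238310901) (nat_lit 76) (nat_lit 1591834785) (nat_lit 152) (nat_lit 174413798362) (nat_lit 5) (nat_lit 5) (nat_lit 6) (nat_lit 5) (nat_lit 7) (nat_lit 4) (nat_lit 407) (nat_lit 311) (nat_lit 182)) (XT.nd (nat_lit 78) (nat_lit 0) (nat_lit 0) (XT.lf (nat_lit 0) (nat_lit 50824142364) (nat_lit 152) (nat_lit 155700091802) (nat_lit 0) (nat_lit 13474671923) (nat_lit 5) (nat_lit 5) (nat_lit 7) (nat_lit 4) (nat_lit 5) (nat_lit 4) (nat_lit 408) (nat_lit 311) (nat_lit 181)) (XT.lf (nat_lit 0) (nat_lit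 66591350362) (nat_lit 152) (nat_lit 134410345866) (nat_lit 0) (nat_lit 29238745040) (nat_lit 5) (nat_lit 5) (nat_lit 7) (nat_lit 4) (nat_lit 5) (nat_lit 4) (nat_lit 409) (nat_lit 311) (nat_lit 180))))) (XT.nd (nat_lit 234) (nat_lit 76) (nat_lit 0) (XT.nd (nat_lit 78) (nat_lit 0) (nat_lit 0) (XT.lf (nat_lit 0) (nat_lit 83144457651) (nat_lit 152) (nat_lit 112060852467) (nat_lit 0) (nat_lit 45788866727) (nat_lit 5) (nat_lit 5) (nat_lit 7) (nat_lit 4) (nat_lit 5) (nat_lit 4) (nat_lit 410) (nat_lit 311) (nat_lit 179)) (XT.nd (nat_lit 78) (nat_lit 0) (nat_lit 0) (XT.lf (nat_lit 0) (nat_lit 100522876389) (nat_lit 152) (nat_lit 88598398524) (nat_lit 0) (nat_lit 63164442036) (nat_lit 5) (nat_lit 5) (nat_lit 7) (nat_lit 4) (nat_lit 5) (nat_lit 4) (nat_lit 411) (nat_lit 311) (nat_lit 178)) (XT.lf (nat_lit 0) (nat_lit 118767983766) (nat_lit 152) (nat_lit 63967121053) (nat_lit 0) (nat_lit 81406841385)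 (nat_lit 5) (nat_lit 5) (nat_lit 7) (nat_lit 4) (nat_lit 5) (nat_lit 4) (nat_lit 412) (nat_lit 311) (nat_lit 177)))) (XT.nd (nat_lit 78) (nat_lit 76) (nat_lit 0) (XT.lf (nat_lit 0) (nat_lit 137923220513) (nat_lit 152) (nat_lit 38108374154) (nat_lit 0) (nat_lit 100559499057) (nat_lit 5) (nat_lit 5) (nat_lit 7) (nat_lit 4) (nat_lit 5) (nat_lit 4) (nat_lit 413) (nat_lit 311) (nat_lit 176)) (XT.nd (nat_lit 78) (nat_lit 76) (nat_lit 0) (XT.lf (nat_lit 0) (nat_lit 158034194336) (nat_lit 152) (nat_lit 10960589382) (nat_lit 0) (nat_lit 120668016618) (nat_lit 5) (nat_lit 5) (nat_lit 7) (nat_lit 4) (nat_lit 5) (nat_lit 4) (nat_lit 414) (nat_lit 311) (nat_lit 175)) (XT.lf (nat_lit 0) (nat_lit 18120851251) (nat_lit 76) (nat_lit 161310854526) (nat_lit 76) (nat_lit 123942337512) (nat_lit 4) (nat_lit 4) (nat_lit 5) (nat_lit 5) (nat_lit 5) (nat_lit 4) (nat_lit 415) (nat_lit 311) (nat_lit 174))))))) (XT.nd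 (nat_lit 858) (nat_lit 152) (nat_lit 0) (XT.nd (nat_lit 390) (nat_lit 0) (nat_lit 0) (XT.nd (nat_lit 156) (nat_lit 0) (nat_lit 0) (XT.nd (nat_lit 78) (nat_lit 0) (nat_lit 0) (XT.lf (nat_lit 0) (nat_lit 49033236947) (nat_lit 76) (nat_lit 153049585164) (nat_lit 76) (nat_lit 115678840248) (nat_lit 4) (nat_lit 4) (nat_lit 5) (nat_lit 5) (nat_lit 5) (nat_lit 4) (nat_lit 416) (nat_lit 311) (nat_lit 173)) (XT.lf (nat_lit 0) (nat_lit 81487762038) (nat_lit 76) (nat_lit 144376928827) (nat_lit 76) (nat_lit 107004062100) (nat_lit 4) (nat_lit 4) (nat_lit 5) (nat_lit 5) (nat_lit 5) (nat_lit 4) (nat_lit 417) (nat_lit 311) (nat_lit 172))) (XT.nd (nat_lit 78) (nat_lit 0) (nat_lit 0) (XT.lf (nat_lit 0) (nat_lit 115561699205) (nat_lit 76) (nat_lit 135272236333) (nat_lit 76) (nat_lit 97897348834) (nat_lit 4) (nat_lit 4) (nat_lit 5) (nat_lit 5) (nat_lit 5) (nat_lit 4) (nat_lit 418) (nat_lit 311) (nat_lit 171))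 (XT.nd (nat_lit 78) (nat_lit 0) (nat_lit 0) (XT.lf (nat_lit 0) (nat_lit 151336176867) (nat_lit 76) (nat_lit 125713829844) (nat_lit 76) (nat_lit 88337017800) (nat_lit 4) (nat_lit 4) (nat_lit 5) (nat_lit 5) (nat_lit 5) (nat_lit 4) (nat_lit 419) (nat_lit 311) (nat_lit 170)) (XT.lf (nat_lit 0) (nat_lit 188896372354) (nat_lit 76) (nat_lit 115678951248) (nat_lit 76) (nat_lit 78300306304) (nat_lit 4) (nat_lit 4) (nat_lit 5) (nat_lit 5) (nat_lit 5) (nat_lit 4) (nat_lit 420) (nat_lit 311) (nat_lit 169))))) (XT.nd (nat_lit 234) (nat_lit 0) (nat_lit 0) (XT.nd (nat_lit 78) (nat_lit 0) (nat_lit 0) (XT.lf (nat_lit 0) (nat_lit 228331714702) (nat_lit 76) (nat_lit 105143707978) (nat_lit 76) (nat_lit 67763317415) (nat_lit 4) (nat_lit 4) (nat_lit 5) (nat_lit 5) (nat_lit 5) (nat_lit 4) (nat_lit 421) (nat_lit 311) (nat_lit 168)) (XT.nd (nat_lit 78) (nat_lit 0) (nat_lit 0) (XT.lf (nat_lit 0) (nat_lit 269736097583)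 (nat_lit 76) (nat_lit 94083016121) (nat_lit 76) (nat_lit 56700963063) (nat_lit 4) (nat_lit 4) (nat_lit 5) (nat_lit 5) (nat_lit 5) (nat_lit 4) (nat_lit 422) (nat_lit 311) (nat_lit 167)) (XT.lf (nat_lit 0) (nat_lit 313208102862) (nat_lit 76) (nat_lit 82470540697) (nat_lit 76) (nat_lit 45086904311) (nat_lit 4) (nat_lit 4) (nat_lit 5) (nat_lit 5) (nat_lit 5) (nat_lit 4) (nat_lit 423) (nat_lit 311) (nat_lit 166)))) (XT.nd (nat_lit 78) (nat_lit 0) (nat_lit 0) (XT.lf (nat_lit 0) (nat_lit 358851235312) (nat_lit 76) (nat_lit 70278632954) (nat_lit 76) (nat_lit 32893488636) (nat_lit 4) (nat_lit 4) (nat_lit 5) (nat_lit 5) (nat_lit 5) (nat_lit 4) (nat_lit 424) (nat_lit 311) (nat_lit 165)) (XT.nd (nat_lit 78) (nat_lit 0) (nat_lit 0) (XT.lf (nat_lit 0) (nat_lit 406774169059) (nat_lit 76) (nat_lit 57478264540) (nat_lit 76) (nat_lit 20091684097) (nat_lit 4) (nat_lit 4) (nat_lit 5) (nat_lit 5) (nat_lit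 5) (nat_lit 4) (nat_lit 425) (nat_lit 311) (nat_lit 164)) (XT.lf (nat_lit 0) (nat_lit 457091006326) (nat_lit 76) (nat_lit 44038958388) (nat_lit 76) (nat_lit 6651010207) (nat_lit 4) (nat_lit 4) (nat_lit 5) (nat_lit 5) (nat_lit 5) (nat_lit 4) (nat_lit 426) (nat_lit 311) (nat_lit 163)))))) (XT.nd (nat_lit 37908) (nat_lit 0) (nat_lit 8132) (XT.nd (nat_lit 234) (nat_lit 0) (nat_lit 0) (XT.nd (nat_lit 78) (nat_lit 76) (nat_lit 0) (XT.lf (nat_lit 0) (nat_lit 7221750937) (nat_lit 152) (nat_lit 22584661367) (nat_lit 76) (nat_lit 502577494322) (nat_lit 3) (nat_lit 5) (nat_lit 5) (nat_lit 5) (nat_lit 4) (nat_lit 4) (nat_lit 427) (nat_lit 311) (nat_lit 162)) (XT.nd (nat_lit 78) (nat_lit 0) (nat_lit 0) (XT.lf (nat_lit 0) (nat_lit 7040136305) (nat_lit 76) (nat_lit 14633340608) (nat_lit 152) (nat_lit 536532614369) (nat_lit 2) (nat_lit 5) (nat_lit 3) (nat_lit 5) (nat_lit 4) (nat_lit 4) (nat_lit 428) (nat_lit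 311) (nat_lit 161)) (XT.lf (nat_lit 0) (nat_lit 37255744928) (nat_lit 152) (nat_lit 546398614767) (nat_lit 0) (nat_lit 1644627907) (nat_lit 2) (nat_lit 5) (nat_lit 4) (nat_lit 4) (nat_lit 2) (nat_lit 4) (nat_lit 429) (nat_lit 311) (nat_lit 160)))) (XT.nd (nat_lit 78) (nat_lit 0) (nat_lit 0) (XT.lf (nat_lit 0) (nat_lit 53855999981) (nat_lit 152) (nat_lit 541634773983) (nat_lit 0) (nat_lit 18243811302) (nat_lit 2) (nat_lit 5) (nat_lit 4) (nat_lit 4) (nat_lit 2) (nat_lit 4) (nat_lit 430) (nat_lit 311) (nat_lit 159)) (XT.nd (nat_lit 78) (nat_lit 0) (nat_lit 0) (XT.lf (nat_lit 0) (nat_lit 71285299033) (nat_lit 152) (nat_lit 536634622691) (nat_lit 0) (nat_lit 35672089727) (nat_lit 2) (nat_lit 5) (nat_lit 4) (nat_lit 4) (nat_lit 2) (nat_lit 4) (nat_lit 431) (nat_lit 311) (nat_lit 158)) (XT.lf (nat_lit 0) (nat_lit 89585140415) (nat_lit 152) (nat_lit 531386255768) (nat_lit 0) (nat_lit 53970959082)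 (nat_lit 2) (nat_lit 5) (nat_lit 4) (nat_lit 4) (nat_lit 2) (nat_lit 4) (nat_lit 432) (nat_lit 311) (nat_lit 157))))) (XT.nd (nat_lit 234) (nat_lit 0) (nat_lit 76) (XT.nd (nat_lit 78) (nat_lit 684) (nat_lit 0) (XT.lf (nat_lit 0) (nat_lit 1870591552) (nat_lit 0) (nat_lit 1870591552) (nat_lit 532) (nat_lit 324222190) (nat_lit 118) (nat_lit 5) (nat_lit 118) (nat_lit 3) (nat_lit 125) (nat_lit 3) (nat_lit 312) (nat_lit 312) (nat_lit 276)) (XT.nd (nat_lit 78) (nat_lit 0) (nat_lit 76) (XT.lf (nat_lit 0) (nat_lit 467094339) (nat_lit 684) (nat_lit 579148651) (nat_lit 684) (nat_lit 7230977191) (nat_lit 109) (nat_lit 3) (nat_lit 118) (nat_lit 3) (nat_lit 118) (nat_lit 5) (nat_lit 313) (nat_lit 312) (nat_lit 275)) (XT.lf (nat_lit 0) (nat_lit 1629387637) (nat_lit 608) (nat_lit 4975408302) (nat_lit 684) (nat_lit 1825103111) (nat_lit 110) (nat_lit 5) (nat_lit 118) (nat_lit 5) (nat_lit 119) (nat_lit 5)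 (nat_lit 314) (nat_lit 312) (nat_lit 274)))) (XT.nd (nat_lit 78) (nat_lit 0) (nat_lit 0) (XT.lf (nat_lit 0) (nat_lit 2809134263) (nat_lit 608) (nat_lit 937909305) (nat_lit 684) (nat_lit 4845314491) (nat_lit 110) (nat_lit 5) (nat_lit 118) (nat_lit 5) (nat_lit 119) (nat_lit 5) (nat_lit 315) (nat_lit 312) (nat_lit 273)) (XT.nd (nat_lit 78) (nat_lit 0) (nat_lit 76) (XT.lf (nat_lit 76) (nat_lit 3370489556) (nat_lit 0) (nat_lit 665447343) (nat_lit 684) (nat_lit 4727707430) (nat_lit 111) (nat_lit 5) (nat_lit 110) (nat_lit 5) (nat_lit 119) (nat_lit 5) (nat_lit 316) (nat_lit 312) (nat_lit 272)) (XT.lf (nat_lit 0) (nat_lit 5318647969) (nat_lit 608) (nat_lit 1098023134) (nat_lit 684) (nat_lit 2527198007) (nat_lit 111) (nat_lit 5) (nat_lit 119) (nat_lit 5) (nat_lit 120) (nat_lit 5) (nat_lit 317) (nat_lit 312) (nat_lit 271))))))))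
noncomputable def xc134 : XT := (XT.nd (nat_lit 1794) (nat_lit 2052) (nat_lit 0) (XT.nd (nat_lit 858) (nat_lit 2128) (nat_lit 0) (XT.nd (nat_lit 390) (nat_lit 1748) (nat_lit 0) (XT.nd (nat_lit 156) (nat_lit 608) (nat_lit 0) (XT.nd (nat_lit 78) (nat_lit 0) (nat_lit 76) (XT.lf (nat_lit 76) (nat_lit 3472277332) (nat_lit 0) (nat_lit 3199572011) (nat_lit 684) (nat_lit 2461035777) (nat_lit 112) (nat_lit 5) (nat_lit 111) (nat_lit 5) (nat_lit 120) (nat_lit 5) (nat_lit 318) (nat_lit 312) (nat_lit 270)) (XT.lf (nat_lit 0) (nat_lit 8058088635) (nat_lit 608) (nat_lit 1066663359) (nat_lit 684) (nat_lit 208424116) (nat_lit 112) (nat_lit 5) (nat_lit 120) (nat_lit 5) (nat_lit 121) (nat_lit 5) (nat_lit 319) (nat_lit 312) (nat_lit 269))) (XT.nd (nat_lit 78) (nat_lit 0) (nat_lit 0) (XT.lf (nat_lit 0) (nat_lit 29902531) (nat_lit 684) (nat_lit 5755823380) (nat_lit 760) (nat_lit 3754923997) (nat_lit 103) (nat_lit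 5) (nat_lit 112) (nat_lit 5) (nat_lit 113) (nat_lit 5) (nat_lit 320) (nat_lit 312) (nat_lit 268)) (XT.nd (nat_lit 78) (nat_lit 0) (nat_lit 76) (XT.lf (nat_lit 0) (nat_lit 1323029777) (nat_lit 684) (nat_lit 904387509) (nat_lit 760) (nat_lit 7531828405) (nat_lit 103) (nat_lit 5) (nat_lit 112) (nat_lit 5) (nat_lit 113) (nat_lit 5) (nat_lit 321) (nat_lit 312) (nat_lit 267)) (XT.lf (nat_lit 0) (nat_lit 2722453527) (nat_lit 684) (nat_lit 5725525553) (nat_lit 76) (nat_lit 1538786745) (nat_lit 104) (nat_lit 5) (nat_lit 113) (nat_lit 5) (nat_lit 105) (nat_lit 5) (nat_lit 322) (nat_lit 312) (nat_lit 266))))) (XT.nd (nat_lit 234) (nat_lit 1140) (nat_lit 0) (XT.nd (nat_lit 78) (nat_lit 684) (nat_lit 0) (XT.lf (nat_lit 0) (nat_lit 4195741441) (nat_lit 684) (nat_lit 586654024) (nat_lit 76) (nat_lit 5443144779) (nat_lit 104) (nat_lit 5) (nat_lit 113) (nat_lit 5) (nat_lit 105) (nat_lit 5) (nat_lit 323)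 (nat_lit 312) (nat_lit 265)) (XT.nd (nat_lit 78) (nat_lit 0) (nat_lit 0) (XT.lf (nat_lit 0) (nat_lit 4927304176) (nat_lit 684) (nat_lit 846423946) (nat_lit 760) (nat_lit 4701042995) (nat_lit 95) (nat_lit 5) (nat_lit 104) (nat_lit 5) (nat_lit 105) (nat_lit 5) (nat_lit 324) (nat_lit 312) (nat_lit 264)) (XT.lf (nat_lit 0) (nat_lit 7447788666) (nat_lit 760) (nat_lit 91400650) (nat_lit 76) (nat_lit 3196481638) (nat_lit 95) (nat_lit 5) (nat_lit 105) (nat_lit 5) (nat_lit 96) (nat_lit 5) (nat_lit 325) (nat_lit 312) (nat_lit 263)))) (XT.nd (nat_lit 78) (nat_lit 456) (nat_lit 0) (XT.lf (nat_lit 0) (nat_lit 5768910978) (nat_lit 684) (nat_lit 3498459558) (nat_lit 760) (nat_lit 1739217326) (nat_lit 86) (nat_lit 5) (nat_lit 95) (nat_lit 5) (nat_lit 96) (nat_lit 5) (nat_lit 326) (nat_lit 312) (nat_lit 262)) (XT.nd (nat_lit 78) (nat_lit 76) (nat_lit 0) (XT.lf (nat_lit 0) (nat_lit 601217725) (nat_lit 380)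 (nat_lit 10558601850) (nat_lit 456) (nat_lit 132196632) (nat_lit 81) (nat_lit 5) (nat_lit 86) (nat_lit 5) (nat_lit 87) (nat_lit 5) (nat_lit 327) (nat_lit 312) (nat_lit 261)) (XT.lf (nat_lit 0) (nat_lit 1612825527) (nat_lit 456) (nat_lit 4798008533) (nat_lit 76) (nat_lit 5174351008) (nat_lit 80) (nat_lit 5) (nat_lit 86) (nat_lit 5) (nat_lit 81) (nat_lit 5) (nat_lit 328) (nat_lit 312) (nat_lit 260)))))) (XT.nd (nat_lit 468) (nat_lit 1140) (nat_lit 0) (XT.nd (nat_lit 234) (nat_lit 380) (nat_lit 0) (XT.nd (nat_lit 78) (nat_lit 304) (nat_lit 0) (XT.lf (nat_lit 0) (nat_lit 1392254110) (nat_lit 304) (nat_lit 2031964921) (nat_lit 380) (nat_lit 8469558665) (nat_lit 76) (nat_lit 5) (nat_lit 80) (nat_lit 5) (nat_lit 81) (nat_lit 5) (nat_lit 329) (nat_lit 312) (nat_lit 259)) (XT.nd (nat_lit 78) (nat_lit 304) (nat_lit 0) (XT.lf (nat_lit 0) (nat_lit 5411836426) (nat_lit 380) (nat_lit 4237312744) (nat_lit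 76) (nat_lit 2564417434) (nat_lit 76) (nat_lit 5) (nat_lit 81) (nat_lit 5) (nat_lit 77) (nat_lit 5) (nat_lit 330) (nat_lit 312) (nat_lit 258)) (XT.lf (nat_lit 0) (nat_lit 2342939406) (nat_lit 304) (nat_lit 5190553148) (nat_lit 380) (nat_lit 5014166517) (nat_lit 72) (nat_lit 5) (nat_lit 76) (nat_lit 5) (nat_lit 77) (nat_lit 5) (nat_lit 331) (nat_lit 312) (nat_lit 257)))) (XT.nd (nat_lit 78) (nat_lit 380) (nat_lit 0) (XT.lf (nat_lit 0) (nat_lit 9361093633) (nat_lit 304) (nat_lit 437746940) (nat_lit 380) (nat_lit 3097779904) (nat_lit 72) (nat_lit 5) (nat_lit 76) (nat_lit 5) (nat_lit 77) (nat_lit 5) (nat_lit 332) (nat_lit 312) (nat_lit 256)) (XT.nd (nat_lit 78) (nat_lit 76) (nat_lit 0) (XT.lf (nat_lit 0) (nat_lit 3469068206) (nat_lit 304) (nat_lit 8801043988) (nat_lit 380) (nat_lit 988327588) (nat_lit 68) (nat_lit 5) (nat_lit 72) (nat_lit 5) (nat_lit 73) (nat_lit 5) (nat_lit 333) (nat_lit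 312) (nat_lit 255)) (XT.lf (nat_lit 0) (nat_lit 1223196325) (nat_lit 380) (nat_lit 2754524480) (nat_lit 76) (nat_lit 9657917501) (nat_lit 67) (nat_lit 5) (nat_lit 72) (nat_lit 5) (nat_lit 68) (nat_lit 5) (nat_lit 334) (nat_lit 312) (nat_lit 254))))) (XT.nd (nat_lit 234) (nat_lit 608) (nat_lit 0) (XT.nd (nat_lit 78) (nat_lit 228) (nat_lit 0) (XT.lf (nat_lit 0) (nat_lit 3573646394) (nat_lit 380) (nat_lit 9316505926) (nat_lit 76) (nat_lit 1137692952) (nat_lit 63) (nat_lit 5) (nat_lit 68) (nat_lit 5) (nat_lit 64) (nat_lit 5) (nat_lit 335) (nat_lit 312) (nat_lit 253)) (XT.nd (nat_lit 78) (nat_lit 228) (nat_lit 0) (XT.lf (nat_lit 0) (nat_lit 6124395025) (nat_lit 380) (nat_lit 1894673601) (nat_lit 76) (nat_lit 6416490235) (nat_lit 63) (nat_lit 5) (nat_lit 68) (nat_lit 5) (nat_lit 64) (nat_lit 5) (nat_lit 336) (nat_lit 312) (nat_lit 252)) (XT.lf (nat_lit 0) (nat_lit 6056380500) (nat_lit 228) (nat_lit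 2812432494) (nat_lit 304) (nat_lit 5991571949) (nat_lit 60) (nat_lit 5) (nat_lit 63) (nat_lit 5) (nat_lit 64) (nat_lit 5) (nat_lit 337) (nat_lit 312) (nat_lit 251)))) (XT.nd (nat_lit 78) (nat_lit 608) (nat_lit 0) (XT.lf (nat_lit 0) (nat_lit 11796772336) (nat_lit 304) (nat_lit 912483956) (nat_lit 76) (nat_lit 2594911830) (nat_lit 60) (nat_lit 5) (nat_lit 64) (nat_lit 5) (nat_lit 61) (nat_lit 5) (nat_lit 338) (nat_lit 312) (nat_lit 250)) (XT.nd (nat_lit 78) (nat_lit 304) (nat_lit 0) (XT.lf (nat_lit 0) (nat_lit 7533943858) (nat_lit 304) (nat_lit 7474500550) (nat_lit 380) (nat_lit 754860616) (nat_lit 56) (nat_lit 5) (nat_lit 60) (nat_lit 5) (nat_lit 61) (nat_lit 5) (nat_lit 339) (nat_lit 312) (nat_lit 249)) (XT.lf (nat_lit 0) (nat_lit 125131255) (nat_lit 228) (nat_lit 1933346611) (nat_lit 304) (nat_lit 14185705511) (nat_lit 52) (nat_lit 5) (nat_lit 55) (nat_lit 5) (nat_lit 56) (nat_lit 5)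 (nat_lit 340) (nat_lit 312) (nat_lit 248))))))) (XT.nd (nat_lit 858) (nat_lit 988) (nat_lit 0) (XT.nd (nat_lit 390) (nat_lit 608) (nat_lit 0) (XT.nd (nat_lit 156) (nat_lit 228) (nat_lit 0) (XT.nd (nat_lit 78) (nat_lit 228) (nat_lit 0) (XT.lf (nat_lit 0) (nat_lit 5163846511) (nat_lit 304) (nat_lit 7670017842) (nat_lit 76) (nat_lit 3905812157) (nat_lit 52) (nat_lit 5) (nat_lit 56) (nat_lit 5) (nat_lit 53) (nat_lit 5) (nat_lit 341) (nat_lit 312) (nat_lit 247)) (XT.lf (nat_lit 0) (nat_lit 1173405859) (nat_lit 228) (nat_lit 7276734886) (nat_lit 304) (nat_lit 8808545627) (nat_lit 49) (nat_lit 5) (nat_lit 52) (nat_lit 5) (nat_lit 53) (nat_lit 5) (nat_lit 342) (nat_lit 312) (nat_lit 246))) (XT.nd (nat_lit 78) (nat_lit 228) (nat_lit 0) (XT.lf (nat_lit 0) (nat_lit 10691909214) (nat_lit 228) (nat_lit 1315017492) (nat_lit 304) (nat_lit 5791434912) (nat_lit 49) (nat_lit 5) (nat_lit 52) (nat_lit 5)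 (nat_lit 53) (nat_lit 5) (nat_lit 343) (nat_lit 312) (nat_lit 245)) (XT.nd (nat_lit 78) (nat_lit 76) (nat_lit 0) (XT.lf (nat_lit 0) (nat_lit 2284435050) (nat_lit 152) (nat_lit 13547252694) (nat_lit 228) (nat_lit 2528848705) (nat_lit 47) (nat_lit 5) (nat_lit 49) (nat_lit 5) (nat_lit 50) (nat_lit 5) (nat_lit 344) (nat_lit 312) (nat_lit 244)) (XT.lf (nat_lit 0) (nat_lit 989505396) (nat_lit 228) (nat_lit 6623781868) (nat_lit 76) (nat_lit 11330785941) (nat_lit 46) (nat_lit 5) (nat_lit 49) (nat_lit 5) (nat_lit 47) (nat_lit 5) (nat_lit 345) (nat_lit 312) (nat_lit 243))))) (XT.nd (nat_lit 234) (nat_lit 228) (nat_lit 0) (XT.nd (nat_lit 78) (nat_lit 152) (nat_lit 0) (XT.lf (nat_lit 0) (nat_lit 3334977177) (nat_lit 228) (nat_lit 1294417781) (nat_lit 304) (nat_lit 14923808364) (nat_lit 43) (nat_lit 5) (nat_lit 46) (nat_lit 5) (nat_lit 47) (nat_lit 5) (nat_lit 346) (nat_lit 312) (nat_lit 242)) (XT.nd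 (nat_lit 78) (nat_lit 152) (nat_lit 0) (XT.lf (nat_lit 0) (nat_lit 8627591090) (nat_lit 304) (nat_lit 6282622628) (nat_lit 76) (nat_lit 5273779226) (nat_lit 43) (nat_lit 5) (nat_lit 47) (nat_lit 5) (nat_lit 44) (nat_lit 5) (nat_lit 347) (nat_lit 312) (nat_lit 241)) (XT.lf (nat_lit 0) (nat_lit 4233702250) (nat_lit 152) (nat_lit 8659236259) (nat_lit 228) (nat_lit 7950039179) (nat_lit 41) (nat_lit 5) (nat_lit 43) (nat_lit 5) (nat_lit 44) (nat_lit 5) (nat_lit 348) (nat_lit 312) (nat_lit 240)))) (XT.nd (nat_lit 78) (nat_lit 228) (nat_lit 0) (XT.lf (nat_lit 0) (nat_lit 15464107495) (nat_lit 152) (nat_lit 1994256625) (nat_lit 228) (nat_lit 4072223882) (nat_lit 41) (nat_lit 5) (nat_lit 43) (nat_lit 5) (nat_lit 44) (nat_lit 5) (nat_lit 349) (nat_lit 312) (nat_lit 239)) (XT.nd (nat_lit 78) (nat_lit 0) (nat_lit 0) (XT.lf (nat_lit 0) (nat_lit 140037269) (nat_lit 228) (nat_lit 17189952839) (nat_lit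 76) (nat_lit 4915577508) (nat_lit 38) (nat_lit 5) (nat_lit 41) (nat_lit 5) (nat_lit 39) (nat_lit 5) (nat_lit 350) (nat_lit 312) (nat_lit 238)) (XT.lf (nat_lit 0) (nat_lit 4544496335) (nat_lit 228) (nat_lit 6177254301) (nat_lit 76) (nat_lit 12265300348) (nat_lit 38) (nat_lit 5) (nat_lit 41) (nat_lit 5) (nat_lit 39) (nat_lit 5) (nat_lit 351) (nat_lit 312) (nat_lit 237)))))) (XT.nd (nat_lit 468) (nat_lit 456) (nat_lit 0) (XT.nd (nat_lit 234) (nat_lit 228) (nat_lit 0) (XT.nd (nat_lit 78) (nat_lit 152) (nat_lit 0) (XT.lf (nat_lit 0) (nat_lit 5535251669) (nat_lit 152) (nat_lit 3702559404) (nat_lit 228) (nat_lit 14524379692) (nat_lit 36) (nat_lit 5) (nat_lit 38) (nat_lit 5) (nat_lit 39) (nat_lit 5) (nat_lit 352) (nat_lit 312) (nat_lit 236)) (XT.nd (nat_lit 78) (nat_lit 152) (nat_lit 0) (XT.lf (nat_lit 0) (nat_lit 14311852994) (nat_lit 228) (nat_lit 6610251597) (nat_lit 76) (nat_lit 3646693092)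 (nat_lit 36) (nat_lit 5) (nat_lit 39) (nat_lit 5) (nat_lit 37) (nat_lit 5) (nat_lit 353) (nat_lit 312) (nat_lit 235)) (XT.lf (nat_lit 0) (nat_lit 5681500178) (nat_lit 152) (nat_lit 14090803695) (nat_lit 228) (nat_lit 5636808323) (nat_lit 34) (nat_lit 5) (nat_lit 36) (nat_lit 5) (nat_lit 37) (nat_lit 5) (nat_lit 354) (nat_lit 312) (nat_lit 234)))) (XT.nd (nat_lit 78) (nat_lit 228) (nat_lit 0) (XT.lf (nat_lit 0) (nat_lit 18790850788) (nat_lit 152) (nat_lit 6810560887) (nat_lit 228) (nat_lit 685261031) (nat_lit 34) (nat_lit 5) (nat_lit 36) (nat_lit 5) (nat_lit 37) (nat_lit 5) (nat_lit 355) (nat_lit 312) (nat_lit 233)) (XT.nd (nat_lit 78) (nat_lit 0) (nat_lit 0) (XT.lf (nat_lit 0) (nat_lit 4453693054) (nat_lit 228) (nat_lit 21791596143) (nat_lit 76) (nat_lit 955094156) (nat_lit 31) (nat_lit 5) (nat_lit 34) (nat_lit 5) (nat_lit 32) (nat_lit 5) (nat_lit 356) (nat_lit 312) (nat_lit 232)) (XT.lf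 (nat_lit 0) (nat_lit 10051640634) (nat_lit 228) (nat_lit 9085497736) (nat_lit 76) (nat_lit 9010836080) (nat_lit 31) (nat_lit 5) (nat_lit 34) (nat_lit 5) (nat_lit 32) (nat_lit 5) (nat_lit 357) (nat_lit 312) (nat_lit 231))))) (XT.nd (nat_lit 234) (nat_lit 228) (nat_lit 0) (XT.nd (nat_lit 78) (nat_lit 76) (nat_lit 0) (XT.lf (nat_lit 0) (nat_lit 4371076988) (nat_lit 152) (nat_lit 11611796290) (nat_lit 228) (nat_lit 13157412304) (nat_lit 29) (nat_lit 5) (nat_lit 31) (nat_lit 5) (nat_lit 32) (nat_lit 5) (nat_lit 358) (nat_lit 312) (nat_lit 230)) (XT.nd (nat_lit 78) (nat_lit 76) (nat_lit 0) (XT.lf (nat_lit 0) (nat_lit 18791576926) (nat_lit 152) (nat_lit 3558428450) (nat_lit 228) (nat_lit 7825249398) (nat_lit 29) (nat_lit 5) (nat_lit 31) (nat_lit 5) (nat_lit 32) (nat_lit 5) (nat_lit 359) (nat_lit 312) (nat_lit 229)) (XT.lf (nat_lit 0) (nat_lit 2655942885) (nat_lit 76) (nat_lit 26483499942) (nat_lit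 152) (nat_lit 2117341111) (nat_lit 28) (nat_lit 5) (nat_lit 29) (nat_lit 5) (nat_lit 30) (nat_lit 4) (nat_lit 360) (nat_lit 312) (nat_lit 228)))) (XT.nd (nat_lit 78) (nat_lit 152) (nat_lit 0) (XT.lf (nat_lit 0) (nat_lit 3992276524) (nat_lit 152) (nat_lit 14735813309) (nat_lit 76) (nat_lit 13649263664) (nat_lit 27) (nat_lit 5) (nat_lit 29) (nat_lit 5) (nat_lit 28) (nat_lit 5) (nat_lit 361) (nat_lit 312) (nat_lit 227)) (XT.nd (nat_lit 78) (nat_lit 152) (nat_lit 0) (XT.lf (nat_lit 0) (nat_lit 10322966590) (nat_lit 152) (nat_lit 234924124) (nat_lit 76) (nat_lit 22994995620) (nat_lit 27) (nat_lit 5) (nat_lit 29) (nat_lit 5) (nat_lit 28) (nat_lit 5) (nat_lit 362) (nat_lit 312) (nat_lit 226)) (XT.lf (nat_lit 0) (nat_lit 15464366357) (nat_lit 152) (nat_lit 1734646036) (nat_lit 228) (nat_lit 17576749719) (nat_lit 25) (nat_lit 5) (nat_lit 27) (nat_lit 5) (nat_lit 28) (nat_lit 5) (nat_lit 363) (nat_lit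 312) (nat_lit 225))))))))
noncomputable def xc135 : XT := (XT.nd (nat_lit 1794) (nat_lit 532) (nat_lit 0) (XT.nd (nat_lit 858) (nat_lit 456) (nat_lit 0) (XT.nd (nat_lit 390) (nat_lit 228) (nat_lit 0) (XT.nd (nat_lit 156) (nat_lit 228) (nat_lit 0) (XT.nd (nat_lit 78) (nat_lit 76) (nat_lit 0) (XT.lf (nat_lit 0) (nat_lit 24527974328) (nat_lit 228) (nat_lit 4242167981) (nat_lit 76) (nat_lit 7284190690) (nat_lit 25) (nat_lit 5) (nat_lit 28) (nat_lit 5) (nat_lit 26) (nat_lit 4) (nat_lit 364) (nat_lit 312) (nat_lit 224)) (XT.lf (nat_lit 0) (nat_lit 11912662300) (nat_lit 76) (nat_lit 20513253110) (nat_lit 152) (nat_lit 4960797145) (nat_lit 24) (nat_lit 5) (nat_lit 25) (nat_lit 5) (nat_lit 26) (nat_lit 4) (nat_lit 365) (nat_lit 312) (nat_lit 223))) (XT.nd (nat_lit 78) (nat_lit 152) (nat_lit 0) (XT.lf (nat_lit 0) (nat_lit 1932349511) (nat_lit 152) (nat_lit 9811729749) (nat_lit 76) (nat_lit 27037070050)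 (nat_lit 23) (nat_lit 5) (nat_lit 25) (nat_lit 5) (nat_lit 24) (nat_lit 5) (nat_lit 366) (nat_lit 312) (nat_lit 222)) (XT.nd (nat_lit 78) (nat_lit 0) (nat_lit 0) (XT.lf (nat_lit 0) (nat_lit 6748603072) (nat_lit 152) (nat_lit 2348919302) (nat_lit 228) (nat_lit 31139020861) (nat_lit 21) (nat_lit 5) (nat_lit 23) (nat_lit 5) (nat_lit 24) (nat_lit 5) (nat_lit 367) (nat_lit 312) (nat_lit 221)) (XT.lf (nat_lit 0) (nat_lit 16896011757) (nat_lit 228) (nat_lit 17418758908) (nat_lit 76) (nat_lit 7436188790) (nat_lit 21) (nat_lit 5) (nat_lit 24) (nat_lit 5) (nat_lit 22) (nat_lit 4) (nat_lit 368) (nat_lit 312) (nat_lit 220))))) (XT.nd (nat_lit 234) (nat_lit 152) (nat_lit 0) (XT.nd (nat_lit 78) (nat_lit 76) (nat_lit 0) (XT.lf (nat_lit 0) (nat_lit 25112286429) (nat_lit 228) (nat_lit 603562764) (nat_lit 76) (nat_lit 17623859485) (nat_lit 21) (nat_lit 5) (nat_lit 24) (nat_lit 5) (nat_lit 22) (nat_lit 4)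 (nat_lit 369) (nat_lit 312) (nat_lit 219)) (XT.nd (nat_lit 78) (nat_lit 0) (nat_lit 0) (XT.lf (nat_lit 0) (nat_lit 17597590456) (nat_lit 76) (nat_lit 16406392982) (nat_lit 152) (nat_lit 10990686476) (nat_lit 20) (nat_lit 5) (nat_lit 21) (nat_lit 5) (nat_lit 22) (nat_lit 4) (nat_lit 370) (nat_lit 312) (nat_lit 218)) (XT.lf (nat_lit 0) (nat_lit 36712011045) (nat_lit 76) (nat_lit 6628542553) (nat_lit 152) (nat_lit 3391815944) (nat_lit 20) (nat_lit 5) (nat_lit 21) (nat_lit 5) (nat_lit 22) (nat_lit 4) (nat_lit 371) (nat_lit 312) (nat_lit 217)))) (XT.nd (nat_lit 78) (nat_lit 0) (nat_lit 0) (XT.lf (nat_lit 0) (nat_lit 4621806555) (nat_lit 152) (nat_lit 40201920834) (nat_lit 76) (nat_lit 3720569221) (nat_lit 18) (nat_lit 5) (nat_lit 20) (nat_lit 5) (nat_lit 19) (nat_lit 4) (nat_lit 372) (nat_lit 312) (nat_lit 216)) (XT.nd (nat_lit 78) (nat_lit 0) (nat_lit 0) (XT.lf (nat_lit 0) (nat_lit 13193725522)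 (nat_lit 152) (nat_lit 22651556481) (nat_lit 76) (nat_lit 14585181820) (nat_lit 18) (nat_lit 5) (nat_lit 20) (nat_lit 5) (nat_lit 19) (nat_lit 4) (nat_lit 373) (nat_lit 312) (nat_lit 215)) (XT.lf (nat_lit 0) (nat_lit 22185151280) (nat_lit 152) (nat_lit 4240152276) (nat_lit 76) (nat_lit 25986094204) (nat_lit 18) (nat_lit 5) (nat_lit 20) (nat_lit 5) (nat_lit 19) (nat_lit 4) (nat_lit 374) (nat_lit 312) (nat_lit 214)))))) (XT.nd (nat_lit 468) (nat_lit 228) (nat_lit 0) (XT.nd (nat_lit 234) (nat_lit 152) (nat_lit 0) (XT.nd (nat_lit 78) (nat_lit 0) (nat_lit 0) (XT.lf (nat_lit 0) (nat_lit 15574613350) (nat_lit 76) (nat_lit 16286041997) (nat_lit 152) (nat_lit 22619001412) (nat_lit 17) (nat_lit 5) (nat_lit 18) (nat_lit 5) (nat_lit 19) (nat_lit 4) (nat_lit 375) (nat_lit 312) (nat_lit 213)) (XT.nd (nat_lit 78) (nat_lit 0) (nat_lit 0) (XT.lf (nat_lit 0) (nat_lit 36511885214) (nat_lit 76) (nat_lit 5571373232)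 (nat_lit 152) (nat_lit 14564907613) (nat_lit 17) (nat_lit 5) (nat_lit 18) (nat_lit 5) (nat_lit 19) (nat_lit 4) (nat_lit 376) (nat_lit 312) (nat_lit 212)) (XT.lf (nat_lit 0) (nat_lit 52897472690) (nat_lit 152) (nat_lit 532755012) (nat_lit 0) (nat_lit 5490852445) (nat_lit 17) (nat_lit 5) (nat_lit 19) (nat_lit 4) (nat_lit 17) (nat_lit 4) (nat_lit 377) (nat_lit 312) (nat_lit 211)))) (XT.nd (nat_lit 78) (nat_lit 0) (nat_lit 0) (XT.lf (nat_lit 0) (nat_lit 3262385051) (nat_lit 152) (nat_lit 40735199512) (nat_lit 76) (nat_lit 17287165740) (nat_lit 15) (nat_lit 5) (nat_lit 17) (nat_lit 5) (nat_lit 16) (nat_lit 4) (nat_lit 378) (nat_lit 312) (nat_lit 210)) (XT.nd (nat_lit 78) (nat_lit 0) (nat_lit 0) (XT.lf (nat_lit 0) (nat_lit 12811643365) (nat_lit 152) (nat_lit 21174904369) (nat_lit 76) (nat_lit 29775051818) (nat_lit 15) (nat_lit 5) (nat_lit 17) (nat_lit 5) (nat_lit 16) (nat_lit 4) (nat_lit 379)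 (nat_lit 312) (nat_lit 209)) (XT.lf (nat_lit 0) (nat_lit 22830963184) (nat_lit 152) (nat_lit 650236267) (nat_lit 76) (nat_lit 42881464658) (nat_lit 15) (nat_lit 5) (nat_lit 17) (nat_lit 5) (nat_lit 16) (nat_lit 4) (nat_lit 380) (nat_lit 312) (nat_lit 208))))) (XT.nd (nat_lit 234) (nat_lit 152) (nat_lit 0) (XT.nd (nat_lit 78) (nat_lit 0) (nat_lit 0) (XT.lf (nat_lit 0) (nat_lit 21578313853) (nat_lit 76) (nat_lit 12102784128) (nat_lit 152) (nat_lit 35396194105) (nat_lit 14) (nat_lit 5) (nat_lit 15) (nat_lit 5) (nat_lit 16) (nat_lit 4) (nat_lit 381) (nat_lit 312) (nat_lit 207)) (XT.nd (nat_lit 78) (nat_lit 0) (nat_lit 0) (XT.lf (nat_lit 0) (nat_lit 44928083578) (nat_lit 76) (nat_lit 149755135) (nat_lit 152) (nat_lit 26849610307) (nat_lit 14) (nat_lit 5) (nat_lit 15) (nat_lit 5) (nat_lit 16) (nat_lit 4) (nat_lit 382) (nat_lit 312) (nat_lit 206)) (XT.lf (nat_lit 0) (nat_lit 57231358713) (nat_lit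 152) (nat_lit 5680803452) (nat_lit 0) (nat_lit 11998606921) (nat_lit 14) (nat_lit 5) (nat_lit 16) (nat_lit 4) (nat_lit 14) (nat_lit 4) (nat_lit 383) (nat_lit 312) (nat_lit 205)))) (XT.nd (nat_lit 78) (nat_lit 76) (nat_lit 0) (XT.lf (nat_lit 0) (nat_lit 17241231830) (nat_lit 76) (nat_lit 53016608530) (nat_lit 76) (nat_lit 7772152795) (nat_lit 13) (nat_lit 4) (nat_lit 14) (nat_lit 5) (nat_lit 14) (nat_lit 4) (nat_lit 384) (nat_lit 312) (nat_lit 204)) (XT.nd (nat_lit 78) (nat_lit 0) (nat_lit 0) (XT.lf (nat_lit 0) (nat_lit 2637723878) (nat_lit 152) (nat_lit 39848268395) (nat_lit 76) (nat_lit 38812562396) (nat_lit 12) (nat_lit 5) (nat_lit 14) (nat_lit 5) (nat_lit 13) (nat_lit 4) (nat_lit 385) (nat_lit 312) (nat_lit 203)) (XT.lf (nat_lit 0) (nat_lit 13300864123) (nat_lit 152) (nat_lit 17999446712) (nat_lit 76) (nat_lit 53424166525) (nat_lit 12) (nat_lit 5) (nat_lit 14) (nat_lit 5) (nat_lit 13)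 (nat_lit 4) (nat_lit 386) (nat_lit 312) (nat_lit 202))))))) (XT.nd (nat_lit 858) (nat_lit 228) (nat_lit 0) (XT.nd (nat_lit 390) (nat_lit 152) (nat_lit 0) (XT.nd (nat_lit 156) (nat_lit 76) (nat_lit 0) (XT.nd (nat_lit 78) (nat_lit 0) (nat_lit 0) (XT.lf (nat_lit 0) (nat_lit 5094113249) (nat_lit 76) (nat_lit 19476833931) (nat_lit 152) (nat_lit 63747061596) (nat_lit 11) (nat_lit 5) (nat_lit 12) (nat_lit 5) (nat_lit 13) (nat_lit 4) (nat_lit 387) (nat_lit 312) (nat_lit 201)) (XT.lf (nat_lit 0) (nat_lit 29956678440) (nat_lit 76) (nat_lit 6747046327) (nat_lit 152) (nat_lit 55372534265) (nat_lit 11) (nat_lit 5) (nat_lit 12) (nat_lit 5) (nat_lit 13) (nat_lit 4) (nat_lit 388) (nat_lit 312) (nat_lit 200))) (XT.nd (nat_lit 78) (nat_lit 76) (nat_lit 0) (XT.lf (nat_lit 0) (nat_lit 49541042169) (nat_lit 152) (nat_lit 40073660955) (nat_lit 0) (nat_lit 6402825332) (nat_lit 11) (nat_lit 5) (nat_lit 13) (nat_lit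 4) (nat_lit 11) (nat_lit 4) (nat_lit 389) (nat_lit 312) (nat_lit 199)) (XT.nd (nat_lit 78) (nat_lit 76) (nat_lit 0) (XT.lf (nat_lit 0) (nat_lit 63125648182) (nat_lit 152) (nat_lit 17045830085) (nat_lit 0) (nat_lit 19979113571) (nat_lit 11) (nat_lit 5) (nat_lit 13) (nat_lit 4) (nat_lit 11) (nat_lit 4) (nat_lit 390) (nat_lit 312) (nat_lit 198)) (XT.lf (nat_lit 0) (nat_lit 7359634762) (nat_lit 76) (nat_lit 70139816564) (nat_lit 76) (nat_lit 26985360265) (nat_lit 10) (nat_lit 4) (nat_lit 11) (nat_lit 5) (nat_lit 11) (nat_lit 4) (nat_lit 391) (nat_lit 312) (nat_lit 197))))) (XT.nd (nat_lit 234) (nat_lit 76) (nat_lit 0) (XT.nd (nat_lit 78) (nat_lit 76) (nat_lit 0) (XT.lf (nat_lit 0) (nat_lit 33568003933) (nat_lit 76) (nat_lit 59307774474) (nat_lit 76) (nat_lit 16145773709) (nat_lit 10) (nat_lit 4) (nat_lit 11) (nat_lit 5) (nat_lit 11) (nat_lit 4) (nat_lit 392) (nat_lit 312) (nat_lit 196)) (XT.nd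 (nat_lit 78) (nat_lit 76) (nat_lit 0) (XT.lf (nat_lit 0) (nat_lit 61078066182) (nat_lit 76) (nat_lit 47938240799) (nat_lit 76) (nat_lit 4769054829) (nat_lit 10) (nat_lit 4) (nat_lit 11) (nat_lit 5) (nat_lit 11) (nat_lit 4) (nat_lit 393) (nat_lit 312) (nat_lit 195)) (XT.lf (nat_lit 0) (nat_lit 6942338729) (nat_lit 152) (nat_lit 28944234627) (nat_lit 76) (nat_lit 82895411063) (nat_lit 9) (nat_lit 5) (nat_lit 11) (nat_lit 5) (nat_lit 10) (nat_lit 4) (nat_lit 394) (nat_lit 312) (nat_lit 194)))) (XT.nd (nat_lit 78) (nat_lit 76) (nat_lit 0) (XT.lf (nat_lit 0) (nat_lit 19074774786) (nat_lit 152) (nat_lit 4079257902) (nat_lit 76) (nat_lit 100870710402) (nat_lit 9) (nat_lit 5) (nat_lit 11) (nat_lit 5) (nat_lit 10) (nat_lit 4) (nat_lit 395) (nat_lit 312) (nat_lit 193)) (XT.nd (nat_lit 78) (nat_lit 0) (nat_lit 0) (XT.lf (nat_lit 0) (nat_lit 22749418654) (nat_lit 76) (nat_lit 9415543160) (nat_lit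 152) (nat_lit 97347122576) (nat_lit 8) (nat_lit 5) (nat_lit 9) (nat_lit 5) (nat_lit 10) (nat_lit 4) (nat_lit 396) (nat_lit 312) (nat_lit 192)) (XT.lf (nat_lit 0) (nat_lit 46054059431) (nat_lit 152) (nat_lit 84296230502) (nat_lit 0) (nat_lit 4916283858) (nat_lit 8) (nat_lit 5) (nat_lit 10) (nat_lit 4) (nat_lit 8) (nat_lit 4) (nat_lit 397) (nat_lit 312) (nat_lit 191)))))) (XT.nd (nat_lit 468) (nat_lit 152) (nat_lit 0) (XT.nd (nat_lit 234) (nat_lit 76) (nat_lit 0) (XT.nd (nat_lit 78) (nat_lit 0) (nat_lit 0) (XT.lf (nat_lit 0) (nat_lit 60788123552) (nat_lit 152) (nat_lit 60868153307) (nat_lit 0) (nat_lit 19644986268) (nat_lit 8) (nat_lit 5) (nat_lit 10) (nat_lit 4) (nat_lit 8) (nat_lit 4) (nat_lit 398) (nat_lit 312) (nat_lit 190)) (XT.nd (nat_lit 78) (nat_lit 0) (nat_lit 0) (XT.lf (nat_lit 0) (nat_lit 76255232266) (nat_lit 152) (nat_lit 36275649998) (nat_lit 0) (nat_lit 35106988591) (nat_lit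 8) (nat_lit 5) (nat_lit 10) (nat_lit 4) (nat_lit 8) (nat_lit 4) (nat_lit 399) (nat_lit 312) (nat_lit 189)) (XT.lf (nat_lit 0) (nat_lit 92492212022) (nat_lit 152) (nat_lit 10460166998) (nat_lit 0) (nat_lit 51339105118) (nat_lit 8) (nat_lit 5) (nat_lit 10) (nat_lit 4) (nat_lit 8) (nat_lit 4) (nat_lit 400) (nat_lit 312) (nat_lit 188)))) (XT.nd (nat_lit 78) (nat_lit 0) (nat_lit 0) (XT.lf (nat_lit 0) (nat_lit 17189946779) (nat_lit 76) (nat_lit 92616158762) (nat_lit 76) (nat_lit 51458420210) (nat_lit 7) (nat_lit 4) (nat_lit 8) (nat_lit 5) (nat_lit 8) (nat_lit 4) (nat_lit 401) (nat_lit 312) (nat_lit 187)) (XT.nd (nat_lit 78) (nat_lit 0) (nat_lit 0) (XT.lf (nat_lit 0) (nat_lit 46579492683) (nat_lit 76) (nat_lit 81580091374) (nat_lit 76) (nat_lit 40417941730) (nat_lit 7) (nat_lit 4) (nat_lit 8) (nat_lit 5) (nat_lit 8) (nat_lit 4) (nat_lit 402) (nat_lit 312) (nat_lit 186)) (XT.lf (nat_lit 0) (nat_lit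 77432585462) (nat_lit 76) (nat_lit 69995048498) (nat_lit 76) (nat_lit 28828697812) (nat_lit 7) (nat_lit 4) (nat_lit 8) (nat_lit 5) (nat_lit 8) (nat_lit 4) (nat_lit 403) (nat_lit 312) (nat_lit 185))))) (XT.nd (nat_lit 234) (nat_lit 76) (nat_lit 0) (XT.nd (nat_lit 78) (nat_lit 76) (nat_lit 0) (XT.lf (nat_lit 0) (nat_lit 109822684861) (nat_lit 76) (nat_lit 57833446696) (nat_lit 76) (nat_lit 16663095019) (nat_lit 7) (nat_lit 4) (nat_lit 8) (nat_lit 5) (nat_lit 8) (nat_lit 4) (nat_lit 404) (nat_lit 312) (nat_lit 184)) (XT.nd (nat_lit 78) (nat_lit 76) (nat_lit 0) (XT.lf (nat_lit 0) (nat_lit 143826910164) (nat_lit 76) (nat_lit 45066329775) (nat_lit 76) (nat_lit 3892167630) (nat_lit 7) (nat_lit 4) (nat_lit 8) (nat_lit 5) (nat_lit 8) (nat_lit 4) (nat_lit 405) (nat_lit 312) (nat_lit 183)) (XT.lf (nat_lit 0) (nat_lit 9209968182) (nat_lit 152) (nat_lit 22297356386) (nat_lit 76) (nat_lit 170160280362)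 (nat_lit 6) (nat_lit 5) (nat_lit 8) (nat_lit 5) (nat_lit 7) (nat_lit 4) (nat_lit 406) (nat_lit 312) (nat_lit 182)))) (XT.nd (nat_lit 78) (nat_lit 0) (nat_lit 0) (XT.lf (nat_lit 0) (nat_lit 5814159661) (nat_lit 76) (nat_lit 17110429133) (nat_lit 152) (nat_lit 188061724688) (nat_lit 5) (nat_lit 5) (nat_lit 6) (nat_lit 5) (nat_lit 7) (nat_lit 4) (nat_lit 407) (nat_lit 312) (nat_lit 181)) (XT.nd (nat_lit 78) (nat_lit 0) (nat_lit 0) (XT.lf (nat_lit 0) (nat_lit 36100480049) (nat_lit 76) (nat_lit 1599529239) (nat_lit 152) (nat_lit 183052195342) (nat_lit 5) (nat_lit 5) (nat_lit 6) (nat_lit 5) (nat_lit 7) (nat_lit 4) (nat_lit 408) (nat_lit 312) (nat_lit 180)) (XT.lf (nat_lit 0) (nat_lit 53441043611) (nat_lit 152) (nat_lit 163339317626) (nat_lit 0) (nat_lit 14214687541) (nat_lit 5) (nat_lit 5) (nat_lit 7) (nat_lit 4) (nat_lit 5) (nat_lit 4) (nat_lit 409) (nat_lit 312) (nat_lit 179))))))))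
noncomputable def xc136 : XT := (XT.nd (nat_lit 1716) (nat_lit 0) (nat_lit 0) (XT.nd (nat_lit 858) (nat_lit 152) (nat_lit 0) (XT.nd (nat_lit 390) (nat_lit 76) (nat_lit 0) (XT.nd (nat_lit 156) (nat_lit 0) (nat_lit 0) (XT.nd (nat_lit 78) (nat_lit 0) (nat_lit 0) (XT.lf (nat_lit 0) (nat_lit 69993007527) (nat_lit 152) (nat_lit 140992026239) (nat_lit 0) (nat_lit 30763808027) (nat_lit 5) (nat_lit 5) (nat_lit 7) (nat_lit 4) (nat_lit 5) (nat_lit 4) (nat_lit 410) (nat_lit 312) (nat_lit 178)) (XT.lf (nat_lit 0) (nat_lit 87370337340) (nat_lit 152) (nat_lit 117531669452) (nat_lit 0) (nat_lit 48138429811) (nat_lit 5) (nat_lit 5) (nat_lit 7) (nat_lit 4) (nat_lit 5) (nat_lit 4) (nat_lit 411) (nat_lit 312) (nat_lit 177))) (XT.nd (nat_lit 78) (nat_lit 0) (nat_lit 0) (XT.lf (nat_lit 0) (nat_lit 105614407644) (nat_lit 152) (nat_lit 92902389271) (nat_lit 0) (nat_lit 66379921041) (nat_lit 5) (nat_lit 5) (nat_lit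 7) (nat_lit 4) (nat_lit 5) (nat_lit 4) (nat_lit 412) (nat_lit 312) (nat_lit 176)) (XT.nd (nat_lit 78) (nat_lit 0) (nat_lit 0) (XT.lf (nat_lit 0) (nat_lit 124768656702) (nat_lit 152) (nat_lit 67045544554) (nat_lit 0) (nat_lit 85531713837) (nat_lit 5) (nat_lit 5) (nat_lit 7) (nat_lit 4) (nat_lit 5) (nat_lit 4) (nat_lit 413) (nat_lit 312) (nat_lit 175)) (XT.lf (nat_lit 0) (nat_lit 144878689870) (nat_lit 152) (nat_lit 39899571384) (nat_lit 0) (nat_lit 105639407708) (nat_lit 5) (nat_lit 5) (nat_lit 7) (nat_lit 4) (nat_lit 5) (nat_lit 4) (nat_lit 414) (nat_lit 312) (nat_lit 174))))) (XT.nd (nat_lit 234) (nat_lit 0) (nat_lit 0) (XT.nd (nat_lit 78) (nat_lit 76) (nat_lit 0) (XT.lf (nat_lit 0) (nat_lit 165992388177) (nat_lit 152) (nat_lit 11399836491) (nat_lit 0) (nat_lit 126750878114) (nat_lit 5) (nat_lit 5) (nat_lit 7) (nat_lit 4) (nat_lit 5) (nat_lit 4) (nat_lit 415) (nat_lit 312) (nat_lit 173))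 (XT.nd (nat_lit 78) (nat_lit 0) (nat_lit 0) (XT.lf (nat_lit 0) (nat_lit 19133921619) (nat_lit 76) (nat_lit 169324834856) (nat_lit 76) (nat_lit 130081202981) (nat_lit 4) (nat_lit 4) (nat_lit 5) (nat_lit 5) (nat_lit 5) (nat_lit 4) (nat_lit 416) (nat_lit 312) (nat_lit 172)) (XT.lf (nat_lit 0) (nat_lit 51586830038) (nat_lit 76) (nat_lit 160652957377) (nat_lit 76) (nat_lit 121407304731) (nat_lit 4) (nat_lit 4) (nat_lit 5) (nat_lit 5) (nat_lit 5) (nat_lit 4) (nat_lit 417) (nat_lit 312) (nat_lit 171)))) (XT.nd (nat_lit 78) (nat_lit 0) (nat_lit 0) (XT.lf (nat_lit 0) (nat_lit 85659227515) (nat_lit 76) (nat_lit 151549006654) (nat_lit 76) (nat_lit 112301429462) (nat_lit 4) (nat_lit 4) (nat_lit 5) (nat_lit 5) (nat_lit 5) (nat_lit 4) (nat_lit 418) (nat_lit 312) (nat_lit 170)) (XT.nd (nat_lit 78) (nat_lit 0) (nat_lit 0) (XT.lf (nat_lit 0) (nat_lit 121432238808) (nat_lit 76) (nat_lit 141991306612) (nat_lit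 76) (nat_lit 102741896521) (nat_lit 4) (nat_lit 4) (nat_lit 5) (nat_lit 5) (nat_lit 5) (nat_lit 4) (nat_lit 419) (nat_lit 312) (nat_lit 169)) (XT.lf (nat_lit 0) (nat_lit 158991037751) (nat_lit 76) (nat_lit 131957100824) (nat_lit 76) (nat_lit 92705945113) (nat_lit 4) (nat_lit 4) (nat_lit 5) (nat_lit 5) (nat_lit 5) (nat_lit 4) (nat_lit 420) (nat_lit 312) (nat_lit 168)))))) (XT.nd (nat_lit 390) (nat_lit 152) (nat_lit 0) (XT.nd (nat_lit 156) (nat_lit 0) (nat_lit 0) (XT.nd (nat_lit 78) (nat_lit 0) (nat_lit 0) (XT.lf (nat_lit 0) (nat_lit 198425050058) (nat_lit 76) (nat_lit 121422498323) (nat_lit 76) (nat_lit 82169680118) (nat_lit 4) (nat_lit 4) (nat_lit 5) (nat_lit 5) (nat_lit 5) (nat_lit 4) (nat_lit 421) (nat_lit 312) (nat_lit 167)) (XT.lf (nat_lit 0) (nat_lit 239828166234) (nat_lit 76) (nat_lit 110362416723) (nat_lit 76) (nat_lit 71108015189) (nat_lit 4) (nat_lit 4) (nat_lit 5) (nat_lit 5)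 (nat_lit 5) (nat_lit 4) (nat_lit 422) (nat_lit 312) (nat_lit 166))) (XT.nd (nat_lit 78) (nat_lit 0) (nat_lit 0) (XT.lf (nat_lit 0) (nat_lit 283298965126) (nat_lit 76) (nat_lit 98750522494) (nat_lit 76) (nat_lit 59494613030) (nat_lit 4) (nat_lit 4) (nat_lit 5) (nat_lit 5) (nat_lit 5) (nat_lit 4) (nat_lit 423) (nat_lit 312) (nat_lit 165)) (XT.nd (nat_lit 78) (nat_lit 0) (nat_lit 0) (XT.lf (nat_lit 0) (nat_lit 328940948637) (nat_lit 76) (nat_lit 86559168272) (nat_lit 76) (nat_lit 47301822682) (nat_lit 4) (nat_lit 4) (nat_lit 5) (nat_lit 5) (nat_lit 5) (nat_lit 4) (nat_lit 424) (nat_lit 312) (nat_lit 164)) (XT.lf (nat_lit 0) (nat_lit 376862788156) (nat_lit 76) (nat_lit 73759327020) (nat_lit 76) (nat_lit 34500613692) (nat_lit 4) (nat_lit 4) (nat_lit 5) (nat_lit 5) (nat_lit 5) (nat_lit 4) (nat_lit 425) (nat_lit 312) (nat_lit 163))))) (XT.nd (nat_lit 234) (nat_lit 76) (nat_lit 0) (XT.nd (nat_lit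 78) (nat_lit 76) (nat_lit 0) (XT.lf (nat_lit 0) (nat_lit 427178583300) (nat_lit 76) (nat_lit 60320522928) (nat_lit 76) (nat_lit 21060506992) (nat_lit 4) (nat_lit 4) (nat_lit 5) (nat_lit 5) (nat_lit 5) (nat_lit 4) (nat_lit 426) (nat_lit 312) (nat_lit 162)) (XT.nd (nat_lit 78) (nat_lit 76) (nat_lit 0) (XT.lf (nat_lit 0) (nat_lit 480008133583) (nat_lit 76) (nat_lit 46210758842) (nat_lit 76) (nat_lit 6949502327) (nat_lit 4) (nat_lit 4) (nat_lit 5) (nat_lit 5) (nat_lit 5) (nat_lit 4) (nat_lit 427) (nat_lit 312) (nat_lit 161)) (XT.lf (nat_lit 0) (nat_lit 7614236874) (nat_lit 152) (nat_lit 23653252426) (nat_lit 76) (nat_lit 527734035988) (nat_lit 3) (nat_lit 5) (nat_lit 5) (nat_lit 5) (nat_lit 4) (nat_lit 4) (nat_lit 428) (nat_lit 312) (nat_lit 160)))) (XT.nd (nat_lit 78) (nat_lit 0) (nat_lit 0) (XT.lf (nat_lit 0) (nat_lit 7451807032) (nat_lit 76) (nat_lit 15336178476) (nat_lit 152) (nat_lit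 563326862172) (nat_lit 2) (nat_lit 5) (nat_lit 3) (nat_lit 5) (nat_lit 4) (nat_lit 4) (nat_lit 429) (nat_lit 312) (nat_lit 159)) (XT.nd (nat_lit 78) (nat_lit 0) (nat_lit 0) (XT.lf (nat_lit 0) (nat_lit 39148327273) (nat_lit 152) (nat_lit 573660676959) (nat_lit 0) (nat_lit 1753436874) (nat_lit 2) (nat_lit 5) (nat_lit 4) (nat_lit 4) (nat_lit 2) (nat_lit 4) (nat_lit 430) (nat_lit 312) (nat_lit 158)) (XT.lf (nat_lit 0) (nat_lit 56577176265) (nat_lit 152) (nat_lit 568661399781) (nat_lit 0) (nat_lit 19181313840) (nat_lit 2) (nat_lit 5) (nat_lit 4) (nat_lit 4) (nat_lit 2) (nat_lit 4) (nat_lit 431) (nat_lit 312) (nat_lit 157))))))) (XT.nd (nat_lit 38376) (nat_lit 0) (nat_lit 5016) (XT.nd (nat_lit 37908) (nat_lit 0) (nat_lit 7600) (XT.nd (nat_lit 37674) (nat_lit 0) (nat_lit 8132) (XT.nd (nat_lit 37596) (nat_lit 0) (nat_lit 8132) (XT.lf (nat_lit 0) (nat_lit 74876589018) (nat_lit 152) (nat_lit 563413865348)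 (nat_lit 0) (nat_lit 37479800853) (nat_lit 2) (nat_lit 5) (nat_lit 4) (nat_lit 4) (nat_lit 2) (nat_lit 4) (nat_lit 432) (nat_lit 312) (nat_lit 156)) (XT.lf (nat_lit 0) (nat_lit 763601741) (nat_lit 684) (nat_lit 1724427950) (nat_lit 684) (nat_lit 1724427950) (nat_lit 109) (nat_lit 3) (nat_lit 118) (nat_lit 3) (nat_lit 118) (nat_lit 5) (nat_lit 313) (nat_lit 313) (nat_lit 274))) (XT.nd (nat_lit 78) (nat_lit 0) (nat_lit 76) (XT.lf (nat_lit 76) (nat_lit 502867601) (nat_lit 0) (nat_lit 2077602244) (nat_lit 684) (nat_lit 6002630840) (nat_lit 110) (nat_lit 5) (nat_lit 109) (nat_lit 3) (nat_lit 118) (nat_lit 5) (nat_lit 314) (nat_lit 313) (nat_lit 273)) (XT.nd (nat_lit 78) (nat_lit 0) (nat_lit 0) (XT.lf (nat_lit 0) (nat_lit 3696289469) (nat_lit 608) (nat_lit 4029248992) (nat_lit 684) (nat_lit 1023270142) (nat_lit 110) (nat_lit 5) (nat_lit 118) (nat_lit 5) (nat_lit 119) (nat_lit 5) (nat_lit 315)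 (nat_lit 313) (nat_lit 272)) (XT.lf (nat_lit 76) (nat_lit 158289801) (nat_lit 0) (nat_lit 4684660570) (nat_lit 684) (nat_lit 4081201644) (nat_lit 111) (nat_lit 5) (nat_lit 110) (nat_lit 5) (nat_lit 119) (nat_lit 5) (nat_lit 316) (nat_lit 313) (nat_lit 271))))) (XT.nd (nat_lit 234) (nat_lit 608) (nat_lit 0) (XT.nd (nat_lit 78) (nat_lit 0) (nat_lit 76) (XT.lf (nat_lit 76) (nat_lit 4658687049) (nat_lit 0) (nat_lit 1397373689) (nat_lit 684) (nat_lit 3051843765) (nat_lit 111) (nat_lit 5) (nat_lit 110) (nat_lit 5) (nat_lit 119) (nat_lit 5) (nat_lit 317) (nat_lit 313) (nat_lit 270)) (XT.nd (nat_lit 78) (nat_lit 0) (nat_lit 0) (XT.lf (nat_lit 76) (nat_lit 13707780) (nat_lit 0) (nat_lit 7292438077) (nat_lit 684) (nat_lit 1995975869) (nat_lit 112) (nat_lit 5) (nat_lit 111) (nat_lit 5) (nat_lit 120) (nat_lit 5) (nat_lit 318) (nat_lit 313) (nat_lit 269)) (XT.lf (nat_lit 76) (nat_lit 4793274966) (nat_lit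 0) (nat_lit 3869463076) (nat_lit 684) (nat_lit 841200270) (nat_lit 112) (nat_lit 5) (nat_lit 111) (nat_lit 5) (nat_lit 120) (nat_lit 5) (nat_lit 319) (nat_lit 313) (nat_lit 268)))) (XT.nd (nat_lit 78) (nat_lit 0) (nat_lit 76) (XT.lf (nat_lit 76) (nat_lit 54587481) (nat_lit 0) (nat_lit 253452334) (nat_lit 760) (nat_lit 9410165945) (nat_lit 103) (nat_lit 5) (nat_lit 102) (nat_lit 5) (nat_lit 112) (nat_lit 5) (nat_lit 320) (nat_lit 313) (nat_lit 267)) (XT.nd (nat_lit 78) (nat_lit 0) (nat_lit 0) (XT.lf (nat_lit 0) (nat_lit 1572763242) (nat_lit 684) (nat_lit 4827513195) (nat_lit 760) (nat_lit 3537982647) (nat_lit 103) (nat_lit 5) (nat_lit 112) (nat_lit 5) (nat_lit 113) (nat_lit 5) (nat_lit 321) (nat_lit 313) (nat_lit 266)) (XT.lf (nat_lit 76) (nat_lit 215481638) (nat_lit 0) (nat_lit 2645031123) (nat_lit 760) (nat_lit 7310885744) (nat_lit 104) (nat_lit 5) (nat_lit 103) (nat_lit 5) (nat_lit 113)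 (nat_lit 5) (nat_lit 322) (nat_lit 313) (nat_lit 265)))))) (XT.nd (nat_lit 468) (nat_lit 912) (nat_lit 0) (XT.nd (nat_lit 234) (nat_lit 1140) (nat_lit 0) (XT.nd (nat_lit 78) (nat_lit 684) (nat_lit 0) (XT.lf (nat_lit 0) (nat_lit 4270116690) (nat_lit 684) (nat_lit 4795047238) (nat_lit 76) (nat_lit 1348227074) (nat_lit 104) (nat_lit 5) (nat_lit 113) (nat_lit 5) (nat_lit 105) (nat_lit 5) (nat_lit 323) (nat_lit 313) (nat_lit 264)) (XT.nd (nat_lit 78) (nat_lit 0) (nat_lit 0) (XT.lf (nat_lit 0) (nat_lit 560775489) (nat_lit 684) (nat_lit 5197832573) (nat_lit 760) (nat_lit 4908520845) (nat_lit 95) (nat_lit 5) (nat_lit 104) (nat_lit 5) (nat_lit 105) (nat_lit 5) (nat_lit 324) (nat_lit 313) (nat_lit 263)) (XT.lf (nat_lit 0) (nat_lit 6313792736) (nat_lit 684) (nat_lit 1046731144) (nat_lit 760) (nat_lit 3571142829) (nat_lit 95) (nat_lit 5) (nat_lit 104) (nat_lit 5) (nat_lit 105) (nat_lit 5) (nat_lit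 325) (nat_lit 313) (nat_lit 262)))) (XT.nd (nat_lit 78) (nat_lit 456) (nat_lit 0) (XT.lf (nat_lit 0) (nat_lit 1090782029) (nat_lit 684) (nat_lit 7980371708) (nat_lit 760) (nat_lit 2136906747) (nat_lit 86) (nat_lit 5) (nat_lit 95) (nat_lit 5) (nat_lit 96) (nat_lit 5) (nat_lit 326) (nat_lit 313) (nat_lit 261)) (XT.nd (nat_lit 78) (nat_lit 456) (nat_lit 0) (XT.lf (nat_lit 0) (nat_lit 7190619324) (nat_lit 684) (nat_lit 3732999313) (nat_lit 760) (nat_lit 571897273) (nat_lit 86) (nat_lit 5) (nat_lit 95) (nat_lit 5) (nat_lit 96) (nat_lit 5) (nat_lit 327) (nat_lit 313) (nat_lit 260)) (XT.lf (nat_lit 0) (nat_lit 1039721895) (nat_lit 456) (nat_lit 10006445552) (nat_lit 76) (nat_lit 750259661) (nat_lit 80) (nat_lit 5) (nat_lit 86) (nat_lit 5) (nat_lit 81) (nat_lit 5) (nat_lit 328) (nat_lit 313) (nat_lit 259))))) (XT.nd (nat_lit 234) (nat_lit 608) (nat_lit 0) (XT.nd (nat_lit 78) (nat_lit 304) (nat_lit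 0) (XT.lf (nat_lit 0) (nat_lit 2811643647) (nat_lit 456) (nat_lit 3879122582) (nat_lit 76) (nat_lit 5416251171) (nat_lit 80) (nat_lit 5) (nat_lit 86) (nat_lit 5) (nat_lit 81) (nat_lit 5) (nat_lit 329) (nat_lit 313) (nat_lit 258)) (XT.nd (nat_lit 78) (nat_lit 0) (nat_lit 0) (XT.lf (nat_lit 0) (nat_lit 2601963090) (nat_lit 304) (nat_lit 2076197317) (nat_lit 380) (nat_lit 7754723863) (nat_lit 76) (nat_lit 5) (nat_lit 80) (nat_lit 5) (nat_lit 81) (nat_lit 5) (nat_lit 330) (nat_lit 313) (nat_lit 257)) (XT.lf (nat_lit 0) (nat_lit 6714453072) (nat_lit 380) (nat_lit 3311289863) (nat_lit 76) (nat_lit 2745523815) (nat_lit 76) (nat_lit 5) (nat_lit 81) (nat_lit 5) (nat_lit 77) (nat_lit 5) (nat_lit 331) (nat_lit 313) (nat_lit 256)))) (XT.nd (nat_lit 78) (nat_lit 304) (nat_lit 0) (XT.lf (nat_lit 0) (nat_lit 3579621854) (nat_lit 304) (nat_lit 5330905200) (nat_lit 380) (nat_lit 4213185603) (nat_lit 72)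 (nat_lit 5) (nat_lit 76) (nat_lit 5) (nat_lit 77) (nat_lit 5) (nat_lit 332) (nat_lit 313) (nat_lit 255)) (XT.nd (nat_lit 78) (nat_lit 304) (nat_lit 0) (XT.lf (nat_lit 0) (nat_lit 10895372579) (nat_lit 304) (nat_lit 346133710) (nat_lit 380) (nat_lit 2251060099) (nat_lit 72) (nat_lit 5) (nat_lit 76) (nat_lit 5) (nat_lit 77) (nat_lit 5) (nat_lit 333) (nat_lit 313) (nat_lit 254)) (XT.lf (nat_lit 0) (nat_lit 4737901877) (nat_lit 304) (nat_lit 9071861453) (nat_lit 380) (nat_lit 64101709) (nat_lit 68) (nat_lit 5) (nat_lit 72) (nat_lit 5) (nat_lit 73) (nat_lit 5) (nat_lit 334) (nat_lit 313) (nat_lit 253))))))))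
noncomputable def xc137 : XT := (XT.nd (nat_lit 1794) (nat_lit 1216) (nat_lit 0) (XT.nd (nat_lit 858) (nat_lit 1216) (nat_lit 0) (XT.nd (nat_lit 390) (nat_lit 684) (nat_lit 0) (XT.nd (nat_lit 156) (nat_lit 532) (nat_lit 0) (XT.nd (nat_lit 78) (nat_lit 304) (nat_lit 0) (XT.lf (nat_lit 0) (nat_lit 2181955784) (nat_lit 380) (nat_lit 1818273839) (nat_lit 76) (nat_lit 10271231745) (nat_lit 67) (nat_lit 5) (nat_lit 72) (nat_lit 5) (nat_lit 68) (nat_lit 5) (nat_lit 335) (nat_lit 313) (nat_lit 252)) (XT.lf (nat_lit 0) (nat_lit 4626575918) (nat_lit 380) (nat_lit 8683974422) (nat_lit 76) (nat_lit 1373947339) (nat_lit 63) (nat_lit 5) (nat_lit 68) (nat_lit 5) (nat_lit 64) (nat_lit 5) (nat_lit 336) (nat_lit 313) (nat_lit 251))) (XT.nd (nat_lit 78) (nat_lit 532) (nat_lit 0) (XT.lf (nat_lit 0) (nat_lit 7263231162) (nat_lit 380) (nat_lit 943353186) (nat_lit 76) (nat_lit 6908143071) (nat_lit 63) (nat_lit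 5) (nat_lit 68) (nat_lit 5) (nat_lit 64) (nat_lit 5) (nat_lit 337) (nat_lit 313) (nat_lit 250)) (XT.nd (nat_lit 78) (nat_lit 304) (nat_lit 0) (XT.lf (nat_lit 0) (nat_lit 7388381780) (nat_lit 228) (nat_lit 2732908269) (nat_lit 304) (nat_lit 5440730353) (nat_lit 60) (nat_lit 5) (nat_lit 63) (nat_lit 5) (nat_lit 64) (nat_lit 5) (nat_lit 338) (nat_lit 313) (nat_lit 249)) (XT.lf (nat_lit 0) (nat_lit 60129656) (nat_lit 304) (nat_lit 13101204373) (nat_lit 380) (nat_lit 2868418756) (nat_lit 56) (nat_lit 5) (nat_lit 60) (nat_lit 5) (nat_lit 61) (nat_lit 5) (nat_lit 339) (nat_lit 313) (nat_lit 248))))) (XT.nd (nat_lit 234) (nat_lit 380) (nat_lit 0) (XT.nd (nat_lit 78) (nat_lit 304) (nat_lit 0) (XT.lf (nat_lit 0) (nat_lit 8910562187) (nat_lit 304) (nat_lit 7600853426) (nat_lit 380) (nat_lit 1581889) (nat_lit 56) (nat_lit 5) (nat_lit 60) (nat_lit 5) (nat_lit 61) (nat_lit 5) (nat_lit 340) (nat_lit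 313) (nat_lit 247)) (XT.nd (nat_lit 78) (nat_lit 0) (nat_lit 0) (XT.lf (nat_lit 0) (nat_lit 1140882566) (nat_lit 228) (nat_lit 1765522255) (nat_lit 304) (nat_lit 14111970838) (nat_lit 52) (nat_lit 5) (nat_lit 55) (nat_lit 5) (nat_lit 56) (nat_lit 5) (nat_lit 341) (nat_lit 313) (nat_lit 246)) (XT.lf (nat_lit 0) (nat_lit 6135498378) (nat_lit 304) (nat_lit 7059821422) (nat_lit 76) (nat_lit 4344937336) (nat_lit 52) (nat_lit 5) (nat_lit 56) (nat_lit 5) (nat_lit 53) (nat_lit 5) (nat_lit 342) (nat_lit 313) (nat_lit 245)))) (XT.nd (nat_lit 78) (nat_lit 152) (nat_lit 0) (XT.lf (nat_lit 0) (nat_lit 2209746088) (nat_lit 228) (nat_lit 7357651139) (nat_lit 304) (nat_lit 8518790541) (nat_lit 49) (nat_lit 5) (nat_lit 52) (nat_lit 5) (nat_lit 53) (nat_lit 5) (nat_lit 343) (nat_lit 313) (nat_lit 244)) (XT.nd (nat_lit 78) (nat_lit 152) (nat_lit 0) (XT.lf (nat_lit 0) (nat_lit 12157618900) (nat_lit 228) (nat_lit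 1111320280) (nat_lit 304) (nat_lit 5385594879) (nat_lit 49) (nat_lit 5) (nat_lit 52) (nat_lit 5) (nat_lit 53) (nat_lit 5) (nat_lit 344) (nat_lit 313) (nat_lit 243)) (XT.lf (nat_lit 0) (nat_lit 3343815424) (nat_lit 152) (nat_lit 13928378023) (nat_lit 228) (nat_lit 1973292965) (nat_lit 47) (nat_lit 5) (nat_lit 49) (nat_lit 5) (nat_lit 50) (nat_lit 5) (nat_lit 345) (nat_lit 313) (nat_lit 242)))))) (XT.nd (nat_lit 468) (nat_lit 532) (nat_lit 0) (XT.nd (nat_lit 234) (nat_lit 380) (nat_lit 0) (XT.nd (nat_lit 78) (nat_lit 228) (nat_lit 0) (XT.lf (nat_lit 0) (nat_lit 1667713975) (nat_lit 228) (nat_lit 6033458982) (nat_lit 76) (nat_lit 12158095095) (nat_lit 46) (nat_lit 5) (nat_lit 49) (nat_lit 5) (nat_lit 47) (nat_lit 5) (nat_lit 346) (nat_lit 313) (nat_lit 241)) (XT.nd (nat_lit 78) (nat_lit 0) (nat_lit 0) (XT.lf (nat_lit 0) (nat_lit 4408374918) (nat_lit 228) (nat_lit 1065438745) (nat_lit 304)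 (nat_lit 15025857474) (nat_lit 43) (nat_lit 5) (nat_lit 46) (nat_lit 5) (nat_lit 47) (nat_lit 5) (nat_lit 347) (nat_lit 313) (nat_lit 240)) (XT.lf (nat_lit 0) (nat_lit 9647098679) (nat_lit 304) (nat_lit 5707938755) (nat_lit 76) (nat_lit 5808229800) (nat_lit 43) (nat_lit 5) (nat_lit 47) (nat_lit 5) (nat_lit 44) (nat_lit 5) (nat_lit 348) (nat_lit 313) (nat_lit 239)))) (XT.nd (nat_lit 78) (nat_lit 228) (nat_lit 0) (XT.lf (nat_lit 0) (nat_lit 5319866641) (nat_lit 152) (nat_lit 8791493804) (nat_lit 228) (nat_lit 7744583135) (nat_lit 41) (nat_lit 5) (nat_lit 43) (nat_lit 5) (nat_lit 44) (nat_lit 5) (nat_lit 349) (nat_lit 313) (nat_lit 238)) (XT.nd (nat_lit 78) (nat_lit 228) (nat_lit 0) (XT.lf (nat_lit 0) (nat_lit 17070150278) (nat_lit 152) (nat_lit 1807584439) (nat_lit 228) (nat_lit 3701589359) (nat_lit 41) (nat_lit 5) (nat_lit 43) (nat_lit 5) (nat_lit 44) (nat_lit 5) (nat_lit 350) (nat_lit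 313) (nat_lit 237)) (XT.lf (nat_lit 0) (nat_lit 694130791) (nat_lit 228) (nat_lit 17188583775) (nat_lit 76) (nat_lit 5447349902) (nat_lit 38) (nat_lit 5) (nat_lit 41) (nat_lit 5) (nat_lit 39) (nat_lit 5) (nat_lit 351) (nat_lit 313) (nat_lit 236))))) (XT.nd (nat_lit 234) (nat_lit 380) (nat_lit 0) (XT.nd (nat_lit 78) (nat_lit 152) (nat_lit 0) (XT.lf (nat_lit 0) (nat_lit 5292760827) (nat_lit 228) (nat_lit 5666243963) (nat_lit 76) (nat_lit 13150940144) (nat_lit 38) (nat_lit 5) (nat_lit 41) (nat_lit 5) (nat_lit 39) (nat_lit 5) (nat_lit 352) (nat_lit 313) (nat_lit 235)) (XT.nd (nat_lit 78) (nat_lit 0) (nat_lit 0) (XT.lf (nat_lit 0) (nat_lit 6618663547) (nat_lit 152) (nat_lit 3589860398) (nat_lit 228) (nat_lit 14715947990) (nat_lit 36) (nat_lit 5) (nat_lit 38) (nat_lit 5) (nat_lit 39) (nat_lit 5) (nat_lit 353) (nat_lit 313) (nat_lit 234)) (XT.lf (nat_lit 0) (nat_lit 15516466817) (nat_lit 228)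 (nat_lit 6152356797) (nat_lit 76) (nat_lit 4103594083) (nat_lit 36) (nat_lit 5) (nat_lit 39) (nat_lit 5) (nat_lit 37) (nat_lit 5) (nat_lit 354) (nat_lit 313) (nat_lit 233)))) (XT.nd (nat_lit 78) (nat_lit 228) (nat_lit 0) (XT.lf (nat_lit 0) (nat_lit 6741266318) (nat_lit 152) (nat_lit 14497497911) (nat_lit 228) (nat_lit 5416560069) (nat_lit 34) (nat_lit 5) (nat_lit 36) (nat_lit 5) (nat_lit 37) (nat_lit 5) (nat_lit 355) (nat_lit 313) (nat_lit 232)) (XT.nd (nat_lit 78) (nat_lit 228) (nat_lit 0) (XT.lf (nat_lit 0) (nat_lit 20469146786) (nat_lit 152) (nat_lit 6867426105) (nat_lit 228) (nat_lit 241344396) (nat_lit 34) (nat_lit 5) (nat_lit 36) (nat_lit 5) (nat_lit 37) (nat_lit 5) (nat_lit 356) (nat_lit 313) (nat_lit 231)) (XT.lf (nat_lit 0) (nat_lit 5133323367) (nat_lit 228) (nat_lit 22120566449) (nat_lit 76) (nat_lit 1283361999) (nat_lit 31) (nat_lit 5) (nat_lit 34) (nat_lit 5) (nat_lit 32) (nat_lit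 5) (nat_lit 357) (nat_lit 313) (nat_lit 230))))))) (XT.nd (nat_lit 858) (nat_lit 456) (nat_lit 0) (XT.nd (nat_lit 390) (nat_lit 456) (nat_lit 0) (XT.nd (nat_lit 156) (nat_lit 152) (nat_lit 0) (XT.nd (nat_lit 78) (nat_lit 152) (nat_lit 0) (XT.lf (nat_lit 0) (nat_lit 10989409008) (nat_lit 228) (nat_lit 8815382622) (nat_lit 76) (nat_lit 9728533251) (nat_lit 31) (nat_lit 5) (nat_lit 34) (nat_lit 5) (nat_lit 32) (nat_lit 5) (nat_lit 358) (nat_lit 313) (nat_lit 229)) (XT.lf (nat_lit 0) (nat_lit 5302337128) (nat_lit 152) (nat_lit 11905270340) (nat_lit 228) (nat_lit 13368137653) (nat_lit 29) (nat_lit 5) (nat_lit 31) (nat_lit 5) (nat_lit 32) (nat_lit 5) (nat_lit 359) (nat_lit 313) (nat_lit 228))) (XT.nd (nat_lit 78) (nat_lit 152) (nat_lit 0) (XT.lf (nat_lit 0) (nat_lit 20409923669) (nat_lit 152) (nat_lit 3462906287) (nat_lit 228) (nat_lit 7790659234) (nat_lit 29) (nat_lit 5) (nat_lit 31) (nat_lit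 5) (nat_lit 32) (nat_lit 5) (nat_lit 360) (nat_lit 313) (nat_lit 227)) (XT.nd (nat_lit 78) (nat_lit 76) (nat_lit 0) (XT.lf (nat_lit 0) (nat_lit 3472556915) (nat_lit 76) (nat_lit 27524623429) (nat_lit 152) (nat_lit 1802154896) (nat_lit 28) (nat_lit 5) (nat_lit 29) (nat_lit 5) (nat_lit 30) (nat_lit 4) (nat_lit 361) (nat_lit 313) (nat_lit 226)) (XT.lf (nat_lit 0) (nat_lit 4580058862) (nat_lit 152) (nat_lit 14808288775) (nat_lit 76) (nat_lit 14588238691) (nat_lit 27) (nat_lit 5) (nat_lit 29) (nat_lit 5) (nat_lit 28) (nat_lit 5) (nat_lit 362) (nat_lit 313) (nat_lit 225))))) (XT.nd (nat_lit 234) (nat_lit 304) (nat_lit 0) (XT.nd (nat_lit 78) (nat_lit 0) (nat_lit 0) (XT.lf (nat_lit 0) (nat_lit 398774072) (nat_lit 152) (nat_lit 10816251125) (nat_lit 228) (nat_lit 23996494304) (nat_lit 25) (nat_lit 5) (nat_lit 27) (nat_lit 5) (nat_lit 28) (nat_lit 5) (nat_lit 363) (nat_lit 313) (nat_lit 224)) (XT.nd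 (nat_lit 78) (nat_lit 0) (nat_lit 0) (XT.lf (nat_lit 0) (nat_lit 16860061282) (nat_lit 152) (nat_lit 1560700617) (nat_lit 228) (nat_lit 18075493006) (nat_lit 25) (nat_lit 5) (nat_lit 27) (nat_lit 5) (nat_lit 28) (nat_lit 5) (nat_lit 364) (nat_lit 313) (nat_lit 223)) (XT.lf (nat_lit 0) (nat_lit 26102819517) (nat_lit 228) (nat_lit 3847893513) (nat_lit 76) (nat_lit 7888718706) (nat_lit 25) (nat_lit 5) (nat_lit 28) (nat_lit 5) (nat_lit 26) (nat_lit 4) (nat_lit 365) (nat_lit 313) (nat_lit 222)))) (XT.nd (nat_lit 78) (nat_lit 228) (nat_lit 0) (XT.lf (nat_lit 0) (nat_lit 13104897913) (nat_lit 76) (nat_lit 21283481688) (nat_lit 152) (nat_lit 4850423886) (nat_lit 24) (nat_lit 5) (nat_lit 25) (nat_lit 5) (nat_lit 26) (nat_lit 4) (nat_lit 366) (nat_lit 313) (nat_lit 221)) (XT.nd (nat_lit 78) (nat_lit 152) (nat_lit 0) (XT.lf (nat_lit 0) (nat_lit 2359387613) (nat_lit 152) (nat_lit 9723029226) (nat_lit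 76) (nat_lit 28621099948) (nat_lit 23) (nat_lit 5) (nat_lit 25) (nat_lit 5) (nat_lit 24) (nat_lit 5) (nat_lit 367) (nat_lit 313) (nat_lit 220)) (XT.lf (nat_lit 0) (nat_lit 7655976897) (nat_lit 152) (nat_lit 2220006325) (nat_lit 228) (nat_lit 32356047026) (nat_lit 21) (nat_lit 5) (nat_lit 23) (nat_lit 5) (nat_lit 24) (nat_lit 5) (nat_lit 368) (nat_lit 313) (nat_lit 219)))))) (XT.nd (nat_lit 468) (nat_lit 228) (nat_lit 0) (XT.nd (nat_lit 234) (nat_lit 152) (nat_lit 0) (XT.nd (nat_lit 78) (nat_lit 76) (nat_lit 0) (XT.lf (nat_lit 0) (nat_lit 18052651472) (nat_lit 228) (nat_lit 17734994505) (nat_lit 76) (nat_lit 8035116246) (nat_lit 21) (nat_lit 5) (nat_lit 24) (nat_lit 5) (nat_lit 22) (nat_lit 4) (nat_lit 369) (nat_lit 313) (nat_lit 218)) (XT.nd (nat_lit 78) (nat_lit 76) (nat_lit 0) (XT.lf (nat_lit 0) (nat_lit 26664890395) (nat_lit 228) (nat_lit 105452951) (nat_lit 76) (nat_lit 18721355332)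 (nat_lit 21) (nat_lit 5) (nat_lit 24) (nat_lit 5) (nat_lit 22) (nat_lit 4) (nat_lit 370) (nat_lit 313) (nat_lit 217)) (XT.lf (nat_lit 0) (nat_lit 18997237156) (nat_lit 76) (nat_lit 16997907757) (nat_lit 152) (nat_lit 11234571380) (nat_lit 20) (nat_lit 5) (nat_lit 21) (nat_lit 5) (nat_lit 22) (nat_lit 4) (nat_lit 371) (nat_lit 313) (nat_lit 216)))) (XT.nd (nat_lit 78) (nat_lit 152) (nat_lit 0) (XT.lf (nat_lit 0) (nat_lit 39042627956) (nat_lit 76) (nat_lit 6742060276) (nat_lit 152) (nat_lit 3270312057) (nat_lit 20) (nat_lit 5) (nat_lit 21) (nat_lit 5) (nat_lit 22) (nat_lit 4) (nat_lit 372) (nat_lit 313) (nat_lit 215)) (XT.nd (nat_lit 78) (nat_lit 0) (nat_lit 0) (XT.lf (nat_lit 0) (nat_lit 5132443876) (nat_lit 152) (nat_lit 41705206671) (nat_lit 76) (nat_lit 4119763468) (nat_lit 18) (nat_lit 5) (nat_lit 20) (nat_lit 5) (nat_lit 19) (nat_lit 4) (nat_lit 373) (nat_lit 313) (nat_lit 214)) (XT.lf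 (nat_lit 0) (nat_lit 14119647029) (nat_lit 152) (nat_lit 23301457920) (nat_lit 76) (nat_lit 15517455946) (nat_lit 18) (nat_lit 5) (nat_lit 20) (nat_lit 5) (nat_lit 19) (nat_lit 4) (nat_lit 374) (nat_lit 313) (nat_lit 213))))) (XT.nd (nat_lit 234) (nat_lit 152) (nat_lit 0) (XT.nd (nat_lit 78) (nat_lit 76) (nat_lit 0) (XT.lf (nat_lit 0) (nat_lit 23547966207) (nat_lit 152) (nat_lit 3992468094) (nat_lit 76) (nat_lit 27478746566) (nat_lit 18) (nat_lit 5) (nat_lit 20) (nat_lit 5) (nat_lit 19) (nat_lit 4) (nat_lit 375) (nat_lit 313) (nat_lit 212)) (XT.nd (nat_lit 78) (nat_lit 0) (nat_lit 0) (XT.lf (nat_lit 0) (nat_lit 16805621429) (nat_lit 76) (nat_lit 16896611207) (nat_lit 152) (nat_lit 23488876010) (nat_lit 17) (nat_lit 5) (nat_lit 18) (nat_lit 5) (nat_lit 19) (nat_lit 4) (nat_lit 376) (nat_lit 313) (nat_lit 211)) (XT.lf (nat_lit 0) (nat_lit 38768219867) (nat_lit 76) (nat_lit 5655910570) (nat_lit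 152) (nat_lit 15044509687) (nat_lit 17) (nat_lit 5) (nat_lit 18) (nat_lit 5) (nat_lit 19) (nat_lit 4) (nat_lit 377) (nat_lit 313) (nat_lit 210)))) (XT.nd (nat_lit 78) (nat_lit 152) (nat_lit 0) (XT.lf (nat_lit 0) (nat_lit 55770668649) (nat_lit 152) (nat_lit 140682993) (nat_lit 0) (nat_lit 5944272315) (nat_lit 17) (nat_lit 5) (nat_lit 19) (nat_lit 4) (nat_lit 17) (nat_lit 4) (nat_lit 378) (nat_lit 313) (nat_lit 209)) (XT.nd (nat_lit 78) (nat_lit 0) (nat_lit 0) (XT.lf (nat_lit 0) (nat_lit 3653142854) (nat_lit 152) (nat_lit 42352391008) (nat_lit 76) (nat_lit 18331986693) (nat_lit 15) (nat_lit 5) (nat_lit 17) (nat_lit 5) (nat_lit 16) (nat_lit 4) (nat_lit 379) (nat_lit 313) (nat_lit 208)) (XT.lf (nat_lit 0) (nat_lit 13669024153) (nat_lit 152) (nat_lit 21834060559) (nat_lit 76) (nat_lit 31435673615) (nat_lit 15) (nat_lit 5) (nat_lit 17) (nat_lit 5) (nat_lit 16) (nat_lit 4) (nat_lit 380) (nat_lit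 313) (nat_lit 207))))))))
noncomputable def xc138 : XT := (XT.nd (nat_lit 1794) (nat_lit 228) (nat_lit 0) (XT.nd (nat_lit 858) (nat_lit 304) (nat_lit 0) (XT.nd (nat_lit 390) (nat_lit 152) (nat_lit 0) (XT.nd (nat_lit 156) (nat_lit 76) (nat_lit 0) (XT.nd (nat_lit 78) (nat_lit 76) (nat_lit 0) (XT.lf (nat_lit 0) (nat_lit 24178986219) (nat_lit 152) (nat_lit 302187101) (nat_lit 76) (nat_lit 45189222850) (nat_lit 15) (nat_lit 5) (nat_lit 17) (nat_lit 5) (nat_lit 16) (nat_lit 4) (nat_lit 381) (nat_lit 313) (nat_lit 206)) (XT.lf (nat_lit 0) (nat_lit 23031652445) (nat_lit 76) (nat_lit 12535988965) (nat_lit 152) (nat_lit 36953317139) (nat_lit 14) (nat_lit 5) (nat_lit 15) (nat_lit 5) (nat_lit 16) (nat_lit 4) (nat_lit 382) (nat_lit 313) (nat_lit 205))) (XT.nd (nat_lit 78) (nat_lit 76) (nat_lit 0) (XT.lf (nat_lit 0) (nat_lit 47524678416) (nat_lit 152) (nat_lit 27983129510) (nat_lit 0) (nat_lit 6295952)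 (nat_lit 14) (nat_lit 5) (nat_lit 16) (nat_lit 4) (nat_lit 14) (nat_lit 4) (nat_lit 383) (nat_lit 313) (nat_lit 204)) (XT.nd (nat_lit 78) (nat_lit 76) (nat_lit 0) (XT.lf (nat_lit 0) (nat_lit 60279024523) (nat_lit 152) (nat_lit 5618415812) (nat_lit 0) (nat_lit 12749495449) (nat_lit 14) (nat_lit 5) (nat_lit 16) (nat_lit 4) (nat_lit 14) (nat_lit 4) (nat_lit 384) (nat_lit 313) (nat_lit 203)) (XT.lf (nat_lit 0) (nat_lit 18444133688) (nat_lit 76) (nat_lit 55509156232) (nat_lit 76) (nat_lit 7969011337) (nat_lit 13) (nat_lit 4) (nat_lit 14) (nat_lit 5) (nat_lit 14) (nat_lit 4) (nat_lit 385) (nat_lit 313) (nat_lit 202))))) (XT.nd (nat_lit 234) (nat_lit 0) (nat_lit 0) (XT.nd (nat_lit 78) (nat_lit 76) (nat_lit 0) (XT.lf (nat_lit 0) (nat_lit 2946383338) (nat_lit 152) (nat_lit 41510169356) (nat_lit 76) (nat_lit 40898033287) (nat_lit 12) (nat_lit 5) (nat_lit 14) (nat_lit 5) (nat_lit 13) (nat_lit 4)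 (nat_lit 386) (nat_lit 313) (nat_lit 201)) (XT.nd (nat_lit 78) (nat_lit 76) (nat_lit 0) (XT.lf (nat_lit 0) (nat_lit 14134262821) (nat_lit 152) (nat_lit 18584645278) (nat_lit 76) (nat_lit 56233320348) (nat_lit 12) (nat_lit 5) (nat_lit 14) (nat_lit 5) (nat_lit 13) (nat_lit 4) (nat_lit 387) (nat_lit 313) (nat_lit 200)) (XT.lf (nat_lit 0) (nat_lit 5658515685) (nat_lit 76) (nat_lit 20306152652) (nat_lit 152) (nat_lit 66760929800) (nat_lit 11) (nat_lit 5) (nat_lit 12) (nat_lit 5) (nat_lit 13) (nat_lit 4) (nat_lit 388) (nat_lit 313) (nat_lit 199)))) (XT.nd (nat_lit 78) (nat_lit 0) (nat_lit 0) (XT.lf (nat_lit 0) (nat_lit 31749461670) (nat_lit 76) (nat_lit 6946757714) (nat_lit 152) (nat_lit 57975937286) (nat_lit 11) (nat_lit 5) (nat_lit 12) (nat_lit 5) (nat_lit 13) (nat_lit 4) (nat_lit 389) (nat_lit 313) (nat_lit 198)) (XT.nd (nat_lit 78) (nat_lit 0) (nat_lit 0) (XT.lf (nat_lit 0) (nat_lit 52169958411)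 (nat_lit 152) (nat_lit 41790948136) (nat_lit 0) (nat_lit 6849857608) (nat_lit 11) (nat_lit 5) (nat_lit 13) (nat_lit 4) (nat_lit 11) (nat_lit 4) (nat_lit 390) (nat_lit 313) (nat_lit 197)) (XT.lf (nat_lit 0) (nat_lit 66426563099) (nat_lit 152) (nat_lit 17625363621) (nat_lit 0) (nat_lit 21098917830) (nat_lit 11) (nat_lit 5) (nat_lit 13) (nat_lit 4) (nat_lit 11) (nat_lit 4) (nat_lit 391) (nat_lit 313) (nat_lit 196)))))) (XT.nd (nat_lit 468) (nat_lit 76) (nat_lit 0) (XT.nd (nat_lit 234) (nat_lit 152) (nat_lit 0) (XT.nd (nat_lit 78) (nat_lit 0) (nat_lit 0) (XT.lf (nat_lit 0) (nat_lit 7995975146) (nat_lit 76) (nat_lit 73520383822) (nat_lit 76) (nat_lit 28185553349) (nat_lit 10) (nat_lit 4) (nat_lit 11) (nat_lit 5) (nat_lit 11) (nat_lit 4) (nat_lit 392) (nat_lit 313) (nat_lit 195)) (XT.nd (nat_lit 78) (nat_lit 0) (nat_lit 0) (XT.lf (nat_lit 0) (nat_lit 35501983793) (nat_lit 76) (nat_lit 62152759797)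 (nat_lit 76) (nat_lit 16811086271) (nat_lit 10) (nat_lit 4) (nat_lit 11) (nat_lit 5) (nat_lit 11) (nat_lit 4) (nat_lit 393) (nat_lit 313) (nat_lit 194)) (XT.lf (nat_lit 0) (nat_lit 64375378694) (nat_lit 76) (nat_lit 50220482934) (nat_lit 76) (nat_lit 4872292215) (nat_lit 10) (nat_lit 4) (nat_lit 11) (nat_lit 5) (nat_lit 11) (nat_lit 4) (nat_lit 394) (nat_lit 313) (nat_lit 193)))) (XT.nd (nat_lit 78) (nat_lit 76) (nat_lit 0) (XT.lf (nat_lit 0) (nat_lit 7414110541) (nat_lit 152) (nat_lit 30155470958) (nat_lit 76) (nat_lit 87145233938) (nat_lit 9) (nat_lit 5) (nat_lit 11) (nat_lit 5) (nat_lit 10) (nat_lit 4) (nat_lit 395) (nat_lit 313) (nat_lit 192)) (XT.nd (nat_lit 78) (nat_lit 76) (nat_lit 0) (XT.lf (nat_lit 0) (nat_lit 20147232455) (nat_lit 152) (nat_lit 4058482320) (nat_lit 76) (nat_lit 106014295753) (nat_lit 9) (nat_lit 5) (nat_lit 11) (nat_lit 5) (nat_lit 10) (nat_lit 4) (nat_lit 396)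 (nat_lit 313) (nat_lit 191)) (XT.lf (nat_lit 0) (nat_lit 24108003249) (nat_lit 76) (nat_lit 9781724507) (nat_lit 152) (nat_lit 102092102800) (nat_lit 8) (nat_lit 5) (nat_lit 9) (nat_lit 5) (nat_lit 10) (nat_lit 4) (nat_lit 397) (nat_lit 313) (nat_lit 190))))) (XT.nd (nat_lit 234) (nat_lit 76) (nat_lit 0) (XT.nd (nat_lit 78) (nat_lit 0) (nat_lit 0) (XT.lf (nat_lit 0) (nat_lit 48469287055) (nat_lit 152) (nat_lit 88296433758) (nat_lit 0) (nat_lit 5258524805) (nat_lit 8) (nat_lit 5) (nat_lit 10) (nat_lit 4) (nat_lit 8) (nat_lit 4) (nat_lit 398) (nat_lit 313) (nat_lit 189)) (XT.nd (nat_lit 78) (nat_lit 0) (nat_lit 0) (XT.lf (nat_lit 0) (nat_lit 63934696065) (nat_lit 152) (nat_lit 63707172144) (nat_lit 0) (nat_lit 20719070585) (nat_lit 8) (nat_lit 5) (nat_lit 10) (nat_lit 4) (nat_lit 8) (nat_lit 4) (nat_lit 399) (nat_lit 313) (nat_lit 188)) (XT.lf (nat_lit 0) (nat_lit 80170057056) (nat_lit 152)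 (nat_lit 37894776472) (nat_lit 0) (nat_lit 36949799929) (nat_lit 8) (nat_lit 5) (nat_lit 10) (nat_lit 4) (nat_lit 8) (nat_lit 4) (nat_lit 400) (nat_lit 313) (nat_lit 187)))) (XT.nd (nat_lit 78) (nat_lit 76) (nat_lit 0) (XT.lf (nat_lit 0) (nat_lit 97214025649) (nat_lit 152) (nat_lit 10797788656) (nat_lit 0) (nat_lit 53989357429) (nat_lit 8) (nat_lit 5) (nat_lit 10) (nat_lit 4) (nat_lit 8) (nat_lit 4) (nat_lit 401) (nat_lit 313) (nat_lit 186)) (XT.nd (nat_lit 78) (nat_lit 0) (nat_lit 0) (XT.lf (nat_lit 0) (nat_lit 18231840702) (nat_lit 76) (nat_lit 97159992148) (nat_lit 76) (nat_lit 53931122887) (nat_lit 7) (nat_lit 4) (nat_lit 8) (nat_lit 5) (nat_lit 8) (nat_lit 4) (nat_lit 402) (nat_lit 313) (nat_lit 185)) (XT.lf (nat_lit 0) (nat_lit 49082178350) (nat_lit 76) (nat_lit 85576263036) (nat_lit 76) (nat_lit 42343392785) (nat_lit 7) (nat_lit 4) (nat_lit 8) (nat_lit 5) (nat_lit 8) (nat_lit 4)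 (nat_lit 403) (nat_lit 313) (nat_lit 184))))))) (XT.nd (nat_lit 858) (nat_lit 76) (nat_lit 0) (XT.nd (nat_lit 390) (nat_lit 0) (nat_lit 0) (XT.nd (nat_lit 156) (nat_lit 152) (nat_lit 0) (XT.nd (nat_lit 78) (nat_lit 0) (nat_lit 0) (XT.lf (nat_lit 0) (nat_lit 81469653814) (nat_lit 76) (nat_lit 73415912440) (nat_lit 76) (nat_lit 30179231720) (nat_lit 7) (nat_lit 4) (nat_lit 8) (nat_lit 5) (nat_lit 8) (nat_lit 4) (nat_lit 404) (nat_lit 313) (nat_lit 183)) (XT.lf (nat_lit 0) (nat_lit 115471380132) (nat_lit 76) (nat_lit 60649987142) (nat_lit 76) (nat_lit 17409677406) (nat_lit 7) (nat_lit 4) (nat_lit 8) (nat_lit 5) (nat_lit 8) (nat_lit 4) (nat_lit 405) (nat_lit 313) (nat_lit 182))) (XT.nd (nat_lit 78) (nat_lit 152) (nat_lit 0) (XT.lf (nat_lit 0) (nat_lit 151168313794) (nat_lit 76) (nat_lit 47248092084) (nat_lit 76) (nat_lit 4004326141) (nat_lit 7) (nat_lit 4) (nat_lit 8) (nat_lit 5) (nat_lit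 8) (nat_lit 4) (nat_lit 406) (nat_lit 313) (nat_lit 181)) (XT.nd (nat_lit 78) (nat_lit 76) (nat_lit 0) (XT.lf (nat_lit 0) (nat_lit 9746477029) (nat_lit 152) (nat_lit 23266779657) (nat_lit 76) (nat_lit 178733909165) (nat_lit 6) (nat_lit 5) (nat_lit 8) (nat_lit 5) (nat_lit 7) (nat_lit 4) (nat_lit 407) (nat_lit 313) (nat_lit 180)) (XT.lf (nat_lit 0) (nat_lit 6247966313) (nat_lit 76) (nat_lit 17897476985) (nat_lit 152) (nat_lit 197386436696) (nat_lit 5) (nat_lit 5) (nat_lit 6) (nat_lit 5) (nat_lit 7) (nat_lit 4) (nat_lit 408) (nat_lit 313) (nat_lit 179))))) (XT.nd (nat_lit 234) (nat_lit 0) (nat_lit 0) (XT.nd (nat_lit 78) (nat_lit 0) (nat_lit 0) (XT.lf (nat_lit 0) (nat_lit 38041788498) (nat_lit 76) (nat_lit 1614292744) (nat_lit 152) (nat_lit 192130162989) (nat_lit 5) (nat_lit 5) (nat_lit 6) (nat_lit 5) (nat_lit 7) (nat_lit 4) (nat_lit 409) (nat_lit 313) (nat_lit 178)) (XT.nd (nat_lit 78) (nat_lit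 0) (nat_lit 0) (XT.lf (nat_lit 0) (nat_lit 56181752599) (nat_lit 152) (nat_lit 171374057868) (nat_lit 0) (nat_lit 14985541665) (nat_lit 5) (nat_lit 5) (nat_lit 7) (nat_lit 4) (nat_lit 5) (nat_lit 4) (nat_lit 410) (nat_lit 313) (nat_lit 177)) (XT.lf (nat_lit 0) (nat_lit 73558045339) (nat_lit 152) (nat_lit 147915698372) (nat_lit 0) (nat_lit 32359255330) (nat_lit 5) (nat_lit 5) (nat_lit 7) (nat_lit 4) (nat_lit 5) (nat_lit 4) (nat_lit 411) (nat_lit 313) (nat_lit 176)))) (XT.nd (nat_lit 78) (nat_lit 0) (nat_lit 0) (XT.lf (nat_lit 0) (nat_lit 91801127954) (nat_lit 152) (nat_lit 123288320373) (nat_lit 0) (nat_lit 50599881685) (nat_lit 5) (nat_lit 5) (nat_lit 7) (nat_lit 4) (nat_lit 5) (nat_lit 4) (nat_lit 412) (nat_lit 313) (nat_lit 175)) (XT.nd (nat_lit 78) (nat_lit 0) (nat_lit 0) (XT.lf (nat_lit 0) (nat_lit 110954436357) (nat_lit 152) (nat_lit 97433287257) (nat_lit 0) (nat_lit 69750850791)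 (nat_lit 5) (nat_lit 5) (nat_lit 7) (nat_lit 4) (nat_lit 5) (nat_lit 4) (nat_lit 413) (nat_lit 313) (nat_lit 174)) (XT.lf (nat_lit 0) (nat_lit 131063573662) (nat_lit 152) (nat_lit 70289039422) (nat_lit 0) (nat_lit 89857760194) (nat_lit 5) (nat_lit 5) (nat_lit 7) (nat_lit 4) (nat_lit 5) (nat_lit 4) (nat_lit 414) (nat_lit 313) (nat_lit 173)))))) (XT.nd (nat_lit 468) (nat_lit 0) (nat_lit 0) (XT.nd (nat_lit 234) (nat_lit 0) (nat_lit 0) (XT.nd (nat_lit 78) (nat_lit 76) (nat_lit 0) (XT.lf (nat_lit 0) (nat_lit 152176418768) (nat_lit 152) (nat_lit 41790947705) (nat_lit 0) (nat_lit 110968483489) (nat_lit 5) (nat_lit 5) (nat_lit 7) (nat_lit 4) (nat_lit 5) (nat_lit 4) (nat_lit 415) (nat_lit 313) (nat_lit 172)) (XT.nd (nat_lit 78) (nat_lit 76) (nat_lit 0) (XT.lf (nat_lit 0) (nat_lit 174343240352) (nat_lit 152) (nat_lit 11871159509) (nat_lit 0) (nat_lit 133133284301) (nat_lit 5) (nat_lit 5) (nat_lit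 7) (nat_lit 4) (nat_lit 5) (nat_lit 4) (nat_lit 416) (nat_lit 313) (nat_lit 171)) (XT.lf (nat_lit 0) (nat_lit 20187695075) (nat_lit 76) (nat_lit 177744307984) (nat_lit 76) (nat_lit 136532427388) (nat_lit 4) (nat_lit 4) (nat_lit 5) (nat_lit 5) (nat_lit 5) (nat_lit 4) (nat_lit 417) (nat_lit 313) (nat_lit 170)))) (XT.nd (nat_lit 78) (nat_lit 0) (nat_lit 0) (XT.lf (nat_lit 0) (nat_lit 54258626182) (nat_lit 76) (nat_lit 168641063709) (nat_lit 76) (nat_lit 127427350212) (nat_lit 4) (nat_lit 4) (nat_lit 5) (nat_lit 5) (nat_lit 5) (nat_lit 4) (nat_lit 418) (nat_lit 313) (nat_lit 169)) (XT.nd (nat_lit 78) (nat_lit 0) (nat_lit 0) (XT.lf (nat_lit 0) (nat_lit 90030240932) (nat_lit 76) (nat_lit 159084036475) (nat_lit 76) (nat_lit 117868577359) (nat_lit 4) (nat_lit 4) (nat_lit 5) (nat_lit 5) (nat_lit 5) (nat_lit 4) (nat_lit 419) (nat_lit 313) (nat_lit 168)) (XT.lf (nat_lit 0) (nat_lit 127587709834)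 (nat_lit 76) (nat_lit 149050471456) (nat_lit 76) (nat_lit 107833349846) (nat_lit 4) (nat_lit 4) (nat_lit 5) (nat_lit 5) (nat_lit 5) (nat_lit 4) (nat_lit 420) (nat_lit 313) (nat_lit 167))))) (XT.nd (nat_lit 234) (nat_lit 0) (nat_lit 0) (XT.nd (nat_lit 78) (nat_lit 0) (nat_lit 0) (XT.lf (nat_lit 0) (nat_lit 167020455435) (nat_lit 76) (nat_lit 138516479211) (nat_lit 76) (nat_lit 97297774273) (nat_lit 4) (nat_lit 4) (nat_lit 5) (nat_lit 5) (nat_lit 5) (nat_lit 4) (nat_lit 421) (nat_lit 313) (nat_lit 166)) (XT.nd (nat_lit 78) (nat_lit 0) (nat_lit 0) (XT.lf (nat_lit 0) (nat_lit 208422365224) (nat_lit 76) (nat_lit 127456978807) (nat_lit 76) (nat_lit 86236765937) (nat_lit 4) (nat_lit 4) (nat_lit 5) (nat_lit 5) (nat_lit 5) (nat_lit 4) (nat_lit 422) (nat_lit 313) (nat_lit 165)) (XT.lf (nat_lit 0) (nat_lit 251892015177) (nat_lit 76) (nat_lit 115845638099) (nat_lit 76) (nat_lit 74623989104) (nat_lit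 4) (nat_lit 4) (nat_lit 5) (nat_lit 5) (nat_lit 5) (nat_lit 4) (nat_lit 423) (nat_lit 313) (nat_lit 164)))) (XT.nd (nat_lit 78) (nat_lit 0) (nat_lit 0) (XT.lf (nat_lit 0) (nat_lit 297532904460) (nat_lit 76) (nat_lit 103654811038) (nat_lit 76) (nat_lit 62431794305) (nat_lit 4) (nat_lit 4) (nat_lit 5) (nat_lit 5) (nat_lit 5) (nat_lit 4) (nat_lit 424) (nat_lit 313) (nat_lit 163)) (XT.nd (nat_lit 78) (nat_lit 0) (nat_lit 0) (XT.lf (nat_lit 0) (nat_lit 345453701857) (nat_lit 76) (nat_lit 90855471846) (nat_lit 76) (nat_lit 49631152505) (nat_lit 4) (nat_lit 4) (nat_lit 5) (nat_lit 5) (nat_lit 5) (nat_lit 4) (nat_lit 425) (nat_lit 313) (nat_lit 162)) (XT.lf (nat_lit 0) (nat_lit 395768504505) (nat_lit 76) (nat_lit 77417145906) (nat_lit 76) (nat_lit 36191585986) (nat_lit 4) (nat_lit 4) (nat_lit 5) (nat_lit 5) (nat_lit 5) (nat_lit 4) (nat_lit 426) (nat_lit 313) (nat_lit 161))))))))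
noncomputable def xc139 : XT := (XT.nd (nat_lit 39468) (nat_lit 0) (nat_lit 2584) (XT.nd (nat_lit 38532) (nat_lit 0) (nat_lit 5624) (XT.nd (nat_lit 38064) (nat_lit 0) (nat_lit 8132) (XT.nd (nat_lit 156) (nat_lit 152) (nat_lit 0) (XT.nd (nat_lit 78) (nat_lit 0) (nat_lit 0) (XT.lf (nat_lit 0) (nat_lit 448597109552) (nat_lit 76) (nat_lit 63307837202) (nat_lit 76) (nat_lit 22081095779) (nat_lit 4) (nat_lit 4) (nat_lit 5) (nat_lit 5) (nat_lit 5) (nat_lit 4) (nat_lit 427) (nat_lit 313) (nat_lit 160)) (XT.lf (nat_lit 0) (nat_lit 504065299393) (nat_lit 76) (nat_lit 48493952144) (nat_lit 76) (nat_lit 7266085479) (nat_lit 4) (nat_lit 4) (nat_lit 5) (nat_lit 5) (nat_lit 5) (nat_lit 4) (nat_lit 428) (nat_lit 313) (nat_lit 159))) (XT.nd (nat_lit 78) (nat_lit 76) (nat_lit 0) (XT.lf (nat_lit 0) (nat_lit 8023427983) (nat_lit 152) (nat_lit 24780910957) (nat_lit 76) (nat_lit 554145832527) (nat_lit 3) (nat_lit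 5) (nat_lit 5) (nat_lit 5) (nat_lit 4) (nat_lit 4) (nat_lit 429) (nat_lit 313) (nat_lit 158)) (XT.nd (nat_lit 78) (nat_lit 0) (nat_lit 0) (XT.lf (nat_lit 0) (nat_lit 7878514311) (nat_lit 76) (nat_lit 16076838499) (nat_lit 152) (nat_lit 591463833022) (nat_lit 2) (nat_lit 5) (nat_lit 3) (nat_lit 5) (nat_lit 4) (nat_lit 4) (nat_lit 430) (nat_lit 313) (nat_lit 157)) (XT.lf (nat_lit 0) (nat_lit 41132768670) (nat_lit 152) (nat_lit 602291222329) (nat_lit 0) (nat_lit 1865215358) (nat_lit 2) (nat_lit 5) (nat_lit 4) (nat_lit 4) (nat_lit 2) (nat_lit 4) (nat_lit 431) (nat_lit 313) (nat_lit 156))))) (XT.nd (nat_lit 234) (nat_lit 0) (nat_lit 76) (XT.nd (nat_lit 78) (nat_lit 0) (nat_lit 0) (XT.lf (nat_lit 0) (nat_lit 1793291169) (nat_lit 684) (nat_lit 1289278499) (nat_lit 684) (nat_lit 1289278499) (nat_lit 109) (nat_lit 3) (nat_lit 118) (nat_lit 3) (nat_lit 118) (nat_lit 5) (nat_lit 314) (nat_lit 314)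 (nat_lit 272)) (XT.nd (nat_lit 78) (nat_lit 0) (nat_lit 76) (XT.lf (nat_lit 76) (nat_lit 1553934263) (nat_lit 0) (nat_lit 3060165833) (nat_lit 684) (nat_lit 4299769307) (nat_lit 110) (nat_lit 5) (nat_lit 109) (nat_lit 3) (nat_lit 118) (nat_lit 5) (nat_lit 315) (nat_lit 314) (nat_lit 271)) (XT.lf (nat_lit 0) (nat_lit 5681949703) (nat_lit 608) (nat_lit 3146874955) (nat_lit 684) (nat_lit 264376394) (nat_lit 110) (nat_lit 5) (nat_lit 118) (nat_lit 5) (nat_lit 119) (nat_lit 5) (nat_lit 316) (nat_lit 314) (nat_lit 270)))) (XT.nd (nat_lit 78) (nat_lit 0) (nat_lit 0) (XT.lf (nat_lit 76) (nat_lit 1232559543) (nat_lit 0) (nat_lit 5584278340) (nat_lit 684) (nat_lit 2464072167) (nat_lit 111) (nat_lit 5) (nat_lit 110) (nat_lit 5) (nat_lit 119) (nat_lit 5) (nat_lit 317) (nat_lit 314) (nat_lit 269)) (XT.nd (nat_lit 78) (nat_lit 0) (nat_lit 76) (XT.lf (nat_lit 76) (nat_lit 5907197832) (nat_lit 0) (nat_lit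 2100942127) (nat_lit 684) (nat_lit 1469969707) (nat_lit 111) (nat_lit 5) (nat_lit 110) (nat_lit 5) (nat_lit 119) (nat_lit 5) (nat_lit 318) (nat_lit 314) (nat_lit 268)) (XT.lf (nat_lit 76) (nat_lit 1107139615) (nat_lit 0) (nat_lit 8142690900) (nat_lit 684) (nat_lit 435882000) (nat_lit 112) (nat_lit 5) (nat_lit 111) (nat_lit 5) (nat_lit 120) (nat_lit 5) (nat_lit 319) (nat_lit 314) (nat_lit 267)))))) (XT.nd (nat_lit 468) (nat_lit 1444) (nat_lit 0) (XT.nd (nat_lit 234) (nat_lit 532) (nat_lit 0) (XT.nd (nat_lit 78) (nat_lit 0) (nat_lit 0) (XT.lf (nat_lit 0) (nat_lit 675262638) (nat_lit 684) (nat_lit 3838743329) (nat_lit 760) (nat_lit 5386951076) (nat_lit 102) (nat_lit 5) (nat_lit 111) (nat_lit 5) (nat_lit 112) (nat_lit 5) (nat_lit 320) (nat_lit 314) (nat_lit 266)) (XT.nd (nat_lit 78) (nat_lit 0) (nat_lit 76) (XT.lf (nat_lit 76) (nat_lit 1133340146) (nat_lit 0) (nat_lit 664285282) (nat_lit 760)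 (nat_lit 8330538544) (nat_lit 103) (nat_lit 5) (nat_lit 102) (nat_lit 5) (nat_lit 112) (nat_lit 5) (nat_lit 321) (nat_lit 314) (nat_lit 265)) (XT.lf (nat_lit 0) (nat_lit 3049465427) (nat_lit 684) (nat_lit 3965849079) (nat_lit 760) (nat_lit 3347818243) (nat_lit 103) (nat_lit 5) (nat_lit 112) (nat_lit 5) (nat_lit 113) (nat_lit 5) (nat_lit 322) (nat_lit 314) (nat_lit 264)))) (XT.nd (nat_lit 78) (nat_lit 608) (nat_lit 0) (XT.lf (nat_lit 76) (nat_lit 1311504533) (nat_lit 0) (nat_lit 3040467187) (nat_lit 760) (nat_lit 6258540674) (nat_lit 104) (nat_lit 5) (nat_lit 103) (nat_lit 5) (nat_lit 113) (nat_lit 5) (nat_lit 323) (nat_lit 314) (nat_lit 263)) (XT.nd (nat_lit 78) (nat_lit 684) (nat_lit 0) (XT.lf (nat_lit 0) (nat_lit 5763931356) (nat_lit 684) (nat_lit 3931167317) (nat_lit 76) (nat_lit 1173008942) (nat_lit 104) (nat_lit 5) (nat_lit 113) (nat_lit 5) (nat_lit 105) (nat_lit 5) (nat_lit 324)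 (nat_lit 314) (nat_lit 262)) (XT.lf (nat_lit 0) (nat_lit 1674646027) (nat_lit 684) (nat_lit 5608187060) (nat_lit 760) (nat_lit 3853992300) (nat_lit 95) (nat_lit 5) (nat_lit 104) (nat_lit 5) (nat_lit 105) (nat_lit 5) (nat_lit 325) (nat_lit 314) (nat_lit 261))))) (XT.nd (nat_lit 234) (nat_lit 684) (nat_lit 0) (XT.nd (nat_lit 78) (nat_lit 760) (nat_lit 0) (XT.lf (nat_lit 0) (nat_lit 7663607861) (nat_lit 684) (nat_lit 1242365662) (nat_lit 760) (nat_lit 2511647983) (nat_lit 95) (nat_lit 5) (nat_lit 104) (nat_lit 5) (nat_lit 105) (nat_lit 5) (nat_lit 326) (nat_lit 314) (nat_lit 260)) (XT.nd (nat_lit 78) (nat_lit 76) (nat_lit 0) (XT.lf (nat_lit 0) (nat_lit 2224619033) (nat_lit 684) (nat_lit 8436168176) (nat_lit 760) (nat_lit 1049198828) (nat_lit 86) (nat_lit 5) (nat_lit 95) (nat_lit 5) (nat_lit 96) (nat_lit 5) (nat_lit 327) (nat_lit 314) (nat_lit 259)) (XT.lf (nat_lit 0) (nat_lit 519984592) (nat_lit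 760) (nat_lit 3444932670) (nat_lit 76) (nat_lit 8049262271) (nat_lit 85) (nat_lit 5) (nat_lit 95) (nat_lit 5) (nat_lit 86) (nat_lit 5) (nat_lit 328) (nat_lit 314) (nat_lit 258)))) (XT.nd (nat_lit 78) (nat_lit 304) (nat_lit 0) (XT.lf (nat_lit 0) (nat_lit 2156638317) (nat_lit 456) (nat_lit 9403161756) (nat_lit 76) (nat_lit 771756085) (nat_lit 80) (nat_lit 5) (nat_lit 86) (nat_lit 5) (nat_lit 81) (nat_lit 5) (nat_lit 329) (nat_lit 314) (nat_lit 257)) (XT.nd (nat_lit 78) (nat_lit 304) (nat_lit 0) (XT.lf (nat_lit 0) (nat_lit 3966445188) (nat_lit 456) (nat_lit 3022025308) (nat_lit 76) (nat_lit 5671809864) (nat_lit 80) (nat_lit 5) (nat_lit 86) (nat_lit 5) (nat_lit 81) (nat_lit 5) (nat_lit 330) (nat_lit 314) (nat_lit 256)) (XT.lf (nat_lit 0) (nat_lit 3766162174) (nat_lit 304) (nat_lit 2127974666) (nat_lit 380) (nat_lit 7109976848) (nat_lit 76) (nat_lit 5) (nat_lit 80) (nat_lit 5) (nat_lit 81)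 (nat_lit 5) (nat_lit 331) (nat_lit 314) (nat_lit 255))))))) (XT.nd (nat_lit 858) (nat_lit 1216) (nat_lit 0) (XT.nd (nat_lit 390) (nat_lit 1140) (nat_lit 0) (XT.nd (nat_lit 156) (nat_lit 380) (nat_lit 0) (XT.nd (nat_lit 78) (nat_lit 304) (nat_lit 0) (XT.lf (nat_lit 0) (nat_lit 7986252665) (nat_lit 380) (nat_lit 2444755927) (nat_lit 76) (nat_lit 2930768721) (nat_lit 76) (nat_lit 5) (nat_lit 81) (nat_lit 5) (nat_lit 77) (nat_lit 5) (nat_lit 332) (nat_lit 314) (nat_lit 254)) (XT.lf (nat_lit 0) (nat_lit 4774054627) (nat_lit 304) (nat_lit 5489354673) (nat_lit 380) (nat_lit 3469931740) (nat_lit 72) (nat_lit 5) (nat_lit 76) (nat_lit 5) (nat_lit 77) (nat_lit 5) (nat_lit 333) (nat_lit 314) (nat_lit 253))) (XT.nd (nat_lit 78) (nat_lit 380) (nat_lit 0) (XT.lf (nat_lit 0) (nat_lit 12407238047) (nat_lit 304) (nat_lit 260492027) (nat_lit 380) (nat_lit 1455124397) (nat_lit 72) (nat_lit 5) (nat_lit 76)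 (nat_lit 5) (nat_lit 77) (nat_lit 5) (nat_lit 334) (nat_lit 314) (nat_lit 252)) (XT.nd (nat_lit 78) (nat_lit 0) (nat_lit 0) (XT.lf (nat_lit 0) (nat_lit 789704245) (nat_lit 380) (nat_lit 8568875364) (nat_lit 76) (nat_lit 5165260888) (nat_lit 67) (nat_lit 5) (nat_lit 72) (nat_lit 5) (nat_lit 68) (nat_lit 5) (nat_lit 335) (nat_lit 314) (nat_lit 251)) (XT.lf (nat_lit 0) (nat_lit 3105202910) (nat_lit 380) (nat_lit 935058856) (nat_lit 76) (nat_lit 10903086637) (nat_lit 67) (nat_lit 5) (nat_lit 72) (nat_lit 5) (nat_lit 68) (nat_lit 5) (nat_lit 336) (nat_lit 314) (nat_lit 250))))) (XT.nd (nat_lit 234) (nat_lit 608) (nat_lit 0) (XT.nd (nat_lit 78) (nat_lit 228) (nat_lit 0) (XT.lf (nat_lit 0) (nat_lit 5650872699) (nat_lit 380) (nat_lit 8121931148) (nat_lit 76) (nat_lit 1605338348) (nat_lit 63) (nat_lit 5) (nat_lit 68) (nat_lit 5) (nat_lit 64) (nat_lit 5) (nat_lit 337) (nat_lit 314) (nat_lit 249))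 (XT.nd (nat_lit 78) (nat_lit 228) (nat_lit 0) (XT.lf (nat_lit 0) (nat_lit 8381600325) (nat_lit 380) (nat_lit 41718945) (nat_lit 76) (nat_lit 7408496549) (nat_lit 63) (nat_lit 5) (nat_lit 68) (nat_lit 5) (nat_lit 64) (nat_lit 5) (nat_lit 338) (nat_lit 314) (nat_lit 248)) (XT.lf (nat_lit 0) (nat_lit 8691299512) (nat_lit 228) (nat_lit 2669874907) (nat_lit 304) (nat_lit 4941410685) (nat_lit 60) (nat_lit 5) (nat_lit 63) (nat_lit 5) (nat_lit 64) (nat_lit 5) (nat_lit 339) (nat_lit 314) (nat_lit 247)))) (XT.nd (nat_lit 78) (nat_lit 304) (nat_lit 0) (XT.lf (nat_lit 0) (nat_lit 1015441983) (nat_lit 304) (nat_lit 13520672067) (nat_lit 380) (nat_lit 2258485639) (nat_lit 56) (nat_lit 5) (nat_lit 60) (nat_lit 5) (nat_lit 61) (nat_lit 5) (nat_lit 340) (nat_lit 314) (nat_lit 246)) (XT.nd (nat_lit 78) (nat_lit 228) (nat_lit 0) (XT.lf (nat_lit 0) (nat_lit 692908387) (nat_lit 380) (nat_lit 7051879138) (nat_lit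 76) (nat_lit 9558405117) (nat_lit 55) (nat_lit 5) (nat_lit 60) (nat_lit 5) (nat_lit 56) (nat_lit 5) (nat_lit 341) (nat_lit 314) (nat_lit 245)) (XT.lf (nat_lit 0) (nat_lit 2113568189) (nat_lit 228) (nat_lit 1613896612) (nat_lit 304) (nat_lit 14107347205) (nat_lit 52) (nat_lit 5) (nat_lit 55) (nat_lit 5) (nat_lit 56) (nat_lit 5) (nat_lit 342) (nat_lit 314) (nat_lit 244)))))) (XT.nd (nat_lit 468) (nat_lit 532) (nat_lit 0) (XT.nd (nat_lit 234) (nat_lit 456) (nat_lit 0) (XT.nd (nat_lit 78) (nat_lit 228) (nat_lit 0) (XT.lf (nat_lit 0) (nat_lit 7089402133) (nat_lit 304) (nat_lit 6511499738) (nat_lit 76) (nat_lit 4783349348) (nat_lit 52) (nat_lit 5) (nat_lit 56) (nat_lit 5) (nat_lit 53) (nat_lit 5) (nat_lit 343) (nat_lit 314) (nat_lit 243)) (XT.nd (nat_lit 78) (nat_lit 0) (nat_lit 0) (XT.lf (nat_lit 0) (nat_lit 3207008846) (nat_lit 228) (nat_lit 7468916470) (nat_lit 304) (nat_lit 8282433136) (nat_lit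 49) (nat_lit 5) (nat_lit 52) (nat_lit 5) (nat_lit 53) (nat_lit 5) (nat_lit 344) (nat_lit 314) (nat_lit 242)) (XT.lf (nat_lit 0) (nat_lit 13610047895) (nat_lit 228) (nat_lit 922488937) (nat_lit 304) (nat_lit 5024115640) (nat_lit 49) (nat_lit 5) (nat_lit 52) (nat_lit 5) (nat_lit 53) (nat_lit 5) (nat_lit 345) (nat_lit 314) (nat_lit 241)))) (XT.nd (nat_lit 78) (nat_lit 304) (nat_lit 0) (XT.lf (nat_lit 0) (nat_lit 4368292927) (nat_lit 152) (nat_lit 14356100955) (nat_lit 228) (nat_lit 1453365164) (nat_lit 47) (nat_lit 5) (nat_lit 49) (nat_lit 5) (nat_lit 50) (nat_lit 5) (nat_lit 346) (nat_lit 314) (nat_lit 240)) (XT.nd (nat_lit 78) (nat_lit 228) (nat_lit 0) (XT.lf (nat_lit 0) (nat_lit 2321379319) (nat_lit 228) (nat_lit 5499293401) (nat_lit 76) (nat_lit 13002525797) (nat_lit 46) (nat_lit 5) (nat_lit 49) (nat_lit 5) (nat_lit 47) (nat_lit 5) (nat_lit 347) (nat_lit 314) (nat_lit 239)) (XT.lf (nat_lit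 0) (nat_lit 5451150927) (nat_lit 228) (nat_lit 852316192) (nat_lit 304) (nat_lit 15192895193) (nat_lit 43) (nat_lit 5) (nat_lit 46) (nat_lit 5) (nat_lit 47) (nat_lit 5) (nat_lit 348) (nat_lit 314) (nat_lit 238))))) (XT.nd (nat_lit 234) (nat_lit 380) (nat_lit 0) (XT.nd (nat_lit 78) (nat_lit 152) (nat_lit 0) (XT.lf (nat_lit 0) (nat_lit 10662903078) (nat_lit 304) (nat_lit 5187154283) (nat_lit 76) (nat_lit 6344230054) (nat_lit 43) (nat_lit 5) (nat_lit 47) (nat_lit 5) (nat_lit 44) (nat_lit 5) (nat_lit 349) (nat_lit 314) (nat_lit 237)) (XT.nd (nat_lit 78) (nat_lit 0) (nat_lit 0) (XT.lf (nat_lit 0) (nat_lit 6379038457) (nat_lit 152) (nat_lit 8958320858) (nat_lit 228) (nat_lit 7584911608) (nat_lit 41) (nat_lit 5) (nat_lit 43) (nat_lit 5) (nat_lit 44) (nat_lit 5) (nat_lit 350) (nat_lit 314) (nat_lit 236)) (XT.lf (nat_lit 0) (nat_lit 18679065872) (nat_lit 152) (nat_lit 1638204008) (nat_lit 228)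 (nat_lit 3365811033) (nat_lit 41) (nat_lit 5) (nat_lit 43) (nat_lit 5) (nat_lit 44) (nat_lit 5) (nat_lit 351) (nat_lit 314) (nat_lit 235)))) (XT.nd (nat_lit 78) (nat_lit 152) (nat_lit 0) (XT.lf (nat_lit 0) (nat_lit 1225065593) (nat_lit 228) (nat_lit 17267181485) (nat_lit 76) (nat_lit 5979121949) (nat_lit 38) (nat_lit 5) (nat_lit 41) (nat_lit 5) (nat_lit 39) (nat_lit 5) (nat_lit 352) (nat_lit 314) (nat_lit 234)) (XT.nd (nat_lit 78) (nat_lit 152) (nat_lit 0) (XT.lf (nat_lit 0) (nat_lit 6029997213) (nat_lit 228) (nat_lit 5205907134) (nat_lit 76) (nat_lit 14055539105) (nat_lit 38) (nat_lit 5) (nat_lit 41) (nat_lit 5) (nat_lit 39) (nat_lit 5) (nat_lit 353) (nat_lit 314) (nat_lit 233)) (XT.lf (nat_lit 0) (nat_lit 7681251413) (nat_lit 152) (nat_lit 3499215571) (nat_lit 228) (nat_lit 14966801456) (nat_lit 36) (nat_lit 5) (nat_lit 38) (nat_lit 5) (nat_lit 39) (nat_lit 5) (nat_lit 354) (nat_lit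 314) (nat_lit 232))))))))
noncomputable def xc140 : XT := (XT.nd (nat_lit 1794) (nat_lit 684) (nat_lit 0) (XT.nd (nat_lit 858) (nat_lit 608) (nat_lit 0) (XT.nd (nat_lit 390) (nat_lit 456) (nat_lit 0) (XT.nd (nat_lit 156) (nat_lit 228) (nat_lit 0) (XT.nd (nat_lit 78) (nat_lit 152) (nat_lit 0) (XT.lf (nat_lit 0) (nat_lit 16735846778) (nat_lit 228) (nat_lit 5744865902) (nat_lit 76) (nat_lit 4557813547) (nat_lit 36) (nat_lit 5) (nat_lit 39) (nat_lit 5) (nat_lit 37) (nat_lit 5) (nat_lit 355) (nat_lit 314) (nat_lit 231)) (XT.lf (nat_lit 0) (nat_lit 7781904357) (nat_lit 152) (nat_lit 14952217733) (nat_lit 228) (nat_lit 5231978847) (nat_lit 34) (nat_lit 5) (nat_lit 36) (nat_lit 5) (nat_lit 37) (nat_lit 5) (nat_lit 356) (nat_lit 314) (nat_lit 230))) (XT.nd (nat_lit 78) (nat_lit 152) (nat_lit 0) (XT.lf (nat_lit 0) (nat_lit 174540362) (nat_lit 228) (nat_lit 6776010576) (nat_lit 76) (nat_lit 21985179002)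 (nat_lit 33) (nat_lit 5) (nat_lit 36) (nat_lit 5) (nat_lit 34) (nat_lit 5) (nat_lit 357) (nat_lit 314) (nat_lit 229)) (XT.nd (nat_lit 78) (nat_lit 0) (nat_lit 0) (XT.lf (nat_lit 0) (nat_lit 5804452720) (nat_lit 228) (nat_lit 22536699533) (nat_lit 76) (nat_lit 1601963782) (nat_lit 31) (nat_lit 5) (nat_lit 34) (nat_lit 5) (nat_lit 32) (nat_lit 5) (nat_lit 358) (nat_lit 314) (nat_lit 228)) (XT.lf (nat_lit 0) (nat_lit 11933606301) (nat_lit 228) (nat_lit 8599108669) (nat_lit 76) (nat_lit 10457277706) (nat_lit 31) (nat_lit 5) (nat_lit 34) (nat_lit 5) (nat_lit 32) (nat_lit 5) (nat_lit 359) (nat_lit 314) (nat_lit 227))))) (XT.nd (nat_lit 234) (nat_lit 228) (nat_lit 0) (XT.nd (nat_lit 78) (nat_lit 76) (nat_lit 0) (XT.lf (nat_lit 0) (nat_lit 6213899600) (nat_lit 152) (nat_lit 12240111395) (nat_lit 228) (nat_lit 13630970598) (nat_lit 29) (nat_lit 5) (nat_lit 31) (nat_lit 5) (nat_lit 32) (nat_lit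 5) (nat_lit 360) (nat_lit 314) (nat_lit 226)) (XT.nd (nat_lit 78) (nat_lit 76) (nat_lit 0) (XT.lf (nat_lit 0) (nat_lit 22046082343) (nat_lit 152) (nat_lit 3388030209) (nat_lit 228) (nat_lit 7793931303) (nat_lit 29) (nat_lit 5) (nat_lit 31) (nat_lit 5) (nat_lit 32) (nat_lit 5) (nat_lit 361) (nat_lit 314) (nat_lit 225)) (XT.lf (nat_lit 0) (nat_lit 4266426834) (nat_lit 76) (nat_lit 28644118537) (nat_lit 152) (nat_lit 1510354912) (nat_lit 28) (nat_lit 5) (nat_lit 29) (nat_lit 5) (nat_lit 30) (nat_lit 4) (nat_lit 362) (nat_lit 314) (nat_lit 224)))) (XT.nd (nat_lit 78) (nat_lit 152) (nat_lit 0) (XT.lf (nat_lit 0) (nat_lit 5161142087) (nat_lit 152) (nat_lit 14946149745) (nat_lit 76) (nat_lit 15550314430) (nat_lit 27) (nat_lit 5) (nat_lit 29) (nat_lit 5) (nat_lit 28) (nat_lit 5) (nat_lit 363) (nat_lit 314) (nat_lit 223)) (XT.nd (nat_lit 78) (nat_lit 0) (nat_lit 0) (XT.lf (nat_lit 0) (nat_lit 1011547640)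 (nat_lit 152) (nat_lit 11108799184) (nat_lit 228) (nat_lit 24834324544) (nat_lit 25) (nat_lit 5) (nat_lit 27) (nat_lit 5) (nat_lit 28) (nat_lit 5) (nat_lit 364) (nat_lit 314) (nat_lit 222)) (XT.lf (nat_lit 0) (nat_lit 18267668979) (nat_lit 152) (nat_lit 1402293271) (nat_lit 228) (nat_lit 18634511014) (nat_lit 25) (nat_lit 5) (nat_lit 27) (nat_lit 5) (nat_lit 28) (nat_lit 5) (nat_lit 365) (nat_lit 314) (nat_lit 221)))))) (XT.nd (nat_lit 468) (nat_lit 228) (nat_lit 0) (XT.nd (nat_lit 234) (nat_lit 228) (nat_lit 0) (XT.nd (nat_lit 78) (nat_lit 152) (nat_lit 0) (XT.lf (nat_lit 0) (nat_lit 27724011716) (nat_lit 228) (nat_lit 3490281053) (nat_lit 76) (nat_lit 8501130589) (nat_lit 25) (nat_lit 5) (nat_lit 28) (nat_lit 5) (nat_lit 26) (nat_lit 4) (nat_lit 366) (nat_lit 314) (nat_lit 220)) (XT.nd (nat_lit 78) (nat_lit 76) (nat_lit 0) (XT.lf (nat_lit 0) (nat_lit 14301278862) (nat_lit 76) (nat_lit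 22115969534) (nat_lit 152) (nat_lit 4767853818) (nat_lit 24) (nat_lit 5) (nat_lit 25) (nat_lit 5) (nat_lit 26) (nat_lit 4) (nat_lit 367) (nat_lit 314) (nat_lit 219)) (XT.lf (nat_lit 0) (nat_lit 2777058243) (nat_lit 152) (nat_lit 9683750292) (nat_lit 76) (nat_lit 30262745780) (nat_lit 23) (nat_lit 5) (nat_lit 25) (nat_lit 5) (nat_lit 24) (nat_lit 5) (nat_lit 368) (nat_lit 314) (nat_lit 218)))) (XT.nd (nat_lit 78) (nat_lit 76) (nat_lit 0) (XT.lf (nat_lit 0) (nat_lit 8555731453) (nat_lit 152) (nat_lit 2107551819) (nat_lit 228) (nat_lit 33665527493) (nat_lit 21) (nat_lit 5) (nat_lit 23) (nat_lit 5) (nat_lit 24) (nat_lit 5) (nat_lit 369) (nat_lit 314) (nat_lit 217)) (XT.nd (nat_lit 78) (nat_lit 76) (nat_lit 0) (XT.lf (nat_lit 0) (nat_lit 19238131326) (nat_lit 228) (nat_lit 18118612848) (nat_lit 76) (nat_lit 8642874795) (nat_lit 21) (nat_lit 5) (nat_lit 24) (nat_lit 5) (nat_lit 22) (nat_lit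 4) (nat_lit 370) (nat_lit 314) (nat_lit 216)) (XT.lf (nat_lit 0) (nat_lit 380629672) (nat_lit 76) (nat_lit 27892826300) (nat_lit 152) (nat_lit 19478929205) (nat_lit 20) (nat_lit 5) (nat_lit 21) (nat_lit 5) (nat_lit 22) (nat_lit 4) (nat_lit 371) (nat_lit 314) (nat_lit 215))))) (XT.nd (nat_lit 234) (nat_lit 76) (nat_lit 0) (XT.nd (nat_lit 78) (nat_lit 152) (nat_lit 0) (XT.lf (nat_lit 0) (nat_lit 20418543166) (nat_lit 76) (nat_lit 17640270378) (nat_lit 152) (nat_lit 11519066916) (nat_lit 20) (nat_lit 5) (nat_lit 21) (nat_lit 5) (nat_lit 22) (nat_lit 4) (nat_lit 372) (nat_lit 314) (nat_lit 214)) (XT.nd (nat_lit 78) (nat_lit 152) (nat_lit 0) (XT.lf (nat_lit 0) (nat_lit 41443753785) (nat_lit 76) (nat_lit 6881513036) (nat_lit 152) (nat_lit 3169796199) (nat_lit 20) (nat_lit 5) (nat_lit 21) (nat_lit 5) (nat_lit 22) (nat_lit 4) (nat_lit 373) (nat_lit 314) (nat_lit 213)) (XT.lf (nat_lit 0) (nat_lit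 5642623434) (nat_lit 152) (nat_lit 43330775210) (nat_lit 76) (nat_lit 4519099294) (nat_lit 18) (nat_lit 5) (nat_lit 20) (nat_lit 5) (nat_lit 19) (nat_lit 4) (nat_lit 374) (nat_lit 314) (nat_lit 212)))) (XT.nd (nat_lit 78) (nat_lit 76) (nat_lit 0) (XT.lf (nat_lit 0) (nat_lit 15067112584) (nat_lit 152) (nat_lit 24028729107) (nat_lit 76) (nat_lit 16477469365) (nat_lit 18) (nat_lit 5) (nat_lit 20) (nat_lit 5) (nat_lit 19) (nat_lit 4) (nat_lit 375) (nat_lit 314) (nat_lit 211)) (XT.nd (nat_lit 78) (nat_lit 76) (nat_lit 0) (XT.lf (nat_lit 0) (nat_lit 24955348521) (nat_lit 152) (nat_lit 3775137490) (nat_lit 76) (nat_lit 29028055915) (nat_lit 18) (nat_lit 5) (nat_lit 20) (nat_lit 5) (nat_lit 19) (nat_lit 4) (nat_lit 376) (nat_lit 314) (nat_lit 210)) (XT.lf (nat_lit 0) (nat_lit 18056131445) (nat_lit 76) (nat_lit 17556650030) (nat_lit 152) (nat_lit 24426516661) (nat_lit 17) (nat_lit 5) (nat_lit 18)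 (nat_lit 5) (nat_lit 19) (nat_lit 4) (nat_lit 377) (nat_lit 314) (nat_lit 209))))))) (XT.nd (nat_lit 858) (nat_lit 304) (nat_lit 0) (XT.nd (nat_lit 390) (nat_lit 152) (nat_lit 0) (XT.nd (nat_lit 156) (nat_lit 152) (nat_lit 0) (XT.nd (nat_lit 78) (nat_lit 76) (nat_lit 0) (XT.lf (nat_lit 0) (nat_lit 41097325093) (nat_lit 76) (nat_lit 5762713968) (nat_lit 152) (nat_lit 15571208362) (nat_lit 17) (nat_lit 5) (nat_lit 18) (nat_lit 5) (nat_lit 19) (nat_lit 4) (nat_lit 378) (nat_lit 314) (nat_lit 208)) (XT.lf (nat_lit 0) (nat_lit 239738076) (nat_lit 76) (nat_lit 58530302067) (nat_lit 76) (nat_lit 6167737773) (nat_lit 16) (nat_lit 4) (nat_lit 17) (nat_lit 5) (nat_lit 17) (nat_lit 4) (nat_lit 379) (nat_lit 314) (nat_lit 207))) (XT.nd (nat_lit 78) (nat_lit 76) (nat_lit 0) (XT.lf (nat_lit 0) (nat_lit 4042274872) (nat_lit 152) (nat_lit 44089449580) (nat_lit 76) (nat_lit 19412270986) (nat_lit 15) (nat_lit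 5) (nat_lit 17) (nat_lit 5) (nat_lit 16) (nat_lit 4) (nat_lit 380) (nat_lit 314) (nat_lit 206)) (XT.nd (nat_lit 78) (nat_lit 76) (nat_lit 0) (XT.lf (nat_lit 0) (nat_lit 14549118100) (nat_lit 152) (nat_lit 22563324559) (nat_lit 76) (nat_lit 33163347732) (nat_lit 15) (nat_lit 5) (nat_lit 17) (nat_lit 5) (nat_lit 16) (nat_lit 4) (nat_lit 381) (nat_lit 314) (nat_lit 205)) (XT.lf (nat_lit 0) (nat_lit 28805526) (nat_lit 76) (nat_lit 25546858537) (nat_lit 152) (nat_lit 47568795283) (nat_lit 14) (nat_lit 5) (nat_lit 15) (nat_lit 5) (nat_lit 16) (nat_lit 4) (nat_lit 382) (nat_lit 314) (nat_lit 204))))) (XT.nd (nat_lit 234) (nat_lit 152) (nat_lit 0) (XT.nd (nat_lit 78) (nat_lit 0) (nat_lit 0) (XT.lf (nat_lit 0) (nat_lit 24522847674) (nat_lit 76) (nat_lit 13006838872) (nat_lit 152) (nat_lit 38608069915) (nat_lit 14) (nat_lit 5) (nat_lit 15) (nat_lit 5) (nat_lit 16) (nat_lit 4) (nat_lit 383) (nat_lit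 314) (nat_lit 203)) (XT.nd (nat_lit 78) (nat_lit 0) (nat_lit 0) (XT.lf (nat_lit 0) (nat_lit 50078148408) (nat_lit 152) (nat_lit 29052354735) (nat_lit 0) (nat_lit 150380447) (nat_lit 14) (nat_lit 5) (nat_lit 16) (nat_lit 4) (nat_lit 14) (nat_lit 4) (nat_lit 384) (nat_lit 314) (nat_lit 202)) (XT.lf (nat_lit 0) (nat_lit 63461772008) (nat_lit 152) (nat_lit 5585116365) (nat_lit 0) (nat_lit 13523893742) (nat_lit 14) (nat_lit 5) (nat_lit 16) (nat_lit 4) (nat_lit 14) (nat_lit 4) (nat_lit 385) (nat_lit 314) (nat_lit 201)))) (XT.nd (nat_lit 78) (nat_lit 76) (nat_lit 0) (XT.lf (nat_lit 0) (nat_lit 19675492543) (nat_lit 76) (nat_lit 58141046947) (nat_lit 76) (nat_lit 8193539819) (nat_lit 13) (nat_lit 4) (nat_lit 14) (nat_lit 5) (nat_lit 14) (nat_lit 4) (nat_lit 386) (nat_lit 314) (nat_lit 200)) (XT.nd (nat_lit 78) (nat_lit 0) (nat_lit 0) (XT.lf (nat_lit 0) (nat_lit 3254041069) (nat_lit 152) (nat_lit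 43285893281) (nat_lit 76) (nat_lit 43074311614) (nat_lit 12) (nat_lit 5) (nat_lit 14) (nat_lit 5) (nat_lit 13) (nat_lit 4) (nat_lit 387) (nat_lit 314) (nat_lit 199)) (XT.lf (nat_lit 0) (nat_lit 14993679356) (nat_lit 152) (nat_lit 19228368453) (nat_lit 76) (nat_lit 59170106997) (nat_lit 12) (nat_lit 5) (nat_lit 14) (nat_lit 5) (nat_lit 13) (nat_lit 4) (nat_lit 388) (nat_lit 314) (nat_lit 198)))))) (XT.nd (nat_lit 468) (nat_lit 152) (nat_lit 0) (XT.nd (nat_lit 234) (nat_lit 76) (nat_lit 0) (XT.nd (nat_lit 78) (nat_lit 0) (nat_lit 0) (XT.lf (nat_lit 0) (nat_lit 6222345573) (nat_lit 76) (nat_lit 21190373686) (nat_lit 152) (nat_lit 69941620393) (nat_lit 11) (nat_lit 5) (nat_lit 12) (nat_lit 5) (nat_lit 13) (nat_lit 4) (nat_lit 389) (nat_lit 314) (nat_lit 197)) (XT.nd (nat_lit 78) (nat_lit 0) (nat_lit 0) (XT.lf (nat_lit 0) (nat_lit 33604462471) (nat_lit 76) (nat_lit 7169251220) (nat_lit 152)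 (nat_lit 60724871392) (nat_lit 11) (nat_lit 5) (nat_lit 12) (nat_lit 5) (nat_lit 13) (nat_lit 4) (nat_lit 390) (nat_lit 314) (nat_lit 196)) (XT.lf (nat_lit 0) (nat_lit 54916201577) (nat_lit 152) (nat_lit 43620726049) (nat_lit 0) (nat_lit 7307444375) (nat_lit 11) (nat_lit 5) (nat_lit 13) (nat_lit 4) (nat_lit 11) (nat_lit 4) (nat_lit 391) (nat_lit 314) (nat_lit 195)))) (XT.nd (nat_lit 78) (nat_lit 76) (nat_lit 0) (XT.lf (nat_lit 0) (nat_lit 69879077202) (nat_lit 152) (nat_lit 18259232284) (nat_lit 0) (nat_lit 22263476947) (nat_lit 11) (nat_lit 5) (nat_lit 13) (nat_lit 4) (nat_lit 11) (nat_lit 4) (nat_lit 392) (nat_lit 314) (nat_lit 194)) (XT.nd (nat_lit 78) (nat_lit 0) (nat_lit 0) (XT.lf (nat_lit 0) (nat_lit 8639183107) (nat_lit 76) (nat_lit 77081733108) (nat_lit 76) (nat_lit 29459615661) (nat_lit 10) (nat_lit 4) (nat_lit 11) (nat_lit 5) (nat_lit 11) (nat_lit 4) (nat_lit 393) (nat_lit 314)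 (nat_lit 193)) (XT.lf (nat_lit 0) (nat_lit 37508901271) (nat_lit 76) (nat_lit 65151188354) (nat_lit 76) (nat_lit 17522864055) (nat_lit 10) (nat_lit 4) (nat_lit 11) (nat_lit 5) (nat_lit 11) (nat_lit 4) (nat_lit 394) (nat_lit 314) (nat_lit 192))))) (XT.nd (nat_lit 234) (nat_lit 76) (nat_lit 0) (XT.nd (nat_lit 78) (nat_lit 76) (nat_lit 0) (XT.lf (nat_lit 0) (nat_lit 67814926951) (nat_lit 76) (nat_lit 52627498096) (nat_lit 76) (nat_lit 4993262512) (nat_lit 10) (nat_lit 4) (nat_lit 11) (nat_lit 5) (nat_lit 11) (nat_lit 4) (nat_lit 395) (nat_lit 314) (nat_lit 191)) (XT.nd (nat_lit 78) (nat_lit 0) (nat_lit 0) (XT.lf (nat_lit 0) (nat_lit 7897881716) (nat_lit 152) (nat_lit 31449207862) (nat_lit 76) (nat_lit 91597781188) (nat_lit 9) (nat_lit 5) (nat_lit 11) (nat_lit 5) (nat_lit 10) (nat_lit 4) (nat_lit 396) (nat_lit 314) (nat_lit 190)) (XT.lf (nat_lit 0) (nat_lit 21262275647) (nat_lit 152) (nat_lit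 4057562014) (nat_lit 76) (nat_lit 111405758686) (nat_lit 9) (nat_lit 5) (nat_lit 11) (nat_lit 5) (nat_lit 10) (nat_lit 4) (nat_lit 397) (nat_lit 314) (nat_lit 189)))) (XT.nd (nat_lit 78) (nat_lit 0) (nat_lit 0) (XT.lf (nat_lit 0) (nat_lit 25513960021) (nat_lit 76) (nat_lit 10175939248) (nat_lit 152) (nat_lit 107085709386) (nat_lit 8) (nat_lit 5) (nat_lit 9) (nat_lit 5) (nat_lit 10) (nat_lit 4) (nat_lit 398) (nat_lit 314) (nat_lit 188)) (XT.nd (nat_lit 78) (nat_lit 0) (nat_lit 0) (XT.lf (nat_lit 0) (nat_lit 50994814584) (nat_lit 152) (nat_lit 92516599419) (nat_lit 0) (nat_lit 5608912954) (nat_lit 8) (nat_lit 5) (nat_lit 10) (nat_lit 4) (nat_lit 8) (nat_lit 4) (nat_lit 399) (nat_lit 314) (nat_lit 187)) (XT.lf (nat_lit 0) (nat_lit 67228633894) (nat_lit 152) (nat_lit 66707144059) (nat_lit 0) (nat_lit 21838321170) (nat_lit 8) (nat_lit 5) (nat_lit 10) (nat_lit 4) (nat_lit 8) (nat_lit 4) (nat_lit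 400) (nat_lit 314) (nat_lit 186))))))))
noncomputable def xc141 : XT := (XT.nd (nat_lit 1794) (nat_lit 152) (nat_lit 0) (XT.nd (nat_lit 858) (nat_lit 76) (nat_lit 0) (XT.nd (nat_lit 390) (nat_lit 152) (nat_lit 0) (XT.nd (nat_lit 156) (nat_lit 76) (nat_lit 0) (XT.nd (nat_lit 78) (nat_lit 0) (nat_lit 0) (XT.lf (nat_lit 0) (nat_lit 84271134219) (nat_lit 152) (nat_lit 39612956541) (nat_lit 0) (nat_lit 38876620454) (nat_lit 8) (nat_lit 5) (nat_lit 10) (nat_lit 4) (nat_lit 8) (nat_lit 4) (nat_lit 401) (nat_lit 314) (nat_lit 185)) (XT.lf (nat_lit 0) (nat_lit 102162892941) (nat_lit 152) (nat_lit 11169526895) (nat_lit 0) (nat_lit 56764378186) (nat_lit 8) (nat_lit 5) (nat_lit 10) (nat_lit 4) (nat_lit 8) (nat_lit 4) (nat_lit 402) (nat_lit 314) (nat_lit 184))) (XT.nd (nat_lit 78) (nat_lit 0) (nat_lit 0) (XT.lf (nat_lit 0) (nat_lit 19308871816) (nat_lit 76) (nat_lit 101939103272) (nat_lit 76) (nat_lit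 56536778049) (nat_lit 7) (nat_lit 4) (nat_lit 8) (nat_lit 5) (nat_lit 8) (nat_lit 4) (nat_lit 403) (nat_lit 314) (nat_lit 183)) (XT.nd (nat_lit 78) (nat_lit 0) (nat_lit 0) (XT.lf (nat_lit 0) (nat_lit 51693848294) (nat_lit 76) (nat_lit 89779944300) (nat_lit 76) (nat_lit 44373990060) (nat_lit 7) (nat_lit 4) (nat_lit 8) (nat_lit 5) (nat_lit 8) (nat_lit 4) (nat_lit 404) (nat_lit 314) (nat_lit 182)) (XT.lf (nat_lit 0) (nat_lit 85693194626) (nat_lit 76) (nat_lit 77015153882) (nat_lit 76) (nat_lit 31605743436) (nat_lit 7) (nat_lit 4) (nat_lit 8) (nat_lit 5) (nat_lit 8) (nat_lit 4) (nat_lit 405) (nat_lit 314) (nat_lit 181))))) (XT.nd (nat_lit 234) (nat_lit 76) (nat_lit 0) (XT.nd (nat_lit 78) (nat_lit 76) (nat_lit 0) (XT.lf (nat_lit 0) (nat_lit 121387861634) (nat_lit 76) (nat_lit 63614339662) (nat_lit 76) (nat_lit 18201637590) (nat_lit 7) (nat_lit 4) (nat_lit 8) (nat_lit 5) (nat_lit 8) (nat_lit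 4) (nat_lit 406) (nat_lit 314) (nat_lit 180)) (XT.nd (nat_lit 78) (nat_lit 76) (nat_lit 0) (XT.lf (nat_lit 0) (nat_lit 158862836623) (nat_lit 76) (nat_lit 49545594938) (nat_lit 76) (nat_lit 4129757985) (nat_lit 7) (nat_lit 4) (nat_lit 8) (nat_lit 5) (nat_lit 8) (nat_lit 4) (nat_lit 407) (nat_lit 314) (nat_lit 179)) (XT.lf (nat_lit 0) (nat_lit 10302744588) (nat_lit 152) (nat_lit 24298196146) (nat_lit 76) (nat_lit 187730119167) (nat_lit 6) (nat_lit 5) (nat_lit 8) (nat_lit 5) (nat_lit 7) (nat_lit 4) (nat_lit 408) (nat_lit 314) (nat_lit 178)))) (XT.nd (nat_lit 78) (nat_lit 0) (nat_lit 0) (XT.lf (nat_lit 0) (nat_lit 6690159340) (nat_lit 76) (nat_lit 18730243256) (nat_lit 152) (nat_lit 207184670797) (nat_lit 5) (nat_lit 5) (nat_lit 6) (nat_lit 5) (nat_lit 7) (nat_lit 4) (nat_lit 409) (nat_lit 314) (nat_lit 177)) (XT.nd (nat_lit 78) (nat_lit 0) (nat_lit 0) (XT.lf (nat_lit 0) (nat_lit 40067491934)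 (nat_lit 76) (nat_lit 1635857307) (nat_lit 152) (nat_lit 201668968534) (nat_lit 5) (nat_lit 5) (nat_lit 6) (nat_lit 5) (nat_lit 7) (nat_lit 4) (nat_lit 410) (nat_lit 314) (nat_lit 176)) (XT.lf (nat_lit 0) (nat_lit 59053113976) (nat_lit 152) (nat_lit 179822828210) (nat_lit 0) (nat_lit 15789349132) (nat_lit 5) (nat_lit 5) (nat_lit 7) (nat_lit 4) (nat_lit 5) (nat_lit 4) (nat_lit 411) (nat_lit 314) (nat_lit 175)))))) (XT.nd (nat_lit 468) (nat_lit 76) (nat_lit 0) (XT.nd (nat_lit 234) (nat_lit 0) (nat_lit 0) (XT.nd (nat_lit 78) (nat_lit 0) (nat_lit 0) (XT.lf (nat_lit 0) (nat_lit 77295255937) (nat_lit 152) (nat_lit 155197261813) (nat_lit 0) (nat_lit 34029151795) (nat_lit 5) (nat_lit 5) (nat_lit 7) (nat_lit 4) (nat_lit 5) (nat_lit 4) (nat_lit 412) (nat_lit 314) (nat_lit 174)) (XT.nd (nat_lit 78) (nat_lit 0) (nat_lit 0) (XT.lf (nat_lit 0) (nat_lit 96447668477) (nat_lit 152) (nat_lit 129343954031)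 (nat_lit 0) (nat_lit 53179336434) (nat_lit 5) (nat_lit 5) (nat_lit 7) (nat_lit 4) (nat_lit 5) (nat_lit 4) (nat_lit 413) (nat_lit 314) (nat_lit 173)) (XT.lf (nat_lit 0) (nat_lit 116555952580) (nat_lit 152) (nat_lit 102201349372) (nat_lit 0) (nat_lit 73285498726) (nat_lit 5) (nat_lit 5) (nat_lit 7) (nat_lit 4) (nat_lit 5) (nat_lit 4) (nat_lit 414) (nat_lit 314) (nat_lit 172)))) (XT.nd (nat_lit 78) (nat_lit 0) (nat_lit 0) (XT.lf (nat_lit 0) (nat_lit 137667985111) (nat_lit 152) (nat_lit 73704822586) (nat_lit 0) (nat_lit 94395510485) (nat_lit 5) (nat_lit 5) (nat_lit 7) (nat_lit 4) (nat_lit 5) (nat_lit 4) (nat_lit 415) (nat_lit 314) (nat_lit 171)) (XT.nd (nat_lit 78) (nat_lit 0) (nat_lit 0) (XT.lf (nat_lit 0) (nat_lit 159834032817) (nat_lit 152) (nat_lit 43786524798) (nat_lit 0) (nat_lit 116559633645) (nat_lit 5) (nat_lit 5) (nat_lit 7) (nat_lit 4) (nat_lit 5) (nat_lit 4) (nat_lit 416) (nat_lit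 314) (nat_lit 170)) (XT.lf (nat_lit 0) (nat_lit 183106871999) (nat_lit 152) (nat_lit 12375221968) (nat_lit 0) (nat_lit 139830639928) (nat_lit 5) (nat_lit 5) (nat_lit 7) (nat_lit 4) (nat_lit 5) (nat_lit 4) (nat_lit 417) (nat_lit 314) (nat_lit 169))))) (XT.nd (nat_lit 234) (nat_lit 0) (nat_lit 0) (XT.nd (nat_lit 78) (nat_lit 0) (nat_lit 0) (XT.lf (nat_lit 0) (nat_lit 21285131869) (nat_lit 76) (nat_lit 186589102871) (nat_lit 76) (nat_lit 143311125181) (nat_lit 4) (nat_lit 4) (nat_lit 5) (nat_lit 5) (nat_lit 5) (nat_lit 4) (nat_lit 418) (nat_lit 314) (nat_lit 168)) (XT.nd (nat_lit 78) (nat_lit 0) (nat_lit 0) (XT.lf (nat_lit 0) (nat_lit 57055416578) (nat_lit 76) (nat_lit 177032716407) (nat_lit 76) (nat_lit 133753076222) (nat_lit 4) (nat_lit 4) (nat_lit 5) (nat_lit 5) (nat_lit 5) (nat_lit 4) (nat_lit 419) (nat_lit 314) (nat_lit 167)) (XT.lf (nat_lit 0) (nat_lit 94611618775) (nat_lit 76) (nat_lit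 166999761644) (nat_lit 76) (nat_lit 123718538131) (nat_lit 4) (nat_lit 4) (nat_lit 5) (nat_lit 5) (nat_lit 5) (nat_lit 4) (nat_lit 420) (nat_lit 314) (nat_lit 166)))) (XT.nd (nat_lit 78) (nat_lit 0) (nat_lit 0) (XT.lf (nat_lit 0) (nat_lit 134043157989) (nat_lit 76) (nat_lit 156466350595) (nat_lit 76) (nat_lit 113183619151) (nat_lit 4) (nat_lit 4) (nat_lit 5) (nat_lit 5) (nat_lit 5) (nat_lit 4) (nat_lit 421) (nat_lit 314) (nat_lit 165)) (XT.nd (nat_lit 78) (nat_lit 0) (nat_lit 0) (XT.lf (nat_lit 0) (nat_lit 175443918839) (nat_lit 76) (nat_lit 145407403711) (nat_lit 76) (nat_lit 102123236142) (nat_lit 4) (nat_lit 4) (nat_lit 5) (nat_lit 5) (nat_lit 5) (nat_lit 4) (nat_lit 422) (nat_lit 314) (nat_lit 164)) (XT.lf (nat_lit 0) (nat_lit 218912474564) (nat_lit 76) (nat_lit 133796590166) (nat_lit 76) (nat_lit 90511054858) (nat_lit 4) (nat_lit 4) (nat_lit 5) (nat_lit 5) (nat_lit 5) (nat_lit 4)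 (nat_lit 423) (nat_lit 314) (nat_lit 163))))))) (XT.nd (nat_lit 38610) (nat_lit 0) (nat_lit 6308) (XT.nd (nat_lit 390) (nat_lit 152) (nat_lit 0) (XT.nd (nat_lit 156) (nat_lit 0) (nat_lit 0) (XT.nd (nat_lit 78) (nat_lit 0) (nat_lit 0) (XT.lf (nat_lit 0) (nat_lit 264552321724) (nat_lit 76) (nat_lit 121606265165) (nat_lit 76) (nat_lit 78319427249) (nat_lit 4) (nat_lit 4) (nat_lit 5) (nat_lit 5) (nat_lit 5) (nat_lit 4) (nat_lit 424) (nat_lit 314) (nat_lit 162)) (XT.lf (nat_lit 0) (nat_lit 312472126624) (nat_lit 76) (nat_lit 108807404124) (nat_lit 76) (nat_lit 65519325629) (nat_lit 4) (nat_lit 4) (nat_lit 5) (nat_lit 5) (nat_lit 5) (nat_lit 4) (nat_lit 425) (nat_lit 314) (nat_lit 161))) (XT.nd (nat_lit 78) (nat_lit 0) (nat_lit 0) (XT.lf (nat_lit 0) (nat_lit 362785984037) (nat_lit 76) (nat_lit 95369533566) (nat_lit 76) (nat_lit 52080273568) (nat_lit 4) (nat_lit 4) (nat_lit 5) (nat_lit 5) (nat_lit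 5) (nat_lit 4) (nat_lit 426) (nat_lit 314) (nat_lit 160)) (XT.nd (nat_lit 78) (nat_lit 0) (nat_lit 0) (XT.lf (nat_lit 0) (nat_lit 415613688860) (nat_lit 76) (nat_lit 81260658561) (nat_lit 76) (nat_lit 37970273320) (nat_lit 4) (nat_lit 4) (nat_lit 5) (nat_lit 5) (nat_lit 5) (nat_lit 4) (nat_lit 427) (nat_lit 314) (nat_lit 159)) (XT.lf (nat_lit 0) (nat_lit 471081021345) (nat_lit 76) (nat_lit 66447186548) (nat_lit 76) (nat_lit 23155729649) (nat_lit 4) (nat_lit 4) (nat_lit 5) (nat_lit 5) (nat_lit 5) (nat_lit 4) (nat_lit 428) (nat_lit 314) (nat_lit 158))))) (XT.nd (nat_lit 37986) (nat_lit 0) (nat_lit 8132) (XT.nd (nat_lit 78) (nat_lit 152) (nat_lit 0) (XT.lf (nat_lit 0) (nat_lit 529320046567) (nat_lit 76) (nat_lit 50893847357) (nat_lit 76) (nat_lit 7601369830) (nat_lit 4) (nat_lit 4) (nat_lit 5) (nat_lit 5) (nat_lit 5) (nat_lit 4) (nat_lit 429) (nat_lit 314) (nat_lit 157)) (XT.nd (nat_lit 78)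 (nat_lit 76) (nat_lit 0) (XT.lf (nat_lit 0) (nat_lit 8450430916) (nat_lit 152) (nat_lit 25970066174) (nat_lit 76) (nat_lit 581875885821) (nat_lit 3) (nat_lit 5) (nat_lit 5) (nat_lit 5) (nat_lit 4) (nat_lit 4) (nat_lit 430) (nat_lit 314) (nat_lit 156)) (XT.lf (nat_lit 0) (nat_lit 8321525675) (nat_lit 76) (nat_lit 16856962601) (nat_lit 152) (nat_lit 621010383168) (nat_lit 2) (nat_lit 5) (nat_lit 3) (nat_lit 5) (nat_lit 4) (nat_lit 4) (nat_lit 431) (nat_lit 314) (nat_lit 155)))) (XT.nd (nat_lit 78) (nat_lit 0) (nat_lit 0) (XT.lf (nat_lit 0) (nat_lit 2782283929) (nat_lit 684) (nat_lit 880843696) (nat_lit 684) (nat_lit 880843696) (nat_lit 109) (nat_lit 3) (nat_lit 118) (nat_lit 3) (nat_lit 118) (nat_lit 5) (nat_lit 315) (nat_lit 315) (nat_lit 270)) (XT.nd (nat_lit 78) (nat_lit 0) (nat_lit 0) (XT.lf (nat_lit 76) (nat_lit 2562173637) (nat_lit 0) (nat_lit 4010165941) (nat_lit 684) (nat_lit 2697984007)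 (nat_lit 110) (nat_lit 5) (nat_lit 109) (nat_lit 3) (nat_lit 118) (nat_lit 5) (nat_lit 316) (nat_lit 315) (nat_lit 269)) (XT.lf (nat_lit 76) (nat_lit 7134574716) (nat_lit 0) (nat_lit 472266059) (nat_lit 684) (nat_lit 1856254398) (nat_lit 110) (nat_lit 5) (nat_lit 109) (nat_lit 3) (nat_lit 118) (nat_lit 5) (nat_lit 317) (nat_lit 315) (nat_lit 268)))))) (XT.nd (nat_lit 468) (nat_lit 1216) (nat_lit 0) (XT.nd (nat_lit 234) (nat_lit 0) (nat_lit 76) (XT.nd (nat_lit 78) (nat_lit 684) (nat_lit 0) (XT.lf (nat_lit 76) (nat_lit 2261403168) (nat_lit 0) (nat_lit 6467015833) (nat_lit 684) (nat_lit 935403160) (nat_lit 111) (nat_lit 5) (nat_lit 110) (nat_lit 5) (nat_lit 119) (nat_lit 5) (nat_lit 318) (nat_lit 315) (nat_lit 267)) (XT.nd (nat_lit 78) (nat_lit 0) (nat_lit 76) (XT.lf (nat_lit 0) (nat_lit 28791834) (nat_lit 684) (nat_lit 2751494153) (nat_lit 760) (nat_lit 7094436046) (nat_lit 101) (nat_lit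 5) (nat_lit 110) (nat_lit 5) (nat_lit 111) (nat_lit 5) (nat_lit 319) (nat_lit 315) (nat_lit 266)) (XT.lf (nat_lit 0) (nat_lit 1014356276) (nat_lit 684) (nat_lit 7958772112) (nat_lit 760) (nat_lit 1122114943) (nat_lit 102) (nat_lit 5) (nat_lit 111) (nat_lit 5) (nat_lit 112) (nat_lit 5) (nat_lit 320) (nat_lit 315) (nat_lit 265)))) (XT.nd (nat_lit 78) (nat_lit 0) (nat_lit 0) (XT.lf (nat_lit 0) (nat_lit 2097010420) (nat_lit 684) (nat_lit 3038695899) (nat_lit 760) (nat_lit 5188763253) (nat_lit 102) (nat_lit 5) (nat_lit 111) (nat_lit 5) (nat_lit 112) (nat_lit 5) (nat_lit 321) (nat_lit 315) (nat_lit 264)) (XT.nd (nat_lit 78) (nat_lit 0) (nat_lit 76) (XT.lf (nat_lit 76) (nat_lit 2165991998) (nat_lit 0) (nat_lit 1058642704) (nat_lit 760) (nat_lit 7341046697) (nat_lit 103) (nat_lit 5) (nat_lit 102) (nat_lit 5) (nat_lit 112) (nat_lit 5) (nat_lit 322) (nat_lit 315) (nat_lit 263)) (XT.lf (nat_lit 0)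 (nat_lit 4470023980) (nat_lit 684) (nat_lit 3163651939) (nat_lit 760) (nat_lit 3182271706) (nat_lit 103) (nat_lit 5) (nat_lit 112) (nat_lit 5) (nat_lit 113) (nat_lit 5) (nat_lit 323) (nat_lit 315) (nat_lit 262))))) (XT.nd (nat_lit 234) (nat_lit 760) (nat_lit 0) (XT.nd (nat_lit 78) (nat_lit 608) (nat_lit 0) (XT.lf (nat_lit 76) (nat_lit 2361432423) (nat_lit 0) (nat_lit 3431206654) (nat_lit 760) (nat_lit 5285400262) (nat_lit 104) (nat_lit 5) (nat_lit 103) (nat_lit 5) (nat_lit 113) (nat_lit 5) (nat_lit 324) (nat_lit 315) (nat_lit 261)) (XT.nd (nat_lit 78) (nat_lit 684) (nat_lit 0) (XT.lf (nat_lit 0) (nat_lit 7213405775) (nat_lit 684) (nat_lit 3126698668) (nat_lit 76) (nat_lit 1011587292) (nat_lit 104) (nat_lit 5) (nat_lit 113) (nat_lit 5) (nat_lit 105) (nat_lit 5) (nat_lit 325) (nat_lit 315) (nat_lit 260)) (XT.lf (nat_lit 0) (nat_lit 2743259745) (nat_lit 684) (nat_lit 6025070661) (nat_lit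 760) (nat_lit 2867594784) (nat_lit 95) (nat_lit 5) (nat_lit 104) (nat_lit 5) (nat_lit 105) (nat_lit 5) (nat_lit 326) (nat_lit 315) (nat_lit 259)))) (XT.nd (nat_lit 78) (nat_lit 760) (nat_lit 0) (XT.lf (nat_lit 0) (nat_lit 8984770556) (nat_lit 684) (nat_lit 1434459419) (nat_lit 760) (nat_lit 1514280734) (nat_lit 95) (nat_lit 5) (nat_lit 104) (nat_lit 5) (nat_lit 105) (nat_lit 5) (nat_lit 327) (nat_lit 315) (nat_lit 258)) (XT.nd (nat_lit 78) (nat_lit 76) (nat_lit 0) (XT.lf (nat_lit 0) (nat_lit 3314804997) (nat_lit 684) (nat_lit 8909475798) (nat_lit 760) (nat_lit 18163752) (nat_lit 86) (nat_lit 5) (nat_lit 95) (nat_lit 5) (nat_lit 96) (nat_lit 5) (nat_lit 328) (nat_lit 315) (nat_lit 257)) (XT.lf (nat_lit 0) (nat_lit 1544856593) (nat_lit 760) (nat_lit 2650437008) (nat_lit 76) (nat_lit 8368274327) (nat_lit 85) (nat_lit 5) (nat_lit 95) (nat_lit 5) (nat_lit 86) (nat_lit 5) (nat_lit 329) (nat_lit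 315) (nat_lit 256))))))))
noncomputable def xc142 : XT := (XT.nd (nat_lit 1794) (nat_lit 1748) (nat_lit 0) (XT.nd (nat_lit 858) (nat_lit 1444) (nat_lit 0) (XT.nd (nat_lit 390) (nat_lit 912) (nat_lit 0) (XT.nd (nat_lit 156) (nat_lit 608) (nat_lit 0) (XT.nd (nat_lit 78) (nat_lit 0) (nat_lit 0) (XT.lf (nat_lit 0) (nat_lit 3230393432) (nat_lit 456) (nat_lit 8872316602) (nat_lit 76) (nat_lit 795816397) (nat_lit 80) (nat_lit 5) (nat_lit 86) (nat_lit 5) (nat_lit 81) (nat_lit 5) (nat_lit 330) (nat_lit 315) (nat_lit 255)) (XT.lf (nat_lit 0) (nat_lit 5084694304) (nat_lit 456) (nat_lit 2219790153) (nat_lit 76) (nat_lit 5941564651) (nat_lit 80) (nat_lit 5) (nat_lit 86) (nat_lit 5) (nat_lit 81) (nat_lit 5) (nat_lit 331) (nat_lit 315) (nat_lit 254))) (XT.nd (nat_lit 78) (nat_lit 304) (nat_lit 0) (XT.lf (nat_lit 0) (nat_lit 4892430310) (nat_lit 304) (nat_lit 2187178373) (nat_lit 380) (nat_lit 6528982986)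 (nat_lit 76) (nat_lit 5) (nat_lit 80) (nat_lit 5) (nat_lit 81) (nat_lit 5) (nat_lit 332) (nat_lit 315) (nat_lit 253)) (XT.nd (nat_lit 78) (nat_lit 304) (nat_lit 0) (XT.lf (nat_lit 0) (nat_lit 9234614676) (nat_lit 380) (nat_lit 1630850023) (nat_lit 76) (nat_lit 3120816196) (nat_lit 76) (nat_lit 5) (nat_lit 81) (nat_lit 5) (nat_lit 77) (nat_lit 5) (nat_lit 333) (nat_lit 315) (nat_lit 252)) (XT.lf (nat_lit 0) (nat_lit 5933801967) (nat_lit 304) (nat_lit 5665776341) (nat_lit 380) (nat_lit 2778200986) (nat_lit 72) (nat_lit 5) (nat_lit 76) (nat_lit 5) (nat_lit 77) (nat_lit 5) (nat_lit 334) (nat_lit 315) (nat_lit 251))))) (XT.nd (nat_lit 234) (nat_lit 532) (nat_lit 0) (XT.nd (nat_lit 78) (nat_lit 380) (nat_lit 0) (XT.lf (nat_lit 0) (nat_lit 13904785290) (nat_lit 304) (nat_lit 180139424) (nat_lit 380) (nat_lit 703854578) (nat_lit 72) (nat_lit 5) (nat_lit 76) (nat_lit 5) (nat_lit 77) (nat_lit 5)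 (nat_lit 335) (nat_lit 315) (nat_lit 250)) (XT.nd (nat_lit 78) (nat_lit 0) (nat_lit 0) (XT.lf (nat_lit 0) (nat_lit 1604569778) (nat_lit 380) (nat_lit 8069577537) (nat_lit 76) (nat_lit 5536184223) (nat_lit 67) (nat_lit 5) (nat_lit 72) (nat_lit 5) (nat_lit 68) (nat_lit 5) (nat_lit 336) (nat_lit 315) (nat_lit 249)) (XT.lf (nat_lit 0) (nat_lit 3998920504) (nat_lit 380) (nat_lit 98248374) (nat_lit 76) (nat_lit 11555536483) (nat_lit 67) (nat_lit 5) (nat_lit 72) (nat_lit 5) (nat_lit 68) (nat_lit 5) (nat_lit 337) (nat_lit 315) (nat_lit 248)))) (XT.nd (nat_lit 78) (nat_lit 228) (nat_lit 0) (XT.lf (nat_lit 0) (nat_lit 6652661673) (nat_lit 380) (nat_lit 7624406848) (nat_lit 76) (nat_lit 1833173194) (nat_lit 63) (nat_lit 5) (nat_lit 68) (nat_lit 5) (nat_lit 64) (nat_lit 5) (nat_lit 338) (nat_lit 315) (nat_lit 247)) (XT.nd (nat_lit 78) (nat_lit 0) (nat_lit 0) (XT.lf (nat_lit 0) (nat_lit 843793047)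 (nat_lit 228) (nat_lit 8655056828) (nat_lit 304) (nat_lit 7088843188) (nat_lit 60) (nat_lit 5) (nat_lit 63) (nat_lit 5) (nat_lit 64) (nat_lit 5) (nat_lit 339) (nat_lit 315) (nat_lit 246)) (XT.lf (nat_lit 0) (nat_lit 9972575276) (nat_lit 228) (nat_lit 2622254116) (nat_lit 304) (nat_lit 4488838421) (nat_lit 60) (nat_lit 5) (nat_lit 63) (nat_lit 5) (nat_lit 64) (nat_lit 5) (nat_lit 340) (nat_lit 315) (nat_lit 245)))))) (XT.nd (nat_lit 468) (nat_lit 608) (nat_lit 0) (XT.nd (nat_lit 234) (nat_lit 228) (nat_lit 0) (XT.nd (nat_lit 78) (nat_lit 304) (nat_lit 0) (XT.lf (nat_lit 0) (nat_lit 1929983555) (nat_lit 304) (nat_lit 13983016305) (nat_lit 380) (nat_lit 1688095585) (nat_lit 56) (nat_lit 5) (nat_lit 60) (nat_lit 5) (nat_lit 61) (nat_lit 5) (nat_lit 341) (nat_lit 315) (nat_lit 244)) (XT.nd (nat_lit 78) (nat_lit 228) (nat_lit 0) (XT.lf (nat_lit 0) (nat_lit 1357500482) (nat_lit 380) (nat_lit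 6560344286) (nat_lit 76) (nat_lit 10218347839) (nat_lit 55) (nat_lit 5) (nat_lit 60) (nat_lit 5) (nat_lit 56) (nat_lit 5) (nat_lit 342) (nat_lit 315) (nat_lit 243)) (XT.lf (nat_lit 0) (nat_lit 3049760426) (nat_lit 228) (nat_lit 1476993478) (nat_lit 304) (nat_lit 14168522115) (nat_lit 52) (nat_lit 5) (nat_lit 55) (nat_lit 5) (nat_lit 56) (nat_lit 5) (nat_lit 343) (nat_lit 315) (nat_lit 242)))) (XT.nd (nat_lit 78) (nat_lit 228) (nat_lit 0) (XT.lf (nat_lit 0) (nat_lit 8030837170) (nat_lit 304) (nat_lit 6019557487) (nat_lit 76) (nat_lit 5223120121) (nat_lit 52) (nat_lit 5) (nat_lit 56) (nat_lit 5) (nat_lit 53) (nat_lit 5) (nat_lit 344) (nat_lit 315) (nat_lit 241)) (XT.nd (nat_lit 78) (nat_lit 0) (nat_lit 0) (XT.lf (nat_lit 0) (nat_lit 4171690764) (nat_lit 228) (nat_lit 7609602906) (nat_lit 304) (nat_lit 8095831952) (nat_lit 49) (nat_lit 5) (nat_lit 52) (nat_lit 5) (nat_lit 53) (nat_lit 5)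 (nat_lit 345) (nat_lit 315) (nat_lit 240)) (XT.lf (nat_lit 0) (nat_lit 15056580267) (nat_lit 228) (nat_lit 746937776) (nat_lit 304) (nat_lit 4703204431) (nat_lit 49) (nat_lit 5) (nat_lit 52) (nat_lit 5) (nat_lit 53) (nat_lit 5) (nat_lit 346) (nat_lit 315) (nat_lit 239))))) (XT.nd (nat_lit 234) (nat_lit 152) (nat_lit 0) (XT.nd (nat_lit 78) (nat_lit 304) (nat_lit 0) (XT.lf (nat_lit 0) (nat_lit 5364291911) (nat_lit 152) (nat_lit 14830190839) (nat_lit 228) (nat_lit 964951836) (nat_lit 47) (nat_lit 5) (nat_lit 49) (nat_lit 5) (nat_lit 50) (nat_lit 5) (nat_lit 347) (nat_lit 315) (nat_lit 238)) (XT.nd (nat_lit 78) (nat_lit 228) (nat_lit 0) (XT.lf (nat_lit 0) (nat_lit 2954708734) (nat_lit 228) (nat_lit 5016127885) (nat_lit 76) (nat_lit 13867188093) (nat_lit 46) (nat_lit 5) (nat_lit 49) (nat_lit 5) (nat_lit 47) (nat_lit 5) (nat_lit 348) (nat_lit 315) (nat_lit 237)) (XT.lf (nat_lit 0) (nat_lit 6469610753)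 (nat_lit 228) (nat_lit 653304347) (nat_lit 304) (nat_lit 15422603304) (nat_lit 43) (nat_lit 5) (nat_lit 46) (nat_lit 5) (nat_lit 47) (nat_lit 5) (nat_lit 349) (nat_lit 315) (nat_lit 236)))) (XT.nd (nat_lit 78) (nat_lit 152) (nat_lit 0) (XT.lf (nat_lit 0) (nat_lit 11679902621) (nat_lit 304) (nat_lit 4715281693) (nat_lit 76) (nat_lit 6884197806) (nat_lit 43) (nat_lit 5) (nat_lit 47) (nat_lit 5) (nat_lit 44) (nat_lit 5) (nat_lit 350) (nat_lit 315) (nat_lit 235)) (XT.nd (nat_lit 78) (nat_lit 0) (nat_lit 0) (XT.lf (nat_lit 0) (nat_lit 7417426646) (nat_lit 152) (nat_lit 9158846755) (nat_lit 228) (nat_lit 7468102146) (nat_lit 41) (nat_lit 5) (nat_lit 43) (nat_lit 5) (nat_lit 44) (nat_lit 5) (nat_lit 351) (nat_lit 315) (nat_lit 234)) (XT.lf (nat_lit 0) (nat_lit 20298196563) (nat_lit 152) (nat_lit 1484504546) (nat_lit 228) (nat_lit 3061668211) (nat_lit 41) (nat_lit 5) (nat_lit 43) (nat_lit 5) (nat_lit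 44) (nat_lit 5) (nat_lit 352) (nat_lit 315) (nat_lit 233))))))) (XT.nd (nat_lit 858) (nat_lit 760) (nat_lit 0) (XT.nd (nat_lit 390) (nat_lit 456) (nat_lit 0) (XT.nd (nat_lit 156) (nat_lit 304) (nat_lit 0) (XT.nd (nat_lit 78) (nat_lit 0) (nat_lit 0) (XT.lf (nat_lit 0) (nat_lit 1736412534) (nat_lit 228) (nat_lit 17422303390) (nat_lit 76) (nat_lit 6513365621) (nat_lit 38) (nat_lit 5) (nat_lit 41) (nat_lit 5) (nat_lit 39) (nat_lit 5) (nat_lit 353) (nat_lit 315) (nat_lit 232)) (XT.lf (nat_lit 0) (nat_lit 6760157704) (nat_lit 228) (nat_lit 4791690900) (nat_lit 76) (nat_lit 14982399465) (nat_lit 38) (nat_lit 5) (nat_lit 41) (nat_lit 5) (nat_lit 39) (nat_lit 5) (nat_lit 354) (nat_lit 315) (nat_lit 231))) (XT.nd (nat_lit 78) (nat_lit 152) (nat_lit 0) (XT.lf (nat_lit 0) (nat_lit 8728946354) (nat_lit 152) (nat_lit 3429153359) (nat_lit 228) (nat_lit 15275283086) (nat_lit 36) (nat_lit 5) (nat_lit 38)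 (nat_lit 5) (nat_lit 39) (nat_lit 5) (nat_lit 355) (nat_lit 315) (nat_lit 230)) (XT.nd (nat_lit 78) (nat_lit 152) (nat_lit 0) (XT.lf (nat_lit 0) (nat_lit 17974958047) (nat_lit 228) (nat_lit 5383484495) (nat_lit 76) (nat_lit 5011590629) (nat_lit 36) (nat_lit 5) (nat_lit 39) (nat_lit 5) (nat_lit 37) (nat_lit 5) (nat_lit 356) (nat_lit 315) (nat_lit 229)) (XT.lf (nat_lit 0) (nat_lit 8809162588) (nat_lit 152) (nat_lit 15454790005) (nat_lit 228) (nat_lit 5080508197) (nat_lit 34) (nat_lit 5) (nat_lit 36) (nat_lit 5) (nat_lit 37) (nat_lit 5) (nat_lit 357) (nat_lit 315) (nat_lit 228))))) (XT.nd (nat_lit 234) (nat_lit 228) (nat_lit 0) (XT.nd (nat_lit 78) (nat_lit 152) (nat_lit 0) (XT.lf (nat_lit 0) (nat_lit 564075747) (nat_lit 228) (nat_lit 6494183454) (nat_lit 76) (nat_lit 23304954710) (nat_lit 33) (nat_lit 5) (nat_lit 36) (nat_lit 5) (nat_lit 34) (nat_lit 5) (nat_lit 358) (nat_lit 315) (nat_lit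 227)) (XT.nd (nat_lit 78) (nat_lit 0) (nat_lit 0) (XT.lf (nat_lit 0) (nat_lit 6470605681) (nat_lit 228) (nat_lit 23037779191) (nat_lit 76) (nat_lit 1912840821) (nat_lit 31) (nat_lit 5) (nat_lit 34) (nat_lit 5) (nat_lit 32) (nat_lit 5) (nat_lit 359) (nat_lit 315) (nat_lit 226)) (XT.lf (nat_lit 0) (nat_lit 12888315497) (nat_lit 228) (nat_lit 8433106656) (nat_lit 76) (nat_lit 11199930973) (nat_lit 31) (nat_lit 5) (nat_lit 34) (nat_lit 5) (nat_lit 32) (nat_lit 5) (nat_lit 360) (nat_lit 315) (nat_lit 225)))) (XT.nd (nat_lit 78) (nat_lit 76) (nat_lit 0) (XT.lf (nat_lit 0) (nat_lit 7110939809) (nat_lit 152) (nat_lit 12615906115) (nat_lit 228) (nat_lit 13944651612) (nat_lit 29) (nat_lit 5) (nat_lit 31) (nat_lit 5) (nat_lit 32) (nat_lit 5) (nat_lit 361) (nat_lit 315) (nat_lit 224)) (XT.nd (nat_lit 78) (nat_lit 76) (nat_lit 0) (XT.lf (nat_lit 0) (nat_lit 23706810488) (nat_lit 152) (nat_lit 3332469006)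 (nat_lit 228) (nat_lit 7833277852) (nat_lit 29) (nat_lit 5) (nat_lit 31) (nat_lit 5) (nat_lit 32) (nat_lit 5) (nat_lit 362) (nat_lit 315) (nat_lit 223)) (XT.lf (nat_lit 0) (nat_lit 5042326020) (nat_lit 76) (nat_lit 29843457286) (nat_lit 152) (nat_lit 1239471089) (nat_lit 28) (nat_lit 5) (nat_lit 29) (nat_lit 5) (nat_lit 30) (nat_lit 4) (nat_lit 363) (nat_lit 315) (nat_lit 222)))))) (XT.nd (nat_lit 468) (nat_lit 380) (nat_lit 0) (XT.nd (nat_lit 234) (nat_lit 152) (nat_lit 0) (XT.nd (nat_lit 78) (nat_lit 152) (nat_lit 0) (XT.lf (nat_lit 0) (nat_lit 5738546386) (nat_lit 152) (nat_lit 15146923474) (nat_lit 76) (nat_lit 16538863081) (nat_lit 27) (nat_lit 5) (nat_lit 29) (nat_lit 5) (nat_lit 28) (nat_lit 5) (nat_lit 364) (nat_lit 315) (nat_lit 221)) (XT.nd (nat_lit 78) (nat_lit 0) (nat_lit 0) (XT.lf (nat_lit 0) (nat_lit 1599843720) (nat_lit 152) (nat_lit 11439055927) (nat_lit 228) (nat_lit 25747701111)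 (nat_lit 25) (nat_lit 5) (nat_lit 27) (nat_lit 5) (nat_lit 28) (nat_lit 5) (nat_lit 365) (nat_lit 315) (nat_lit 220)) (XT.lf (nat_lit 0) (nat_lit 19693165474) (nat_lit 152) (nat_lit 1257947728) (nat_lit 228) (nat_lit 19253532126) (nat_lit 25) (nat_lit 5) (nat_lit 27) (nat_lit 5) (nat_lit 28) (nat_lit 5) (nat_lit 366) (nat_lit 315) (nat_lit 219)))) (XT.nd (nat_lit 78) (nat_lit 152) (nat_lit 0) (XT.lf (nat_lit 0) (nat_lit 29396880077) (nat_lit 228) (nat_lit 3165922420) (nat_lit 76) (nat_lit 9123897728) (nat_lit 25) (nat_lit 5) (nat_lit 28) (nat_lit 5) (nat_lit 26) (nat_lit 4) (nat_lit 367) (nat_lit 315) (nat_lit 218)) (XT.nd (nat_lit 78) (nat_lit 76) (nat_lit 0) (XT.lf (nat_lit 0) (nat_lit 15507169157) (nat_lit 76) (nat_lit 23011621763) (nat_lit 152) (nat_lit 4711379151) (nat_lit 24) (nat_lit 5) (nat_lit 25) (nat_lit 5) (nat_lit 26) (nat_lit 4) (nat_lit 368) (nat_lit 315) (nat_lit 217))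 (XT.lf (nat_lit 0) (nat_lit 3187749023) (nat_lit 152) (nat_lit 9691356950) (nat_lit 76) (nat_lit 31966895164) (nat_lit 23) (nat_lit 5) (nat_lit 25) (nat_lit 5) (nat_lit 24) (nat_lit 5) (nat_lit 369) (nat_lit 315) (nat_lit 216))))) (XT.nd (nat_lit 234) (nat_lit 152) (nat_lit 0) (XT.nd (nat_lit 78) (nat_lit 76) (nat_lit 0) (XT.lf (nat_lit 0) (nat_lit 9452412095) (nat_lit 152) (nat_lit 2010249298) (nat_lit 228) (nat_lit 35069146830) (nat_lit 21) (nat_lit 5) (nat_lit 23) (nat_lit 5) (nat_lit 24) (nat_lit 5) (nat_lit 370) (nat_lit 315) (nat_lit 215)) (XT.nd (nat_lit 78) (nat_lit 76) (nat_lit 0) (XT.lf (nat_lit 0) (nat_lit 20456588714) (nat_lit 228) (nat_lit 18568188495) (nat_lit 76) (nat_lit 9261869089) (nat_lit 21) (nat_lit 5) (nat_lit 24) (nat_lit 5) (nat_lit 22) (nat_lit 4) (nat_lit 371) (nat_lit 315) (nat_lit 214)) (XT.lf (nat_lit 0) (nat_lit 848655586) (nat_lit 76) (nat_lit 29089817362)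 (nat_lit 152) (nat_lit 20188844205) (nat_lit 20) (nat_lit 5) (nat_lit 21) (nat_lit 5) (nat_lit 22) (nat_lit 4) (nat_lit 372) (nat_lit 315) (nat_lit 213)))) (XT.nd (nat_lit 78) (nat_lit 152) (nat_lit 0) (XT.lf (nat_lit 0) (nat_lit 21867084068) (nat_lit 76) (nat_lit 18334045560) (nat_lit 152) (nat_lit 11843561728) (nat_lit 20) (nat_lit 5) (nat_lit 21) (nat_lit 5) (nat_lit 22) (nat_lit 4) (nat_lit 373) (nat_lit 315) (nat_lit 212)) (XT.nd (nat_lit 78) (nat_lit 152) (nat_lit 0) (XT.lf (nat_lit 0) (nat_lit 43923192658) (nat_lit 76) (nat_lit 7046314081) (nat_lit 152) (nat_lit 3088801692) (nat_lit 20) (nat_lit 5) (nat_lit 21) (nat_lit 5) (nat_lit 22) (nat_lit 4) (nat_lit 374) (nat_lit 315) (nat_lit 211)) (XT.lf (nat_lit 0) (nat_lit 6154738608) (nat_lit 152) (nat_lit 45080359961) (nat_lit 76) (nat_lit 4920426279) (nat_lit 18) (nat_lit 5) (nat_lit 20) (nat_lit 5) (nat_lit 19) (nat_lit 4) (nat_lit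 375) (nat_lit 315) (nat_lit 210))))))))
noncomputable def xc143 : XT := (XT.nd (nat_lit 1794) (nat_lit 380) (nat_lit 0) (XT.nd (nat_lit 858) (nat_lit 380) (nat_lit 0) (XT.nd (nat_lit 390) (nat_lit 152) (nat_lit 0) (XT.nd (nat_lit 156) (nat_lit 152) (nat_lit 0) (XT.nd (nat_lit 78) (nat_lit 0) (nat_lit 0) (XT.lf (nat_lit 0) (nat_lit 16039500597) (nat_lit 152) (nat_lit 24833066506) (nat_lit 76) (nat_lit 17468363805) (nat_lit 18) (nat_lit 5) (nat_lit 20) (nat_lit 5) (nat_lit 19) (nat_lit 4) (nat_lit 376) (nat_lit 315) (nat_lit 209)) (XT.lf (nat_lit 0) (nat_lit 26411718217) (nat_lit 152) (nat_lit 3585704787) (nat_lit 76) (nat_lit 30638526303) (nat_lit 18) (nat_lit 5) (nat_lit 20) (nat_lit 5) (nat_lit 19) (nat_lit 4) (nat_lit 377) (nat_lit 315) (nat_lit 208))) (XT.nd (nat_lit 78) (nat_lit 76) (nat_lit 0) (XT.lf (nat_lit 0) (nat_lit 19331027763) (nat_lit 76) (nat_lit 18266870979) (nat_lit 152)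 (nat_lit 25433055057) (nat_lit 17) (nat_lit 5) (nat_lit 18) (nat_lit 5) (nat_lit 19) (nat_lit 4) (nat_lit 378) (nat_lit 315) (nat_lit 207)) (XT.nd (nat_lit 78) (nat_lit 76) (nat_lit 0) (XT.lf (nat_lit 0) (nat_lit 43506562534) (nat_lit 76) (nat_lit 5891219616) (nat_lit 152) (nat_lit 16145209316) (nat_lit 17) (nat_lit 5) (nat_lit 18) (nat_lit 5) (nat_lit 19) (nat_lit 4) (nat_lit 379) (nat_lit 315) (nat_lit 206)) (XT.lf (nat_lit 0) (nat_lit 607588396) (nat_lit 76) (nat_lit 61294351121) (nat_lit 76) (nat_lit 6272980026) (nat_lit 16) (nat_lit 4) (nat_lit 17) (nat_lit 5) (nat_lit 17) (nat_lit 4) (nat_lit 380) (nat_lit 315) (nat_lit 205))))) (XT.nd (nat_lit 234) (nat_lit 0) (nat_lit 0) (XT.nd (nat_lit 78) (nat_lit 76) (nat_lit 0) (XT.lf (nat_lit 0) (nat_lit 4431667415) (nat_lit 152) (nat_lit 45948742032) (nat_lit 76) (nat_lit 20531351618) (nat_lit 15) (nat_lit 5) (nat_lit 17) (nat_lit 5) (nat_lit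 16) (nat_lit 4) (nat_lit 381) (nat_lit 315) (nat_lit 204)) (XT.nd (nat_lit 78) (nat_lit 76) (nat_lit 0) (XT.lf (nat_lit 0) (nat_lit 15454934766) (nat_lit 152) (nat_lit 23362747905) (nat_lit 76) (nat_lit 34962912340) (nat_lit 15) (nat_lit 5) (nat_lit 17) (nat_lit 5) (nat_lit 16) (nat_lit 4) (nat_lit 382) (nat_lit 315) (nat_lit 203)) (XT.lf (nat_lit 0) (nat_lit 353686380) (nat_lit 76) (nat_lit 26675678092) (nat_lit 152) (nat_lit 49763508303) (nat_lit 14) (nat_lit 5) (nat_lit 15) (nat_lit 5) (nat_lit 16) (nat_lit 4) (nat_lit 383) (nat_lit 315) (nat_lit 202)))) (XT.nd (nat_lit 78) (nat_lit 0) (nat_lit 0) (XT.lf (nat_lit 0) (nat_lit 26057028703) (nat_lit 76) (nat_lit 13515729985) (nat_lit 152) (nat_lit 40363495560) (nat_lit 14) (nat_lit 5) (nat_lit 15) (nat_lit 5) (nat_lit 16) (nat_lit 4) (nat_lit 384) (nat_lit 315) (nat_lit 201)) (XT.nd (nat_lit 78) (nat_lit 0) (nat_lit 0) (XT.lf (nat_lit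 0) (nat_lit 52742814170) (nat_lit 152) (nat_lit 30205715103) (nat_lit 0) (nat_lit 288302823) (nat_lit 14) (nat_lit 5) (nat_lit 16) (nat_lit 4) (nat_lit 14) (nat_lit 4) (nat_lit 385) (nat_lit 315) (nat_lit 200)) (XT.lf (nat_lit 0) (nat_lit 66787963791) (nat_lit 152) (nat_lit 5579365165) (nat_lit 0) (nat_lit 14324282099) (nat_lit 14) (nat_lit 5) (nat_lit 16) (nat_lit 4) (nat_lit 14) (nat_lit 4) (nat_lit 386) (nat_lit 315) (nat_lit 199)))))) (XT.nd (nat_lit 468) (nat_lit 152) (nat_lit 0) (XT.nd (nat_lit 234) (nat_lit 76) (nat_lit 0) (XT.nd (nat_lit 78) (nat_lit 76) (nat_lit 0) (XT.lf (nat_lit 0) (nat_lit 20939677301) (nat_lit 76) (nat_lit 60917879706) (nat_lit 76) (nat_lit 8445464352) (nat_lit 13) (nat_lit 4) (nat_lit 14) (nat_lit 5) (nat_lit 14) (nat_lit 4) (nat_lit 387) (nat_lit 315) (nat_lit 198)) (XT.nd (nat_lit 78) (nat_lit 0) (nat_lit 0) (XT.lf (nat_lit 0) (nat_lit 3562174926) (nat_lit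 152) (nat_lit 45178274527) (nat_lit 76) (nat_lit 45347189701) (nat_lit 12) (nat_lit 5) (nat_lit 14) (nat_lit 5) (nat_lit 13) (nat_lit 4) (nat_lit 388) (nat_lit 315) (nat_lit 197)) (XT.lf (nat_lit 0) (nat_lit 15881869804) (nat_lit 152) (nat_lit 19930821716) (nat_lit 76) (nat_lit 62242100448) (nat_lit 12) (nat_lit 5) (nat_lit 14) (nat_lit 5) (nat_lit 13) (nat_lit 4) (nat_lit 389) (nat_lit 315) (nat_lit 196)))) (XT.nd (nat_lit 78) (nat_lit 0) (nat_lit 0) (XT.lf (nat_lit 0) (nat_lit 6788251153) (nat_lit 76) (nat_lit 22130992960) (nat_lit 152) (nat_lit 73295974976) (nat_lit 11) (nat_lit 5) (nat_lit 12) (nat_lit 5) (nat_lit 13) (nat_lit 4) (nat_lit 390) (nat_lit 315) (nat_lit 195)) (XT.nd (nat_lit 78) (nat_lit 0) (nat_lit 0) (XT.lf (nat_lit 0) (nat_lit 35527341121) (nat_lit 76) (nat_lit 7414476248) (nat_lit 152) (nat_lit 63625185022) (nat_lit 11) (nat_lit 5) (nat_lit 12) (nat_lit 5) (nat_lit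 13) (nat_lit 4) (nat_lit 391) (nat_lit 315) (nat_lit 194)) (XT.lf (nat_lit 0) (nat_lit 57786950654) (nat_lit 152) (nat_lit 45566143763) (nat_lit 0) (nat_lit 7777210141) (nat_lit 11) (nat_lit 5) (nat_lit 13) (nat_lit 4) (nat_lit 11) (nat_lit 4) (nat_lit 392) (nat_lit 315) (nat_lit 193))))) (XT.nd (nat_lit 234) (nat_lit 76) (nat_lit 0) (XT.nd (nat_lit 78) (nat_lit 76) (nat_lit 0) (XT.lf (nat_lit 0) (nat_lit 73492020584) (nat_lit 152) (nat_lit 18947795242) (nat_lit 0) (nat_lit 23476073220) (nat_lit 11) (nat_lit 5) (nat_lit 13) (nat_lit 4) (nat_lit 11) (nat_lit 4) (nat_lit 393) (nat_lit 315) (nat_lit 192)) (XT.nd (nat_lit 78) (nat_lit 0) (nat_lit 0) (XT.lf (nat_lit 0) (nat_lit 9291921585) (nat_lit 76) (nat_lit 80831810780) (nat_lit 76) (nat_lit 30809952130) (nat_lit 10) (nat_lit 4) (nat_lit 11) (nat_lit 5) (nat_lit 11) (nat_lit 4) (nat_lit 394) (nat_lit 315) (nat_lit 191)) (XT.lf (nat_lit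 0) (nat_lit 39594612356) (nat_lit 76) (nat_lit 68309691596) (nat_lit 76) (nat_lit 18282203150) (nat_lit 10) (nat_lit 4) (nat_lit 11) (nat_lit 5) (nat_lit 11) (nat_lit 4) (nat_lit 395) (nat_lit 315) (nat_lit 190)))) (XT.nd (nat_lit 78) (nat_lit 76) (nat_lit 0) (XT.lf (nat_lit 0) (nat_lit 71405926653) (nat_lit 76) (nat_lit 55164533787) (nat_lit 76) (nat_lit 5131683630) (nat_lit 10) (nat_lit 4) (nat_lit 11) (nat_lit 5) (nat_lit 11) (nat_lit 4) (nat_lit 396) (nat_lit 315) (nat_lit 189)) (XT.nd (nat_lit 78) (nat_lit 0) (nat_lit 0) (XT.lf (nat_lit 0) (nat_lit 8395329676) (nat_lit 152) (nat_lit 32827530710) (nat_lit 76) (nat_lit 96264097052) (nat_lit 9) (nat_lit 5) (nat_lit 11) (nat_lit 5) (nat_lit 10) (nat_lit 4) (nat_lit 397) (nat_lit 315) (nat_lit 188)) (XT.lf (nat_lit 0) (nat_lit 22423059787) (nat_lit 152) (nat_lit 4075547214) (nat_lit 76) (nat_lit 117058357863) (nat_lit 9) (nat_lit 5) (nat_lit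 11) (nat_lit 5) (nat_lit 10) (nat_lit 4) (nat_lit 398) (nat_lit 315) (nat_lit 187))))))) (XT.nd (nat_lit 858) (nat_lit 152) (nat_lit 0) (XT.nd (nat_lit 390) (nat_lit 152) (nat_lit 0) (XT.nd (nat_lit 156) (nat_lit 0) (nat_lit 0) (XT.nd (nat_lit 78) (nat_lit 0) (nat_lit 0) (XT.lf (nat_lit 0) (nat_lit 26971568779) (nat_lit 76) (nat_lit 10598684978) (nat_lit 152) (nat_lit 112339315895) (nat_lit 8) (nat_lit 5) (nat_lit 9) (nat_lit 5) (nat_lit 10) (nat_lit 4) (nat_lit 399) (nat_lit 315) (nat_lit 186)) (XT.lf (nat_lit 0) (nat_lit 53637129624) (nat_lit 152) (nat_lit 96965870636) (nat_lit 0) (nat_lit 5968689130) (nat_lit 8) (nat_lit 5) (nat_lit 10) (nat_lit 4) (nat_lit 8) (nat_lit 4) (nat_lit 400) (nat_lit 315) (nat_lit 185))) (XT.nd (nat_lit 78) (nat_lit 0) (nat_lit 0) (XT.lf (nat_lit 0) (nat_lit 70678231598) (nat_lit 152) (nat_lit 69874350068) (nat_lit 0) (nat_lit 23005790114) (nat_lit 8) (nat_lit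 5) (nat_lit 10) (nat_lit 4) (nat_lit 8) (nat_lit 4) (nat_lit 401) (nat_lit 315) (nat_lit 184)) (XT.nd (nat_lit 78) (nat_lit 0) (nat_lit 0) (XT.lf (nat_lit 0) (nat_lit 88568658558) (nat_lit 152) (nat_lit 41433460374) (nat_lit 0) (nat_lit 40892406606) (nat_lit 8) (nat_lit 5) (nat_lit 10) (nat_lit 4) (nat_lit 8) (nat_lit 4) (nat_lit 402) (nat_lit 315) (nat_lit 183)) (XT.lf (nat_lit 0) (nat_lit 107351006758) (nat_lit 152) (nat_lit 11575485149) (nat_lit 0) (nat_lit 59671125789) (nat_lit 8) (nat_lit 5) (nat_lit 10) (nat_lit 4) (nat_lit 8) (nat_lit 4) (nat_lit 403) (nat_lit 315) (nat_lit 182))))) (XT.nd (nat_lit 234) (nat_lit 76) (nat_lit 0) (XT.nd (nat_lit 78) (nat_lit 0) (nat_lit 0) (XT.lf (nat_lit 0) (nat_lit 20424373527) (nat_lit 76) (nat_lit 106964504257) (nat_lit 76) (nat_lit 59281167081) (nat_lit 7) (nat_lit 4) (nat_lit 8) (nat_lit 5) (nat_lit 8) (nat_lit 4) (nat_lit 404) (nat_lit 315)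 (nat_lit 181)) (XT.nd (nat_lit 78) (nat_lit 0) (nat_lit 0) (XT.lf (nat_lit 0) (nat_lit 54421453205) (nat_lit 76) (nat_lit 94200794677) (nat_lit 76) (nat_lit 46514165877) (nat_lit 7) (nat_lit 4) (nat_lit 8) (nat_lit 5) (nat_lit 8) (nat_lit 4) (nat_lit 405) (nat_lit 315) (nat_lit 180)) (XT.lf (nat_lit 0) (nat_lit 90113961497) (nat_lit 76) (nat_lit 80801009827) (nat_lit 76) (nat_lit 33111246145) (nat_lit 7) (nat_lit 4) (nat_lit 8) (nat_lit 5) (nat_lit 8) (nat_lit 4) (nat_lit 406) (nat_lit 315) (nat_lit 179)))) (XT.nd (nat_lit 78) (nat_lit 76) (nat_lit 0) (XT.lf (nat_lit 0) (nat_lit 127586880563) (nat_lit 76) (nat_lit 66733245455) (nat_lit 76) (nat_lit 19040496172) (nat_lit 7) (nat_lit 4) (nat_lit 8) (nat_lit 5) (nat_lit 8) (nat_lit 4) (nat_lit 407) (nat_lit 315) (nat_lit 178)) (XT.nd (nat_lit 78) (nat_lit 76) (nat_lit 0) (XT.lf (nat_lit 0) (nat_lit 166929431641) (nat_lit 76) (nat_lit 51964006885)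 (nat_lit 76) (nat_lit 4268414172) (nat_lit 7) (nat_lit 4) (nat_lit 8) (nat_lit 5) (nat_lit 8) (nat_lit 4) (nat_lit 408) (nat_lit 315) (nat_lit 177)) (XT.lf (nat_lit 0) (nat_lit 10880415793) (nat_lit 152) (nat_lit 25393448363) (nat_lit 76) (nat_lit 197170606572) (nat_lit 6) (nat_lit 5) (nat_lit 8) (nat_lit 5) (nat_lit 7) (nat_lit 4) (nat_lit 409) (nat_lit 315) (nat_lit 176)))))) (XT.nd (nat_lit 468) (nat_lit 76) (nat_lit 0) (XT.nd (nat_lit 234) (nat_lit 0) (nat_lit 0) (XT.nd (nat_lit 78) (nat_lit 0) (nat_lit 0) (XT.lf (nat_lit 0) (nat_lit 7142394936) (nat_lit 76) (nat_lit 19610422015) (nat_lit 152) (nat_lit 217479425667) (nat_lit 5) (nat_lit 5) (nat_lit 6) (nat_lit 5) (nat_lit 7) (nat_lit 4) (nat_lit 410) (nat_lit 315) (nat_lit 175)) (XT.nd (nat_lit 78) (nat_lit 0) (nat_lit 0) (XT.lf (nat_lit 0) (nat_lit 42182988082) (nat_lit 76) (nat_lit 1663999312) (nat_lit 152) (nat_lit 211691008704)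 (nat_lit 5) (nat_lit 5) (nat_lit 6) (nat_lit 5) (nat_lit 7) (nat_lit 4) (nat_lit 411) (nat_lit 315) (nat_lit 174)) (XT.lf (nat_lit 0) (nat_lit 62062253800) (nat_lit 152) (nat_lit 188705187261) (nat_lit 0) (nat_lit 16628277253) (nat_lit 5) (nat_lit 5) (nat_lit 7) (nat_lit 4) (nat_lit 5) (nat_lit 4) (nat_lit 412) (nat_lit 315) (nat_lit 173)))) (XT.nd (nat_lit 78) (nat_lit 0) (nat_lit 0) (XT.lf (nat_lit 0) (nat_lit 81213813138) (nat_lit 152) (nat_lit 162853522656) (nat_lit 0) (nat_lit 35777714780) (nat_lit 5) (nat_lit 5) (nat_lit 7) (nat_lit 4) (nat_lit 5) (nat_lit 4) (nat_lit 413) (nat_lit 315) (nat_lit 172)) (XT.nd (nat_lit 78) (nat_lit 0) (nat_lit 0) (XT.lf (nat_lit 0) (nat_lit 101321284667) (nat_lit 152) (nat_lit 135712482926) (nat_lit 0) (nat_lit 55883165537) (nat_lit 5) (nat_lit 5) (nat_lit 7) (nat_lit 4) (nat_lit 5) (nat_lit 4) (nat_lit 414) (nat_lit 315) (nat_lit 171)) (XT.lf (nat_lit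 0) (nat_lit 122432543319) (nat_lit 152) (nat_lit 107217446548) (nat_lit 0) (nat_lit 76992499644) (nat_lit 5) (nat_lit 5) (nat_lit 7) (nat_lit 4) (nat_lit 5) (nat_lit 4) (nat_lit 415) (nat_lit 315) (nat_lit 170))))) (XT.nd (nat_lit 234) (nat_lit 76) (nat_lit 0) (XT.nd (nat_lit 78) (nat_lit 0) (nat_lit 0) (XT.lf (nat_lit 0) (nat_lit 144597853996) (nat_lit 152) (nat_lit 77300568198) (nat_lit 0) (nat_lit 99155977421) (nat_lit 5) (nat_lit 5) (nat_lit 7) (nat_lit 4) (nat_lit 5) (nat_lit 4) (nat_lit 416) (nat_lit 315) (nat_lit 169)) (XT.nd (nat_lit 78) (nat_lit 0) (nat_lit 0) (XT.lf (nat_lit 0) (nat_lit 167869991247) (nat_lit 152) (nat_lit 45890617213) (nat_lit 0) (nat_lit 122426369053) (nat_lit 5) (nat_lit 5) (nat_lit 7) (nat_lit 4) (nat_lit 5) (nat_lit 4) (nat_lit 417) (nat_lit 315) (nat_lit 168)) (XT.lf (nat_lit 0) (nat_lit 192304364923) (nat_lit 152) (nat_lit 12912807994) (nat_lit 0) (nat_lit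 146859080234) (nat_lit 5) (nat_lit 5) (nat_lit 7) (nat_lit 4) (nat_lit 5) (nat_lit 4) (nat_lit 418) (nat_lit 315) (nat_lit 167)))) (XT.nd (nat_lit 78) (nat_lit 0) (nat_lit 0) (XT.lf (nat_lit 0) (nat_lit 22429254259) (nat_lit 76) (nat_lit 195880081360) (nat_lit 76) (nat_lit 150433213344) (nat_lit 4) (nat_lit 4) (nat_lit 5) (nat_lit 5) (nat_lit 5) (nat_lit 4) (nat_lit 419) (nat_lit 315) (nat_lit 166)) (XT.nd (nat_lit 78) (nat_lit 0) (nat_lit 0) (XT.lf (nat_lit 0) (nat_lit 59984250070) (nat_lit 76) (nat_lit 185847707794) (nat_lit 76) (nat_lit 140399331846) (nat_lit 4) (nat_lit 4) (nat_lit 5) (nat_lit 5) (nat_lit 5) (nat_lit 4) (nat_lit 420) (nat_lit 315) (nat_lit 165)) (XT.lf (nat_lit 0) (nat_lit 99414640345) (nat_lit 76) (nat_lit 175314850266) (nat_lit 76) (nat_lit 129865038193) (nat_lit 4) (nat_lit 4) (nat_lit 5) (nat_lit 5) (nat_lit 5) (nat_lit 4) (nat_lit 421) (nat_lit 315) (nat_lit 164))))))))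
noncomputable def xc144 : XT := (XT.nd (nat_lit 39546) (nat_lit 0) (nat_lit 3040) (XT.nd (nat_lit 38688) (nat_lit 0) (nat_lit 6992) (XT.nd (nat_lit 390) (nat_lit 76) (nat_lit 0) (XT.nd (nat_lit 156) (nat_lit 0) (nat_lit 0) (XT.nd (nat_lit 78) (nat_lit 0) (nat_lit 0) (XT.lf (nat_lit 0) (nat_lit 140814306967) (nat_lit 76) (nat_lit 164256430544) (nat_lit 76) (nat_lit 118805250732) (nat_lit 4) (nat_lit 4) (nat_lit 5) (nat_lit 5) (nat_lit 5) (nat_lit 4) (nat_lit 422) (nat_lit 315) (nat_lit 163)) (XT.lf (nat_lit 0) (nat_lit 184281820569) (nat_lit 76) (nat_lit 152646119058) (nat_lit 76) (nat_lit 107193636638) (nat_lit 4) (nat_lit 4) (nat_lit 5) (nat_lit 5) (nat_lit 5) (nat_lit 4) (nat_lit 423) (nat_lit 315) (nat_lit 162))) (XT.nd (nat_lit 78) (nat_lit 0) (nat_lit 0) (XT.lf (nat_lit 0) (nat_lit 229920675233) (nat_lit 76) (nat_lit 140456272208) (nat_lit 76) (nat_lit 95002549210) (nat_lit 4) (nat_lit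 4) (nat_lit 5) (nat_lit 5) (nat_lit 5) (nat_lit 4) (nat_lit 424) (nat_lit 315) (nat_lit 161)) (XT.nd (nat_lit 78) (nat_lit 0) (nat_lit 0) (XT.lf (nat_lit 0) (nat_lit 277839534898) (nat_lit 76) (nat_lit 127657866551) (nat_lit 76) (nat_lit 82202962048) (nat_lit 4) (nat_lit 4) (nat_lit 5) (nat_lit 5) (nat_lit 5) (nat_lit 4) (nat_lit 425) (nat_lit 315) (nat_lit 160)) (XT.lf (nat_lit 0) (nat_lit 328152492086) (nat_lit 76) (nat_lit 114220429690) (nat_lit 76) (nat_lit 68764399946) (nat_lit 4) (nat_lit 4) (nat_lit 5) (nat_lit 5) (nat_lit 5) (nat_lit 4) (nat_lit 426) (nat_lit 315) (nat_lit 159))))) (XT.nd (nat_lit 234) (nat_lit 76) (nat_lit 0) (XT.nd (nat_lit 78) (nat_lit 0) (nat_lit 0) (XT.lf (nat_lit 0) (nat_lit 380979339553) (nat_lit 76) (nat_lit 100111967730) (nat_lit 76) (nat_lit 54654866327) (nat_lit 4) (nat_lit 4) (nat_lit 5) (nat_lit 5) (nat_lit 5) (nat_lit 4) (nat_lit 427) (nat_lit 315)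 (nat_lit 158)) (XT.nd (nat_lit 78) (nat_lit 0) (nat_lit 0) (XT.lf (nat_lit 0) (nat_lit 436445855508) (nat_lit 76) (nat_lit 85298889094) (nat_lit 76) (nat_lit 39840767064) (nat_lit 4) (nat_lit 4) (nat_lit 5) (nat_lit 5) (nat_lit 5) (nat_lit 4) (nat_lit 428) (nat_lit 315) (nat_lit 157)) (XT.lf (nat_lit 0) (nat_lit 494684103083) (nat_lit 76) (nat_lit 69745924547) (nat_lit 76) (nat_lit 24286830491) (nat_lit 4) (nat_lit 4) (nat_lit 5) (nat_lit 5) (nat_lit 5) (nat_lit 4) (nat_lit 429) (nat_lit 315) (nat_lit 156)))) (XT.nd (nat_lit 78) (nat_lit 76) (nat_lit 0) (XT.lf (nat_lit 0) (nat_lit 555832744773) (nat_lit 76) (nat_lit 53416043221) (nat_lit 76) (nat_lit 7956023426) (nat_lit 4) (nat_lit 4) (nat_lit 5) (nat_lit 5) (nat_lit 5) (nat_lit 4) (nat_lit 430) (nat_lit 315) (nat_lit 155)) (XT.nd (nat_lit 37908) (nat_lit 0) (nat_lit 8056) (XT.lf (nat_lit 0) (nat_lit 8896382424) (nat_lit 152) (nat_lit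 27223317482) (nat_lit 76) (nat_lit 610990325616) (nat_lit 3) (nat_lit 5) (nat_lit 5) (nat_lit 5) (nat_lit 4) (nat_lit 4) (nat_lit 431) (nat_lit 315) (nat_lit 154)) (XT.lf (nat_lit 0) (nat_lit 3737115314) (nat_lit 684) (nat_lit 495952793) (nat_lit 684) (nat_lit 495952793) (nat_lit 109) (nat_lit 3) (nat_lit 118) (nat_lit 3) (nat_lit 118) (nat_lit 5) (nat_lit 316) (nat_lit 316) (nat_lit 268)))))) (XT.nd (nat_lit 390) (nat_lit 456) (nat_lit 0) (XT.nd (nat_lit 156) (nat_lit 608) (nat_lit 0) (XT.nd (nat_lit 78) (nat_lit 0) (nat_lit 0) (XT.lf (nat_lit 76) (nat_lit 3534311942) (nat_lit 0) (nat_lit 4933569309) (nat_lit 684) (nat_lit 1185015848) (nat_lit 110) (nat_lit 5) (nat_lit 109) (nat_lit 3) (nat_lit 118) (nat_lit 5) (nat_lit 317) (nat_lit 316) (nat_lit 267)) (XT.lf (nat_lit 76) (nat_lit 8295141188) (nat_lit 0) (nat_lit 1184350858) (nat_lit 684) (nat_lit 379669632) (nat_lit 110) (nat_lit 5)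 (nat_lit 109) (nat_lit 3) (nat_lit 118) (nat_lit 5) (nat_lit 318) (nat_lit 316) (nat_lit 266))) (XT.nd (nat_lit 78) (nat_lit 0) (nat_lit 0) (XT.lf (nat_lit 0) (nat_lit 499604652) (nat_lit 684) (nat_lit 6829714599) (nat_lit 760) (nat_lit 2743700733) (nat_lit 101) (nat_lit 5) (nat_lit 110) (nat_lit 5) (nat_lit 111) (nat_lit 5) (nat_lit 319) (nat_lit 316) (nat_lit 265)) (XT.nd (nat_lit 78) (nat_lit 0) (nat_lit 76) (XT.lf (nat_lit 0) (nat_lit 1411509797) (nat_lit 684) (nat_lit 2005744227) (nat_lit 760) (nat_lit 6880004101) (nat_lit 101) (nat_lit 5) (nat_lit 110) (nat_lit 5) (nat_lit 111) (nat_lit 5) (nat_lit 320) (nat_lit 316) (nat_lit 264)) (XT.lf (nat_lit 0) (nat_lit 2386964233) (nat_lit 684) (nat_lit 7411963484) (nat_lit 760) (nat_lit 732948902) (nat_lit 102) (nat_lit 5) (nat_lit 111) (nat_lit 5) (nat_lit 112) (nat_lit 5) (nat_lit 321) (nat_lit 316) (nat_lit 263))))) (XT.nd (nat_lit 234)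 (nat_lit 532) (nat_lit 0) (XT.nd (nat_lit 78) (nat_lit 0) (nat_lit 0) (XT.lf (nat_lit 0) (nat_lit 3460803935) (nat_lit 684) (nat_lit 2290871424) (nat_lit 760) (nat_lit 5024133046) (nat_lit 102) (nat_lit 5) (nat_lit 111) (nat_lit 5) (nat_lit 112) (nat_lit 5) (nat_lit 322) (nat_lit 316) (nat_lit 262)) (XT.nd (nat_lit 78) (nat_lit 0) (nat_lit 76) (XT.lf (nat_lit 76) (nat_lit 3159538623) (nat_lit 0) (nat_lit 1439142329) (nat_lit 760) (nat_lit 6432798557) (nat_lit 103) (nat_lit 5) (nat_lit 102) (nat_lit 5) (nat_lit 112) (nat_lit 5) (nat_lit 323) (nat_lit 316) (nat_lit 261)) (XT.lf (nat_lit 0) (nat_lit 5843715910) (nat_lit 684) (nat_lit 2414360983) (nat_lit 760) (nat_lit 3039401211) (nat_lit 103) (nat_lit 5) (nat_lit 112) (nat_lit 5) (nat_lit 113) (nat_lit 5) (nat_lit 324) (nat_lit 316) (nat_lit 260)))) (XT.nd (nat_lit 78) (nat_lit 608) (nat_lit 0) (XT.lf (nat_lit 76) (nat_lit 3372340928) (nat_lit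 0) (nat_lit 3819289533) (nat_lit 760) (nat_lit 4383169191) (nat_lit 104) (nat_lit 5) (nat_lit 103) (nat_lit 5) (nat_lit 113) (nat_lit 5) (nat_lit 325) (nat_lit 316) (nat_lit 259)) (XT.nd (nat_lit 78) (nat_lit 684) (nat_lit 0) (XT.lf (nat_lit 0) (nat_lit 8627389308) (nat_lit 684) (nat_lit 2375072591) (nat_lit 76) (nat_lit 862554778) (nat_lit 104) (nat_lit 5) (nat_lit 113) (nat_lit 5) (nat_lit 105) (nat_lit 5) (nat_lit 326) (nat_lit 316) (nat_lit 258)) (XT.lf (nat_lit 0) (nat_lit 3773739211) (nat_lit 684) (nat_lit 6450110359) (nat_lit 760) (nat_lit 1941498668) (nat_lit 95) (nat_lit 5) (nat_lit 104) (nat_lit 5) (nat_lit 105) (nat_lit 5) (nat_lit 327) (nat_lit 316) (nat_lit 257))))))) (XT.nd (nat_lit 858) (nat_lit 1520) (nat_lit 0) (XT.nd (nat_lit 390) (nat_lit 1292) (nat_lit 0) (XT.nd (nat_lit 156) (nat_lit 380) (nat_lit 0) (XT.nd (nat_lit 78) (nat_lit 760) (nat_lit 0) (XT.lf (nat_lit 0)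 (nat_lit 10284786683) (nat_lit 684) (nat_lit 1624073976) (nat_lit 760) (nat_lit 571446336) (nat_lit 95) (nat_lit 5) (nat_lit 104) (nat_lit 5) (nat_lit 105) (nat_lit 5) (nat_lit 328) (nat_lit 316) (nat_lit 256)) (XT.lf (nat_lit 0) (nat_lit 932845882) (nat_lit 760) (nat_lit 8453016814) (nat_lit 76) (nat_lit 3419842224) (nat_lit 85) (nat_lit 5) (nat_lit 95) (nat_lit 5) (nat_lit 86) (nat_lit 5) (nat_lit 329) (nat_lit 316) (nat_lit 255))) (XT.nd (nat_lit 78) (nat_lit 380) (nat_lit 0) (XT.lf (nat_lit 0) (nat_lit 2528106471) (nat_lit 760) (nat_lit 1906095099) (nat_lit 76) (nat_lit 8710995474) (nat_lit 85) (nat_lit 5) (nat_lit 95) (nat_lit 5) (nat_lit 86) (nat_lit 5) (nat_lit 330) (nat_lit 316) (nat_lit 254)) (XT.nd (nat_lit 78) (nat_lit 0) (nat_lit 0) (XT.lf (nat_lit 0) (nat_lit 4268033919) (nat_lit 456) (nat_lit 8407992984) (nat_lit 76) (nat_lit 822430354) (nat_lit 80) (nat_lit 5) (nat_lit 86)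 (nat_lit 5) (nat_lit 81) (nat_lit 5) (nat_lit 331) (nat_lit 316) (nat_lit 253)) (XT.lf (nat_lit 0) (nat_lit 6173329796) (nat_lit 456) (nat_lit 1466075424) (nat_lit 76) (nat_lit 6226093490) (nat_lit 80) (nat_lit 5) (nat_lit 86) (nat_lit 5) (nat_lit 81) (nat_lit 5) (nat_lit 332) (nat_lit 316) (nat_lit 252))))) (XT.nd (nat_lit 234) (nat_lit 684) (nat_lit 0) (XT.nd (nat_lit 78) (nat_lit 304) (nat_lit 0) (XT.lf (nat_lit 0) (nat_lit 5987809219) (nat_lit 304) (nat_lit 2253730012) (nat_lit 380) (nat_lit 6006005645) (nat_lit 76) (nat_lit 5) (nat_lit 80) (nat_lit 5) (nat_lit 81) (nat_lit 5) (nat_lit 333) (nat_lit 316) (nat_lit 251)) (XT.nd (nat_lit 78) (nat_lit 304) (nat_lit 0) (XT.lf (nat_lit 0) (nat_lit 10466458225) (nat_lit 380) (nat_lit 863282592) (nat_lit 76) (nat_lit 3316320987) (nat_lit 76) (nat_lit 5) (nat_lit 81) (nat_lit 5) (nat_lit 77) (nat_lit 5) (nat_lit 334) (nat_lit 316) (nat_lit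 250)) (XT.lf (nat_lit 0) (nat_lit 7065906676) (nat_lit 304) (nat_lit 5860134487) (nat_lit 380) (nat_lit 2132324332) (nat_lit 72) (nat_lit 5) (nat_lit 76) (nat_lit 5) (nat_lit 77) (nat_lit 5) (nat_lit 335) (nat_lit 316) (nat_lit 249)))) (XT.nd (nat_lit 78) (nat_lit 608) (nat_lit 0) (XT.lf (nat_lit 0) (nat_lit 8100753) (nat_lit 380) (nat_lit 96212574) (nat_lit 76) (nat_lit 15387419574) (nat_lit 71) (nat_lit 5) (nat_lit 76) (nat_lit 5) (nat_lit 72) (nat_lit 5) (nat_lit 336) (nat_lit 316) (nat_lit 248)) (XT.nd (nat_lit 78) (nat_lit 304) (nat_lit 0) (XT.lf (nat_lit 0) (nat_lit 2388091075) (nat_lit 380) (nat_lit 7631567438) (nat_lit 76) (nat_lit 5915179638) (nat_lit 67) (nat_lit 5) (nat_lit 72) (nat_lit 5) (nat_lit 68) (nat_lit 5) (nat_lit 337) (nat_lit 316) (nat_lit 247)) (XT.lf (nat_lit 0) (nat_lit 721344817) (nat_lit 304) (nat_lit 4158586600) (nat_lit 380) (nat_lit 11520550898) (nat_lit 63)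 (nat_lit 5) (nat_lit 67) (nat_lit 5) (nat_lit 68) (nat_lit 5) (nat_lit 338) (nat_lit 316) (nat_lit 246)))))) (XT.nd (nat_lit 468) (nat_lit 684) (nat_lit 0) (XT.nd (nat_lit 234) (nat_lit 608) (nat_lit 0) (XT.nd (nat_lit 78) (nat_lit 228) (nat_lit 0) (XT.lf (nat_lit 0) (nat_lit 7637671481) (nat_lit 380) (nat_lit 7186016435) (nat_lit 76) (nat_lit 2058680315) (nat_lit 63) (nat_lit 5) (nat_lit 68) (nat_lit 5) (nat_lit 64) (nat_lit 5) (nat_lit 339) (nat_lit 316) (nat_lit 245)) (XT.nd (nat_lit 78) (nat_lit 0) (nat_lit 0) (XT.lf (nat_lit 0) (nat_lit 1692373926) (nat_lit 228) (nat_lit 8915319636) (nat_lit 304) (nat_lit 6776958873) (nat_lit 60) (nat_lit 5) (nat_lit 63) (nat_lit 5) (nat_lit 64) (nat_lit 5) (nat_lit 340) (nat_lit 316) (nat_lit 244)) (XT.lf (nat_lit 0) (nat_lit 11239195685) (nat_lit 228) (nat_lit 2589090599) (nat_lit 304) (nat_lit 4078683700) (nat_lit 60) (nat_lit 5) (nat_lit 63) (nat_lit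 5) (nat_lit 64) (nat_lit 5) (nat_lit 341) (nat_lit 316) (nat_lit 243)))) (XT.nd (nat_lit 78) (nat_lit 304) (nat_lit 0) (XT.lf (nat_lit 0) (nat_lit 2809947108) (nat_lit 304) (nat_lit 14488344566) (nat_lit 380) (nat_lit 1152714120) (nat_lit 56) (nat_lit 5) (nat_lit 60) (nat_lit 5) (nat_lit 61) (nat_lit 5) (nat_lit 342) (nat_lit 316) (nat_lit 242)) (XT.nd (nat_lit 78) (nat_lit 228) (nat_lit 0) (XT.lf (nat_lit 0) (nat_lit 1996755711) (nat_lit 380) (nat_lit 6122711787) (nat_lit 76) (nat_lit 10894364973) (nat_lit 55) (nat_lit 5) (nat_lit 60) (nat_lit 5) (nat_lit 56) (nat_lit 5) (nat_lit 343) (nat_lit 316) (nat_lit 241)) (XT.lf (nat_lit 0) (nat_lit 3955548972) (nat_lit 228) (nat_lit 1353475384) (nat_lit 304) (nat_lit 14292646679) (nat_lit 52) (nat_lit 5) (nat_lit 55) (nat_lit 5) (nat_lit 56) (nat_lit 5) (nat_lit 344) (nat_lit 316) (nat_lit 240))))) (XT.nd (nat_lit 234) (nat_lit 456) (nat_lit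 0) (XT.nd (nat_lit 78) (nat_lit 228) (nat_lit 0) (XT.lf (nat_lit 0) (nat_lit 8964773524) (nat_lit 304) (nat_lit 5579023127) (nat_lit 76) (nat_lit 5666229238) (nat_lit 52) (nat_lit 5) (nat_lit 56) (nat_lit 5) (nat_lit 53) (nat_lit 5) (nat_lit 345) (nat_lit 316) (nat_lit 239)) (XT.nd (nat_lit 78) (nat_lit 0) (nat_lit 0) (XT.lf (nat_lit 0) (nat_lit 5109827662) (nat_lit 228) (nat_lit 7778963425) (nat_lit 304) (nat_lit 7955750225) (nat_lit 49) (nat_lit 5) (nat_lit 52) (nat_lit 5) (nat_lit 53) (nat_lit 5) (nat_lit 346) (nat_lit 316) (nat_lit 238)) (XT.lf (nat_lit 0) (nat_lit 16504221051) (nat_lit 228) (nat_lit 583218354) (nat_lit 304) (nat_lit 4419437676) (nat_lit 49) (nat_lit 5) (nat_lit 52) (nat_lit 5) (nat_lit 53) (nat_lit 5) (nat_lit 347) (nat_lit 316) (nat_lit 237)))) (XT.nd (nat_lit 78) (nat_lit 304) (nat_lit 0) (XT.lf (nat_lit 0) (nat_lit 6337798422) (nat_lit 152) (nat_lit 15350643542)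 (nat_lit 228) (nat_lit 504281889) (nat_lit 47) (nat_lit 5) (nat_lit 49) (nat_lit 5) (nat_lit 50) (nat_lit 5) (nat_lit 348) (nat_lit 316) (nat_lit 236)) (XT.nd (nat_lit 78) (nat_lit 228) (nat_lit 0) (XT.lf (nat_lit 0) (nat_lit 3571614647) (nat_lit 228) (nat_lit 4579287853) (nat_lit 76) (nat_lit 14755137980) (nat_lit 46) (nat_lit 5) (nat_lit 49) (nat_lit 5) (nat_lit 47) (nat_lit 5) (nat_lit 349) (nat_lit 316) (nat_lit 235)) (XT.lf (nat_lit 0) (nat_lit 7469646647) (nat_lit 228) (nat_lit 466806158) (nat_lit 304) (nat_lit 15713065307) (nat_lit 43) (nat_lit 5) (nat_lit 46) (nat_lit 5) (nat_lit 47) (nat_lit 5) (nat_lit 350) (nat_lit 316) (nat_lit 234))))))))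
noncomputable def xc145 : XT := (XT.nd (nat_lit 1794) (nat_lit 760) (nat_lit 0) (XT.nd (nat_lit 858) (nat_lit 836) (nat_lit 0) (XT.nd (nat_lit 390) (nat_lit 532) (nat_lit 0) (XT.nd (nat_lit 156) (nat_lit 228) (nat_lit 0) (XT.nd (nat_lit 78) (nat_lit 152) (nat_lit 0) (XT.lf (nat_lit 0) (nat_lit 12702767947) (nat_lit 304) (nat_lit 4287798337) (nat_lit 76) (nat_lit 7430454180) (nat_lit 43) (nat_lit 5) (nat_lit 47) (nat_lit 5) (nat_lit 44) (nat_lit 5) (nat_lit 351) (nat_lit 316) (nat_lit 233)) (XT.lf (nat_lit 0) (nat_lit 8440847881) (nat_lit 152) (nat_lit 9392398938) (nat_lit 228) (nat_lit 7391570708) (nat_lit 41) (nat_lit 5) (nat_lit 43) (nat_lit 5) (nat_lit 44) (nat_lit 5) (nat_lit 352) (nat_lit 316) (nat_lit 232))) (XT.nd (nat_lit 78) (nat_lit 228) (nat_lit 0) (XT.lf (nat_lit 0) (nat_lit 21934582488) (nat_lit 152) (nat_lit 1345024864) (nat_lit 228) (nat_lit 2786240625) (nat_lit 41) (nat_lit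 5) (nat_lit 43) (nat_lit 5) (nat_lit 44) (nat_lit 5) (nat_lit 353) (nat_lit 316) (nat_lit 231)) (XT.nd (nat_lit 78) (nat_lit 0) (nat_lit 0) (XT.lf (nat_lit 0) (nat_lit 2231481380) (nat_lit 228) (nat_lit 17651026569) (nat_lit 76) (nat_lit 7052446669) (nat_lit 38) (nat_lit 5) (nat_lit 41) (nat_lit 5) (nat_lit 39) (nat_lit 5) (nat_lit 354) (nat_lit 316) (nat_lit 230)) (XT.lf (nat_lit 0) (nat_lit 7486973417) (nat_lit 228) (nat_lit 4419473550) (nat_lit 76) (nat_lit 15934769693) (nat_lit 38) (nat_lit 5) (nat_lit 41) (nat_lit 5) (nat_lit 39) (nat_lit 5) (nat_lit 355) (nat_lit 316) (nat_lit 229))))) (XT.nd (nat_lit 234) (nat_lit 228) (nat_lit 0) (XT.nd (nat_lit 78) (nat_lit 152) (nat_lit 0) (XT.lf (nat_lit 0) (nat_lit 9767327795) (nat_lit 152) (nat_lit 3378367952) (nat_lit 228) (nat_lit 15640082666) (nat_lit 36) (nat_lit 5) (nat_lit 38) (nat_lit 5) (nat_lit 39) (nat_lit 5) (nat_lit 356) (nat_lit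 316) (nat_lit 228)) (XT.nd (nat_lit 78) (nat_lit 152) (nat_lit 0) (XT.lf (nat_lit 0) (nat_lit 19238621078) (nat_lit 228) (nat_lit 5064336994) (nat_lit 76) (nat_lit 5467055788) (nat_lit 36) (nat_lit 5) (nat_lit 39) (nat_lit 5) (nat_lit 37) (nat_lit 5) (nat_lit 357) (nat_lit 316) (nat_lit 227)) (XT.lf (nat_lit 0) (nat_lit 9828453383) (nat_lit 152) (nat_lit 16005272257) (nat_lit 228) (nat_lit 4959867311) (nat_lit 34) (nat_lit 5) (nat_lit 36) (nat_lit 5) (nat_lit 37) (nat_lit 5) (nat_lit 358) (nat_lit 316) (nat_lit 226)))) (XT.nd (nat_lit 78) (nat_lit 152) (nat_lit 0) (XT.lf (nat_lit 0) (nat_lit 937683949) (nat_lit 228) (nat_lit 6255965052) (nat_lit 76) (nat_lit 24670217646) (nat_lit 33) (nat_lit 5) (nat_lit 36) (nat_lit 5) (nat_lit 34) (nat_lit 5) (nat_lit 359) (nat_lit 316) (nat_lit 225)) (XT.nd (nat_lit 78) (nat_lit 0) (nat_lit 0) (XT.lf (nat_lit 0) (nat_lit 7135115853) (nat_lit 228) (nat_lit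 23622089630) (nat_lit 76) (nat_lit 2217806083) (nat_lit 31) (nat_lit 5) (nat_lit 34) (nat_lit 5) (nat_lit 32) (nat_lit 5) (nat_lit 360) (nat_lit 316) (nat_lit 224)) (XT.lf (nat_lit 0) (nat_lit 13857474022) (nat_lit 228) (nat_lit 8314211017) (nat_lit 76) (nat_lit 11959282969) (nat_lit 31) (nat_lit 5) (nat_lit 34) (nat_lit 5) (nat_lit 32) (nat_lit 5) (nat_lit 361) (nat_lit 316) (nat_lit 223)))))) (XT.nd (nat_lit 468) (nat_lit 380) (nat_lit 0) (XT.nd (nat_lit 234) (nat_lit 228) (nat_lit 0) (XT.nd (nat_lit 78) (nat_lit 76) (nat_lit 0) (XT.lf (nat_lit 0) (nat_lit 7998319207) (nat_lit 152) (nat_lit 13032451217) (nat_lit 228) (nat_lit 14308217510) (nat_lit 29) (nat_lit 5) (nat_lit 31) (nat_lit 5) (nat_lit 32) (nat_lit 5) (nat_lit 362) (nat_lit 316) (nat_lit 222)) (XT.nd (nat_lit 78) (nat_lit 76) (nat_lit 0) (XT.lf (nat_lit 0) (nat_lit 25398658068) (nat_lit 152) (nat_lit 3295044643) (nat_lit 228)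 (nat_lit 7907163952) (nat_lit 29) (nat_lit 5) (nat_lit 31) (nat_lit 5) (nat_lit 32) (nat_lit 5) (nat_lit 363) (nat_lit 316) (nat_lit 221)) (XT.lf (nat_lit 0) (nat_lit 5804717010) (nat_lit 76) (nat_lit 31124412756) (nat_lit 152) (nat_lit 987248210) (nat_lit 28) (nat_lit 5) (nat_lit 29) (nat_lit 5) (nat_lit 30) (nat_lit 4) (nat_lit 364) (nat_lit 316) (nat_lit 220)))) (XT.nd (nat_lit 78) (nat_lit 152) (nat_lit 0) (XT.lf (nat_lit 0) (nat_lit 6315131025) (nat_lit 152) (nat_lit 15408547417) (nat_lit 76) (nat_lit 17557219323) (nat_lit 27) (nat_lit 5) (nat_lit 29) (nat_lit 5) (nat_lit 28) (nat_lit 5) (nat_lit 365) (nat_lit 316) (nat_lit 219)) (XT.nd (nat_lit 78) (nat_lit 0) (nat_lit 0) (XT.lf (nat_lit 0) (nat_lit 2167562616) (nat_lit 152) (nat_lit 11806760908) (nat_lit 228) (nat_lit 26737272416) (nat_lit 25) (nat_lit 5) (nat_lit 27) (nat_lit 5) (nat_lit 28) (nat_lit 5) (nat_lit 366) (nat_lit 316)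 (nat_lit 218)) (XT.lf (nat_lit 0) (nat_lit 21142325376) (nat_lit 152) (nat_lit 1126323385) (nat_lit 228) (nat_lit 19932576589) (nat_lit 25) (nat_lit 5) (nat_lit 27) (nat_lit 5) (nat_lit 28) (nat_lit 5) (nat_lit 367) (nat_lit 316) (nat_lit 217))))) (XT.nd (nat_lit 234) (nat_lit 228) (nat_lit 0) (XT.nd (nat_lit 78) (nat_lit 152) (nat_lit 0) (XT.lf (nat_lit 0) (nat_lit 31126740204) (nat_lit 228) (nat_lit 2871726310) (nat_lit 76) (nat_lit 9759421966) (nat_lit 25) (nat_lit 5) (nat_lit 28) (nat_lit 5) (nat_lit 26) (nat_lit 4) (nat_lit 368) (nat_lit 316) (nat_lit 216)) (XT.nd (nat_lit 78) (nat_lit 76) (nat_lit 0) (XT.lf (nat_lit 0) (nat_lit 16727721585) (nat_lit 76) (nat_lit 23971594009) (nat_lit 152) (nat_lit 4679494722) (nat_lit 24) (nat_lit 5) (nat_lit 25) (nat_lit 5) (nat_lit 26) (nat_lit 4) (nat_lit 369) (nat_lit 316) (nat_lit 215)) (XT.lf (nat_lit 0) (nat_lit 3593701434) (nat_lit 152) (nat_lit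 9743651911) (nat_lit 76) (nat_lit 33738493523) (nat_lit 23) (nat_lit 5) (nat_lit 25) (nat_lit 5) (nat_lit 24) (nat_lit 5) (nat_lit 370) (nat_lit 316) (nat_lit 214)))) (XT.nd (nat_lit 78) (nat_lit 76) (nat_lit 0) (XT.lf (nat_lit 0) (nat_lit 10350333443) (nat_lit 152) (nat_lit 1926924927) (nat_lit 228) (nat_lit 36568946995) (nat_lit 21) (nat_lit 5) (nat_lit 23) (nat_lit 5) (nat_lit 24) (nat_lit 5) (nat_lit 371) (nat_lit 316) (nat_lit 213)) (XT.nd (nat_lit 78) (nat_lit 76) (nat_lit 0) (XT.lf (nat_lit 0) (nat_lit 21712117307) (nat_lit 228) (nat_lit 19082670487) (nat_lit 76) (nat_lit 9894441504) (nat_lit 21) (nat_lit 5) (nat_lit 24) (nat_lit 5) (nat_lit 22) (nat_lit 4) (nat_lit 372) (nat_lit 316) (nat_lit 212)) (XT.lf (nat_lit 0) (nat_lit 1298339550) (nat_lit 76) (nat_lit 30365033623) (nat_lit 152) (nat_lit 20958802097) (nat_lit 20) (nat_lit 5) (nat_lit 21) (nat_lit 5) (nat_lit 22) (nat_lit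 4) (nat_lit 373) (nat_lit 316) (nat_lit 211))))))) (XT.nd (nat_lit 858) (nat_lit 304) (nat_lit 0) (XT.nd (nat_lit 390) (nat_lit 304) (nat_lit 0) (XT.nd (nat_lit 156) (nat_lit 152) (nat_lit 0) (XT.nd (nat_lit 78) (nat_lit 0) (nat_lit 0) (XT.lf (nat_lit 0) (nat_lit 23348296542) (nat_lit 76) (nat_lit 19080010118) (nat_lit 152) (nat_lit 12207659512) (nat_lit 20) (nat_lit 5) (nat_lit 21) (nat_lit 5) (nat_lit 22) (nat_lit 4) (nat_lit 374) (nat_lit 316) (nat_lit 210)) (XT.lf (nat_lit 0) (nat_lit 46488741121) (nat_lit 76) (nat_lit 7236022433) (nat_lit 152) (nat_lit 3026022440) (nat_lit 20) (nat_lit 5) (nat_lit 21) (nat_lit 5) (nat_lit 22) (nat_lit 4) (nat_lit 375) (nat_lit 316) (nat_lit 209))) (XT.nd (nat_lit 78) (nat_lit 0) (nat_lit 0) (XT.lf (nat_lit 0) (nat_lit 6671077809) (nat_lit 152) (nat_lit 46956188382) (nat_lit 76) (nat_lit 5325515185) (nat_lit 18) (nat_lit 5) (nat_lit 20) (nat_lit 5)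 (nat_lit 19) (nat_lit 4) (nat_lit 376) (nat_lit 316) (nat_lit 208)) (XT.nd (nat_lit 78) (nat_lit 0) (nat_lit 0) (XT.lf (nat_lit 0) (nat_lit 17040144456) (nat_lit 152) (nat_lit 25714539281) (nat_lit 76) (nat_lit 18493274940) (nat_lit 18) (nat_lit 5) (nat_lit 20) (nat_lit 5) (nat_lit 19) (nat_lit 4) (nat_lit 377) (nat_lit 316) (nat_lit 207)) (XT.lf (nat_lit 0) (nat_lit 27921512537) (nat_lit 152) (nat_lit 3421960931) (nat_lit 76) (nat_lit 32314731613) (nat_lit 18) (nat_lit 5) (nat_lit 20) (nat_lit 5) (nat_lit 19) (nat_lit 4) (nat_lit 378) (nat_lit 316) (nat_lit 206))))) (XT.nd (nat_lit 234) (nat_lit 152) (nat_lit 0) (XT.nd (nat_lit 78) (nat_lit 76) (nat_lit 0) (XT.lf (nat_lit 0) (nat_lit 20635075519) (nat_lit 76) (nat_lit 19028185908) (nat_lit 152) (nat_lit 26509889273) (nat_lit 17) (nat_lit 5) (nat_lit 18) (nat_lit 5) (nat_lit 19) (nat_lit 4) (nat_lit 379) (nat_lit 316) (nat_lit 205)) (XT.nd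 (nat_lit 78) (nat_lit 76) (nat_lit 0) (XT.lf (nat_lit 0) (nat_lit 46003315773) (nat_lit 76) (nat_lit 6040991435) (nat_lit 152) (nat_lit 16766928318) (nat_lit 17) (nat_lit 5) (nat_lit 18) (nat_lit 5) (nat_lit 19) (nat_lit 4) (nat_lit 380) (nat_lit 316) (nat_lit 204)) (XT.lf (nat_lit 0) (nat_lit 960746423) (nat_lit 76) (nat_lit 64211707182) (nat_lit 76) (nat_lit 6402370854) (nat_lit 16) (nat_lit 4) (nat_lit 17) (nat_lit 5) (nat_lit 17) (nat_lit 4) (nat_lit 381) (nat_lit 316) (nat_lit 203)))) (XT.nd (nat_lit 78) (nat_lit 76) (nat_lit 0) (XT.lf (nat_lit 0) (nat_lit 4823118177) (nat_lit 152) (nat_lit 47933090675) (nat_lit 76) (nat_lit 21692583219) (nat_lit 15) (nat_lit 5) (nat_lit 17) (nat_lit 5) (nat_lit 16) (nat_lit 4) (nat_lit 382) (nat_lit 316) (nat_lit 202)) (XT.nd (nat_lit 78) (nat_lit 76) (nat_lit 0) (XT.lf (nat_lit 0) (nat_lit 16389459972) (nat_lit 152) (nat_lit 24232705815) (nat_lit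 76) (nat_lit 36839309405) (nat_lit 15) (nat_lit 5) (nat_lit 17) (nat_lit 5) (nat_lit 16) (nat_lit 4) (nat_lit 383) (nat_lit 316) (nat_lit 201)) (XT.lf (nat_lit 0) (nat_lit 664740838) (nat_lit 76) (nat_lit 27874746919) (nat_lit 152) (nat_lit 52085038146) (nat_lit 14) (nat_lit 5) (nat_lit 15) (nat_lit 5) (nat_lit 16) (nat_lit 4) (nat_lit 384) (nat_lit 316) (nat_lit 200)))))) (XT.nd (nat_lit 468) (nat_lit 152) (nat_lit 0) (XT.nd (nat_lit 234) (nat_lit 152) (nat_lit 0) (XT.nd (nat_lit 78) (nat_lit 0) (nat_lit 0) (XT.lf (nat_lit 0) (nat_lit 27639280270) (nat_lit 76) (nat_lit 14063216411) (nat_lit 152) (nat_lit 42222960269) (nat_lit 14) (nat_lit 5) (nat_lit 15) (nat_lit 5) (nat_lit 16) (nat_lit 4) (nat_lit 385) (nat_lit 316) (nat_lit 199)) (XT.nd (nat_lit 78) (nat_lit 0) (nat_lit 0) (XT.lf (nat_lit 0) (nat_lit 55525767433) (nat_lit 152) (nat_lit 31444565602) (nat_lit 0) (nat_lit 420997649) (nat_lit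 14) (nat_lit 5) (nat_lit 16) (nat_lit 4) (nat_lit 14) (nat_lit 4) (nat_lit 386) (nat_lit 316) (nat_lit 198)) (XT.lf (nat_lit 0) (nat_lit 70266231080) (nat_lit 152) (nat_lit 5599823655) (nat_lit 0) (nat_lit 15153143523) (nat_lit 14) (nat_lit 5) (nat_lit 16) (nat_lit 4) (nat_lit 14) (nat_lit 4) (nat_lit 387) (nat_lit 316) (nat_lit 197)))) (XT.nd (nat_lit 78) (nat_lit 76) (nat_lit 0) (XT.lf (nat_lit 0) (nat_lit 22241001421) (nat_lit 76) (nat_lit 63845660685) (nat_lit 76) (nat_lit 8724651440) (nat_lit 13) (nat_lit 4) (nat_lit 14) (nat_lit 5) (nat_lit 14) (nat_lit 4) (nat_lit 388) (nat_lit 316) (nat_lit 196)) (XT.nd (nat_lit 78) (nat_lit 0) (nat_lit 0) (XT.lf (nat_lit 0) (nat_lit 3872194605) (nat_lit 152) (nat_lit 47190554768) (nat_lit 76) (nat_lit 47722633092) (nat_lit 12) (nat_lit 5) (nat_lit 14) (nat_lit 5) (nat_lit 13) (nat_lit 4) (nat_lit 389) (nat_lit 316) (nat_lit 195)) (XT.lf (nat_lit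 0) (nat_lit 16801592754) (nat_lit 152) (nat_lit 20692473768) (nat_lit 76) (nat_lit 65457142524) (nat_lit 12) (nat_lit 5) (nat_lit 14) (nat_lit 5) (nat_lit 13) (nat_lit 4) (nat_lit 390) (nat_lit 316) (nat_lit 194))))) (XT.nd (nat_lit 234) (nat_lit 76) (nat_lit 0) (XT.nd (nat_lit 78) (nat_lit 0) (nat_lit 0) (XT.lf (nat_lit 0) (nat_lit 7358764212) (nat_lit 76) (nat_lit 23129697339) (nat_lit 152) (nat_lit 76831316639) (nat_lit 11) (nat_lit 5) (nat_lit 12) (nat_lit 5) (nat_lit 13) (nat_lit 4) (nat_lit 391) (nat_lit 316) (nat_lit 193)) (XT.nd (nat_lit 78) (nat_lit 0) (nat_lit 0) (XT.lf (nat_lit 0) (nat_lit 37523803892) (nat_lit 76) (nat_lit 7682490280) (nat_lit 152) (nat_lit 66683151810) (nat_lit 11) (nat_lit 5) (nat_lit 12) (nat_lit 5) (nat_lit 13) (nat_lit 4) (nat_lit 392) (nat_lit 316) (nat_lit 192)) (XT.lf (nat_lit 0) (nat_lit 60789621541) (nat_lit 152) (nat_lit 47630737946) (nat_lit 0)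 (nat_lit 8260758673) (nat_lit 11) (nat_lit 5) (nat_lit 13) (nat_lit 4) (nat_lit 11) (nat_lit 4) (nat_lit 393) (nat_lit 316) (nat_lit 191)))) (XT.nd (nat_lit 78) (nat_lit 76) (nat_lit 0) (XT.lf (nat_lit 0) (nat_lit 77274548617) (nat_lit 152) (nat_lit 19691648809) (nat_lit 0) (nat_lit 24740055953) (nat_lit 11) (nat_lit 5) (nat_lit 13) (nat_lit 4) (nat_lit 11) (nat_lit 4) (nat_lit 394) (nat_lit 316) (nat_lit 190)) (XT.nd (nat_lit 78) (nat_lit 0) (nat_lit 0) (XT.lf (nat_lit 0) (nat_lit 9956771018) (nat_lit 76) (nat_lit 84779062104) (nat_lit 76) (nat_lit 32239207729) (nat_lit 10) (nat_lit 4) (nat_lit 11) (nat_lit 5) (nat_lit 11) (nat_lit 4) (nat_lit 395) (nat_lit 316) (nat_lit 189)) (XT.lf (nat_lit 0) (nat_lit 41765060454) (nat_lit 76) (nat_lit 71635329305) (nat_lit 76) (nat_lit 19090368538) (nat_lit 10) (nat_lit 4) (nat_lit 11) (nat_lit 5) (nat_lit 11) (nat_lit 4) (nat_lit 396) (nat_lit 316)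 (nat_lit 188))))))))
noncomputable def xc146 : XT := (XT.nd (nat_lit 1794) (nat_lit 76) (nat_lit 0) (XT.nd (nat_lit 858) (nat_lit 152) (nat_lit 0) (XT.nd (nat_lit 390) (nat_lit 76) (nat_lit 0) (XT.nd (nat_lit 156) (nat_lit 76) (nat_lit 0) (XT.nd (nat_lit 78) (nat_lit 76) (nat_lit 0) (XT.lf (nat_lit 0) (nat_lit 75157858680) (nat_lit 76) (nat_lit 57837192027) (nat_lit 76) (nat_lit 5287368031) (nat_lit 10) (nat_lit 4) (nat_lit 11) (nat_lit 5) (nat_lit 11) (nat_lit 4) (nat_lit 397) (nat_lit 316) (nat_lit 187)) (XT.lf (nat_lit 0) (nat_lit 8908115548) (nat_lit 152) (nat_lit 34292818768) (nat_lit 76) (nat_lit 101155693565) (nat_lit 9) (nat_lit 5) (nat_lit 11) (nat_lit 5) (nat_lit 10) (nat_lit 4) (nat_lit 398) (nat_lit 316) (nat_lit 186))) (XT.nd (nat_lit 78) (nat_lit 76) (nat_lit 0) (XT.lf (nat_lit 0) (nat_lit 23632802669) (nat_lit 152) (nat_lit 4111621263) (nat_lit 76) (nat_lit 122985934480)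 (nat_lit 9) (nat_lit 5) (nat_lit 11) (nat_lit 5) (nat_lit 10) (nat_lit 4) (nat_lit 399) (nat_lit 316) (nat_lit 185)) (XT.nd (nat_lit 78) (nat_lit 0) (nat_lit 0) (XT.lf (nat_lit 0) (nat_lit 28485145637) (nat_lit 76) (nat_lit 11050568223) (nat_lit 152) (nat_lit 117864962905) (nat_lit 8) (nat_lit 5) (nat_lit 9) (nat_lit 5) (nat_lit 10) (nat_lit 4) (nat_lit 400) (nat_lit 316) (nat_lit 184)) (XT.lf (nat_lit 0) (nat_lit 56402953733) (nat_lit 152) (nat_lit 101654020173) (nat_lit 0) (nat_lit 6339078716) (nat_lit 8) (nat_lit 5) (nat_lit 10) (nat_lit 4) (nat_lit 8) (nat_lit 4) (nat_lit 401) (nat_lit 316) (nat_lit 183))))) (XT.nd (nat_lit 234) (nat_lit 76) (nat_lit 0) (XT.nd (nat_lit 78) (nat_lit 0) (nat_lit 0) (XT.lf (nat_lit 0) (nat_lit 74292112347) (nat_lit 152) (nat_lit 73215549481) (nat_lit 0) (nat_lit 24224608313) (nat_lit 8) (nat_lit 5) (nat_lit 10) (nat_lit 4) (nat_lit 8) (nat_lit 4) (nat_lit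 402) (nat_lit 316) (nat_lit 182)) (XT.nd (nat_lit 78) (nat_lit 0) (nat_lit 0) (XT.lf (nat_lit 0) (nat_lit 93073252599) (nat_lit 152) (nat_lit 43359878068) (nat_lit 0) (nat_lit 43002292359) (nat_lit 8) (nat_lit 5) (nat_lit 10) (nat_lit 4) (nat_lit 8) (nat_lit 4) (nat_lit 403) (nat_lit 316) (nat_lit 181)) (XT.lf (nat_lit 0) (nat_lit 112791091490) (nat_lit 152) (nat_lit 12015921003) (nat_lit 0) (nat_lit 62716839624) (nat_lit 8) (nat_lit 5) (nat_lit 10) (nat_lit 4) (nat_lit 8) (nat_lit 4) (nat_lit 404) (nat_lit 316) (nat_lit 180)))) (XT.nd (nat_lit 78) (nat_lit 0) (nat_lit 0) (XT.lf (nat_lit 0) (nat_lit 21581699343) (nat_lit 76) (nat_lit 112247827719) (nat_lit 76) (nat_lit 62170440972) (nat_lit 7) (nat_lit 4) (nat_lit 8) (nat_lit 5) (nat_lit 8) (nat_lit 4) (nat_lit 405) (nat_lit 316) (nat_lit 179)) (XT.nd (nat_lit 78) (nat_lit 0) (nat_lit 0) (XT.lf (nat_lit 0) (nat_lit 57272151713) (nat_lit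 76) (nat_lit 98849023221) (nat_lit 76) (nat_lit 48768650872) (nat_lit 7) (nat_lit 4) (nat_lit 8) (nat_lit 5) (nat_lit 8) (nat_lit 4) (nat_lit 406) (nat_lit 316) (nat_lit 178)) (XT.lf (nat_lit 0) (nat_lit 94743112759) (nat_lit 76) (nat_lit 84782192517) (nat_lit 76) (nat_lit 34698976739) (nat_lit 7) (nat_lit 4) (nat_lit 8) (nat_lit 5) (nat_lit 8) (nat_lit 4) (nat_lit 407) (nat_lit 316) (nat_lit 177)))))) (XT.nd (nat_lit 468) (nat_lit 0) (nat_lit 0) (XT.nd (nat_lit 234) (nat_lit 76) (nat_lit 0) (XT.nd (nat_lit 78) (nat_lit 76) (nat_lit 0) (XT.lf (nat_lit 0) (nat_lit 134083799056) (nat_lit 76) (nat_lit 70013843156) (nat_lit 76) (nat_lit 19927919349) (nat_lit 7) (nat_lit 4) (nat_lit 8) (nat_lit 5) (nat_lit 8) (nat_lit 4) (nat_lit 408) (nat_lit 316) (nat_lit 176)) (XT.nd (nat_lit 78) (nat_lit 76) (nat_lit 0) (XT.lf (nat_lit 0) (nat_lit 175387878904) (nat_lit 76) (nat_lit 54508812399) (nat_lit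 76) (nat_lit 4420309518) (nat_lit 7) (nat_lit 4) (nat_lit 8) (nat_lit 5) (nat_lit 8) (nat_lit 4) (nat_lit 409) (nat_lit 316) (nat_lit 175)) (XT.lf (nat_lit 0) (nat_lit 11481156742) (nat_lit 152) (nat_lit 26554587820) (nat_lit 76) (nat_lit 207078099663) (nat_lit 6) (nat_lit 5) (nat_lit 8) (nat_lit 5) (nat_lit 7) (nat_lit 4) (nat_lit 410) (nat_lit 316) (nat_lit 174)))) (XT.nd (nat_lit 78) (nat_lit 0) (nat_lit 0) (XT.lf (nat_lit 0) (nat_lit 7606297113) (nat_lit 76) (nat_lit 20539847058) (nat_lit 152) (nat_lit 228294912896) (nat_lit 5) (nat_lit 5) (nat_lit 6) (nat_lit 5) (nat_lit 7) (nat_lit 4) (nat_lit 411) (nat_lit 316) (nat_lit 173)) (XT.nd (nat_lit 78) (nat_lit 0) (nat_lit 0) (XT.lf (nat_lit 0) (nat_lit 44393835039) (nat_lit 76) (nat_lit 1698536365) (nat_lit 152) (nat_lit 222219860039) (nat_lit 5) (nat_lit 5) (nat_lit 6) (nat_lit 5) (nat_lit 7) (nat_lit 4) (nat_lit 412) (nat_lit 316) (nat_lit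 172)) (XT.lf (nat_lit 0) (nat_lit 65216599256) (nat_lit 152) (nat_lit 198041777817) (nat_lit 0) (nat_lit 17504553397) (nat_lit 5) (nat_lit 5) (nat_lit 7) (nat_lit 4) (nat_lit 5) (nat_lit 4) (nat_lit 413) (nat_lit 316) (nat_lit 171))))) (XT.nd (nat_lit 234) (nat_lit 0) (nat_lit 0) (XT.nd (nat_lit 78) (nat_lit 0) (nat_lit 0) (XT.lf (nat_lit 0) (nat_lit 85323296906) (nat_lit 152) (nat_lit 170902228496) (nat_lit 0) (nat_lit 37609326502) (nat_lit 5) (nat_lit 5) (nat_lit 7) (nat_lit 4) (nat_lit 5) (nat_lit 4) (nat_lit 414) (nat_lit 316) (nat_lit 170)) (XT.nd (nat_lit 78) (nat_lit 0) (nat_lit 0) (XT.lf (nat_lit 0) (nat_lit 106433818530) (nat_lit 152) (nat_lit 142408611555) (nat_lit 0) (nat_lit 58718015226) (nat_lit 5) (nat_lit 5) (nat_lit 7) (nat_lit 4) (nat_lit 5) (nat_lit 4) (nat_lit 415) (nat_lit 316) (nat_lit 169)) (XT.lf (nat_lit 0) (nat_lit 128598427275) (nat_lit 152) (nat_lit 112493085050)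 (nat_lit 0) (nat_lit 80880878352) (nat_lit 5) (nat_lit 5) (nat_lit 7) (nat_lit 4) (nat_lit 5) (nat_lit 4) (nat_lit 416) (nat_lit 316) (nat_lit 168)))) (XT.nd (nat_lit 78) (nat_lit 0) (nat_lit 0) (XT.lf (nat_lit 0) (nat_lit 151869896020) (nat_lit 152) (nat_lit 81084421536) (nat_lit 0) (nat_lit 104150684602) (nat_lit 5) (nat_lit 5) (nat_lit 7) (nat_lit 4) (nat_lit 5) (nat_lit 4) (nat_lit 417) (nat_lit 316) (nat_lit 167)) (XT.nd (nat_lit 78) (nat_lit 0) (nat_lit 0) (XT.lf (nat_lit 0) (nat_lit 176303633023) (nat_lit 152) (nat_lit 48107838481) (nat_lit 0) (nat_lit 128582838277) (nat_lit 5) (nat_lit 5) (nat_lit 7) (nat_lit 4) (nat_lit 5) (nat_lit 4) (nat_lit 418) (nat_lit 316) (nat_lit 166)) (XT.lf (nat_lit 0) (nat_lit 201957813848) (nat_lit 152) (nat_lit 13484820211) (nat_lit 0) (nat_lit 154235511171) (nat_lit 5) (nat_lit 5) (nat_lit 7) (nat_lit 4) (nat_lit 5) (nat_lit 4) (nat_lit 419) (nat_lit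 316) (nat_lit 165))))))) (XT.nd (nat_lit 858) (nat_lit 0) (nat_lit 0) (XT.nd (nat_lit 390) (nat_lit 0) (nat_lit 0) (XT.nd (nat_lit 156) (nat_lit 0) (nat_lit 0) (XT.nd (nat_lit 78) (nat_lit 0) (nat_lit 0) (XT.lf (nat_lit 0) (nat_lit 23623157604) (nat_lit 76) (nat_lit 205639185968) (nat_lit 76) (nat_lit 157915447166) (nat_lit 4) (nat_lit 4) (nat_lit 5) (nat_lit 5) (nat_lit 5) (nat_lit 4) (nat_lit 420) (nat_lit 316) (nat_lit 164)) (XT.lf (nat_lit 0) (nat_lit 63052453651) (nat_lit 76) (nat_lit 195106855603) (nat_lit 76) (nat_lit 147381749062) (nat_lit 4) (nat_lit 4) (nat_lit 5) (nat_lit 5) (nat_lit 5) (nat_lit 4) (nat_lit 421) (nat_lit 316) (nat_lit 163))) (XT.nd (nat_lit 78) (nat_lit 0) (nat_lit 0) (XT.lf (nat_lit 0) (nat_lit 104451078151) (nat_lit 76) (nat_lit 184048937940) (nat_lit 76) (nat_lit 136322528792) (nat_lit 4) (nat_lit 4) (nat_lit 5) (nat_lit 5) (nat_lit 5) (nat_lit 4) (nat_lit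 422) (nat_lit 316) (nat_lit 162)) (XT.nd (nat_lit 78) (nat_lit 0) (nat_lit 0) (XT.lf (nat_lit 0) (nat_lit 147917599257) (nat_lit 76) (nat_lit 172439104606) (nat_lit 76) (nat_lit 124711454878) (nat_lit 4) (nat_lit 4) (nat_lit 5) (nat_lit 5) (nat_lit 5) (nat_lit 4) (nat_lit 423) (nat_lit 316) (nat_lit 161)) (XT.lf (nat_lit 0) (nat_lit 193555508685) (nat_lit 76) (nat_lit 160249713139) (nat_lit 76) (nat_lit 112520881908) (nat_lit 4) (nat_lit 4) (nat_lit 5) (nat_lit 5) (nat_lit 5) (nat_lit 4) (nat_lit 424) (nat_lit 316) (nat_lit 160))))) (XT.nd (nat_lit 234) (nat_lit 0) (nat_lit 0) (XT.nd (nat_lit 78) (nat_lit 0) (nat_lit 0) (XT.lf (nat_lit 0) (nat_lit 241473468125) (nat_lit 76) (nat_lit 147451741179) (nat_lit 76) (nat_lit 99721784706) (nat_lit 4) (nat_lit 4) (nat_lit 5) (nat_lit 5) (nat_lit 5) (nat_lit 4) (nat_lit 425) (nat_lit 316) (nat_lit 159)) (XT.nd (nat_lit 78) (nat_lit 0) (nat_lit 0)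 (XT.lf (nat_lit 0) (nat_lit 291785567957) (nat_lit 76) (nat_lit 134014717364) (nat_lit 76) (nat_lit 86283689232) (nat_lit 4) (nat_lit 4) (nat_lit 5) (nat_lit 5) (nat_lit 5) (nat_lit 4) (nat_lit 426) (nat_lit 316) (nat_lit 158)) (XT.lf (nat_lit 0) (nat_lit 344611598895) (nat_lit 76) (nat_lit 119906648780) (nat_lit 76) (nat_lit 72174600021) (nat_lit 4) (nat_lit 4) (nat_lit 5) (nat_lit 5) (nat_lit 5) (nat_lit 4) (nat_lit 427) (nat_lit 316) (nat_lit 157)))) (XT.nd (nat_lit 78) (nat_lit 0) (nat_lit 0) (XT.lf (nat_lit 0) (nat_lit 400077337202) (nat_lit 76) (nat_lit 105093944789) (nat_lit 76) (nat_lit 57360924003) (nat_lit 4) (nat_lit 4) (nat_lit 5) (nat_lit 5) (nat_lit 5) (nat_lit 4) (nat_lit 428) (nat_lit 316) (nat_lit 156)) (XT.nd (nat_lit 78) (nat_lit 0) (nat_lit 0) (XT.lf (nat_lit 0) (nat_lit 458314844161) (nat_lit 76) (nat_lit 89541337046) (nat_lit 76) (nat_lit 41807390522) (nat_lit 4)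 (nat_lit 4) (nat_lit 5) (nat_lit 5) (nat_lit 5) (nat_lit 4) (nat_lit 429) (nat_lit 316) (nat_lit 155)) (XT.lf (nat_lit 0) (nat_lit 519462780501) (nat_lit 76) (nat_lit 73211795533) (nat_lit 76) (nat_lit 25476967353) (nat_lit 4) (nat_lit 4) (nat_lit 5) (nat_lit 5) (nat_lit 5) (nat_lit 4) (nat_lit 430) (nat_lit 316) (nat_lit 154)))))) (XT.nd (nat_lit 38376) (nat_lit 0) (nat_lit 7448) (XT.nd (nat_lit 38142) (nat_lit 0) (nat_lit 7296) (XT.nd (nat_lit 37986) (nat_lit 0) (nat_lit 7296) (XT.lf (nat_lit 0) (nat_lit 583666736549) (nat_lit 76) (nat_lit 56066440391) (nat_lit 76) (nat_lit 8330772538) (nat_lit 4) (nat_lit 4) (nat_lit 5) (nat_lit 5) (nat_lit 5) (nat_lit 4) (nat_lit 431) (nat_lit 316) (nat_lit 153)) (XT.nd (nat_lit 78) (nat_lit 684) (nat_lit 0) (XT.lf (nat_lit 0) (nat_lit 4663850616) (nat_lit 684) (nat_lit 131695478) (nat_lit 684) (nat_lit 131695478) (nat_lit 109) (nat_lit 3) (nat_lit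 118) (nat_lit 3) (nat_lit 118) (nat_lit 5) (nat_lit 317) (nat_lit 317) (nat_lit 266)) (XT.lf (nat_lit 0) (nat_lit 242383343) (nat_lit 684) (nat_lit 5589446691) (nat_lit 760) (nat_lit 4230099065) (nat_lit 100) (nat_lit 5) (nat_lit 109) (nat_lit 3) (nat_lit 110) (nat_lit 5) (nat_lit 318) (nat_lit 317) (nat_lit 265)))) (XT.nd (nat_lit 78) (nat_lit 0) (nat_lit 76) (XT.lf (nat_lit 0) (nat_lit 992035494) (nat_lit 684) (nat_lit 859196247) (nat_lit 760) (nat_lit 8430166675) (nat_lit 100) (nat_lit 5) (nat_lit 109) (nat_lit 3) (nat_lit 110) (nat_lit 5) (nat_lit 319) (nat_lit 317) (nat_lit 264)) (XT.nd (nat_lit 78) (nat_lit 0) (nat_lit 0) (XT.lf (nat_lit 0) (nat_lit 1840088096) (nat_lit 684) (nat_lit 6329938773) (nat_lit 760) (nat_lit 2338834582) (nat_lit 101) (nat_lit 5) (nat_lit 110) (nat_lit 5) (nat_lit 111) (nat_lit 5) (nat_lit 320) (nat_lit 317) (nat_lit 263)) (XT.lf (nat_lit 0) (nat_lit 2734945489)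 (nat_lit 684) (nat_lit 1304829957) (nat_lit 760) (nat_lit 6707765080) (nat_lit 101) (nat_lit 5) (nat_lit 110) (nat_lit 5) (nat_lit 111) (nat_lit 5) (nat_lit 321) (nat_lit 317) (nat_lit 262))))) (XT.nd (nat_lit 234) (nat_lit 0) (nat_lit 76) (XT.nd (nat_lit 78) (nat_lit 0) (nat_lit 0) (XT.lf (nat_lit 0) (nat_lit 3705305772) (nat_lit 684) (nat_lit 6925648067) (nat_lit 760) (nat_lit 365721710) (nat_lit 102) (nat_lit 5) (nat_lit 111) (nat_lit 5) (nat_lit 112) (nat_lit 5) (nat_lit 322) (nat_lit 317) (nat_lit 261)) (XT.nd (nat_lit 78) (nat_lit 0) (nat_lit 0) (XT.lf (nat_lit 0) (nat_lit 4775742539) (nat_lit 684) (nat_lit 1589306813) (nat_lit 760) (nat_lit 4890697187) (nat_lit 102) (nat_lit 5) (nat_lit 111) (nat_lit 5) (nat_lit 112) (nat_lit 5) (nat_lit 323) (nat_lit 317) (nat_lit 260)) (XT.lf (nat_lit 76) (nat_lit 4120460701) (nat_lit 0) (nat_lit 1808212815) (nat_lit 760) (nat_lit 5597703361)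 (nat_lit 103) (nat_lit 5) (nat_lit 102) (nat_lit 5) (nat_lit 112) (nat_lit 5) (nat_lit 324) (nat_lit 317) (nat_lit 259)))) (XT.nd (nat_lit 78) (nat_lit 0) (nat_lit 0) (XT.lf (nat_lit 0) (nat_lit 7179158604) (nat_lit 684) (nat_lit 1711973767) (nat_lit 760) (nat_lit 2917462808) (nat_lit 103) (nat_lit 5) (nat_lit 112) (nat_lit 5) (nat_lit 113) (nat_lit 5) (nat_lit 325) (nat_lit 317) (nat_lit 258)) (XT.nd (nat_lit 78) (nat_lit 0) (nat_lit 76) (XT.lf (nat_lit 76) (nat_lit 4350787348) (nat_lit 0) (nat_lit 4206646341) (nat_lit 760) (nat_lit 3544276781) (nat_lit 104) (nat_lit 5) (nat_lit 103) (nat_lit 5) (nat_lit 113) (nat_lit 5) (nat_lit 326) (nat_lit 317) (nat_lit 257)) (XT.lf (nat_lit 0) (nat_lit 10014144936) (nat_lit 684) (nat_lit 1670278818) (nat_lit 76) (nat_lit 724628659) (nat_lit 104) (nat_lit 5) (nat_lit 113) (nat_lit 5) (nat_lit 105) (nat_lit 5) (nat_lit 327) (nat_lit 317) (nat_lit 256))))))))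
noncomputable def xc147 : XT := (XT.nd (nat_lit 1794) (nat_lit 1900) (nat_lit 0) (XT.nd (nat_lit 858) (nat_lit 1596) (nat_lit 0) (XT.nd (nat_lit 390) (nat_lit 988) (nat_lit 0) (XT.nd (nat_lit 156) (nat_lit 1064) (nat_lit 0) (XT.nd (nat_lit 78) (nat_lit 76) (nat_lit 0) (XT.lf (nat_lit 0) (nat_lit 4772690551) (nat_lit 684) (nat_lit 6884893579) (nat_lit 760) (nat_lit 1068527473) (nat_lit 95) (nat_lit 5) (nat_lit 104) (nat_lit 5) (nat_lit 105) (nat_lit 5) (nat_lit 328) (nat_lit 317) (nat_lit 255)) (XT.lf (nat_lit 0) (nat_lit 313470065) (nat_lit 760) (nat_lit 1493429987) (nat_lit 76) (nat_lit 11251927546) (nat_lit 94) (nat_lit 5) (nat_lit 104) (nat_lit 5) (nat_lit 95) (nat_lit 5) (nat_lit 329) (nat_lit 317) (nat_lit 254))) (XT.nd (nat_lit 78) (nat_lit 380) (nat_lit 0) (XT.lf (nat_lit 0) (nat_lit 1842352032) (nat_lit 760) (nat_lit 8040559312) (nat_lit 76) (nat_lit 3518746174) (nat_lit 85) (nat_lit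 5) (nat_lit 95) (nat_lit 5) (nat_lit 86) (nat_lit 5) (nat_lit 330) (nat_lit 317) (nat_lit 253)) (XT.nd (nat_lit 78) (nat_lit 380) (nat_lit 0) (XT.lf (nat_lit 0) (nat_lit 3476286896) (nat_lit 760) (nat_lit 1206058575) (nat_lit 76) (nat_lit 9077889856) (nat_lit 85) (nat_lit 5) (nat_lit 95) (nat_lit 5) (nat_lit 86) (nat_lit 5) (nat_lit 331) (nat_lit 317) (nat_lit 252)) (XT.lf (nat_lit 0) (nat_lit 5276103021) (nat_lit 456) (nat_lit 8004864789) (nat_lit 76) (nat_lit 851600069) (nat_lit 80) (nat_lit 5) (nat_lit 86) (nat_lit 5) (nat_lit 81) (nat_lit 5) (nat_lit 332) (nat_lit 317) (nat_lit 251))))) (XT.nd (nat_lit 234) (nat_lit 684) (nat_lit 0) (XT.nd (nat_lit 78) (nat_lit 304) (nat_lit 0) (XT.lf (nat_lit 0) (nat_lit 7238822387) (nat_lit 456) (nat_lit 755066963) (nat_lit 76) (nat_lit 6526015495) (nat_lit 80) (nat_lit 5) (nat_lit 86) (nat_lit 5) (nat_lit 81) (nat_lit 5) (nat_lit 333) (nat_lit 317)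 (nat_lit 250)) (XT.nd (nat_lit 78) (nat_lit 0) (nat_lit 0) (XT.lf (nat_lit 0) (nat_lit 7058861715) (nat_lit 304) (nat_lit 2327589047) (nat_lit 380) (nat_lit 5535851061) (nat_lit 76) (nat_lit 5) (nat_lit 80) (nat_lit 5) (nat_lit 81) (nat_lit 5) (nat_lit 334) (nat_lit 317) (nat_lit 249)) (XT.lf (nat_lit 0) (nat_lit 11688296160) (nat_lit 380) (nat_lit 136278983) (nat_lit 76) (nat_lit 3517932030) (nat_lit 76) (nat_lit 5) (nat_lit 81) (nat_lit 5) (nat_lit 77) (nat_lit 5) (nat_lit 335) (nat_lit 317) (nat_lit 248)))) (XT.nd (nat_lit 78) (nat_lit 380) (nat_lit 0) (XT.lf (nat_lit 0) (nat_lit 8176947688) (nat_lit 304) (nat_lit 6072478470) (nat_lit 380) (nat_lit 1527115875) (nat_lit 72) (nat_lit 5) (nat_lit 76) (nat_lit 5) (nat_lit 77) (nat_lit 5) (nat_lit 336) (nat_lit 317) (nat_lit 247)) (XT.nd (nat_lit 78) (nat_lit 0) (nat_lit 0) (XT.lf (nat_lit 0) (nat_lit 664407546) (nat_lit 304) (nat_lit 10701831)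 (nat_lit 380) (nat_lit 15557074919) (nat_lit 67) (nat_lit 5) (nat_lit 71) (nat_lit 5) (nat_lit 72) (nat_lit 5) (nat_lit 337) (nat_lit 317) (nat_lit 246)) (XT.lf (nat_lit 0) (nat_lit 3145402937) (nat_lit 380) (nat_lit 7249890503) (nat_lit 76) (nat_lit 6303624519) (nat_lit 67) (nat_lit 5) (nat_lit 72) (nat_lit 5) (nat_lit 68) (nat_lit 5) (nat_lit 338) (nat_lit 317) (nat_lit 245)))))) (XT.nd (nat_lit 468) (nat_lit 684) (nat_lit 0) (XT.nd (nat_lit 234) (nat_lit 380) (nat_lit 0) (XT.nd (nat_lit 78) (nat_lit 228) (nat_lit 0) (XT.lf (nat_lit 0) (nat_lit 1508356795) (nat_lit 304) (nat_lit 4234826314) (nat_lit 380) (nat_lit 11445630343) (nat_lit 63) (nat_lit 5) (nat_lit 67) (nat_lit 5) (nat_lit 68) (nat_lit 5) (nat_lit 339) (nat_lit 317) (nat_lit 244)) (XT.nd (nat_lit 78) (nat_lit 228) (nat_lit 0) (XT.lf (nat_lit 0) (nat_lit 8611279975) (nat_lit 380) (nat_lit 6801906141) (nat_lit 76) (nat_lit 2283018831)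 (nat_lit 63) (nat_lit 5) (nat_lit 68) (nat_lit 5) (nat_lit 64) (nat_lit 5) (nat_lit 340) (nat_lit 317) (nat_lit 243)) (XT.lf (nat_lit 0) (nat_lit 2508413236) (nat_lit 228) (nat_lit 9204632072) (nat_lit 304) (nat_lit 6511429062) (nat_lit 60) (nat_lit 5) (nat_lit 63) (nat_lit 5) (nat_lit 64) (nat_lit 5) (nat_lit 341) (nat_lit 317) (nat_lit 242)))) (XT.nd (nat_lit 78) (nat_lit 380) (nat_lit 0) (XT.lf (nat_lit 0) (nat_lit 12497746530) (nat_lit 228) (nat_lit 2569541753) (nat_lit 304) (nat_lit 3707020023) (nat_lit 60) (nat_lit 5) (nat_lit 63) (nat_lit 5) (nat_lit 64) (nat_lit 5) (nat_lit 342) (nat_lit 317) (nat_lit 241)) (XT.nd (nat_lit 78) (nat_lit 76) (nat_lit 0) (XT.lf (nat_lit 0) (nat_lit 3661069746) (nat_lit 304) (nat_lit 15036959025) (nat_lit 380) (nat_lit 648185431) (nat_lit 56) (nat_lit 5) (nat_lit 60) (nat_lit 5) (nat_lit 61) (nat_lit 5) (nat_lit 343) (nat_lit 317) (nat_lit 240)) (XT.lf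 (nat_lit 0) (nat_lit 2614852185) (nat_lit 380) (nat_lit 5734380517) (nat_lit 76) (nat_lit 11588833556) (nat_lit 55) (nat_lit 5) (nat_lit 60) (nat_lit 5) (nat_lit 56) (nat_lit 5) (nat_lit 344) (nat_lit 317) (nat_lit 239))))) (XT.nd (nat_lit 234) (nat_lit 228) (nat_lit 0) (XT.nd (nat_lit 78) (nat_lit 228) (nat_lit 0) (XT.lf (nat_lit 0) (nat_lit 4836592202) (nat_lit 228) (nat_lit 1242130769) (nat_lit 304) (nat_lit 14477300291) (nat_lit 52) (nat_lit 5) (nat_lit 55) (nat_lit 5) (nat_lit 56) (nat_lit 5) (nat_lit 345) (nat_lit 317) (nat_lit 238)) (XT.nd (nat_lit 78) (nat_lit 228) (nat_lit 0) (XT.lf (nat_lit 0) (nat_lit 9895909701) (nat_lit 304) (nat_lit 5185400828) (nat_lit 76) (nat_lit 6114577536) (nat_lit 52) (nat_lit 5) (nat_lit 56) (nat_lit 5) (nat_lit 53) (nat_lit 5) (nat_lit 346) (nat_lit 317) (nat_lit 237)) (XT.lf (nat_lit 0) (nat_lit 6027044541) (nat_lit 228) (nat_lit 7976419871) (nat_lit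 304) (nat_lit 7859321568) (nat_lit 49) (nat_lit 5) (nat_lit 52) (nat_lit 5) (nat_lit 53) (nat_lit 5) (nat_lit 347) (nat_lit 317) (nat_lit 236)))) (XT.nd (nat_lit 78) (nat_lit 228) (nat_lit 0) (XT.lf (nat_lit 0) (nat_lit 17959646862) (nat_lit 228) (nat_lit 430006200) (nat_lit 304) (nat_lit 4169727496) (nat_lit 49) (nat_lit 5) (nat_lit 52) (nat_lit 5) (nat_lit 53) (nat_lit 5) (nat_lit 348) (nat_lit 317) (nat_lit 235)) (XT.nd (nat_lit 78) (nat_lit 76) (nat_lit 0) (XT.lf (nat_lit 0) (nat_lit 7294408902) (nat_lit 152) (nat_lit 15917670650) (nat_lit 228) (nat_lit 67892774) (nat_lit 47) (nat_lit 5) (nat_lit 49) (nat_lit 5) (nat_lit 50) (nat_lit 5) (nat_lit 349) (nat_lit 317) (nat_lit 234)) (XT.lf (nat_lit 0) (nat_lit 4175746831) (nat_lit 228) (nat_lit 4184536665) (nat_lit 76) (nat_lit 15669394182) (nat_lit 46) (nat_lit 5) (nat_lit 49) (nat_lit 5) (nat_lit 47) (nat_lit 5) (nat_lit 350) (nat_lit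 317) (nat_lit 233))))))) (XT.nd (nat_lit 858) (nat_lit 760) (nat_lit 0) (XT.nd (nat_lit 390) (nat_lit 532) (nat_lit 0) (XT.nd (nat_lit 156) (nat_lit 380) (nat_lit 0) (XT.nd (nat_lit 78) (nat_lit 0) (nat_lit 0) (XT.lf (nat_lit 0) (nat_lit 8456784631) (nat_lit 228) (nat_lit 291358796) (nat_lit 304) (nat_lit 16062738380) (nat_lit 43) (nat_lit 5) (nat_lit 46) (nat_lit 5) (nat_lit 47) (nat_lit 5) (nat_lit 351) (nat_lit 317) (nat_lit 232)) (XT.lf (nat_lit 0) (nat_lit 13735974549) (nat_lit 304) (nat_lit 3900603273) (nat_lit 76) (nat_lit 7985239006) (nat_lit 43) (nat_lit 5) (nat_lit 47) (nat_lit 5) (nat_lit 44) (nat_lit 5) (nat_lit 352) (nat_lit 317) (nat_lit 231))) (XT.nd (nat_lit 78) (nat_lit 228) (nat_lit 0) (XT.lf (nat_lit 0) (nat_lit 9454772272) (nat_lit 152) (nat_lit 9658490400) (nat_lit 228) (nat_lit 7353043533) (nat_lit 41) (nat_lit 5) (nat_lit 43) (nat_lit 5) (nat_lit 44) (nat_lit 5)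 (nat_lit 353) (nat_lit 317) (nat_lit 230)) (XT.nd (nat_lit 78) (nat_lit 228) (nat_lit 0) (XT.lf (nat_lit 0) (nat_lit 23595008752) (nat_lit 152) (nat_lit 1218439454) (nat_lit 228) (nat_lit 2536880551) (nat_lit 41) (nat_lit 5) (nat_lit 43) (nat_lit 5) (nat_lit 44) (nat_lit 5) (nat_lit 354) (nat_lit 317) (nat_lit 229)) (XT.lf (nat_lit 0) (nat_lit 2713348619) (nat_lit 228) (nat_lit 17950909426) (nat_lit 76) (nat_lit 7598640673) (nat_lit 38) (nat_lit 5) (nat_lit 41) (nat_lit 5) (nat_lit 39) (nat_lit 5) (nat_lit 355) (nat_lit 317) (nat_lit 228))))) (XT.nd (nat_lit 234) (nat_lit 380) (nat_lit 0) (XT.nd (nat_lit 78) (nat_lit 152) (nat_lit 0) (XT.lf (nat_lit 0) (nat_lit 8213982249) (nat_lit 228) (nat_lit 4085524873) (nat_lit 76) (nat_lit 16915862149) (nat_lit 38) (nat_lit 5) (nat_lit 41) (nat_lit 5) (nat_lit 39) (nat_lit 5) (nat_lit 356) (nat_lit 317) (nat_lit 227)) (XT.nd (nat_lit 78) (nat_lit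 0) (nat_lit 0) (XT.lf (nat_lit 0) (nat_lit 10801666179) (nat_lit 152) (nat_lit 3345705330) (nat_lit 228) (nat_lit 16060214170) (nat_lit 36) (nat_lit 5) (nat_lit 38) (nat_lit 5) (nat_lit 39) (nat_lit 5) (nat_lit 357) (nat_lit 317) (nat_lit 226)) (XT.lf (nat_lit 0) (nat_lit 20531540911) (nat_lit 228) (nat_lit 4783928696) (nat_lit 76) (nat_lit 5926245881) (nat_lit 36) (nat_lit 5) (nat_lit 39) (nat_lit 5) (nat_lit 37) (nat_lit 5) (nat_lit 358) (nat_lit 317) (nat_lit 225)))) (XT.nd (nat_lit 78) (nat_lit 228) (nat_lit 0) (XT.lf (nat_lit 0) (nat_lit 10844894343) (nat_lit 152) (nat_lit 16603941995) (nat_lit 228) (nat_lit 4868027301) (nat_lit 34) (nat_lit 5) (nat_lit 36) (nat_lit 5) (nat_lit 37) (nat_lit 5) (nat_lit 359) (nat_lit 317) (nat_lit 224)) (XT.nd (nat_lit 78) (nat_lit 152) (nat_lit 0) (XT.lf (nat_lit 0) (nat_lit 1297860132) (nat_lit 228) (nat_lit 6058171400) (nat_lit 76) (nat_lit 26085148210)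 (nat_lit 33) (nat_lit 5) (nat_lit 36) (nat_lit 5) (nat_lit 34) (nat_lit 5) (nat_lit 360) (nat_lit 317) (nat_lit 223)) (XT.lf (nat_lit 0) (nat_lit 7801150454) (nat_lit 228) (nat_lit 24288383663) (nat_lit 76) (nat_lit 2518558718) (nat_lit 31) (nat_lit 5) (nat_lit 34) (nat_lit 5) (nat_lit 32) (nat_lit 5) (nat_lit 361) (nat_lit 317) (nat_lit 222)))))) (XT.nd (nat_lit 468) (nat_lit 304) (nat_lit 0) (XT.nd (nat_lit 234) (nat_lit 304) (nat_lit 0) (XT.nd (nat_lit 78) (nat_lit 152) (nat_lit 0) (XT.lf (nat_lit 0) (nat_lit 14844898970) (nat_lit 228) (nat_lit 8239625902) (nat_lit 76) (nat_lit 12738068386) (nat_lit 31) (nat_lit 5) (nat_lit 34) (nat_lit 5) (nat_lit 32) (nat_lit 5) (nat_lit 362) (nat_lit 317) (nat_lit 221)) (XT.nd (nat_lit 78) (nat_lit 0) (nat_lit 0) (XT.lf (nat_lit 0) (nat_lit 8880622839) (nat_lit 152) (nat_lit 13489742527) (nat_lit 228) (nat_lit 14720982869) (nat_lit 29) (nat_lit 5)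 (nat_lit 31) (nat_lit 5) (nat_lit 32) (nat_lit 5) (nat_lit 363) (nat_lit 317) (nat_lit 220)) (XT.lf (nat_lit 0) (nat_lit 27128007801) (nat_lit 152) (nat_lit 3274719493) (nat_lit 228) (nat_lit 8014288325) (nat_lit 29) (nat_lit 5) (nat_lit 31) (nat_lit 5) (nat_lit 32) (nat_lit 5) (nat_lit 364) (nat_lit 317) (nat_lit 219)))) (XT.nd (nat_lit 78) (nat_lit 228) (nat_lit 0) (XT.lf (nat_lit 0) (nat_lit 6557787045) (nat_lit 76) (nat_lit 32489052990) (nat_lit 152) (nat_lit 751625194) (nat_lit 28) (nat_lit 5) (nat_lit 29) (nat_lit 5) (nat_lit 30) (nat_lit 4) (nat_lit 365) (nat_lit 317) (nat_lit 218)) (XT.nd (nat_lit 78) (nat_lit 152) (nat_lit 0) (XT.lf (nat_lit 0) (nat_lit 6893615304) (nat_lit 152) (nat_lit 15729340113) (nat_lit 76) (nat_lit 18608697602) (nat_lit 27) (nat_lit 5) (nat_lit 29) (nat_lit 5) (nat_lit 28) (nat_lit 5) (nat_lit 366) (nat_lit 317) (nat_lit 217)) (XT.lf (nat_lit 0) (nat_lit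 2718323251) (nat_lit 152) (nat_lit 12211840164) (nat_lit 228) (nat_lit 27804010185) (nat_lit 25) (nat_lit 5) (nat_lit 27) (nat_lit 5) (nat_lit 28) (nat_lit 5) (nat_lit 367) (nat_lit 317) (nat_lit 216))))) (XT.nd (nat_lit 234) (nat_lit 228) (nat_lit 0) (XT.nd (nat_lit 78) (nat_lit 76) (nat_lit 0) (XT.lf (nat_lit 0) (nat_lit 22620758315) (nat_lit 152) (nat_lit 1006202612) (nat_lit 228) (nat_lit 20671942703) (nat_lit 25) (nat_lit 5) (nat_lit 27) (nat_lit 5) (nat_lit 28) (nat_lit 5) (nat_lit 368) (nat_lit 317) (nat_lit 215)) (XT.nd (nat_lit 78) (nat_lit 76) (nat_lit 0) (XT.lf (nat_lit 0) (nat_lit 32918919502) (nat_lit 228) (nat_lit 2604888832) (nat_lit 76) (nat_lit 10410050073) (nat_lit 25) (nat_lit 5) (nat_lit 28) (nat_lit 5) (nat_lit 26) (nat_lit 4) (nat_lit 369) (nat_lit 317) (nat_lit 214)) (XT.lf (nat_lit 0) (nat_lit 17967911718) (nat_lit 76) (nat_lit 24997285871) (nat_lit 152) (nat_lit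 4670881353) (nat_lit 24) (nat_lit 5) (nat_lit 25) (nat_lit 5) (nat_lit 26) (nat_lit 4) (nat_lit 370) (nat_lit 317) (nat_lit 213)))) (XT.nd (nat_lit 78) (nat_lit 152) (nat_lit 0) (XT.lf (nat_lit 0) (nat_lit 3997028192) (nat_lit 152) (nat_lit 9838750256) (nat_lit 76) (nat_lit 35582564322) (nat_lit 23) (nat_lit 5) (nat_lit 25) (nat_lit 5) (nat_lit 24) (nat_lit 5) (nat_lit 371) (nat_lit 317) (nat_lit 212)) (XT.nd (nat_lit 78) (nat_lit 0) (nat_lit 0) (XT.lf (nat_lit 0) (nat_lit 11253610426) (nat_lit 152) (nat_lit 1856525745) (nat_lit 228) (nat_lit 38167319807) (nat_lit 21) (nat_lit 5) (nat_lit 23) (nat_lit 5) (nat_lit 24) (nat_lit 5) (nat_lit 372) (nat_lit 317) (nat_lit 211)) (XT.lf (nat_lit 0) (nat_lit 23008788168) (nat_lit 228) (nat_lit 19661359628) (nat_lit 76) (nat_lit 10542885993) (nat_lit 21) (nat_lit 5) (nat_lit 24) (nat_lit 5) (nat_lit 22) (nat_lit 4) (nat_lit 373) (nat_lit 317) (nat_lit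 210))))))))
noncomputable def xc148 : XT := (XT.nd (nat_lit 1716) (nat_lit 456) (nat_lit 0) (XT.nd (nat_lit 858) (nat_lit 304) (nat_lit 0) (XT.nd (nat_lit 390) (nat_lit 228) (nat_lit 0) (XT.nd (nat_lit 156) (nat_lit 152) (nat_lit 0) (XT.nd (nat_lit 78) (nat_lit 0) (nat_lit 0) (XT.lf (nat_lit 0) (nat_lit 1732645356) (nat_lit 76) (nat_lit 31720677951) (nat_lit 152) (nat_lit 21789522866) (nat_lit 20) (nat_lit 5) (nat_lit 21) (nat_lit 5) (nat_lit 22) (nat_lit 4) (nat_lit 374) (nat_lit 317) (nat_lit 209)) (XT.lf (nat_lit 0) (nat_lit 24867510254) (nat_lit 76) (nat_lit 19879146478) (nat_lit 152) (nat_lit 12611166930) (nat_lit 20) (nat_lit 5) (nat_lit 21) (nat_lit 5) (nat_lit 22) (nat_lit 4) (nat_lit 375) (nat_lit 317) (nat_lit 208))) (XT.nd (nat_lit 78) (nat_lit 152) (nat_lit 0) (XT.lf (nat_lit 0) (nat_lit 49148224734) (nat_lit 76) (nat_lit 7450333892) (nat_lit 152) (nat_lit 2980299222) (nat_lit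 20) (nat_lit 5) (nat_lit 21) (nat_lit 5) (nat_lit 22) (nat_lit 4) (nat_lit 376) (nat_lit 317) (nat_lit 207)) (XT.nd (nat_lit 78) (nat_lit 0) (nat_lit 0) (XT.lf (nat_lit 0) (nat_lit 7193840108) (nat_lit 152) (nat_lit 48960968705) (nat_lit 76) (nat_lit 5736069940) (nat_lit 18) (nat_lit 5) (nat_lit 20) (nat_lit 5) (nat_lit 19) (nat_lit 4) (nat_lit 377) (nat_lit 317) (nat_lit 206)) (XT.lf (nat_lit 0) (nat_lit 18072350164) (nat_lit 152) (nat_lit 26673571868) (nat_lit 76) (nat_lit 19555347254) (nat_lit 18) (nat_lit 5) (nat_lit 20) (nat_lit 5) (nat_lit 19) (nat_lit 4) (nat_lit 378) (nat_lit 317) (nat_lit 205))))) (XT.nd (nat_lit 234) (nat_lit 152) (nat_lit 0) (XT.nd (nat_lit 78) (nat_lit 76) (nat_lit 0) (XT.lf (nat_lit 0) (nat_lit 29489205768) (nat_lit 152) (nat_lit 3281921476) (nat_lit 76) (nat_lit 34061333495) (nat_lit 18) (nat_lit 5) (nat_lit 20) (nat_lit 5) (nat_lit 19) (nat_lit 4) (nat_lit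 379) (nat_lit 317) (nat_lit 204)) (XT.nd (nat_lit 78) (nat_lit 0) (nat_lit 0) (XT.lf (nat_lit 0) (nat_lit 21972948450) (nat_lit 76) (nat_lit 19841700764) (nat_lit 152) (nat_lit 27658677581) (nat_lit 17) (nat_lit 5) (nat_lit 18) (nat_lit 5) (nat_lit 19) (nat_lit 4) (nat_lit 380) (nat_lit 317) (nat_lit 203)) (XT.lf (nat_lit 0) (nat_lit 48595023613) (nat_lit 76) (nat_lit 6211712969) (nat_lit 152) (nat_lit 17436983157) (nat_lit 17) (nat_lit 5) (nat_lit 18) (nat_lit 5) (nat_lit 19) (nat_lit 4) (nat_lit 381) (nat_lit 317) (nat_lit 202)))) (XT.nd (nat_lit 78) (nat_lit 76) (nat_lit 0) (XT.lf (nat_lit 0) (nat_lit 1301553457) (nat_lit 76) (nat_lit 67288631320) (nat_lit 76) (nat_lit 6555361802) (nat_lit 16) (nat_lit 4) (nat_lit 17) (nat_lit 5) (nat_lit 17) (nat_lit 4) (nat_lit 382) (nat_lit 317) (nat_lit 201)) (XT.nd (nat_lit 78) (nat_lit 0) (nat_lit 0) (XT.lf (nat_lit 0) (nat_lit 5218348818) (nat_lit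 152) (nat_lit 50045764746) (nat_lit 76) (nat_lit 22899356616) (nat_lit 15) (nat_lit 5) (nat_lit 17) (nat_lit 5) (nat_lit 16) (nat_lit 4) (nat_lit 383) (nat_lit 317) (nat_lit 200)) (XT.lf (nat_lit 0) (nat_lit 17355670810) (nat_lit 152) (nat_lit 25173883523) (nat_lit 76) (nat_lit 38797602719) (nat_lit 15) (nat_lit 5) (nat_lit 17) (nat_lit 5) (nat_lit 16) (nat_lit 4) (nat_lit 384) (nat_lit 317) (nat_lit 199)))))) (XT.nd (nat_lit 390) (nat_lit 152) (nat_lit 0) (XT.nd (nat_lit 156) (nat_lit 76) (nat_lit 0) (XT.nd (nat_lit 78) (nat_lit 0) (nat_lit 0) (XT.lf (nat_lit 0) (nat_lit 964073243) (nat_lit 76) (nat_lit 29146293719) (nat_lit 152) (nat_lit 54538137607) (nat_lit 14) (nat_lit 5) (nat_lit 15) (nat_lit 5) (nat_lit 16) (nat_lit 4) (nat_lit 385) (nat_lit 317) (nat_lit 198)) (XT.lf (nat_lit 0) (nat_lit 29274668439) (nat_lit 76) (nat_lit 14650005283) (nat_lit 152) (nat_lit 44190153572) (nat_lit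 14) (nat_lit 5) (nat_lit 15) (nat_lit 5) (nat_lit 16) (nat_lit 4) (nat_lit 386) (nat_lit 317) (nat_lit 197))) (XT.nd (nat_lit 78) (nat_lit 76) (nat_lit 0) (XT.lf (nat_lit 0) (nat_lit 58434312089) (nat_lit 152) (nat_lit 32770594103) (nat_lit 0) (nat_lit 549330693) (nat_lit 14) (nat_lit 5) (nat_lit 16) (nat_lit 4) (nat_lit 14) (nat_lit 4) (nat_lit 387) (nat_lit 317) (nat_lit 196)) (XT.nd (nat_lit 78) (nat_lit 76) (nat_lit 0) (XT.lf (nat_lit 0) (nat_lit 73905501001) (nat_lit 152) (nat_lit 5645338858) (nat_lit 0) (nat_lit 16012975139) (nat_lit 14) (nat_lit 5) (nat_lit 16) (nat_lit 4) (nat_lit 14) (nat_lit 4) (nat_lit 388) (nat_lit 317) (nat_lit 195)) (XT.lf (nat_lit 0) (nat_lit 23583745601) (nat_lit 76) (nat_lit 66930811742) (nat_lit 76) (nat_lit 9031100675) (nat_lit 13) (nat_lit 4) (nat_lit 14) (nat_lit 5) (nat_lit 14) (nat_lit 4) (nat_lit 389) (nat_lit 317) (nat_lit 194))))) (XT.nd (nat_lit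 234) (nat_lit 0) (nat_lit 0) (XT.nd (nat_lit 78) (nat_lit 76) (nat_lit 0) (XT.lf (nat_lit 0) (nat_lit 4185451440) (nat_lit 152) (nat_lit 49326378665) (nat_lit 76) (nat_lit 50206800035) (nat_lit 12) (nat_lit 5) (nat_lit 14) (nat_lit 5) (nat_lit 13) (nat_lit 4) (nat_lit 390) (nat_lit 317) (nat_lit 193)) (XT.nd (nat_lit 78) (nat_lit 76) (nat_lit 0) (XT.lf (nat_lit 0) (nat_lit 17755622015) (nat_lit 152) (nat_lit 21514046179) (nat_lit 76) (nat_lit 68823366591) (nat_lit 12) (nat_lit 5) (nat_lit 14) (nat_lit 5) (nat_lit 13) (nat_lit 4) (nat_lit 391) (nat_lit 317) (nat_lit 192)) (XT.lf (nat_lit 0) (nat_lit 7936317390) (nat_lit 76) (nat_lit 24188363367) (nat_lit 152) (nat_lit 80555461078) (nat_lit 11) (nat_lit 5) (nat_lit 12) (nat_lit 5) (nat_lit 13) (nat_lit 4) (nat_lit 392) (nat_lit 317) (nat_lit 191)))) (XT.nd (nat_lit 78) (nat_lit 0) (nat_lit 0) (XT.lf (nat_lit 0) (nat_lit 39599627388) (nat_lit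 76) (nat_lit 7973453995) (nat_lit 152) (nat_lit 69905479503) (nat_lit 11) (nat_lit 5) (nat_lit 12) (nat_lit 5) (nat_lit 13) (nat_lit 4) (nat_lit 393) (nat_lit 317) (nat_lit 190)) (XT.nd (nat_lit 78) (nat_lit 0) (nat_lit 0) (XT.lf (nat_lit 0) (nat_lit 63931890241) (nat_lit 152) (nat_lit 49818430847) (nat_lit 0) (nat_lit 8759681437) (nat_lit 11) (nat_lit 5) (nat_lit 13) (nat_lit 4) (nat_lit 11) (nat_lit 4) (nat_lit 394) (nat_lit 317) (nat_lit 189)) (XT.lf (nat_lit 0) (nat_lit 81236169023) (nat_lit 152) (nat_lit 20491617920) (nat_lit 0) (nat_lit 26058853826) (nat_lit 11) (nat_lit 5) (nat_lit 13) (nat_lit 4) (nat_lit 11) (nat_lit 4) (nat_lit 395) (nat_lit 317) (nat_lit 188))))))) (XT.nd (nat_lit 858) (nat_lit 152) (nat_lit 0) (XT.nd (nat_lit 390) (nat_lit 152) (nat_lit 0) (XT.nd (nat_lit 156) (nat_lit 76) (nat_lit 0) (XT.nd (nat_lit 78) (nat_lit 0) (nat_lit 0) (XT.lf (nat_lit 0) (nat_lit 10636245264)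 (nat_lit 76) (nat_lit 88932446761) (nat_lit 76) (nat_lit 33750268335) (nat_lit 10) (nat_lit 4) (nat_lit 11) (nat_lit 5) (nat_lit 11) (nat_lit 4) (nat_lit 396) (nat_lit 317) (nat_lit 187)) (XT.lf (nat_lit 0) (nat_lit 44026299852) (nat_lit 76) (nat_lit 75135602009) (nat_lit 76) (nat_lit 19948791936) (nat_lit 10) (nat_lit 4) (nat_lit 11) (nat_lit 5) (nat_lit 11) (nat_lit 4) (nat_lit 397) (nat_lit 317) (nat_lit 186))) (XT.nd (nat_lit 78) (nat_lit 76) (nat_lit 0) (XT.lf (nat_lit 0) (nat_lit 79080500544) (nat_lit 76) (nat_lit 60651438523) (nat_lit 76) (nat_lit 5460217357) (nat_lit 10) (nat_lit 4) (nat_lit 11) (nat_lit 5) (nat_lit 11) (nat_lit 4) (nat_lit 398) (nat_lit 317) (nat_lit 185)) (XT.nd (nat_lit 78) (nat_lit 0) (nat_lit 0) (XT.lf (nat_lit 0) (nat_lit 9437892652) (nat_lit 152) (nat_lit 35847742268) (nat_lit 76) (nat_lit 106284581790) (nat_lit 9) (nat_lit 5) (nat_lit 11) (nat_lit 5) (nat_lit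 10) (nat_lit 4) (nat_lit 399) (nat_lit 317) (nat_lit 184)) (XT.lf (nat_lit 0) (nat_lit 24894796447) (nat_lit 152) (nat_lit 4165090479) (nat_lit 76) (nat_lit 129202948868) (nat_lit 9) (nat_lit 5) (nat_lit 11) (nat_lit 5) (nat_lit 10) (nat_lit 4) (nat_lit 400) (nat_lit 317) (nat_lit 183))))) (XT.nd (nat_lit 234) (nat_lit 76) (nat_lit 0) (XT.nd (nat_lit 78) (nat_lit 0) (nat_lit 0) (XT.lf (nat_lit 0) (nat_lit 30059061349) (nat_lit 76) (nat_lit 11532302072) (nat_lit 152) (nat_lit 123675382220) (nat_lit 8) (nat_lit 5) (nat_lit 9) (nat_lit 5) (nat_lit 10) (nat_lit 4) (nat_lit 401) (nat_lit 317) (nat_lit 182)) (XT.nd (nat_lit 78) (nat_lit 0) (nat_lit 0) (XT.lf (nat_lit 0) (nat_lit 59299262533) (nat_lit 152) (nat_lit 106591465858) (nat_lit 0) (nat_lit 6721298074) (nat_lit 8) (nat_lit 5) (nat_lit 10) (nat_lit 4) (nat_lit 8) (nat_lit 4) (nat_lit 402) (nat_lit 317) (nat_lit 181)) (XT.lf (nat_lit 0)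 (nat_lit 78079252359) (nat_lit 152) (nat_lit 76737988551) (nat_lit 0) (nat_lit 25497996274) (nat_lit 8) (nat_lit 5) (nat_lit 10) (nat_lit 4) (nat_lit 8) (nat_lit 4) (nat_lit 403) (nat_lit 317) (nat_lit 180)))) (XT.nd (nat_lit 78) (nat_lit 76) (nat_lit 0) (XT.lf (nat_lit 0) (nat_lit 97795995605) (nat_lit 152) (nat_lit 45396121111) (nat_lit 0) (nat_lit 45211604639) (nat_lit 8) (nat_lit 5) (nat_lit 10) (nat_lit 4) (nat_lit 8) (nat_lit 4) (nat_lit 404) (nat_lit 317) (nat_lit 179)) (XT.nd (nat_lit 78) (nat_lit 76) (nat_lit 0) (XT.lf (nat_lit 0) (nat_lit 118496436898) (nat_lit 152) (nat_lit 12491240042) (nat_lit 0) (nat_lit 65909060331) (nat_lit 8) (nat_lit 5) (nat_lit 10) (nat_lit 4) (nat_lit 8) (nat_lit 4) (nat_lit 405) (nat_lit 317) (nat_lit 178)) (XT.lf (nat_lit 0) (nat_lit 22784237498) (nat_lit 76) (nat_lit 117801351305) (nat_lit 76) (nat_lit 65211131308) (nat_lit 7) (nat_lit 4) (nat_lit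 8) (nat_lit 5) (nat_lit 8) (nat_lit 4) (nat_lit 406) (nat_lit 317) (nat_lit 177)))))) (XT.nd (nat_lit 468) (nat_lit 0) (nat_lit 0) (XT.nd (nat_lit 234) (nat_lit 152) (nat_lit 0) (XT.nd (nat_lit 78) (nat_lit 0) (nat_lit 0) (XT.lf (nat_lit 0) (nat_lit 60253333763) (nat_lit 76) (nat_lit 103735409810) (nat_lit 76) (nat_lit 51142481785) (nat_lit 7) (nat_lit 4) (nat_lit 8) (nat_lit 5) (nat_lit 8) (nat_lit 4) (nat_lit 407) (nat_lit 317) (nat_lit 176)) (XT.nd (nat_lit 78) (nat_lit 0) (nat_lit 0) (XT.lf (nat_lit 0) (nat_lit 99592244077) (nat_lit 76) (nat_lit 88967907313) (nat_lit 76) (nat_lit 36372400213) (nat_lit 7) (nat_lit 4) (nat_lit 8) (nat_lit 5) (nat_lit 8) (nat_lit 4) (nat_lit 408) (nat_lit 317) (nat_lit 175)) (XT.lf (nat_lit 0) (nat_lit 140894632514) (nat_lit 76) (nat_lit 73463683094) (nat_lit 76) (nat_lit 20865719733) (nat_lit 7) (nat_lit 4) (nat_lit 8) (nat_lit 5) (nat_lit 8) (nat_lit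 4) (nat_lit 409) (nat_lit 317) (nat_lit 174)))) (XT.nd (nat_lit 78) (nat_lit 152) (nat_lit 0) (XT.lf (nat_lit 0) (nat_lit 184258838092) (nat_lit 76) (nat_lit 57185822334) (nat_lit 76) (nat_lit 4585519676) (nat_lit 7) (nat_lit 4) (nat_lit 8) (nat_lit 5) (nat_lit 8) (nat_lit 4) (nat_lit 410) (nat_lit 317) (nat_lit 173)) (XT.nd (nat_lit 78) (nat_lit 76) (nat_lit 0) (XT.lf (nat_lit 0) (nat_lit 12106661435) (nat_lit 152) (nat_lit 27783874615) (nat_lit 76) (nat_lit 217476415315) (nat_lit 6) (nat_lit 5) (nat_lit 8) (nat_lit 5) (nat_lit 7) (nat_lit 4) (nat_lit 411) (nat_lit 317) (nat_lit 172)) (XT.lf (nat_lit 0) (nat_lit 8083466781) (nat_lit 76) (nat_lit 21520493780) (nat_lit 152) (nat_lit 239656611779) (nat_lit 5) (nat_lit 5) (nat_lit 6) (nat_lit 5) (nat_lit 7) (nat_lit 4) (nat_lit 412) (nat_lit 317) (nat_lit 171))))) (XT.nd (nat_lit 234) (nat_lit 0) (nat_lit 0) (XT.nd (nat_lit 78) (nat_lit 0)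 (nat_lit 0) (XT.lf (nat_lit 0) (nat_lit 46705769469) (nat_lit 76) (nat_lit 1739324487) (nat_lit 152) (nat_lit 233280332316) (nat_lit 5) (nat_lit 5) (nat_lit 6) (nat_lit 5) (nat_lit 7) (nat_lit 4) (nat_lit 413) (nat_lit 317) (nat_lit 170)) (XT.nd (nat_lit 78) (nat_lit 0) (nat_lit 0) (XT.lf (nat_lit 0) (nat_lit 68523898848) (nat_lit 152) (nat_lit 207854371191) (nat_lit 0) (nat_lit 18420472479) (nat_lit 5) (nat_lit 5) (nat_lit 7) (nat_lit 4) (nat_lit 5) (nat_lit 4) (nat_lit 414) (nat_lit 317) (nat_lit 169)) (XT.lf (nat_lit 0) (nat_lit 89633718541) (nat_lit 152) (nat_lit 179362106095) (nat_lit 0) (nat_lit 39528546552) (nat_lit 5) (nat_lit 5) (nat_lit 7) (nat_lit 4) (nat_lit 5) (nat_lit 4) (nat_lit 415) (nat_lit 317) (nat_lit 168)))) (XT.nd (nat_lit 78) (nat_lit 0) (nat_lit 0) (XT.lf (nat_lit 0) (nat_lit 111797658780) (nat_lit 152) (nat_lit 149447867061) (nat_lit 0) (nat_lit 61690824297) (nat_lit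 5) (nat_lit 5) (nat_lit 7) (nat_lit 4) (nat_lit 5) (nat_lit 4) (nat_lit 416) (nat_lit 317) (nat_lit 167)) (XT.nd (nat_lit 78) (nat_lit 0) (nat_lit 0) (XT.lf (nat_lit 0) (nat_lit 135068490852) (nat_lit 152) (nat_lit 118040429711) (nat_lit 0) (nat_lit 84960073041) (nat_lit 5) (nat_lit 5) (nat_lit 7) (nat_lit 4) (nat_lit 5) (nat_lit 4) (nat_lit 417) (nat_lit 317) (nat_lit 166)) (XT.lf (nat_lit 0) (nat_lit 159501621500) (nat_lit 152) (nat_lit 85065014430) (nat_lit 0) (nat_lit 109391695757) (nat_lit 5) (nat_lit 5) (nat_lit 7) (nat_lit 4) (nat_lit 5) (nat_lit 4) (nat_lit 418) (nat_lit 317) (nat_lit 165))))))))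
noncomputable def xc149 : XT := (XT.nd (nat_lit 39780) (nat_lit 0) (nat_lit 3192) (XT.nd (nat_lit 858) (nat_lit 0) (nat_lit 0) (XT.nd (nat_lit 390) (nat_lit 0) (nat_lit 0) (XT.nd (nat_lit 156) (nat_lit 76) (nat_lit 0) (XT.nd (nat_lit 78) (nat_lit 0) (nat_lit 0) (XT.lf (nat_lit 0) (nat_lit 185155224844) (nat_lit 152) (nat_lit 50443108326) (nat_lit 0) (nat_lit 135043862976) (nat_lit 5) (nat_lit 5) (nat_lit 7) (nat_lit 4) (nat_lit 5) (nat_lit 4) (nat_lit 419) (nat_lit 317) (nat_lit 164)) (XT.lf (nat_lit 0) (nat_lit 212090380893) (nat_lit 152) (nat_lit 14092278289) (nat_lit 0) (nat_lit 161977651287) (nat_lit 5) (nat_lit 5) (nat_lit 7) (nat_lit 4) (nat_lit 5) (nat_lit 4) (nat_lit 420) (nat_lit 317) (nat_lit 163))) (XT.nd (nat_lit 78) (nat_lit 0) (nat_lit 0) (XT.lf (nat_lit 0) (nat_lit 24870021273) (nat_lit 76) (nat_lit 215889490428) (nat_lit 76) (nat_lit 165775458214) (nat_lit 4) (nat_lit 4)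 (nat_lit 5) (nat_lit 5) (nat_lit 5) (nat_lit 4) (nat_lit 421) (nat_lit 317) (nat_lit 162)) (XT.nd (nat_lit 78) (nat_lit 0) (nat_lit 0) (XT.lf (nat_lit 0) (nat_lit 66267653275) (nat_lit 76) (nat_lit 204832050917) (nat_lit 76) (nat_lit 154716778124) (nat_lit 4) (nat_lit 4) (nat_lit 5) (nat_lit 5) (nat_lit 5) (nat_lit 4) (nat_lit 422) (nat_lit 317) (nat_lit 161)) (XT.lf (nat_lit 0) (nat_lit 109733229146) (nat_lit 76) (nat_lit 193222672965) (nat_lit 76) (nat_lit 143106218669) (nat_lit 4) (nat_lit 4) (nat_lit 5) (nat_lit 5) (nat_lit 5) (nat_lit 4) (nat_lit 423) (nat_lit 317) (nat_lit 160))))) (XT.nd (nat_lit 234) (nat_lit 0) (nat_lit 0) (XT.nd (nat_lit 78) (nat_lit 0) (nat_lit 0) (XT.lf (nat_lit 0) (nat_lit 155370238350) (nat_lit 76) (nat_lit 181033715196) (nat_lit 76) (nat_lit 130916135658) (nat_lit 4) (nat_lit 4) (nat_lit 5) (nat_lit 5) (nat_lit 5) (nat_lit 4) (nat_lit 424) (nat_lit 317)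 (nat_lit 159)) (XT.nd (nat_lit 78) (nat_lit 0) (nat_lit 0) (XT.lf (nat_lit 0) (nat_lit 203287340434) (nat_lit 76) (nat_lit 168236156281) (nat_lit 76) (nat_lit 118117505084) (nat_lit 4) (nat_lit 4) (nat_lit 5) (nat_lit 5) (nat_lit 5) (nat_lit 4) (nat_lit 425) (nat_lit 317) (nat_lit 158)) (XT.lf (nat_lit 0) (nat_lit 253598623736) (nat_lit 76) (nat_lit 154799525843) (nat_lit 76) (nat_lit 104679854019) (nat_lit 4) (nat_lit 4) (nat_lit 5) (nat_lit 5) (nat_lit 5) (nat_lit 4) (nat_lit 426) (nat_lit 317) (nat_lit 157)))) (XT.nd (nat_lit 78) (nat_lit 0) (nat_lit 0) (XT.lf (nat_lit 0) (nat_lit 306423877026) (nat_lit 76) (nat_lit 140691831904) (nat_lit 76) (nat_lit 90571188053) (nat_lit 4) (nat_lit 4) (nat_lit 5) (nat_lit 5) (nat_lit 5) (nat_lit 4) (nat_lit 427) (nat_lit 317) (nat_lit 156)) (XT.nd (nat_lit 78) (nat_lit 0) (nat_lit 0) (XT.lf (nat_lit 0) (nat_lit 361888874717) (nat_lit 76) (nat_lit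 125879484716) (nat_lit 76) (nat_lit 75757915127) (nat_lit 4) (nat_lit 4) (nat_lit 5) (nat_lit 5) (nat_lit 5) (nat_lit 4) (nat_lit 428) (nat_lit 317) (nat_lit 155)) (XT.lf (nat_lit 0) (nat_lit 420125676326) (nat_lit 76) (nat_lit 110327216787) (nat_lit 76) (nat_lit 60204765541) (nat_lit 4) (nat_lit 4) (nat_lit 5) (nat_lit 5) (nat_lit 5) (nat_lit 4) (nat_lit 429) (nat_lit 317) (nat_lit 154)))))) (XT.nd (nat_lit 38454) (nat_lit 0) (nat_lit 7372) (XT.nd (nat_lit 38220) (nat_lit 0) (nat_lit 7296) (XT.nd (nat_lit 78) (nat_lit 0) (nat_lit 0) (XT.lf (nat_lit 0) (nat_lit 481272940906) (nat_lit 76) (nat_lit 93997998907) (nat_lit 76) (nat_lit 43874707988) (nat_lit 4) (nat_lit 4) (nat_lit 5) (nat_lit 5) (nat_lit 5) (nat_lit 4) (nat_lit 430) (nat_lit 317) (nat_lit 153)) (XT.nd (nat_lit 38064) (nat_lit 0) (nat_lit 7296) (XT.lf (nat_lit 0) (nat_lit 545476257181) (nat_lit 76) (nat_lit 76852951985) (nat_lit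 76) (nat_lit 26728861378) (nat_lit 4) (nat_lit 4) (nat_lit 5) (nat_lit 5) (nat_lit 5) (nat_lit 4) (nat_lit 431) (nat_lit 317) (nat_lit 152)) (XT.lf (nat_lit 0) (nat_lit 211142704) (nat_lit 0) (nat_lit 211142704) (nat_lit 684) (nat_lit 4715966381) (nat_lit 100) (nat_lit 5) (nat_lit 100) (nat_lit 3) (nat_lit 109) (nat_lit 3) (nat_lit 318) (nat_lit 318) (nat_lit 264)))) (XT.nd (nat_lit 78) (nat_lit 0) (nat_lit 0) (XT.lf (nat_lit 0) (nat_lit 1566816053) (nat_lit 684) (nat_lit 5129108382) (nat_lit 760) (nat_lit 3801451071) (nat_lit 100) (nat_lit 5) (nat_lit 109) (nat_lit 3) (nat_lit 110) (nat_lit 5) (nat_lit 319) (nat_lit 318) (nat_lit 263)) (XT.nd (nat_lit 78) (nat_lit 0) (nat_lit 76) (XT.lf (nat_lit 0) (nat_lit 2291459691) (nat_lit 684) (nat_lit 197574494) (nat_lit 760) (nat_lit 8242005534) (nat_lit 100) (nat_lit 5) (nat_lit 109) (nat_lit 3) (nat_lit 110) (nat_lit 5) (nat_lit 320) (nat_lit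 318) (nat_lit 262)) (XT.lf (nat_lit 0) (nat_lit 3125292693) (nat_lit 684) (nat_lit 5883386681) (nat_lit 760) (nat_lit 1964119905) (nat_lit 101) (nat_lit 5) (nat_lit 110) (nat_lit 5) (nat_lit 111) (nat_lit 5) (nat_lit 321) (nat_lit 318) (nat_lit 261))))) (XT.nd (nat_lit 234) (nat_lit 0) (nat_lit 76) (XT.nd (nat_lit 78) (nat_lit 0) (nat_lit 76) (XT.lf (nat_lit 0) (nat_lit 4008073899) (nat_lit 684) (nat_lit 643358092) (nat_lit 760) (nat_lit 6574909138) (nat_lit 101) (nat_lit 5) (nat_lit 110) (nat_lit 5) (nat_lit 111) (nat_lit 5) (nat_lit 322) (nat_lit 318) (nat_lit 260)) (XT.nd (nat_lit 78) (nat_lit 0) (nat_lit 0) (XT.lf (nat_lit 0) (nat_lit 4978093353) (nat_lit 684) (nat_lit 6494684583) (nat_lit 760) (nat_lit 17681593) (nat_lit 102) (nat_lit 5) (nat_lit 111) (nat_lit 5) (nat_lit 112) (nat_lit 5) (nat_lit 323) (nat_lit 318) (nat_lit 259)) (XT.lf (nat_lit 0) (nat_lit 6050265183) (nat_lit 684)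 (nat_lit 928537975) (nat_lit 760) (nat_lit 4786349949) (nat_lit 102) (nat_lit 5) (nat_lit 111) (nat_lit 5) (nat_lit 112) (nat_lit 5) (nat_lit 324) (nat_lit 318) (nat_lit 258)))) (XT.nd (nat_lit 78) (nat_lit 0) (nat_lit 76) (XT.lf (nat_lit 76) (nat_lit 5054778653) (nat_lit 0) (nat_lit 2168114041) (nat_lit 760) (nat_lit 4828395672) (nat_lit 103) (nat_lit 5) (nat_lit 102) (nat_lit 5) (nat_lit 112) (nat_lit 5) (nat_lit 325) (nat_lit 318) (nat_lit 257)) (XT.nd (nat_lit 78) (nat_lit 0) (nat_lit 0) (XT.lf (nat_lit 0) (nat_lit 8484381296) (nat_lit 684) (nat_lit 1050991717) (nat_lit 760) (nat_lit 2814892898) (nat_lit 103) (nat_lit 5) (nat_lit 112) (nat_lit 5) (nat_lit 113) (nat_lit 5) (nat_lit 326) (nat_lit 318) (nat_lit 256)) (XT.lf (nat_lit 76) (nat_lit 5302865829) (nat_lit 0) (nat_lit 4595112293) (nat_lit 760) (nat_lit 2761807292) (nat_lit 104) (nat_lit 5) (nat_lit 103) (nat_lit 5) (nat_lit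 113) (nat_lit 5) (nat_lit 327) (nat_lit 318) (nat_lit 255))))))) (XT.nd (nat_lit 858) (nat_lit 1596) (nat_lit 0) (XT.nd (nat_lit 390) (nat_lit 1368) (nat_lit 0) (XT.nd (nat_lit 156) (nat_lit 760) (nat_lit 0) (XT.nd (nat_lit 78) (nat_lit 684) (nat_lit 0) (XT.lf (nat_lit 0) (nat_lit 11381415595) (nat_lit 684) (nat_lit 1006810989) (nat_lit 76) (nat_lit 596638906) (nat_lit 104) (nat_lit 5) (nat_lit 113) (nat_lit 5) (nat_lit 105) (nat_lit 5) (nat_lit 328) (nat_lit 318) (nat_lit 254)) (XT.lf (nat_lit 0) (nat_lit 5746258756) (nat_lit 684) (nat_lit 7330977443) (nat_lit 760) (nat_lit 242093414) (nat_lit 95) (nat_lit 5) (nat_lit 104) (nat_lit 5) (nat_lit 105) (nat_lit 5) (nat_lit 329) (nat_lit 318) (nat_lit 253))) (XT.nd (nat_lit 78) (nat_lit 684) (nat_lit 0) (XT.lf (nat_lit 0) (nat_lit 1140285858) (nat_lit 760) (nat_lit 840211809) (nat_lit 76) (nat_lit 11689581382) (nat_lit 94) (nat_lit 5) (nat_lit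 104) (nat_lit 5) (nat_lit 95) (nat_lit 5) (nat_lit 330) (nat_lit 318) (nat_lit 252)) (XT.nd (nat_lit 78) (nat_lit 0) (nat_lit 0) (XT.lf (nat_lit 0) (nat_lit 2717112587) (nat_lit 760) (nat_lit 7685119393) (nat_lit 76) (nat_lit 3629297395) (nat_lit 85) (nat_lit 5) (nat_lit 95) (nat_lit 5) (nat_lit 86) (nat_lit 5) (nat_lit 331) (nat_lit 318) (nat_lit 251)) (XT.lf (nat_lit 0) (nat_lit 4395475482) (nat_lit 760) (nat_lit 544963518) (nat_lit 76) (nat_lit 9469511885) (nat_lit 85) (nat_lit 5) (nat_lit 95) (nat_lit 5) (nat_lit 86) (nat_lit 5) (nat_lit 332) (nat_lit 318) (nat_lit 250))))) (XT.nd (nat_lit 234) (nat_lit 684) (nat_lit 0) (XT.nd (nat_lit 78) (nat_lit 304) (nat_lit 0) (XT.lf (nat_lit 0) (nat_lit 6260694935) (nat_lit 456) (nat_lit 7658143998) (nat_lit 76) (nat_lit 883339435) (nat_lit 80) (nat_lit 5) (nat_lit 86) (nat_lit 5) (nat_lit 81) (nat_lit 5) (nat_lit 333) (nat_lit 318) (nat_lit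 249)) (XT.nd (nat_lit 78) (nat_lit 304) (nat_lit 0) (XT.lf (nat_lit 0) (nat_lit 8287227091) (nat_lit 456) (nat_lit 81425995) (nat_lit 76) (nat_lit 6841991853) (nat_lit 80) (nat_lit 5) (nat_lit 86) (nat_lit 5) (nat_lit 81) (nat_lit 5) (nat_lit 334) (nat_lit 318) (nat_lit 248)) (XT.lf (nat_lit 0) (nat_lit 8111725015) (nat_lit 304) (nat_lit 2408750844) (nat_lit 380) (nat_lit 5113818339) (nat_lit 76) (nat_lit 5) (nat_lit 80) (nat_lit 5) (nat_lit 81) (nat_lit 5) (nat_lit 335) (nat_lit 318) (nat_lit 247)))) (XT.nd (nat_lit 78) (nat_lit 380) (nat_lit 0) (XT.lf (nat_lit 0) (nat_lit 573838319) (nat_lit 304) (nat_lit 12341405591) (nat_lit 380) (nat_lit 3161416651) (nat_lit 72) (nat_lit 5) (nat_lit 76) (nat_lit 5) (nat_lit 77) (nat_lit 5) (nat_lit 336) (nat_lit 318) (nat_lit 246)) (XT.nd (nat_lit 78) (nat_lit 380) (nat_lit 0) (XT.lf (nat_lit 0) (nat_lit 9273092740) (nat_lit 304) (nat_lit 6302938910)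 (nat_lit 380) (nat_lit 957825705) (nat_lit 72) (nat_lit 5) (nat_lit 76) (nat_lit 5) (nat_lit 77) (nat_lit 5) (nat_lit 337) (nat_lit 318) (nat_lit 245)) (XT.lf (nat_lit 0) (nat_lit 1316220176) (nat_lit 380) (nat_lit 15619080332) (nat_lit 76) (nat_lit 77395014) (nat_lit 67) (nat_lit 5) (nat_lit 72) (nat_lit 5) (nat_lit 68) (nat_lit 5) (nat_lit 338) (nat_lit 318) (nat_lit 244)))))) (XT.nd (nat_lit 468) (nat_lit 760) (nat_lit 0) (XT.nd (nat_lit 234) (nat_lit 532) (nat_lit 0) (XT.nd (nat_lit 78) (nat_lit 304) (nat_lit 0) (XT.lf (nat_lit 0) (nat_lit 3881273817) (nat_lit 380) (nat_lit 6920089966) (nat_lit 76) (nat_lit 6702874588) (nat_lit 67) (nat_lit 5) (nat_lit 72) (nat_lit 5) (nat_lit 68) (nat_lit 5) (nat_lit 339) (nat_lit 318) (nat_lit 243)) (XT.nd (nat_lit 78) (nat_lit 0) (nat_lit 0) (XT.lf (nat_lit 0) (nat_lit 2264903648) (nat_lit 304) (nat_lit 4327121267) (nat_lit 380) (nat_lit 11427482744)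 (nat_lit 63) (nat_lit 5) (nat_lit 67) (nat_lit 5) (nat_lit 68) (nat_lit 5) (nat_lit 340) (nat_lit 318) (nat_lit 242)) (XT.lf (nat_lit 0) (nat_lit 9578555919) (nat_lit 380) (nat_lit 6467705652) (nat_lit 76) (nat_lit 2507287233) (nat_lit 63) (nat_lit 5) (nat_lit 68) (nat_lit 5) (nat_lit 64) (nat_lit 5) (nat_lit 341) (nat_lit 318) (nat_lit 241)))) (XT.nd (nat_lit 78) (nat_lit 304) (nat_lit 0) (XT.lf (nat_lit 0) (nat_lit 3297253956) (nat_lit 228) (nat_lit 9522955698) (nat_lit 304) (nat_lit 6288812075) (nat_lit 60) (nat_lit 5) (nat_lit 63) (nat_lit 5) (nat_lit 64) (nat_lit 5) (nat_lit 342) (nat_lit 318) (nat_lit 240)) (XT.nd (nat_lit 78) (nat_lit 304) (nat_lit 0) (XT.lf (nat_lit 0) (nat_lit 13754462483) (nat_lit 228) (nat_lit 2562868385) (nat_lit 304) (nat_lit 3370286796) (nat_lit 60) (nat_lit 5) (nat_lit 63) (nat_lit 5) (nat_lit 64) (nat_lit 5) (nat_lit 343) (nat_lit 318) (nat_lit 239)) (XT.lf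 (nat_lit 0) (nat_lit 4488681314) (nat_lit 304) (nat_lit 15629348682) (nat_lit 380) (nat_lit 170695025) (nat_lit 56) (nat_lit 5) (nat_lit 60) (nat_lit 5) (nat_lit 61) (nat_lit 5) (nat_lit 344) (nat_lit 318) (nat_lit 238))))) (XT.nd (nat_lit 234) (nat_lit 456) (nat_lit 0) (XT.nd (nat_lit 78) (nat_lit 228) (nat_lit 0) (XT.lf (nat_lit 0) (nat_lit 3215670703) (nat_lit 380) (nat_lit 5391197629) (nat_lit 76) (nat_lit 12304103200) (nat_lit 55) (nat_lit 5) (nat_lit 60) (nat_lit 5) (nat_lit 56) (nat_lit 5) (nat_lit 345) (nat_lit 318) (nat_lit 237)) (XT.nd (nat_lit 78) (nat_lit 0) (nat_lit 0) (XT.lf (nat_lit 0) (nat_lit 5698164017) (nat_lit 228) (nat_lit 1141862356) (nat_lit 304) (nat_lit 14720458981) (nat_lit 52) (nat_lit 5) (nat_lit 55) (nat_lit 5) (nat_lit 56) (nat_lit 5) (nat_lit 346) (nat_lit 318) (nat_lit 236)) (XT.lf (nat_lit 0) (nat_lit 10828707454) (nat_lit 304) (nat_lit 4834626919) (nat_lit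 76) (nat_lit 6569999688) (nat_lit 52) (nat_lit 5) (nat_lit 56) (nat_lit 5) (nat_lit 53) (nat_lit 5) (nat_lit 347) (nat_lit 318) (nat_lit 235)))) (XT.nd (nat_lit 78) (nat_lit 228) (nat_lit 0) (XT.lf (nat_lit 0) (nat_lit 6928601300) (nat_lit 228) (nat_lit 8201552226) (nat_lit 304) (nat_lit 7804019014) (nat_lit 49) (nat_lit 5) (nat_lit 52) (nat_lit 5) (nat_lit 53) (nat_lit 5) (nat_lit 348) (nat_lit 318) (nat_lit 234)) (XT.nd (nat_lit 78) (nat_lit 228) (nat_lit 0) (XT.lf (nat_lit 0) (nat_lit 19429252569) (nat_lit 228) (nat_lit 286088759) (nat_lit 304) (nat_lit 3951291363) (nat_lit 49) (nat_lit 5) (nat_lit 52) (nat_lit 5) (nat_lit 53) (nat_lit 5) (nat_lit 349) (nat_lit 318) (nat_lit 233)) (XT.lf (nat_lit 0) (nat_lit 336281326) (nat_lit 228) (nat_lit 16189713761) (nat_lit 76) (nat_lit 7897398338) (nat_lit 46) (nat_lit 5) (nat_lit 49) (nat_lit 5) (nat_lit 47) (nat_lit 5) (nat_lit 350) (nat_lit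 318) (nat_lit 232))))))))
noncomputable def xc150 : XT := (XT.nd (nat_lit 1794) (nat_lit 760) (nat_lit 0) (XT.nd (nat_lit 858) (nat_lit 912) (nat_lit 0) (XT.nd (nat_lit 390) (nat_lit 608) (nat_lit 0) (XT.nd (nat_lit 156) (nat_lit 152) (nat_lit 0) (XT.nd (nat_lit 78) (nat_lit 228) (nat_lit 0) (XT.lf (nat_lit 0) (nat_lit 4770521884) (nat_lit 228) (nat_lit 3828035081) (nat_lit 76) (nat_lit 16612953962) (nat_lit 46) (nat_lit 5) (nat_lit 49) (nat_lit 5) (nat_lit 47) (nat_lit 5) (nat_lit 351) (nat_lit 318) (nat_lit 231)) (XT.lf (nat_lit 0) (nat_lit 9436227627) (nat_lit 228) (nat_lit 125620459) (nat_lit 304) (nat_lit 16470428413) (nat_lit 43) (nat_lit 5) (nat_lit 46) (nat_lit 5) (nat_lit 47) (nat_lit 5) (nat_lit 352) (nat_lit 318) (nat_lit 230))) (XT.nd (nat_lit 78) (nat_lit 152) (nat_lit 0) (XT.lf (nat_lit 0) (nat_lit 14783832871) (nat_lit 304) (nat_lit 3549978125) (nat_lit 76) (nat_lit 8550725099)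 (nat_lit 43) (nat_lit 5) (nat_lit 47) (nat_lit 5) (nat_lit 44) (nat_lit 5) (nat_lit 353) (nat_lit 318) (nat_lit 229)) (XT.nd (nat_lit 78) (nat_lit 0) (nat_lit 0) (XT.lf (nat_lit 0) (nat_lit 10464365304) (nat_lit 152) (nat_lit 9956808584) (nat_lit 228) (nat_lit 7350531799) (nat_lit 41) (nat_lit 5) (nat_lit 43) (nat_lit 5) (nat_lit 44) (nat_lit 5) (nat_lit 354) (nat_lit 318) (nat_lit 228)) (XT.lf (nat_lit 0) (nat_lit 25286049113) (nat_lit 152) (nat_lit 1103545869) (nat_lit 228) (nat_lit 2311187522) (nat_lit 41) (nat_lit 5) (nat_lit 43) (nat_lit 5) (nat_lit 44) (nat_lit 5) (nat_lit 355) (nat_lit 318) (nat_lit 227))))) (XT.nd (nat_lit 234) (nat_lit 228) (nat_lit 0) (XT.nd (nat_lit 78) (nat_lit 152) (nat_lit 0) (XT.lf (nat_lit 0) (nat_lit 3184882870) (nat_lit 228) (nat_lit 18319957417) (nat_lit 76) (nat_lit 8154147918) (nat_lit 38) (nat_lit 5) (nat_lit 41) (nat_lit 5) (nat_lit 39) (nat_lit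 5) (nat_lit 356) (nat_lit 318) (nat_lit 226)) (XT.nd (nat_lit 78) (nat_lit 152) (nat_lit 0) (XT.lf (nat_lit 0) (nat_lit 8944554524) (nat_lit 228) (nat_lit 3786470183) (nat_lit 76) (nat_lit 17928869743) (nat_lit 38) (nat_lit 5) (nat_lit 41) (nat_lit 5) (nat_lit 39) (nat_lit 5) (nat_lit 357) (nat_lit 318) (nat_lit 225)) (XT.lf (nat_lit 0) (nat_lit 11836962180) (nat_lit 152) (nat_lit 3330150668) (nat_lit 228) (nat_lit 16534995736) (nat_lit 36) (nat_lit 5) (nat_lit 38) (nat_lit 5) (nat_lit 39) (nat_lit 5) (nat_lit 358) (nat_lit 318) (nat_lit 224)))) (XT.nd (nat_lit 78) (nat_lit 228) (nat_lit 0) (XT.lf (nat_lit 0) (nat_lit 21858334536) (nat_lit 228) (nat_lit 4539111391) (nat_lit 76) (nat_lit 6391118087) (nat_lit 36) (nat_lit 5) (nat_lit 39) (nat_lit 5) (nat_lit 37) (nat_lit 5) (nat_lit 359) (nat_lit 318) (nat_lit 223)) (XT.nd (nat_lit 78) (nat_lit 76) (nat_lit 0) (XT.lf (nat_lit 0) (nat_lit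 11863346127) (nat_lit 152) (nat_lit 17251287507) (nat_lit 228) (nat_lit 4803189776) (nat_lit 34) (nat_lit 5) (nat_lit 36) (nat_lit 5) (nat_lit 37) (nat_lit 5) (nat_lit 360) (nat_lit 318) (nat_lit 222)) (XT.lf (nat_lit 0) (nat_lit 1646918206) (nat_lit 228) (nat_lit 5897958062) (nat_lit 76) (nat_lit 27553958621) (nat_lit 33) (nat_lit 5) (nat_lit 36) (nat_lit 5) (nat_lit 34) (nat_lit 5) (nat_lit 361) (nat_lit 318) (nat_lit 221)))))) (XT.nd (nat_lit 468) (nat_lit 456) (nat_lit 0) (XT.nd (nat_lit 234) (nat_lit 152) (nat_lit 0) (XT.nd (nat_lit 78) (nat_lit 152) (nat_lit 0) (XT.lf (nat_lit 0) (nat_lit 8471732974) (nat_lit 228) (nat_lit 25035854593) (nat_lit 76) (nat_lit 2816697385) (nat_lit 31) (nat_lit 5) (nat_lit 34) (nat_lit 5) (nat_lit 32) (nat_lit 5) (nat_lit 362) (nat_lit 318) (nat_lit 220)) (XT.nd (nat_lit 78) (nat_lit 152) (nat_lit 0) (XT.lf (nat_lit 0) (nat_lit 15854310582) (nat_lit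 228) (nat_lit 8206894575) (nat_lit 76) (nat_lit 13538982025) (nat_lit 31) (nat_lit 5) (nat_lit 34) (nat_lit 5) (nat_lit 32) (nat_lit 5) (nat_lit 363) (nat_lit 318) (nat_lit 219)) (XT.lf (nat_lit 0) (nat_lit 9762193819) (nat_lit 152) (nat_lit 13987965480) (nat_lit 228) (nat_lit 15182523608) (nat_lit 29) (nat_lit 5) (nat_lit 31) (nat_lit 5) (nat_lit 32) (nat_lit 5) (nat_lit 364) (nat_lit 318) (nat_lit 218)))) (XT.nd (nat_lit 78) (nat_lit 152) (nat_lit 0) (XT.lf (nat_lit 0) (nat_lit 28901112799) (nat_lit 152) (nat_lit 3270584827) (nat_lit 228) (nat_lit 8153566165) (nat_lit 29) (nat_lit 5) (nat_lit 31) (nat_lit 5) (nat_lit 32) (nat_lit 5) (nat_lit 365) (nat_lit 318) (nat_lit 217)) (XT.nd (nat_lit 78) (nat_lit 76) (nat_lit 0) (XT.lf (nat_lit 0) (nat_lit 7305480647) (nat_lit 76) (nat_lit 33939736566) (nat_lit 152) (nat_lit 530716270) (nat_lit 28) (nat_lit 5) (nat_lit 29) (nat_lit 5) (nat_lit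 30) (nat_lit 4) (nat_lit 366) (nat_lit 318) (nat_lit 216)) (XT.lf (nat_lit 0) (nat_lit 7476597863) (nat_lit 152) (nat_lit 16107975213) (nat_lit 76) (nat_lit 19696608503) (nat_lit 27) (nat_lit 5) (nat_lit 29) (nat_lit 5) (nat_lit 28) (nat_lit 5) (nat_lit 367) (nat_lit 318) (nat_lit 215))))) (XT.nd (nat_lit 234) (nat_lit 304) (nat_lit 0) (XT.nd (nat_lit 78) (nat_lit 0) (nat_lit 0) (XT.lf (nat_lit 0) (nat_lit 3255493385) (nat_lit 152) (nat_lit 12654396988) (nat_lit 228) (nat_lit 28949198585) (nat_lit 25) (nat_lit 5) (nat_lit 27) (nat_lit 5) (nat_lit 28) (nat_lit 5) (nat_lit 368) (nat_lit 318) (nat_lit 214)) (XT.nd (nat_lit 78) (nat_lit 0) (nat_lit 0) (XT.lf (nat_lit 0) (nat_lit 24133942871) (nat_lit 152) (nat_lit 896479234) (nat_lit 228) (nat_lit 21472194972) (nat_lit 25) (nat_lit 5) (nat_lit 27) (nat_lit 5) (nat_lit 28) (nat_lit 5) (nat_lit 369) (nat_lit 318) (nat_lit 213)) (XT.lf (nat_lit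 0) (nat_lit 34778781385) (nat_lit 228) (nat_lit 2362866795) (nat_lit 76) (nat_lit 11078087277) (nat_lit 25) (nat_lit 5) (nat_lit 28) (nat_lit 5) (nat_lit 26) (nat_lit 4) (nat_lit 370) (nat_lit 318) (nat_lit 212)))) (XT.nd (nat_lit 78) (nat_lit 228) (nat_lit 0) (XT.lf (nat_lit 0) (nat_lit 19232569485) (nat_lit 76) (nat_lit 26090335799) (nat_lit 152) (nat_lit 4684390858) (nat_lit 24) (nat_lit 5) (nat_lit 25) (nat_lit 5) (nat_lit 26) (nat_lit 4) (nat_lit 371) (nat_lit 318) (nat_lit 211)) (XT.nd (nat_lit 78) (nat_lit 152) (nat_lit 0) (XT.lf (nat_lit 0) (nat_lit 4399729204) (nat_lit 152) (nat_lit 9975055795) (nat_lit 76) (nat_lit 37504228705) (nat_lit 23) (nat_lit 5) (nat_lit 25) (nat_lit 5) (nat_lit 24) (nat_lit 5) (nat_lit 372) (nat_lit 318) (nat_lit 210)) (XT.lf (nat_lit 0) (nat_lit 12166186922) (nat_lit 152) (nat_lit 1798109012) (nat_lit 228) (nat_lit 39867001410) (nat_lit 21) (nat_lit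 5) (nat_lit 23) (nat_lit 5) (nat_lit 24) (nat_lit 5) (nat_lit 373) (nat_lit 318) (nat_lit 209))))))) (XT.nd (nat_lit 858) (nat_lit 304) (nat_lit 0) (XT.nd (nat_lit 390) (nat_lit 228) (nat_lit 0) (XT.nd (nat_lit 156) (nat_lit 152) (nat_lit 0) (XT.nd (nat_lit 78) (nat_lit 76) (nat_lit 0) (XT.lf (nat_lit 0) (nat_lit 24350669749) (nat_lit 228) (nat_lit 20303888485) (nat_lit 76) (nat_lit 11209461053) (nat_lit 21) (nat_lit 5) (nat_lit 24) (nat_lit 5) (nat_lit 22) (nat_lit 4) (nat_lit 374) (nat_lit 318) (nat_lit 208)) (XT.lf (nat_lit 0) (nat_lit 2154324181) (nat_lit 76) (nat_lit 33159222187) (nat_lit 152) (nat_lit 22681974669) (nat_lit 20) (nat_lit 5) (nat_lit 21) (nat_lit 5) (nat_lit 22) (nat_lit 4) (nat_lit 375) (nat_lit 318) (nat_lit 207))) (XT.nd (nat_lit 78) (nat_lit 152) (nat_lit 0) (XT.lf (nat_lit 0) (nat_lit 26429977726) (nat_lit 76) (nat_lit 20732637457) (nat_lit 152) (nat_lit 13054083047)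 (nat_lit 20) (nat_lit 5) (nat_lit 21) (nat_lit 5) (nat_lit 22) (nat_lit 4) (nat_lit 376) (nat_lit 318) (nat_lit 206)) (XT.nd (nat_lit 78) (nat_lit 152) (nat_lit 0) (XT.lf (nat_lit 0) (nat_lit 51909533074) (nat_lit 76) (nat_lit 7689073115) (nat_lit 152) (nat_lit 2950607298) (nat_lit 20) (nat_lit 5) (nat_lit 21) (nat_lit 5) (nat_lit 22) (nat_lit 4) (nat_lit 377) (nat_lit 318) (nat_lit 205)) (XT.lf (nat_lit 0) (nat_lit 7725149718) (nat_lit 152) (nat_lit 51097879639) (nat_lit 76) (nat_lit 6153738738) (nat_lit 18) (nat_lit 5) (nat_lit 20) (nat_lit 5) (nat_lit 19) (nat_lit 4) (nat_lit 378) (nat_lit 318) (nat_lit 204))))) (XT.nd (nat_lit 234) (nat_lit 152) (nat_lit 0) (XT.nd (nat_lit 78) (nat_lit 76) (nat_lit 0) (XT.lf (nat_lit 0) (nat_lit 19139413009) (nat_lit 152) (nat_lit 27710929032) (nat_lit 76) (nat_lit 20657748237) (nat_lit 18) (nat_lit 5) (nat_lit 20) (nat_lit 5) (nat_lit 19) (nat_lit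 4) (nat_lit 379) (nat_lit 318) (nat_lit 203)) (XT.nd (nat_lit 78) (nat_lit 76) (nat_lit 0) (XT.lf (nat_lit 0) (nat_lit 31119328282) (nat_lit 152) (nat_lit 3163806665) (nat_lit 76) (nat_lit 35883098856) (nat_lit 18) (nat_lit 5) (nat_lit 20) (nat_lit 5) (nat_lit 19) (nat_lit 4) (nat_lit 380) (nat_lit 318) (nat_lit 202)) (XT.lf (nat_lit 0) (nat_lit 23349254969) (nat_lit 76) (nat_lit 20708711481) (nat_lit 152) (nat_lit 28881333767) (nat_lit 17) (nat_lit 5) (nat_lit 18) (nat_lit 5) (nat_lit 19) (nat_lit 4) (nat_lit 381) (nat_lit 318) (nat_lit 201)))) (XT.nd (nat_lit 78) (nat_lit 152) (nat_lit 0) (XT.lf (nat_lit 0) (nat_lit 51289212029) (nat_lit 76) (nat_lit 6403180216) (nat_lit 152) (nat_lit 18156186893) (nat_lit 17) (nat_lit 5) (nat_lit 18) (nat_lit 5) (nat_lit 19) (nat_lit 4) (nat_lit 382) (nat_lit 318) (nat_lit 200)) (XT.nd (nat_lit 78) (nat_lit 76) (nat_lit 0) (XT.lf (nat_lit 0) (nat_lit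 1632181890) (nat_lit 76) (nat_lit 70531828219) (nat_lit 76) (nat_lit 6731540237) (nat_lit 16) (nat_lit 4) (nat_lit 17) (nat_lit 5) (nat_lit 17) (nat_lit 4) (nat_lit 383) (nat_lit 318) (nat_lit 199)) (XT.lf (nat_lit 0) (nat_lit 5619016582) (nat_lit 152) (nat_lit 52290474333) (nat_lit 76) (nat_lit 24155112870) (nat_lit 15) (nat_lit 5) (nat_lit 17) (nat_lit 5) (nat_lit 16) (nat_lit 4) (nat_lit 384) (nat_lit 318) (nat_lit 198)))))) (XT.nd (nat_lit 468) (nat_lit 152) (nat_lit 0) (XT.nd (nat_lit 234) (nat_lit 76) (nat_lit 0) (XT.nd (nat_lit 78) (nat_lit 76) (nat_lit 0) (XT.lf (nat_lit 0) (nat_lit 18356549897) (nat_lit 152) (nat_lit 26187264699) (nat_lit 76) (nat_lit 40842995639) (nat_lit 15) (nat_lit 5) (nat_lit 17) (nat_lit 5) (nat_lit 16) (nat_lit 4) (nat_lit 385) (nat_lit 318) (nat_lit 197)) (XT.nd (nat_lit 78) (nat_lit 0) (nat_lit 0) (XT.lf (nat_lit 0) (nat_lit 1253633245) (nat_lit 76) (nat_lit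 30492777978) (nat_lit 152) (nat_lit 57127944762) (nat_lit 14) (nat_lit 5) (nat_lit 15) (nat_lit 5) (nat_lit 16) (nat_lit 4) (nat_lit 386) (nat_lit 318) (nat_lit 196)) (XT.lf (nat_lit 0) (nat_lit 30968265041) (nat_lit 76) (nat_lit 15276952759) (nat_lit 152) (nat_lit 46269090084) (nat_lit 14) (nat_lit 5) (nat_lit 15) (nat_lit 5) (nat_lit 16) (nat_lit 4) (nat_lit 387) (nat_lit 318) (nat_lit 195)))) (XT.nd (nat_lit 78) (nat_lit 76) (nat_lit 0) (XT.lf (nat_lit 0) (nat_lit 61475988043) (nat_lit 152) (nat_lit 34185813352) (nat_lit 0) (nat_lit 674106218) (nat_lit 14) (nat_lit 5) (nat_lit 16) (nat_lit 4) (nat_lit 14) (nat_lit 4) (nat_lit 388) (nat_lit 318) (nat_lit 194)) (XT.nd (nat_lit 78) (nat_lit 76) (nat_lit 0) (XT.lf (nat_lit 0) (nat_lit 77715024003) (nat_lit 152) (nat_lit 5714929176) (nat_lit 0) (nat_lit 16906299125) (nat_lit 14) (nat_lit 5) (nat_lit 16) (nat_lit 4) (nat_lit 14) (nat_lit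 4) (nat_lit 389) (nat_lit 318) (nat_lit 193)) (XT.lf (nat_lit 0) (nat_lit 24972179239) (nat_lit 76) (nat_lit 70180180467) (nat_lit 76) (nat_lit 9364938396) (nat_lit 13) (nat_lit 4) (nat_lit 14) (nat_lit 5) (nat_lit 14) (nat_lit 4) (nat_lit 390) (nat_lit 318) (nat_lit 192))))) (XT.nd (nat_lit 234) (nat_lit 0) (nat_lit 0) (XT.nd (nat_lit 78) (nat_lit 76) (nat_lit 0) (XT.lf (nat_lit 0) (nat_lit 4503247464) (nat_lit 152) (nat_lit 51589791619) (nat_lit 76) (nat_lit 52806060934) (nat_lit 12) (nat_lit 5) (nat_lit 14) (nat_lit 5) (nat_lit 13) (nat_lit 4) (nat_lit 391) (nat_lit 318) (nat_lit 191)) (XT.nd (nat_lit 78) (nat_lit 76) (nat_lit 0) (XT.lf (nat_lit 0) (nat_lit 18746758784) (nat_lit 152) (nat_lit 22396504699) (nat_lit 76) (nat_lit 72349221489) (nat_lit 12) (nat_lit 5) (nat_lit 14) (nat_lit 5) (nat_lit 13) (nat_lit 4) (nat_lit 392) (nat_lit 318) (nat_lit 190)) (XT.lf (nat_lit 0) (nat_lit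 8523260213) (nat_lit 76) (nat_lit 25309056965) (nat_lit 152) (nat_lit 84476729467) (nat_lit 11) (nat_lit 5) (nat_lit 12) (nat_lit 5) (nat_lit 13) (nat_lit 4) (nat_lit 393) (nat_lit 318) (nat_lit 189)))) (XT.nd (nat_lit 78) (nat_lit 0) (nat_lit 0) (XT.lf (nat_lit 0) (nat_lit 41760682047) (nat_lit 76) (nat_lit 8287627104) (nat_lit 152) (nat_lit 73299320464) (nat_lit 11) (nat_lit 5) (nat_lit 12) (nat_lit 5) (nat_lit 13) (nat_lit 4) (nat_lit 394) (nat_lit 318) (nat_lit 188)) (XT.nd (nat_lit 78) (nat_lit 0) (nat_lit 0) (XT.lf (nat_lit 0) (nat_lit 67221716158) (nat_lit 152) (nat_lit 52133530171) (nat_lit 0) (nat_lit 9275565581) (nat_lit 11) (nat_lit 5) (nat_lit 13) (nat_lit 4) (nat_lit 11) (nat_lit 4) (nat_lit 395) (nat_lit 318) (nat_lit 187)) (XT.lf (nat_lit 0) (nat_lit 85386769287) (nat_lit 152) (nat_lit 21348749084) (nat_lit 0) (nat_lit 27435987063) (nat_lit 11) (nat_lit 5) (nat_lit 13) (nat_lit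 4) (nat_lit 11) (nat_lit 4) (nat_lit 396) (nat_lit 318) (nat_lit 186))))))))
noncomputable def xc151 : XT := (XT.nd (nat_lit 1794) (nat_lit 76) (nat_lit 0) (XT.nd (nat_lit 858) (nat_lit 152) (nat_lit 0) (XT.nd (nat_lit 390) (nat_lit 152) (nat_lit 0) (XT.nd (nat_lit 156) (nat_lit 76) (nat_lit 0) (XT.nd (nat_lit 78) (nat_lit 0) (nat_lit 0) (XT.lf (nat_lit 0) (nat_lit 11332806457) (nat_lit 76) (nat_lit 93301455993) (nat_lit 76) (nat_lit 35346262676) (nat_lit 10) (nat_lit 4) (nat_lit 11) (nat_lit 5) (nat_lit 11) (nat_lit 4) (nat_lit 397) (nat_lit 318) (nat_lit 185)) (XT.lf (nat_lit 0) (nat_lit 46384518588) (nat_lit 76) (nat_lit 78818464867) (nat_lit 76) (nat_lit 20859070509) (nat_lit 10) (nat_lit 4) (nat_lit 11) (nat_lit 5) (nat_lit 11) (nat_lit 4) (nat_lit 398) (nat_lit 318) (nat_lit 184))) (XT.nd (nat_lit 78) (nat_lit 76) (nat_lit 0) (XT.lf (nat_lit 0) (nat_lit 83183957707) (nat_lit 76)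 (nat_lit 63613613075) (nat_lit 76) (nat_lit 5650217726) (nat_lit 10) (nat_lit 4) (nat_lit 11) (nat_lit 5) (nat_lit 11) (nat_lit 4) (nat_lit 399) (nat_lit 318) (nat_lit 183)) (XT.nd (nat_lit 78) (nat_lit 0) (nat_lit 0) (XT.lf (nat_lit 0) (nat_lit 9986314566) (nat_lit 152) (nat_lit 37495260955) (nat_lit 76) (nat_lit 111663303892) (nat_lit 9) (nat_lit 5) (nat_lit 11) (nat_lit 5) (nat_lit 10) (nat_lit 4) (nat_lit 400) (nat_lit 318) (nat_lit 182)) (XT.lf (nat_lit 0) (nat_lit 26212419394) (nat_lit 152) (nat_lit 4235375074) (nat_lit 76) (nat_lit 135724518228) (nat_lit 9) (nat_lit 5) (nat_lit 11) (nat_lit 5) (nat_lit 10) (nat_lit 4) (nat_lit 401) (nat_lit 318) (nat_lit 181))))) (XT.nd (nat_lit 234) (nat_lit 76) (nat_lit 0) (XT.nd (nat_lit 78) (nat_lit 0) (nat_lit 0) (XT.lf (nat_lit 0) (nat_lit 31697759024) (nat_lit 76) (nat_lit 12044704421) (nat_lit 152) (nat_lit 129784023141) (nat_lit 8) (nat_lit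 5) (nat_lit 9) (nat_lit 5) (nat_lit 10) (nat_lit 4) (nat_lit 402) (nat_lit 318) (nat_lit 180)) (XT.nd (nat_lit 78) (nat_lit 0) (nat_lit 0) (XT.lf (nat_lit 0) (nat_lit 62333306035) (nat_lit 152) (nat_lit 111789288290) (nat_lit 0) (nat_lit 7116560640) (nat_lit 8) (nat_lit 5) (nat_lit 10) (nat_lit 4) (nat_lit 8) (nat_lit 4) (nat_lit 403) (nat_lit 318) (nat_lit 179)) (XT.lf (nat_lit 0) (nat_lit 82049005811) (nat_lit 152) (nat_lit 80449410968) (nat_lit 0) (nat_lit 26829274814) (nat_lit 8) (nat_lit 5) (nat_lit 10) (nat_lit 4) (nat_lit 8) (nat_lit 4) (nat_lit 404) (nat_lit 318) (nat_lit 178)))) (XT.nd (nat_lit 78) (nat_lit 76) (nat_lit 0) (XT.lf (nat_lit 0) (nat_lit 102748453322) (nat_lit 152) (nat_lit 47546425252) (nat_lit 0) (nat_lit 47525878896) (nat_lit 8) (nat_lit 5) (nat_lit 10) (nat_lit 4) (nat_lit 8) (nat_lit 4) (nat_lit 405) (nat_lit 318) (nat_lit 177)) (XT.nd (nat_lit 78) (nat_lit 76)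 (nat_lit 0) (XT.lf (nat_lit 0) (nat_lit 124480932968) (nat_lit 152) (nat_lit 13001990697) (nat_lit 0) (nat_lit 69255650514) (nat_lit 8) (nat_lit 5) (nat_lit 10) (nat_lit 4) (nat_lit 8) (nat_lit 4) (nat_lit 406) (nat_lit 318) (nat_lit 176)) (XT.lf (nat_lit 0) (nat_lit 24035425053) (nat_lit 76) (nat_lit 123638024040) (nat_lit 76) (nat_lit 68410162511) (nat_lit 7) (nat_lit 4) (nat_lit 8) (nat_lit 5) (nat_lit 8) (nat_lit 4) (nat_lit 407) (nat_lit 318) (nat_lit 175)))))) (XT.nd (nat_lit 468) (nat_lit 0) (nat_lit 0) (XT.nd (nat_lit 234) (nat_lit 152) (nat_lit 0) (XT.nd (nat_lit 78) (nat_lit 0) (nat_lit 0) (XT.lf (nat_lit 0) (nat_lit 63372643956) (nat_lit 76) (nat_lit 108871328081) (nat_lit 76) (nat_lit 53641010290) (nat_lit 7) (nat_lit 4) (nat_lit 8) (nat_lit 5) (nat_lit 8) (nat_lit 4) (nat_lit 408) (nat_lit 318) (nat_lit 174)) (XT.nd (nat_lit 78) (nat_lit 0) (nat_lit 0) (XT.lf (nat_lit 0) (nat_lit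 104673421524) (nat_lit 76) (nat_lit 93367871994) (nat_lit 76) (nat_lit 38135214906) (nat_lit 7) (nat_lit 4) (nat_lit 8) (nat_lit 5) (nat_lit 8) (nat_lit 4) (nat_lit 409) (nat_lit 318) (nat_lit 173)) (XT.lf (nat_lit 0) (nat_lit 148036092942) (nat_lit 76) (nat_lit 77090742787) (nat_lit 76) (nat_lit 21855857798) (nat_lit 7) (nat_lit 4) (nat_lit 8) (nat_lit 5) (nat_lit 8) (nat_lit 4) (nat_lit 410) (nat_lit 318) (nat_lit 172)))) (XT.nd (nat_lit 78) (nat_lit 152) (nat_lit 0) (XT.lf (nat_lit 0) (nat_lit 193563902666) (nat_lit 76) (nat_lit 60001185391) (nat_lit 76) (nat_lit 4764178592) (nat_lit 7) (nat_lit 4) (nat_lit 8) (nat_lit 5) (nat_lit 8) (nat_lit 4) (nat_lit 411) (nat_lit 318) (nat_lit 171)) (XT.nd (nat_lit 78) (nat_lit 76) (nat_lit 0) (XT.lf (nat_lit 0) (nat_lit 12758658322) (nat_lit 152) (nat_lit 29083778010) (nat_lit 76) (nat_lit 228390517867) (nat_lit 6) (nat_lit 5) (nat_lit 8) (nat_lit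 5) (nat_lit 7) (nat_lit 4) (nat_lit 412) (nat_lit 318) (nat_lit 170)) (XT.lf (nat_lit 0) (nat_lit 8575490289) (nat_lit 76) (nat_lit 22554481616) (nat_lit 152) (nat_lit 251591327392) (nat_lit 5) (nat_lit 5) (nat_lit 6) (nat_lit 5) (nat_lit 7) (nat_lit 4) (nat_lit 413) (nat_lit 318) (nat_lit 169))))) (XT.nd (nat_lit 234) (nat_lit 0) (nat_lit 0) (XT.nd (nat_lit 78) (nat_lit 0) (nat_lit 0) (XT.lf (nat_lit 0) (nat_lit 49124724771) (nat_lit 76) (nat_lit 1786255613) (nat_lit 152) (nat_lit 244898525145) (nat_lit 5) (nat_lit 5) (nat_lit 6) (nat_lit 5) (nat_lit 7) (nat_lit 4) (nat_lit 414) (nat_lit 318) (nat_lit 168)) (XT.nd (nat_lit 78) (nat_lit 0) (nat_lit 0) (XT.lf (nat_lit 0) (nat_lit 71992243114) (nat_lit 152) (nat_lit 218165914678) (nat_lit 0) (nat_lit 19378404413) (nat_lit 5) (nat_lit 5) (nat_lit 7) (nat_lit 4) (nat_lit 5) (nat_lit 4) (nat_lit 415) (nat_lit 318) (nat_lit 167)) (XT.lf (nat_lit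 0) (nat_lit 94155546681) (nat_lit 152) (nat_lit 188252901808) (nat_lit 0) (nat_lit 41540124651) (nat_lit 5) (nat_lit 5) (nat_lit 7) (nat_lit 4) (nat_lit 5) (nat_lit 4) (nat_lit 416) (nat_lit 318) (nat_lit 166)))) (XT.nd (nat_lit 78) (nat_lit 0) (nat_lit 0) (XT.lf (nat_lit 0) (nat_lit 117425772398) (nat_lit 152) (nat_lit 156846632231) (nat_lit 0) (nat_lit 64808842437) (nat_lit 5) (nat_lit 5) (nat_lit 7) (nat_lit 4) (nat_lit 5) (nat_lit 4) (nat_lit 417) (nat_lit 318) (nat_lit 165)) (XT.nd (nat_lit 78) (nat_lit 0) (nat_lit 0) (XT.lf (nat_lit 0) (nat_lit 141858325565) (nat_lit 152) (nat_lit 123872329117) (nat_lit 0) (nat_lit 89239959478) (nat_lit 5) (nat_lit 5) (nat_lit 7) (nat_lit 4) (nat_lit 5) (nat_lit 4) (nat_lit 418) (nat_lit 318) (nat_lit 164)) (XT.lf (nat_lit 0) (nat_lit 167511378927) (nat_lit 152) (nat_lit 89251482219) (nat_lit 0) (nat_lit 114891645103) (nat_lit 5) (nat_lit 5) (nat_lit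 7) (nat_lit 4) (nat_lit 5) (nat_lit 4) (nat_lit 419) (nat_lit 318) (nat_lit 163))))))) (XT.nd (nat_lit 858) (nat_lit 0) (nat_lit 0) (XT.nd (nat_lit 390) (nat_lit 0) (nat_lit 0) (XT.nd (nat_lit 156) (nat_lit 76) (nat_lit 0) (XT.nd (nat_lit 78) (nat_lit 0) (nat_lit 0) (XT.lf (nat_lit 0) (nat_lit 194446011184) (nat_lit 152) (nat_lit 52901660949) (nat_lit 0) (nat_lit 141824974752) (nat_lit 5) (nat_lit 5) (nat_lit 7) (nat_lit 4) (nat_lit 5) (nat_lit 4) (nat_lit 420) (nat_lit 318) (nat_lit 162)) (XT.lf (nat_lit 0) (nat_lit 222726352412) (nat_lit 152) (nat_lit 14736318115) (nat_lit 0) (nat_lit 170104075401) (nat_lit 5) (nat_lit 5) (nat_lit 7) (nat_lit 4) (nat_lit 5) (nat_lit 4) (nat_lit 421) (nat_lit 318) (nat_lit 161))) (XT.nd (nat_lit 78) (nat_lit 0) (nat_lit 0) (XT.lf (nat_lit 0) (nat_lit 26173119423) (nat_lit 76) (nat_lit 226655253077) (nat_lit 76) (nat_lit 174031794562) (nat_lit 4) (nat_lit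 4) (nat_lit 5) (nat_lit 5) (nat_lit 5) (nat_lit 4) (nat_lit 422) (nat_lit 318) (nat_lit 160)) (XT.nd (nat_lit 78) (nat_lit 0) (nat_lit 0) (XT.lf (nat_lit 0) (nat_lit 69637795070) (nat_lit 76) (nat_lit 215046308823) (nat_lit 76) (nat_lit 162421725066) (nat_lit 4) (nat_lit 4) (nat_lit 5) (nat_lit 5) (nat_lit 5) (nat_lit 4) (nat_lit 423) (nat_lit 318) (nat_lit 159)) (XT.lf (nat_lit 0) (nat_lit 115273946918) (nat_lit 76) (nat_lit 202857764099) (nat_lit 76) (nat_lit 150232108683) (nat_lit 4) (nat_lit 4) (nat_lit 5) (nat_lit 5) (nat_lit 5) (nat_lit 4) (nat_lit 424) (nat_lit 318) (nat_lit 158))))) (XT.nd (nat_lit 234) (nat_lit 0) (nat_lit 0) (XT.nd (nat_lit 78) (nat_lit 0) (nat_lit 0) (XT.lf (nat_lit 0) (nat_lit 163190232472) (nat_lit 76) (nat_lit 190060598561) (nat_lit 76) (nat_lit 137433922518) (nat_lit 4) (nat_lit 4) (nat_lit 5) (nat_lit 5) (nat_lit 5) (nat_lit 4) (nat_lit 425) (nat_lit 318)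 (nat_lit 157)) (XT.nd (nat_lit 78) (nat_lit 0) (nat_lit 0) (XT.lf (nat_lit 0) (nat_lit 213500738127) (nat_lit 76) (nat_lit 176624342767) (nat_lit 76) (nat_lit 123996694698) (nat_lit 4) (nat_lit 4) (nat_lit 5) (nat_lit 5) (nat_lit 5) (nat_lit 4) (nat_lit 426) (nat_lit 318) (nat_lit 156)) (XT.lf (nat_lit 0) (nat_lit 266325250800) (nat_lit 76) (nat_lit 162517005632) (nat_lit 76) (nat_lit 109888431824) (nat_lit 4) (nat_lit 4) (nat_lit 5) (nat_lit 5) (nat_lit 5) (nat_lit 4) (nat_lit 427) (nat_lit 318) (nat_lit 155)))) (XT.nd (nat_lit 78) (nat_lit 0) (nat_lit 0) (XT.lf (nat_lit 0) (nat_lit 321789543142) (nat_lit 76) (nat_lit 147704998258) (nat_lit 76) (nat_lit 95075542794) (nat_lit 4) (nat_lit 4) (nat_lit 5) (nat_lit 5) (nat_lit 5) (nat_lit 4) (nat_lit 428) (nat_lit 318) (nat_lit 154)) (XT.nd (nat_lit 78) (nat_lit 0) (nat_lit 0) (XT.lf (nat_lit 0) (nat_lit 380025672990) (nat_lit 76) (nat_lit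 132153053961) (nat_lit 76) (nat_lit 79522758823) (nat_lit 4) (nat_lit 4) (nat_lit 5) (nat_lit 5) (nat_lit 5) (nat_lit 4) (nat_lit 429) (nat_lit 318) (nat_lit 153)) (XT.lf (nat_lit 0) (nat_lit 441172297797) (nat_lit 76) (nat_lit 115824144301) (nat_lit 76) (nat_lit 63193049476) (nat_lit 4) (nat_lit 4) (nat_lit 5) (nat_lit 5) (nat_lit 5) (nat_lit 4) (nat_lit 430) (nat_lit 318) (nat_lit 152)))))) (XT.nd (nat_lit 38532) (nat_lit 0) (nat_lit 7372) (XT.nd (nat_lit 38298) (nat_lit 0) (nat_lit 7296) (XT.nd (nat_lit 38142) (nat_lit 0) (nat_lit 7296) (XT.lf (nat_lit 0) (nat_lit 505375004765) (nat_lit 76) (nat_lit 98679390923) (nat_lit 76) (nat_lit 46047534490) (nat_lit 4) (nat_lit 4) (nat_lit 5) (nat_lit 5) (nat_lit 5) (nat_lit 4) (nat_lit 431) (nat_lit 318) (nat_lit 151)) (XT.nd (nat_lit 78) (nat_lit 0) (nat_lit 0) (XT.lf (nat_lit 0) (nat_lit 536613789) (nat_lit 0) (nat_lit 536613789) (nat_lit 684)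 (nat_lit 4289476657) (nat_lit 100) (nat_lit 5) (nat_lit 100) (nat_lit 3) (nat_lit 109) (nat_lit 3) (nat_lit 319) (nat_lit 319) (nat_lit 262)) (XT.lf (nat_lit 0) (nat_lit 2835463925) (nat_lit 684) (nat_lit 4714533738) (nat_lit 760) (nat_lit 3410886030) (nat_lit 100) (nat_lit 5) (nat_lit 109) (nat_lit 3) (nat_lit 110) (nat_lit 5) (nat_lit 320) (nat_lit 319) (nat_lit 261)))) (XT.nd (nat_lit 78) (nat_lit 0) (nat_lit 76) (XT.lf (nat_lit 76) (nat_lit 445894437) (nat_lit 0) (nat_lit 3100725679) (nat_lit 760) (nat_lit 7662184850) (nat_lit 101) (nat_lit 5) (nat_lit 100) (nat_lit 5) (nat_lit 110) (nat_lit 5) (nat_lit 321) (nat_lit 319) (nat_lit 260)) (XT.nd (nat_lit 78) (nat_lit 0) (nat_lit 0) (XT.lf (nat_lit 0) (nat_lit 4363825075) (nat_lit 684) (nat_lit 5485448051) (nat_lit 760) (nat_lit 1616379047) (nat_lit 101) (nat_lit 5) (nat_lit 110) (nat_lit 5) (nat_lit 111) (nat_lit 5) (nat_lit 322) (nat_lit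 319) (nat_lit 259)) (XT.lf (nat_lit 0) (nat_lit 5239208782) (nat_lit 684) (nat_lit 16375555) (nat_lit 760) (nat_lit 6478943306) (nat_lit 101) (nat_lit 5) (nat_lit 110) (nat_lit 5) (nat_lit 111) (nat_lit 5) (nat_lit 323) (nat_lit 319) (nat_lit 258))))) (XT.nd (nat_lit 234) (nat_lit 0) (nat_lit 152) (XT.nd (nat_lit 78) (nat_lit 0) (nat_lit 76) (XT.lf (nat_lit 76) (nat_lit 5894397096) (nat_lit 0) (nat_lit 324075427) (nat_lit 760) (nat_lit 5795418177) (nat_lit 102) (nat_lit 5) (nat_lit 101) (nat_lit 5) (nat_lit 111) (nat_lit 5) (nat_lit 324) (nat_lit 319) (nat_lit 257)) (XT.nd (nat_lit 78) (nat_lit 0) (nat_lit 0) (XT.lf (nat_lit 0) (nat_lit 7292221087) (nat_lit 684) (nat_lit 303550652) (nat_lit 760) (nat_lit 4709221100) (nat_lit 102) (nat_lit 5) (nat_lit 111) (nat_lit 5) (nat_lit 112) (nat_lit 5) (nat_lit 325) (nat_lit 319) (nat_lit 256)) (XT.lf (nat_lit 76) (nat_lit 5968102545) (nat_lit 0)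 (nat_lit 2520955647) (nat_lit 760) (nat_lit 4118166606) (nat_lit 103) (nat_lit 5) (nat_lit 102) (nat_lit 5) (nat_lit 112) (nat_lit 5) (nat_lit 326) (nat_lit 319) (nat_lit 255)))) (XT.nd (nat_lit 78) (nat_lit 0) (nat_lit 0) (XT.lf (nat_lit 0) (nat_lit 9766890393) (nat_lit 684) (nat_lit 426370565) (nat_lit 760) (nat_lit 2730292373) (nat_lit 103) (nat_lit 5) (nat_lit 112) (nat_lit 5) (nat_lit 113) (nat_lit 5) (nat_lit 327) (nat_lit 319) (nat_lit 254)) (XT.nd (nat_lit 78) (nat_lit 0) (nat_lit 76) (XT.lf (nat_lit 76) (nat_lit 6234257750) (nat_lit 0) (nat_lit 4986440366) (nat_lit 760) (nat_lit 2029436587) (nat_lit 104) (nat_lit 5) (nat_lit 103) (nat_lit 5) (nat_lit 113) (nat_lit 5) (nat_lit 328) (nat_lit 319) (nat_lit 253)) (XT.lf (nat_lit 0) (nat_lit 12736484935) (nat_lit 684) (nat_lit 379617052) (nat_lit 76) (nat_lit 477517394) (nat_lit 104) (nat_lit 5) (nat_lit 113) (nat_lit 5) (nat_lit 105)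 (nat_lit 5) (nat_lit 329) (nat_lit 319) (nat_lit 252))))))))
noncomputable def xc152 : XT := (XT.nd (nat_lit 1716) (nat_lit 1900) (nat_lit 0) (XT.nd (nat_lit 858) (nat_lit 1596) (nat_lit 0) (XT.nd (nat_lit 390) (nat_lit 988) (nat_lit 0) (XT.nd (nat_lit 156) (nat_lit 1064) (nat_lit 0) (XT.nd (nat_lit 78) (nat_lit 0) (nat_lit 0) (XT.lf (nat_lit 0) (nat_lit 526454307) (nat_lit 760) (nat_lit 7254527391) (nat_lit 76) (nat_lit 6164808138) (nat_lit 94) (nat_lit 5) (nat_lit 104) (nat_lit 5) (nat_lit 95) (nat_lit 5) (nat_lit 330) (nat_lit 319) (nat_lit 251)) (XT.lf (nat_lit 0) (nat_lit 1933030120) (nat_lit 760) (nat_lit 222005005) (nat_lit 76) (nat_lit 12160733882) (nat_lit 94) (nat_lit 5) (nat_lit 104) (nat_lit 5) (nat_lit 95) (nat_lit 5) (nat_lit 331) (nat_lit 319) (nat_lit 250))) (XT.nd (nat_lit 78) (nat_lit 380) (nat_lit 0) (XT.lf (nat_lit 0) (nat_lit 3562848446) (nat_lit 760) (nat_lit 7382329663)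 (nat_lit 76) (nat_lit 3751455156) (nat_lit 85) (nat_lit 5) (nat_lit 95) (nat_lit 5) (nat_lit 86) (nat_lit 5) (nat_lit 332) (nat_lit 319) (nat_lit 249)) (XT.nd (nat_lit 78) (nat_lit 0) (nat_lit 0) (XT.lf (nat_lit 0) (nat_lit 84832720) (nat_lit 380) (nat_lit 5207817422) (nat_lit 456) (nat_lit 9802996275) (nat_lit 80) (nat_lit 5) (nat_lit 85) (nat_lit 5) (nat_lit 86) (nat_lit 5) (nat_lit 333) (nat_lit 319) (nat_lit 248)) (XT.lf (nat_lit 0) (nat_lit 7227504524) (nat_lit 456) (nat_lit 7363532802) (nat_lit 76) (nat_lit 917673628) (nat_lit 80) (nat_lit 5) (nat_lit 86) (nat_lit 5) (nat_lit 81) (nat_lit 5) (nat_lit 334) (nat_lit 319) (nat_lit 247))))) (XT.nd (nat_lit 234) (nat_lit 380) (nat_lit 0) (XT.nd (nat_lit 78) (nat_lit 304) (nat_lit 0) (XT.lf (nat_lit 0) (nat_lit 578266456) (nat_lit 304) (nat_lit 8754993055) (nat_lit 380) (nat_lit 6605488798) (nat_lit 76) (nat_lit 5) (nat_lit 80) (nat_lit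 5) (nat_lit 81) (nat_lit 5) (nat_lit 335) (nat_lit 319) (nat_lit 246)) (XT.nd (nat_lit 78) (nat_lit 304) (nat_lit 0) (XT.lf (nat_lit 0) (nat_lit 9152159532) (nat_lit 304) (nat_lit 2497244935) (nat_lit 380) (nat_lit 4735654131) (nat_lit 76) (nat_lit 5) (nat_lit 80) (nat_lit 5) (nat_lit 81) (nat_lit 5) (nat_lit 336) (nat_lit 319) (nat_lit 245)) (XT.lf (nat_lit 0) (nat_lit 1257099442) (nat_lit 304) (nat_lit 12888796363) (nat_lit 380) (nat_lit 2704586567) (nat_lit 72) (nat_lit 5) (nat_lit 76) (nat_lit 5) (nat_lit 77) (nat_lit 5) (nat_lit 337) (nat_lit 319) (nat_lit 244)))) (XT.nd (nat_lit 78) (nat_lit 380) (nat_lit 0) (XT.lf (nat_lit 0) (nat_lit 10360146622) (nat_lit 304) (nat_lit 6551724420) (nat_lit 380) (nat_lit 420097070) (nat_lit 72) (nat_lit 5) (nat_lit 76) (nat_lit 5) (nat_lit 77) (nat_lit 5) (nat_lit 338) (nat_lit 319) (nat_lit 243)) (XT.nd (nat_lit 78) (nat_lit 0) (nat_lit 0) (XT.lf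 (nat_lit 0) (nat_lit 1933079503) (nat_lit 380) (nat_lit 15740705717) (nat_lit 76) (nat_lit 161330329) (nat_lit 67) (nat_lit 5) (nat_lit 72) (nat_lit 5) (nat_lit 68) (nat_lit 5) (nat_lit 339) (nat_lit 319) (nat_lit 242)) (XT.lf (nat_lit 0) (nat_lit 4600145430) (nat_lit 380) (nat_lit 6638162434) (nat_lit 76) (nat_lit 7114271237) (nat_lit 67) (nat_lit 5) (nat_lit 72) (nat_lit 5) (nat_lit 68) (nat_lit 5) (nat_lit 340) (nat_lit 319) (nat_lit 241)))))) (XT.nd (nat_lit 390) (nat_lit 684) (nat_lit 0) (XT.nd (nat_lit 156) (nat_lit 608) (nat_lit 0) (XT.nd (nat_lit 78) (nat_lit 0) (nat_lit 0) (XT.lf (nat_lit 0) (nat_lit 2995952925) (nat_lit 304) (nat_lit 4435135958) (nat_lit 380) (nat_lit 11463320268) (nat_lit 63) (nat_lit 5) (nat_lit 67) (nat_lit 5) (nat_lit 68) (nat_lit 5) (nat_lit 341) (nat_lit 319) (nat_lit 240)) (XT.lf (nat_lit 0) (nat_lit 10544297271) (nat_lit 380) (nat_lit 6179484770) (nat_lit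 76) (nat_lit 2732531378) (nat_lit 63) (nat_lit 5) (nat_lit 68) (nat_lit 5) (nat_lit 64) (nat_lit 5) (nat_lit 342) (nat_lit 319) (nat_lit 239))) (XT.nd (nat_lit 78) (nat_lit 380) (nat_lit 0) (XT.lf (nat_lit 0) (nat_lit 4063858203) (nat_lit 228) (nat_lit 9870388764) (nat_lit 304) (nat_lit 6106029604) (nat_lit 60) (nat_lit 5) (nat_lit 63) (nat_lit 5) (nat_lit 64) (nat_lit 5) (nat_lit 343) (nat_lit 319) (nat_lit 238)) (XT.nd (nat_lit 78) (nat_lit 380) (nat_lit 0) (XT.lf (nat_lit 0) (nat_lit 15015272797) (nat_lit 228) (nat_lit 2568426358) (nat_lit 304) (nat_lit 3065255350) (nat_lit 60) (nat_lit 5) (nat_lit 63) (nat_lit 5) (nat_lit 64) (nat_lit 5) (nat_lit 344) (nat_lit 319) (nat_lit 237)) (XT.lf (nat_lit 0) (nat_lit 274198037) (nat_lit 380) (nat_lit 15987341028) (nat_lit 76) (nat_lit 5018906845) (nat_lit 55) (nat_lit 5) (nat_lit 60) (nat_lit 5) (nat_lit 56) (nat_lit 5) (nat_lit 345) (nat_lit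 319) (nat_lit 236))))) (XT.nd (nat_lit 234) (nat_lit 456) (nat_lit 0) (XT.nd (nat_lit 78) (nat_lit 228) (nat_lit 0) (XT.lf (nat_lit 0) (nat_lit 3802826944) (nat_lit 380) (nat_lit 5089417906) (nat_lit 76) (nat_lit 13042508330) (nat_lit 55) (nat_lit 5) (nat_lit 60) (nat_lit 5) (nat_lit 56) (nat_lit 5) (nat_lit 346) (nat_lit 319) (nat_lit 235)) (XT.nd (nat_lit 78) (nat_lit 0) (nat_lit 0) (XT.lf (nat_lit 0) (nat_lit 6545196668) (nat_lit 228) (nat_lit 1051676606) (nat_lit 304) (nat_lit 15020467124) (nat_lit 52) (nat_lit 5) (nat_lit 55) (nat_lit 5) (nat_lit 56) (nat_lit 5) (nat_lit 347) (nat_lit 319) (nat_lit 234)) (XT.lf (nat_lit 0) (nat_lit 11767423796) (nat_lit 304) (nat_lit 4523030419) (nat_lit 76) (nat_lit 7034275886) (nat_lit 52) (nat_lit 5) (nat_lit 56) (nat_lit 5) (nat_lit 53) (nat_lit 5) (nat_lit 348) (nat_lit 319) (nat_lit 233)))) (XT.nd (nat_lit 78) (nat_lit 228) (nat_lit 0) (XT.lf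 (nat_lit 0) (nat_lit 7819434568) (nat_lit 228) (nat_lit 8454089121) (nat_lit 304) (nat_lit 7787627100) (nat_lit 49) (nat_lit 5) (nat_lit 52) (nat_lit 5) (nat_lit 53) (nat_lit 5) (nat_lit 349) (nat_lit 319) (nat_lit 232)) (XT.nd (nat_lit 78) (nat_lit 228) (nat_lit 0) (XT.lf (nat_lit 0) (nat_lit 20919194438) (nat_lit 228) (nat_lit 150354420) (nat_lit 304) (nat_lit 3761624632) (nat_lit 49) (nat_lit 5) (nat_lit 52) (nat_lit 5) (nat_lit 53) (nat_lit 5) (nat_lit 350) (nat_lit 319) (nat_lit 231)) (XT.lf (nat_lit 0) (nat_lit 720702737) (nat_lit 228) (nat_lit 16460410480) (nat_lit 76) (nat_lit 8444734990) (nat_lit 46) (nat_lit 5) (nat_lit 49) (nat_lit 5) (nat_lit 47) (nat_lit 5) (nat_lit 351) (nat_lit 319) (nat_lit 230))))))) (XT.nd (nat_lit 858) (nat_lit 912) (nat_lit 0) (XT.nd (nat_lit 390) (nat_lit 608) (nat_lit 0) (XT.nd (nat_lit 156) (nat_lit 152) (nat_lit 0) (XT.nd (nat_lit 78) (nat_lit 228)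 (nat_lit 0) (XT.lf (nat_lit 0) (nat_lit 5359150210) (nat_lit 228) (nat_lit 3506304484) (nat_lit 76) (nat_lit 17588808074) (nat_lit 46) (nat_lit 5) (nat_lit 49) (nat_lit 5) (nat_lit 47) (nat_lit 5) (nat_lit 352) (nat_lit 319) (nat_lit 229)) (XT.lf (nat_lit 0) (nat_lit 10381747421) (nat_lit 304) (nat_lit 16904120239) (nat_lit 76) (nat_lit 30628895) (nat_lit 43) (nat_lit 5) (nat_lit 47) (nat_lit 5) (nat_lit 44) (nat_lit 5) (nat_lit 353) (nat_lit 319) (nat_lit 228))) (XT.nd (nat_lit 78) (nat_lit 152) (nat_lit 0) (XT.lf (nat_lit 0) (nat_lit 15850516211) (nat_lit 304) (nat_lit 3232551579) (nat_lit 76) (nat_lit 9129031552) (nat_lit 43) (nat_lit 5) (nat_lit 47) (nat_lit 5) (nat_lit 44) (nat_lit 5) (nat_lit 354) (nat_lit 319) (nat_lit 227)) (XT.nd (nat_lit 78) (nat_lit 0) (nat_lit 0) (XT.lf (nat_lit 0) (nat_lit 11474526353) (nat_lit 152) (nat_lit 10287205625) (nat_lit 228) (nat_lit 7382308811)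 (nat_lit 41) (nat_lit 5) (nat_lit 43) (nat_lit 5) (nat_lit 44) (nat_lit 5) (nat_lit 355) (nat_lit 319) (nat_lit 226)) (XT.lf (nat_lit 0) (nat_lit 27014106601) (nat_lit 152) (nat_lit 999253269) (nat_lit 228) (nat_lit 2106985395) (nat_lit 41) (nat_lit 5) (nat_lit 43) (nat_lit 5) (nat_lit 44) (nat_lit 5) (nat_lit 356) (nat_lit 319) (nat_lit 225))))) (XT.nd (nat_lit 234) (nat_lit 228) (nat_lit 0) (XT.nd (nat_lit 78) (nat_lit 152) (nat_lit 0) (XT.lf (nat_lit 0) (nat_lit 3648768121) (nat_lit 228) (nat_lit 18756592494) (nat_lit 76) (nat_lit 8721107206) (nat_lit 38) (nat_lit 5) (nat_lit 41) (nat_lit 5) (nat_lit 39) (nat_lit 5) (nat_lit 357) (nat_lit 319) (nat_lit 224)) (XT.nd (nat_lit 78) (nat_lit 152) (nat_lit 0) (XT.lf (nat_lit 0) (nat_lit 9681916638) (nat_lit 228) (nat_lit 3519257698) (nat_lit 76) (nat_lit 18976981700) (nat_lit 38) (nat_lit 5) (nat_lit 41) (nat_lit 5) (nat_lit 39) (nat_lit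 5) (nat_lit 358) (nat_lit 319) (nat_lit 223)) (XT.lf (nat_lit 0) (nat_lit 12877982800) (nat_lit 152) (nat_lit 3330816997) (nat_lit 228) (nat_lit 17064032015) (nat_lit 36) (nat_lit 5) (nat_lit 38) (nat_lit 5) (nat_lit 39) (nat_lit 5) (nat_lit 359) (nat_lit 319) (nat_lit 222)))) (XT.nd (nat_lit 78) (nat_lit 228) (nat_lit 0) (XT.lf (nat_lit 0) (nat_lit 23223556550) (nat_lit 228) (nat_lit 4327052231) (nat_lit 76) (nat_lit 6863562801) (nat_lit 36) (nat_lit 5) (nat_lit 39) (nat_lit 5) (nat_lit 37) (nat_lit 5) (nat_lit 360) (nat_lit 319) (nat_lit 221)) (XT.nd (nat_lit 78) (nat_lit 76) (nat_lit 0) (XT.lf (nat_lit 0) (nat_lit 12888447280) (nat_lit 152) (nat_lit 17948000102) (nat_lit 228) (nat_lit 4763767506) (nat_lit 34) (nat_lit 5) (nat_lit 36) (nat_lit 5) (nat_lit 37) (nat_lit 5) (nat_lit 361) (nat_lit 319) (nat_lit 220)) (XT.lf (nat_lit 0) (nat_lit 1987010208) (nat_lit 228) (nat_lit 5772790742)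 (nat_lit 76) (nat_lit 29080910974) (nat_lit 33) (nat_lit 5) (nat_lit 36) (nat_lit 5) (nat_lit 34) (nat_lit 5) (nat_lit 362) (nat_lit 319) (nat_lit 219)))))) (XT.nd (nat_lit 468) (nat_lit 456) (nat_lit 0) (XT.nd (nat_lit 234) (nat_lit 152) (nat_lit 0) (XT.nd (nat_lit 78) (nat_lit 152) (nat_lit 0) (XT.lf (nat_lit 0) (nat_lit 9149764065) (nat_lit 228) (nat_lit 25864111492) (nat_lit 76) (nat_lit 3113732464) (nat_lit 31) (nat_lit 5) (nat_lit 34) (nat_lit 5) (nat_lit 32) (nat_lit 5) (nat_lit 363) (nat_lit 319) (nat_lit 218)) (XT.nd (nat_lit 78) (nat_lit 152) (nat_lit 0) (XT.lf (nat_lit 0) (nat_lit 16889354151) (nat_lit 228) (nat_lit 8213871846) (nat_lit 76) (nat_lit 14364693231) (nat_lit 31) (nat_lit 5) (nat_lit 34) (nat_lit 5) (nat_lit 32) (nat_lit 5) (nat_lit 364) (nat_lit 319) (nat_lit 217)) (XT.lf (nat_lit 0) (nat_lit 10647165041) (nat_lit 152) (nat_lit 14527486953) (nat_lit 228) (nat_lit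 15692662573) (nat_lit 29) (nat_lit 5) (nat_lit 31) (nat_lit 5) (nat_lit 32) (nat_lit 5) (nat_lit 365) (nat_lit 319) (nat_lit 216)))) (XT.nd (nat_lit 78) (nat_lit 152) (nat_lit 0) (XT.lf (nat_lit 0) (nat_lit 30724131801) (nat_lit 152) (nat_lit 3281850448) (nat_lit 228) (nat_lit 8324113792) (nat_lit 29) (nat_lit 5) (nat_lit 31) (nat_lit 5) (nat_lit 32) (nat_lit 5) (nat_lit 366) (nat_lit 319) (nat_lit 215)) (XT.nd (nat_lit 78) (nat_lit 76) (nat_lit 0) (XT.lf (nat_lit 0) (nat_lit 8051529508) (nat_lit 76) (nat_lit 35479109722) (nat_lit 152) (nat_lit 322793867) (nat_lit 28) (nat_lit 5) (nat_lit 29) (nat_lit 5) (nat_lit 30) (nat_lit 4) (nat_lit 367) (nat_lit 319) (nat_lit 214)) (XT.lf (nat_lit 0) (nat_lit 8066574507) (nat_lit 152) (nat_lit 16543458413) (nat_lit 76) (nat_lit 20824274321) (nat_lit 27) (nat_lit 5) (nat_lit 29) (nat_lit 5) (nat_lit 28) (nat_lit 5) (nat_lit 368) (nat_lit 319) (nat_lit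 213))))) (XT.nd (nat_lit 234) (nat_lit 304) (nat_lit 0) (XT.nd (nat_lit 78) (nat_lit 0) (nat_lit 0) (XT.lf (nat_lit 0) (nat_lit 3782217234) (nat_lit 152) (nat_lit 13134703973) (nat_lit 228) (nat_lit 30174425308) (nat_lit 25) (nat_lit 5) (nat_lit 27) (nat_lit 5) (nat_lit 28) (nat_lit 5) (nat_lit 369) (nat_lit 319) (nat_lit 212)) (XT.nd (nat_lit 78) (nat_lit 0) (nat_lit 0) (XT.lf (nat_lit 0) (nat_lit 25687258281) (nat_lit 152) (nat_lit 796148087) (nat_lit 228) (nat_lit 22334154048) (nat_lit 25) (nat_lit 5) (nat_lit 27) (nat_lit 5) (nat_lit 28) (nat_lit 5) (nat_lit 370) (nat_lit 319) (nat_lit 211)) (XT.lf (nat_lit 0) (nat_lit 36711748489) (nat_lit 228) (nat_lit 2143353464) (nat_lit 76) (nat_lit 11765809964) (nat_lit 25) (nat_lit 5) (nat_lit 28) (nat_lit 5) (nat_lit 26) (nat_lit 4) (nat_lit 371) (nat_lit 319) (nat_lit 210)))) (XT.nd (nat_lit 78) (nat_lit 228) (nat_lit 0) (XT.lf (nat_lit 0)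 (nat_lit 20526408554) (nat_lit 76) (nat_lit 27252617337) (nat_lit 152) (nat_lit 4719032567) (nat_lit 24) (nat_lit 5) (nat_lit 25) (nat_lit 5) (nat_lit 26) (nat_lit 4) (nat_lit 372) (nat_lit 319) (nat_lit 209)) (XT.nd (nat_lit 78) (nat_lit 152) (nat_lit 0) (XT.lf (nat_lit 0) (nat_lit 4803706233) (nat_lit 152) (nat_lit 10151239901) (nat_lit 76) (nat_lit 39508724644) (nat_lit 23) (nat_lit 5) (nat_lit 25) (nat_lit 5) (nat_lit 24) (nat_lit 5) (nat_lit 373) (nat_lit 319) (nat_lit 208)) (XT.lf (nat_lit 0) (nat_lit 13091862230) (nat_lit 152) (nat_lit 1750832585) (nat_lit 228) (nat_lit 41671068590) (nat_lit 21) (nat_lit 5) (nat_lit 23) (nat_lit 5) (nat_lit 24) (nat_lit 5) (nat_lit 374) (nat_lit 319) (nat_lit 207))))))))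
noncomputable def xc153 : XT := (XT.nd (nat_lit 1794) (nat_lit 456) (nat_lit 0) (XT.nd (nat_lit 858) (nat_lit 304) (nat_lit 0) (XT.nd (nat_lit 390) (nat_lit 228) (nat_lit 0) (XT.nd (nat_lit 156) (nat_lit 152) (nat_lit 0) (XT.nd (nat_lit 78) (nat_lit 76) (nat_lit 0) (XT.lf (nat_lit 0) (nat_lit 25741846931) (nat_lit 228) (nat_lit 21010203886) (nat_lit 76) (nat_lit 11896401916) (nat_lit 21) (nat_lit 5) (nat_lit 24) (nat_lit 5) (nat_lit 22) (nat_lit 4) (nat_lit 375) (nat_lit 319) (nat_lit 206)) (XT.lf (nat_lit 0) (nat_lit 2565937494) (nat_lit 76) (nat_lit 34683405824) (nat_lit 152) (nat_lit 23637366517) (nat_lit 20) (nat_lit 5) (nat_lit 21) (nat_lit 5) (nat_lit 22) (nat_lit 4) (nat_lit 376) (nat_lit 319) (nat_lit 205))) (XT.nd (nat_lit 78) (nat_lit 152) (nat_lit 0) (XT.lf (nat_lit 0) (nat_lit 28040902425) (nat_lit 76) (nat_lit 21641862214) (nat_lit 152) (nat_lit 13536590166) (nat_lit 20) (nat_lit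 5) (nat_lit 21) (nat_lit 5) (nat_lit 22) (nat_lit 4) (nat_lit 377) (nat_lit 319) (nat_lit 204)) (XT.nd (nat_lit 78) (nat_lit 152) (nat_lit 0) (XT.lf (nat_lit 0) (nat_lit 54780653360) (nat_lit 76) (nat_lit 7952186660) (nat_lit 152) (nat_lit 2936045250) (nat_lit 20) (nat_lit 5) (nat_lit 21) (nat_lit 5) (nat_lit 22) (nat_lit 4) (nat_lit 378) (nat_lit 319) (nat_lit 203)) (XT.lf (nat_lit 0) (nat_lit 8267069430) (nat_lit 152) (nat_lit 53370562736) (nat_lit 76) (nat_lit 6580124362) (nat_lit 18) (nat_lit 5) (nat_lit 20) (nat_lit 5) (nat_lit 19) (nat_lit 4) (nat_lit 379) (nat_lit 319) (nat_lit 202))))) (XT.nd (nat_lit 234) (nat_lit 152) (nat_lit 0) (XT.nd (nat_lit 78) (nat_lit 76) (nat_lit 0) (XT.lf (nat_lit 0) (nat_lit 20244633399) (nat_lit 152) (nat_lit 28827703212) (nat_lit 76) (nat_lit 21803682017) (nat_lit 18) (nat_lit 5) (nat_lit 20) (nat_lit 5) (nat_lit 19) (nat_lit 4) (nat_lit 380) (nat_lit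 319) (nat_lit 201)) (XT.nd (nat_lit 78) (nat_lit 76) (nat_lit 0) (XT.lf (nat_lit 0) (nat_lit 32816484924) (nat_lit 152) (nat_lit 3066023405) (nat_lit 76) (nat_lit 37784917007) (nat_lit 18) (nat_lit 5) (nat_lit 20) (nat_lit 5) (nat_lit 19) (nat_lit 4) (nat_lit 381) (nat_lit 319) (nat_lit 200)) (XT.lf (nat_lit 0) (nat_lit 24768562704) (nat_lit 76) (nat_lit 21630700959) (nat_lit 152) (nat_lit 30180023864) (nat_lit 17) (nat_lit 5) (nat_lit 18) (nat_lit 5) (nat_lit 19) (nat_lit 4) (nat_lit 382) (nat_lit 319) (nat_lit 199)))) (XT.nd (nat_lit 78) (nat_lit 152) (nat_lit 0) (XT.lf (nat_lit 0) (nat_lit 54093524999) (nat_lit 76) (nat_lit 6615295326) (nat_lit 152) (nat_lit 18925542341) (nat_lit 17) (nat_lit 5) (nat_lit 18) (nat_lit 5) (nat_lit 19) (nat_lit 4) (nat_lit 383) (nat_lit 319) (nat_lit 198)) (XT.nd (nat_lit 78) (nat_lit 76) (nat_lit 0) (XT.lf (nat_lit 0) (nat_lit 1954653351) (nat_lit 76)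 (nat_lit 73948456214) (nat_lit 76) (nat_lit 6930620963) (nat_lit 16) (nat_lit 4) (nat_lit 17) (nat_lit 5) (nat_lit 17) (nat_lit 4) (nat_lit 384) (nat_lit 319) (nat_lit 197)) (XT.lf (nat_lit 0) (nat_lit 6026725074) (nat_lit 152) (nat_lit 54671366621) (nat_lit 76) (nat_lit 25463356879) (nat_lit 15) (nat_lit 5) (nat_lit 17) (nat_lit 5) (nat_lit 16) (nat_lit 4) (nat_lit 385) (nat_lit 319) (nat_lit 196)))))) (XT.nd (nat_lit 468) (nat_lit 152) (nat_lit 0) (XT.nd (nat_lit 234) (nat_lit 76) (nat_lit 0) (XT.nd (nat_lit 78) (nat_lit 76) (nat_lit 0) (XT.lf (nat_lit 0) (nat_lit 19395098975) (nat_lit 152) (nat_lit 27274121812) (nat_lit 76) (nat_lit 42980848625) (nat_lit 15) (nat_lit 5) (nat_lit 17) (nat_lit 5) (nat_lit 16) (nat_lit 4) (nat_lit 386) (nat_lit 319) (nat_lit 195)) (XT.nd (nat_lit 78) (nat_lit 0) (nat_lit 0) (XT.lf (nat_lit 0) (nat_lit 1535232221) (nat_lit 76) (nat_lit 31916890412) (nat_lit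 152) (nat_lit 59859988509) (nat_lit 14) (nat_lit 5) (nat_lit 15) (nat_lit 5) (nat_lit 16) (nat_lit 4) (nat_lit 387) (nat_lit 319) (nat_lit 194)) (XT.lf (nat_lit 0) (nat_lit 32725170974) (nat_lit 76) (nat_lit 15945060907) (nat_lit 152) (nat_lit 48464112691) (nat_lit 14) (nat_lit 5) (nat_lit 15) (nat_lit 5) (nat_lit 16) (nat_lit 4) (nat_lit 388) (nat_lit 319) (nat_lit 193)))) (XT.nd (nat_lit 78) (nat_lit 76) (nat_lit 0) (XT.lf (nat_lit 0) (nat_lit 64658595019) (nat_lit 152) (nat_lit 35692554852) (nat_lit 0) (nat_lit 796073651) (nat_lit 14) (nat_lit 5) (nat_lit 16) (nat_lit 4) (nat_lit 14) (nat_lit 4) (nat_lit 389) (nat_lit 319) (nat_lit 192)) (XT.nd (nat_lit 78) (nat_lit 76) (nat_lit 0) (XT.lf (nat_lit 0) (nat_lit 81704401463) (nat_lit 152) (nat_lit 5807771666) (nat_lit 0) (nat_lit 17835673245) (nat_lit 14) (nat_lit 5) (nat_lit 16) (nat_lit 4) (nat_lit 14) (nat_lit 4) (nat_lit 390) (nat_lit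 319) (nat_lit 191)) (XT.lf (nat_lit 0) (nat_lit 26410580815) (nat_lit 76) (nat_lit 73601051747) (nat_lit 76) (nat_lit 9726412243) (nat_lit 13) (nat_lit 4) (nat_lit 14) (nat_lit 5) (nat_lit 14) (nat_lit 4) (nat_lit 391) (nat_lit 319) (nat_lit 190))))) (XT.nd (nat_lit 234) (nat_lit 0) (nat_lit 0) (XT.nd (nat_lit 78) (nat_lit 76) (nat_lit 0) (XT.lf (nat_lit 0) (nat_lit 4826843806) (nat_lit 152) (nat_lit 53985239496) (nat_lit 76) (nat_lit 55527017855) (nat_lit 12) (nat_lit 5) (nat_lit 14) (nat_lit 5) (nat_lit 13) (nat_lit 4) (nat_lit 392) (nat_lit 319) (nat_lit 189)) (XT.nd (nat_lit 78) (nat_lit 76) (nat_lit 0) (XT.lf (nat_lit 0) (nat_lit 19777843361) (nat_lit 152) (nat_lit 23341052120) (nat_lit 76) (nat_lit 76043495778) (nat_lit 12) (nat_lit 5) (nat_lit 14) (nat_lit 5) (nat_lit 13) (nat_lit 4) (nat_lit 393) (nat_lit 319) (nat_lit 188)) (XT.lf (nat_lit 0) (nat_lit 9121873976) (nat_lit 76)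 (nat_lit 26494034013) (nat_lit 152) (nat_lit 88603963070) (nat_lit 11) (nat_lit 5) (nat_lit 12) (nat_lit 5) (nat_lit 13) (nat_lit 4) (nat_lit 394) (nat_lit 319) (nat_lit 187)))) (XT.nd (nat_lit 78) (nat_lit 0) (nat_lit 0) (XT.lf (nat_lit 0) (nat_lit 44012954961) (nat_lit 76) (nat_lit 8625364840) (nat_lit 152) (nat_lit 76872283753) (nat_lit 11) (nat_lit 5) (nat_lit 12) (nat_lit 5) (nat_lit 13) (nat_lit 4) (nat_lit 395) (nat_lit 319) (nat_lit 186)) (XT.nd (nat_lit 78) (nat_lit 0) (nat_lit 0) (XT.lf (nat_lit 0) (nat_lit 70667365597) (nat_lit 152) (nat_lit 54580730745) (nat_lit 0) (nat_lit 9810001522) (nat_lit 11) (nat_lit 5) (nat_lit 13) (nat_lit 4) (nat_lit 11) (nat_lit 4) (nat_lit 396) (nat_lit 319) (nat_lit 185)) (XT.lf (nat_lit 0) (nat_lit 89736644544) (nat_lit 152) (nat_lit 22264304696) (nat_lit 0) (nat_lit 28875079428) (nat_lit 11) (nat_lit 5) (nat_lit 13) (nat_lit 4) (nat_lit 11) (nat_lit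 4) (nat_lit 397) (nat_lit 319) (nat_lit 184))))))) (XT.nd (nat_lit 858) (nat_lit 152) (nat_lit 0) (XT.nd (nat_lit 390) (nat_lit 152) (nat_lit 0) (XT.nd (nat_lit 156) (nat_lit 76) (nat_lit 0) (XT.nd (nat_lit 78) (nat_lit 0) (nat_lit 0) (XT.lf (nat_lit 0) (nat_lit 12048878915) (nat_lit 76) (nat_lit 97896131419) (nat_lit 76) (nat_lit 37030565311) (nat_lit 10) (nat_lit 4) (nat_lit 11) (nat_lit 5) (nat_lit 11) (nat_lit 4) (nat_lit 398) (nat_lit 319) (nat_lit 183)) (XT.lf (nat_lit 0) (nat_lit 48846060837) (nat_lit 76) (nat_lit 82692342991) (nat_lit 76) (nat_lit 21822966416) (nat_lit 10) (nat_lit 4) (nat_lit 11) (nat_lit 5) (nat_lit 11) (nat_lit 4) (nat_lit 399) (nat_lit 319) (nat_lit 182))) (XT.nd (nat_lit 78) (nat_lit 76) (nat_lit 0) (XT.lf (nat_lit 0) (nat_lit 87478694945) (nat_lit 76) (nat_lit 66730441235) (nat_lit 76) (nat_lit 5857435643) (nat_lit 10) (nat_lit 4) (nat_lit 11) (nat_lit 5)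 (nat_lit 11) (nat_lit 4) (nat_lit 400) (nat_lit 319) (nat_lit 181)) (XT.nd (nat_lit 78) (nat_lit 0) (nat_lit 0) (XT.lf (nat_lit 0) (nat_lit 10555042793) (nat_lit 152) (nat_lit 39238624071) (nat_lit 76) (nat_lit 117304966150) (nat_lit 9) (nat_lit 5) (nat_lit 11) (nat_lit 5) (nat_lit 10) (nat_lit 4) (nat_lit 401) (nat_lit 319) (nat_lit 180)) (XT.lf (nat_lit 0) (nat_lit 27589147506) (nat_lit 152) (nat_lit 4322001035) (nat_lit 76) (nat_lit 142566455628) (nat_lit 9) (nat_lit 5) (nat_lit 11) (nat_lit 5) (nat_lit 10) (nat_lit 4) (nat_lit 402) (nat_lit 319) (nat_lit 179))))) (XT.nd (nat_lit 234) (nat_lit 76) (nat_lit 0) (XT.nd (nat_lit 78) (nat_lit 0) (nat_lit 0) (XT.lf (nat_lit 0) (nat_lit 33405771336) (nat_lit 76) (nat_lit 12588696781) (nat_lit 152) (nat_lit 136205080815) (nat_lit 8) (nat_lit 5) (nat_lit 9) (nat_lit 5) (nat_lit 10) (nat_lit 4) (nat_lit 403) (nat_lit 319) (nat_lit 178)) (XT.nd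 (nat_lit 78) (nat_lit 0) (nat_lit 0) (XT.lf (nat_lit 0) (nat_lit 65512629274) (nat_lit 152) (nat_lit 117259250790) (nat_lit 0) (nat_lit 7526082697) (nat_lit 8) (nat_lit 5) (nat_lit 10) (nat_lit 4) (nat_lit 8) (nat_lit 4) (nat_lit 404) (nat_lit 319) (nat_lit 177)) (XT.lf (nat_lit 0) (nat_lit 86211130327) (nat_lit 152) (nat_lit 84358070170) (nat_lit 0) (nat_lit 28221875721) (nat_lit 8) (nat_lit 5) (nat_lit 10) (nat_lit 4) (nat_lit 8) (nat_lit 4) (nat_lit 405) (nat_lit 319) (nat_lit 176)))) (XT.nd (nat_lit 78) (nat_lit 76) (nat_lit 0) (XT.lf (nat_lit 0) (nat_lit 107942708584) (nat_lit 152) (nat_lit 49815354755) (nat_lit 0) (nat_lit 49950874904) (nat_lit 8) (nat_lit 5) (nat_lit 10) (nat_lit 4) (nat_lit 8) (nat_lit 4) (nat_lit 406) (nat_lit 319) (nat_lit 175)) (XT.nd (nat_lit 78) (nat_lit 76) (nat_lit 0) (XT.lf (nat_lit 0) (nat_lit 130759105899) (nat_lit 152) (nat_lit 13548859985) (nat_lit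 0) (nat_lit 72764815957) (nat_lit 8) (nat_lit 5) (nat_lit 10) (nat_lit 4) (nat_lit 8) (nat_lit 4) (nat_lit 407) (nat_lit 319) (nat_lit 174)) (XT.lf (nat_lit 0) (nat_lit 25338761549) (nat_lit 76) (nat_lit 129771494557) (nat_lit 76) (nat_lit 71774865319) (nat_lit 7) (nat_lit 4) (nat_lit 8) (nat_lit 5) (nat_lit 8) (nat_lit 4) (nat_lit 408) (nat_lit 319) (nat_lit 173)))))) (XT.nd (nat_lit 468) (nat_lit 0) (nat_lit 0) (XT.nd (nat_lit 234) (nat_lit 152) (nat_lit 0) (XT.nd (nat_lit 78) (nat_lit 0) (nat_lit 0) (XT.lf (nat_lit 0) (nat_lit 66638004957) (nat_lit 76) (nat_lit 114268770023) (nat_lit 76) (nat_lit 56269912883) (nat_lit 7) (nat_lit 4) (nat_lit 8) (nat_lit 5) (nat_lit 8) (nat_lit 4) (nat_lit 409) (nat_lit 319) (nat_lit 172)) (XT.nd (nat_lit 78) (nat_lit 0) (nat_lit 0) (XT.lf (nat_lit 0) (nat_lit 109999215270) (nat_lit 76) (nat_lit 97992337534) (nat_lit 76) (nat_lit 39991358583) (nat_lit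 7) (nat_lit 4) (nat_lit 8) (nat_lit 5) (nat_lit 8) (nat_lit 4) (nat_lit 410) (nat_lit 319) (nat_lit 171)) (XT.lf (nat_lit 0) (nat_lit 155525633465) (nat_lit 76) (nat_lit 80903443680) (nat_lit 76) (nat_lit 22900443956) (nat_lit 7) (nat_lit 4) (nat_lit 8) (nat_lit 5) (nat_lit 8) (nat_lit 4) (nat_lit 411) (nat_lit 319) (nat_lit 170)))) (XT.nd (nat_lit 78) (nat_lit 152) (nat_lit 0) (XT.lf (nat_lit 0) (nat_lit 203325655776) (nat_lit 76) (nat_lit 62961400617) (nat_lit 76) (nat_lit 4956476348) (nat_lit 7) (nat_lit 4) (nat_lit 8) (nat_lit 5) (nat_lit 8) (nat_lit 4) (nat_lit 412) (nat_lit 319) (nat_lit 169)) (XT.nd (nat_lit 78) (nat_lit 76) (nat_lit 0) (XT.lf (nat_lit 0) (nat_lit 13438916695) (nat_lit 152) (nat_lit 30456977943) (nat_lit 76) (nat_lit 239846580528) (nat_lit 6) (nat_lit 5) (nat_lit 8) (nat_lit 5) (nat_lit 7) (nat_lit 4) (nat_lit 413) (nat_lit 319) (nat_lit 168)) (XT.lf (nat_lit 0)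 (nat_lit 9083947497) (nat_lit 76) (nat_lit 23644077031) (nat_lit 152) (nat_lit 264127252059) (nat_lit 5) (nat_lit 5) (nat_lit 6) (nat_lit 5) (nat_lit 7) (nat_lit 4) (nat_lit 414) (nat_lit 319) (nat_lit 167))))) (XT.nd (nat_lit 234) (nat_lit 0) (nat_lit 0) (XT.nd (nat_lit 78) (nat_lit 0) (nat_lit 0) (XT.lf (nat_lit 0) (nat_lit 51656849289) (nat_lit 76) (nat_lit 1839255379) (nat_lit 152) (nat_lit 257101887876) (nat_lit 5) (nat_lit 5) (nat_lit 6) (nat_lit 5) (nat_lit 7) (nat_lit 4) (nat_lit 415) (nat_lit 319) (nat_lit 166)) (XT.nd (nat_lit 78) (nat_lit 0) (nat_lit 0) (XT.lf (nat_lit 0) (nat_lit 75630085949) (nat_lit 152) (nat_lit 229000582229) (nat_lit 0) (nat_lit 20380801558) (nat_lit 5) (nat_lit 5) (nat_lit 7) (nat_lit 4) (nat_lit 5) (nat_lit 4) (nat_lit 416) (nat_lit 319) (nat_lit 165)) (XT.lf (nat_lit 0) (nat_lit 98899734185) (nat_lit 152) (nat_lit 197595424819) (nat_lit 0) (nat_lit 43649013669)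 (nat_lit 5) (nat_lit 5) (nat_lit 7) (nat_lit 4) (nat_lit 5) (nat_lit 4) (nat_lit 417) (nat_lit 319) (nat_lit 164)))) (XT.nd (nat_lit 78) (nat_lit 0) (nat_lit 0) (XT.lf (nat_lit 0) (nat_lit 123331737370) (nat_lit 152) (nat_lit 164622180910) (nat_lit 0) (nat_lit 68079649116) (nat_lit 5) (nat_lit 5) (nat_lit 7) (nat_lit 4) (nat_lit 5) (nat_lit 4) (nat_lit 418) (nat_lit 319) (nat_lit 163)) (XT.nd (nat_lit 78) (nat_lit 0) (nat_lit 0) (XT.lf (nat_lit 0) (nat_lit 148984266941) (nat_lit 152) (nat_lit 130002342780) (nat_lit 0) (nat_lit 93730876079) (nat_lit 5) (nat_lit 5) (nat_lit 7) (nat_lit 4) (nat_lit 5) (nat_lit 4) (nat_lit 419) (nat_lit 319) (nat_lit 162)) (XT.lf (nat_lit 0) (nat_lit 175918400348) (nat_lit 152) (nat_lit 93653482241) (nat_lit 0) (nat_lit 120663768907) (nat_lit 5) (nat_lit 5) (nat_lit 7) (nat_lit 4) (nat_lit 5) (nat_lit 4) (nat_lit 420) (nat_lit 319) (nat_lit 161))))))))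
noncomputable def xc154 : XT := (XT.nd (nat_lit 39936) (nat_lit 0) (nat_lit 2964) (XT.nd (nat_lit 39000) (nat_lit 0) (nat_lit 6840) (XT.nd (nat_lit 390) (nat_lit 0) (nat_lit 0) (XT.nd (nat_lit 156) (nat_lit 76) (nat_lit 0) (XT.nd (nat_lit 78) (nat_lit 0) (nat_lit 0) (XT.lf (nat_lit 0) (nat_lit 204198266481) (nat_lit 152) (nat_lit 55489054389) (nat_lit 0) (nat_lit 148942453536) (nat_lit 5) (nat_lit 5) (nat_lit 7) (nat_lit 4) (nat_lit 5) (nat_lit 4) (nat_lit 421) (nat_lit 319) (nat_lit 160)) (XT.lf (nat_lit 0) (nat_lit 233891198354) (nat_lit 152) (nat_lit 15418191537) (nat_lit 0) (nat_lit 178634260168) (nat_lit 5) (nat_lit 5) (nat_lit 7) (nat_lit 4) (nat_lit 5) (nat_lit 4) (nat_lit 422) (nat_lit 319) (nat_lit 159))) (XT.nd (nat_lit 78) (nat_lit 0) (nat_lit 0) (XT.lf (nat_lit 0) (nat_lit 27535831709) (nat_lit 76) (nat_lit 237961973217) (nat_lit 76) (nat_lit 182703963371) (nat_lit 4) (nat_lit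 4) (nat_lit 5) (nat_lit 5) (nat_lit 5) (nat_lit 4) (nat_lit 423) (nat_lit 319) (nat_lit 158)) (XT.nd (nat_lit 78) (nat_lit 0) (nat_lit 0) (XT.lf (nat_lit 0) (nat_lit 73171167028) (nat_lit 76) (nat_lit 225773821869) (nat_lit 76) (nat_lit 170514791397) (nat_lit 4) (nat_lit 4) (nat_lit 5) (nat_lit 5) (nat_lit 5) (nat_lit 4) (nat_lit 424) (nat_lit 319) (nat_lit 157)) (XT.lf (nat_lit 0) (nat_lit 121086674934) (nat_lit 76) (nat_lit 212977030976) (nat_lit 76) (nat_lit 157717028477) (nat_lit 4) (nat_lit 4) (nat_lit 5) (nat_lit 5) (nat_lit 5) (nat_lit 4) (nat_lit 425) (nat_lit 319) (nat_lit 156))))) (XT.nd (nat_lit 234) (nat_lit 0) (nat_lit 0) (XT.nd (nat_lit 78) (nat_lit 0) (nat_lit 0) (XT.lf (nat_lit 0) (nat_lit 171396439973) (nat_lit 76) (nat_lit 199541131986) (nat_lit 76) (nat_lit 144280203748) (nat_lit 4) (nat_lit 4) (nat_lit 5) (nat_lit 5) (nat_lit 5) (nat_lit 4) (nat_lit 426) (nat_lit 319)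 (nat_lit 155)) (XT.nd (nat_lit 78) (nat_lit 0) (nat_lit 0) (XT.lf (nat_lit 0) (nat_lit 224220247297) (nat_lit 76) (nat_lit 185434134664) (nat_lit 76) (nat_lit 130172324770) (nat_lit 4) (nat_lit 4) (nat_lit 5) (nat_lit 5) (nat_lit 5) (nat_lit 4) (nat_lit 427) (nat_lit 319) (nat_lit 154)) (XT.lf (nat_lit 0) (nat_lit 279683867877) (nat_lit 76) (nat_lit 170622450922) (nat_lit 76) (nat_lit 115359801356) (nat_lit 4) (nat_lit 4) (nat_lit 5) (nat_lit 5) (nat_lit 5) (nat_lit 4) (nat_lit 428) (nat_lit 319) (nat_lit 153)))) (XT.nd (nat_lit 78) (nat_lit 0) (nat_lit 0) (XT.lf (nat_lit 0) (nat_lit 337919357953) (nat_lit 76) (nat_lit 155070814846) (nat_lit 76) (nat_lit 99807365591) (nat_lit 4) (nat_lit 4) (nat_lit 5) (nat_lit 5) (nat_lit 5) (nat_lit 4) (nat_lit 429) (nat_lit 319) (nat_lit 152)) (XT.nd (nat_lit 78) (nat_lit 0) (nat_lit 0) (XT.lf (nat_lit 0) (nat_lit 399065373453) (nat_lit 76) (nat_lit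 138742198730) (nat_lit 76) (nat_lit 83477987867) (nat_lit 4) (nat_lit 4) (nat_lit 5) (nat_lit 5) (nat_lit 5) (nat_lit 4) (nat_lit 430) (nat_lit 319) (nat_lit 151)) (XT.lf (nat_lit 0) (nat_lit 463267500128) (nat_lit 76) (nat_lit 121597724917) (nat_lit 76) (nat_lit 66332788714) (nat_lit 4) (nat_lit 4) (nat_lit 5) (nat_lit 5) (nat_lit 5) (nat_lit 4) (nat_lit 431) (nat_lit 319) (nat_lit 150)))))) (XT.nd (nat_lit 468) (nat_lit 456) (nat_lit 0) (XT.nd (nat_lit 234) (nat_lit 0) (nat_lit 76) (XT.nd (nat_lit 78) (nat_lit 0) (nat_lit 0) (XT.lf (nat_lit 0) (nat_lit 849080714) (nat_lit 0) (nat_lit 849080714) (nat_lit 684) (nat_lit 3903235711) (nat_lit 100) (nat_lit 5) (nat_lit 100) (nat_lit 3) (nat_lit 109) (nat_lit 3) (nat_lit 320) (nat_lit 320) (nat_lit 260)) (XT.nd (nat_lit 78) (nat_lit 0) (nat_lit 0) (XT.lf (nat_lit 0) (nat_lit 4056880720) (nat_lit 684) (nat_lit 4341616378) (nat_lit 760) (nat_lit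 3054774917) (nat_lit 100) (nat_lit 5) (nat_lit 109) (nat_lit 3) (nat_lit 110) (nat_lit 5) (nat_lit 321) (nat_lit 320) (nat_lit 259)) (XT.lf (nat_lit 76) (nat_lit 1067016367) (nat_lit 0) (nat_lit 3694516126) (nat_lit 760) (nat_lit 6954239670) (nat_lit 101) (nat_lit 5) (nat_lit 100) (nat_lit 5) (nat_lit 110) (nat_lit 5) (nat_lit 322) (nat_lit 320) (nat_lit 258)))) (XT.nd (nat_lit 78) (nat_lit 0) (nat_lit 0) (XT.lf (nat_lit 0) (nat_lit 5563665080) (nat_lit 684) (nat_lit 5131958128) (nat_lit 760) (nat_lit 1292711057) (nat_lit 101) (nat_lit 5) (nat_lit 110) (nat_lit 5) (nat_lit 111) (nat_lit 5) (nat_lit 323) (nat_lit 320) (nat_lit 257)) (XT.nd (nat_lit 78) (nat_lit 0) (nat_lit 0) (XT.lf (nat_lit 76) (nat_lit 599874271) (nat_lit 0) (nat_lit 5845564240) (nat_lit 760) (nat_lit 5827156259) (nat_lit 102) (nat_lit 5) (nat_lit 101) (nat_lit 5) (nat_lit 111) (nat_lit 5) (nat_lit 324) (nat_lit 320)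 (nat_lit 256)) (XT.lf (nat_lit 76) (nat_lit 6777342787) (nat_lit 0) (nat_lit 651621572) (nat_lit 760) (nat_lit 5139265525) (nat_lit 102) (nat_lit 5) (nat_lit 101) (nat_lit 5) (nat_lit 111) (nat_lit 5) (nat_lit 325) (nat_lit 320) (nat_lit 255))))) (XT.nd (nat_lit 234) (nat_lit 608) (nat_lit 0) (XT.nd (nat_lit 78) (nat_lit 0) (nat_lit 0) (XT.lf (nat_lit 76) (nat_lit 299861754) (nat_lit 0) (nat_lit 8213754242) (nat_lit 760) (nat_lit 4362475919) (nat_lit 103) (nat_lit 5) (nat_lit 102) (nat_lit 5) (nat_lit 112) (nat_lit 5) (nat_lit 326) (nat_lit 320) (nat_lit 254)) (XT.nd (nat_lit 78) (nat_lit 0) (nat_lit 76) (XT.lf (nat_lit 76) (nat_lit 6865677704) (nat_lit 0) (nat_lit 2868714000) (nat_lit 760) (nat_lit 3460901376) (nat_lit 103) (nat_lit 5) (nat_lit 102) (nat_lit 5) (nat_lit 112) (nat_lit 5) (nat_lit 327) (nat_lit 320) (nat_lit 253)) (XT.lf (nat_lit 76) (nat_lit 172030786) (nat_lit 0) (nat_lit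 10864384369) (nat_lit 760) (nat_lit 2493067375) (nat_lit 104) (nat_lit 5) (nat_lit 103) (nat_lit 5) (nat_lit 113) (nat_lit 5) (nat_lit 328) (nat_lit 320) (nat_lit 252)))) (XT.nd (nat_lit 78) (nat_lit 684) (nat_lit 0) (XT.lf (nat_lit 76) (nat_lit 7150277784) (nat_lit 0) (nat_lit 5382313366) (nat_lit 760) (nat_lit 1341374567) (nat_lit 104) (nat_lit 5) (nat_lit 103) (nat_lit 5) (nat_lit 113) (nat_lit 5) (nat_lit 329) (nat_lit 320) (nat_lit 251)) (XT.nd (nat_lit 78) (nat_lit 76) (nat_lit 0) (XT.lf (nat_lit 0) (nat_lit 223085990) (nat_lit 684) (nat_lit 13866630053) (nat_lit 760) (nat_lit 146685093) (nat_lit 95) (nat_lit 5) (nat_lit 104) (nat_lit 5) (nat_lit 105) (nat_lit 5) (nat_lit 330) (nat_lit 320) (nat_lit 250)) (XT.lf (nat_lit 0) (nat_lit 1253472231) (nat_lit 760) (nat_lit 6988475290) (nat_lit 76) (nat_lit 6365118480) (nat_lit 94) (nat_lit 5) (nat_lit 104) (nat_lit 5) (nat_lit 95) (nat_lit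 5) (nat_lit 331) (nat_lit 320) (nat_lit 249))))))) (XT.nd (nat_lit 858) (nat_lit 1520) (nat_lit 0) (XT.nd (nat_lit 390) (nat_lit 988) (nat_lit 0) (XT.nd (nat_lit 156) (nat_lit 684) (nat_lit 0) (XT.nd (nat_lit 78) (nat_lit 0) (nat_lit 0) (XT.lf (nat_lit 0) (nat_lit 377824114) (nat_lit 684) (nat_lit 2325085174) (nat_lit 760) (nat_lit 12294054817) (nat_lit 85) (nat_lit 5) (nat_lit 94) (nat_lit 5) (nat_lit 95) (nat_lit 5) (nat_lit 332) (nat_lit 320) (nat_lit 248)) (XT.lf (nat_lit 0) (nat_lit 4384873163) (nat_lit 760) (nat_lit 7128275443) (nat_lit 76) (nat_lit 3885234618) (nat_lit 85) (nat_lit 5) (nat_lit 95) (nat_lit 5) (nat_lit 86) (nat_lit 5) (nat_lit 333) (nat_lit 320) (nat_lit 247))) (XT.nd (nat_lit 78) (nat_lit 304) (nat_lit 0) (XT.lf (nat_lit 0) (nat_lit 702193919) (nat_lit 380) (nat_lit 5477882478) (nat_lit 456) (nat_lit 9638367330) (nat_lit 80) (nat_lit 5) (nat_lit 85) (nat_lit 5)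 (nat_lit 86) (nat_lit 5) (nat_lit 334) (nat_lit 320) (nat_lit 246)) (XT.nd (nat_lit 78) (nat_lit 304) (nat_lit 0) (XT.lf (nat_lit 0) (nat_lit 8181872804) (nat_lit 456) (nat_lit 7117180285) (nat_lit 76) (nat_lit 954638690) (nat_lit 80) (nat_lit 5) (nat_lit 86) (nat_lit 5) (nat_lit 81) (nat_lit 5) (nat_lit 335) (nat_lit 320) (nat_lit 245)) (XT.lf (nat_lit 0) (nat_lit 1211797176) (nat_lit 304) (nat_lit 9162320373) (nat_lit 380) (nat_lit 6332091690) (nat_lit 76) (nat_lit 5) (nat_lit 80) (nat_lit 5) (nat_lit 81) (nat_lit 5) (nat_lit 336) (nat_lit 320) (nat_lit 244))))) (XT.nd (nat_lit 234) (nat_lit 608) (nat_lit 0) (XT.nd (nat_lit 78) (nat_lit 380) (nat_lit 0) (XT.lf (nat_lit 0) (nat_lit 10185593600) (nat_lit 304) (nat_lit 2593133529) (nat_lit 380) (nat_lit 4397511554) (nat_lit 76) (nat_lit 5) (nat_lit 80) (nat_lit 5) (nat_lit 81) (nat_lit 5) (nat_lit 337) (nat_lit 320) (nat_lit 243)) (XT.nd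 (nat_lit 78) (nat_lit 76) (nat_lit 0) (XT.lf (nat_lit 0) (nat_lit 1913667981) (nat_lit 304) (nat_lit 13470034813) (nat_lit 380) (nat_lit 2282082637) (nat_lit 72) (nat_lit 5) (nat_lit 76) (nat_lit 5) (nat_lit 77) (nat_lit 5) (nat_lit 338) (nat_lit 320) (nat_lit 242)) (XT.lf (nat_lit 0) (nat_lit 87189722) (nat_lit 380) (nat_lit 6730452539) (nat_lit 76) (nat_lit 11354929123) (nat_lit 71) (nat_lit 5) (nat_lit 76) (nat_lit 5) (nat_lit 72) (nat_lit 5) (nat_lit 339) (nat_lit 320) (nat_lit 241)))) (XT.nd (nat_lit 78) (nat_lit 304) (nat_lit 0) (XT.lf (nat_lit 0) (nat_lit 2529550546) (nat_lit 380) (nat_lit 15929710499) (nat_lit 76) (nat_lit 242018673) (nat_lit 67) (nat_lit 5) (nat_lit 72) (nat_lit 5) (nat_lit 68) (nat_lit 5) (nat_lit 340) (nat_lit 320) (nat_lit 240)) (XT.nd (nat_lit 78) (nat_lit 304) (nat_lit 0) (XT.lf (nat_lit 0) (nat_lit 5306168956) (nat_lit 380) (nat_lit 6400517695) (nat_lit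 76) (nat_lit 7539148444) (nat_lit 67) (nat_lit 5) (nat_lit 72) (nat_lit 5) (nat_lit 68) (nat_lit 5) (nat_lit 341) (nat_lit 320) (nat_lit 239)) (XT.lf (nat_lit 0) (nat_lit 3706117096) (nat_lit 304) (nat_lit 4558623937) (nat_lit 380) (nat_lit 11550738787) (nat_lit 63) (nat_lit 5) (nat_lit 67) (nat_lit 5) (nat_lit 68) (nat_lit 5) (nat_lit 342) (nat_lit 320) (nat_lit 238)))))) (XT.nd (nat_lit 468) (nat_lit 684) (nat_lit 0) (XT.nd (nat_lit 234) (nat_lit 608) (nat_lit 0) (XT.nd (nat_lit 78) (nat_lit 228) (nat_lit 0) (XT.lf (nat_lit 0) (nat_lit 11513066380) (nat_lit 380) (nat_lit 5933714188) (nat_lit 76) (nat_lit 2959751854) (nat_lit 63) (nat_lit 5) (nat_lit 68) (nat_lit 5) (nat_lit 64) (nat_lit 5) (nat_lit 343) (nat_lit 320) (nat_lit 237)) (XT.nd (nat_lit 78) (nat_lit 0) (nat_lit 0) (XT.lf (nat_lit 0) (nat_lit 4812848437) (nat_lit 228) (nat_lit 10247160157) (nat_lit 304) (nat_lit 5960335099)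 (nat_lit 60) (nat_lit 5) (nat_lit 63) (nat_lit 5) (nat_lit 64) (nat_lit 5) (nat_lit 344) (nat_lit 320) (nat_lit 236)) (XT.lf (nat_lit 0) (nat_lit 16285843411) (nat_lit 228) (nat_lit 2585659062) (nat_lit 304) (nat_lit 2788998131) (nat_lit 60) (nat_lit 5) (nat_lit 63) (nat_lit 5) (nat_lit 64) (nat_lit 5) (nat_lit 345) (nat_lit 320) (nat_lit 235)))) (XT.nd (nat_lit 78) (nat_lit 228) (nat_lit 0) (XT.lf (nat_lit 0) (nat_lit 693977182) (nat_lit 380) (nat_lit 16242575124) (nat_lit 76) (nat_lit 5387185492) (nat_lit 55) (nat_lit 5) (nat_lit 60) (nat_lit 5) (nat_lit 56) (nat_lit 5) (nat_lit 346) (nat_lit 320) (nat_lit 234)) (XT.nd (nat_lit 78) (nat_lit 228) (nat_lit 0) (XT.lf (nat_lit 0) (nat_lit 4379700904) (nat_lit 380) (nat_lit 4825666938) (nat_lit 76) (nat_lit 13806379751) (nat_lit 55) (nat_lit 5) (nat_lit 60) (nat_lit 5) (nat_lit 56) (nat_lit 5) (nat_lit 347) (nat_lit 320) (nat_lit 233)) (XT.lf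 (nat_lit 0) (nat_lit 7382319947) (nat_lit 228) (nat_lit 970674162) (nat_lit 304) (nat_lit 15376012197) (nat_lit 52) (nat_lit 5) (nat_lit 55) (nat_lit 5) (nat_lit 56) (nat_lit 5) (nat_lit 348) (nat_lit 320) (nat_lit 232))))) (XT.nd (nat_lit 234) (nat_lit 456) (nat_lit 0) (XT.nd (nat_lit 78) (nat_lit 228) (nat_lit 0) (XT.lf (nat_lit 0) (nat_lit 12716140537) (nat_lit 304) (nat_lit 4247297272) (nat_lit 76) (nat_lit 7509142708) (nat_lit 52) (nat_lit 5) (nat_lit 56) (nat_lit 5) (nat_lit 53) (nat_lit 5) (nat_lit 349) (nat_lit 320) (nat_lit 231)) (XT.nd (nat_lit 78) (nat_lit 0) (nat_lit 0) (XT.lf (nat_lit 0) (nat_lit 8704196050) (nat_lit 228) (nat_lit 8733899504) (nat_lit 304) (nat_lit 7808216742) (nat_lit 49) (nat_lit 5) (nat_lit 52) (nat_lit 5) (nat_lit 53) (nat_lit 5) (nat_lit 350) (nat_lit 320) (nat_lit 230)) (XT.lf (nat_lit 0) (nat_lit 22435430116) (nat_lit 228) (nat_lit 21782547) (nat_lit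 304) (nat_lit 3598475660) (nat_lit 49) (nat_lit 5) (nat_lit 52) (nat_lit 5) (nat_lit 53) (nat_lit 5) (nat_lit 351) (nat_lit 320) (nat_lit 229)))) (XT.nd (nat_lit 78) (nat_lit 228) (nat_lit 0) (XT.lf (nat_lit 0) (nat_lit 1090168571) (nat_lit 228) (nat_lit 16794733527) (nat_lit 76) (nat_lit 9005263562) (nat_lit 46) (nat_lit 5) (nat_lit 49) (nat_lit 5) (nat_lit 47) (nat_lit 5) (nat_lit 352) (nat_lit 320) (nat_lit 228)) (XT.nd (nat_lit 78) (nat_lit 228) (nat_lit 0) (XT.lf (nat_lit 0) (nat_lit 5944660766) (nat_lit 228) (nat_lit 3216193539) (nat_lit 76) (nat_lit 18599954975) (nat_lit 46) (nat_lit 5) (nat_lit 49) (nat_lit 5) (nat_lit 47) (nat_lit 5) (nat_lit 353) (nat_lit 320) (nat_lit 227)) (XT.lf (nat_lit 0) (nat_lit 11212731646) (nat_lit 304) (nat_lit 17277968678) (nat_lit 76) (nat_lit 175751004) (nat_lit 43) (nat_lit 5) (nat_lit 47) (nat_lit 5) (nat_lit 44) (nat_lit 5) (nat_lit 354) (nat_lit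 320) (nat_lit 226))))))))
noncomputable def xc155 : XT := (XT.nd (nat_lit 1794) (nat_lit 760) (nat_lit 0) (XT.nd (nat_lit 858) (nat_lit 836) (nat_lit 0) (XT.nd (nat_lit 390) (nat_lit 532) (nat_lit 0) (XT.nd (nat_lit 156) (nat_lit 228) (nat_lit 0) (XT.nd (nat_lit 78) (nat_lit 152) (nat_lit 0) (XT.lf (nat_lit 0) (nat_lit 16940086645) (nat_lit 304) (nat_lit 2945267183) (nat_lit 76) (nat_lit 9722236143) (nat_lit 43) (nat_lit 5) (nat_lit 47) (nat_lit 5) (nat_lit 44) (nat_lit 5) (nat_lit 355) (nat_lit 320) (nat_lit 225)) (XT.lf (nat_lit 0) (nat_lit 12489924130) (nat_lit 152) (nat_lit 10649689817) (nat_lit 228) (nat_lit 7446889487) (nat_lit 41) (nat_lit 5) (nat_lit 43) (nat_lit 5) (nat_lit 44) (nat_lit 5) (nat_lit 356) (nat_lit 320) (nat_lit 224))) (XT.nd (nat_lit 78) (nat_lit 228) (nat_lit 0) (XT.lf (nat_lit 0) (nat_lit 28785451416) (nat_lit 152) (nat_lit 904572038) (nat_lit 228) (nat_lit 1922301556)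 (nat_lit 41) (nat_lit 5) (nat_lit 43) (nat_lit 5) (nat_lit 44) (nat_lit 5) (nat_lit 357) (nat_lit 320) (nat_lit 223)) (XT.nd (nat_lit 78) (nat_lit 0) (nat_lit 0) (XT.lf (nat_lit 0) (nat_lit 4107524991) (nat_lit 228) (nat_lit 19259625933) (nat_lit 76) (nat_lit 9301608727) (nat_lit 38) (nat_lit 5) (nat_lit 41) (nat_lit 5) (nat_lit 39) (nat_lit 5) (nat_lit 358) (nat_lit 320) (nat_lit 222)) (XT.lf (nat_lit 0) (nat_lit 10429172912) (nat_lit 228) (nat_lit 3281128979) (nat_lit 76) (nat_lit 20063398557) (nat_lit 38) (nat_lit 5) (nat_lit 41) (nat_lit 5) (nat_lit 39) (nat_lit 5) (nat_lit 359) (nat_lit 320) (nat_lit 221))))) (XT.nd (nat_lit 234) (nat_lit 228) (nat_lit 0) (XT.nd (nat_lit 78) (nat_lit 152) (nat_lit 0) (XT.lf (nat_lit 0) (nat_lit 13929294648) (nat_lit 152) (nat_lit 3346934986) (nat_lit 228) (nat_lit 17647198688) (nat_lit 36) (nat_lit 5) (nat_lit 38) (nat_lit 5) (nat_lit 39) (nat_lit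 5) (nat_lit 360) (nat_lit 320) (nat_lit 220)) (XT.nd (nat_lit 78) (nat_lit 152) (nat_lit 0) (XT.lf (nat_lit 0) (nat_lit 24631723301) (nat_lit 228) (nat_lit 4145205541) (nat_lit 76) (nat_lit 7345415599) (nat_lit 36) (nat_lit 5) (nat_lit 39) (nat_lit 5) (nat_lit 37) (nat_lit 5) (nat_lit 361) (nat_lit 320) (nat_lit 219)) (XT.lf (nat_lit 0) (nat_lit 13924646377) (nat_lit 152) (nat_lit 18694967654) (nat_lit 228) (nat_lit 4748366984) (nat_lit 34) (nat_lit 5) (nat_lit 36) (nat_lit 5) (nat_lit 37) (nat_lit 5) (nat_lit 362) (nat_lit 320) (nat_lit 218)))) (XT.nd (nat_lit 78) (nat_lit 152) (nat_lit 0) (XT.lf (nat_lit 0) (nat_lit 2320144022) (nat_lit 228) (nat_lit 5680418738) (nat_lit 76) (nat_lit 30670334683) (nat_lit 33) (nat_lit 5) (nat_lit 36) (nat_lit 5) (nat_lit 34) (nat_lit 5) (nat_lit 363) (nat_lit 320) (nat_lit 217)) (XT.nd (nat_lit 78) (nat_lit 0) (nat_lit 0) (XT.lf (nat_lit 0) (nat_lit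 9838040877) (nat_lit 228) (nat_lit 26773157583) (nat_lit 76) (nat_lit 3411097282) (nat_lit 31) (nat_lit 5) (nat_lit 34) (nat_lit 5) (nat_lit 32) (nat_lit 5) (nat_lit 364) (nat_lit 320) (nat_lit 216)) (XT.lf (nat_lit 0) (nat_lit 17953620534) (nat_lit 228) (nat_lit 8258699263) (nat_lit 76) (nat_lit 15217859507) (nat_lit 31) (nat_lit 5) (nat_lit 34) (nat_lit 5) (nat_lit 32) (nat_lit 5) (nat_lit 365) (nat_lit 320) (nat_lit 215)))))) (XT.nd (nat_lit 468) (nat_lit 380) (nat_lit 0) (XT.nd (nat_lit 234) (nat_lit 228) (nat_lit 0) (XT.nd (nat_lit 78) (nat_lit 76) (nat_lit 0) (XT.lf (nat_lit 0) (nat_lit 11539488400) (nat_lit 152) (nat_lit 15108848329) (nat_lit 228) (nat_lit 16251456957) (nat_lit 29) (nat_lit 5) (nat_lit 31) (nat_lit 5) (nat_lit 32) (nat_lit 5) (nat_lit 366) (nat_lit 320) (nat_lit 214)) (XT.nd (nat_lit 78) (nat_lit 76) (nat_lit 0) (XT.lf (nat_lit 0) (nat_lit 32603162303) (nat_lit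 152) (nat_lit 3307835379) (nat_lit 228) (nat_lit 8525234963) (nat_lit 29) (nat_lit 5) (nat_lit 31) (nat_lit 5) (nat_lit 32) (nat_lit 5) (nat_lit 367) (nat_lit 320) (nat_lit 213)) (XT.lf (nat_lit 0) (nat_lit 8799479979) (nat_lit 76) (nat_lit 37110104962) (nat_lit 152) (nat_lit 126273047) (nat_lit 28) (nat_lit 5) (nat_lit 29) (nat_lit 5) (nat_lit 30) (nat_lit 4) (nat_lit 368) (nat_lit 320) (nat_lit 212)))) (XT.nd (nat_lit 78) (nat_lit 152) (nat_lit 0) (XT.lf (nat_lit 0) (nat_lit 8665954708) (nat_lit 152) (nat_lit 17035107016) (nat_lit 76) (nat_lit 21995043949) (nat_lit 27) (nat_lit 5) (nat_lit 29) (nat_lit 5) (nat_lit 28) (nat_lit 5) (nat_lit 369) (nat_lit 320) (nat_lit 211)) (XT.nd (nat_lit 78) (nat_lit 0) (nat_lit 0) (XT.lf (nat_lit 0) (nat_lit 4301440732) (nat_lit 152) (nat_lit 13653196211) (nat_lit 228) (nat_lit 31481574505) (nat_lit 25) (nat_lit 5) (nat_lit 27) (nat_lit 5) (nat_lit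 28) (nat_lit 5) (nat_lit 370) (nat_lit 320) (nat_lit 210)) (XT.lf (nat_lit 0) (nat_lit 27286014181) (nat_lit 152) (nat_lit 704295528) (nat_lit 228) (nat_lit 23258888351) (nat_lit 25) (nat_lit 5) (nat_lit 27) (nat_lit 5) (nat_lit 28) (nat_lit 5) (nat_lit 371) (nat_lit 320) (nat_lit 209))))) (XT.nd (nat_lit 234) (nat_lit 228) (nat_lit 0) (XT.nd (nat_lit 78) (nat_lit 152) (nat_lit 0) (XT.lf (nat_lit 0) (nat_lit 38723325060) (nat_lit 228) (nat_lit 1944256584) (nat_lit 76) (nat_lit 12475477626) (nat_lit 25) (nat_lit 5) (nat_lit 28) (nat_lit 5) (nat_lit 26) (nat_lit 4) (nat_lit 372) (nat_lit 320) (nat_lit 208)) (XT.nd (nat_lit 78) (nat_lit 76) (nat_lit 0) (XT.lf (nat_lit 0) (nat_lit 21854053784) (nat_lit 76) (nat_lit 28486236637) (nat_lit 152) (nat_lit 4773961216) (nat_lit 24) (nat_lit 5) (nat_lit 25) (nat_lit 5) (nat_lit 26) (nat_lit 4) (nat_lit 373) (nat_lit 320) (nat_lit 207)) (XT.lf (nat_lit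 0) (nat_lit 5210776414) (nat_lit 152) (nat_lit 10366222592) (nat_lit 76) (nat_lit 41601425733) (nat_lit 23) (nat_lit 5) (nat_lit 25) (nat_lit 5) (nat_lit 24) (nat_lit 5) (nat_lit 374) (nat_lit 320) (nat_lit 206)))) (XT.nd (nat_lit 78) (nat_lit 76) (nat_lit 0) (XT.lf (nat_lit 0) (nat_lit 14034315626) (nat_lit 152) (nat_lit 1713946208) (nat_lit 228) (nat_lit 43582936857) (nat_lit 21) (nat_lit 5) (nat_lit 23) (nat_lit 5) (nat_lit 24) (nat_lit 5) (nat_lit 375) (nat_lit 320) (nat_lit 205)) (XT.nd (nat_lit 78) (nat_lit 76) (nat_lit 0) (XT.lf (nat_lit 0) (nat_lit 27186439227) (nat_lit 228) (nat_lit 21780551701) (nat_lit 76) (nat_lit 12605932044) (nat_lit 21) (nat_lit 5) (nat_lit 24) (nat_lit 5) (nat_lit 22) (nat_lit 4) (nat_lit 376) (nat_lit 320) (nat_lit 204)) (XT.lf (nat_lit 0) (nat_lit 2969878001) (nat_lit 76) (nat_lit 36296236005) (nat_lit 152) (nat_lit 24657142430) (nat_lit 20) (nat_lit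 5) (nat_lit 21) (nat_lit 5) (nat_lit 22) (nat_lit 4) (nat_lit 377) (nat_lit 320) (nat_lit 203))))))) (XT.nd (nat_lit 858) (nat_lit 304) (nat_lit 0) (XT.nd (nat_lit 390) (nat_lit 304) (nat_lit 0) (XT.nd (nat_lit 156) (nat_lit 152) (nat_lit 0) (XT.nd (nat_lit 78) (nat_lit 0) (nat_lit 0) (XT.lf (nat_lit 0) (nat_lit 29705465291) (nat_lit 76) (nat_lit 22608393315) (nat_lit 152) (nat_lit 14059045948) (nat_lit 20) (nat_lit 5) (nat_lit 21) (nat_lit 5) (nat_lit 22) (nat_lit 4) (nat_lit 378) (nat_lit 320) (nat_lit 202)) (XT.lf (nat_lit 0) (nat_lit 57769702927) (nat_lit 76) (nat_lit 8239736936) (nat_lit 152) (nat_lit 2935824916) (nat_lit 20) (nat_lit 5) (nat_lit 21) (nat_lit 5) (nat_lit 22) (nat_lit 4) (nat_lit 379) (nat_lit 320) (nat_lit 201))) (XT.nd (nat_lit 78) (nat_lit 0) (nat_lit 0) (XT.lf (nat_lit 0) (nat_lit 8821613129) (nat_lit 152) (nat_lit 55783117280) (nat_lit 76) (nat_lit 7016793787)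 (nat_lit 18) (nat_lit 5) (nat_lit 20) (nat_lit 5) (nat_lit 19) (nat_lit 4) (nat_lit 380) (nat_lit 320) (nat_lit 200)) (XT.nd (nat_lit 78) (nat_lit 0) (nat_lit 0) (XT.lf (nat_lit 0) (nat_lit 21391331952) (nat_lit 152) (nat_lit 30025303999) (nat_lit 76) (nat_lit 22996402506) (nat_lit 18) (nat_lit 5) (nat_lit 20) (nat_lit 5) (nat_lit 19) (nat_lit 4) (nat_lit 381) (nat_lit 320) (nat_lit 199)) (XT.lf (nat_lit 0) (nat_lit 34585372869) (nat_lit 152) (nat_lit 2987148982) (nat_lit 76) (nat_lit 39771816560) (nat_lit 18) (nat_lit 5) (nat_lit 20) (nat_lit 5) (nat_lit 19) (nat_lit 4) (nat_lit 382) (nat_lit 320) (nat_lit 198))))) (XT.nd (nat_lit 234) (nat_lit 152) (nat_lit 0) (XT.nd (nat_lit 78) (nat_lit 76) (nat_lit 0) (XT.lf (nat_lit 0) (nat_lit 26235421666) (nat_lit 76) (nat_lit 22609337053) (nat_lit 152) (nat_lit 31557164203) (nat_lit 17) (nat_lit 5) (nat_lit 18) (nat_lit 5) (nat_lit 19) (nat_lit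 4) (nat_lit 383) (nat_lit 320) (nat_lit 197)) (XT.nd (nat_lit 78) (nat_lit 76) (nat_lit 0) (XT.lf (nat_lit 0) (nat_lit 57015754417) (nat_lit 76) (nat_lit 6848061089) (nat_lit 152) (nat_lit 19746237692) (nat_lit 17) (nat_lit 5) (nat_lit 18) (nat_lit 5) (nat_lit 19) (nat_lit 4) (nat_lit 384) (nat_lit 320) (nat_lit 196)) (XT.lf (nat_lit 0) (nat_lit 2270855286) (nat_lit 76) (nat_lit 77546138964) (nat_lit 76) (nat_lit 7152438827) (nat_lit 16) (nat_lit 4) (nat_lit 17) (nat_lit 5) (nat_lit 17) (nat_lit 4) (nat_lit 385) (nat_lit 320) (nat_lit 195)))) (XT.nd (nat_lit 78) (nat_lit 76) (nat_lit 0) (XT.lf (nat_lit 0) (nat_lit 6443034264) (nat_lit 152) (nat_lit 57193024359) (nat_lit 76) (nat_lit 26827670632) (nat_lit 15) (nat_lit 5) (nat_lit 17) (nat_lit 5) (nat_lit 16) (nat_lit 4) (nat_lit 386) (nat_lit 320) (nat_lit 194)) (XT.nd (nat_lit 78) (nat_lit 76) (nat_lit 0) (XT.lf (nat_lit 0) (nat_lit 20474351959)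 (nat_lit 152) (nat_lit 28436008290) (nat_lit 76) (nat_lit 45216696685) (nat_lit 15) (nat_lit 5) (nat_lit 17) (nat_lit 5) (nat_lit 16) (nat_lit 4) (nat_lit 387) (nat_lit 320) (nat_lit 193)) (XT.lf (nat_lit 0) (nat_lit 1810558290) (nat_lit 76) (nat_lit 33421554466) (nat_lit 152) (nat_lit 62740195651) (nat_lit 14) (nat_lit 5) (nat_lit 15) (nat_lit 5) (nat_lit 16) (nat_lit 4) (nat_lit 388) (nat_lit 320) (nat_lit 192)))))) (XT.nd (nat_lit 468) (nat_lit 152) (nat_lit 0) (XT.nd (nat_lit 234) (nat_lit 152) (nat_lit 0) (XT.nd (nat_lit 78) (nat_lit 0) (nat_lit 0) (XT.lf (nat_lit 0) (nat_lit 34550538529) (nat_lit 76) (nat_lit 16655475412) (nat_lit 152) (nat_lit 50779897104) (nat_lit 14) (nat_lit 5) (nat_lit 15) (nat_lit 5) (nat_lit 16) (nat_lit 4) (nat_lit 389) (nat_lit 320) (nat_lit 191)) (XT.nd (nat_lit 78) (nat_lit 0) (nat_lit 0) (XT.lf (nat_lit 0) (nat_lit 67990216446) (nat_lit 152) (nat_lit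 37293464529) (nat_lit 0) (nat_lit 915933681) (nat_lit 14) (nat_lit 5) (nat_lit 16) (nat_lit 4) (nat_lit 14) (nat_lit 4) (nat_lit 390) (nat_lit 320) (nat_lit 190)) (XT.lf (nat_lit 0) (nat_lit 85883613609) (nat_lit 152) (nat_lit 5923190663) (nat_lit 0) (nat_lit 18803701047) (nat_lit 14) (nat_lit 5) (nat_lit 16) (nat_lit 4) (nat_lit 14) (nat_lit 4) (nat_lit 391) (nat_lit 320) (nat_lit 189)))) (XT.nd (nat_lit 78) (nat_lit 76) (nat_lit 0) (XT.lf (nat_lit 0) (nat_lit 27903257352) (nat_lit 76) (nat_lit 77201160803) (nat_lit 76) (nat_lit 10115886530) (nat_lit 13) (nat_lit 4) (nat_lit 14) (nat_lit 5) (nat_lit 14) (nat_lit 4) (nat_lit 392) (nat_lit 320) (nat_lit 188)) (XT.nd (nat_lit 78) (nat_lit 0) (nat_lit 0) (XT.lf (nat_lit 0) (nat_lit 5157468508) (nat_lit 152) (nat_lit 56517570220) (nat_lit 76) (nat_lit 58376524190) (nat_lit 12) (nat_lit 5) (nat_lit 14) (nat_lit 5) (nat_lit 13) (nat_lit 4) (nat_lit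 393) (nat_lit 320) (nat_lit 187)) (XT.lf (nat_lit 0) (nat_lit 20851766492) (nat_lit 152) (nat_lit 24349122583) (nat_lit 76) (nat_lit 79915342416) (nat_lit 12) (nat_lit 5) (nat_lit 14) (nat_lit 5) (nat_lit 13) (nat_lit 4) (nat_lit 394) (nat_lit 320) (nat_lit 186))))) (XT.nd (nat_lit 234) (nat_lit 76) (nat_lit 0) (XT.nd (nat_lit 78) (nat_lit 0) (nat_lit 0) (XT.lf (nat_lit 0) (nat_lit 9734385590) (nat_lit 76) (nat_lit 27745741790) (nat_lit 152) (nat_lit 92946539572) (nat_lit 11) (nat_lit 5) (nat_lit 12) (nat_lit 5) (nat_lit 13) (nat_lit 4) (nat_lit 395) (nat_lit 320) (nat_lit 185)) (XT.nd (nat_lit 78) (nat_lit 0) (nat_lit 0) (XT.lf (nat_lit 0) (nat_lit 46362572153) (nat_lit 76) (nat_lit 8987115059) (nat_lit 152) (nat_lit 80632448749) (nat_lit 11) (nat_lit 5) (nat_lit 12) (nat_lit 5) (nat_lit 13) (nat_lit 4) (nat_lit 396) (nat_lit 320) (nat_lit 184)) (XT.lf (nat_lit 0) (nat_lit 74277435584)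 (nat_lit 152) (nat_lit 57165117908) (nat_lit 0) (nat_lit 10364590181) (nat_lit 11) (nat_lit 5) (nat_lit 13) (nat_lit 4) (nat_lit 11) (nat_lit 4) (nat_lit 397) (nat_lit 320) (nat_lit 183)))) (XT.nd (nat_lit 78) (nat_lit 76) (nat_lit 0) (XT.lf (nat_lit 0) (nat_lit 94296526016) (nat_lit 152) (nat_lit 23239758622) (nat_lit 0) (nat_lit 30379870144) (nat_lit 11) (nat_lit 5) (nat_lit 13) (nat_lit 4) (nat_lit 11) (nat_lit 4) (nat_lit 398) (nat_lit 320) (nat_lit 182)) (XT.nd (nat_lit 78) (nat_lit 0) (nat_lit 0) (XT.lf (nat_lit 0) (nat_lit 12786862213) (nat_lit 76) (nat_lit 102727085496) (nat_lit 76) (nat_lit 38806800607) (nat_lit 10) (nat_lit 4) (nat_lit 11) (nat_lit 5) (nat_lit 11) (nat_lit 4) (nat_lit 399) (nat_lit 320) (nat_lit 181)) (XT.lf (nat_lit 0) (nat_lit 51417448976) (nat_lit 76) (nat_lit 86766148242) (nat_lit 76) (nat_lit 22842407147) (nat_lit 10) (nat_lit 4) (nat_lit 11) (nat_lit 5)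 (nat_lit 11) (nat_lit 4) (nat_lit 400) (nat_lit 320) (nat_lit 180))))))))
noncomputable def xc156 : XT := (XT.nd (nat_lit 1794) (nat_lit 76) (nat_lit 0) (XT.nd (nat_lit 858) (nat_lit 152) (nat_lit 0) (XT.nd (nat_lit 390) (nat_lit 76) (nat_lit 0) (XT.nd (nat_lit 156) (nat_lit 76) (nat_lit 0) (XT.nd (nat_lit 78) (nat_lit 76) (nat_lit 0) (XT.lf (nat_lit 0) (nat_lit 91975567880) (nat_lit 76) (nat_lit 70009047203) (nat_lit 76) (nat_lit 6082014482) (nat_lit 10) (nat_lit 4) (nat_lit 11) (nat_lit 5) (nat_lit 11) (nat_lit 4) (nat_lit 401) (nat_lit 320) (nat_lit 179)) (XT.lf (nat_lit 0) (nat_lit 11145754116) (nat_lit 152) (nat_lit 41081371662) (nat_lit 76) (nat_lit 123223273019) (nat_lit 9) (nat_lit 5) (nat_lit 11) (nat_lit 5) (nat_lit 10) (nat_lit 4) (nat_lit 402) (nat_lit 320) (nat_lit 178))) (XT.nd (nat_lit 78) (nat_lit 76) (nat_lit 0) (XT.lf (nat_lit 0) (nat_lit 29028566008) (nat_lit 152) (nat_lit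 4424592884) (nat_lit 76) (nat_lit 149745310373) (nat_lit 9) (nat_lit 5) (nat_lit 11) (nat_lit 5) (nat_lit 10) (nat_lit 4) (nat_lit 403) (nat_lit 320) (nat_lit 177)) (XT.nd (nat_lit 78) (nat_lit 0) (nat_lit 0) (XT.lf (nat_lit 0) (nat_lit 35187737328) (nat_lit 76) (nat_lit 13165303628) (nat_lit 152) (nat_lit 142953526707) (nat_lit 8) (nat_lit 5) (nat_lit 9) (nat_lit 5) (nat_lit 10) (nat_lit 4) (nat_lit 404) (nat_lit 320) (nat_lit 176)) (XT.lf (nat_lit 0) (nat_lit 68845093334) (nat_lit 152) (nat_lit 123013821570) (nat_lit 0) (nat_lit 7951088895) (nat_lit 8) (nat_lit 5) (nat_lit 10) (nat_lit 4) (nat_lit 8) (nat_lit 4) (nat_lit 405) (nat_lit 320) (nat_lit 175))))) (XT.nd (nat_lit 234) (nat_lit 76) (nat_lit 0) (XT.nd (nat_lit 78) (nat_lit 0) (nat_lit 0) (XT.lf (nat_lit 0) (nat_lit 90575813125) (nat_lit 152) (nat_lit 88472743431) (nat_lit 0) (nat_lit 29679352425) (nat_lit 8) (nat_lit 5) (nat_lit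 10) (nat_lit 4) (nat_lit 8) (nat_lit 4) (nat_lit 406) (nat_lit 320) (nat_lit 174)) (XT.nd (nat_lit 78) (nat_lit 0) (nat_lit 0) (XT.lf (nat_lit 0) (nat_lit 113391392853) (nat_lit 152) (nat_lit 52207807972) (nat_lit 0) (nat_lit 52492592856) (nat_lit 8) (nat_lit 5) (nat_lit 10) (nat_lit 4) (nat_lit 8) (nat_lit 4) (nat_lit 407) (nat_lit 320) (nat_lit 173)) (XT.lf (nat_lit 0) (nat_lit 137346155327) (nat_lit 152) (nat_lit 14132670108) (nat_lit 0) (nat_lit 76445127428) (nat_lit 8) (nat_lit 5) (nat_lit 10) (nat_lit 4) (nat_lit 8) (nat_lit 4) (nat_lit 408) (nat_lit 320) (nat_lit 172)))) (XT.nd (nat_lit 78) (nat_lit 0) (nat_lit 0) (XT.lf (nat_lit 0) (nat_lit 26697822296) (nat_lit 76) (nat_lit 136216141226) (nat_lit 76) (nat_lit 75312991516) (nat_lit 7) (nat_lit 4) (nat_lit 8) (nat_lit 5) (nat_lit 8) (nat_lit 4) (nat_lit 409) (nat_lit 320) (nat_lit 171)) (XT.nd (nat_lit 78) (nat_lit 0) (nat_lit 0)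 (XT.lf (nat_lit 0) (nat_lit 70057641080) (nat_lit 76) (nat_lit 119940372278) (nat_lit 76) (nat_lit 59035201796) (nat_lit 7) (nat_lit 4) (nat_lit 8) (nat_lit 5) (nat_lit 8) (nat_lit 4) (nat_lit 410) (nat_lit 320) (nat_lit 170)) (XT.lf (nat_lit 0) (nat_lit 115582734010) (nat_lit 76) (nat_lit 102852110366) (nat_lit 76) (nat_lit 41945015340) (nat_lit 7) (nat_lit 4) (nat_lit 8) (nat_lit 5) (nat_lit 8) (nat_lit 4) (nat_lit 411) (nat_lit 320) (nat_lit 169)))))) (XT.nd (nat_lit 468) (nat_lit 0) (nat_lit 0) (XT.nd (nat_lit 234) (nat_lit 76) (nat_lit 0) (XT.nd (nat_lit 78) (nat_lit 76) (nat_lit 0) (XT.lf (nat_lit 0) (nat_lit 163381494164) (nat_lit 76) (nat_lit 84910669154) (nat_lit 76) (nat_lit 24001741227) (nat_lit 7) (nat_lit 4) (nat_lit 8) (nat_lit 5) (nat_lit 8) (nat_lit 4) (nat_lit 412) (nat_lit 320) (nat_lit 168)) (XT.nd (nat_lit 78) (nat_lit 76) (nat_lit 0) (XT.lf (nat_lit 0) (nat_lit 213567728113)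 (nat_lit 76) (nat_lit 66073330924) (nat_lit 76) (nat_lit 5162657378) (nat_lit 7) (nat_lit 4) (nat_lit 8) (nat_lit 5) (nat_lit 8) (nat_lit 4) (nat_lit 413) (nat_lit 320) (nat_lit 167)) (XT.lf (nat_lit 0) (nat_lit 14149252966) (nat_lit 152) (nat_lit 31906367460) (nat_lit 76) (nat_lit 251872049479) (nat_lit 6) (nat_lit 5) (nat_lit 8) (nat_lit 5) (nat_lit 7) (nat_lit 4) (nat_lit 414) (nat_lit 320) (nat_lit 166)))) (XT.nd (nat_lit 78) (nat_lit 0) (nat_lit 0) (XT.lf (nat_lit 0) (nat_lit 9610419424) (nat_lit 76) (nat_lit 24791697059) (nat_lit 152) (nat_lit 277294030352) (nat_lit 5) (nat_lit 5) (nat_lit 6) (nat_lit 5) (nat_lit 7) (nat_lit 4) (nat_lit 415) (nat_lit 320) (nat_lit 165)) (XT.nd (nat_lit 78) (nat_lit 0) (nat_lit 0) (XT.lf (nat_lit 0) (nat_lit 54308524660) (nat_lit 76) (nat_lit 1898281174) (nat_lit 152) (nat_lit 269919282927) (nat_lit 5) (nat_lit 5) (nat_lit 6) (nat_lit 5) (nat_lit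 7) (nat_lit 4) (nat_lit 416) (nat_lit 320) (nat_lit 164)) (XT.lf (nat_lit 0) (nat_lit 79446266599) (nat_lit 152) (nat_lit 240383828408) (nat_lit 0) (nat_lit 21430206194) (nat_lit 5) (nat_lit 5) (nat_lit 7) (nat_lit 4) (nat_lit 5) (nat_lit 4) (nat_lit 417) (nat_lit 320) (nat_lit 163))))) (XT.nd (nat_lit 234) (nat_lit 0) (nat_lit 0) (XT.nd (nat_lit 78) (nat_lit 0) (nat_lit 0) (XT.lf (nat_lit 0) (nat_lit 103877745992) (nat_lit 152) (nat_lit 207411593267) (nat_lit 0) (nat_lit 45860382979) (nat_lit 5) (nat_lit 5) (nat_lit 7) (nat_lit 4) (nat_lit 5) (nat_lit 4) (nat_lit 418) (nat_lit 320) (nat_lit 162)) (XT.nd (nat_lit 78) (nat_lit 0) (nat_lit 0) (XT.lf (nat_lit 0) (nat_lit 129529776713) (nat_lit 152) (nat_lit 172792715868) (nat_lit 0) (nat_lit 71511173121) (nat_lit 5) (nat_lit 5) (nat_lit 7) (nat_lit 4) (nat_lit 5) (nat_lit 4) (nat_lit 419) (nat_lit 320) (nat_lit 161)) (XT.lf (nat_lit 0) (nat_lit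 156463435025) (nat_lit 152) (nat_lit 136444770311) (nat_lit 0) (nat_lit 98443649930) (nat_lit 5) (nat_lit 5) (nat_lit 7) (nat_lit 4) (nat_lit 5) (nat_lit 4) (nat_lit 420) (nat_lit 320) (nat_lit 160)))) (XT.nd (nat_lit 78) (nat_lit 0) (nat_lit 0) (XT.lf (nat_lit 0) (nat_lit 184742848687) (nat_lit 152) (nat_lit 98281213870) (nat_lit 0) (nat_lit 126721938349) (nat_lit 5) (nat_lit 5) (nat_lit 7) (nat_lit 4) (nat_lit 5) (nat_lit 4) (nat_lit 421) (nat_lit 320) (nat_lit 159)) (XT.nd (nat_lit 78) (nat_lit 0) (nat_lit 0) (XT.lf (nat_lit 0) (nat_lit 214435349635) (nat_lit 152) (nat_lit 58211180933) (nat_lit 0) (nat_lit 156413367639) (nat_lit 5) (nat_lit 5) (nat_lit 7) (nat_lit 4) (nat_lit 5) (nat_lit 4) (nat_lit 422) (nat_lit 320) (nat_lit 158)) (XT.lf (nat_lit 0) (nat_lit 245611634300) (nat_lit 152) (nat_lit 16139266661) (nat_lit 0) (nat_lit 187588631677) (nat_lit 5) (nat_lit 5) (nat_lit 7) (nat_lit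 4) (nat_lit 5) (nat_lit 4) (nat_lit 423) (nat_lit 320) (nat_lit 157))))))) (XT.nd (nat_lit 39156) (nat_lit 0) (nat_lit 5776) (XT.nd (nat_lit 390) (nat_lit 0) (nat_lit 0) (XT.nd (nat_lit 156) (nat_lit 0) (nat_lit 0) (XT.nd (nat_lit 78) (nat_lit 0) (nat_lit 0) (XT.lf (nat_lit 0) (nat_lit 28961653966) (nat_lit 76) (nat_lit 249836450549) (nat_lit 76) (nat_lit 191812475899) (nat_lit 4) (nat_lit 4) (nat_lit 5) (nat_lit 5) (nat_lit 5) (nat_lit 4) (nat_lit 424) (nat_lit 320) (nat_lit 156)) (XT.lf (nat_lit 0) (nat_lit 76876421256) (nat_lit 76) (nat_lit 237040016460) (nat_lit 76) (nat_lit 179015116071) (nat_lit 4) (nat_lit 4) (nat_lit 5) (nat_lit 5) (nat_lit 5) (nat_lit 4) (nat_lit 425) (nat_lit 320) (nat_lit 155))) (XT.nd (nat_lit 78) (nat_lit 0) (nat_lit 0) (XT.lf (nat_lit 0) (nat_lit 127185480945) (nat_lit 76) (nat_lit 223604457283) (nat_lit 76) (nat_lit 165578675238) (nat_lit 4) (nat_lit 4)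 (nat_lit 5) (nat_lit 5) (nat_lit 5) (nat_lit 4) (nat_lit 426) (nat_lit 320) (nat_lit 154)) (XT.nd (nat_lit 78) (nat_lit 0) (nat_lit 0) (XT.lf (nat_lit 0) (nat_lit 180008616508) (nat_lit 76) (nat_lit 209497783594) (nat_lit 76) (nat_lit 151471161876) (nat_lit 4) (nat_lit 4) (nat_lit 5) (nat_lit 5) (nat_lit 5) (nat_lit 4) (nat_lit 427) (nat_lit 320) (nat_lit 153)) (XT.lf (nat_lit 0) (nat_lit 235471597316) (nat_lit 76) (nat_lit 194686408072) (nat_lit 76) (nat_lit 136658986667) (nat_lit 4) (nat_lit 4) (nat_lit 5) (nat_lit 5) (nat_lit 5) (nat_lit 4) (nat_lit 428) (nat_lit 320) (nat_lit 152))))) (XT.nd (nat_lit 38532) (nat_lit 0) (nat_lit 7296) (XT.nd (nat_lit 78) (nat_lit 0) (nat_lit 0) (XT.lf (nat_lit 0) (nat_lit 293706478085) (nat_lit 76) (nat_lit 179135065540) (nat_lit 76) (nat_lit 121106882526) (nat_lit 4) (nat_lit 4) (nat_lit 5) (nat_lit 5) (nat_lit 5) (nat_lit 4) (nat_lit 429) (nat_lit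 320) (nat_lit 151)) (XT.nd (nat_lit 38376) (nat_lit 0) (nat_lit 7296) (XT.lf (nat_lit 0) (nat_lit 354851913292) (nat_lit 76) (nat_lit 162806728989) (nat_lit 76) (nat_lit 104777820635) (nat_lit 4) (nat_lit 4) (nat_lit 5) (nat_lit 5) (nat_lit 5) (nat_lit 4) (nat_lit 430) (nat_lit 320) (nat_lit 150)) (XT.lf (nat_lit 0) (nat_lit 1150615236) (nat_lit 0) (nat_lit 1150615236) (nat_lit 684) (nat_lit 3553531484) (nat_lit 100) (nat_lit 5) (nat_lit 100) (nat_lit 3) (nat_lit 109) (nat_lit 3) (nat_lit 321) (nat_lit 321) (nat_lit 258)))) (XT.nd (nat_lit 78) (nat_lit 0) (nat_lit 0) (XT.lf (nat_lit 0) (nat_lit 5238993327) (nat_lit 684) (nat_lit 4006639104) (nat_lit 760) (nat_lit 2729821677) (nat_lit 100) (nat_lit 5) (nat_lit 109) (nat_lit 3) (nat_lit 110) (nat_lit 5) (nat_lit 322) (nat_lit 321) (nat_lit 257)) (XT.nd (nat_lit 78) (nat_lit 0) (nat_lit 76) (XT.lf (nat_lit 76) (nat_lit 1663521116) (nat_lit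 0) (nat_lit 4277204891) (nat_lit 760) (nat_lit 6312333130) (nat_lit 101) (nat_lit 5) (nat_lit 100) (nat_lit 5) (nat_lit 110) (nat_lit 5) (nat_lit 323) (nat_lit 321) (nat_lit 256)) (XT.lf (nat_lit 0) (nat_lit 6732232688) (nat_lit 684) (nat_lit 4819157100) (nat_lit 760) (nat_lit 990465030) (nat_lit 101) (nat_lit 5) (nat_lit 110) (nat_lit 5) (nat_lit 111) (nat_lit 5) (nat_lit 324) (nat_lit 321) (nat_lit 255)))))) (XT.nd (nat_lit 468) (nat_lit 1596) (nat_lit 0) (XT.nd (nat_lit 234) (nat_lit 0) (nat_lit 76) (XT.nd (nat_lit 78) (nat_lit 0) (nat_lit 0) (XT.lf (nat_lit 76) (nat_lit 1190083066) (nat_lit 0) (nat_lit 6434358998) (nat_lit 760) (nat_lit 5217634490) (nat_lit 102) (nat_lit 5) (nat_lit 101) (nat_lit 5) (nat_lit 111) (nat_lit 5) (nat_lit 325) (nat_lit 321) (nat_lit 254)) (XT.nd (nat_lit 78) (nat_lit 0) (nat_lit 76) (XT.lf (nat_lit 76) (nat_lit 7649748098) (nat_lit 0) (nat_lit 966599361)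 (nat_lit 760) (nat_lit 4538248247) (nat_lit 102) (nat_lit 5) (nat_lit 101) (nat_lit 5) (nat_lit 111) (nat_lit 5) (nat_lit 326) (nat_lit 321) (nat_lit 253)) (XT.lf (nat_lit 76) (nat_lit 885492966) (nat_lit 0) (nat_lit 8835594879) (nat_lit 760) (nat_lit 3758529657) (nat_lit 103) (nat_lit 5) (nat_lit 102) (nat_lit 5) (nat_lit 112) (nat_lit 5) (nat_lit 327) (nat_lit 321) (nat_lit 252)))) (XT.nd (nat_lit 78) (nat_lit 0) (nat_lit 76) (XT.lf (nat_lit 76) (nat_lit 7752426470) (nat_lit 0) (nat_lit 3213247724) (nat_lit 760) (nat_lit 2851022581) (nat_lit 103) (nat_lit 5) (nat_lit 102) (nat_lit 5) (nat_lit 112) (nat_lit 5) (nat_lit 328) (nat_lit 321) (nat_lit 251)) (XT.nd (nat_lit 78) (nat_lit 0) (nat_lit 0) (XT.lf (nat_lit 76) (nat_lit 756162942) (nat_lit 0) (nat_lit 11547175952) (nat_lit 760) (nat_lit 1865783744) (nat_lit 104) (nat_lit 5) (nat_lit 103) (nat_lit 5) (nat_lit 113) (nat_lit 5) (nat_lit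 329) (nat_lit 321) (nat_lit 250)) (XT.lf (nat_lit 76) (nat_lit 8055916069) (nat_lit 0) (nat_lit 5784355095) (nat_lit 760) (nat_lit 692312820) (nat_lit 104) (nat_lit 5) (nat_lit 103) (nat_lit 5) (nat_lit 113) (nat_lit 5) (nat_lit 330) (nat_lit 321) (nat_lit 249))))) (XT.nd (nat_lit 234) (nat_lit 380) (nat_lit 0) (XT.nd (nat_lit 78) (nat_lit 684) (nat_lit 0) (XT.lf (nat_lit 0) (nat_lit 518239001) (nat_lit 760) (nat_lit 14112739591) (nat_lit 76) (nat_lit 283064427) (nat_lit 94) (nat_lit 5) (nat_lit 104) (nat_lit 5) (nat_lit 95) (nat_lit 5) (nat_lit 331) (nat_lit 321) (nat_lit 248)) (XT.nd (nat_lit 78) (nat_lit 684) (nat_lit 0) (XT.lf (nat_lit 0) (nat_lit 1951697051) (nat_lit 760) (nat_lit 6767578446) (nat_lit 76) (nat_lit 6585478654) (nat_lit 94) (nat_lit 5) (nat_lit 104) (nat_lit 5) (nat_lit 95) (nat_lit 5) (nat_lit 332) (nat_lit 321) (nat_lit 247)) (XT.lf (nat_lit 0) (nat_lit 957837209)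 (nat_lit 684) (nat_lit 2494265094) (nat_lit 760) (nat_lit 12263162306) (nat_lit 85) (nat_lit 5) (nat_lit 94) (nat_lit 5) (nat_lit 95) (nat_lit 5) (nat_lit 333) (nat_lit 321) (nat_lit 246)))) (XT.nd (nat_lit 78) (nat_lit 380) (nat_lit 0) (XT.lf (nat_lit 0) (nat_lit 5188137043) (nat_lit 760) (nat_lit 6919455017) (nat_lit 76) (nat_lit 4030704244) (nat_lit 85) (nat_lit 5) (nat_lit 95) (nat_lit 5) (nat_lit 86) (nat_lit 5) (nat_lit 334) (nat_lit 321) (nat_lit 245)) (XT.nd (nat_lit 78) (nat_lit 0) (nat_lit 0) (XT.lf (nat_lit 0) (nat_lit 1293421132) (nat_lit 380) (nat_lit 5760551373) (nat_lit 456) (nat_lit 9526382061) (nat_lit 80) (nat_lit 5) (nat_lit 85) (nat_lit 5) (nat_lit 86) (nat_lit 5) (nat_lit 335) (nat_lit 321) (nat_lit 244)) (XT.lf (nat_lit 0) (nat_lit 9128828625) (nat_lit 456) (nat_lit 6915643239) (nat_lit 76) (nat_lit 994281174) (nat_lit 80) (nat_lit 5) (nat_lit 86) (nat_lit 5) (nat_lit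 81) (nat_lit 5) (nat_lit 336) (nat_lit 321) (nat_lit 243))))))))
noncomputable def xc157 : XT := (XT.nd (nat_lit 1794) (nat_lit 1520) (nat_lit 0) (XT.nd (nat_lit 858) (nat_lit 1292) (nat_lit 0) (XT.nd (nat_lit 390) (nat_lit 912) (nat_lit 0) (XT.nd (nat_lit 156) (nat_lit 684) (nat_lit 0) (XT.nd (nat_lit 78) (nat_lit 0) (nat_lit 0) (XT.lf (nat_lit 0) (nat_lit 1820792836) (nat_lit 304) (nat_lit 9592842437) (nat_lit 380) (nat_lit 6101148386) (nat_lit 76) (nat_lit 5) (nat_lit 80) (nat_lit 5) (nat_lit 81) (nat_lit 5) (nat_lit 337) (nat_lit 321) (nat_lit 242)) (XT.lf (nat_lit 0) (nat_lit 11217164519) (nat_lit 304) (nat_lit 2696510249) (nat_lit 380) (nat_lit 4095912952) (nat_lit 76) (nat_lit 5) (nat_lit 80) (nat_lit 5) (nat_lit 81) (nat_lit 5) (nat_lit 338) (nat_lit 321) (nat_lit 241))) (XT.nd (nat_lit 78) (nat_lit 380) (nat_lit 0) (XT.lf (nat_lit 0) (nat_lit 2547867087) (nat_lit 304) (nat_lit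 14086211050) (nat_lit 380) (nat_lit 1890306262) (nat_lit 72) (nat_lit 5) (nat_lit 76) (nat_lit 5) (nat_lit 77) (nat_lit 5) (nat_lit 339) (nat_lit 321) (nat_lit 240)) (XT.nd (nat_lit 78) (nat_lit 304) (nat_lit 0) (XT.lf (nat_lit 0) (nat_lit 557919847) (nat_lit 380) (nat_lit 6538110597) (nat_lit 76) (nat_lit 11961278829) (nat_lit 71) (nat_lit 5) (nat_lit 76) (nat_lit 5) (nat_lit 72) (nat_lit 5) (nat_lit 340) (nat_lit 321) (nat_lit 239)) (XT.lf (nat_lit 0) (nat_lit 3109376888) (nat_lit 380) (nat_lit 16183764727) (nat_lit 76) (nat_lit 319989745) (nat_lit 67) (nat_lit 5) (nat_lit 72) (nat_lit 5) (nat_lit 68) (nat_lit 5) (nat_lit 341) (nat_lit 321) (nat_lit 238))))) (XT.nd (nat_lit 234) (nat_lit 608) (nat_lit 0) (XT.nd (nat_lit 78) (nat_lit 304) (nat_lit 0) (XT.lf (nat_lit 0) (nat_lit 6003238180) (nat_lit 380) (nat_lit 6203942345) (nat_lit 76) (nat_lit 7978839331) (nat_lit 67) (nat_lit 5) (nat_lit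 72) (nat_lit 5) (nat_lit 68) (nat_lit 5) (nat_lit 342) (nat_lit 321) (nat_lit 237)) (XT.nd (nat_lit 78) (nat_lit 0) (nat_lit 0) (XT.lf (nat_lit 0) (nat_lit 4399691908) (nat_lit 304) (nat_lit 4697422419) (nat_lit 380) (nat_lit 11687688430) (nat_lit 63) (nat_lit 5) (nat_lit 67) (nat_lit 5) (nat_lit 68) (nat_lit 5) (nat_lit 343) (nat_lit 321) (nat_lit 236)) (XT.lf (nat_lit 0) (nat_lit 12489222416) (nat_lit 380) (nat_lit 5727229992) (nat_lit 76) (nat_lit 3189910791) (nat_lit 63) (nat_lit 5) (nat_lit 68) (nat_lit 5) (nat_lit 64) (nat_lit 5) (nat_lit 344) (nat_lit 321) (nat_lit 235)))) (XT.nd (nat_lit 78) (nat_lit 380) (nat_lit 0) (XT.lf (nat_lit 0) (nat_lit 5548545120) (nat_lit 228) (nat_lit 10653624247) (nat_lit 304) (nat_lit 5849285200) (nat_lit 60) (nat_lit 5) (nat_lit 63) (nat_lit 5) (nat_lit 64) (nat_lit 5) (nat_lit 345) (nat_lit 321) (nat_lit 234)) (XT.nd (nat_lit 78) (nat_lit 380) (nat_lit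 0) (XT.lf (nat_lit 0) (nat_lit 17571615831) (nat_lit 228) (nat_lit 2614090665) (nat_lit 304) (nat_lit 2538860748) (nat_lit 60) (nat_lit 5) (nat_lit 63) (nat_lit 5) (nat_lit 64) (nat_lit 5) (nat_lit 346) (nat_lit 321) (nat_lit 233)) (XT.lf (nat_lit 0) (nat_lit 1096992816) (nat_lit 380) (nat_lit 16561159248) (nat_lit 76) (nat_lit 5762969533) (nat_lit 55) (nat_lit 5) (nat_lit 60) (nat_lit 5) (nat_lit 56) (nat_lit 5) (nat_lit 347) (nat_lit 321) (nat_lit 232)))))) (XT.nd (nat_lit 468) (nat_lit 608) (nat_lit 0) (XT.nd (nat_lit 234) (nat_lit 456) (nat_lit 0) (XT.nd (nat_lit 78) (nat_lit 228) (nat_lit 0) (XT.lf (nat_lit 0) (nat_lit 4949463830) (nat_lit 380) (nat_lit 4596907779) (nat_lit 76) (nat_lit 14598055659) (nat_lit 55) (nat_lit 5) (nat_lit 60) (nat_lit 5) (nat_lit 56) (nat_lit 5) (nat_lit 348) (nat_lit 321) (nat_lit 231)) (XT.nd (nat_lit 78) (nat_lit 0) (nat_lit 0) (XT.lf (nat_lit 0) (nat_lit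 8213897120) (nat_lit 228) (nat_lit 898041181) (nat_lit 304) (nat_lit 15786102347) (nat_lit 52) (nat_lit 5) (nat_lit 55) (nat_lit 5) (nat_lit 56) (nat_lit 5) (nat_lit 349) (nat_lit 321) (nat_lit 230)) (XT.lf (nat_lit 0) (nat_lit 13678791600) (nat_lit 304) (nat_lit 4004437948) (nat_lit 76) (nat_lit 7996303271) (nat_lit 52) (nat_lit 5) (nat_lit 56) (nat_lit 5) (nat_lit 53) (nat_lit 5) (nat_lit 350) (nat_lit 321) (nat_lit 229)))) (XT.nd (nat_lit 78) (nat_lit 228) (nat_lit 0) (XT.lf (nat_lit 0) (nat_lit 9587287716) (nat_lit 228) (nat_lit 9040985342) (nat_lit 304) (nat_lit 7864122623) (nat_lit 49) (nat_lit 5) (nat_lit 52) (nat_lit 5) (nat_lit 53) (nat_lit 5) (nat_lit 351) (nat_lit 321) (nat_lit 228)) (XT.nd (nat_lit 78) (nat_lit 228) (nat_lit 0) (XT.lf (nat_lit 0) (nat_lit 23884760289) (nat_lit 304) (nat_lit 3360827808) (nat_lit 76) (nat_lit 97346871) (nat_lit 49) (nat_lit 5) (nat_lit 53) (nat_lit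 5) (nat_lit 50) (nat_lit 5) (nat_lit 352) (nat_lit 321) (nat_lit 227)) (XT.lf (nat_lit 0) (nat_lit 1447108471) (nat_lit 228) (nat_lit 17191207185) (nat_lit 76) (nat_lit 9580961499) (nat_lit 46) (nat_lit 5) (nat_lit 49) (nat_lit 5) (nat_lit 47) (nat_lit 5) (nat_lit 353) (nat_lit 321) (nat_lit 226))))) (XT.nd (nat_lit 234) (nat_lit 380) (nat_lit 0) (XT.nd (nat_lit 78) (nat_lit 228) (nat_lit 0) (XT.lf (nat_lit 0) (nat_lit 6529923778) (nat_lit 228) (nat_lit 2954847961) (nat_lit 76) (nat_lit 19649414400) (nat_lit 46) (nat_lit 5) (nat_lit 49) (nat_lit 5) (nat_lit 47) (nat_lit 5) (nat_lit 354) (nat_lit 321) (nat_lit 225)) (XT.nd (nat_lit 78) (nat_lit 0) (nat_lit 0) (XT.lf (nat_lit 0) (nat_lit 12056267869) (nat_lit 304) (nat_lit 17714331898) (nat_lit 76) (nat_lit 314779520) (nat_lit 43) (nat_lit 5) (nat_lit 47) (nat_lit 5) (nat_lit 44) (nat_lit 5) (nat_lit 355) (nat_lit 321) (nat_lit 224)) (XT.lf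 (nat_lit 0) (nat_lit 18056519206) (nat_lit 304) (nat_lit 2685354148) (nat_lit 76) (nat_lit 10332386964) (nat_lit 43) (nat_lit 5) (nat_lit 47) (nat_lit 5) (nat_lit 44) (nat_lit 5) (nat_lit 356) (nat_lit 321) (nat_lit 223)))) (XT.nd (nat_lit 78) (nat_lit 228) (nat_lit 0) (XT.lf (nat_lit 0) (nat_lit 13515029370) (nat_lit 152) (nat_lit 11044418218) (nat_lit 228) (nat_lit 7543011953) (nat_lit 41) (nat_lit 5) (nat_lit 43) (nat_lit 5) (nat_lit 44) (nat_lit 5) (nat_lit 357) (nat_lit 321) (nat_lit 222)) (XT.nd (nat_lit 78) (nat_lit 228) (nat_lit 0) (XT.lf (nat_lit 0) (nat_lit 30606256399) (nat_lit 152) (nat_lit 818604363) (nat_lit 228) (nat_lit 1755348054) (nat_lit 41) (nat_lit 5) (nat_lit 43) (nat_lit 5) (nat_lit 44) (nat_lit 5) (nat_lit 358) (nat_lit 321) (nat_lit 221)) (XT.lf (nat_lit 0) (nat_lit 4563530233) (nat_lit 228) (nat_lit 19828234273) (nat_lit 76) (nat_lit 9897706089) (nat_lit 38) (nat_lit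 5) (nat_lit 41) (nat_lit 5) (nat_lit 39) (nat_lit 5) (nat_lit 359) (nat_lit 321) (nat_lit 220))))))) (XT.nd (nat_lit 858) (nat_lit 684) (nat_lit 0) (XT.nd (nat_lit 390) (nat_lit 456) (nat_lit 0) (XT.nd (nat_lit 156) (nat_lit 228) (nat_lit 0) (XT.nd (nat_lit 78) (nat_lit 152) (nat_lit 0) (XT.lf (nat_lit 0) (nat_lit 11189325836) (nat_lit 228) (nat_lit 3069592135) (nat_lit 76) (nat_lit 21191346509) (nat_lit 38) (nat_lit 5) (nat_lit 41) (nat_lit 5) (nat_lit 39) (nat_lit 5) (nat_lit 360) (nat_lit 321) (nat_lit 219)) (XT.lf (nat_lit 0) (nat_lit 14995294716) (nat_lit 152) (nat_lit 3377843766) (nat_lit 228) (nat_lit 18284628982) (nat_lit 36) (nat_lit 5) (nat_lit 38) (nat_lit 5) (nat_lit 39) (nat_lit 5) (nat_lit 361) (nat_lit 321) (nat_lit 218))) (XT.nd (nat_lit 78) (nat_lit 228) (nat_lit 0) (XT.lf (nat_lit 0) (nat_lit 26087335700) (nat_lit 228) (nat_lit 3991287313) (nat_lit 76) (nat_lit 7838468381)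 (nat_lit 36) (nat_lit 5) (nat_lit 39) (nat_lit 5) (nat_lit 37) (nat_lit 5) (nat_lit 362) (nat_lit 321) (nat_lit 217)) (XT.nd (nat_lit 78) (nat_lit 76) (nat_lit 0) (XT.lf (nat_lit 0) (nat_lit 14976231740) (nat_lit 152) (nat_lit 19493269367) (nat_lit 228) (nat_lit 4755772728) (nat_lit 34) (nat_lit 5) (nat_lit 36) (nat_lit 5) (nat_lit 37) (nat_lit 5) (nat_lit 363) (nat_lit 321) (nat_lit 216)) (XT.lf (nat_lit 0) (nat_lit 2648199571) (nat_lit 228) (nat_lit 5618850976) (nat_lit 76) (nat_lit 32326643399) (nat_lit 33) (nat_lit 5) (nat_lit 36) (nat_lit 5) (nat_lit 34) (nat_lit 5) (nat_lit 364) (nat_lit 321) (nat_lit 215))))) (XT.nd (nat_lit 234) (nat_lit 152) (nat_lit 0) (XT.nd (nat_lit 78) (nat_lit 152) (nat_lit 0) (XT.lf (nat_lit 0) (nat_lit 10539274993) (nat_lit 228) (nat_lit 27763371486) (nat_lit 76) (nat_lit 3710158446) (nat_lit 31) (nat_lit 5) (nat_lit 34) (nat_lit 5) (nat_lit 32) (nat_lit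 5) (nat_lit 365) (nat_lit 321) (nat_lit 214)) (XT.nd (nat_lit 78) (nat_lit 152) (nat_lit 0) (XT.lf (nat_lit 0) (nat_lit 19050665439) (nat_lit 228) (nat_lit 8339782821) (nat_lit 76) (nat_lit 16101139434) (nat_lit 31) (nat_lit 5) (nat_lit 34) (nat_lit 5) (nat_lit 32) (nat_lit 5) (nat_lit 366) (nat_lit 321) (nat_lit 213)) (XT.lf (nat_lit 0) (nat_lit 12442961784) (nat_lit 152) (nat_lit 15732759706) (nat_lit 228) (nat_lit 16859187407) (nat_lit 29) (nat_lit 5) (nat_lit 31) (nat_lit 5) (nat_lit 32) (nat_lit 5) (nat_lit 367) (nat_lit 321) (nat_lit 212)))) (XT.nd (nat_lit 78) (nat_lit 152) (nat_lit 0) (XT.lf (nat_lit 0) (nat_lit 34544271813) (nat_lit 152) (nat_lit 3347959491) (nat_lit 228) (nat_lit 8756408713) (nat_lit 29) (nat_lit 5) (nat_lit 31) (nat_lit 5) (nat_lit 32) (nat_lit 5) (nat_lit 368) (nat_lit 321) (nat_lit 211)) (XT.nd (nat_lit 78) (nat_lit 0) (nat_lit 0) (XT.lf (nat_lit 0) (nat_lit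 58372593) (nat_lit 152) (nat_lit 38776579890) (nat_lit 76) (nat_lit 9493357210) (nat_lit 27) (nat_lit 5) (nat_lit 29) (nat_lit 5) (nat_lit 28) (nat_lit 5) (nat_lit 369) (nat_lit 321) (nat_lit 210)) (XT.lf (nat_lit 0) (nat_lit 9277076911) (nat_lit 152) (nat_lit 17582531919) (nat_lit 76) (nat_lit 23212307178) (nat_lit 27) (nat_lit 5) (nat_lit 29) (nat_lit 5) (nat_lit 28) (nat_lit 5) (nat_lit 370) (nat_lit 321) (nat_lit 209)))))) (XT.nd (nat_lit 468) (nat_lit 228) (nat_lit 0) (XT.nd (nat_lit 234) (nat_lit 304) (nat_lit 0) (XT.nd (nat_lit 78) (nat_lit 0) (nat_lit 0) (XT.lf (nat_lit 0) (nat_lit 4815934660) (nat_lit 152) (nat_lit 14210465580) (nat_lit 228) (nat_lit 32872821421) (nat_lit 25) (nat_lit 5) (nat_lit 27) (nat_lit 5) (nat_lit 28) (nat_lit 5) (nat_lit 371) (nat_lit 321) (nat_lit 208)) (XT.nd (nat_lit 78) (nat_lit 0) (nat_lit 0) (XT.lf (nat_lit 0) (nat_lit 28935478597) (nat_lit 152)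 (nat_lit 620090837) (nat_lit 228) (nat_lit 24247707237) (nat_lit 25) (nat_lit 5) (nat_lit 27) (nat_lit 5) (nat_lit 28) (nat_lit 5) (nat_lit 372) (nat_lit 321) (nat_lit 207)) (XT.lf (nat_lit 0) (nat_lit 40819118657) (nat_lit 228) (nat_lit 1763678435) (nat_lit 76) (nat_lit 13209344173) (nat_lit 25) (nat_lit 5) (nat_lit 28) (nat_lit 5) (nat_lit 26) (nat_lit 4) (nat_lit 373) (nat_lit 321) (nat_lit 206)))) (XT.nd (nat_lit 78) (nat_lit 228) (nat_lit 0) (XT.lf (nat_lit 0) (nat_lit 23220066952) (nat_lit 76) (nat_lit 29793531174) (nat_lit 152) (nat_lit 4848466099) (nat_lit 24) (nat_lit 5) (nat_lit 25) (nat_lit 5) (nat_lit 26) (nat_lit 4) (nat_lit 374) (nat_lit 321) (nat_lit 205)) (XT.nd (nat_lit 78) (nat_lit 152) (nat_lit 0) (XT.lf (nat_lit 0) (nat_lit 5622684731) (nat_lit 152) (nat_lit 10619155667) (nat_lit 76) (nat_lit 43787859702) (nat_lit 23) (nat_lit 5) (nat_lit 25) (nat_lit 5) (nat_lit 24)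 (nat_lit 5) (nat_lit 375) (nat_lit 321) (nat_lit 204)) (XT.lf (nat_lit 0) (nat_lit 14997129170) (nat_lit 152) (nat_lit 1686783648) (nat_lit 228) (nat_lit 45606360197) (nat_lit 21) (nat_lit 5) (nat_lit 23) (nat_lit 5) (nat_lit 24) (nat_lit 5) (nat_lit 376) (nat_lit 321) (nat_lit 203))))) (XT.nd (nat_lit 234) (nat_lit 152) (nat_lit 0) (XT.nd (nat_lit 78) (nat_lit 76) (nat_lit 0) (XT.lf (nat_lit 0) (nat_lit 28688618285) (nat_lit 228) (nat_lit 22615463748) (nat_lit 76) (nat_lit 13340274026) (nat_lit 21) (nat_lit 5) (nat_lit 24) (nat_lit 5) (nat_lit 22) (nat_lit 4) (nat_lit 377) (nat_lit 321) (nat_lit 202)) (XT.nd (nat_lit 78) (nat_lit 0) (nat_lit 0) (XT.lf (nat_lit 0) (nat_lit 3368388800) (nat_lit 76) (nat_lit 38000988749) (nat_lit 152) (nat_lit 25742976955) (nat_lit 20) (nat_lit 5) (nat_lit 21) (nat_lit 5) (nat_lit 22) (nat_lit 4) (nat_lit 378) (nat_lit 321) (nat_lit 201)) (XT.lf (nat_lit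 0) (nat_lit 31428849889) (nat_lit 76) (nat_lit 23633994831) (nat_lit 152) (nat_lit 14621976725) (nat_lit 20) (nat_lit 5) (nat_lit 21) (nat_lit 5) (nat_lit 22) (nat_lit 4) (nat_lit 379) (nat_lit 321) (nat_lit 200)))) (XT.nd (nat_lit 78) (nat_lit 152) (nat_lit 0) (XT.lf (nat_lit 0) (nat_lit 60884960772) (nat_lit 76) (nat_lit 8551896974) (nat_lit 152) (nat_lit 2949262332) (nat_lit 20) (nat_lit 5) (nat_lit 21) (nat_lit 5) (nat_lit 22) (nat_lit 4) (nat_lit 380) (nat_lit 321) (nat_lit 199)) (XT.nd (nat_lit 78) (nat_lit 0) (nat_lit 0) (XT.lf (nat_lit 0) (nat_lit 9390757484) (nat_lit 152) (nat_lit 58340097550) (nat_lit 76) (nat_lit 7465287180) (nat_lit 18) (nat_lit 5) (nat_lit 20) (nat_lit 5) (nat_lit 19) (nat_lit 4) (nat_lit 381) (nat_lit 321) (nat_lit 198)) (XT.lf (nat_lit 0) (nat_lit 22582863977) (nat_lit 152) (nat_lit 31305449585) (nat_lit 76) (nat_lit 24239226158) (nat_lit 18) (nat_lit 5)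 (nat_lit 20) (nat_lit 5) (nat_lit 19) (nat_lit 4) (nat_lit 382) (nat_lit 321) (nat_lit 197))))))))
noncomputable def xc158 : XT := (XT.nd (nat_lit 1794) (nat_lit 304) (nat_lit 0) (XT.nd (nat_lit 858) (nat_lit 380) (nat_lit 0) (XT.nd (nat_lit 390) (nat_lit 152) (nat_lit 0) (XT.nd (nat_lit 156) (nat_lit 152) (nat_lit 0) (XT.nd (nat_lit 78) (nat_lit 76) (nat_lit 0) (XT.lf (nat_lit 0) (nat_lit 36430799062) (nat_lit 152) (nat_lit 2925916323) (nat_lit 76) (nat_lit 41848982176) (nat_lit 18) (nat_lit 5) (nat_lit 20) (nat_lit 5) (nat_lit 19) (nat_lit 4) (nat_lit 383) (nat_lit 321) (nat_lit 196)) (XT.lf (nat_lit 0) (nat_lit 27754386242) (nat_lit 76) (nat_lit 23646471521) (nat_lit 152) (nat_lit 33015420731) (nat_lit 17) (nat_lit 5) (nat_lit 18) (nat_lit 5) (nat_lit 19) (nat_lit 4) (nat_lit 384) (nat_lit 321) (nat_lit 195))) (XT.nd (nat_lit 78) (nat_lit 152) (nat_lit 0) (XT.lf (nat_lit 0) (nat_lit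 60063869274) (nat_lit 76) (nat_lit 7101576158) (nat_lit 152) (nat_lit 20619643213) (nat_lit 17) (nat_lit 5) (nat_lit 18) (nat_lit 5) (nat_lit 19) (nat_lit 4) (nat_lit 385) (nat_lit 321) (nat_lit 194)) (XT.nd (nat_lit 78) (nat_lit 76) (nat_lit 0) (XT.lf (nat_lit 0) (nat_lit 2582556116) (nat_lit 76) (nat_lit 81332978737) (nat_lit 76) (nat_lit 7396942234) (nat_lit 16) (nat_lit 4) (nat_lit 17) (nat_lit 5) (nat_lit 17) (nat_lit 4) (nat_lit 386) (nat_lit 321) (nat_lit 193)) (XT.lf (nat_lit 0) (nat_lit 6869469820) (nat_lit 152) (nat_lit 59860466423) (nat_lit 76) (nat_lit 28251726191) (nat_lit 15) (nat_lit 5) (nat_lit 17) (nat_lit 5) (nat_lit 16) (nat_lit 4) (nat_lit 387) (nat_lit 321) (nat_lit 192))))) (XT.nd (nat_lit 234) (nat_lit 76) (nat_lit 0) (XT.nd (nat_lit 78) (nat_lit 76) (nat_lit 0) (XT.lf (nat_lit 0) (nat_lit 21597387503) (nat_lit 152) (nat_lit 29674752366) (nat_lit 76) (nat_lit 47556266783)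 (nat_lit 15) (nat_lit 5) (nat_lit 17) (nat_lit 5) (nat_lit 16) (nat_lit 4) (nat_lit 388) (nat_lit 321) (nat_lit 191)) (XT.nd (nat_lit 78) (nat_lit 0) (nat_lit 0) (XT.lf (nat_lit 0) (nat_lit 2081190020) (nat_lit 76) (nat_lit 35009928818) (nat_lit 152) (nat_lit 65774899508) (nat_lit 14) (nat_lit 5) (nat_lit 15) (nat_lit 5) (nat_lit 16) (nat_lit 4) (nat_lit 389) (nat_lit 321) (nat_lit 190)) (XT.lf (nat_lit 0) (nat_lit 36449592900) (nat_lit 76) (nat_lit 17409484068) (nat_lit 152) (nat_lit 53221457744) (nat_lit 14) (nat_lit 5) (nat_lit 15) (nat_lit 5) (nat_lit 16) (nat_lit 4) (nat_lit 390) (nat_lit 321) (nat_lit 189)))) (XT.nd (nat_lit 78) (nat_lit 76) (nat_lit 0) (XT.lf (nat_lit 0) (nat_lit 71479243528) (nat_lit 152) (nat_lit 38991500055) (nat_lit 0) (nat_lit 1034343832) (nat_lit 14) (nat_lit 5) (nat_lit 16) (nat_lit 4) (nat_lit 14) (nat_lit 4) (nat_lit 391) (nat_lit 321) (nat_lit 188)) (XT.nd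 (nat_lit 78) (nat_lit 76) (nat_lit 0) (XT.lf (nat_lit 0) (nat_lit 90263047870) (nat_lit 152) (nat_lit 6060647624) (nat_lit 0) (nat_lit 19813041782) (nat_lit 14) (nat_lit 5) (nat_lit 16) (nat_lit 4) (nat_lit 14) (nat_lit 4) (nat_lit 392) (nat_lit 321) (nat_lit 187)) (XT.lf (nat_lit 0) (nat_lit 29454563073) (nat_lit 76) (nat_lit 80988707703) (nat_lit 76) (nat_lit 10533838386) (nat_lit 13) (nat_lit 4) (nat_lit 14) (nat_lit 5) (nat_lit 14) (nat_lit 4) (nat_lit 393) (nat_lit 321) (nat_lit 186)))))) (XT.nd (nat_lit 468) (nat_lit 228) (nat_lit 0) (XT.nd (nat_lit 234) (nat_lit 0) (nat_lit 0) (XT.nd (nat_lit 78) (nat_lit 76) (nat_lit 0) (XT.lf (nat_lit 0) (nat_lit 5496323804) (nat_lit 152) (nat_lit 59192037166) (nat_lit 76) (nat_lit 61361704542) (nat_lit 12) (nat_lit 5) (nat_lit 14) (nat_lit 5) (nat_lit 13) (nat_lit 4) (nat_lit 394) (nat_lit 321) (nat_lit 185)) (XT.nd (nat_lit 78) (nat_lit 76)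 (nat_lit 0) (XT.lf (nat_lit 0) (nat_lit 21971480407) (nat_lit 152) (nat_lit 25422377221) (nat_lit 76) (nat_lit 83974303958) (nat_lit 12) (nat_lit 5) (nat_lit 14) (nat_lit 5) (nat_lit 13) (nat_lit 4) (nat_lit 395) (nat_lit 321) (nat_lit 184)) (XT.lf (nat_lit 0) (nat_lit 10362980530) (nat_lit 76) (nat_lit 29066821239) (nat_lit 152) (nat_lit 97514391130) (nat_lit 11) (nat_lit 5) (nat_lit 12) (nat_lit 5) (nat_lit 13) (nat_lit 4) (nat_lit 396) (nat_lit 321) (nat_lit 183)))) (XT.nd (nat_lit 78) (nat_lit 0) (nat_lit 0) (XT.lf (nat_lit 0) (nat_lit 48815820437) (nat_lit 76) (nat_lit 9373415917) (nat_lit 152) (nat_lit 84588380310) (nat_lit 11) (nat_lit 5) (nat_lit 12) (nat_lit 5) (nat_lit 13) (nat_lit 4) (nat_lit 397) (nat_lit 321) (nat_lit 182)) (XT.nd (nat_lit 78) (nat_lit 0) (nat_lit 0) (XT.lf (nat_lit 0) (nat_lit 78060878073) (nat_lit 152) (nat_lit 59892172557) (nat_lit 0) (nat_lit 10940949923)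 (nat_lit 11) (nat_lit 5) (nat_lit 13) (nat_lit 4) (nat_lit 11) (nat_lit 4) (nat_lit 398) (nat_lit 321) (nat_lit 181)) (XT.lf (nat_lit 0) (nat_lit 99077610135) (nat_lit 152) (nat_lit 24276792985) (nat_lit 0) (nat_lit 31954225779) (nat_lit 11) (nat_lit 5) (nat_lit 13) (nat_lit 4) (nat_lit 11) (nat_lit 4) (nat_lit 399) (nat_lit 321) (nat_lit 180))))) (XT.nd (nat_lit 234) (nat_lit 152) (nat_lit 0) (XT.nd (nat_lit 78) (nat_lit 0) (nat_lit 0) (XT.lf (nat_lit 0) (nat_lit 13549143512) (nat_lit 76) (nat_lit 107805523676) (nat_lit 76) (nat_lit 40678847695) (nat_lit 10) (nat_lit 4) (nat_lit 11) (nat_lit 5) (nat_lit 11) (nat_lit 4) (nat_lit 400) (nat_lit 321) (nat_lit 179)) (XT.nd (nat_lit 78) (nat_lit 0) (nat_lit 0) (XT.lf (nat_lit 0) (nat_lit 54105405413) (nat_lit 76) (nat_lit 91049297469) (nat_lit 76) (nat_lit 23919486606) (nat_lit 10) (nat_lit 4) (nat_lit 11) (nat_lit 5) (nat_lit 11) (nat_lit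 4) (nat_lit 401) (nat_lit 321) (nat_lit 178)) (XT.lf (nat_lit 0) (nat_lit 96685854834) (nat_lit 76) (nat_lit 73456967958) (nat_lit 76) (nat_lit 6324171494) (nat_lit 10) (nat_lit 4) (nat_lit 11) (nat_lit 5) (nat_lit 11) (nat_lit 4) (nat_lit 402) (nat_lit 321) (nat_lit 177)))) (XT.nd (nat_lit 78) (nat_lit 76) (nat_lit 0) (XT.lf (nat_lit 0) (nat_lit 11760147657) (nat_lit 152) (nat_lit 43027337195) (nat_lit 76) (nat_lit 129432562349) (nat_lit 9) (nat_lit 5) (nat_lit 11) (nat_lit 5) (nat_lit 10) (nat_lit 4) (nat_lit 403) (nat_lit 321) (nat_lit 176)) (XT.nd (nat_lit 78) (nat_lit 76) (nat_lit 0) (XT.lf (nat_lit 0) (nat_lit 30534380818) (nat_lit 152) (nat_lit 4542867243) (nat_lit 76) (nat_lit 157278409872) (nat_lit 9) (nat_lit 5) (nat_lit 11) (nat_lit 5) (nat_lit 10) (nat_lit 4) (nat_lit 404) (nat_lit 321) (nat_lit 175)) (XT.lf (nat_lit 0) (nat_lit 37048418910) (nat_lit 76) (nat_lit 13775652263)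 (nat_lit 152) (nat_lit 150045141231) (nat_lit 8) (nat_lit 5) (nat_lit 9) (nat_lit 5) (nat_lit 10) (nat_lit 4) (nat_lit 405) (nat_lit 321) (nat_lit 174))))))) (XT.nd (nat_lit 858) (nat_lit 76) (nat_lit 0) (XT.nd (nat_lit 390) (nat_lit 152) (nat_lit 0) (XT.nd (nat_lit 156) (nat_lit 76) (nat_lit 0) (XT.nd (nat_lit 78) (nat_lit 0) (nat_lit 0) (XT.lf (nat_lit 0) (nat_lit 72338896840) (nat_lit 152) (nat_lit 129066198128) (nat_lit 0) (nat_lit 8392817547) (nat_lit 8) (nat_lit 5) (nat_lit 10) (nat_lit 4) (nat_lit 8) (nat_lit 4) (nat_lit 406) (nat_lit 321) (nat_lit 173)) (XT.lf (nat_lit 0) (nat_lit 95153697914) (nat_lit 152) (nat_lit 92802747726) (nat_lit 0) (nat_lit 31205390719) (nat_lit 8) (nat_lit 5) (nat_lit 10) (nat_lit 4) (nat_lit 8) (nat_lit 4) (nat_lit 407) (nat_lit 321) (nat_lit 172))) (XT.nd (nat_lit 78) (nat_lit 76) (nat_lit 0) (XT.lf (nat_lit 0) (nat_lit 119107718813) (nat_lit 152) (nat_lit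 54729024202) (nat_lit 0) (nat_lit 55157289807) (nat_lit 8) (nat_lit 5) (nat_lit 10) (nat_lit 4) (nat_lit 8) (nat_lit 4) (nat_lit 408) (nat_lit 321) (nat_lit 171)) (XT.nd (nat_lit 78) (nat_lit 76) (nat_lit 0) (XT.lf (nat_lit 0) (nat_lit 144257992919) (nat_lit 152) (nat_lit 14754375833) (nat_lit 0) (nat_lit 80305543141) (nat_lit 8) (nat_lit 5) (nat_lit 10) (nat_lit 4) (nat_lit 8) (nat_lit 4) (nat_lit 409) (nat_lit 321) (nat_lit 170)) (XT.lf (nat_lit 0) (nat_lit 28116271387) (nat_lit 76) (nat_lit 142987104242) (nat_lit 76) (nat_lit 79032729919) (nat_lit 7) (nat_lit 4) (nat_lit 8) (nat_lit 5) (nat_lit 8) (nat_lit 4) (nat_lit 410) (nat_lit 321) (nat_lit 169))))) (XT.nd (nat_lit 234) (nat_lit 152) (nat_lit 0) (XT.nd (nat_lit 78) (nat_lit 0) (nat_lit 0) (XT.lf (nat_lit 0) (nat_lit 73640102160) (nat_lit 76) (nat_lit 125899444182) (nat_lit 76) (nat_lit 61943236959) (nat_lit 7) (nat_lit 4) (nat_lit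 8) (nat_lit 5) (nat_lit 8) (nat_lit 4) (nat_lit 411) (nat_lit 321) (nat_lit 168)) (XT.nd (nat_lit 78) (nat_lit 0) (nat_lit 0) (XT.lf (nat_lit 0) (nat_lit 121437660258) (nat_lit 76) (nat_lit 107958576162) (nat_lit 76) (nat_lit 44000623319) (nat_lit 7) (nat_lit 4) (nat_lit 8) (nat_lit 5) (nat_lit 8) (nat_lit 4) (nat_lit 412) (nat_lit 321) (nat_lit 167)) (XT.lf (nat_lit 0) (nat_lit 171622749394) (nat_lit 76) (nat_lit 89121783829) (nat_lit 76) (nat_lit 25162168491) (nat_lit 7) (nat_lit 4) (nat_lit 8) (nat_lit 5) (nat_lit 8) (nat_lit 4) (nat_lit 413) (nat_lit 321) (nat_lit 166)))) (XT.nd (nat_lit 78) (nat_lit 152) (nat_lit 0) (XT.lf (nat_lit 0) (nat_lit 224314857873) (nat_lit 76) (nat_lit 69344217677) (nat_lit 76) (nat_lit 5383019012) (nat_lit 7) (nat_lit 4) (nat_lit 8) (nat_lit 5) (nat_lit 8) (nat_lit 4) (nat_lit 414) (nat_lit 321) (nat_lit 165)) (XT.nd (nat_lit 78) (nat_lit 76) (nat_lit 0)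 (XT.lf (nat_lit 0) (nat_lit 14891536871) (nat_lit 152) (nat_lit 33435056009) (nat_lit 76) (nat_lit 264495710842) (nat_lit 6) (nat_lit 5) (nat_lit 8) (nat_lit 5) (nat_lit 7) (nat_lit 4) (nat_lit 415) (nat_lit 321) (nat_lit 164)) (XT.lf (nat_lit 0) (nat_lit 10156495544) (nat_lit 76) (nat_lit 25999913365) (nat_lit 152) (nat_lit 291122827733) (nat_lit 5) (nat_lit 5) (nat_lit 6) (nat_lit 5) (nat_lit 7) (nat_lit 4) (nat_lit 416) (nat_lit 321) (nat_lit 163)))))) (XT.nd (nat_lit 468) (nat_lit 76) (nat_lit 0) (XT.nd (nat_lit 234) (nat_lit 0) (nat_lit 0) (XT.nd (nat_lit 78) (nat_lit 0) (nat_lit 0) (XT.lf (nat_lit 0) (nat_lit 57086384368) (nat_lit 76) (nat_lit 1963320425) (nat_lit 152) (nat_lit 283381052658) (nat_lit 5) (nat_lit 5) (nat_lit 6) (nat_lit 5) (nat_lit 7) (nat_lit 4) (nat_lit 417) (nat_lit 321) (nat_lit 162)) (XT.nd (nat_lit 78) (nat_lit 0) (nat_lit 0) (XT.lf (nat_lit 0) (nat_lit 83450032403)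 (nat_lit 152) (nat_lit 252342445740) (nat_lit 0) (nat_lit 22529258053) (nat_lit 5) (nat_lit 5) (nat_lit 7) (nat_lit 4) (nat_lit 5) (nat_lit 4) (nat_lit 418) (nat_lit 321) (nat_lit 161)) (XT.lf (nat_lit 0) (nat_lit 109101588029) (nat_lit 152) (nat_lit 217724483322) (nat_lit 0) (nat_lit 48179632175) (nat_lit 5) (nat_lit 5) (nat_lit 7) (nat_lit 4) (nat_lit 5) (nat_lit 4) (nat_lit 419) (nat_lit 321) (nat_lit 160)))) (XT.nd (nat_lit 78) (nat_lit 0) (nat_lit 0) (XT.lf (nat_lit 0) (nat_lit 136034793870) (nat_lit 152) (nat_lit 181377409177) (nat_lit 0) (nat_lit 75111712774) (nat_lit 5) (nat_lit 5) (nat_lit 7) (nat_lit 4) (nat_lit 5) (nat_lit 4) (nat_lit 420) (nat_lit 321) (nat_lit 159)) (XT.nd (nat_lit 78) (nat_lit 0) (nat_lit 0) (XT.lf (nat_lit 0) (nat_lit 164313776606) (nat_lit 152) (nat_lit 143214682651) (nat_lit 0) (nat_lit 103389623852) (nat_lit 5) (nat_lit 5) (nat_lit 7) (nat_lit 4) (nat_lit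 5) (nat_lit 4) (nat_lit 421) (nat_lit 321) (nat_lit 158)) (XT.lf (nat_lit 0) (nat_lit 194005867149) (nat_lit 152) (nat_lit 103145440111) (nat_lit 0) (nat_lit 133080693767) (nat_lit 5) (nat_lit 5) (nat_lit 7) (nat_lit 4) (nat_lit 5) (nat_lit 4) (nat_lit 422) (nat_lit 321) (nat_lit 157))))) (XT.nd (nat_lit 234) (nat_lit 0) (nat_lit 0) (XT.nd (nat_lit 78) (nat_lit 76) (nat_lit 0) (XT.lf (nat_lit 0) (nat_lit 225181760953) (nat_lit 152) (nat_lit 61074278596) (nat_lit 0) (nat_lit 164255615545) (nat_lit 5) (nat_lit 5) (nat_lit 7) (nat_lit 4) (nat_lit 5) (nat_lit 4) (nat_lit 423) (nat_lit 321) (nat_lit 156)) (XT.nd (nat_lit 78) (nat_lit 76) (nat_lit 0) (XT.lf (nat_lit 0) (nat_lit 257915686336) (nat_lit 152) (nat_lit 16901028677) (nat_lit 0) (nat_lit 196988615188) (nat_lit 5) (nat_lit 5) (nat_lit 7) (nat_lit 4) (nat_lit 5) (nat_lit 4) (nat_lit 424) (nat_lit 321) (nat_lit 155)) (XT.lf (nat_lit 0)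 (nat_lit 30454208928) (nat_lit 76) (nat_lit 262306847836) (nat_lit 76) (nat_lit 201378895032) (nat_lit 4) (nat_lit 4) (nat_lit 5) (nat_lit 5) (nat_lit 5) (nat_lit 4) (nat_lit 425) (nat_lit 321) (nat_lit 154)))) (XT.nd (nat_lit 78) (nat_lit 0) (nat_lit 0) (XT.lf (nat_lit 0) (nat_lit 80762596856) (nat_lit 76) (nat_lit 248871612291) (nat_lit 76) (nat_lit 187942819815) (nat_lit 4) (nat_lit 4) (nat_lit 5) (nat_lit 5) (nat_lit 5) (nat_lit 4) (nat_lit 426) (nat_lit 321) (nat_lit 153)) (XT.nd (nat_lit 78) (nat_lit 0) (nat_lit 0) (XT.lf (nat_lit 0) (nat_lit 133585092647) (nat_lit 76) (nat_lit 234765246822) (nat_lit 76) (nat_lit 173835654658) (nat_lit 4) (nat_lit 4) (nat_lit 5) (nat_lit 5) (nat_lit 5) (nat_lit 4) (nat_lit 427) (nat_lit 321) (nat_lit 152)) (XT.lf (nat_lit 0) (nat_lit 189047464148) (nat_lit 76) (nat_lit 219954164845) (nat_lit 76) (nat_lit 159023811072) (nat_lit 4) (nat_lit 4) (nat_lit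 5) (nat_lit 5) (nat_lit 5) (nat_lit 4) (nat_lit 428) (nat_lit 321) (nat_lit 151))))))))
noncomputable def xc159 : XT := (XT.nd (nat_lit 40170) (nat_lit 0) (nat_lit 2204) (XT.nd (nat_lit 39234) (nat_lit 0) (nat_lit 4788) (XT.nd (nat_lit 38766) (nat_lit 0) (nat_lit 7372) (XT.nd (nat_lit 38532) (nat_lit 0) (nat_lit 7296) (XT.nd (nat_lit 78) (nat_lit 0) (nat_lit 0) (XT.lf (nat_lit 0) (nat_lit 247281764624) (nat_lit 76) (nat_lit 204403101877) (nat_lit 76) (nat_lit 143472022764) (nat_lit 4) (nat_lit 4) (nat_lit 5) (nat_lit 5) (nat_lit 5) (nat_lit 4) (nat_lit 429) (nat_lit 321) (nat_lit 150)) (XT.lf (nat_lit 0) (nat_lit 308426647172) (nat_lit 76) (nat_lit 188075031580) (nat_lit 76) (nat_lit 127143261666) (nat_lit 4) (nat_lit 4) (nat_lit 5) (nat_lit 5) (nat_lit 5) (nat_lit 4) (nat_lit 430) (nat_lit 321) (nat_lit 149))) (XT.nd (nat_lit 78) (nat_lit 0) (nat_lit 0) (XT.lf (nat_lit 0) (nat_lit 1443139636)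 (nat_lit 0) (nat_lit 1443139636) (nat_lit 684) (nat_lit 3236998523) (nat_lit 100) (nat_lit 5) (nat_lit 100) (nat_lit 3) (nat_lit 109) (nat_lit 3) (nat_lit 322) (nat_lit 322) (nat_lit 256)) (XT.nd (nat_lit 78) (nat_lit 0) (nat_lit 0) (XT.lf (nat_lit 0) (nat_lit 6389168455) (nat_lit 684) (nat_lit 3706238095) (nat_lit 760) (nat_lit 2433032048) (nat_lit 100) (nat_lit 5) (nat_lit 109) (nat_lit 3) (nat_lit 110) (nat_lit 5) (nat_lit 323) (nat_lit 322) (nat_lit 255)) (XT.lf (nat_lit 76) (nat_lit 2239353798) (nat_lit 0) (nat_lit 4852029271) (nat_lit 760) (nat_lit 5730336613) (nat_lit 101) (nat_lit 5) (nat_lit 100) (nat_lit 5) (nat_lit 110) (nat_lit 5) (nat_lit 324) (nat_lit 322) (nat_lit 254))))) (XT.nd (nat_lit 234) (nat_lit 0) (nat_lit 76) (XT.nd (nat_lit 78) (nat_lit 0) (nat_lit 0) (XT.lf (nat_lit 0) (nat_lit 7876449180) (nat_lit 684) (nat_lit 4543653336) (nat_lit 760) (nat_lit 707215873) (nat_lit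 101) (nat_lit 5) (nat_lit 110) (nat_lit 5) (nat_lit 111) (nat_lit 5) (nat_lit 325) (nat_lit 322) (nat_lit 253)) (XT.nd (nat_lit 78) (nat_lit 0) (nat_lit 0) (XT.lf (nat_lit 76) (nat_lit 1757718812) (nat_lit 0) (nat_lit 7025026196) (nat_lit 760) (nat_lit 4661391876) (nat_lit 102) (nat_lit 5) (nat_lit 101) (nat_lit 5) (nat_lit 111) (nat_lit 5) (nat_lit 326) (nat_lit 322) (nat_lit 252)) (XT.lf (nat_lit 76) (nat_lit 8516170354) (nat_lit 0) (nat_lit 1271071470) (nat_lit 760) (nat_lit 3986947004) (nat_lit 102) (nat_lit 5) (nat_lit 101) (nat_lit 5) (nat_lit 111) (nat_lit 5) (nat_lit 327) (nat_lit 322) (nat_lit 251)))) (XT.nd (nat_lit 78) (nat_lit 0) (nat_lit 0) (XT.lf (nat_lit 76) (nat_lit 1447353216) (nat_lit 0) (nat_lit 9468896550) (nat_lit 760) (nat_lit 3200814365) (nat_lit 103) (nat_lit 5) (nat_lit 102) (nat_lit 5) (nat_lit 112) (nat_lit 5) (nat_lit 328) (nat_lit 322) (nat_lit 250)) (XT.nd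 (nat_lit 78) (nat_lit 0) (nat_lit 76) (XT.lf (nat_lit 76) (nat_lit 8632986461) (nat_lit 0) (nat_lit 3556311946) (nat_lit 760) (nat_lit 2283438686) (nat_lit 103) (nat_lit 5) (nat_lit 102) (nat_lit 5) (nat_lit 112) (nat_lit 5) (nat_lit 329) (nat_lit 322) (nat_lit 249)) (XT.lf (nat_lit 76) (nat_lit 1315994323) (nat_lit 0) (nat_lit 12251130998) (nat_lit 760) (nat_lit 1277043907) (nat_lit 104) (nat_lit 5) (nat_lit 103) (nat_lit 5) (nat_lit 113) (nat_lit 5) (nat_lit 330) (nat_lit 322) (nat_lit 248)))))) (XT.nd (nat_lit 468) (nat_lit 988) (nat_lit 0) (XT.nd (nat_lit 234) (nat_lit 1064) (nat_lit 0) (XT.nd (nat_lit 78) (nat_lit 684) (nat_lit 0) (XT.lf (nat_lit 76) (nat_lit 8955876858) (nat_lit 0) (nat_lit 6194140706) (nat_lit 760) (nat_lit 77377009) (nat_lit 104) (nat_lit 5) (nat_lit 103) (nat_lit 5) (nat_lit 113) (nat_lit 5) (nat_lit 331) (nat_lit 322) (nat_lit 247)) (XT.nd (nat_lit 78) (nat_lit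 0) (nat_lit 0) (XT.lf (nat_lit 0) (nat_lit 1149437817) (nat_lit 760) (nat_lit 14275214087) (nat_lit 76) (nat_lit 203983600) (nat_lit 94) (nat_lit 5) (nat_lit 104) (nat_lit 5) (nat_lit 95) (nat_lit 5) (nat_lit 332) (nat_lit 322) (nat_lit 246)) (XT.lf (nat_lit 0) (nat_lit 2625745586) (nat_lit 760) (nat_lit 6588659764) (nat_lit 76) (nat_lit 6825958255) (nat_lit 94) (nat_lit 5) (nat_lit 104) (nat_lit 5) (nat_lit 95) (nat_lit 5) (nat_lit 333) (nat_lit 322) (nat_lit 245)))) (XT.nd (nat_lit 78) (nat_lit 380) (nat_lit 0) (XT.lf (nat_lit 0) (nat_lit 1514683164) (nat_lit 684) (nat_lit 2666983485) (nat_lit 760) (nat_lit 12290746497) (nat_lit 85) (nat_lit 5) (nat_lit 94) (nat_lit 5) (nat_lit 95) (nat_lit 5) (nat_lit 334) (nat_lit 322) (nat_lit 244)) (XT.nd (nat_lit 78) (nat_lit 380) (nat_lit 0) (XT.lf (nat_lit 0) (nat_lit 5977267453) (nat_lit 760) (nat_lit 6752743688) (nat_lit 76) (nat_lit 4187983579)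 (nat_lit 85) (nat_lit 5) (nat_lit 95) (nat_lit 5) (nat_lit 86) (nat_lit 5) (nat_lit 335) (nat_lit 322) (nat_lit 243)) (XT.lf (nat_lit 0) (nat_lit 1862507170) (nat_lit 380) (nat_lit 6056537917) (nat_lit 456) (nat_lit 9464013059) (nat_lit 80) (nat_lit 5) (nat_lit 85) (nat_lit 5) (nat_lit 86) (nat_lit 5) (nat_lit 336) (nat_lit 322) (nat_lit 242))))) (XT.nd (nat_lit 234) (nat_lit 684) (nat_lit 0) (XT.nd (nat_lit 78) (nat_lit 304) (nat_lit 0) (XT.lf (nat_lit 0) (nat_lit 10073126909) (nat_lit 456) (nat_lit 6755850743) (nat_lit 76) (nat_lit 1036657862) (nat_lit 80) (nat_lit 5) (nat_lit 86) (nat_lit 5) (nat_lit 81) (nat_lit 5) (nat_lit 337) (nat_lit 322) (nat_lit 241)) (XT.nd (nat_lit 78) (nat_lit 0) (nat_lit 0) (XT.lf (nat_lit 0) (nat_lit 2409252706) (nat_lit 304) (nat_lit 10047456028) (nat_lit 380) (nat_lit 5909563729) (nat_lit 76) (nat_lit 5) (nat_lit 80) (nat_lit 5) (nat_lit 81) (nat_lit 5)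 (nat_lit 338) (nat_lit 322) (nat_lit 240)) (XT.lf (nat_lit 0) (nat_lit 12251756296) (nat_lit 304) (nat_lit 2807499066) (nat_lit 380) (nat_lit 3827716146) (nat_lit 76) (nat_lit 5) (nat_lit 80) (nat_lit 5) (nat_lit 81) (nat_lit 5) (nat_lit 339) (nat_lit 322) (nat_lit 239)))) (XT.nd (nat_lit 78) (nat_lit 380) (nat_lit 0) (XT.lf (nat_lit 0) (nat_lit 3163710062) (nat_lit 304) (nat_lit 14738525681) (nat_lit 380) (nat_lit 1525973044) (nat_lit 72) (nat_lit 5) (nat_lit 76) (nat_lit 5) (nat_lit 77) (nat_lit 5) (nat_lit 340) (nat_lit 322) (nat_lit 238)) (XT.nd (nat_lit 78) (nat_lit 304) (nat_lit 0) (XT.lf (nat_lit 0) (nat_lit 1008827756) (nat_lit 380) (nat_lit 6385320373) (nat_lit 76) (nat_lit 12594357056) (nat_lit 71) (nat_lit 5) (nat_lit 76) (nat_lit 5) (nat_lit 72) (nat_lit 5) (nat_lit 341) (nat_lit 322) (nat_lit 237)) (XT.lf (nat_lit 0) (nat_lit 3676046471) (nat_lit 380) (nat_lit 16500951788)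 (nat_lit 76) (nat_lit 395735390) (nat_lit 67) (nat_lit 5) (nat_lit 72) (nat_lit 5) (nat_lit 68) (nat_lit 5) (nat_lit 342) (nat_lit 322) (nat_lit 236))))))) (XT.nd (nat_lit 858) (nat_lit 1216) (nat_lit 0) (XT.nd (nat_lit 390) (nat_lit 836) (nat_lit 0) (XT.nd (nat_lit 156) (nat_lit 228) (nat_lit 0) (XT.nd (nat_lit 78) (nat_lit 304) (nat_lit 0) (XT.lf (nat_lit 0) (nat_lit 6695019840) (nat_lit 380) (nat_lit 6045566913) (nat_lit 76) (nat_lit 8434682400) (nat_lit 67) (nat_lit 5) (nat_lit 72) (nat_lit 5) (nat_lit 68) (nat_lit 5) (nat_lit 343) (nat_lit 322) (nat_lit 235)) (XT.lf (nat_lit 0) (nat_lit 5080691430) (nat_lit 304) (nat_lit 4851447540) (nat_lit 380) (nat_lit 11872447185) (nat_lit 63) (nat_lit 5) (nat_lit 67) (nat_lit 5) (nat_lit 68) (nat_lit 5) (nat_lit 344) (nat_lit 322) (nat_lit 234))) (XT.nd (nat_lit 78) (nat_lit 228) (nat_lit 0) (XT.lf (nat_lit 0) (nat_lit 13476951308) (nat_lit 380)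 (nat_lit 5557201555) (nat_lit 76) (nat_lit 3423938162) (nat_lit 63) (nat_lit 5) (nat_lit 68) (nat_lit 5) (nat_lit 64) (nat_lit 5) (nat_lit 345) (nat_lit 322) (nat_lit 233)) (XT.nd (nat_lit 78) (nat_lit 0) (nat_lit 0) (XT.lf (nat_lit 0) (nat_lit 6275001185) (nat_lit 228) (nat_lit 11090256555) (nat_lit 304) (nat_lit 5770713946) (nat_lit 60) (nat_lit 5) (nat_lit 63) (nat_lit 5) (nat_lit 64) (nat_lit 5) (nat_lit 346) (nat_lit 322) (nat_lit 232)) (XT.lf (nat_lit 0) (nat_lit 18877843107) (nat_lit 228) (nat_lit 2653320050) (nat_lit 304) (nat_lit 2312436630) (nat_lit 60) (nat_lit 5) (nat_lit 63) (nat_lit 5) (nat_lit 64) (nat_lit 5) (nat_lit 347) (nat_lit 322) (nat_lit 231))))) (XT.nd (nat_lit 234) (nat_lit 228) (nat_lit 0) (XT.nd (nat_lit 78) (nat_lit 228) (nat_lit 0) (XT.lf (nat_lit 0) (nat_lit 1485916628) (nat_lit 380) (nat_lit 16941557681) (nat_lit 76) (nat_lit 6147648410) (nat_lit 55) (nat_lit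 5) (nat_lit 60) (nat_lit 5) (nat_lit 56) (nat_lit 5) (nat_lit 348) (nat_lit 322) (nat_lit 230)) (XT.nd (nat_lit 78) (nat_lit 228) (nat_lit 0) (XT.lf (nat_lit 0) (nat_lit 5515102899) (nat_lit 380) (nat_lit 4400410759) (nat_lit 76) (nat_lit 15419892156) (nat_lit 55) (nat_lit 5) (nat_lit 60) (nat_lit 5) (nat_lit 56) (nat_lit 5) (nat_lit 349) (nat_lit 322) (nat_lit 229)) (XT.lf (nat_lit 0) (nat_lit 9044057895) (nat_lit 228) (nat_lit 833041482) (nat_lit 304) (nat_lit 16250046502) (nat_lit 52) (nat_lit 5) (nat_lit 55) (nat_lit 5) (nat_lit 56) (nat_lit 5) (nat_lit 350) (nat_lit 322) (nat_lit 228)))) (XT.nd (nat_lit 78) (nat_lit 228) (nat_lit 0) (XT.lf (nat_lit 0) (nat_lit 14659188356) (nat_lit 304) (nat_lit 3791758087) (nat_lit 76) (nat_lit 8497436735) (nat_lit 52) (nat_lit 5) (nat_lit 56) (nat_lit 5) (nat_lit 53) (nat_lit 5) (nat_lit 351) (nat_lit 322) (nat_lit 227)) (XT.nd (nat_lit 78) (nat_lit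 0) (nat_lit 0) (XT.lf (nat_lit 0) (nat_lit 10472894154) (nat_lit 228) (nat_lit 9375475302) (nat_lit 304) (nat_lit 7953922899) (nat_lit 49) (nat_lit 5) (nat_lit 52) (nat_lit 5) (nat_lit 53) (nat_lit 5) (nat_lit 352) (nat_lit 322) (nat_lit 226)) (XT.lf (nat_lit 0) (nat_lit 25355682280) (nat_lit 304) (nat_lit 3129698024) (nat_lit 76) (nat_lit 210592001) (nat_lit 49) (nat_lit 5) (nat_lit 53) (nat_lit 5) (nat_lit 50) (nat_lit 5) (nat_lit 353) (nat_lit 322) (nat_lit 225)))))) (XT.nd (nat_lit 468) (nat_lit 608) (nat_lit 0) (XT.nd (nat_lit 234) (nat_lit 152) (nat_lit 0) (XT.nd (nat_lit 78) (nat_lit 228) (nat_lit 0) (XT.lf (nat_lit 0) (nat_lit 1793778155) (nat_lit 228) (nat_lit 17648714920) (nat_lit 76) (nat_lit 10173782599) (nat_lit 46) (nat_lit 5) (nat_lit 49) (nat_lit 5) (nat_lit 47) (nat_lit 5) (nat_lit 354) (nat_lit 322) (nat_lit 224)) (XT.nd (nat_lit 78) (nat_lit 228) (nat_lit 0) (XT.lf (nat_lit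 0) (nat_lit 7117671643) (nat_lit 228) (nat_lit 2719683098) (nat_lit 76) (nat_lit 20740240382) (nat_lit 46) (nat_lit 5) (nat_lit 49) (nat_lit 5) (nat_lit 47) (nat_lit 5) (nat_lit 355) (nat_lit 322) (nat_lit 223)) (XT.lf (nat_lit 0) (nat_lit 12915679576) (nat_lit 304) (nat_lit 18212261450) (nat_lit 76) (nat_lit 448650891) (nat_lit 43) (nat_lit 5) (nat_lit 47) (nat_lit 5) (nat_lit 44) (nat_lit 5) (nat_lit 356) (nat_lit 322) (nat_lit 222)))) (XT.nd (nat_lit 78) (nat_lit 152) (nat_lit 0) (XT.lf (nat_lit 0) (nat_lit 19203724512) (nat_lit 304) (nat_lit 2450300863) (nat_lit 76) (nat_lit 10961513355) (nat_lit 43) (nat_lit 5) (nat_lit 47) (nat_lit 5) (nat_lit 44) (nat_lit 5) (nat_lit 357) (nat_lit 322) (nat_lit 221)) (XT.nd (nat_lit 78) (nat_lit 0) (nat_lit 0) (XT.lf (nat_lit 0) (nat_lit 14554145041) (nat_lit 152) (nat_lit 11471690294) (nat_lit 228) (nat_lit 7669621046) (nat_lit 41) (nat_lit 5)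 (nat_lit 43) (nat_lit 5) (nat_lit 44) (nat_lit 5) (nat_lit 358) (nat_lit 322) (nat_lit 220)) (XT.lf (nat_lit 0) (nat_lit 32482630364) (nat_lit 152) (nat_lit 740535691) (nat_lit 228) (nat_lit 1604504500) (nat_lit 41) (nat_lit 5) (nat_lit 43) (nat_lit 5) (nat_lit 44) (nat_lit 5) (nat_lit 359) (nat_lit 322) (nat_lit 219))))) (XT.nd (nat_lit 234) (nat_lit 228) (nat_lit 0) (XT.nd (nat_lit 78) (nat_lit 152) (nat_lit 0) (XT.lf (nat_lit 0) (nat_lit 5019034629) (nat_lit 228) (nat_lit 20461938090) (nat_lit 76) (nat_lit 10511427608) (nat_lit 38) (nat_lit 5) (nat_lit 41) (nat_lit 5) (nat_lit 39) (nat_lit 5) (nat_lit 360) (nat_lit 322) (nat_lit 218)) (XT.nd (nat_lit 78) (nat_lit 152) (nat_lit 0) (XT.lf (nat_lit 0) (nat_lit 11965294875) (nat_lit 228) (nat_lit 2882397554) (nat_lit 76) (nat_lit 22364091181) (nat_lit 38) (nat_lit 5) (nat_lit 41) (nat_lit 5) (nat_lit 39) (nat_lit 5) (nat_lit 361) (nat_lit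 322) (nat_lit 217)) (XT.lf (nat_lit 0) (nat_lit 16080238895) (nat_lit 152) (nat_lit 3422982694) (nat_lit 228) (nat_lit 18976702028) (nat_lit 36) (nat_lit 5) (nat_lit 38) (nat_lit 5) (nat_lit 39) (nat_lit 5) (nat_lit 362) (nat_lit 322) (nat_lit 216)))) (XT.nd (nat_lit 78) (nat_lit 228) (nat_lit 0) (XT.lf (nat_lit 0) (nat_lit 27594900883) (nat_lit 228) (nat_lit 3863252128) (nat_lit 76) (nat_lit 8344479784) (nat_lit 36) (nat_lit 5) (nat_lit 39) (nat_lit 5) (nat_lit 37) (nat_lit 5) (nat_lit 363) (nat_lit 322) (nat_lit 215)) (XT.nd (nat_lit 78) (nat_lit 76) (nat_lit 0) (XT.lf (nat_lit 0) (nat_lit 16047359015) (nat_lit 152) (nat_lit 20344171683) (nat_lit 228) (nat_lit 4784933152) (nat_lit 34) (nat_lit 5) (nat_lit 36) (nat_lit 5) (nat_lit 37) (nat_lit 5) (nat_lit 364) (nat_lit 322) (nat_lit 214)) (XT.lf (nat_lit 0) (nat_lit 2972943652) (nat_lit 228) (nat_lit 5586334388) (nat_lit 76) (nat_lit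 34054351516) (nat_lit 33) (nat_lit 5) (nat_lit 36) (nat_lit 5) (nat_lit 34) (nat_lit 5) (nat_lit 365) (nat_lit 322) (nat_lit 213))))))))
noncomputable def xc160 : XT := (XT.nd (nat_lit 1716) (nat_lit 608) (nat_lit 0) (XT.nd (nat_lit 858) (nat_lit 532) (nat_lit 0) (XT.nd (nat_lit 390) (nat_lit 304) (nat_lit 0) (XT.nd (nat_lit 156) (nat_lit 304) (nat_lit 0) (XT.nd (nat_lit 78) (nat_lit 0) (nat_lit 0) (XT.lf (nat_lit 0) (nat_lit 11256109103) (nat_lit 228) (nat_lit 28835491102) (nat_lit 76) (nat_lit 4012225370) (nat_lit 31) (nat_lit 5) (nat_lit 34) (nat_lit 5) (nat_lit 32) (nat_lit 5) (nat_lit 366) (nat_lit 322) (nat_lit 212)) (XT.lf (nat_lit 0) (nat_lit 20184027625) (nat_lit 228) (nat_lit 8455772954) (nat_lit 76) (nat_lit 17017204979) (nat_lit 31) (nat_lit 5) (nat_lit 34) (nat_lit 5) (nat_lit 32) (nat_lit 5) (nat_lit 367) (nat_lit 322) (nat_lit 211))) (XT.nd (nat_lit 78) (nat_lit 152) (nat_lit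 0) (XT.lf (nat_lit 0) (nat_lit 13361254058) (nat_lit 152) (nat_lit 16400095161) (nat_lit 228) (nat_lit 17516348683) (nat_lit 29) (nat_lit 5) (nat_lit 31) (nat_lit 5) (nat_lit 32) (nat_lit 5) (nat_lit 368) (nat_lit 322) (nat_lit 210)) (XT.nd (nat_lit 78) (nat_lit 152) (nat_lit 0) (XT.lf (nat_lit 0) (nat_lit 36553527484) (nat_lit 152) (nat_lit 3401736007) (nat_lit 228) (nat_lit 9017278583) (nat_lit 29) (nat_lit 5) (nat_lit 31) (nat_lit 5) (nat_lit 32) (nat_lit 5) (nat_lit 369) (nat_lit 322) (nat_lit 209)) (XT.lf (nat_lit 0) (nat_lit 230647858) (nat_lit 152) (nat_lit 40425570364) (nat_lit 76) (nat_lit 10079940339) (nat_lit 27) (nat_lit 5) (nat_lit 29) (nat_lit 5) (nat_lit 28) (nat_lit 5) (nat_lit 370) (nat_lit 322) (nat_lit 208))))) (XT.nd (nat_lit 234) (nat_lit 152) (nat_lit 0) (XT.nd (nat_lit 78) (nat_lit 152) (nat_lit 0) (XT.lf (nat_lit 0) (nat_lit 9902222790) (nat_lit 152) (nat_lit 18185621829)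 (nat_lit 76) (nat_lit 24479508506) (nat_lit 27) (nat_lit 5) (nat_lit 29) (nat_lit 5) (nat_lit 28) (nat_lit 5) (nat_lit 371) (nat_lit 322) (nat_lit 207)) (XT.nd (nat_lit 78) (nat_lit 0) (nat_lit 0) (XT.lf (nat_lit 0) (nat_lit 5328315875) (nat_lit 152) (nat_lit 14807256033) (nat_lit 228) (nat_lit 34350628652) (nat_lit 25) (nat_lit 5) (nat_lit 27) (nat_lit 5) (nat_lit 28) (nat_lit 5) (nat_lit 372) (nat_lit 322) (nat_lit 206)) (XT.lf (nat_lit 0) (nat_lit 30640904414) (nat_lit 152) (nat_lit 542778402) (nat_lit 228) (nat_lit 25302155608) (nat_lit 25) (nat_lit 5) (nat_lit 27) (nat_lit 5) (nat_lit 28) (nat_lit 5) (nat_lit 373) (nat_lit 322) (nat_lit 205)))) (XT.nd (nat_lit 78) (nat_lit 152) (nat_lit 0) (XT.lf (nat_lit 0) (nat_lit 43004861296) (nat_lit 228) (nat_lit 1599897751) (nat_lit 76) (nat_lit 13969668675) (nat_lit 25) (nat_lit 5) (nat_lit 28) (nat_lit 5) (nat_lit 26) (nat_lit 4) (nat_lit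 374) (nat_lit 322) (nat_lit 204)) (XT.nd (nat_lit 78) (nat_lit 76) (nat_lit 0) (XT.lf (nat_lit 0) (nat_lit 24628970961) (nat_lit 76) (nat_lit 31177069598) (nat_lit 152) (nat_lit 4941961351) (nat_lit 24) (nat_lit 5) (nat_lit 25) (nat_lit 5) (nat_lit 26) (nat_lit 4) (nat_lit 375) (nat_lit 322) (nat_lit 203)) (XT.lf (nat_lit 0) (nat_lit 6041115563) (nat_lit 152) (nat_lit 10909407733) (nat_lit 76) (nat_lit 46073726775) (nat_lit 23) (nat_lit 5) (nat_lit 25) (nat_lit 5) (nat_lit 24) (nat_lit 5) (nat_lit 376) (nat_lit 322) (nat_lit 202)))))) (XT.nd (nat_lit 390) (nat_lit 304) (nat_lit 0) (XT.nd (nat_lit 156) (nat_lit 76) (nat_lit 0) (XT.nd (nat_lit 78) (nat_lit 0) (nat_lit 0) (XT.lf (nat_lit 0) (nat_lit 15983808996) (nat_lit 152) (nat_lit 1668755602) (nat_lit 228) (nat_lit 47745432399) (nat_lit 21) (nat_lit 5) (nat_lit 23) (nat_lit 5) (nat_lit 24) (nat_lit 5) (nat_lit 377) (nat_lit 322) (nat_lit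 201)) (XT.lf (nat_lit 0) (nat_lit 30252624797) (nat_lit 228) (nat_lit 23515746653) (nat_lit 76) (nat_lit 14101659955) (nat_lit 21) (nat_lit 5) (nat_lit 24) (nat_lit 5) (nat_lit 22) (nat_lit 4) (nat_lit 378) (nat_lit 322) (nat_lit 200))) (XT.nd (nat_lit 78) (nat_lit 0) (nat_lit 0) (XT.lf (nat_lit 0) (nat_lit 3763580938) (nat_lit 76) (nat_lit 39801211377) (nat_lit 152) (nat_lit 26896771974) (nat_lit 20) (nat_lit 5) (nat_lit 21) (nat_lit 5) (nat_lit 22) (nat_lit 4) (nat_lit 379) (nat_lit 322) (nat_lit 199)) (XT.nd (nat_lit 78) (nat_lit 0) (nat_lit 0) (XT.lf (nat_lit 0) (nat_lit 33216266381) (nat_lit 76) (nat_lit 24720621421) (nat_lit 152) (nat_lit 15226071914) (nat_lit 20) (nat_lit 5) (nat_lit 21) (nat_lit 5) (nat_lit 22) (nat_lit 4) (nat_lit 380) (nat_lit 322) (nat_lit 198)) (XT.lf (nat_lit 0) (nat_lit 64134898332) (nat_lit 76) (nat_lit 8888945964) (nat_lit 152) (nat_lit 2975769595) (nat_lit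 20) (nat_lit 5) (nat_lit 21) (nat_lit 5) (nat_lit 22) (nat_lit 4) (nat_lit 381) (nat_lit 322) (nat_lit 197))))) (XT.nd (nat_lit 234) (nat_lit 152) (nat_lit 0) (XT.nd (nat_lit 78) (nat_lit 0) (nat_lit 0) (XT.lf (nat_lit 0) (nat_lit 9976452908) (nat_lit 152) (nat_lit 61046512320) (nat_lit 76) (nat_lit 7927126326) (nat_lit 18) (nat_lit 5) (nat_lit 20) (nat_lit 5) (nat_lit 19) (nat_lit 4) (nat_lit 382) (nat_lit 322) (nat_lit 196)) (XT.nd (nat_lit 78) (nat_lit 0) (nat_lit 0) (XT.lf (nat_lit 0) (nat_lit 23822633413) (nat_lit 152) (nat_lit 32670160057) (nat_lit 76) (nat_lit 25535544406) (nat_lit 18) (nat_lit 5) (nat_lit 20) (nat_lit 5) (nat_lit 19) (nat_lit 4) (nat_lit 383) (nat_lit 322) (nat_lit 195)) (XT.lf (nat_lit 0) (nat_lit 38357697337) (nat_lit 152) (nat_lit 2881200703) (nat_lit 76) (nat_lit 44021771227) (nat_lit 18) (nat_lit 5) (nat_lit 20) (nat_lit 5) (nat_lit 19) (nat_lit 4) (nat_lit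 384) (nat_lit 322) (nat_lit 194)))) (XT.nd (nat_lit 78) (nat_lit 76) (nat_lit 0) (XT.lf (nat_lit 0) (nat_lit 29330036160) (nat_lit 76) (nat_lit 24744139873) (nat_lit 152) (nat_lit 34557709516) (nat_lit 17) (nat_lit 5) (nat_lit 18) (nat_lit 5) (nat_lit 19) (nat_lit 4) (nat_lit 385) (nat_lit 322) (nat_lit 193)) (XT.nd (nat_lit 78) (nat_lit 76) (nat_lit 0) (XT.lf (nat_lit 0) (nat_lit 63246044267) (nat_lit 76) (nat_lit 7376030943) (nat_lit 152) (nat_lit 21547308944) (nat_lit 17) (nat_lit 5) (nat_lit 18) (nat_lit 5) (nat_lit 19) (nat_lit 4) (nat_lit 386) (nat_lit 322) (nat_lit 192)) (XT.lf (nat_lit 0) (nat_lit 2891419128) (nat_lit 76) (nat_lit 85317571279) (nat_lit 76) (nat_lit 7664187500) (nat_lit 16) (nat_lit 4) (nat_lit 17) (nat_lit 5) (nat_lit 17) (nat_lit 4) (nat_lit 387) (nat_lit 322) (nat_lit 191))))))) (XT.nd (nat_lit 858) (nat_lit 228) (nat_lit 0) (XT.nd (nat_lit 390) (nat_lit 228)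 (nat_lit 0) (XT.nd (nat_lit 156) (nat_lit 76) (nat_lit 0) (XT.nd (nat_lit 78) (nat_lit 0) (nat_lit 0) (XT.lf (nat_lit 0) (nat_lit 7307531831) (nat_lit 152) (nat_lit 62679150374) (nat_lit 76) (nat_lit 29739298465) (nat_lit 15) (nat_lit 5) (nat_lit 17) (nat_lit 5) (nat_lit 16) (nat_lit 4) (nat_lit 388) (nat_lit 322) (nat_lit 190)) (XT.lf (nat_lit 0) (nat_lit 22767341182) (nat_lit 152) (nat_lit 30992452490) (nat_lit 76) (nat_lit 50005495327) (nat_lit 15) (nat_lit 5) (nat_lit 17) (nat_lit 5) (nat_lit 16) (nat_lit 4) (nat_lit 389) (nat_lit 322) (nat_lit 189))) (XT.nd (nat_lit 78) (nat_lit 0) (nat_lit 0) (XT.lf (nat_lit 0) (nat_lit 2348608992) (nat_lit 76) (nat_lit 36685410863) (nat_lit 152) (nat_lit 68970849993) (nat_lit 14) (nat_lit 5) (nat_lit 15) (nat_lit 5) (nat_lit 16) (nat_lit 4) (nat_lit 390) (nat_lit 322) (nat_lit 188)) (XT.nd (nat_lit 78) (nat_lit 0) (nat_lit 0) (XT.lf (nat_lit 0)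 (nat_lit 38427652993) (nat_lit 76) (nat_lit 18208515989) (nat_lit 152) (nat_lit 55794154926) (nat_lit 14) (nat_lit 5) (nat_lit 15) (nat_lit 5) (nat_lit 16) (nat_lit 4) (nat_lit 391) (nat_lit 322) (nat_lit 187)) (XT.lf (nat_lit 0) (nat_lit 75134399591) (nat_lit 152) (nat_lit 40789929751) (nat_lit 0) (nat_lit 1151923578) (nat_lit 14) (nat_lit 5) (nat_lit 16) (nat_lit 4) (nat_lit 14) (nat_lit 4) (nat_lit 392) (nat_lit 322) (nat_lit 186))))) (XT.nd (nat_lit 234) (nat_lit 76) (nat_lit 0) (XT.nd (nat_lit 78) (nat_lit 152) (nat_lit 0) (XT.lf (nat_lit 0) (nat_lit 94853527774) (nat_lit 152) (nat_lit 6219732094) (nat_lit 0) (nat_lit 20866420114) (nat_lit 14) (nat_lit 5) (nat_lit 16) (nat_lit 4) (nat_lit 14) (nat_lit 4) (nat_lit 393) (nat_lit 322) (nat_lit 185)) (XT.nd (nat_lit 78) (nat_lit 76) (nat_lit 0) (XT.lf (nat_lit 0) (nat_lit 31068917398) (nat_lit 76) (nat_lit 84972373347) (nat_lit 76) (nat_lit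 10980854594) (nat_lit 13) (nat_lit 4) (nat_lit 14) (nat_lit 5) (nat_lit 14) (nat_lit 4) (nat_lit 394) (nat_lit 322) (nat_lit 184)) (XT.lf (nat_lit 0) (nat_lit 5844592937) (nat_lit 152) (nat_lit 62014304271) (nat_lit 76) (nat_lit 64489974932) (nat_lit 12) (nat_lit 5) (nat_lit 14) (nat_lit 5) (nat_lit 13) (nat_lit 4) (nat_lit 395) (nat_lit 322) (nat_lit 183)))) (XT.nd (nat_lit 78) (nat_lit 76) (nat_lit 0) (XT.lf (nat_lit 0) (nat_lit 23140009612) (nat_lit 152) (nat_lit 26562701079) (nat_lit 76) (nat_lit 88230338359) (nat_lit 12) (nat_lit 5) (nat_lit 14) (nat_lit 5) (nat_lit 13) (nat_lit 4) (nat_lit 396) (nat_lit 322) (nat_lit 182)) (XT.nd (nat_lit 78) (nat_lit 0) (nat_lit 0) (XT.lf (nat_lit 0) (nat_lit 11009814963) (nat_lit 76) (nat_lit 30460110020) (nat_lit 152) (nat_lit 102318024137) (nat_lit 11) (nat_lit 5) (nat_lit 12) (nat_lit 5) (nat_lit 13) (nat_lit 4) (nat_lit 397) (nat_lit 322) (nat_lit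 181)) (XT.lf (nat_lit 0) (nat_lit 51379168988) (nat_lit 76) (nat_lit 9784894063) (nat_lit 152) (nat_lit 88749145469) (nat_lit 11) (nat_lit 5) (nat_lit 12) (nat_lit 5) (nat_lit 13) (nat_lit 4) (nat_lit 398) (nat_lit 322) (nat_lit 180)))))) (XT.nd (nat_lit 468) (nat_lit 76) (nat_lit 0) (XT.nd (nat_lit 234) (nat_lit 76) (nat_lit 0) (XT.nd (nat_lit 78) (nat_lit 76) (nat_lit 0) (XT.lf (nat_lit 0) (nat_lit 82027024660) (nat_lit 152) (nat_lit 62767777787) (nat_lit 0) (nat_lit 11540723255) (nat_lit 11) (nat_lit 5) (nat_lit 13) (nat_lit 4) (nat_lit 11) (nat_lit 4) (nat_lit 399) (nat_lit 322) (nat_lit 179)) (XT.nd (nat_lit 78) (nat_lit 76) (nat_lit 0) (XT.lf (nat_lit 0) (nat_lit 104091588436) (nat_lit 152) (nat_lit 25377296064) (nat_lit 0) (nat_lit 33602152149) (nat_lit 11) (nat_lit 5) (nat_lit 13) (nat_lit 4) (nat_lit 11) (nat_lit 4) (nat_lit 400) (nat_lit 322) (nat_lit 178)) (XT.lf (nat_lit 0)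 (nat_lit 14338109248) (nat_lit 76) (nat_lit 113143268255) (nat_lit 76) (nat_lit 42650846367) (nat_lit 10) (nat_lit 4) (nat_lit 11) (nat_lit 5) (nat_lit 11) (nat_lit 4) (nat_lit 401) (nat_lit 322) (nat_lit 177)))) (XT.nd (nat_lit 78) (nat_lit 76) (nat_lit 0) (XT.lf (nat_lit 0) (nat_lit 56916874313) (nat_lit 76) (nat_lit 95551732243) (nat_lit 76) (nat_lit 25056466925) (nat_lit 10) (nat_lit 4) (nat_lit 11) (nat_lit 5) (nat_lit 11) (nat_lit 4) (nat_lit 402) (nat_lit 322) (nat_lit 176)) (XT.nd (nat_lit 78) (nat_lit 76) (nat_lit 0) (XT.lf (nat_lit 0) (nat_lit 101621289128) (nat_lit 76) (nat_lit 77082168642) (nat_lit 76) (nat_lit 6584195296) (nat_lit 10) (nat_lit 4) (nat_lit 11) (nat_lit 5) (nat_lit 11) (nat_lit 4) (nat_lit 403) (nat_lit 322) (nat_lit 175)) (XT.lf (nat_lit 0) (nat_lit 12399951716) (nat_lit 152) (nat_lit 45080651402) (nat_lit 76) (nat_lit 135947841876) (nat_lit 9) (nat_lit 5)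 (nat_lit 11) (nat_lit 5) (nat_lit 10) (nat_lit 4) (nat_lit 404) (nat_lit 322) (nat_lit 174))))) (XT.nd (nat_lit 234) (nat_lit 0) (nat_lit 0) (XT.nd (nat_lit 78) (nat_lit 76) (nat_lit 0) (XT.lf (nat_lit 0) (nat_lit 32110430026) (nat_lit 152) (nat_lit 4676627127) (nat_lit 76) (nat_lit 165183903136) (nat_lit 9) (nat_lit 5) (nat_lit 11) (nat_lit 5) (nat_lit 10) (nat_lit 4) (nat_lit 405) (nat_lit 322) (nat_lit 173)) (XT.nd (nat_lit 78) (nat_lit 0) (nat_lit 0) (XT.lf (nat_lit 0) (nat_lit 38992717150) (nat_lit 76) (nat_lit 14420973156) (nat_lit 152) (nat_lit 157496548576) (nat_lit 8) (nat_lit 5) (nat_lit 9) (nat_lit 5) (nat_lit 10) (nat_lit 4) (nat_lit 406) (nat_lit 322) (nat_lit 172)) (XT.lf (nat_lit 0) (nat_lit 76002597999) (nat_lit 152) (nat_lit 135430333865) (nat_lit 0) (nat_lit 8852525732) (nat_lit 8) (nat_lit 5) (nat_lit 10) (nat_lit 4) (nat_lit 8) (nat_lit 4) (nat_lit 407) (nat_lit 322)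 (nat_lit 171)))) (XT.nd (nat_lit 78) (nat_lit 0) (nat_lit 0) (XT.lf (nat_lit 0) (nat_lit 99955912636) (nat_lit 152) (nat_lit 97357957333) (nat_lit 0) (nat_lit 32803819596) (nat_lit 8) (nat_lit 5) (nat_lit 10) (nat_lit 4) (nat_lit 8) (nat_lit 4) (nat_lit 408) (nat_lit 322) (nat_lit 170)) (XT.nd (nat_lit 78) (nat_lit 0) (nat_lit 0) (XT.lf (nat_lit 0) (nat_lit 125105514112) (nat_lit 152) (nat_lit 57384591812) (nat_lit 0) (nat_lit 57951496527) (nat_lit 8) (nat_lit 5) (nat_lit 10) (nat_lit 4) (nat_lit 8) (nat_lit 4) (nat_lit 409) (nat_lit 322) (nat_lit 169)) (XT.lf (nat_lit 0) (nat_lit 151511282430) (nat_lit 152) (nat_lit 15415062625) (nat_lit 0) (nat_lit 84355431945) (nat_lit 8) (nat_lit 5) (nat_lit 10) (nat_lit 4) (nat_lit 8) (nat_lit 4) (nat_lit 410) (nat_lit 322) (nat_lit 168))))))))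
noncomputable def xc161 : XT := (XT.nd (nat_lit 40248) (nat_lit 0) (nat_lit 4256) (XT.nd (nat_lit 858) (nat_lit 76) (nat_lit 0) (XT.nd (nat_lit 390) (nat_lit 152) (nat_lit 0) (XT.nd (nat_lit 156) (nat_lit 0) (nat_lit 0) (XT.nd (nat_lit 78) (nat_lit 0) (nat_lit 0) (XT.lf (nat_lit 0) (nat_lit 29597874505) (nat_lit 76) (nat_lit 150100319732) (nat_lit 76) (nat_lit 82942723628) (nat_lit 7) (nat_lit 4) (nat_lit 8) (nat_lit 5) (nat_lit 8) (nat_lit 4) (nat_lit 411) (nat_lit 322) (nat_lit 167)) (XT.lf (nat_lit 0) (nat_lit 77394287789) (nat_lit 76) (nat_lit 132159997608) (nat_lit 76) (nat_lit 65000739009) (nat_lit 7) (nat_lit 4) (nat_lit 8) (nat_lit 5) (nat_lit 8) (nat_lit 4) (nat_lit 412) (nat_lit 322) (nat_lit 166))) (XT.nd (nat_lit 78) (nat_lit 0) (nat_lit 0) (XT.lf (nat_lit 0) (nat_lit 127578286626) (nat_lit 76) (nat_lit 113323725176) (nat_lit 76) (nat_lit 46162883250) (nat_lit 7) (nat_lit 4)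 (nat_lit 8) (nat_lit 5) (nat_lit 8) (nat_lit 4) (nat_lit 413) (nat_lit 322) (nat_lit 165)) (XT.nd (nat_lit 78) (nat_lit 0) (nat_lit 0) (XT.lf (nat_lit 0) (nat_lit 180269356725) (nat_lit 76) (nat_lit 93546654169) (nat_lit 76) (nat_lit 26384304311) (nat_lit 7) (nat_lit 4) (nat_lit 8) (nat_lit 5) (nat_lit 8) (nat_lit 4) (nat_lit 414) (nat_lit 322) (nat_lit 164)) (XT.lf (nat_lit 0) (nat_lit 235592953015) (nat_lit 76) (nat_lit 72781696321) (nat_lit 76) (nat_lit 5617910338) (nat_lit 7) (nat_lit 4) (nat_lit 8) (nat_lit 5) (nat_lit 8) (nat_lit 4) (nat_lit 415) (nat_lit 322) (nat_lit 163))))) (XT.nd (nat_lit 234) (nat_lit 0) (nat_lit 0) (XT.nd (nat_lit 78) (nat_lit 76) (nat_lit 0) (XT.lf (nat_lit 0) (nat_lit 15667697622) (nat_lit 152) (nat_lit 35046373595) (nat_lit 76) (nat_lit 277747760683) (nat_lit 6) (nat_lit 5) (nat_lit 8) (nat_lit 5) (nat_lit 7) (nat_lit 4) (nat_lit 416) (nat_lit 322) (nat_lit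 162)) (XT.nd (nat_lit 78) (nat_lit 0) (nat_lit 0) (XT.lf (nat_lit 0) (nat_lit 10723780774) (nat_lit 76) (nat_lit 27271456836) (nat_lit 152) (nat_lit 305646403010) (nat_lit 5) (nat_lit 5) (nat_lit 6) (nat_lit 5) (nat_lit 7) (nat_lit 4) (nat_lit 417) (nat_lit 322) (nat_lit 161)) (XT.lf (nat_lit 0) (nat_lit 59997332589) (nat_lit 76) (nat_lit 2034389116) (nat_lit 152) (nat_lit 297519089948) (nat_lit 5) (nat_lit 5) (nat_lit 6) (nat_lit 5) (nat_lit 7) (nat_lit 4) (nat_lit 418) (nat_lit 322) (nat_lit 160)))) (XT.nd (nat_lit 78) (nat_lit 0) (nat_lit 0) (XT.lf (nat_lit 0) (nat_lit 87651062345) (nat_lit 152) (nat_lit 264904625543) (nat_lit 0) (nat_lit 23680701952) (nat_lit 5) (nat_lit 5) (nat_lit 7) (nat_lit 4) (nat_lit 5) (nat_lit 4) (nat_lit 419) (nat_lit 322) (nat_lit 159)) (XT.nd (nat_lit 78) (nat_lit 0) (nat_lit 0) (XT.lf (nat_lit 0) (nat_lit 114583837260) (nat_lit 152) (nat_lit 228558381313)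 (nat_lit 0) (nat_lit 50612405209) (nat_lit 5) (nat_lit 5) (nat_lit 7) (nat_lit 4) (nat_lit 5) (nat_lit 4) (nat_lit 420) (nat_lit 322) (nat_lit 158)) (XT.lf (nat_lit 0) (nat_lit 142862409592) (nat_lit 152) (nat_lit 190396445183) (nat_lit 0) (nat_lit 78889956913) (nat_lit 5) (nat_lit 5) (nat_lit 7) (nat_lit 4) (nat_lit 5) (nat_lit 4) (nat_lit 421) (nat_lit 322) (nat_lit 157)))))) (XT.nd (nat_lit 468) (nat_lit 0) (nat_lit 0) (XT.nd (nat_lit 234) (nat_lit 76) (nat_lit 0) (XT.nd (nat_lit 78) (nat_lit 0) (nat_lit 0) (XT.lf (nat_lit 0) (nat_lit 172554109273) (nat_lit 152) (nat_lit 150327955401) (nat_lit 0) (nat_lit 108580684569) (nat_lit 5) (nat_lit 5) (nat_lit 7) (nat_lit 4) (nat_lit 5) (nat_lit 4) (nat_lit 422) (nat_lit 322) (nat_lit 156)) (XT.nd (nat_lit 78) (nat_lit 0) (nat_lit 0) (XT.lf (nat_lit 0) (nat_lit 203729630827) (nat_lit 152) (nat_lit 108257510799) (nat_lit 0) (nat_lit 139755280384)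 (nat_lit 5) (nat_lit 5) (nat_lit 7) (nat_lit 4) (nat_lit 5) (nat_lit 4) (nat_lit 423) (nat_lit 322) (nat_lit 155)) (XT.lf (nat_lit 0) (nat_lit 236463201687) (nat_lit 152) (nat_lit 64084943653) (nat_lit 0) (nat_lit 172487969587) (nat_lit 5) (nat_lit 5) (nat_lit 7) (nat_lit 4) (nat_lit 5) (nat_lit 4) (nat_lit 424) (nat_lit 322) (nat_lit 154)))) (XT.nd (nat_lit 78) (nat_lit 76) (nat_lit 0) (XT.lf (nat_lit 0) (nat_lit 270832758925) (nat_lit 152) (nat_lit 17705081183) (nat_lit 0) (nat_lit 206856687152) (nat_lit 5) (nat_lit 5) (nat_lit 7) (nat_lit 4) (nat_lit 5) (nat_lit 4) (nat_lit 425) (nat_lit 322) (nat_lit 153)) (XT.nd (nat_lit 78) (nat_lit 0) (nat_lit 0) (XT.lf (nat_lit 0) (nat_lit 32017257029) (nat_lit 76) (nat_lit 275402756902) (nat_lit 76) (nat_lit 211425885441) (nat_lit 4) (nat_lit 4) (nat_lit 5) (nat_lit 5) (nat_lit 5) (nat_lit 4) (nat_lit 426) (nat_lit 322) (nat_lit 152)) (XT.lf (nat_lit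 0) (nat_lit 84839143513) (nat_lit 76) (nat_lit 261296684977) (nat_lit 76) (nat_lit 197319051908) (nat_lit 4) (nat_lit 4) (nat_lit 5) (nat_lit 5) (nat_lit 5) (nat_lit 4) (nat_lit 427) (nat_lit 322) (nat_lit 151))))) (XT.nd (nat_lit 38688) (nat_lit 0) (nat_lit 7296) (XT.nd (nat_lit 78) (nat_lit 0) (nat_lit 0) (XT.lf (nat_lit 0) (nat_lit 140300934721) (nat_lit 76) (nat_lit 246485882565) (nat_lit 76) (nat_lit 182507524155) (nat_lit 4) (nat_lit 4) (nat_lit 5) (nat_lit 5) (nat_lit 5) (nat_lit 4) (nat_lit 428) (nat_lit 322) (nat_lit 150)) (XT.nd (nat_lit 78) (nat_lit 0) (nat_lit 0) (XT.lf (nat_lit 0) (nat_lit 198534682537) (nat_lit 76) (nat_lit 230935085850) (nat_lit 76) (nat_lit 166956036640) (nat_lit 4) (nat_lit 4) (nat_lit 5) (nat_lit 5) (nat_lit 5) (nat_lit 4) (nat_lit 429) (nat_lit 322) (nat_lit 149)) (XT.lf (nat_lit 0) (nat_lit 259679038743) (nat_lit 76) (nat_lit 214607269126) (nat_lit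 76) (nat_lit 150627562010) (nat_lit 4) (nat_lit 4) (nat_lit 5) (nat_lit 5) (nat_lit 5) (nat_lit 4) (nat_lit 430) (nat_lit 322) (nat_lit 148)))) (XT.nd (nat_lit 78) (nat_lit 0) (nat_lit 0) (XT.lf (nat_lit 0) (nat_lit 1728442775) (nat_lit 0) (nat_lit 1728442775) (nat_lit 684) (nat_lit 2950585832) (nat_lit 100) (nat_lit 5) (nat_lit 100) (nat_lit 3) (nat_lit 109) (nat_lit 3) (nat_lit 323) (nat_lit 323) (nat_lit 254)) (XT.nd (nat_lit 78) (nat_lit 0) (nat_lit 0) (XT.lf (nat_lit 0) (nat_lit 7514273555) (nat_lit 684) (nat_lit 3437370440) (nat_lit 760) (nat_lit 2161685272) (nat_lit 100) (nat_lit 5) (nat_lit 109) (nat_lit 3) (nat_lit 110) (nat_lit 5) (nat_lit 324) (nat_lit 323) (nat_lit 253)) (XT.lf (nat_lit 76) (nat_lit 2798175570) (nat_lit 0) (nat_lit 5422035846) (nat_lit 760) (nat_lit 5202691835) (nat_lit 101) (nat_lit 5) (nat_lit 100) (nat_lit 5) (nat_lit 110) (nat_lit 5) (nat_lit 325) (nat_lit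 323) (nat_lit 252))))))) (XT.nd (nat_lit 858) (nat_lit 1900) (nat_lit 0) (XT.nd (nat_lit 390) (nat_lit 1216) (nat_lit 0) (XT.nd (nat_lit 156) (nat_lit 0) (nat_lit 0) (XT.nd (nat_lit 78) (nat_lit 0) (nat_lit 0) (XT.lf (nat_lit 0) (nat_lit 9002793051) (nat_lit 684) (nat_lit 4302390090) (nat_lit 760) (nat_lit 440742283) (nat_lit 101) (nat_lit 5) (nat_lit 110) (nat_lit 5) (nat_lit 111) (nat_lit 5) (nat_lit 326) (nat_lit 323) (nat_lit 251)) (XT.lf (nat_lit 76) (nat_lit 2306495086) (nat_lit 0) (nat_lit 7620222402) (nat_lit 760) (nat_lit 4153305608) (nat_lit 102) (nat_lit 5) (nat_lit 101) (nat_lit 5) (nat_lit 111) (nat_lit 5) (nat_lit 327) (nat_lit 323) (nat_lit 250))) (XT.nd (nat_lit 78) (nat_lit 0) (nat_lit 76) (XT.lf (nat_lit 76) (nat_lit 9380922046) (nat_lit 0) (nat_lit 1566953516) (nat_lit 760) (nat_lit 3480431629) (nat_lit 102) (nat_lit 5) (nat_lit 101) (nat_lit 5) (nat_lit 111) (nat_lit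 5) (nat_lit 328) (nat_lit 323) (nat_lit 249)) (XT.nd (nat_lit 78) (nat_lit 0) (nat_lit 0) (XT.lf (nat_lit 76) (nat_lit 1989186274) (nat_lit 0) (nat_lit 10116057412) (nat_lit 760) (nat_lit 2684536013) (nat_lit 103) (nat_lit 5) (nat_lit 102) (nat_lit 5) (nat_lit 112) (nat_lit 5) (nat_lit 329) (nat_lit 323) (nat_lit 248)) (XT.lf (nat_lit 76) (nat_lit 9511745687) (nat_lit 0) (nat_lit 3899571384) (nat_lit 760) (nat_lit 1753497220) (nat_lit 103) (nat_lit 5) (nat_lit 102) (nat_lit 5) (nat_lit 112) (nat_lit 5) (nat_lit 330) (nat_lit 323) (nat_lit 247))))) (XT.nd (nat_lit 234) (nat_lit 608) (nat_lit 0) (XT.nd (nat_lit 78) (nat_lit 760) (nat_lit 0) (XT.lf (nat_lit 76) (nat_lit 1855284501) (nat_lit 0) (nat_lit 12978514077) (nat_lit 760) (nat_lit 722275672) (nat_lit 104) (nat_lit 5) (nat_lit 103) (nat_lit 5) (nat_lit 113) (nat_lit 5) (nat_lit 331) (nat_lit 323) (nat_lit 246)) (XT.nd (nat_lit 78) (nat_lit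 0) (nat_lit 76) (XT.lf (nat_lit 0) (nat_lit 491659956) (nat_lit 760) (nat_lit 6113219885) (nat_lit 836) (nat_lit 9354627543) (nat_lit 93) (nat_lit 5) (nat_lit 103) (nat_lit 5) (nat_lit 104) (nat_lit 5) (nat_lit 332) (nat_lit 323) (nat_lit 245)) (XT.lf (nat_lit 0) (nat_lit 1755922738) (nat_lit 760) (nat_lit 14496310406) (nat_lit 76) (nat_lit 129616750) (nat_lit 94) (nat_lit 5) (nat_lit 104) (nat_lit 5) (nat_lit 95) (nat_lit 5) (nat_lit 333) (nat_lit 323) (nat_lit 244)))) (XT.nd (nat_lit 78) (nat_lit 684) (nat_lit 0) (XT.lf (nat_lit 0) (nat_lit 3279902417) (nat_lit 760) (nat_lit 6448888577) (nat_lit 76) (nat_lit 7086717091) (nat_lit 94) (nat_lit 5) (nat_lit 104) (nat_lit 5) (nat_lit 95) (nat_lit 5) (nat_lit 334) (nat_lit 323) (nat_lit 243)) (XT.nd (nat_lit 78) (nat_lit 0) (nat_lit 0) (XT.lf (nat_lit 0) (nat_lit 2052053689) (nat_lit 684) (nat_lit 2843874732) (nat_lit 760) (nat_lit 12374151010)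 (nat_lit 85) (nat_lit 5) (nat_lit 94) (nat_lit 5) (nat_lit 95) (nat_lit 5) (nat_lit 335) (nat_lit 323) (nat_lit 242)) (XT.lf (nat_lit 0) (nat_lit 6756605708) (nat_lit 760) (nat_lit 6625361299) (nat_lit 76) (nat_lit 4357241372) (nat_lit 85) (nat_lit 5) (nat_lit 95) (nat_lit 5) (nat_lit 86) (nat_lit 5) (nat_lit 336) (nat_lit 323) (nat_lit 241)))))) (XT.nd (nat_lit 468) (nat_lit 836) (nat_lit 0) (XT.nd (nat_lit 234) (nat_lit 380) (nat_lit 0) (XT.nd (nat_lit 78) (nat_lit 304) (nat_lit 0) (XT.lf (nat_lit 0) (nat_lit 2413151787) (nat_lit 380) (nat_lit 6366583839) (nat_lit 456) (nat_lit 9448607721) (nat_lit 80) (nat_lit 5) (nat_lit 85) (nat_lit 5) (nat_lit 86) (nat_lit 5) (nat_lit 337) (nat_lit 323) (nat_lit 240)) (XT.nd (nat_lit 78) (nat_lit 304) (nat_lit 0) (XT.lf (nat_lit 0) (nat_lit 11019283801) (nat_lit 456) (nat_lit 6635072161) (nat_lit 76) (nat_lit 1081835544) (nat_lit 80) (nat_lit 5)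 (nat_lit 86) (nat_lit 5) (nat_lit 81) (nat_lit 5) (nat_lit 338) (nat_lit 323) (nat_lit 239)) (XT.lf (nat_lit 0) (nat_lit 2980890152) (nat_lit 304) (nat_lit 10527127215) (nat_lit 380) (nat_lit 5754572912) (nat_lit 76) (nat_lit 5) (nat_lit 80) (nat_lit 5) (nat_lit 81) (nat_lit 5) (nat_lit 339) (nat_lit 323) (nat_lit 238)))) (XT.nd (nat_lit 78) (nat_lit 380) (nat_lit 0) (XT.lf (nat_lit 0) (nat_lit 13294034406) (nat_lit 304) (nat_lit 2926253434) (nat_lit 380) (nat_lit 3590083855) (nat_lit 76) (nat_lit 5) (nat_lit 80) (nat_lit 5) (nat_lit 81) (nat_lit 5) (nat_lit 340) (nat_lit 323) (nat_lit 237)) (XT.nd (nat_lit 78) (nat_lit 76) (nat_lit 0) (XT.lf (nat_lit 0) (nat_lit 3764933769) (nat_lit 304) (nat_lit 15428290131) (nat_lit 380) (nat_lit 1186082551) (nat_lit 72) (nat_lit 5) (nat_lit 76) (nat_lit 5) (nat_lit 77) (nat_lit 5) (nat_lit 341) (nat_lit 323) (nat_lit 236)) (XT.lf (nat_lit 0) (nat_lit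 1442953423) (nat_lit 380) (nat_lit 6269488201) (nat_lit 76) (nat_lit 13255833899) (nat_lit 71) (nat_lit 5) (nat_lit 76) (nat_lit 5) (nat_lit 72) (nat_lit 5) (nat_lit 342) (nat_lit 323) (nat_lit 235))))) (XT.nd (nat_lit 234) (nat_lit 228) (nat_lit 0) (XT.nd (nat_lit 78) (nat_lit 304) (nat_lit 0) (XT.lf (nat_lit 0) (nat_lit 4232819986) (nat_lit 380) (nat_lit 16879739807) (nat_lit 76) (nat_lit 469713685) (nat_lit 67) (nat_lit 5) (nat_lit 72) (nat_lit 5) (nat_lit 68) (nat_lit 5) (nat_lit 343) (nat_lit 323) (nat_lit 234)) (XT.nd (nat_lit 78) (nat_lit 304) (nat_lit 0) (XT.lf (nat_lit 0) (nat_lit 7384981491) (nat_lit 380) (nat_lit 5922836145) (nat_lit 76) (nat_lit 8908027497) (nat_lit 67) (nat_lit 5) (nat_lit 72) (nat_lit 5) (nat_lit 68) (nat_lit 5) (nat_lit 344) (nat_lit 323) (nat_lit 233)) (XT.lf (nat_lit 0) (nat_lit 5752880130) (nat_lit 304) (nat_lit 5020690211) (nat_lit 380) (nat_lit 12103597285)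 (nat_lit 63) (nat_lit 5) (nat_lit 67) (nat_lit 5) (nat_lit 68) (nat_lit 5) (nat_lit 345) (nat_lit 323) (nat_lit 232)))) (XT.nd (nat_lit 78) (nat_lit 228) (nat_lit 0) (XT.lf (nat_lit 0) (nat_lit 14480293450) (nat_lit 380) (nat_lit 5421102506) (nat_lit 76) (nat_lit 3662737639) (nat_lit 63) (nat_lit 5) (nat_lit 68) (nat_lit 5) (nat_lit 64) (nat_lit 5) (nat_lit 346) (nat_lit 323) (nat_lit 231)) (XT.nd (nat_lit 78) (nat_lit 0) (nat_lit 0) (XT.lf (nat_lit 0) (nat_lit 6996033611) (nat_lit 228) (nat_lit 11557650194) (nat_lit 304) (nat_lit 5722709495) (nat_lit 60) (nat_lit 5) (nat_lit 63) (nat_lit 5) (nat_lit 64) (nat_lit 5) (nat_lit 347) (nat_lit 323) (nat_lit 230)) (XT.lf (nat_lit 0) (nat_lit 20209623230) (nat_lit 228) (nat_lit 2703015397) (nat_lit 304) (nat_lit 2107544034) (nat_lit 60) (nat_lit 5) (nat_lit 63) (nat_lit 5) (nat_lit 64) (nat_lit 5) (nat_lit 348) (nat_lit 323) (nat_lit 229))))))))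
noncomputable def xc162 : XT := (XT.nd (nat_lit 1794) (nat_lit 988) (nat_lit 0) (XT.nd (nat_lit 858) (nat_lit 1064) (nat_lit 0) (XT.nd (nat_lit 390) (nat_lit 608) (nat_lit 0) (XT.nd (nat_lit 156) (nat_lit 456) (nat_lit 0) (XT.nd (nat_lit 78) (nat_lit 0) (nat_lit 0) (XT.lf (nat_lit 0) (nat_lit 1863227582) (nat_lit 380) (nat_lit 17382595175) (nat_lit 76) (nat_lit 6542586749) (nat_lit 55) (nat_lit 5) (nat_lit 60) (nat_lit 5) (nat_lit 56) (nat_lit 5) (nat_lit 349) (nat_lit 323) (nat_lit 228)) (XT.lf (nat_lit 0) (nat_lit 6079443875) (nat_lit 380) (nat_lit 4233726163) (nat_lit 76) (nat_lit 16274273353) (nat_lit 55) (nat_lit 5) (nat_lit 60) (nat_lit 5) (nat_lit 56) (nat_lit 5) (nat_lit 350) (nat_lit 323) (nat_lit 227))) (XT.nd (nat_lit 78) (nat_lit 228) (nat_lit 0) (XT.lf (nat_lit 0) (nat_lit 9876728743) (nat_lit 228) (nat_lit 775009421) (nat_lit 304) (nat_lit 16767436844) (nat_lit 52) (nat_lit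 5) (nat_lit 55) (nat_lit 5) (nat_lit 56) (nat_lit 5) (nat_lit 351) (nat_lit 323) (nat_lit 226)) (XT.nd (nat_lit 78) (nat_lit 228) (nat_lit 0) (XT.lf (nat_lit 0) (nat_lit 15661043172) (nat_lit 304) (nat_lit 3606831925) (nat_lit 76) (nat_lit 9014207257) (nat_lit 52) (nat_lit 5) (nat_lit 56) (nat_lit 5) (nat_lit 53) (nat_lit 5) (nat_lit 352) (nat_lit 323) (nat_lit 225)) (XT.lf (nat_lit 0) (nat_lit 11365012378) (nat_lit 228) (nat_lit 9737619309) (nat_lit 304) (nat_lit 8076420989) (nat_lit 49) (nat_lit 5) (nat_lit 52) (nat_lit 5) (nat_lit 53) (nat_lit 5) (nat_lit 353) (nat_lit 323) (nat_lit 224))))) (XT.nd (nat_lit 234) (nat_lit 380) (nat_lit 0) (XT.nd (nat_lit 78) (nat_lit 228) (nat_lit 0) (XT.lf (nat_lit 0) (nat_lit 26874426916) (nat_lit 304) (nat_lit 2924122903) (nat_lit 76) (nat_lit 319423448) (nat_lit 49) (nat_lit 5) (nat_lit 53) (nat_lit 5) (nat_lit 50) (nat_lit 5) (nat_lit 354) (nat_lit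 323) (nat_lit 223)) (XT.nd (nat_lit 78) (nat_lit 0) (nat_lit 0) (XT.lf (nat_lit 0) (nat_lit 2132278183) (nat_lit 228) (nat_lit 18166477084) (nat_lit 76) (nat_lit 10785667216) (nat_lit 46) (nat_lit 5) (nat_lit 49) (nat_lit 5) (nat_lit 47) (nat_lit 5) (nat_lit 355) (nat_lit 323) (nat_lit 222)) (XT.lf (nat_lit 0) (nat_lit 7710518197) (nat_lit 228) (nat_lit 2508359079) (nat_lit 76) (nat_lit 21875533817) (nat_lit 46) (nat_lit 5) (nat_lit 49) (nat_lit 5) (nat_lit 47) (nat_lit 5) (nat_lit 356) (nat_lit 323) (nat_lit 221)))) (XT.nd (nat_lit 78) (nat_lit 152) (nat_lit 0) (XT.lf (nat_lit 0) (nat_lit 13794205789) (nat_lit 304) (nat_lit 18771140244) (nat_lit 76) (nat_lit 578232999) (nat_lit 43) (nat_lit 5) (nat_lit 47) (nat_lit 5) (nat_lit 44) (nat_lit 5) (nat_lit 357) (nat_lit 323) (nat_lit 220)) (XT.nd (nat_lit 78) (nat_lit 152) (nat_lit 0) (XT.lf (nat_lit 0) (nat_lit 20385570009) (nat_lit 304)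 (nat_lit 2237830879) (nat_lit 76) (nat_lit 11611636227) (nat_lit 43) (nat_lit 5) (nat_lit 47) (nat_lit 5) (nat_lit 44) (nat_lit 5) (nat_lit 358) (nat_lit 323) (nat_lit 219)) (XT.lf (nat_lit 0) (nat_lit 15611434336) (nat_lit 152) (nat_lit 11931942533) (nat_lit 228) (nat_lit 7825853568) (nat_lit 41) (nat_lit 5) (nat_lit 43) (nat_lit 5) (nat_lit 44) (nat_lit 5) (nat_lit 359) (nat_lit 323) (nat_lit 218)))))) (XT.nd (nat_lit 468) (nat_lit 532) (nat_lit 0) (XT.nd (nat_lit 234) (nat_lit 304) (nat_lit 0) (XT.nd (nat_lit 78) (nat_lit 228) (nat_lit 0) (XT.lf (nat_lit 0) (nat_lit 34420649543) (nat_lit 152) (nat_lit 669626975) (nat_lit 228) (nat_lit 1468302553) (nat_lit 41) (nat_lit 5) (nat_lit 43) (nat_lit 5) (nat_lit 44) (nat_lit 5) (nat_lit 360) (nat_lit 323) (nat_lit 217)) (XT.nd (nat_lit 78) (nat_lit 0) (nat_lit 0) (XT.lf (nat_lit 0) (nat_lit 5476179453) (nat_lit 228) (nat_lit 21160583386) (nat_lit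 76) (nat_lit 11144786937) (nat_lit 38) (nat_lit 5) (nat_lit 41) (nat_lit 5) (nat_lit 39) (nat_lit 5) (nat_lit 361) (nat_lit 323) (nat_lit 216)) (XT.lf (nat_lit 0) (nat_lit 12759933992) (nat_lit 228) (nat_lit 2717515901) (nat_lit 76) (nat_lit 23584950930) (nat_lit 38) (nat_lit 5) (nat_lit 41) (nat_lit 5) (nat_lit 39) (nat_lit 5) (nat_lit 362) (nat_lit 323) (nat_lit 215)))) (XT.nd (nat_lit 78) (nat_lit 152) (nat_lit 0) (XT.lf (nat_lit 0) (nat_lit 17188268475) (nat_lit 152) (nat_lit 3481883974) (nat_lit 228) (nat_lit 19724032909) (nat_lit 36) (nat_lit 5) (nat_lit 38) (nat_lit 5) (nat_lit 39) (nat_lit 5) (nat_lit 363) (nat_lit 323) (nat_lit 214)) (XT.nd (nat_lit 78) (nat_lit 152) (nat_lit 0) (XT.lf (nat_lit 0) (nat_lit 29158952864) (nat_lit 228) (nat_lit 3759272285) (nat_lit 76) (nat_lit 8865184937) (nat_lit 36) (nat_lit 5) (nat_lit 39) (nat_lit 5) (nat_lit 37) (nat_lit 5) (nat_lit 364) (nat_lit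 323) (nat_lit 213)) (XT.lf (nat_lit 0) (nat_lit 17142076795) (nat_lit 152) (nat_lit 21249125254) (nat_lit 228) (nat_lit 4834947870) (nat_lit 34) (nat_lit 5) (nat_lit 36) (nat_lit 5) (nat_lit 37) (nat_lit 5) (nat_lit 365) (nat_lit 323) (nat_lit 212))))) (XT.nd (nat_lit 234) (nat_lit 304) (nat_lit 0) (XT.nd (nat_lit 78) (nat_lit 152) (nat_lit 0) (XT.lf (nat_lit 0) (nat_lit 3296043535) (nat_lit 228) (nat_lit 5581334430) (nat_lit 76) (nat_lit 35858090360) (nat_lit 33) (nat_lit 5) (nat_lit 36) (nat_lit 5) (nat_lit 34) (nat_lit 5) (nat_lit 366) (nat_lit 323) (nat_lit 211)) (XT.nd (nat_lit 78) (nat_lit 0) (nat_lit 0) (XT.lf (nat_lit 0) (nat_lit 11991132572) (nat_lit 228) (nat_lit 29990599936) (nat_lit 76) (nat_lit 4318559089) (nat_lit 31) (nat_lit 5) (nat_lit 34) (nat_lit 5) (nat_lit 32) (nat_lit 5) (nat_lit 367) (nat_lit 323) (nat_lit 210)) (XT.lf (nat_lit 0) (nat_lit 21357246163) (nat_lit 228)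 (nat_lit 8605546629) (nat_lit 76) (nat_lit 17968753276) (nat_lit 31) (nat_lit 5) (nat_lit 34) (nat_lit 5) (nat_lit 32) (nat_lit 5) (nat_lit 368) (nat_lit 323) (nat_lit 209)))) (XT.nd (nat_lit 78) (nat_lit 152) (nat_lit 0) (XT.lf (nat_lit 0) (nat_lit 14297928266) (nat_lit 152) (nat_lit 17111889007) (nat_lit 228) (nat_lit 18223641770) (nat_lit 29) (nat_lit 5) (nat_lit 31) (nat_lit 5) (nat_lit 32) (nat_lit 5) (nat_lit 369) (nat_lit 323) (nat_lit 208)) (XT.nd (nat_lit 78) (nat_lit 152) (nat_lit 0) (XT.lf (nat_lit 0) (nat_lit 38637024339) (nat_lit 152) (nat_lit 3468764796) (nat_lit 228) (nat_lit 9307643133) (nat_lit 29) (nat_lit 5) (nat_lit 31) (nat_lit 5) (nat_lit 32) (nat_lit 5) (nat_lit 370) (nat_lit 323) (nat_lit 207)) (XT.lf (nat_lit 0) (nat_lit 395791712) (nat_lit 152) (nat_lit 42183956799) (nat_lit 76) (nat_lit 10685447803) (nat_lit 27) (nat_lit 5) (nat_lit 29) (nat_lit 5) (nat_lit 28)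 (nat_lit 5) (nat_lit 371) (nat_lit 323) (nat_lit 206))))))) (XT.nd (nat_lit 858) (nat_lit 456) (nat_lit 0) (XT.nd (nat_lit 390) (nat_lit 304) (nat_lit 0) (XT.nd (nat_lit 156) (nat_lit 76) (nat_lit 0) (XT.nd (nat_lit 78) (nat_lit 152) (nat_lit 0) (XT.lf (nat_lit 0) (nat_lit 10543630559) (nat_lit 152) (nat_lit 18844529508) (nat_lit 76) (nat_lit 25800160548) (nat_lit 27) (nat_lit 5) (nat_lit 29) (nat_lit 5) (nat_lit 28) (nat_lit 5) (nat_lit 372) (nat_lit 323) (nat_lit 205)) (XT.lf (nat_lit 0) (nat_lit 5841066800) (nat_lit 152) (nat_lit 15444459809) (nat_lit 228) (nat_lit 35917743903) (nat_lit 25) (nat_lit 5) (nat_lit 27) (nat_lit 5) (nat_lit 28) (nat_lit 5) (nat_lit 373) (nat_lit 323) (nat_lit 204))) (XT.nd (nat_lit 78) (nat_lit 76) (nat_lit 0) (XT.lf (nat_lit 0) (nat_lit 32407554522) (nat_lit 152) (nat_lit 471670630) (nat_lit 228) (nat_lit 26424009882) (nat_lit 25) (nat_lit 5) (nat_lit 27)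 (nat_lit 5) (nat_lit 28) (nat_lit 5) (nat_lit 374) (nat_lit 323) (nat_lit 203)) (XT.nd (nat_lit 78) (nat_lit 76) (nat_lit 0) (XT.lf (nat_lit 0) (nat_lit 45286430172) (nat_lit 228) (nat_lit 1451353313) (nat_lit 76) (nat_lit 14758725617) (nat_lit 25) (nat_lit 5) (nat_lit 28) (nat_lit 5) (nat_lit 26) (nat_lit 4) (nat_lit 375) (nat_lit 323) (nat_lit 202)) (XT.lf (nat_lit 0) (nat_lit 26085272716) (nat_lit 76) (nat_lit 32639652660) (nat_lit 152) (nat_lit 5053977284) (nat_lit 24) (nat_lit 5) (nat_lit 25) (nat_lit 5) (nat_lit 26) (nat_lit 4) (nat_lit 376) (nat_lit 323) (nat_lit 201))))) (XT.nd (nat_lit 234) (nat_lit 76) (nat_lit 0) (XT.nd (nat_lit 78) (nat_lit 152) (nat_lit 0) (XT.lf (nat_lit 0) (nat_lit 6467703401) (nat_lit 152) (nat_lit 11236550937) (nat_lit 76) (nat_lit 48464917955) (nat_lit 23) (nat_lit 5) (nat_lit 25) (nat_lit 5) (nat_lit 24) (nat_lit 5) (nat_lit 377) (nat_lit 323) (nat_lit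 200)) (XT.nd (nat_lit 78) (nat_lit 0) (nat_lit 0) (XT.lf (nat_lit 0) (nat_lit 16997805222) (nat_lit 152) (nat_lit 1659343288) (nat_lit 228) (nat_lit 50004589908) (nat_lit 21) (nat_lit 5) (nat_lit 23) (nat_lit 5) (nat_lit 24) (nat_lit 5) (nat_lit 378) (nat_lit 323) (nat_lit 199)) (XT.lf (nat_lit 0) (nat_lit 31882784925) (nat_lit 228) (nat_lit 24482472504) (nat_lit 76) (nat_lit 14892341344) (nat_lit 21) (nat_lit 5) (nat_lit 24) (nat_lit 5) (nat_lit 22) (nat_lit 4) (nat_lit 379) (nat_lit 323) (nat_lit 198)))) (XT.nd (nat_lit 78) (nat_lit 0) (nat_lit 0) (XT.lf (nat_lit 0) (nat_lit 4157449507) (nat_lit 76) (nat_lit 41700726087) (nat_lit 152) (nat_lit 28120654719) (nat_lit 20) (nat_lit 5) (nat_lit 21) (nat_lit 5) (nat_lit 22) (nat_lit 4) (nat_lit 380) (nat_lit 323) (nat_lit 197)) (XT.nd (nat_lit 78) (nat_lit 0) (nat_lit 0) (XT.lf (nat_lit 0) (nat_lit 35072974483) (nat_lit 76) (nat_lit 25870418341)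 (nat_lit 152) (nat_lit 15872179458) (nat_lit 20) (nat_lit 5) (nat_lit 21) (nat_lit 5) (nat_lit 22) (nat_lit 4) (nat_lit 381) (nat_lit 323) (nat_lit 196)) (XT.lf (nat_lit 0) (nat_lit 67528209709) (nat_lit 76) (nat_lit 9251265500) (nat_lit 152) (nat_lit 3014847549) (nat_lit 20) (nat_lit 5) (nat_lit 21) (nat_lit 5) (nat_lit 22) (nat_lit 4) (nat_lit 382) (nat_lit 323) (nat_lit 195)))))) (XT.nd (nat_lit 468) (nat_lit 152) (nat_lit 0) (XT.nd (nat_lit 234) (nat_lit 152) (nat_lit 0) (XT.nd (nat_lit 78) (nat_lit 0) (nat_lit 0) (XT.lf (nat_lit 0) (nat_lit 10580633875) (nat_lit 152) (nat_lit 63907826500) (nat_lit 76) (nat_lit 8403822585) (nat_lit 18) (nat_lit 5) (nat_lit 20) (nat_lit 5) (nat_lit 19) (nat_lit 4) (nat_lit 383) (nat_lit 323) (nat_lit 194)) (XT.nd (nat_lit 78) (nat_lit 0) (nat_lit 0) (XT.lf (nat_lit 0) (nat_lit 25114106343) (nat_lit 152) (nat_lit 34121752407) (nat_lit 76) (nat_lit 26888835858)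 (nat_lit 18) (nat_lit 5) (nat_lit 20) (nat_lit 5) (nat_lit 19) (nat_lit 4) (nat_lit 384) (nat_lit 323) (nat_lit 193)) (XT.lf (nat_lit 0) (nat_lit 40371145307) (nat_lit 152) (nat_lit 2852007736) (nat_lit 76) (nat_lit 46295730486) (nat_lit 18) (nat_lit 5) (nat_lit 20) (nat_lit 5) (nat_lit 19) (nat_lit 4) (nat_lit 385) (nat_lit 323) (nat_lit 192)))) (XT.nd (nat_lit 78) (nat_lit 76) (nat_lit 0) (XT.lf (nat_lit 0) (nat_lit 30966996568) (nat_lit 76) (nat_lit 25904562083) (nat_lit 152) (nat_lit 36187198392) (nat_lit 17) (nat_lit 5) (nat_lit 18) (nat_lit 5) (nat_lit 19) (nat_lit 4) (nat_lit 386) (nat_lit 323) (nat_lit 191)) (XT.nd (nat_lit 78) (nat_lit 76) (nat_lit 0) (XT.lf (nat_lit 0) (nat_lit 66570688004) (nat_lit 76) (nat_lit 7671704125) (nat_lit 152) (nat_lit 22530963344) (nat_lit 17) (nat_lit 5) (nat_lit 18) (nat_lit 5) (nat_lit 19) (nat_lit 4) (nat_lit 387) (nat_lit 323) (nat_lit 190))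 (XT.lf (nat_lit 0) (nat_lit 3199015215) (nat_lit 76) (nat_lit 89509022274) (nat_lit 76) (nat_lit 7954333976) (nat_lit 16) (nat_lit 4) (nat_lit 17) (nat_lit 5) (nat_lit 17) (nat_lit 4) (nat_lit 388) (nat_lit 323) (nat_lit 189))))) (XT.nd (nat_lit 234) (nat_lit 0) (nat_lit 0) (XT.nd (nat_lit 78) (nat_lit 76) (nat_lit 0) (XT.lf (nat_lit 0) (nat_lit 7758702998) (nat_lit 152) (nat_lit 65654976946) (nat_lit 76) (nat_lit 31294277870) (nat_lit 15) (nat_lit 5) (nat_lit 17) (nat_lit 5) (nat_lit 16) (nat_lit 4) (nat_lit 389) (nat_lit 323) (nat_lit 188)) (XT.nd (nat_lit 78) (nat_lit 76) (nat_lit 0) (XT.lf (nat_lit 0) (nat_lit 23987417361) (nat_lit 152) (nat_lit 32391474213) (nat_lit 76) (nat_lit 52570545790) (nat_lit 15) (nat_lit 5) (nat_lit 17) (nat_lit 5) (nat_lit 16) (nat_lit 4) (nat_lit 390) (nat_lit 323) (nat_lit 187)) (XT.lf (nat_lit 0) (nat_lit 2614211297) (nat_lit 76) (nat_lit 38451641138)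 (nat_lit 152) (nat_lit 72335225155) (nat_lit 14) (nat_lit 5) (nat_lit 15) (nat_lit 5) (nat_lit 16) (nat_lit 4) (nat_lit 391) (nat_lit 323) (nat_lit 186)))) (XT.nd (nat_lit 78) (nat_lit 0) (nat_lit 0) (XT.lf (nat_lit 0) (nat_lit 40490151695) (nat_lit 76) (nat_lit 19054141533) (nat_lit 152) (nat_lit 58503703303) (nat_lit 14) (nat_lit 5) (nat_lit 15) (nat_lit 5) (nat_lit 16) (nat_lit 4) (nat_lit 392) (nat_lit 323) (nat_lit 185)) (XT.nd (nat_lit 78) (nat_lit 0) (nat_lit 0) (XT.lf (nat_lit 0) (nat_lit 78964764819) (nat_lit 152) (nat_lit 42692332989) (nat_lit 0) (nat_lit 1269259036) (nat_lit 14) (nat_lit 5) (nat_lit 16) (nat_lit 4) (nat_lit 14) (nat_lit 4) (nat_lit 393) (nat_lit 323) (nat_lit 184)) (XT.lf (nat_lit 0) (nat_lit 99666342495) (nat_lit 152) (nat_lit 6400153699) (nat_lit 0) (nat_lit 21966635671) (nat_lit 14) (nat_lit 5) (nat_lit 16) (nat_lit 4) (nat_lit 14) (nat_lit 4) (nat_lit 394)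 (nat_lit 323) (nat_lit 183))))))))
noncomputable def xc163 : XT := (XT.nd (nat_lit 1794) (nat_lit 152) (nat_lit 0) (XT.nd (nat_lit 858) (nat_lit 228) (nat_lit 0) (XT.nd (nat_lit 390) (nat_lit 152) (nat_lit 0) (XT.nd (nat_lit 156) (nat_lit 76) (nat_lit 0) (XT.nd (nat_lit 78) (nat_lit 76) (nat_lit 0) (XT.lf (nat_lit 0) (nat_lit 32750822380) (nat_lit 76) (nat_lit 89161336921) (nat_lit 76) (nat_lit 11457629105) (nat_lit 13) (nat_lit 4) (nat_lit 14) (nat_lit 5) (nat_lit 14) (nat_lit 4) (nat_lit 395) (nat_lit 323) (nat_lit 182)) (XT.lf (nat_lit 0) (nat_lit 6203446569) (nat_lit 152) (nat_lit 64990452815) (nat_lit 76) (nat_lit 67769063396) (nat_lit 12) (nat_lit 5) (nat_lit 14) (nat_lit 5) (nat_lit 13) (nat_lit 4) (nat_lit 396) (nat_lit 323) (nat_lit 181))) (XT.nd (nat_lit 78) (nat_lit 76) (nat_lit 0) (XT.lf (nat_lit 0) (nat_lit 24360461507) (nat_lit 152) (nat_lit 27772201209) (nat_lit 76) (nat_lit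 92693845484) (nat_lit 12) (nat_lit 5) (nat_lit 14) (nat_lit 5) (nat_lit 13) (nat_lit 4) (nat_lit 397) (nat_lit 323) (nat_lit 180)) (XT.nd (nat_lit 78) (nat_lit 0) (nat_lit 0) (XT.lf (nat_lit 0) (nat_lit 11677027168) (nat_lit 76) (nat_lit 31928646331) (nat_lit 152) (nat_lit 107368540719) (nat_lit 11) (nat_lit 5) (nat_lit 12) (nat_lit 5) (nat_lit 13) (nat_lit 4) (nat_lit 398) (nat_lit 323) (nat_lit 179)) (XT.lf (nat_lit 0) (nat_lit 54059290730) (nat_lit 76) (nat_lit 10222263348) (nat_lit 152) (nat_lit 93124331670) (nat_lit 11) (nat_lit 5) (nat_lit 12) (nat_lit 5) (nat_lit 13) (nat_lit 4) (nat_lit 399) (nat_lit 323) (nat_lit 178))))) (XT.nd (nat_lit 234) (nat_lit 76) (nat_lit 0) (XT.nd (nat_lit 78) (nat_lit 76) (nat_lit 0) (XT.lf (nat_lit 0) (nat_lit 86185611888) (nat_lit 152) (nat_lit 65798227086) (nat_lit 0) (nat_lit 12165583304) (nat_lit 11) (nat_lit 5) (nat_lit 13) (nat_lit 4) (nat_lit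 11) (nat_lit 4) (nat_lit 400) (nat_lit 323) (nat_lit 177)) (XT.nd (nat_lit 78) (nat_lit 76) (nat_lit 0) (XT.lf (nat_lit 0) (nat_lit 109350678329) (nat_lit 152) (nat_lit 26543361258) (nat_lit 0) (nat_lit 35327806315) (nat_lit 11) (nat_lit 5) (nat_lit 13) (nat_lit 4) (nat_lit 11) (nat_lit 4) (nat_lit 401) (nat_lit 323) (nat_lit 176)) (XT.lf (nat_lit 0) (nat_lit 15156156262) (nat_lit 76) (nat_lit 118752783954) (nat_lit 76) (nat_lit 44727203912) (nat_lit 10) (nat_lit 4) (nat_lit 11) (nat_lit 5) (nat_lit 11) (nat_lit 4) (nat_lit 402) (nat_lit 323) (nat_lit 175)))) (XT.nd (nat_lit 78) (nat_lit 76) (nat_lit 0) (XT.lf (nat_lit 0) (nat_lit 59859043316) (nat_lit 76) (nat_lit 100283940080) (nat_lit 76) (nat_lit 26255780963) (nat_lit 10) (nat_lit 4) (nat_lit 11) (nat_lit 5) (nat_lit 11) (nat_lit 4) (nat_lit 403) (nat_lit 323) (nat_lit 174)) (XT.nd (nat_lit 78) (nat_lit 76) (nat_lit 0) (XT.lf (nat_lit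 0) (nat_lit 106794091953) (nat_lit 76) (nat_lit 80893059193) (nat_lit 76) (nat_lit 6862443815) (nat_lit 10) (nat_lit 4) (nat_lit 11) (nat_lit 5) (nat_lit 11) (nat_lit 4) (nat_lit 404) (nat_lit 323) (nat_lit 173)) (XT.lf (nat_lit 0) (nat_lit 13066930413) (nat_lit 152) (nat_lit 47245747326) (nat_lit 76) (nat_lit 142784827085) (nat_lit 9) (nat_lit 5) (nat_lit 11) (nat_lit 5) (nat_lit 10) (nat_lit 4) (nat_lit 405) (nat_lit 323) (nat_lit 172)))))) (XT.nd (nat_lit 468) (nat_lit 152) (nat_lit 0) (XT.nd (nat_lit 234) (nat_lit 0) (nat_lit 0) (XT.nd (nat_lit 78) (nat_lit 76) (nat_lit 0) (XT.lf (nat_lit 0) (nat_lit 33760695444) (nat_lit 152) (nat_lit 4825756915) (nat_lit 76) (nat_lit 173480806022) (nat_lit 9) (nat_lit 5) (nat_lit 11) (nat_lit 5) (nat_lit 10) (nat_lit 4) (nat_lit 406) (nat_lit 323) (nat_lit 171)) (XT.nd (nat_lit 78) (nat_lit 0) (nat_lit 0) (XT.lf (nat_lit 0) (nat_lit 41025688421)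 (nat_lit 76) (nat_lit 15102600753) (nat_lit 152) (nat_lit 165325253813) (nat_lit 8) (nat_lit 5) (nat_lit 9) (nat_lit 5) (nat_lit 10) (nat_lit 4) (nat_lit 407) (nat_lit 323) (nat_lit 170)) (XT.lf (nat_lit 0) (nat_lit 79845137257) (nat_lit 152) (nat_lit 142120966959) (nat_lit 0) (nat_lit 9331494248) (nat_lit 8) (nat_lit 5) (nat_lit 10) (nat_lit 4) (nat_lit 8) (nat_lit 4) (nat_lit 408) (nat_lit 323) (nat_lit 169)))) (XT.nd (nat_lit 78) (nat_lit 0) (nat_lit 0) (XT.lf (nat_lit 0) (nat_lit 104994098133) (nat_lit 152) (nat_lit 102148823199) (nat_lit 0) (nat_lit 34478622223) (nat_lit 8) (nat_lit 5) (nat_lit 10) (nat_lit 4) (nat_lit 8) (nat_lit 4) (nat_lit 409) (nat_lit 323) (nat_lit 168)) (XT.nd (nat_lit 78) (nat_lit 0) (nat_lit 0) (XT.lf (nat_lit 0) (nat_lit 131399256355) (nat_lit 152) (nat_lit 60180457594) (nat_lit 0) (nat_lit 60882034827) (nat_lit 8) (nat_lit 5) (nat_lit 10) (nat_lit 4) (nat_lit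 8) (nat_lit 4) (nat_lit 410) (nat_lit 323) (nat_lit 167)) (XT.lf (nat_lit 0) (nat_lit 159123481349) (nat_lit 152) (nat_lit 16115945462) (nat_lit 0) (nat_lit 88604597327) (nat_lit 8) (nat_lit 5) (nat_lit 10) (nat_lit 4) (nat_lit 8) (nat_lit 4) (nat_lit 411) (nat_lit 323) (nat_lit 166))))) (XT.nd (nat_lit 234) (nat_lit 76) (nat_lit 0) (XT.nd (nat_lit 78) (nat_lit 0) (nat_lit 0) (XT.lf (nat_lit 0) (nat_lit 31146511584) (nat_lit 76) (nat_lit 157572555924) (nat_lit 76) (nat_lit 87052088573) (nat_lit 7) (nat_lit 4) (nat_lit 8) (nat_lit 5) (nat_lit 8) (nat_lit 4) (nat_lit 412) (nat_lit 323) (nat_lit 165)) (XT.nd (nat_lit 78) (nat_lit 0) (nat_lit 0) (XT.lf (nat_lit 0) (nat_lit 81329472040) (nat_lit 76) (nat_lit 138736778637) (nat_lit 76) (nat_lit 68214803354) (nat_lit 7) (nat_lit 4) (nat_lit 8) (nat_lit 5) (nat_lit 8) (nat_lit 4) (nat_lit 413) (nat_lit 323) (nat_lit 164)) (XT.lf (nat_lit 0) (nat_lit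 134019553206) (nat_lit 76) (nat_lit 118960179195) (nat_lit 76) (nat_lit 48436767788) (nat_lit 7) (nat_lit 4) (nat_lit 8) (nat_lit 5) (nat_lit 8) (nat_lit 4) (nat_lit 414) (nat_lit 323) (nat_lit 163)))) (XT.nd (nat_lit 78) (nat_lit 76) (nat_lit 0) (XT.lf (nat_lit 0) (nat_lit 189342207655) (nat_lit 76) (nat_lit 98195670458) (nat_lit 76) (nat_lit 27670891313) (nat_lit 7) (nat_lit 4) (nat_lit 8) (nat_lit 5) (nat_lit 8) (nat_lit 4) (nat_lit 415) (nat_lit 323) (nat_lit 162)) (XT.nd (nat_lit 78) (nat_lit 76) (nat_lit 0) (XT.lf (nat_lit 0) (nat_lit 247429155993) (nat_lit 76) (nat_lit 76393813119) (nat_lit 76) (nat_lit 5867731366) (nat_lit 7) (nat_lit 4) (nat_lit 8) (nat_lit 5) (nat_lit 8) (nat_lit 4) (nat_lit 416) (nat_lit 323) (nat_lit 161)) (XT.lf (nat_lit 0) (nat_lit 16479730038) (nat_lit 152) (nat_lit 36743875754) (nat_lit 76) (nat_lit 291659878239) (nat_lit 6) (nat_lit 5) (nat_lit 8) (nat_lit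 5) (nat_lit 7) (nat_lit 4) (nat_lit 417) (nat_lit 323) (nat_lit 160))))))) (XT.nd (nat_lit 858) (nat_lit 0) (nat_lit 0) (XT.nd (nat_lit 390) (nat_lit 76) (nat_lit 0) (XT.nd (nat_lit 156) (nat_lit 0) (nat_lit 0) (XT.nd (nat_lit 78) (nat_lit 0) (nat_lit 0) (XT.lf (nat_lit 0) (nat_lit 11313902196) (nat_lit 76) (nat_lit 28609222697) (nat_lit 152) (nat_lit 320899184739) (nat_lit 5) (nat_lit 5) (nat_lit 6) (nat_lit 5) (nat_lit 7) (nat_lit 4) (nat_lit 418) (nat_lit 323) (nat_lit 159)) (XT.lf (nat_lit 0) (nat_lit 63048563393) (nat_lit 76) (nat_lit 2111530495) (nat_lit 152) (nat_lit 312366912616) (nat_lit 5) (nat_lit 5) (nat_lit 6) (nat_lit 5) (nat_lit 7) (nat_lit 4) (nat_lit 419) (nat_lit 323) (nat_lit 158))) (XT.nd (nat_lit 78) (nat_lit 0) (nat_lit 0) (XT.lf (nat_lit 0) (nat_lit 92059491490) (nat_lit 152) (nat_lit 278100022368) (nat_lit 0) (nat_lit 24887395550) (nat_lit 5) (nat_lit 5) (nat_lit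 7) (nat_lit 4) (nat_lit 5) (nat_lit 4) (nat_lit 420) (nat_lit 323) (nat_lit 157)) (XT.nd (nat_lit 78) (nat_lit 0) (nat_lit 0) (XT.lf (nat_lit 0) (nat_lit 120337672960) (nat_lit 152) (nat_lit 239938838996) (nat_lit 0) (nat_lit 53164604994) (nat_lit 5) (nat_lit 5) (nat_lit 7) (nat_lit 4) (nat_lit 5) (nat_lit 4) (nat_lit 421) (nat_lit 323) (nat_lit 156)) (XT.lf (nat_lit 0) (nat_lit 150029000392) (nat_lit 152) (nat_lit 199871066125) (nat_lit 0) (nat_lit 82855006687) (nat_lit 5) (nat_lit 5) (nat_lit 7) (nat_lit 4) (nat_lit 5) (nat_lit 4) (nat_lit 422) (nat_lit 323) (nat_lit 155))))) (XT.nd (nat_lit 234) (nat_lit 76) (nat_lit 0) (XT.nd (nat_lit 78) (nat_lit 0) (nat_lit 0) (XT.lf (nat_lit 0) (nat_lit 181204167423) (nat_lit 152) (nat_lit 157801304297) (nat_lit 0) (nat_lit 114029292062) (nat_lit 5) (nat_lit 5) (nat_lit 7) (nat_lit 4) (nat_lit 5) (nat_lit 4) (nat_lit 423) (nat_lit 323) (nat_lit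 154)) (XT.nd (nat_lit 78) (nat_lit 0) (nat_lit 0) (XT.lf (nat_lit 0) (nat_lit 213937400641) (nat_lit 152) (nat_lit 113629387411) (nat_lit 0) (nat_lit 146761685607) (nat_lit 5) (nat_lit 5) (nat_lit 7) (nat_lit 4) (nat_lit 5) (nat_lit 4) (nat_lit 424) (nat_lit 323) (nat_lit 153)) (XT.lf (nat_lit 0) (nat_lit 248306636317) (nat_lit 152) (nat_lit 67250144238) (nat_lit 0) (nat_lit 181130121594) (nat_lit 5) (nat_lit 5) (nat_lit 7) (nat_lit 4) (nat_lit 5) (nat_lit 4) (nat_lit 425) (nat_lit 323) (nat_lit 152)))) (XT.nd (nat_lit 78) (nat_lit 76) (nat_lit 0) (XT.lf (nat_lit 0) (nat_lit 284393705962) (nat_lit 152) (nat_lit 18553148007) (nat_lit 0) (nat_lit 217216429632) (nat_lit 5) (nat_lit 5) (nat_lit 7) (nat_lit 4) (nat_lit 5) (nat_lit 4) (nat_lit 426) (nat_lit 323) (nat_lit 151)) (XT.nd (nat_lit 78) (nat_lit 0) (nat_lit 0) (XT.lf (nat_lit 0) (nat_lit 33654707322) (nat_lit 76) (nat_lit 289155268148)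 (nat_lit 76) (nat_lit 221977266477) (nat_lit 4) (nat_lit 4) (nat_lit 5) (nat_lit 5) (nat_lit 5) (nat_lit 4) (nat_lit 427) (nat_lit 323) (nat_lit 150)) (XT.lf (nat_lit 0) (nat_lit 89115945871) (nat_lit 76) (nat_lit 274344731989) (nat_lit 76) (nat_lit 207166039517) (nat_lit 4) (nat_lit 4) (nat_lit 5) (nat_lit 5) (nat_lit 5) (nat_lit 4) (nat_lit 428) (nat_lit 323) (nat_lit 149)))))) (XT.nd (nat_lit 39000) (nat_lit 0) (nat_lit 6764) (XT.nd (nat_lit 38766) (nat_lit 0) (nat_lit 7296) (XT.nd (nat_lit 78) (nat_lit 0) (nat_lit 0) (XT.lf (nat_lit 0) (nat_lit 147349167345) (nat_lit 76) (nat_lit 258794188848) (nat_lit 76) (nat_lit 191614838471) (nat_lit 4) (nat_lit 4) (nat_lit 5) (nat_lit 5) (nat_lit 5) (nat_lit 4) (nat_lit 429) (nat_lit 323) (nat_lit 148)) (XT.nd (nat_lit 38610) (nat_lit 0) (nat_lit 7296) (XT.lf (nat_lit 0) (nat_lit 208493022272) (nat_lit 76) (nat_lit 242466613624) (nat_lit 76) (nat_lit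 175286636670) (nat_lit 4) (nat_lit 4) (nat_lit 5) (nat_lit 5) (nat_lit 5) (nat_lit 4) (nat_lit 430) (nat_lit 323) (nat_lit 147)) (XT.lf (nat_lit 0) (nat_lit 2008194762) (nat_lit 0) (nat_lit 2008194762) (nat_lit 684) (nat_lit 2691527716) (nat_lit 100) (nat_lit 5) (nat_lit 100) (nat_lit 3) (nat_lit 109) (nat_lit 3) (nat_lit 324) (nat_lit 324) (nat_lit 252)))) (XT.nd (nat_lit 78) (nat_lit 0) (nat_lit 0) (XT.lf (nat_lit 0) (nat_lit 8620732518) (nat_lit 684) (nat_lit 3197284713) (nat_lit 760) (nat_lit 1913308421) (nat_lit 100) (nat_lit 5) (nat_lit 109) (nat_lit 3) (nat_lit 110) (nat_lit 5) (nat_lit 325) (nat_lit 324) (nat_lit 251)) (XT.nd (nat_lit 78) (nat_lit 0) (nat_lit 76) (XT.lf (nat_lit 76) (nat_lit 3343394174) (nat_lit 0) (nat_lit 5990103725) (nat_lit 760) (nat_lit 4724357848) (nat_lit 101) (nat_lit 5) (nat_lit 100) (nat_lit 5) (nat_lit 110) (nat_lit 5) (nat_lit 326) (nat_lit 324) (nat_lit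 250)) (XT.lf (nat_lit 0) (nat_lit 10117351217) (nat_lit 684) (nat_lit 4092615342) (nat_lit 760) (nat_lit 189006714) (nat_lit 101) (nat_lit 5) (nat_lit 110) (nat_lit 5) (nat_lit 111) (nat_lit 5) (nat_lit 327) (nat_lit 324) (nat_lit 249))))) (XT.nd (nat_lit 234) (nat_lit 608) (nat_lit 0) (XT.nd (nat_lit 78) (nat_lit 0) (nat_lit 0) (XT.lf (nat_lit 76) (nat_lit 2839860960) (nat_lit 0) (nat_lit 8222498734) (nat_lit 760) (nat_lit 3688720674) (nat_lit 102) (nat_lit 5) (nat_lit 101) (nat_lit 5) (nat_lit 111) (nat_lit 5) (nat_lit 328) (nat_lit 324) (nat_lit 248)) (XT.nd (nat_lit 78) (nat_lit 0) (nat_lit 76) (XT.lf (nat_lit 76) (nat_lit 10248102548) (nat_lit 0) (nat_lit 1856029965) (nat_lit 760) (nat_lit 3014214910) (nat_lit 102) (nat_lit 5) (nat_lit 101) (nat_lit 5) (nat_lit 111) (nat_lit 5) (nat_lit 329) (nat_lit 324) (nat_lit 247)) (XT.lf (nat_lit 76) (nat_lit 2514464543) (nat_lit 0) (nat_lit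 10779425846) (nat_lit 760) (nat_lit 2205321480) (nat_lit 103) (nat_lit 5) (nat_lit 102) (nat_lit 5) (nat_lit 112) (nat_lit 5) (nat_lit 330) (nat_lit 324) (nat_lit 246)))) (XT.nd (nat_lit 78) (nat_lit 684) (nat_lit 0) (XT.lf (nat_lit 76) (nat_lit 10392874833) (nat_lit 0) (nat_lit 4244612395) (nat_lit 760) (nat_lit 1256942240) (nat_lit 103) (nat_lit 5) (nat_lit 102) (nat_lit 5) (nat_lit 112) (nat_lit 5) (nat_lit 331) (nat_lit 324) (nat_lit 245)) (XT.nd (nat_lit 78) (nat_lit 760) (nat_lit 0) (XT.lf (nat_lit 76) (nat_lit 2377518533) (nat_lit 0) (nat_lit 13731590828) (nat_lit 760) (nat_lit 197282489) (nat_lit 104) (nat_lit 5) (nat_lit 103) (nat_lit 5) (nat_lit 113) (nat_lit 5) (nat_lit 332) (nat_lit 324) (nat_lit 244)) (XT.lf (nat_lit 0) (nat_lit 1033526800) (nat_lit 760) (nat_lit 5992028053) (nat_lit 836) (nat_lit 9705333484) (nat_lit 93) (nat_lit 5) (nat_lit 103) (nat_lit 5) (nat_lit 104)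 (nat_lit 5) (nat_lit 333) (nat_lit 324) (nat_lit 243))))))))
noncomputable def xc164 : XT := (XT.nd (nat_lit 1716) (nat_lit 1976) (nat_lit 0) (XT.nd (nat_lit 858) (nat_lit 1368) (nat_lit 0) (XT.nd (nat_lit 390) (nat_lit 988) (nat_lit 0) (XT.nd (nat_lit 156) (nat_lit 1064) (nat_lit 0) (XT.nd (nat_lit 78) (nat_lit 0) (nat_lit 0) (XT.lf (nat_lit 0) (nat_lit 2341689878) (nat_lit 760) (nat_lit 14774264806) (nat_lit 76) (nat_lit 59393705) (nat_lit 94) (nat_lit 5) (nat_lit 104) (nat_lit 5) (nat_lit 95) (nat_lit 5) (nat_lit 334) (nat_lit 324) (nat_lit 242)) (XT.lf (nat_lit 0) (nat_lit 3918155636) (nat_lit 760) (nat_lit 6345750987) (nat_lit 76) (nat_lit 7368001630) (nat_lit 94) (nat_lit 5) (nat_lit 104) (nat_lit 5) (nat_lit 95) (nat_lit 5) (nat_lit 335) (nat_lit 324) (nat_lit 241))) (XT.nd (nat_lit 78) (nat_lit 380) (nat_lit 0) (XT.lf (nat_lit 0) (nat_lit 2573374166) (nat_lit 684) (nat_lit 3025562412)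 (nat_lit 760) (nat_lit 12511105444) (nat_lit 85) (nat_lit 5) (nat_lit 94) (nat_lit 5) (nat_lit 95) (nat_lit 5) (nat_lit 336) (nat_lit 324) (nat_lit 240)) (XT.nd (nat_lit 78) (nat_lit 380) (nat_lit 0) (XT.lf (nat_lit 0) (nat_lit 7530240875) (nat_lit 760) (nat_lit 6534842903) (nat_lit 76) (nat_lit 4538694021) (nat_lit 85) (nat_lit 5) (nat_lit 95) (nat_lit 5) (nat_lit 86) (nat_lit 5) (nat_lit 337) (nat_lit 324) (nat_lit 239)) (XT.lf (nat_lit 0) (nat_lit 2948792830) (nat_lit 380) (nat_lit 6691460900) (nat_lit 456) (nat_lit 9477858070) (nat_lit 80) (nat_lit 5) (nat_lit 85) (nat_lit 5) (nat_lit 86) (nat_lit 5) (nat_lit 338) (nat_lit 324) (nat_lit 238))))) (XT.nd (nat_lit 234) (nat_lit 684) (nat_lit 0) (XT.nd (nat_lit 78) (nat_lit 304) (nat_lit 0) (XT.lf (nat_lit 0) (nat_lit 11971609032) (nat_lit 456) (nat_lit 6550888247) (nat_lit 76) (nat_lit 1129890849) (nat_lit 80) (nat_lit 5) (nat_lit 86)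 (nat_lit 5) (nat_lit 81) (nat_lit 5) (nat_lit 339) (nat_lit 324) (nat_lit 237)) (XT.nd (nat_lit 78) (nat_lit 0) (nat_lit 0) (XT.lf (nat_lit 0) (nat_lit 3539163512) (nat_lit 304) (nat_lit 11032892542) (nat_lit 380) (nat_lit 5633712892) (nat_lit 76) (nat_lit 5) (nat_lit 80) (nat_lit 5) (nat_lit 81) (nat_lit 5) (nat_lit 340) (nat_lit 324) (nat_lit 236)) (XT.lf (nat_lit 0) (nat_lit 14348477891) (nat_lit 304) (nat_lit 3052955597) (nat_lit 380) (nat_lit 3380455985) (nat_lit 76) (nat_lit 5) (nat_lit 80) (nat_lit 5) (nat_lit 81) (nat_lit 5) (nat_lit 341) (nat_lit 324) (nat_lit 235)))) (XT.nd (nat_lit 78) (nat_lit 380) (nat_lit 0) (XT.lf (nat_lit 0) (nat_lit 4355029169) (nat_lit 304) (nat_lit 16156927464) (nat_lit 380) (nat_lit 867890856) (nat_lit 72) (nat_lit 5) (nat_lit 76) (nat_lit 5) (nat_lit 77) (nat_lit 5) (nat_lit 342) (nat_lit 324) (nat_lit 234)) (XT.nd (nat_lit 78) (nat_lit 304) (nat_lit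 0) (XT.lf (nat_lit 0) (nat_lit 1863114045) (nat_lit 380) (nat_lit 6188315727) (nat_lit 76) (nat_lit 13947431934) (nat_lit 71) (nat_lit 5) (nat_lit 76) (nat_lit 5) (nat_lit 72) (nat_lit 5) (nat_lit 343) (nat_lit 324) (nat_lit 233)) (XT.lf (nat_lit 0) (nat_lit 4782756851) (nat_lit 380) (nat_lit 17318956212) (nat_lit 76) (nat_lit 542352681) (nat_lit 67) (nat_lit 5) (nat_lit 72) (nat_lit 5) (nat_lit 68) (nat_lit 5) (nat_lit 344) (nat_lit 324) (nat_lit 232)))))) (XT.nd (nat_lit 390) (nat_lit 836) (nat_lit 0) (XT.nd (nat_lit 156) (nat_lit 228) (nat_lit 0) (XT.nd (nat_lit 78) (nat_lit 304) (nat_lit 0) (XT.lf (nat_lit 0) (nat_lit 8076417104) (nat_lit 380) (nat_lit 5833482156) (nat_lit 76) (nat_lit 9400241549) (nat_lit 67) (nat_lit 5) (nat_lit 72) (nat_lit 5) (nat_lit 68) (nat_lit 5) (nat_lit 345) (nat_lit 324) (nat_lit 231)) (XT.lf (nat_lit 0) (nat_lit 6419802258) (nat_lit 304) (nat_lit 5205212517)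 (nat_lit 380) (nat_lit 12380004125) (nat_lit 63) (nat_lit 5) (nat_lit 67) (nat_lit 5) (nat_lit 68) (nat_lit 5) (nat_lit 346) (nat_lit 324) (nat_lit 230))) (XT.nd (nat_lit 78) (nat_lit 228) (nat_lit 0) (XT.lf (nat_lit 0) (nat_lit 15503169417) (nat_lit 380) (nat_lit 5316684501) (nat_lit 76) (nat_lit 3907192043) (nat_lit 63) (nat_lit 5) (nat_lit 68) (nat_lit 5) (nat_lit 64) (nat_lit 5) (nat_lit 347) (nat_lit 324) (nat_lit 229)) (XT.nd (nat_lit 78) (nat_lit 0) (nat_lit 0) (XT.lf (nat_lit 0) (nat_lit 7715252403) (nat_lit 228) (nat_lit 12056513032) (nat_lit 304) (nat_lit 5703593134) (nat_lit 60) (nat_lit 5) (nat_lit 63) (nat_lit 5) (nat_lit 64) (nat_lit 5) (nat_lit 348) (nat_lit 324) (nat_lit 228)) (XT.lf (nat_lit 0) (nat_lit 21571930213) (nat_lit 228) (nat_lit 2762909337) (nat_lit 304) (nat_lit 1922205202) (nat_lit 60) (nat_lit 5) (nat_lit 63) (nat_lit 5) (nat_lit 64) (nat_lit 5) (nat_lit 349)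 (nat_lit 324) (nat_lit 227))))) (XT.nd (nat_lit 234) (nat_lit 228) (nat_lit 0) (XT.nd (nat_lit 78) (nat_lit 228) (nat_lit 0) (XT.lf (nat_lit 0) (nat_lit 2231232609) (nat_lit 380) (nat_lit 17883434330) (nat_lit 76) (nat_lit 6949131885) (nat_lit 55) (nat_lit 5) (nat_lit 60) (nat_lit 5) (nat_lit 56) (nat_lit 5) (nat_lit 350) (nat_lit 324) (nat_lit 226)) (XT.nd (nat_lit 78) (nat_lit 228) (nat_lit 0) (XT.lf (nat_lit 0) (nat_lit 6645171924) (nat_lit 380) (nat_lit 4094659516) (nat_lit 76) (nat_lit 17163621115) (nat_lit 55) (nat_lit 5) (nat_lit 60) (nat_lit 5) (nat_lit 56) (nat_lit 5) (nat_lit 351) (nat_lit 324) (nat_lit 225)) (XT.lf (nat_lit 0) (nat_lit 10715660830) (nat_lit 228) (nat_lit 723343443) (nat_lit 304) (nat_lit 17338133417) (nat_lit 52) (nat_lit 5) (nat_lit 55) (nat_lit 5) (nat_lit 56) (nat_lit 5) (nat_lit 352) (nat_lit 324) (nat_lit 224)))) (XT.nd (nat_lit 78) (nat_lit 228) (nat_lit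 0) (XT.lf (nat_lit 0) (nat_lit 16687991382) (nat_lit 304) (nat_lit 3447478223) (nat_lit 76) (nat_lit 9548272437) (nat_lit 52) (nat_lit 5) (nat_lit 56) (nat_lit 5) (nat_lit 53) (nat_lit 5) (nat_lit 353) (nat_lit 324) (nat_lit 223)) (XT.nd (nat_lit 78) (nat_lit 0) (nat_lit 0) (XT.lf (nat_lit 0) (nat_lit 12267479339) (nat_lit 228) (nat_lit 10127783941) (nat_lit 304) (nat_lit 8230629291) (nat_lit 49) (nat_lit 5) (nat_lit 52) (nat_lit 5) (nat_lit 53) (nat_lit 5) (nat_lit 354) (nat_lit 324) (nat_lit 222)) (XT.lf (nat_lit 0) (nat_lit 28445776854) (nat_lit 304) (nat_lit 2741929935) (nat_lit 76) (nat_lit 424557293) (nat_lit 49) (nat_lit 5) (nat_lit 53) (nat_lit 5) (nat_lit 50) (nat_lit 5) (nat_lit 355) (nat_lit 324) (nat_lit 221))))))) (XT.nd (nat_lit 858) (nat_lit 836) (nat_lit 0) (XT.nd (nat_lit 390) (nat_lit 532) (nat_lit 0) (XT.nd (nat_lit 156) (nat_lit 380) (nat_lit 0) (XT.nd (nat_lit 78)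 (nat_lit 0) (nat_lit 0) (XT.lf (nat_lit 0) (nat_lit 2464571113) (nat_lit 228) (nat_lit 18744031249) (nat_lit 76) (nat_lit 11418551926) (nat_lit 46) (nat_lit 5) (nat_lit 49) (nat_lit 5) (nat_lit 47) (nat_lit 5) (nat_lit 356) (nat_lit 324) (nat_lit 220)) (XT.lf (nat_lit 0) (nat_lit 8310976507) (nat_lit 228) (nat_lit 2318758282) (nat_lit 76) (nat_lit 23058454650) (nat_lit 46) (nat_lit 5) (nat_lit 49) (nat_lit 5) (nat_lit 47) (nat_lit 5) (nat_lit 357) (nat_lit 324) (nat_lit 219))) (XT.nd (nat_lit 78) (nat_lit 152) (nat_lit 0) (XT.lf (nat_lit 0) (nat_lit 14695020146) (nat_lit 304) (nat_lit 19390663897) (nat_lit 76) (nat_lit 704332463) (nat_lit 43) (nat_lit 5) (nat_lit 47) (nat_lit 5) (nat_lit 44) (nat_lit 5) (nat_lit 358) (nat_lit 324) (nat_lit 218)) (XT.nd (nat_lit 78) (nat_lit 152) (nat_lit 0) (XT.lf (nat_lit 0) (nat_lit 21605900002) (nat_lit 304) (nat_lit 2045881128) (nat_lit 76) (nat_lit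 12284777861) (nat_lit 43) (nat_lit 5) (nat_lit 47) (nat_lit 5) (nat_lit 44) (nat_lit 5) (nat_lit 359) (nat_lit 324) (nat_lit 217)) (XT.lf (nat_lit 0) (nat_lit 16690946682) (nat_lit 152) (nat_lit 12425743944) (nat_lit 228) (nat_lit 8011025131) (nat_lit 41) (nat_lit 5) (nat_lit 43) (nat_lit 5) (nat_lit 44) (nat_lit 5) (nat_lit 360) (nat_lit 324) (nat_lit 216))))) (XT.nd (nat_lit 234) (nat_lit 304) (nat_lit 0) (XT.nd (nat_lit 78) (nat_lit 228) (nat_lit 0) (XT.lf (nat_lit 0) (nat_lit 36426387381) (nat_lit 152) (nat_lit 605207642) (nat_lit 228) (nat_lit 1345411856) (nat_lit 41) (nat_lit 5) (nat_lit 43) (nat_lit 5) (nat_lit 44) (nat_lit 5) (nat_lit 361) (nat_lit 324) (nat_lit 215)) (XT.nd (nat_lit 78) (nat_lit 0) (nat_lit 0) (XT.lf (nat_lit 0) (nat_lit 5937011639) (nat_lit 228) (nat_lit 21924325383) (nat_lit 76) (nat_lit 11799793131) (nat_lit 38) (nat_lit 5) (nat_lit 41) (nat_lit 5) (nat_lit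 39) (nat_lit 5) (nat_lit 362) (nat_lit 324) (nat_lit 214)) (XT.lf (nat_lit 0) (nat_lit 13576048038) (nat_lit 228) (nat_lit 2573118198) (nat_lit 76) (nat_lit 24857309760) (nat_lit 38) (nat_lit 5) (nat_lit 41) (nat_lit 5) (nat_lit 39) (nat_lit 5) (nat_lit 363) (nat_lit 324) (nat_lit 213)))) (XT.nd (nat_lit 78) (nat_lit 152) (nat_lit 0) (XT.lf (nat_lit 0) (nat_lit 18323434856) (nat_lit 152) (nat_lit 3554166059) (nat_lit 228) (nat_lit 20527464286) (nat_lit 36) (nat_lit 5) (nat_lit 38) (nat_lit 5) (nat_lit 39) (nat_lit 5) (nat_lit 364) (nat_lit 324) (nat_lit 212)) (XT.nd (nat_lit 78) (nat_lit 152) (nat_lit 0) (XT.lf (nat_lit 0) (nat_lit 30784072332) (nat_lit 228) (nat_lit 3677718938) (nat_lit 76) (nat_lit 9402304651) (nat_lit 36) (nat_lit 5) (nat_lit 39) (nat_lit 5) (nat_lit 37) (nat_lit 5) (nat_lit 365) (nat_lit 324) (nat_lit 211)) (XT.lf (nat_lit 0) (nat_lit 18264350548) (nat_lit 152) (nat_lit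 22209762911) (nat_lit 228) (nat_lit 4905056316) (nat_lit 34) (nat_lit 5) (nat_lit 36) (nat_lit 5) (nat_lit 37) (nat_lit 5) (nat_lit 366) (nat_lit 324) (nat_lit 210)))))) (XT.nd (nat_lit 468) (nat_lit 304) (nat_lit 0) (XT.nd (nat_lit 234) (nat_lit 304) (nat_lit 0) (XT.nd (nat_lit 78) (nat_lit 152) (nat_lit 0) (XT.lf (nat_lit 0) (nat_lit 3619079454) (nat_lit 228) (nat_lit 5602517543) (nat_lit 76) (nat_lit 37742624145) (nat_lit 33) (nat_lit 5) (nat_lit 36) (nat_lit 5) (nat_lit 34) (nat_lit 5) (nat_lit 367) (nat_lit 324) (nat_lit 209)) (XT.nd (nat_lit 78) (nat_lit 0) (nat_lit 0) (XT.lf (nat_lit 0) (nat_lit 12746896015) (nat_lit 228) (nat_lit 31230115673) (nat_lit 76) (nat_lit 4630380422) (nat_lit 31) (nat_lit 5) (nat_lit 34) (nat_lit 5) (nat_lit 32) (nat_lit 5) (nat_lit 368) (nat_lit 324) (nat_lit 208)) (XT.lf (nat_lit 0) (nat_lit 22573876866) (nat_lit 228) (nat_lit 8788191333) (nat_lit 76)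 (nat_lit 18958517967) (nat_lit 31) (nat_lit 5) (nat_lit 34) (nat_lit 5) (nat_lit 32) (nat_lit 5) (nat_lit 369) (nat_lit 324) (nat_lit 207)))) (XT.nd (nat_lit 78) (nat_lit 152) (nat_lit 0) (XT.lf (nat_lit 0) (nat_lit 15256463234) (nat_lit 152) (nat_lit 17869332970) (nat_lit 228) (nat_lit 18981967307) (nat_lit 29) (nat_lit 5) (nat_lit 31) (nat_lit 5) (nat_lit 32) (nat_lit 5) (nat_lit 370) (nat_lit 324) (nat_lit 206)) (XT.nd (nat_lit 78) (nat_lit 152) (nat_lit 0) (XT.lf (nat_lit 0) (nat_lit 40800912274) (nat_lit 152) (nat_lit 3548726382) (nat_lit 228) (nat_lit 9627447622) (nat_lit 29) (nat_lit 5) (nat_lit 31) (nat_lit 5) (nat_lit 32) (nat_lit 5) (nat_lit 371) (nat_lit 324) (nat_lit 205)) (XT.lf (nat_lit 0) (nat_lit 554911421) (nat_lit 152) (nat_lit 44054703771) (nat_lit 76) (nat_lit 11311793161) (nat_lit 27) (nat_lit 5) (nat_lit 29) (nat_lit 5) (nat_lit 28) (nat_lit 5) (nat_lit 372) (nat_lit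 324) (nat_lit 204))))) (XT.nd (nat_lit 234) (nat_lit 152) (nat_lit 0) (XT.nd (nat_lit 78) (nat_lit 152) (nat_lit 0) (XT.lf (nat_lit 0) (nat_lit 11203507443) (nat_lit 152) (nat_lit 19559659918) (nat_lit 76) (nat_lit 27177857116) (nat_lit 27) (nat_lit 5) (nat_lit 29) (nat_lit 5) (nat_lit 28) (nat_lit 5) (nat_lit 373) (nat_lit 324) (nat_lit 203)) (XT.nd (nat_lit 78) (nat_lit 0) (nat_lit 0) (XT.lf (nat_lit 0) (nat_lit 6356553365) (nat_lit 152) (nat_lit 16123114521) (nat_lit 228) (nat_lit 37577199188) (nat_lit 25) (nat_lit 5) (nat_lit 27) (nat_lit 5) (nat_lit 28) (nat_lit 5) (nat_lit 374) (nat_lit 324) (nat_lit 202)) (XT.lf (nat_lit 0) (nat_lit 34240725796) (nat_lit 152) (nat_lit 406141516) (nat_lit 228) (nat_lit 27615275224) (nat_lit 25) (nat_lit 5) (nat_lit 27) (nat_lit 5) (nat_lit 28) (nat_lit 5) (nat_lit 375) (nat_lit 324) (nat_lit 201)))) (XT.nd (nat_lit 78) (nat_lit 152) (nat_lit 0) (XT.lf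 (nat_lit 0) (nat_lit 47669868062) (nat_lit 228) (nat_lit 1316629074) (nat_lit 76) (nat_lit 15578814740) (nat_lit 25) (nat_lit 5) (nat_lit 28) (nat_lit 5) (nat_lit 26) (nat_lit 4) (nat_lit 376) (nat_lit 324) (nat_lit 200)) (XT.nd (nat_lit 78) (nat_lit 76) (nat_lit 0) (XT.lf (nat_lit 0) (nat_lit 27593484839) (nat_lit 76) (nat_lit 34184315187) (nat_lit 152) (nat_lit 5184152671) (nat_lit 24) (nat_lit 5) (nat_lit 25) (nat_lit 5) (nat_lit 26) (nat_lit 4) (nat_lit 377) (nat_lit 324) (nat_lit 199)) (XT.lf (nat_lit 0) (nat_lit 6904042820) (nat_lit 152) (nat_lit 11600349294) (nat_lit 76) (nat_lit 50967533324) (nat_lit 23) (nat_lit 5) (nat_lit 25) (nat_lit 5) (nat_lit 24) (nat_lit 5) (nat_lit 378) (nat_lit 324) (nat_lit 198))))))))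
noncomputable def xc165 : XT := (XT.nd (nat_lit 1794) (nat_lit 456) (nat_lit 0) (XT.nd (nat_lit 858) (nat_lit 380) (nat_lit 0) (XT.nd (nat_lit 390) (nat_lit 304) (nat_lit 0) (XT.nd (nat_lit 156) (nat_lit 76) (nat_lit 0) (XT.nd (nat_lit 78) (nat_lit 0) (nat_lit 0) (XT.lf (nat_lit 0) (nat_lit 18042530653) (nat_lit 152) (nat_lit 1658092679) (nat_lit 228) (nat_lit 52388616128) (nat_lit 21) (nat_lit 5) (nat_lit 23) (nat_lit 5) (nat_lit 24) (nat_lit 5) (nat_lit 379) (nat_lit 324) (nat_lit 197)) (XT.lf (nat_lit 0) (nat_lit 33583526336) (nat_lit 228) (nat_lit 25516971203) (nat_lit 76) (nat_lit 15714598676) (nat_lit 21) (nat_lit 5) (nat_lit 24) (nat_lit 5) (nat_lit 22) (nat_lit 4) (nat_lit 380) (nat_lit 324) (nat_lit 196))) (XT.nd (nat_lit 78) (nat_lit 0) (nat_lit 0) (XT.lf (nat_lit 0) (nat_lit 4551888442) (nat_lit 76) (nat_lit 43703634629) (nat_lit 152) (nat_lit 29416976929) (nat_lit 20) (nat_lit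 5) (nat_lit 21) (nat_lit 5) (nat_lit 22) (nat_lit 4) (nat_lit 381) (nat_lit 324) (nat_lit 195)) (XT.nd (nat_lit 78) (nat_lit 0) (nat_lit 0) (XT.lf (nat_lit 0) (nat_lit 37004305550) (nat_lit 76) (nat_lit 27085722341) (nat_lit 152) (nat_lit 16561302217) (nat_lit 20) (nat_lit 5) (nat_lit 21) (nat_lit 5) (nat_lit 22) (nat_lit 4) (nat_lit 382) (nat_lit 324) (nat_lit 194)) (XT.lf (nat_lit 0) (nat_lit 71073841473) (nat_lit 76) (nat_lit 9639336473) (nat_lit 152) (nat_lit 3066079246) (nat_lit 20) (nat_lit 5) (nat_lit 21) (nat_lit 5) (nat_lit 22) (nat_lit 4) (nat_lit 383) (nat_lit 324) (nat_lit 193))))) (XT.nd (nat_lit 234) (nat_lit 152) (nat_lit 0) (XT.nd (nat_lit 78) (nat_lit 0) (nat_lit 0) (XT.lf (nat_lit 0) (nat_lit 11205228673) (nat_lit 152) (nat_lit 66929964822) (nat_lit 76) (nat_lit 8896884411) (nat_lit 18) (nat_lit 5) (nat_lit 20) (nat_lit 5) (nat_lit 19) (nat_lit 4) (nat_lit 384) (nat_lit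 324) (nat_lit 192)) (XT.nd (nat_lit 78) (nat_lit 0) (nat_lit 0) (XT.lf (nat_lit 0) (nat_lit 26460824140) (nat_lit 152) (nat_lit 35662837167) (nat_lit 76) (nat_lit 28302678315) (nat_lit 18) (nat_lit 5) (nat_lit 20) (nat_lit 5) (nat_lit 19) (nat_lit 4) (nat_lit 385) (nat_lit 324) (nat_lit 191)) (XT.lf (nat_lit 0) (nat_lit 42476381124) (nat_lit 152) (nat_lit 2837462541) (nat_lit 76) (nat_lit 48676612880) (nat_lit 18) (nat_lit 5) (nat_lit 20) (nat_lit 5) (nat_lit 19) (nat_lit 4) (nat_lit 386) (nat_lit 324) (nat_lit 190)))) (XT.nd (nat_lit 78) (nat_lit 76) (nat_lit 0) (XT.lf (nat_lit 0) (nat_lit 32669957371) (nat_lit 76) (nat_lit 27130144125) (nat_lit 152) (nat_lit 37907309696) (nat_lit 17) (nat_lit 5) (nat_lit 18) (nat_lit 5) (nat_lit 19) (nat_lit 4) (nat_lit 387) (nat_lit 324) (nat_lit 189)) (XT.nd (nat_lit 78) (nat_lit 76) (nat_lit 0) (XT.lf (nat_lit 0) (nat_lit 70046470952) (nat_lit 76)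 (nat_lit 7988959748) (nat_lit 152) (nat_lit 23572512829) (nat_lit 17) (nat_lit 5) (nat_lit 18) (nat_lit 5) (nat_lit 19) (nat_lit 4) (nat_lit 388) (nat_lit 324) (nat_lit 188)) (XT.lf (nat_lit 0) (nat_lit 3506834576) (nat_lit 76) (nat_lit 93916965389) (nat_lit 76) (nat_lit 8267639883) (nat_lit 16) (nat_lit 4) (nat_lit 17) (nat_lit 5) (nat_lit 17) (nat_lit 4) (nat_lit 389) (nat_lit 324) (nat_lit 187)))))) (XT.nd (nat_lit 468) (nat_lit 228) (nat_lit 0) (XT.nd (nat_lit 234) (nat_lit 0) (nat_lit 0) (XT.nd (nat_lit 78) (nat_lit 76) (nat_lit 0) (XT.lf (nat_lit 0) (nat_lit 8224456357) (nat_lit 152) (nat_lit 68794296363) (nat_lit 76) (nat_lit 32920682903) (nat_lit 15) (nat_lit 5) (nat_lit 17) (nat_lit 5) (nat_lit 16) (nat_lit 4) (nat_lit 390) (nat_lit 324) (nat_lit 186)) (XT.nd (nat_lit 78) (nat_lit 76) (nat_lit 0) (XT.lf (nat_lit 0) (nat_lit 25260900809) (nat_lit 152) (nat_lit 33874448465) (nat_lit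 76) (nat_lit 55257826545) (nat_lit 15) (nat_lit 5) (nat_lit 17) (nat_lit 5) (nat_lit 16) (nat_lit 4) (nat_lit 391) (nat_lit 324) (nat_lit 185)) (XT.lf (nat_lit 0) (nat_lit 2879318102) (nat_lit 76) (nat_lit 40312508666) (nat_lit 152) (nat_lit 75875644156) (nat_lit 14) (nat_lit 5) (nat_lit 15) (nat_lit 5) (nat_lit 16) (nat_lit 4) (nat_lit 392) (nat_lit 324) (nat_lit 184)))) (XT.nd (nat_lit 78) (nat_lit 0) (nat_lit 0) (XT.lf (nat_lit 0) (nat_lit 42642655700) (nat_lit 76) (nat_lit 19948072868) (nat_lit 152) (nat_lit 61356181557) (nat_lit 14) (nat_lit 5) (nat_lit 15) (nat_lit 5) (nat_lit 16) (nat_lit 4) (nat_lit 393) (nat_lit 324) (nat_lit 183)) (XT.nd (nat_lit 78) (nat_lit 0) (nat_lit 0) (XT.lf (nat_lit 0) (nat_lit 82979801471) (nat_lit 152) (nat_lit 44702602020) (nat_lit 0) (nat_lit 1386907274) (nat_lit 14) (nat_lit 5) (nat_lit 16) (nat_lit 4) (nat_lit 14) (nat_lit 4) (nat_lit 394) (nat_lit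 324) (nat_lit 182)) (XT.lf (nat_lit 0) (nat_lit 104713277154) (nat_lit 152) (nat_lit 6601735081) (nat_lit 0) (nat_lit 23116572489) (nat_lit 14) (nat_lit 5) (nat_lit 16) (nat_lit 4) (nat_lit 14) (nat_lit 4) (nat_lit 395) (nat_lit 324) (nat_lit 181))))) (XT.nd (nat_lit 234) (nat_lit 76) (nat_lit 0) (XT.nd (nat_lit 78) (nat_lit 76) (nat_lit 0) (XT.lf (nat_lit 0) (nat_lit 34504879700) (nat_lit 76) (nat_lit 93565294838) (nat_lit 76) (nat_lit 11964961156) (nat_lit 13) (nat_lit 4) (nat_lit 14) (nat_lit 5) (nat_lit 14) (nat_lit 4) (nat_lit 396) (nat_lit 324) (nat_lit 180)) (XT.nd (nat_lit 78) (nat_lit 0) (nat_lit 0) (XT.lf (nat_lit 0) (nat_lit 6574048816) (nat_lit 152) (nat_lit 68126989814) (nat_lit 76) (nat_lit 71207031048) (nat_lit 12) (nat_lit 5) (nat_lit 14) (nat_lit 5) (nat_lit 13) (nat_lit 4) (nat_lit 397) (nat_lit 324) (nat_lit 179)) (XT.lf (nat_lit 0) (nat_lit 25636036885) (nat_lit 152)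 (nat_lit 29053205897) (nat_lit 76) (nat_lit 97375694408) (nat_lit 12) (nat_lit 5) (nat_lit 14) (nat_lit 5) (nat_lit 13) (nat_lit 4) (nat_lit 398) (nat_lit 324) (nat_lit 178)))) (XT.nd (nat_lit 78) (nat_lit 0) (nat_lit 0) (XT.lf (nat_lit 0) (nat_lit 12366748329) (nat_lit 76) (nat_lit 33475673487) (nat_lit 152) (nat_lit 112677661972) (nat_lit 11) (nat_lit 5) (nat_lit 12) (nat_lit 5) (nat_lit 13) (nat_lit 4) (nat_lit 399) (nat_lit 324) (nat_lit 177)) (XT.nd (nat_lit 78) (nat_lit 0) (nat_lit 0) (XT.lf (nat_lit 0) (nat_lit 56863083650) (nat_lit 76) (nat_lit 10686323982) (nat_lit 152) (nat_lit 97724066556) (nat_lit 11) (nat_lit 5) (nat_lit 12) (nat_lit 5) (nat_lit 13) (nat_lit 4) (nat_lit 400) (nat_lit 324) (nat_lit 176)) (XT.lf (nat_lit 0) (nat_lit 90546807217) (nat_lit 152) (nat_lit 68990234050) (nat_lit 0) (nat_lit 12817240145) (nat_lit 11) (nat_lit 5) (nat_lit 13) (nat_lit 4) (nat_lit 11)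 (nat_lit 4) (nat_lit 401) (nat_lit 324) (nat_lit 175))))))) (XT.nd (nat_lit 858) (nat_lit 228) (nat_lit 0) (XT.nd (nat_lit 390) (nat_lit 76) (nat_lit 0) (XT.nd (nat_lit 156) (nat_lit 76) (nat_lit 0) (XT.nd (nat_lit 78) (nat_lit 76) (nat_lit 0) (XT.lf (nat_lit 0) (nat_lit 114867654849) (nat_lit 152) (nat_lit 27777287044) (nat_lit 0) (nat_lit 37135508703) (nat_lit 11) (nat_lit 5) (nat_lit 13) (nat_lit 4) (nat_lit 11) (nat_lit 4) (nat_lit 402) (nat_lit 324) (nat_lit 174)) (XT.lf (nat_lit 0) (nat_lit 16005702444) (nat_lit 76) (nat_lit 124647205271) (nat_lit 76) (nat_lit 46912602862) (nat_lit 10) (nat_lit 4) (nat_lit 11) (nat_lit 5) (nat_lit 11) (nat_lit 4) (nat_lit 403) (nat_lit 324) (nat_lit 173))) (XT.nd (nat_lit 78) (nat_lit 76) (nat_lit 0) (XT.lf (nat_lit 0) (nat_lit 62939365357) (nat_lit 76) (nat_lit 105256977197) (nat_lit 76) (nat_lit 27520035492) (nat_lit 10) (nat_lit 4) (nat_lit 11)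 (nat_lit 5) (nat_lit 11) (nat_lit 4) (nat_lit 404) (nat_lit 324) (nat_lit 172)) (XT.nd (nat_lit 78) (nat_lit 76) (nat_lit 0) (XT.lf (nat_lit 0) (nat_lit 112217005955) (nat_lit 76) (nat_lit 84898512260) (nat_lit 76) (nat_lit 7159342654) (nat_lit 10) (nat_lit 4) (nat_lit 11) (nat_lit 5) (nat_lit 11) (nat_lit 4) (nat_lit 405) (nat_lit 324) (nat_lit 171)) (XT.lf (nat_lit 0) (nat_lit 13762890187) (nat_lit 152) (nat_lit 49527366532) (nat_lit 76) (nat_lit 149959980562) (nat_lit 9) (nat_lit 5) (nat_lit 11) (nat_lit 5) (nat_lit 10) (nat_lit 4) (nat_lit 406) (nat_lit 324) (nat_lit 170))))) (XT.nd (nat_lit 234) (nat_lit 0) (nat_lit 0) (XT.nd (nat_lit 78) (nat_lit 76) (nat_lit 0) (XT.lf (nat_lit 0) (nat_lit 35489314267) (nat_lit 152) (nat_lit 4990217942) (nat_lit 76) (nat_lit 182189048345) (nat_lit 9) (nat_lit 5) (nat_lit 11) (nat_lit 5) (nat_lit 10) (nat_lit 4) (nat_lit 407) (nat_lit 324) (nat_lit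 169)) (XT.nd (nat_lit 78) (nat_lit 0) (nat_lit 0) (XT.lf (nat_lit 0) (nat_lit 43152560519) (nat_lit 76) (nat_lit 15821974726) (nat_lit 152) (nat_lit 173549682316) (nat_lit 8) (nat_lit 5) (nat_lit 9) (nat_lit 5) (nat_lit 10) (nat_lit 4) (nat_lit 408) (nat_lit 324) (nat_lit 168)) (XT.lf (nat_lit 0) (nat_lit 83875860658) (nat_lit 152) (nat_lit 149153651498) (nat_lit 0) (nat_lit 9831032434) (nat_lit 8) (nat_lit 5) (nat_lit 10) (nat_lit 4) (nat_lit 8) (nat_lit 4) (nat_lit 409) (nat_lit 324) (nat_lit 167)))) (XT.nd (nat_lit 78) (nat_lit 0) (nat_lit 0) (XT.lf (nat_lit 0) (nat_lit 110280437837) (nat_lit 152) (nat_lit 107186394065) (nat_lit 0) (nat_lit 36233947119) (nat_lit 8) (nat_lit 5) (nat_lit 10) (nat_lit 4) (nat_lit 8) (nat_lit 4) (nat_lit 410) (nat_lit 324) (nat_lit 166)) (XT.nd (nat_lit 78) (nat_lit 0) (nat_lit 0) (XT.lf (nat_lit 0) (nat_lit 138004109457) (nat_lit 152) (nat_lit 63122937336)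 (nat_lit 0) (nat_lit 63956035410) (nat_lit 8) (nat_lit 5) (nat_lit 10) (nat_lit 4) (nat_lit 8) (nat_lit 4) (nat_lit 411) (nat_lit 324) (nat_lit 165)) (XT.lf (nat_lit 0) (nat_lit 167112884258) (nat_lit 152) (nat_lit 16858368319) (nat_lit 0) (nat_lit 93063302281) (nat_lit 8) (nat_lit 5) (nat_lit 10) (nat_lit 4) (nat_lit 8) (nat_lit 4) (nat_lit 412) (nat_lit 324) (nat_lit 164)))))) (XT.nd (nat_lit 468) (nat_lit 76) (nat_lit 0) (XT.nd (nat_lit 234) (nat_lit 76) (nat_lit 0) (XT.nd (nat_lit 78) (nat_lit 0) (nat_lit 0) (XT.lf (nat_lit 0) (nat_lit 32766189412) (nat_lit 76) (nat_lit 165421451481) (nat_lit 76) (nat_lit 91370433378) (nat_lit 7) (nat_lit 4) (nat_lit 8) (nat_lit 5) (nat_lit 8) (nat_lit 4) (nat_lit 413) (nat_lit 324) (nat_lit 163)) (XT.nd (nat_lit 78) (nat_lit 0) (nat_lit 0) (XT.lf (nat_lit 0) (nat_lit 85455328736) (nat_lit 76) (nat_lit 145645301150) (nat_lit 76) (nat_lit 71592915309)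 (nat_lit 7) (nat_lit 4) (nat_lit 8) (nat_lit 5) (nat_lit 8) (nat_lit 4) (nat_lit 414) (nat_lit 324) (nat_lit 162)) (XT.lf (nat_lit 0) (nat_lit 140777086194) (nat_lit 76) (nat_lit 124881220137) (nat_lit 76) (nat_lit 50827531688) (nat_lit 7) (nat_lit 4) (nat_lit 8) (nat_lit 5) (nat_lit 8) (nat_lit 4) (nat_lit 415) (nat_lit 324) (nat_lit 161)))) (XT.nd (nat_lit 78) (nat_lit 76) (nat_lit 0) (XT.lf (nat_lit 0) (nat_lit 198863180254) (nat_lit 76) (nat_lit 103079770155) (nat_lit 76) (nat_lit 29024841127) (nat_lit 7) (nat_lit 4) (nat_lit 8) (nat_lit 5) (nat_lit 8) (nat_lit 4) (nat_lit 416) (nat_lit 324) (nat_lit 160)) (XT.nd (nat_lit 78) (nat_lit 76) (nat_lit 0) (XT.lf (nat_lit 0) (nat_lit 259851911143) (nat_lit 76) (nat_lit 80189042988) (nat_lit 76) (nat_lit 6132932456) (nat_lit 7) (nat_lit 4) (nat_lit 8) (nat_lit 5) (nat_lit 8) (nat_lit 4) (nat_lit 417) (nat_lit 324) (nat_lit 159)) (XT.lf (nat_lit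 0) (nat_lit 17329700698) (nat_lit 152) (nat_lit 38531349341) (nat_lit 76) (nat_lit 306265302557) (nat_lit 6) (nat_lit 5) (nat_lit 8) (nat_lit 5) (nat_lit 7) (nat_lit 4) (nat_lit 418) (nat_lit 324) (nat_lit 158))))) (XT.nd (nat_lit 234) (nat_lit 0) (nat_lit 0) (XT.nd (nat_lit 78) (nat_lit 0) (nat_lit 0) (XT.lf (nat_lit 0) (nat_lit 11928515568) (nat_lit 76) (nat_lit 30016276139) (nat_lit 152) (nat_lit 336917351757) (nat_lit 5) (nat_lit 5) (nat_lit 6) (nat_lit 5) (nat_lit 7) (nat_lit 4) (nat_lit 419) (nat_lit 324) (nat_lit 157)) (XT.nd (nat_lit 78) (nat_lit 0) (nat_lit 0) (XT.lf (nat_lit 0) (nat_lit 66247580383) (nat_lit 76) (nat_lit 2194813978) (nat_lit 152) (nat_lit 327959741847) (nat_lit 5) (nat_lit 5) (nat_lit 6) (nat_lit 5) (nat_lit 7) (nat_lit 4) (nat_lit 420) (nat_lit 324) (nat_lit 156)) (XT.lf (nat_lit 0) (nat_lit 96685936385) (nat_lit 152) (nat_lit 291959822169) (nat_lit 0) (nat_lit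 26152317256) (nat_lit 5) (nat_lit 5) (nat_lit 7) (nat_lit 4) (nat_lit 5) (nat_lit 4) (nat_lit 421) (nat_lit 324) (nat_lit 155)))) (XT.nd (nat_lit 78) (nat_lit 0) (nat_lit 0) (XT.lf (nat_lit 0) (nat_lit 126376909294) (nat_lit 152) (nat_lit 251892732072) (nat_lit 0) (nat_lit 55842408508) (nat_lit 5) (nat_lit 5) (nat_lit 7) (nat_lit 4) (nat_lit 5) (nat_lit 4) (nat_lit 422) (nat_lit 324) (nat_lit 154)) (XT.nd (nat_lit 78) (nat_lit 0) (nat_lit 0) (XT.lf (nat_lit 0) (nat_lit 157551738684) (nat_lit 152) (nat_lit 209823620504) (nat_lit 0) (nat_lit 87016398226) (nat_lit 5) (nat_lit 5) (nat_lit 7) (nat_lit 4) (nat_lit 5) (nat_lit 4) (nat_lit 423) (nat_lit 324) (nat_lit 153)) (XT.lf (nat_lit 0) (nat_lit 190284650340) (nat_lit 152) (nat_lit 165652322914) (nat_lit 0) (nat_lit 119748510193) (nat_lit 5) (nat_lit 5) (nat_lit 7) (nat_lit 4) (nat_lit 5) (nat_lit 4) (nat_lit 424) (nat_lit 324) (nat_lit 152))))))))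
noncomputable def xc166 : XT := (XT.nd (nat_lit 40404) (nat_lit 0) (nat_lit 2584) (XT.nd (nat_lit 39468) (nat_lit 0) (nat_lit 5472) (XT.nd (nat_lit 390) (nat_lit 0) (nat_lit 0) (XT.nd (nat_lit 156) (nat_lit 76) (nat_lit 0) (XT.nd (nat_lit 78) (nat_lit 0) (nat_lit 0) (XT.lf (nat_lit 0) (nat_lit 224653579764) (nat_lit 152) (nat_lit 119273669546) (nat_lit 0) (nat_lit 154116678010) (nat_lit 5) (nat_lit 5) (nat_lit 7) (nat_lit 4) (nat_lit 5) (nat_lit 4) (nat_lit 425) (nat_lit 324) (nat_lit 151)) (XT.lf (nat_lit 0) (nat_lit 260740357743) (nat_lit 152) (nat_lit 70577235035) (nat_lit 0) (nat_lit 190202730647) (nat_lit 5) (nat_lit 5) (nat_lit 7) (nat_lit 4) (nat_lit 5) (nat_lit 4) (nat_lit 426) (nat_lit 324) (nat_lit 150))) (XT.nd (nat_lit 78) (nat_lit 76) (nat_lit 0) (XT.lf (nat_lit 0) (nat_lit 298630905175) (nat_lit 152) (nat_lit 19447075488) (nat_lit 0) (nat_lit 228092587279) (nat_lit 5) (nat_lit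 5) (nat_lit 7) (nat_lit 4) (nat_lit 5) (nat_lit 4) (nat_lit 427) (nat_lit 324) (nat_lit 149)) (XT.nd (nat_lit 78) (nat_lit 0) (nat_lit 0) (XT.lf (nat_lit 0) (nat_lit 35370628576) (nat_lit 76) (nat_lit 303597043711) (nat_lit 76) (nat_lit 233058067909) (nat_lit 4) (nat_lit 4) (nat_lit 5) (nat_lit 5) (nat_lit 5) (nat_lit 4) (nat_lit 428) (nat_lit 324) (nat_lit 148)) (XT.lf (nat_lit 0) (nat_lit 93603348772) (nat_lit 76) (nat_lit 288046742070) (nat_lit 76) (nat_lit 217507139691) (nat_lit 4) (nat_lit 4) (nat_lit 5) (nat_lit 5) (nat_lit 5) (nat_lit 4) (nat_lit 429) (nat_lit 324) (nat_lit 147))))) (XT.nd (nat_lit 38844) (nat_lit 0) (nat_lit 7296) (XT.nd (nat_lit 38688) (nat_lit 0) (nat_lit 7296) (XT.lf (nat_lit 0) (nat_lit 154746726291) (nat_lit 76) (nat_lit 271719396844) (nat_lit 76) (nat_lit 201179197726) (nat_lit 4) (nat_lit 4) (nat_lit 5) (nat_lit 5) (nat_lit 5) (nat_lit 4) (nat_lit 430) (nat_lit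 324) (nat_lit 146)) (XT.nd (nat_lit 78) (nat_lit 0) (nat_lit 0) (XT.lf (nat_lit 0) (nat_lit 2283960371) (nat_lit 0) (nat_lit 2283960371) (nat_lit 684) (nat_lit 2457317338) (nat_lit 100) (nat_lit 5) (nat_lit 100) (nat_lit 3) (nat_lit 109) (nat_lit 3) (nat_lit 325) (nat_lit 325) (nat_lit 250)) (XT.lf (nat_lit 0) (nat_lit 9714576658) (nat_lit 684) (nat_lit 2983494301) (nat_lit 760) (nat_lit 1685653103) (nat_lit 100) (nat_lit 5) (nat_lit 109) (nat_lit 3) (nat_lit 110) (nat_lit 5) (nat_lit 326) (nat_lit 325) (nat_lit 249)))) (XT.nd (nat_lit 78) (nat_lit 0) (nat_lit 0) (XT.lf (nat_lit 76) (nat_lit 3878191843) (nat_lit 0) (nat_lit 6558965907) (nat_lit 760) (nat_lit 4290762970) (nat_lit 101) (nat_lit 5) (nat_lit 100) (nat_lit 5) (nat_lit 110) (nat_lit 5) (nat_lit 327) (nat_lit 325) (nat_lit 248)) (XT.nd (nat_lit 78) (nat_lit 0) (nat_lit 76) (XT.lf (nat_lit 76) (nat_lit 11175158661) (nat_lit 0)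 (nat_lit 51511535) (nat_lit 760) (nat_lit 3861147201) (nat_lit 101) (nat_lit 5) (nat_lit 100) (nat_lit 5) (nat_lit 110) (nat_lit 5) (nat_lit 328) (nat_lit 325) (nat_lit 247)) (XT.lf (nat_lit 76) (nat_lit 3361029626) (nat_lit 0) (nat_lit 8834317740) (nat_lit 760) (nat_lit 3263405946) (nat_lit 102) (nat_lit 5) (nat_lit 101) (nat_lit 5) (nat_lit 111) (nat_lit 5) (nat_lit 329) (nat_lit 325) (nat_lit 246)))))) (XT.nd (nat_lit 468) (nat_lit 1292) (nat_lit 0) (XT.nd (nat_lit 234) (nat_lit 608) (nat_lit 0) (XT.nd (nat_lit 78) (nat_lit 0) (nat_lit 76) (XT.lf (nat_lit 76) (nat_lit 11121627311) (nat_lit 0) (nat_lit 2139968672) (nat_lit 760) (nat_lit 2584210644) (nat_lit 102) (nat_lit 5) (nat_lit 101) (nat_lit 5) (nat_lit 111) (nat_lit 5) (nat_lit 330) (nat_lit 325) (nat_lit 245)) (XT.nd (nat_lit 78) (nat_lit 0) (nat_lit 0) (XT.lf (nat_lit 76) (nat_lit 3026418114) (nat_lit 0) (nat_lit 11461313749)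 (nat_lit 760) (nat_lit 1759178181) (nat_lit 103) (nat_lit 5) (nat_lit 102) (nat_lit 5) (nat_lit 112) (nat_lit 5) (nat_lit 331) (nat_lit 325) (nat_lit 244)) (XT.lf (nat_lit 76) (nat_lit 11280356998) (nat_lit 0) (nat_lit 4592954073) (nat_lit 760) (nat_lit 789875663) (nat_lit 103) (nat_lit 5) (nat_lit 102) (nat_lit 5) (nat_lit 112) (nat_lit 5) (nat_lit 332) (nat_lit 325) (nat_lit 243)))) (XT.nd (nat_lit 78) (nat_lit 0) (nat_lit 0) (XT.lf (nat_lit 0) (nat_lit 292134653) (nat_lit 760) (nat_lit 14215556344) (nat_lit 836) (nat_lit 2588854140) (nat_lit 93) (nat_lit 5) (nat_lit 103) (nat_lit 5) (nat_lit 104) (nat_lit 5) (nat_lit 333) (nat_lit 325) (nat_lit 242)) (XT.nd (nat_lit 78) (nat_lit 0) (nat_lit 0) (XT.lf (nat_lit 0) (nat_lit 1554394838) (nat_lit 760) (nat_lit 5904461360) (nat_lit 836) (nat_lit 10084454639) (nat_lit 93) (nat_lit 5) (nat_lit 103) (nat_lit 5) (nat_lit 104) (nat_lit 5) (nat_lit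 334) (nat_lit 325) (nat_lit 241)) (XT.lf (nat_lit 76) (nat_lit 2903117366) (nat_lit 0) (nat_lit 7447662) (nat_lit 836) (nat_lit 15100330454) (nat_lit 94) (nat_lit 5) (nat_lit 93) (nat_lit 5) (nat_lit 104) (nat_lit 5) (nat_lit 335) (nat_lit 325) (nat_lit 240))))) (XT.nd (nat_lit 234) (nat_lit 684) (nat_lit 0) (XT.nd (nat_lit 78) (nat_lit 684) (nat_lit 0) (XT.lf (nat_lit 0) (nat_lit 4544229492) (nat_lit 760) (nat_lit 6277023099) (nat_lit 76) (nat_lit 7670142014) (nat_lit 94) (nat_lit 5) (nat_lit 104) (nat_lit 5) (nat_lit 95) (nat_lit 5) (nat_lit 336) (nat_lit 325) (nat_lit 239)) (XT.nd (nat_lit 78) (nat_lit 0) (nat_lit 0) (XT.lf (nat_lit 0) (nat_lit 3081832256) (nat_lit 684) (nat_lit 3212662704) (nat_lit 760) (nat_lit 12699696438) (nat_lit 85) (nat_lit 5) (nat_lit 94) (nat_lit 5) (nat_lit 95) (nat_lit 5) (nat_lit 337) (nat_lit 325) (nat_lit 238)) (XT.lf (nat_lit 0) (nat_lit 8302040793) (nat_lit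 760) (nat_lit 6479012294) (nat_lit 76) (nat_lit 4732604305) (nat_lit 85) (nat_lit 5) (nat_lit 95) (nat_lit 5) (nat_lit 86) (nat_lit 5) (nat_lit 338) (nat_lit 325) (nat_lit 237)))) (XT.nd (nat_lit 78) (nat_lit 304) (nat_lit 0) (XT.lf (nat_lit 0) (nat_lit 3472634697) (nat_lit 380) (nat_lit 7031973055) (nat_lit 456) (nat_lit 9549773615) (nat_lit 80) (nat_lit 5) (nat_lit 85) (nat_lit 5) (nat_lit 86) (nat_lit 5) (nat_lit 339) (nat_lit 325) (nat_lit 236)) (XT.nd (nat_lit 78) (nat_lit 304) (nat_lit 0) (XT.lf (nat_lit 0) (nat_lit 12934235778) (nat_lit 456) (nat_lit 6501165065) (nat_lit 76) (nat_lit 1180910132) (nat_lit 80) (nat_lit 5) (nat_lit 86) (nat_lit 5) (nat_lit 81) (nat_lit 5) (nat_lit 340) (nat_lit 325) (nat_lit 235)) (XT.lf (nat_lit 0) (nat_lit 4087304321) (nat_lit 304) (nat_lit 11565860495) (nat_lit 380) (nat_lit 5544796573) (nat_lit 76) (nat_lit 5) (nat_lit 80) (nat_lit 5) (nat_lit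 81) (nat_lit 5) (nat_lit 341) (nat_lit 325) (nat_lit 234))))))) (XT.nd (nat_lit 858) (nat_lit 1292) (nat_lit 0) (XT.nd (nat_lit 390) (nat_lit 912) (nat_lit 0) (XT.nd (nat_lit 156) (nat_lit 380) (nat_lit 0) (XT.nd (nat_lit 78) (nat_lit 304) (nat_lit 0) (XT.lf (nat_lit 0) (nat_lit 15419409055) (nat_lit 304) (nat_lit 3187816068) (nat_lit 380) (nat_lit 3196524533) (nat_lit 76) (nat_lit 5) (nat_lit 80) (nat_lit 5) (nat_lit 81) (nat_lit 5) (nat_lit 342) (nat_lit 325) (nat_lit 233)) (XT.lf (nat_lit 0) (nat_lit 4937269255) (nat_lit 304) (nat_lit 16925973680) (nat_lit 380) (nat_lit 568885560) (nat_lit 72) (nat_lit 5) (nat_lit 76) (nat_lit 5) (nat_lit 77) (nat_lit 5) (nat_lit 343) (nat_lit 325) (nat_lit 232))) (XT.nd (nat_lit 78) (nat_lit 304) (nat_lit 0) (XT.lf (nat_lit 0) (nat_lit 2271927754) (nat_lit 380) (nat_lit 6139775156) (nat_lit 76) (nat_lit 14670931729) (nat_lit 71) (nat_lit 5) (nat_lit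 76) (nat_lit 5) (nat_lit 72) (nat_lit 5) (nat_lit 344) (nat_lit 325) (nat_lit 231)) (XT.nd (nat_lit 78) (nat_lit 0) (nat_lit 0) (XT.lf (nat_lit 0) (nat_lit 5328739016) (nat_lit 380) (nat_lit 17817765170) (nat_lit 76) (nat_lit 614053817) (nat_lit 67) (nat_lit 5) (nat_lit 72) (nat_lit 5) (nat_lit 68) (nat_lit 5) (nat_lit 345) (nat_lit 325) (nat_lit 230)) (XT.lf (nat_lit 0) (nat_lit 8772470647) (nat_lit 380) (nat_lit 5775500214) (nat_lit 76) (nat_lit 9912714105) (nat_lit 67) (nat_lit 5) (nat_lit 72) (nat_lit 5) (nat_lit 68) (nat_lit 5) (nat_lit 346) (nat_lit 325) (nat_lit 229))))) (XT.nd (nat_lit 234) (nat_lit 380) (nat_lit 0) (XT.nd (nat_lit 78) (nat_lit 228) (nat_lit 0) (XT.lf (nat_lit 0) (nat_lit 7084808807) (nat_lit 304) (nat_lit 5405144613) (nat_lit 380) (nat_lit 12700797506) (nat_lit 63) (nat_lit 5) (nat_lit 67) (nat_lit 5) (nat_lit 68) (nat_lit 5) (nat_lit 347) (nat_lit 325) (nat_lit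 228)) (XT.nd (nat_lit 78) (nat_lit 228) (nat_lit 0) (XT.lf (nat_lit 0) (nat_lit 16549403891) (nat_lit 380) (nat_lit 5241953529) (nat_lit 76) (nat_lit 4158168446) (nat_lit 63) (nat_lit 5) (nat_lit 68) (nat_lit 5) (nat_lit 64) (nat_lit 5) (nat_lit 348) (nat_lit 325) (nat_lit 227)) (XT.lf (nat_lit 0) (nat_lit 8436087234) (nat_lit 228) (nat_lit 12587665512) (nat_lit 304) (nat_lit 5711900378) (nat_lit 60) (nat_lit 5) (nat_lit 63) (nat_lit 5) (nat_lit 64) (nat_lit 5) (nat_lit 349) (nat_lit 325) (nat_lit 226)))) (XT.nd (nat_lit 78) (nat_lit 380) (nat_lit 0) (XT.lf (nat_lit 0) (nat_lit 22969643115) (nat_lit 228) (nat_lit 2832794640) (nat_lit 304) (nat_lit 1754627450) (nat_lit 60) (nat_lit 5) (nat_lit 63) (nat_lit 5) (nat_lit 64) (nat_lit 5) (nat_lit 350) (nat_lit 325) (nat_lit 225)) (XT.nd (nat_lit 78) (nat_lit 0) (nat_lit 0) (XT.lf (nat_lit 0) (nat_lit 2592085530) (nat_lit 380) (nat_lit 18443555613)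 (nat_lit 76) (nat_lit 7368620950) (nat_lit 55) (nat_lit 5) (nat_lit 60) (nat_lit 5) (nat_lit 56) (nat_lit 5) (nat_lit 351) (nat_lit 325) (nat_lit 224)) (XT.lf (nat_lit 0) (nat_lit 7214850797) (nat_lit 380) (nat_lit 3981249222) (nat_lit 76) (nat_lit 18090404524) (nat_lit 55) (nat_lit 5) (nat_lit 60) (nat_lit 5) (nat_lit 56) (nat_lit 5) (nat_lit 352) (nat_lit 325) (nat_lit 223)))))) (XT.nd (nat_lit 468) (nat_lit 608) (nat_lit 0) (XT.nd (nat_lit 234) (nat_lit 228) (nat_lit 0) (XT.nd (nat_lit 78) (nat_lit 228) (nat_lit 0) (XT.lf (nat_lit 0) (nat_lit 11564455799) (nat_lit 228) (nat_lit 677500231) (nat_lit 304) (nat_lit 17962250729) (nat_lit 52) (nat_lit 5) (nat_lit 55) (nat_lit 5) (nat_lit 56) (nat_lit 5) (nat_lit 353) (nat_lit 325) (nat_lit 222)) (XT.nd (nat_lit 78) (nat_lit 228) (nat_lit 0) (XT.lf (nat_lit 0) (nat_lit 17743611861) (nat_lit 304) (nat_lit 3311738485) (nat_lit 76) (nat_lit 10101291335)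 (nat_lit 52) (nat_lit 5) (nat_lit 56) (nat_lit 5) (nat_lit 53) (nat_lit 5) (nat_lit 354) (nat_lit 325) (nat_lit 221)) (XT.lf (nat_lit 0) (nat_lit 13183997380) (nat_lit 228) (nat_lit 10546448573) (nat_lit 304) (nat_lit 8415754634) (nat_lit 49) (nat_lit 5) (nat_lit 52) (nat_lit 5) (nat_lit 53) (nat_lit 5) (nat_lit 355) (nat_lit 325) (nat_lit 220)))) (XT.nd (nat_lit 78) (nat_lit 228) (nat_lit 0) (XT.lf (nat_lit 0) (nat_lit 30074531540) (nat_lit 304) (nat_lit 2581158756) (nat_lit 76) (nat_lit 526658331) (nat_lit 49) (nat_lit 5) (nat_lit 53) (nat_lit 5) (nat_lit 50) (nat_lit 5) (nat_lit 356) (nat_lit 325) (nat_lit 219)) (XT.nd (nat_lit 78) (nat_lit 0) (nat_lit 0) (XT.lf (nat_lit 0) (nat_lit 2792497193) (nat_lit 228) (nat_lit 19381214954) (nat_lit 76) (nat_lit 12074378705) (nat_lit 46) (nat_lit 5) (nat_lit 49) (nat_lit 5) (nat_lit 47) (nat_lit 5) (nat_lit 357) (nat_lit 325) (nat_lit 218)) (XT.lf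 (nat_lit 0) (nat_lit 8921475356) (nat_lit 228) (nat_lit 2148964902) (nat_lit 76) (nat_lit 24292233747) (nat_lit 46) (nat_lit 5) (nat_lit 49) (nat_lit 5) (nat_lit 47) (nat_lit 5) (nat_lit 358) (nat_lit 325) (nat_lit 217))))) (XT.nd (nat_lit 234) (nat_lit 228) (nat_lit 0) (XT.nd (nat_lit 78) (nat_lit 152) (nat_lit 0) (XT.lf (nat_lit 0) (nat_lit 15621248765) (nat_lit 304) (nat_lit 20070824430) (nat_lit 76) (nat_lit 827701298) (nat_lit 43) (nat_lit 5) (nat_lit 47) (nat_lit 5) (nat_lit 44) (nat_lit 5) (nat_lit 359) (nat_lit 325) (nat_lit 216)) (XT.nd (nat_lit 78) (nat_lit 152) (nat_lit 0) (XT.lf (nat_lit 0) (nat_lit 22868554633) (nat_lit 304) (nat_lit 1872582173) (nat_lit 76) (nat_lit 12982971242) (nat_lit 43) (nat_lit 5) (nat_lit 47) (nat_lit 5) (nat_lit 44) (nat_lit 5) (nat_lit 360) (nat_lit 325) (nat_lit 215)) (XT.lf (nat_lit 0) (nat_lit 17796641978) (nat_lit 152) (nat_lit 12953792397) (nat_lit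 228) (nat_lit 8224618459) (nat_lit 41) (nat_lit 5) (nat_lit 43) (nat_lit 5) (nat_lit 44) (nat_lit 5) (nat_lit 361) (nat_lit 325) (nat_lit 214)))) (XT.nd (nat_lit 78) (nat_lit 228) (nat_lit 0) (XT.lf (nat_lit 0) (nat_lit 38505942904) (nat_lit 152) (nat_lit 546669220) (nat_lit 228) (nat_lit 1234627279) (nat_lit 41) (nat_lit 5) (nat_lit 43) (nat_lit 5) (nat_lit 44) (nat_lit 5) (nat_lit 362) (nat_lit 325) (nat_lit 213)) (XT.nd (nat_lit 78) (nat_lit 0) (nat_lit 0) (XT.lf (nat_lit 0) (nat_lit 6403497788) (nat_lit 228) (nat_lit 22753614512) (nat_lit 76) (nat_lit 12478460201) (nat_lit 38) (nat_lit 5) (nat_lit 41) (nat_lit 5) (nat_lit 39) (nat_lit 5) (nat_lit 363) (nat_lit 325) (nat_lit 212)) (XT.lf (nat_lit 0) (nat_lit 14416408123) (nat_lit 228) (nat_lit 2447557784) (nat_lit 76) (nat_lit 26184629926) (nat_lit 38) (nat_lit 5) (nat_lit 41) (nat_lit 5) (nat_lit 39) (nat_lit 5) (nat_lit 364) (nat_lit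 325) (nat_lit 211))))))))
noncomputable def xc167 : XT := (XT.nd (nat_lit 1794) (nat_lit 760) (nat_lit 0) (XT.nd (nat_lit 858) (nat_lit 532) (nat_lit 0) (XT.nd (nat_lit 390) (nat_lit 456) (nat_lit 0) (XT.nd (nat_lit 156) (nat_lit 380) (nat_lit 0) (XT.nd (nat_lit 78) (nat_lit 0) (nat_lit 0) (XT.lf (nat_lit 0) (nat_lit 19489722660) (nat_lit 152) (nat_lit 3639527774) (nat_lit 228) (nat_lit 21388059479) (nat_lit 36) (nat_lit 5) (nat_lit 38) (nat_lit 5) (nat_lit 39) (nat_lit 5) (nat_lit 365) (nat_lit 325) (nat_lit 210)) (XT.lf (nat_lit 0) (nat_lit 32474905722) (nat_lit 228) (nat_lit 3617145057) (nat_lit 76) (nat_lit 9957554093) (nat_lit 36) (nat_lit 5) (nat_lit 39) (nat_lit 5) (nat_lit 37) (nat_lit 5) (nat_lit 366) (nat_lit 325) (nat_lit 209))) (XT.nd (nat_lit 78) (nat_lit 228) (nat_lit 0) (XT.lf (nat_lit 0) (nat_lit 19418085004) (nat_lit 152) (nat_lit 23227898580) (nat_lit 228) (nat_lit 4994627547)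 (nat_lit 34) (nat_lit 5) (nat_lit 36) (nat_lit 5) (nat_lit 37) (nat_lit 5) (nat_lit 367) (nat_lit 325) (nat_lit 208)) (XT.nd (nat_lit 78) (nat_lit 152) (nat_lit 0) (XT.lf (nat_lit 0) (nat_lit 3943556095) (nat_lit 228) (nat_lit 5648735386) (nat_lit 76) (nat_lit 39712865799) (nat_lit 33) (nat_lit 5) (nat_lit 36) (nat_lit 5) (nat_lit 34) (nat_lit 5) (nat_lit 368) (nat_lit 325) (nat_lit 207)) (XT.lf (nat_lit 0) (nat_lit 13525925002) (nat_lit 228) (nat_lit 32555780858) (nat_lit 76) (nat_lit 4948877565) (nat_lit 31) (nat_lit 5) (nat_lit 34) (nat_lit 5) (nat_lit 32) (nat_lit 5) (nat_lit 369) (nat_lit 325) (nat_lit 206))))) (XT.nd (nat_lit 234) (nat_lit 304) (nat_lit 0) (XT.nd (nat_lit 78) (nat_lit 152) (nat_lit 0) (XT.lf (nat_lit 0) (nat_lit 23837508029) (nat_lit 228) (nat_lit 9002990806) (nat_lit 76) (nat_lit 19989280172) (nat_lit 31) (nat_lit 5) (nat_lit 34) (nat_lit 5) (nat_lit 32) (nat_lit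 5) (nat_lit 370) (nat_lit 325) (nat_lit 205)) (XT.nd (nat_lit 78) (nat_lit 0) (nat_lit 0) (XT.lf (nat_lit 0) (nat_lit 16240273746) (nat_lit 152) (nat_lit 18673774234) (nat_lit 228) (nat_lit 19792420274) (nat_lit 29) (nat_lit 5) (nat_lit 31) (nat_lit 5) (nat_lit 32) (nat_lit 5) (nat_lit 371) (nat_lit 325) (nat_lit 204)) (XT.lf (nat_lit 0) (nat_lit 43051422031) (nat_lit 152) (nat_lit 3641376620) (nat_lit 228) (nat_lit 9976776766) (nat_lit 29) (nat_lit 5) (nat_lit 31) (nat_lit 5) (nat_lit 32) (nat_lit 5) (nat_lit 372) (nat_lit 325) (nat_lit 203)))) (XT.nd (nat_lit 78) (nat_lit 152) (nat_lit 0) (XT.lf (nat_lit 0) (nat_lit 709033521) (nat_lit 152) (nat_lit 46041156992) (nat_lit 76) (nat_lit 11960895715) (nat_lit 27) (nat_lit 5) (nat_lit 29) (nat_lit 5) (nat_lit 28) (nat_lit 5) (nat_lit 373) (nat_lit 325) (nat_lit 202)) (XT.nd (nat_lit 78) (nat_lit 152) (nat_lit 0) (XT.lf (nat_lit 0) (nat_lit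 11884041414) (nat_lit 152) (nat_lit 20331660089) (nat_lit 76) (nat_lit 28616286064) (nat_lit 27) (nat_lit 5) (nat_lit 29) (nat_lit 5) (nat_lit 28) (nat_lit 5) (nat_lit 374) (nat_lit 325) (nat_lit 201)) (XT.lf (nat_lit 0) (nat_lit 6877041556) (nat_lit 152) (nat_lit 16844401061) (nat_lit 228) (nat_lit 39332311383) (nat_lit 25) (nat_lit 5) (nat_lit 27) (nat_lit 5) (nat_lit 28) (nat_lit 5) (nat_lit 375) (nat_lit 325) (nat_lit 200)))))) (XT.nd (nat_lit 468) (nat_lit 228) (nat_lit 0) (XT.nd (nat_lit 234) (nat_lit 228) (nat_lit 0) (XT.nd (nat_lit 78) (nat_lit 76) (nat_lit 0) (XT.lf (nat_lit 0) (nat_lit 36145772107) (nat_lit 152) (nat_lit 345620796) (nat_lit 228) (nat_lit 28878183971) (nat_lit 25) (nat_lit 5) (nat_lit 27) (nat_lit 5) (nat_lit 28) (nat_lit 5) (nat_lit 376) (nat_lit 325) (nat_lit 199)) (XT.nd (nat_lit 78) (nat_lit 76) (nat_lit 0) (XT.lf (nat_lit 0) (nat_lit 50161403535) (nat_lit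 228) (nat_lit 1194440659) (nat_lit 76) (nat_lit 16432270527) (nat_lit 25) (nat_lit 5) (nat_lit 28) (nat_lit 5) (nat_lit 26) (nat_lit 4) (nat_lit 377) (nat_lit 325) (nat_lit 198)) (XT.lf (nat_lit 0) (nat_lit 29158146370) (nat_lit 76) (nat_lit 35814329035) (nat_lit 152) (nat_lit 5332227898) (nat_lit 24) (nat_lit 5) (nat_lit 25) (nat_lit 5) (nat_lit 26) (nat_lit 4) (nat_lit 378) (nat_lit 325) (nat_lit 197)))) (XT.nd (nat_lit 78) (nat_lit 152) (nat_lit 0) (XT.lf (nat_lit 0) (nat_lit 7351697794) (nat_lit 152) (nat_lit 12000748446) (nat_lit 76) (nat_lit 53587900439) (nat_lit 23) (nat_lit 5) (nat_lit 25) (nat_lit 5) (nat_lit 24) (nat_lit 5) (nat_lit 379) (nat_lit 325) (nat_lit 196)) (XT.nd (nat_lit 78) (nat_lit 0) (nat_lit 0) (XT.lf (nat_lit 0) (nat_lit 19121378429) (nat_lit 152) (nat_lit 1664609311) (nat_lit 228) (nat_lit 54902647138) (nat_lit 21) (nat_lit 5) (nat_lit 23) (nat_lit 5) (nat_lit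 24) (nat_lit 5) (nat_lit 380) (nat_lit 325) (nat_lit 195)) (XT.lf (nat_lit 0) (nat_lit 35359393959) (nat_lit 228) (nat_lit 26620824365) (nat_lit 76) (nat_lit 16570750619) (nat_lit 21) (nat_lit 5) (nat_lit 24) (nat_lit 5) (nat_lit 22) (nat_lit 4) (nat_lit 381) (nat_lit 325) (nat_lit 194))))) (XT.nd (nat_lit 234) (nat_lit 152) (nat_lit 0) (XT.nd (nat_lit 78) (nat_lit 0) (nat_lit 0) (XT.lf (nat_lit 0) (nat_lit 4948704143) (nat_lit 76) (nat_lit 45814324058) (nat_lit 152) (nat_lit 30788315095) (nat_lit 20) (nat_lit 5) (nat_lit 21) (nat_lit 5) (nat_lit 22) (nat_lit 4) (nat_lit 382) (nat_lit 325) (nat_lit 193)) (XT.nd (nat_lit 78) (nat_lit 0) (nat_lit 0) (XT.lf (nat_lit 0) (nat_lit 39015683950) (nat_lit 76) (nat_lit 28369063409) (nat_lit 152) (nat_lit 17294595251) (nat_lit 20) (nat_lit 5) (nat_lit 21) (nat_lit 5) (nat_lit 22) (nat_lit 4) (nat_lit 383) (nat_lit 325) (nat_lit 192)) (XT.lf (nat_lit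 0) (nat_lit 74781022235) (nat_lit 76) (nat_lit 10053736583) (nat_lit 152) (nat_lit 3129124088) (nat_lit 20) (nat_lit 5) (nat_lit 21) (nat_lit 5) (nat_lit 22) (nat_lit 4) (nat_lit 384) (nat_lit 325) (nat_lit 191)))) (XT.nd (nat_lit 78) (nat_lit 0) (nat_lit 0) (XT.lf (nat_lit 0) (nat_lit 11852168658) (nat_lit 152) (nat_lit 70119317482) (nat_lit 76) (nat_lit 9407824502) (nat_lit 18) (nat_lit 5) (nat_lit 20) (nat_lit 5) (nat_lit 19) (nat_lit 4) (nat_lit 385) (nat_lit 325) (nat_lit 190)) (XT.nd (nat_lit 78) (nat_lit 0) (nat_lit 0) (XT.lf (nat_lit 0) (nat_lit 27866416349) (nat_lit 152) (nat_lit 37296316567) (nat_lit 76) (nat_lit 29780760678) (nat_lit 18) (nat_lit 5) (nat_lit 20) (nat_lit 5) (nat_lit 19) (nat_lit 4) (nat_lit 386) (nat_lit 325) (nat_lit 189)) (XT.lf (nat_lit 0) (nat_lit 44678820182) (nat_lit 152) (nat_lit 2836799994) (nat_lit 76) (nat_lit 51170394426) (nat_lit 18) (nat_lit 5)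 (nat_lit 20) (nat_lit 5) (nat_lit 19) (nat_lit 4) (nat_lit 387) (nat_lit 325) (nat_lit 188))))))) (XT.nd (nat_lit 858) (nat_lit 304) (nat_lit 0) (XT.nd (nat_lit 390) (nat_lit 228) (nat_lit 0) (XT.nd (nat_lit 156) (nat_lit 152) (nat_lit 0) (XT.nd (nat_lit 78) (nat_lit 0) (nat_lit 0) (XT.lf (nat_lit 0) (nat_lit 34443691952) (nat_lit 76) (nat_lit 28423480300) (nat_lit 152) (nat_lit 39721724054) (nat_lit 17) (nat_lit 5) (nat_lit 18) (nat_lit 5) (nat_lit 19) (nat_lit 4) (nat_lit 388) (nat_lit 325) (nat_lit 187)) (XT.lf (nat_lit 0) (nat_lit 73682353273) (nat_lit 76) (nat_lit 8328244848) (nat_lit 152) (nat_lit 24674042160) (nat_lit 17) (nat_lit 5) (nat_lit 18) (nat_lit 5) (nat_lit 19) (nat_lit 4) (nat_lit 389) (nat_lit 325) (nat_lit 186))) (XT.nd (nat_lit 78) (nat_lit 76) (nat_lit 0) (XT.lf (nat_lit 0) (nat_lit 3816297483) (nat_lit 76) (nat_lit 98551581913) (nat_lit 76) (nat_lit 8604458801) (nat_lit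 16) (nat_lit 4) (nat_lit 17) (nat_lit 5) (nat_lit 17) (nat_lit 4) (nat_lit 390) (nat_lit 325) (nat_lit 185)) (XT.nd (nat_lit 78) (nat_lit 0) (nat_lit 0) (XT.lf (nat_lit 0) (nat_lit 8706262585) (nat_lit 152) (nat_lit 72103916459) (nat_lit 76) (nat_lit 34622672730) (nat_lit 15) (nat_lit 5) (nat_lit 17) (nat_lit 5) (nat_lit 16) (nat_lit 4) (nat_lit 391) (nat_lit 325) (nat_lit 184)) (XT.lf (nat_lit 0) (nat_lit 26591168145) (nat_lit 152) (nat_lit 35444271154) (nat_lit 76) (nat_lit 58074008998) (nat_lit 15) (nat_lit 5) (nat_lit 17) (nat_lit 5) (nat_lit 16) (nat_lit 4) (nat_lit 392) (nat_lit 325) (nat_lit 183))))) (XT.nd (nat_lit 234) (nat_lit 152) (nat_lit 0) (XT.nd (nat_lit 78) (nat_lit 0) (nat_lit 0) (XT.lf (nat_lit 0) (nat_lit 3145185360) (nat_lit 76) (nat_lit 42272157202) (nat_lit 152) (nat_lit 79600181686) (nat_lit 14) (nat_lit 5) (nat_lit 15) (nat_lit 5) (nat_lit 16) (nat_lit 4) (nat_lit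 393) (nat_lit 325) (nat_lit 182)) (XT.nd (nat_lit 78) (nat_lit 0) (nat_lit 0) (XT.lf (nat_lit 0) (nat_lit 44890885011) (nat_lit 76) (nat_lit 20892165181) (nat_lit 152) (nat_lit 64358043323) (nat_lit 14) (nat_lit 5) (nat_lit 15) (nat_lit 5) (nat_lit 16) (nat_lit 4) (nat_lit 394) (nat_lit 325) (nat_lit 181)) (XT.lf (nat_lit 0) (nat_lit 87189379673) (nat_lit 152) (nat_lit 46824945166) (nat_lit 0) (nat_lit 1505400290) (nat_lit 14) (nat_lit 5) (nat_lit 16) (nat_lit 4) (nat_lit 14) (nat_lit 4) (nat_lit 395) (nat_lit 325) (nat_lit 180)))) (XT.nd (nat_lit 78) (nat_lit 152) (nat_lit 0) (XT.lf (nat_lit 0) (nat_lit 110006643991) (nat_lit 152) (nat_lit 6824405687) (nat_lit 0) (nat_lit 24319208402) (nat_lit 14) (nat_lit 5) (nat_lit 16) (nat_lit 4) (nat_lit 14) (nat_lit 4) (nat_lit 396) (nat_lit 325) (nat_lit 179)) (XT.nd (nat_lit 78) (nat_lit 76) (nat_lit 0) (XT.lf (nat_lit 0) (nat_lit 36335807314)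 (nat_lit 76) (nat_lit 98194481186) (nat_lit 76) (nat_lit 12503753972) (nat_lit 13) (nat_lit 4) (nat_lit 14) (nat_lit 5) (nat_lit 14) (nat_lit 4) (nat_lit 397) (nat_lit 325) (nat_lit 178)) (XT.lf (nat_lit 0) (nat_lit 6957562974) (nat_lit 152) (nat_lit 71430857998) (nat_lit 76) (nat_lit 74812293696) (nat_lit 12) (nat_lit 5) (nat_lit 14) (nat_lit 5) (nat_lit 13) (nat_lit 4) (nat_lit 398) (nat_lit 325) (nat_lit 177)))))) (XT.nd (nat_lit 468) (nat_lit 152) (nat_lit 0) (XT.nd (nat_lit 234) (nat_lit 76) (nat_lit 0) (XT.nd (nat_lit 78) (nat_lit 76) (nat_lit 0) (XT.lf (nat_lit 0) (nat_lit 26970040365) (nat_lit 152) (nat_lit 30408264947) (nat_lit 76) (nat_lit 102287251600) (nat_lit 12) (nat_lit 5) (nat_lit 14) (nat_lit 5) (nat_lit 13) (nat_lit 4) (nat_lit 399) (nat_lit 325) (nat_lit 176)) (XT.nd (nat_lit 78) (nat_lit 0) (nat_lit 0) (XT.lf (nat_lit 0) (nat_lit 13081112777) (nat_lit 76) (nat_lit 35104645224)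 (nat_lit 152) (nat_lit 118257752978) (nat_lit 11) (nat_lit 5) (nat_lit 12) (nat_lit 5) (nat_lit 13) (nat_lit 4) (nat_lit 400) (nat_lit 325) (nat_lit 175)) (XT.lf (nat_lit 0) (nat_lit 59797692148) (nat_lit 76) (nat_lit 11177962145) (nat_lit 152) (nat_lit 102559039319) (nat_lit 11) (nat_lit 5) (nat_lit 12) (nat_lit 5) (nat_lit 13) (nat_lit 4) (nat_lit 401) (nat_lit 325) (nat_lit 174)))) (XT.nd (nat_lit 78) (nat_lit 76) (nat_lit 0) (XT.lf (nat_lit 0) (nat_lit 95121235772) (nat_lit 152) (nat_lit 72350943585) (nat_lit 0) (nat_lit 13497446982) (nat_lit 11) (nat_lit 5) (nat_lit 13) (nat_lit 4) (nat_lit 11) (nat_lit 4) (nat_lit 402) (nat_lit 325) (nat_lit 173)) (XT.nd (nat_lit 78) (nat_lit 76) (nat_lit 0) (XT.lf (nat_lit 0) (nat_lit 120655883491) (nat_lit 152) (nat_lit 29081577903) (nat_lit 0) (nat_lit 39029755405) (nat_lit 11) (nat_lit 5) (nat_lit 13) (nat_lit 4) (nat_lit 11) (nat_lit 4) (nat_lit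 403) (nat_lit 325) (nat_lit 172)) (XT.lf (nat_lit 0) (nat_lit 16889196970) (nat_lit 76) (nat_lit 130840365642) (nat_lit 76) (nat_lit 49212009654) (nat_lit 10) (nat_lit 4) (nat_lit 11) (nat_lit 5) (nat_lit 11) (nat_lit 4) (nat_lit 404) (nat_lit 325) (nat_lit 171))))) (XT.nd (nat_lit 234) (nat_lit 76) (nat_lit 0) (XT.nd (nat_lit 78) (nat_lit 76) (nat_lit 0) (XT.lf (nat_lit 0) (nat_lit 66165580677) (nat_lit 76) (nat_lit 110482492826) (nat_lit 76) (nat_lit 28852015027) (nat_lit 10) (nat_lit 4) (nat_lit 11) (nat_lit 5) (nat_lit 11) (nat_lit 4) (nat_lit 405) (nat_lit 325) (nat_lit 170)) (XT.nd (nat_lit 78) (nat_lit 76) (nat_lit 0) (XT.lf (nat_lit 0) (nat_lit 117903329636) (nat_lit 76) (nat_lit 89107882415) (nat_lit 76) (nat_lit 7475383844) (nat_lit 10) (nat_lit 4) (nat_lit 11) (nat_lit 5) (nat_lit 11) (nat_lit 4) (nat_lit 406) (nat_lit 325) (nat_lit 169)) (XT.lf (nat_lit 0) (nat_lit 14489686174)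 (nat_lit 152) (nat_lit 51930566460) (nat_lit 76) (nat_lit 157490552944) (nat_lit 9) (nat_lit 5) (nat_lit 11) (nat_lit 5) (nat_lit 10) (nat_lit 4) (nat_lit 407) (nat_lit 325) (nat_lit 168)))) (XT.nd (nat_lit 78) (nat_lit 76) (nat_lit 0) (XT.lf (nat_lit 0) (nat_lit 37300590911) (nat_lit 152) (nat_lit 5170044649) (nat_lit 76) (nat_lit 191329523004) (nat_lit 9) (nat_lit 5) (nat_lit 11) (nat_lit 5) (nat_lit 10) (nat_lit 4) (nat_lit 408) (nat_lit 325) (nat_lit 167)) (XT.nd (nat_lit 78) (nat_lit 0) (nat_lit 0) (XT.lf (nat_lit 0) (nat_lit 45378748796) (nat_lit 76) (nat_lit 16580641658) (nat_lit 152) (nat_lit 182189221590) (nat_lit 8) (nat_lit 5) (nat_lit 9) (nat_lit 5) (nat_lit 10) (nat_lit 4) (nat_lit 409) (nat_lit 325) (nat_lit 166)) (XT.lf (nat_lit 0) (nat_lit 88104543975) (nat_lit 152) (nat_lit 156544790935) (nat_lit 0) (nat_lit 10352482898) (nat_lit 8) (nat_lit 5) (nat_lit 10) (nat_lit 4)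 (nat_lit 8) (nat_lit 4) (nat_lit 410) (nat_lit 325) (nat_lit 165))))))))
noncomputable def xc168 : XT := (XT.nd (nat_lit 40404) (nat_lit 0) (nat_lit 4256) (XT.nd (nat_lit 858) (nat_lit 76) (nat_lit 0) (XT.nd (nat_lit 390) (nat_lit 152) (nat_lit 0) (XT.nd (nat_lit 156) (nat_lit 76) (nat_lit 0) (XT.nd (nat_lit 78) (nat_lit 0) (nat_lit 0) (XT.lf (nat_lit 0) (nat_lit 115827688571) (nat_lit 152) (nat_lit 112482339352) (nat_lit 0) (nat_lit 38074119563) (nat_lit 8) (nat_lit 5) (nat_lit 10) (nat_lit 4) (nat_lit 8) (nat_lit 4) (nat_lit 411) (nat_lit 325) (nat_lit 164)) (XT.lf (nat_lit 0) (nat_lit 144935961445) (nat_lit 152) (nat_lit 66218727615) (nat_lit 0) (nat_lit 67180956312) (nat_lit 8) (nat_lit 5) (nat_lit 10) (nat_lit 4) (nat_lit 8) (nat_lit 4) (nat_lit 412) (nat_lit 325) (nat_lit 163))) (XT.nd (nat_lit 78) (nat_lit 76) (nat_lit 0) (XT.lf (nat_lit 0) (nat_lit 175498668010) (nat_lit 152) (nat_lit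 17643804270) (nat_lit 0) (nat_lit 97742295139) (nat_lit 8) (nat_lit 5) (nat_lit 10) (nat_lit 4) (nat_lit 8) (nat_lit 4) (nat_lit 413) (nat_lit 325) (nat_lit 162)) (XT.nd (nat_lit 78) (nat_lit 0) (nat_lit 0) (XT.lf (nat_lit 0) (nat_lit 34461054210) (nat_lit 76) (nat_lit 173665556037) (nat_lit 76) (nat_lit 95907880558) (nat_lit 7) (nat_lit 4) (nat_lit 8) (nat_lit 5) (nat_lit 8) (nat_lit 4) (nat_lit 414) (nat_lit 325) (nat_lit 161)) (XT.lf (nat_lit 0) (nat_lit 89781957390) (nat_lit 76) (nat_lit 152901882381) (nat_lit 76) (nat_lit 75142966323) (nat_lit 7) (nat_lit 4) (nat_lit 8) (nat_lit 5) (nat_lit 8) (nat_lit 4) (nat_lit 415) (nat_lit 325) (nat_lit 160))))) (XT.nd (nat_lit 234) (nat_lit 152) (nat_lit 0) (XT.nd (nat_lit 78) (nat_lit 0) (nat_lit 0) (XT.lf (nat_lit 0) (nat_lit 147867237853) (nat_lit 76) (nat_lit 131100820357) (nat_lit 76) (nat_lit 53340722795) (nat_lit 7) (nat_lit 4) (nat_lit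 8) (nat_lit 5) (nat_lit 8) (nat_lit 4) (nat_lit 416) (nat_lit 325) (nat_lit 159)) (XT.nd (nat_lit 78) (nat_lit 0) (nat_lit 0) (XT.lf (nat_lit 0) (nat_lit 208855193886) (nat_lit 76) (nat_lit 108210462675) (nat_lit 76) (nat_lit 30449239871) (nat_lit 7) (nat_lit 4) (nat_lit 8) (nat_lit 5) (nat_lit 8) (nat_lit 4) (nat_lit 417) (nat_lit 325) (nat_lit 158)) (XT.lf (nat_lit 0) (nat_lit 272891034908) (nat_lit 76) (nat_lit 84176308483) (nat_lit 76) (nat_lit 6414014020) (nat_lit 7) (nat_lit 4) (nat_lit 8) (nat_lit 5) (nat_lit 8) (nat_lit 4) (nat_lit 418) (nat_lit 325) (nat_lit 157)))) (XT.nd (nat_lit 78) (nat_lit 76) (nat_lit 0) (XT.lf (nat_lit 0) (nat_lit 18219754130) (nat_lit 152) (nat_lit 40412819121) (nat_lit 76) (nat_lit 321598912724) (nat_lit 6) (nat_lit 5) (nat_lit 8) (nat_lit 5) (nat_lit 7) (nat_lit 4) (nat_lit 419) (nat_lit 325) (nat_lit 156)) (XT.nd (nat_lit 78) (nat_lit 0) (nat_lit 0)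 (XT.lf (nat_lit 0) (nat_lit 12569311652) (nat_lit 76) (nat_lit 31495858478) (nat_lit 152) (nat_lit 353738918012) (nat_lit 5) (nat_lit 5) (nat_lit 6) (nat_lit 5) (nat_lit 7) (nat_lit 4) (nat_lit 420) (nat_lit 325) (nat_lit 155)) (XT.lf (nat_lit 0) (nat_lit 69602216836) (nat_lit 76) (nat_lit 2284334232) (nat_lit 152) (nat_lit 344334584813) (nat_lit 5) (nat_lit 5) (nat_lit 6) (nat_lit 5) (nat_lit 7) (nat_lit 4) (nat_lit 421) (nat_lit 325) (nat_lit 154)))))) (XT.nd (nat_lit 390) (nat_lit 76) (nat_lit 0) (XT.nd (nat_lit 156) (nat_lit 0) (nat_lit 0) (XT.nd (nat_lit 78) (nat_lit 0) (nat_lit 0) (XT.lf (nat_lit 0) (nat_lit 101541521477) (nat_lit 152) (nat_lit 306516814350) (nat_lit 0) (nat_lit 27478574323) (nat_lit 5) (nat_lit 5) (nat_lit 7) (nat_lit 4) (nat_lit 5) (nat_lit 4) (nat_lit 422) (nat_lit 325) (nat_lit 153)) (XT.lf (nat_lit 0) (nat_lit 132716029304) (nat_lit 152) (nat_lit 264448322078)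 (nat_lit 0) (nat_lit 58652282462) (nat_lit 5) (nat_lit 5) (nat_lit 7) (nat_lit 4) (nat_lit 5) (nat_lit 4) (nat_lit 423) (nat_lit 325) (nat_lit 152))) (XT.nd (nat_lit 78) (nat_lit 0) (nat_lit 0) (XT.lf (nat_lit 0) (nat_lit 165448634709) (nat_lit 152) (nat_lit 220277614294) (nat_lit 0) (nat_lit 91384126259) (nat_lit 5) (nat_lit 5) (nat_lit 7) (nat_lit 4) (nat_lit 5) (nat_lit 4) (nat_lit 424) (nat_lit 325) (nat_lit 151)) (XT.nd (nat_lit 78) (nat_lit 0) (nat_lit 0) (XT.lf (nat_lit 0) (nat_lit 199817272467) (nat_lit 152) (nat_lit 173899522645) (nat_lit 0) (nat_lit 125752038676) (nat_lit 5) (nat_lit 5) (nat_lit 7) (nat_lit 4) (nat_lit 5) (nat_lit 4) (nat_lit 425) (nat_lit 325) (nat_lit 150)) (XT.lf (nat_lit 0) (nat_lit 235903772667) (nat_lit 152) (nat_lit 125203623104) (nat_lit 0) (nat_lit 161837848075) (nat_lit 5) (nat_lit 5) (nat_lit 7) (nat_lit 4) (nat_lit 5) (nat_lit 4) (nat_lit 426) (nat_lit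 325) (nat_lit 149))))) (XT.nd (nat_lit 234) (nat_lit 0) (nat_lit 0) (XT.nd (nat_lit 78) (nat_lit 76) (nat_lit 0) (XT.lf (nat_lit 0) (nat_lit 273794055548) (nat_lit 152) (nat_lit 74073973054) (nat_lit 0) (nat_lit 199727473051) (nat_lit 5) (nat_lit 5) (nat_lit 7) (nat_lit 4) (nat_lit 5) (nat_lit 4) (nat_lit 427) (nat_lit 325) (nat_lit 148)) (XT.nd (nat_lit 78) (nat_lit 76) (nat_lit 0) (XT.lf (nat_lit 0) (nat_lit 313578336070) (nat_lit 152) (nat_lit 20388835232) (nat_lit 0) (nat_lit 239511126996) (nat_lit 5) (nat_lit 5) (nat_lit 7) (nat_lit 4) (nat_lit 5) (nat_lit 4) (nat_lit 428) (nat_lit 325) (nat_lit 147)) (XT.lf (nat_lit 0) (nat_lit 37169260584) (nat_lit 76) (nat_lit 318762394450) (nat_lit 76) (nat_lit 244694588637) (nat_lit 4) (nat_lit 4) (nat_lit 5) (nat_lit 5) (nat_lit 5) (nat_lit 4) (nat_lit 429) (nat_lit 325) (nat_lit 146)))) (XT.nd (nat_lit 38766) (nat_lit 0) (nat_lit 7296) (XT.lf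 (nat_lit 0) (nat_lit 98312183428) (nat_lit 76) (nat_lit 302435268272) (nat_lit 76) (nat_lit 228366894134) (nat_lit 4) (nat_lit 4) (nat_lit 5) (nat_lit 5) (nat_lit 5) (nat_lit 4) (nat_lit 430) (nat_lit 325) (nat_lit 145)) (XT.nd (nat_lit 78) (nat_lit 0) (nat_lit 0) (XT.lf (nat_lit 0) (nat_lit 2557211333) (nat_lit 0) (nat_lit 2557211333) (nat_lit 684) (nat_lit 2245682738) (nat_lit 100) (nat_lit 5) (nat_lit 100) (nat_lit 3) (nat_lit 109) (nat_lit 3) (nat_lit 326) (nat_lit 326) (nat_lit 248)) (XT.lf (nat_lit 0) (nat_lit 10801491446) (nat_lit 684) (nat_lit 2793753236) (nat_lit 760) (nat_lit 1476674317) (nat_lit 100) (nat_lit 5) (nat_lit 109) (nat_lit 3) (nat_lit 110) (nat_lit 5) (nat_lit 327) (nat_lit 326) (nat_lit 247))))))) (XT.nd (nat_lit 858) (nat_lit 1900) (nat_lit 0) (XT.nd (nat_lit 390) (nat_lit 1140) (nat_lit 0) (XT.nd (nat_lit 156) (nat_lit 0) (nat_lit 76) (XT.nd (nat_lit 78) (nat_lit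 0) (nat_lit 0) (XT.lf (nat_lit 76) (nat_lit 4405550831) (nat_lit 0) (nat_lit 7131228937) (nat_lit 760) (nat_lit 3897761191) (nat_lit 101) (nat_lit 5) (nat_lit 100) (nat_lit 5) (nat_lit 110) (nat_lit 5) (nat_lit 328) (nat_lit 326) (nat_lit 246)) (XT.lf (nat_lit 76) (nat_lit 12051487447) (nat_lit 0) (nat_lit 286767812) (nat_lit 760) (nat_lit 3475595106) (nat_lit 101) (nat_lit 5) (nat_lit 100) (nat_lit 5) (nat_lit 110) (nat_lit 5) (nat_lit 329) (nat_lit 326) (nat_lit 245))) (XT.nd (nat_lit 78) (nat_lit 0) (nat_lit 0) (XT.lf (nat_lit 76) (nat_lit 3873004570) (nat_lit 0) (nat_lit 9458069065) (nat_lit 760) (nat_lit 2873514328) (nat_lit 102) (nat_lit 5) (nat_lit 101) (nat_lit 5) (nat_lit 111) (nat_lit 5) (nat_lit 330) (nat_lit 326) (nat_lit 244)) (XT.nd (nat_lit 78) (nat_lit 0) (nat_lit 76) (XT.lf (nat_lit 76) (nat_lit 12005254832) (nat_lit 0) (nat_lit 2420334189) (nat_lit 760) (nat_lit 2186695543)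 (nat_lit 102) (nat_lit 5) (nat_lit 101) (nat_lit 5) (nat_lit 111) (nat_lit 5) (nat_lit 331) (nat_lit 326) (nat_lit 243)) (XT.lf (nat_lit 76) (nat_lit 3528061328) (nat_lit 0) (nat_lit 12164009015) (nat_lit 760) (nat_lit 1342457387) (nat_lit 103) (nat_lit 5) (nat_lit 102) (nat_lit 5) (nat_lit 112) (nat_lit 5) (nat_lit 332) (nat_lit 326) (nat_lit 242))))) (XT.nd (nat_lit 234) (nat_lit 608) (nat_lit 0) (XT.nd (nat_lit 78) (nat_lit 684) (nat_lit 0) (XT.lf (nat_lit 76) (nat_lit 12178015141) (nat_lit 0) (nat_lit 4946058518) (nat_lit 760) (nat_lit 348722110) (nat_lit 103) (nat_lit 5) (nat_lit 102) (nat_lit 5) (nat_lit 112) (nat_lit 5) (nat_lit 333) (nat_lit 326) (nat_lit 241)) (XT.nd (nat_lit 78) (nat_lit 0) (nat_lit 0) (XT.lf (nat_lit 0) (nat_lit 753590622) (nat_lit 760) (nat_lit 14557602641) (nat_lit 836) (nat_lit 2617205876) (nat_lit 93) (nat_lit 5) (nat_lit 103) (nat_lit 5) (nat_lit 104) (nat_lit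 5) (nat_lit 334) (nat_lit 326) (nat_lit 240)) (XT.lf (nat_lit 0) (nat_lit 2057685281) (nat_lit 760) (nat_lit 5848511552) (nat_lit 836) (nat_lit 10492400256) (nat_lit 93) (nat_lit 5) (nat_lit 103) (nat_lit 5) (nat_lit 104) (nat_lit 5) (nat_lit 335) (nat_lit 326) (nat_lit 239)))) (XT.nd (nat_lit 78) (nat_lit 608) (nat_lit 0) (XT.lf (nat_lit 76) (nat_lit 3393782032) (nat_lit 0) (nat_lit 73011038) (nat_lit 836) (nat_lit 15423540049) (nat_lit 94) (nat_lit 5) (nat_lit 93) (nat_lit 5) (nat_lit 104) (nat_lit 5) (nat_lit 336) (nat_lit 326) (nat_lit 238)) (XT.nd (nat_lit 78) (nat_lit 684) (nat_lit 0) (XT.lf (nat_lit 0) (nat_lit 5161614278) (nat_lit 760) (nat_lit 6240746874) (nat_lit 76) (nat_lit 7993549616) (nat_lit 94) (nat_lit 5) (nat_lit 104) (nat_lit 5) (nat_lit 95) (nat_lit 5) (nat_lit 337) (nat_lit 326) (nat_lit 237)) (XT.lf (nat_lit 0) (nat_lit 3580404033) (nat_lit 684) (nat_lit 3405787605)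 (nat_lit 760) (nat_lit 12938341778) (nat_lit 85) (nat_lit 5) (nat_lit 94) (nat_lit 5) (nat_lit 95) (nat_lit 5) (nat_lit 338) (nat_lit 326) (nat_lit 236)))))) (XT.nd (nat_lit 468) (nat_lit 912) (nat_lit 0) (XT.nd (nat_lit 234) (nat_lit 608) (nat_lit 0) (XT.nd (nat_lit 78) (nat_lit 380) (nat_lit 0) (XT.lf (nat_lit 0) (nat_lit 9075680587) (nat_lit 760) (nat_lit 6455958143) (nat_lit 76) (nat_lit 4939280400) (nat_lit 85) (nat_lit 5) (nat_lit 95) (nat_lit 5) (nat_lit 86) (nat_lit 5) (nat_lit 339) (nat_lit 326) (nat_lit 235)) (XT.nd (nat_lit 78) (nat_lit 0) (nat_lit 0) (XT.lf (nat_lit 0) (nat_lit 3987674346) (nat_lit 380) (nat_lit 7388958656) (nat_lit 456) (nat_lit 9662656983) (nat_lit 80) (nat_lit 5) (nat_lit 85) (nat_lit 5) (nat_lit 86) (nat_lit 5) (nat_lit 340) (nat_lit 326) (nat_lit 234)) (XT.lf (nat_lit 0) (nat_lit 13911148288) (nat_lit 456) (nat_lit 6484030489) (nat_lit 76) (nat_lit 1234989418)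 (nat_lit 80) (nat_lit 5) (nat_lit 86) (nat_lit 5) (nat_lit 81) (nat_lit 5) (nat_lit 341) (nat_lit 326) (nat_lit 233)))) (XT.nd (nat_lit 78) (nat_lit 304) (nat_lit 0) (XT.lf (nat_lit 0) (nat_lit 4628343126) (nat_lit 304) (nat_lit 12127213225) (nat_lit 380) (nat_lit 5485889496) (nat_lit 76) (nat_lit 5) (nat_lit 80) (nat_lit 5) (nat_lit 81) (nat_lit 5) (nat_lit 342) (nat_lit 326) (nat_lit 232)) (XT.nd (nat_lit 78) (nat_lit 304) (nat_lit 0) (XT.lf (nat_lit 0) (nat_lit 16511021022) (nat_lit 304) (nat_lit 3331073257) (nat_lit 380) (nat_lit 3036210849) (nat_lit 76) (nat_lit 5) (nat_lit 80) (nat_lit 5) (nat_lit 81) (nat_lit 5) (nat_lit 343) (nat_lit 326) (nat_lit 231)) (XT.lf (nat_lit 0) (nat_lit 5514734648) (nat_lit 304) (nat_lit 17737079477) (nat_lit 380) (nat_lit 286763090) (nat_lit 72) (nat_lit 5) (nat_lit 76) (nat_lit 5) (nat_lit 77) (nat_lit 5) (nat_lit 344) (nat_lit 326) (nat_lit 230)))))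 (XT.nd (nat_lit 234) (nat_lit 532) (nat_lit 0) (XT.nd (nat_lit 78) (nat_lit 304) (nat_lit 0) (XT.lf (nat_lit 0) (nat_lit 2671835257) (nat_lit 380) (nat_lit 6122086945) (nat_lit 76) (nat_lit 15428177363) (nat_lit 71) (nat_lit 5) (nat_lit 76) (nat_lit 5) (nat_lit 72) (nat_lit 5) (nat_lit 345) (nat_lit 326) (nat_lit 229)) (XT.nd (nat_lit 78) (nat_lit 0) (nat_lit 0) (XT.lf (nat_lit 0) (nat_lit 5873492813) (nat_lit 380) (nat_lit 18375647666) (nat_lit 76) (nat_lit 685195059) (nat_lit 67) (nat_lit 5) (nat_lit 72) (nat_lit 5) (nat_lit 68) (nat_lit 5) (nat_lit 346) (nat_lit 326) (nat_lit 228)) (XT.lf (nat_lit 0) (nat_lit 9476157842) (nat_lit 380) (nat_lit 5747126880) (nat_lit 76) (nat_lit 10446862716) (nat_lit 67) (nat_lit 5) (nat_lit 72) (nat_lit 5) (nat_lit 68) (nat_lit 5) (nat_lit 347) (nat_lit 326) (nat_lit 227)))) (XT.nd (nat_lit 78) (nat_lit 228) (nat_lit 0) (XT.lf (nat_lit 0) (nat_lit 7751082297)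 (nat_lit 304) (nat_lit 5620682089) (nat_lit 380) (nat_lit 13065355001) (nat_lit 63) (nat_lit 5) (nat_lit 67) (nat_lit 5) (nat_lit 68) (nat_lit 5) (nat_lit 348) (nat_lit 326) (nat_lit 226)) (XT.nd (nat_lit 78) (nat_lit 228) (nat_lit 0) (XT.lf (nat_lit 0) (nat_lit 17622748012) (nat_lit 380) (nat_lit 5195148531) (nat_lit 76) (nat_lit 4416522945) (nat_lit 63) (nat_lit 5) (nat_lit 68) (nat_lit 5) (nat_lit 64) (nat_lit 5) (nat_lit 349) (nat_lit 326) (nat_lit 225)) (XT.lf (nat_lit 0) (nat_lit 9161811968) (nat_lit 228) (nat_lit 13152039108) (nat_lit 304) (nat_lit 5746363956) (nat_lit 60) (nat_lit 5) (nat_lit 63) (nat_lit 5) (nat_lit 64) (nat_lit 5) (nat_lit 350) (nat_lit 326) (nat_lit 224))))))))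
noncomputable def xc169 : XT := (XT.nd (nat_lit 1794) (nat_lit 1140) (nat_lit 0) (XT.nd (nat_lit 858) (nat_lit 1064) (nat_lit 0) (XT.nd (nat_lit 390) (nat_lit 684) (nat_lit 0) (XT.nd (nat_lit 156) (nat_lit 228) (nat_lit 0) (XT.nd (nat_lit 78) (nat_lit 380) (nat_lit 0) (XT.lf (nat_lit 0) (nat_lit 24407573244) (nat_lit 228) (nat_lit 2912520391) (nat_lit 304) (nat_lit 1603186022) (nat_lit 60) (nat_lit 5) (nat_lit 63) (nat_lit 5) (nat_lit 64) (nat_lit 5) (nat_lit 351) (nat_lit 326) (nat_lit 223)) (XT.lf (nat_lit 0) (nat_lit 2947804355) (nat_lit 380) (nat_lit 19062739803) (nat_lit 76) (nat_lit 7802387572) (nat_lit 55) (nat_lit 5) (nat_lit 60) (nat_lit 5) (nat_lit 56) (nat_lit 5) (nat_lit 352) (nat_lit 326) (nat_lit 222))) (XT.nd (nat_lit 78) (nat_lit 228) (nat_lit 0) (XT.lf (nat_lit 0) (nat_lit 7790940526) (nat_lit 380) (nat_lit 3891746359) (nat_lit 76) (nat_lit 19057149107) (nat_lit 55) (nat_lit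 5) (nat_lit 60) (nat_lit 5) (nat_lit 56) (nat_lit 5) (nat_lit 353) (nat_lit 326) (nat_lit 221)) (XT.nd (nat_lit 78) (nat_lit 0) (nat_lit 0) (XT.lf (nat_lit 0) (nat_lit 12426589634) (nat_lit 228) (nat_lit 636989407) (nat_lit 304) (nat_lit 18640146160) (nat_lit 52) (nat_lit 5) (nat_lit 55) (nat_lit 5) (nat_lit 56) (nat_lit 5) (nat_lit 354) (nat_lit 326) (nat_lit 220)) (XT.lf (nat_lit 0) (nat_lit 18831446340) (nat_lit 304) (nat_lit 3197857247) (nat_lit 76) (nat_lit 10674932116) (nat_lit 52) (nat_lit 5) (nat_lit 56) (nat_lit 5) (nat_lit 53) (nat_lit 5) (nat_lit 355) (nat_lit 326) (nat_lit 219))))) (XT.nd (nat_lit 234) (nat_lit 228) (nat_lit 0) (XT.nd (nat_lit 78) (nat_lit 228) (nat_lit 0) (XT.lf (nat_lit 0) (nat_lit 14118157861) (nat_lit 228) (nat_lit 10994202235) (nat_lit 304) (nat_lit 8631185340) (nat_lit 49) (nat_lit 5) (nat_lit 52) (nat_lit 5) (nat_lit 53) (nat_lit 5) (nat_lit 356) (nat_lit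 326) (nat_lit 218)) (XT.nd (nat_lit 78) (nat_lit 228) (nat_lit 0) (XT.lf (nat_lit 0) (nat_lit 31765528722) (nat_lit 304) (nat_lit 2440041931) (nat_lit 76) (nat_lit 626345599) (nat_lit 49) (nat_lit 5) (nat_lit 53) (nat_lit 5) (nat_lit 50) (nat_lit 5) (nat_lit 357) (nat_lit 326) (nat_lit 217)) (XT.lf (nat_lit 0) (nat_lit 3117788742) (nat_lit 228) (nat_lit 20078150660) (nat_lit 76) (nat_lit 12755103702) (nat_lit 46) (nat_lit 5) (nat_lit 49) (nat_lit 5) (nat_lit 47) (nat_lit 5) (nat_lit 358) (nat_lit 326) (nat_lit 216)))) (XT.nd (nat_lit 78) (nat_lit 228) (nat_lit 0) (XT.lf (nat_lit 0) (nat_lit 9544374542) (nat_lit 228) (nat_lit 1997246441) (nat_lit 76) (nat_lit 25580184540) (nat_lit 46) (nat_lit 5) (nat_lit 49) (nat_lit 5) (nat_lit 47) (nat_lit 5) (nat_lit 359) (nat_lit 326) (nat_lit 215)) (XT.nd (nat_lit 78) (nat_lit 0) (nat_lit 0) (XT.lf (nat_lit 0) (nat_lit 16575987043) (nat_lit 304) (nat_lit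 20811896117) (nat_lit 76) (nat_lit 949043018) (nat_lit 43) (nat_lit 5) (nat_lit 47) (nat_lit 5) (nat_lit 44) (nat_lit 5) (nat_lit 360) (nat_lit 326) (nat_lit 214)) (XT.lf (nat_lit 0) (nat_lit 24177387926) (nat_lit 304) (nat_lit 1716240297) (nat_lit 76) (nat_lit 13708268999) (nat_lit 43) (nat_lit 5) (nat_lit 47) (nat_lit 5) (nat_lit 44) (nat_lit 5) (nat_lit 361) (nat_lit 326) (nat_lit 213)))))) (XT.nd (nat_lit 468) (nat_lit 532) (nat_lit 0) (XT.nd (nat_lit 234) (nat_lit 152) (nat_lit 0) (XT.nd (nat_lit 78) (nat_lit 228) (nat_lit 0) (XT.lf (nat_lit 0) (nat_lit 18932413272) (nat_lit 152) (nat_lit 13516911727) (nat_lit 228) (nat_lit 8466273030) (nat_lit 41) (nat_lit 5) (nat_lit 43) (nat_lit 5) (nat_lit 44) (nat_lit 5) (nat_lit 362) (nat_lit 326) (nat_lit 212)) (XT.nd (nat_lit 78) (nat_lit 228) (nat_lit 0) (XT.lf (nat_lit 0) (nat_lit 40665467854) (nat_lit 152) (nat_lit 493459549) (nat_lit 228)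 (nat_lit 1134857356) (nat_lit 41) (nat_lit 5) (nat_lit 43) (nat_lit 5) (nat_lit 44) (nat_lit 5) (nat_lit 363) (nat_lit 326) (nat_lit 211)) (XT.lf (nat_lit 0) (nat_lit 6877537138) (nat_lit 228) (nat_lit 23649184453) (nat_lit 76) (nat_lit 13182816238) (nat_lit 38) (nat_lit 5) (nat_lit 41) (nat_lit 5) (nat_lit 39) (nat_lit 5) (nat_lit 364) (nat_lit 326) (nat_lit 210)))) (XT.nd (nat_lit 78) (nat_lit 152) (nat_lit 0) (XT.lf (nat_lit 0) (nat_lit 15283766110) (nat_lit 228) (nat_lit 2339353973) (nat_lit 76) (nat_lit 27570464306) (nat_lit 38) (nat_lit 5) (nat_lit 41) (nat_lit 5) (nat_lit 39) (nat_lit 5) (nat_lit 365) (nat_lit 326) (nat_lit 209)) (XT.nd (nat_lit 78) (nat_lit 0) (nat_lit 0) (XT.lf (nat_lit 0) (nat_lit 20691071433) (nat_lit 152) (nat_lit 3737743085) (nat_lit 228) (nat_lit 22307096901) (nat_lit 36) (nat_lit 5) (nat_lit 38) (nat_lit 5) (nat_lit 39) (nat_lit 5) (nat_lit 366) (nat_lit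 326) (nat_lit 208)) (XT.lf (nat_lit 0) (nat_lit 34236183683) (nat_lit 228) (nat_lit 3576270038) (nat_lit 76) (nat_lit 10532651036) (nat_lit 36) (nat_lit 5) (nat_lit 39) (nat_lit 5) (nat_lit 37) (nat_lit 5) (nat_lit 367) (nat_lit 326) (nat_lit 207))))) (XT.nd (nat_lit 234) (nat_lit 152) (nat_lit 0) (XT.nd (nat_lit 78) (nat_lit 228) (nat_lit 0) (XT.lf (nat_lit 0) (nat_lit 20607145198) (nat_lit 152) (nat_lit 24305527090) (nat_lit 228) (nat_lit 5103151137) (nat_lit 34) (nat_lit 5) (nat_lit 36) (nat_lit 5) (nat_lit 37) (nat_lit 5) (nat_lit 368) (nat_lit 326) (nat_lit 206)) (XT.nd (nat_lit 78) (nat_lit 152) (nat_lit 0) (XT.lf (nat_lit 0) (nat_lit 4270913191) (nat_lit 228) (nat_lit 5719010673) (nat_lit 76) (nat_lit 41773892715) (nat_lit 33) (nat_lit 5) (nat_lit 36) (nat_lit 5) (nat_lit 34) (nat_lit 5) (nat_lit 369) (nat_lit 326) (nat_lit 205)) (XT.lf (nat_lit 0) (nat_lit 14330732986) (nat_lit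 228) (nat_lit 33969655526) (nat_lit 76) (nat_lit 5275213163) (nat_lit 31) (nat_lit 5) (nat_lit 34) (nat_lit 5) (nat_lit 32) (nat_lit 5) (nat_lit 370) (nat_lit 326) (nat_lit 204)))) (XT.nd (nat_lit 78) (nat_lit 152) (nat_lit 0) (XT.lf (nat_lit 0) (nat_lit 25151775558) (nat_lit 228) (nat_lit 9249412370) (nat_lit 76) (nat_lit 21063879152) (nat_lit 31) (nat_lit 5) (nat_lit 34) (nat_lit 5) (nat_lit 32) (nat_lit 5) (nat_lit 371) (nat_lit 326) (nat_lit 203)) (XT.nd (nat_lit 78) (nat_lit 0) (nat_lit 0) (XT.lf (nat_lit 0) (nat_lit 17252729474) (nat_lit 152) (nat_lit 19526714297) (nat_lit 228) (nat_lit 20656285824) (nat_lit 29) (nat_lit 5) (nat_lit 31) (nat_lit 5) (nat_lit 32) (nat_lit 5) (nat_lit 372) (nat_lit 326) (nat_lit 202)) (XT.lf (nat_lit 0) (nat_lit 45394890315) (nat_lit 152) (nat_lit 3746541976) (nat_lit 228) (nat_lit 10355848497) (nat_lit 29) (nat_lit 5) (nat_lit 31) (nat_lit 5) (nat_lit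 32) (nat_lit 5) (nat_lit 373) (nat_lit 326) (nat_lit 201))))))) (XT.nd (nat_lit 858) (nat_lit 456) (nat_lit 0) (XT.nd (nat_lit 390) (nat_lit 380) (nat_lit 0) (XT.nd (nat_lit 156) (nat_lit 152) (nat_lit 0) (XT.nd (nat_lit 78) (nat_lit 0) (nat_lit 0) (XT.lf (nat_lit 0) (nat_lit 859112435) (nat_lit 152) (nat_lit 48147040722) (nat_lit 76) (nat_lit 12634689160) (nat_lit 27) (nat_lit 5) (nat_lit 29) (nat_lit 5) (nat_lit 28) (nat_lit 5) (nat_lit 374) (nat_lit 326) (nat_lit 200)) (XT.lf (nat_lit 0) (nat_lit 12587412282) (nat_lit 152) (nat_lit 21161410598) (nat_lit 76) (nat_lit 30119241947) (nat_lit 27) (nat_lit 5) (nat_lit 29) (nat_lit 5) (nat_lit 28) (nat_lit 5) (nat_lit 375) (nat_lit 326) (nat_lit 199))) (XT.nd (nat_lit 78) (nat_lit 0) (nat_lit 0) (XT.lf (nat_lit 0) (nat_lit 7404712701) (nat_lit 152) (nat_lit 17609642261) (nat_lit 228) (nat_lit 41186684081) (nat_lit 25) (nat_lit 5) (nat_lit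 27) (nat_lit 5) (nat_lit 28) (nat_lit 5) (nat_lit 376) (nat_lit 326) (nat_lit 198)) (XT.nd (nat_lit 78) (nat_lit 0) (nat_lit 0) (XT.lf (nat_lit 0) (nat_lit 38128126491) (nat_lit 152) (nat_lit 289588642) (nat_lit 228) (nat_lit 30215195197) (nat_lit 25) (nat_lit 5) (nat_lit 27) (nat_lit 5) (nat_lit 28) (nat_lit 5) (nat_lit 377) (nat_lit 326) (nat_lit 197)) (XT.lf (nat_lit 0) (nat_lit 52767471054) (nat_lit 228) (nat_lit 1083623129) (nat_lit 76) (nat_lit 17321471400) (nat_lit 25) (nat_lit 5) (nat_lit 28) (nat_lit 5) (nat_lit 26) (nat_lit 4) (nat_lit 378) (nat_lit 326) (nat_lit 196))))) (XT.nd (nat_lit 234) (nat_lit 76) (nat_lit 0) (XT.nd (nat_lit 78) (nat_lit 228) (nat_lit 0) (XT.lf (nat_lit 0) (nat_lit 30783842614) (nat_lit 76) (nat_lit 37533207019) (nat_lit 152) (nat_lit 5498038925) (nat_lit 24) (nat_lit 5) (nat_lit 25) (nat_lit 5) (nat_lit 26) (nat_lit 4) (nat_lit 379) (nat_lit 326) (nat_lit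 195)) (XT.nd (nat_lit 78) (nat_lit 152) (nat_lit 0) (XT.lf (nat_lit 0) (nat_lit 7812210424) (nat_lit 152) (nat_lit 12437866764) (nat_lit 76) (nat_lit 56332592921) (nat_lit 23) (nat_lit 5) (nat_lit 25) (nat_lit 5) (nat_lit 24) (nat_lit 5) (nat_lit 380) (nat_lit 326) (nat_lit 194)) (XT.lf (nat_lit 0) (nat_lit 20237738728) (nat_lit 152) (nat_lit 1678553607) (nat_lit 228) (nat_lit 57552178773) (nat_lit 21) (nat_lit 5) (nat_lit 23) (nat_lit 5) (nat_lit 24) (nat_lit 5) (nat_lit 381) (nat_lit 326) (nat_lit 193)))) (XT.nd (nat_lit 78) (nat_lit 76) (nat_lit 0) (XT.lf (nat_lit 0) (nat_lit 37215065522) (nat_lit 228) (nat_lit 27795860687) (nat_lit 76) (nat_lit 17463162988) (nat_lit 21) (nat_lit 5) (nat_lit 24) (nat_lit 5) (nat_lit 22) (nat_lit 4) (nat_lit 382) (nat_lit 326) (nat_lit 192)) (XT.nd (nat_lit 78) (nat_lit 0) (nat_lit 0) (XT.lf (nat_lit 0) (nat_lit 5349628039) (nat_lit 76) (nat_lit 48037473548)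 (nat_lit 152) (nat_lit 32237471729) (nat_lit 20) (nat_lit 5) (nat_lit 21) (nat_lit 5) (nat_lit 22) (nat_lit 4) (nat_lit 383) (nat_lit 326) (nat_lit 191)) (XT.lf (nat_lit 0) (nat_lit 41112647851) (nat_lit 76) (nat_lit 29723167328) (nat_lit 152) (nat_lit 18073363946) (nat_lit 20) (nat_lit 5) (nat_lit 21) (nat_lit 5) (nat_lit 22) (nat_lit 4) (nat_lit 384) (nat_lit 326) (nat_lit 190)))))) (XT.nd (nat_lit 468) (nat_lit 228) (nat_lit 0) (XT.nd (nat_lit 234) (nat_lit 76) (nat_lit 0) (XT.nd (nat_lit 78) (nat_lit 152) (nat_lit 0) (XT.lf (nat_lit 0) (nat_lit 78659292111) (nat_lit 76) (nat_lit 10495138411) (nat_lit 152) (nat_lit 3203712609) (nat_lit 20) (nat_lit 5) (nat_lit 21) (nat_lit 5) (nat_lit 22) (nat_lit 4) (nat_lit 385) (nat_lit 326) (nat_lit 189)) (XT.nd (nat_lit 78) (nat_lit 0) (nat_lit 0) (XT.lf (nat_lit 0) (nat_lit 12523397093) (nat_lit 152) (nat_lit 73482747682) (nat_lit 76) (nat_lit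 9938166630) (nat_lit 18) (nat_lit 5) (nat_lit 20) (nat_lit 5) (nat_lit 19) (nat_lit 4) (nat_lit 386) (nat_lit 326) (nat_lit 188)) (XT.lf (nat_lit 0) (nat_lit 29334613358) (nat_lit 152) (nat_lit 39025384135) (nat_lit 76) (nat_lit 31326894809) (nat_lit 18) (nat_lit 5) (nat_lit 20) (nat_lit 5) (nat_lit 19) (nat_lit 4) (nat_lit 387) (nat_lit 326) (nat_lit 187)))) (XT.nd (nat_lit 78) (nat_lit 76) (nat_lit 0) (XT.lf (nat_lit 0) (nat_lit 46984071851) (nat_lit 152) (nat_lit 2849355936) (nat_lit 76) (nat_lit 53783291384) (nat_lit 18) (nat_lit 5) (nat_lit 20) (nat_lit 5) (nat_lit 19) (nat_lit 4) (nat_lit 388) (nat_lit 326) (nat_lit 186)) (XT.nd (nat_lit 78) (nat_lit 0) (nat_lit 0) (XT.lf (nat_lit 0) (nat_lit 36293075381) (nat_lit 76) (nat_lit 29787356327) (nat_lit 152) (nat_lit 41634385199) (nat_lit 17) (nat_lit 5) (nat_lit 18) (nat_lit 5) (nat_lit 19) (nat_lit 4) (nat_lit 389) (nat_lit 326) (nat_lit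 185)) (XT.lf (nat_lit 0) (nat_lit 77487612681) (nat_lit 76) (nat_lit 8690087579) (nat_lit 152) (nat_lit 25837815641) (nat_lit 17) (nat_lit 5) (nat_lit 18) (nat_lit 5) (nat_lit 19) (nat_lit 4) (nat_lit 390) (nat_lit 326) (nat_lit 184))))) (XT.nd (nat_lit 234) (nat_lit 76) (nat_lit 0) (XT.nd (nat_lit 78) (nat_lit 76) (nat_lit 0) (XT.lf (nat_lit 0) (nat_lit 4128764220) (nat_lit 76) (nat_lit 103423622011) (nat_lit 76) (nat_lit 8965236773) (nat_lit 16) (nat_lit 4) (nat_lit 17) (nat_lit 5) (nat_lit 17) (nat_lit 4) (nat_lit 391) (nat_lit 326) (nat_lit 183)) (XT.nd (nat_lit 78) (nat_lit 0) (nat_lit 0) (XT.lf (nat_lit 0) (nat_lit 9205596948) (nat_lit 152) (nat_lit 75591112534) (nat_lit 76) (nat_lit 36404559819) (nat_lit 15) (nat_lit 5) (nat_lit 17) (nat_lit 5) (nat_lit 16) (nat_lit 4) (nat_lit 392) (nat_lit 326) (nat_lit 182)) (XT.lf (nat_lit 0) (nat_lit 27981699155) (nat_lit 152) (nat_lit 37104104000)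 (nat_lit 76) (nat_lit 61026046070) (nat_lit 15) (nat_lit 5) (nat_lit 17) (nat_lit 5) (nat_lit 16) (nat_lit 4) (nat_lit 393) (nat_lit 326) (nat_lit 181)))) (XT.nd (nat_lit 78) (nat_lit 0) (nat_lit 0) (XT.lf (nat_lit 0) (nat_lit 3413012748) (nat_lit 76) (nat_lit 44334992366) (nat_lit 152) (nat_lit 83517383807) (nat_lit 14) (nat_lit 5) (nat_lit 15) (nat_lit 5) (nat_lit 16) (nat_lit 4) (nat_lit 394) (nat_lit 326) (nat_lit 180)) (XT.nd (nat_lit 78) (nat_lit 0) (nat_lit 0) (XT.lf (nat_lit 0) (nat_lit 47240732233) (nat_lit 76) (nat_lit 21888418492) (nat_lit 152) (nat_lit 67516129333) (nat_lit 14) (nat_lit 5) (nat_lit 15) (nat_lit 5) (nat_lit 16) (nat_lit 4) (nat_lit 395) (nat_lit 326) (nat_lit 179)) (XT.lf (nat_lit 0) (nat_lit 91603803875) (nat_lit 152) (nat_lit 49063891331) (nat_lit 0) (nat_lit 1625248674) (nat_lit 14) (nat_lit 5) (nat_lit 16) (nat_lit 4) (nat_lit 14) (nat_lit 4) (nat_lit 396)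 (nat_lit 326) (nat_lit 178))))))))
noncomputable def xc170 : XT := (XT.nd (nat_lit 1794) (nat_lit 152) (nat_lit 0) (XT.nd (nat_lit 858) (nat_lit 228) (nat_lit 0) (XT.nd (nat_lit 390) (nat_lit 76) (nat_lit 0) (XT.nd (nat_lit 156) (nat_lit 152) (nat_lit 0) (XT.nd (nat_lit 78) (nat_lit 76) (nat_lit 0) (XT.lf (nat_lit 0) (nat_lit 115559314494) (nat_lit 152) (nat_lit 7068196359) (nat_lit 0) (nat_lit 25577624412) (nat_lit 14) (nat_lit 5) (nat_lit 16) (nat_lit 4) (nat_lit 14) (nat_lit 4) (nat_lit 397) (nat_lit 326) (nat_lit 177)) (XT.lf (nat_lit 0) (nat_lit 38248455847) (nat_lit 76) (nat_lit 103059689696) (nat_lit 76) (nat_lit 13075014013) (nat_lit 13) (nat_lit 4) (nat_lit 14) (nat_lit 5) (nat_lit 14) (nat_lit 4) (nat_lit 398) (nat_lit 326) (nat_lit 176))) (XT.nd (nat_lit 78) (nat_lit 76) (nat_lit 0) (XT.lf (nat_lit 0) (nat_lit 7355156966) (nat_lit 152) (nat_lit 74909447331) (nat_lit 76) (nat_lit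 78593644068) (nat_lit 12) (nat_lit 5) (nat_lit 14) (nat_lit 5) (nat_lit 13) (nat_lit 4) (nat_lit 399) (nat_lit 326) (nat_lit 175)) (XT.nd (nat_lit 78) (nat_lit 76) (nat_lit 0) (XT.lf (nat_lit 0) (nat_lit 28365890806) (nat_lit 152) (nat_lit 31840150988) (nat_lit 76) (nat_lit 107440410073) (nat_lit 12) (nat_lit 5) (nat_lit 14) (nat_lit 5) (nat_lit 13) (nat_lit 4) (nat_lit 400) (nat_lit 326) (nat_lit 174)) (XT.lf (nat_lit 0) (nat_lit 13822267764) (nat_lit 76) (nat_lit 36819231738) (nat_lit 152) (nat_lit 124121849613) (nat_lit 11) (nat_lit 5) (nat_lit 12) (nat_lit 5) (nat_lit 13) (nat_lit 4) (nat_lit 401) (nat_lit 326) (nat_lit 173))))) (XT.nd (nat_lit 234) (nat_lit 76) (nat_lit 0) (XT.nd (nat_lit 78) (nat_lit 0) (nat_lit 0) (XT.lf (nat_lit 0) (nat_lit 62870528516) (nat_lit 76) (nat_lit 11698150017) (nat_lit 152) (nat_lit 107640523653) (nat_lit 11) (nat_lit 5) (nat_lit 12) (nat_lit 5) (nat_lit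 13) (nat_lit 4) (nat_lit 402) (nat_lit 326) (nat_lit 172)) (XT.nd (nat_lit 78) (nat_lit 0) (nat_lit 0) (XT.lf (nat_lit 0) (nat_lit 99920007941) (nat_lit 152) (nat_lit 75887944580) (nat_lit 0) (nat_lit 14208006252) (nat_lit 11) (nat_lit 5) (nat_lit 13) (nat_lit 4) (nat_lit 11) (nat_lit 4) (nat_lit 403) (nat_lit 326) (nat_lit 171)) (XT.lf (nat_lit 0) (nat_lit 126729354219) (nat_lit 152) (nat_lit 30458946147) (nat_lit 0) (nat_lit 41015230718) (nat_lit 11) (nat_lit 5) (nat_lit 13) (nat_lit 4) (nat_lit 11) (nat_lit 4) (nat_lit 404) (nat_lit 326) (nat_lit 170)))) (XT.nd (nat_lit 78) (nat_lit 0) (nat_lit 0) (XT.lf (nat_lit 0) (nat_lit 17809130202) (nat_lit 76) (nat_lit 137346828466) (nat_lit 76) (nat_lit 51630684194) (nat_lit 10) (nat_lit 4) (nat_lit 11) (nat_lit 5) (nat_lit 11) (nat_lit 4) (nat_lit 405) (nat_lit 326) (nat_lit 169)) (XT.nd (nat_lit 78) (nat_lit 0) (nat_lit 0) (XT.lf (nat_lit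 0) (nat_lit 69545739123) (nat_lit 76) (nat_lit 115972755127) (nat_lit 76) (nat_lit 30254686309) (nat_lit 10) (nat_lit 4) (nat_lit 11) (nat_lit 5) (nat_lit 11) (nat_lit 4) (nat_lit 406) (nat_lit 326) (nat_lit 168)) (XT.lf (nat_lit 0) (nat_lit 123866952701) (nat_lit 76) (nat_lit 93531026688) (nat_lit 76) (nat_lit 7811124970) (nat_lit 10) (nat_lit 4) (nat_lit 11) (nat_lit 5) (nat_lit 11) (nat_lit 4) (nat_lit 407) (nat_lit 326) (nat_lit 167)))))) (XT.nd (nat_lit 468) (nat_lit 76) (nat_lit 0) (XT.nd (nat_lit 234) (nat_lit 0) (nat_lit 0) (XT.nd (nat_lit 78) (nat_lit 76) (nat_lit 0) (XT.lf (nat_lit 0) (nat_lit 15249228511) (nat_lit 152) (nat_lit 54460728888) (nat_lit 76) (nat_lit 165394625583) (nat_lit 9) (nat_lit 5) (nat_lit 11) (nat_lit 5) (nat_lit 10) (nat_lit 4) (nat_lit 408) (nat_lit 326) (nat_lit 166)) (XT.nd (nat_lit 78) (nat_lit 76) (nat_lit 0) (XT.lf (nat_lit 0) (nat_lit 39199009055)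 (nat_lit 152) (nat_lit 5365341267) (nat_lit 76) (nat_lit 200924137242) (nat_lit 9) (nat_lit 5) (nat_lit 11) (nat_lit 5) (nat_lit 10) (nat_lit 4) (nat_lit 409) (nat_lit 326) (nat_lit 165)) (XT.lf (nat_lit 0) (nat_lit 47709872405) (nat_lit 76) (nat_lit 17380257138) (nat_lit 152) (nat_lit 191264265580) (nat_lit 8) (nat_lit 5) (nat_lit 9) (nat_lit 5) (nat_lit 10) (nat_lit 4) (nat_lit 410) (nat_lit 326) (nat_lit 164)))) (XT.nd (nat_lit 78) (nat_lit 0) (nat_lit 0) (XT.lf (nat_lit 0) (nat_lit 92541417690) (nat_lit 152) (nat_lit 164311673895) (nat_lit 0) (nat_lit 10897226174) (nat_lit 8) (nat_lit 5) (nat_lit 10) (nat_lit 4) (nat_lit 8) (nat_lit 4) (nat_lit 411) (nat_lit 326) (nat_lit 163)) (XT.nd (nat_lit 78) (nat_lit 0) (nat_lit 0) (XT.lf (nat_lit 0) (nat_lit 121649212538) (nat_lit 152) (nat_lit 118048973855) (nat_lit 0) (nat_lit 40003653285) (nat_lit 8) (nat_lit 5) (nat_lit 10) (nat_lit 4) (nat_lit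 8) (nat_lit 4) (nat_lit 412) (nat_lit 326) (nat_lit 162)) (XT.lf (nat_lit 0) (nat_lit 152211463841) (nat_lit 152) (nat_lit 69474918792) (nat_lit 0) (nat_lit 70564601979) (nat_lit 8) (nat_lit 5) (nat_lit 10) (nat_lit 4) (nat_lit 8) (nat_lit 4) (nat_lit 413) (nat_lit 326) (nat_lit 161))))) (XT.nd (nat_lit 234) (nat_lit 0) (nat_lit 0) (XT.nd (nat_lit 78) (nat_lit 76) (nat_lit 0) (XT.lf (nat_lit 0) (nat_lit 184300938861) (nat_lit 152) (nat_lit 18473856194) (nat_lit 0) (nat_lit 102652836421) (nat_lit 8) (nat_lit 5) (nat_lit 10) (nat_lit 4) (nat_lit 8) (nat_lit 4) (nat_lit 414) (nat_lit 326) (nat_lit 160)) (XT.nd (nat_lit 78) (nat_lit 0) (nat_lit 0) (XT.lf (nat_lit 0) (nat_lit 36235404270) (nat_lit 76) (nat_lit 182324373052) (nat_lit 76) (nat_lit 100675089108) (nat_lit 7) (nat_lit 4) (nat_lit 8) (nat_lit 5) (nat_lit 8) (nat_lit 4) (nat_lit 415) (nat_lit 326) (nat_lit 159)) (XT.lf (nat_lit 0)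 (nat_lit 94319909878) (nat_lit 76) (nat_lit 160523680513) (nat_lit 76) (nat_lit 78873271327) (nat_lit 7) (nat_lit 4) (nat_lit 8) (nat_lit 5) (nat_lit 8) (nat_lit 4) (nat_lit 416) (nat_lit 326) (nat_lit 158)))) (XT.nd (nat_lit 78) (nat_lit 0) (nat_lit 0) (XT.lf (nat_lit 0) (nat_lit 155307127953) (nat_lit 76) (nat_lit 137633674720) (nat_lit 76) (nat_lit 55982193876) (nat_lit 7) (nat_lit 4) (nat_lit 8) (nat_lit 5) (nat_lit 8) (nat_lit 4) (nat_lit 417) (nat_lit 326) (nat_lit 157)) (XT.nd (nat_lit 78) (nat_lit 0) (nat_lit 0) (XT.lf (nat_lit 0) (nat_lit 219342266159) (nat_lit 76) (nat_lit 113599855661) (nat_lit 76) (nat_lit 31947354189) (nat_lit 7) (nat_lit 4) (nat_lit 8) (nat_lit 5) (nat_lit 8) (nat_lit 4) (nat_lit 418) (nat_lit 326) (nat_lit 156)) (XT.lf (nat_lit 0) (nat_lit 286577789109) (nat_lit 76) (nat_lit 88364999957) (nat_lit 76) (nat_lit 6711526459) (nat_lit 7) (nat_lit 4) (nat_lit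 8) (nat_lit 5) (nat_lit 8) (nat_lit 4) (nat_lit 419) (nat_lit 326) (nat_lit 155))))))) (XT.nd (nat_lit 39702) (nat_lit 0) (nat_lit 6080) (XT.nd (nat_lit 390) (nat_lit 0) (nat_lit 0) (XT.nd (nat_lit 156) (nat_lit 0) (nat_lit 0) (XT.nd (nat_lit 78) (nat_lit 76) (nat_lit 0) (XT.lf (nat_lit 0) (nat_lit 19152119068) (nat_lit 152) (nat_lit 42392555145) (nat_lit 76) (nat_lit 337697311910) (nat_lit 6) (nat_lit 5) (nat_lit 8) (nat_lit 5) (nat_lit 7) (nat_lit 4) (nat_lit 420) (nat_lit 326) (nat_lit 154)) (XT.lf (nat_lit 0) (nat_lit 13238022409) (nat_lit 76) (nat_lit 33051393835) (nat_lit 152) (nat_lit 371403821887) (nat_lit 5) (nat_lit 5) (nat_lit 6) (nat_lit 5) (nat_lit 7) (nat_lit 4) (nat_lit 421) (nat_lit 326) (nat_lit 153))) (XT.nd (nat_lit 78) (nat_lit 0) (nat_lit 0) (XT.lf (nat_lit 0) (nat_lit 73120656416) (nat_lit 76) (nat_lit 2380210404) (nat_lit 152) (nat_lit 361530321649) (nat_lit 5) (nat_lit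 5) (nat_lit 6) (nat_lit 5) (nat_lit 7) (nat_lit 4) (nat_lit 422) (nat_lit 326) (nat_lit 152)) (XT.nd (nat_lit 78) (nat_lit 0) (nat_lit 0) (XT.lf (nat_lit 0) (nat_lit 106637906642) (nat_lit 152) (nat_lit 321805467832) (nat_lit 0) (nat_lit 28869411161) (nat_lit 5) (nat_lit 5) (nat_lit 7) (nat_lit 4) (nat_lit 5) (nat_lit 4) (nat_lit 423) (nat_lit 326) (nat_lit 151)) (XT.lf (nat_lit 0) (nat_lit 139370220380) (nat_lit 152) (nat_lit 277635321767) (nat_lit 0) (nat_lit 61600999558) (nat_lit 5) (nat_lit 5) (nat_lit 7) (nat_lit 4) (nat_lit 5) (nat_lit 4) (nat_lit 424) (nat_lit 326) (nat_lit 150))))) (XT.nd (nat_lit 234) (nat_lit 0) (nat_lit 0) (XT.nd (nat_lit 78) (nat_lit 0) (nat_lit 0) (XT.lf (nat_lit 0) (nat_lit 173738580359) (nat_lit 152) (nat_lit 231257765089) (nat_lit 0) (nat_lit 95968668737) (nat_lit 5) (nat_lit 5) (nat_lit 7) (nat_lit 4) (nat_lit 5) (nat_lit 4) (nat_lit 425) (nat_lit 326)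 (nat_lit 149)) (XT.nd (nat_lit 78) (nat_lit 0) (nat_lit 0) (XT.lf (nat_lit 0) (nat_lit 209824816009) (nat_lit 152) (nat_lit 182562375045) (nat_lit 0) (nat_lit 132054246481) (nat_lit 5) (nat_lit 5) (nat_lit 7) (nat_lit 4) (nat_lit 5) (nat_lit 4) (nat_lit 426) (nat_lit 326) (nat_lit 148)) (XT.lf (nat_lit 0) (nat_lit 247714846937) (nat_lit 152) (nat_lit 131433210229) (nat_lit 0) (nat_lit 169943650833) (nat_lit 5) (nat_lit 5) (nat_lit 7) (nat_lit 4) (nat_lit 5) (nat_lit 4) (nat_lit 427) (nat_lit 326) (nat_lit 147)))) (XT.nd (nat_lit 78) (nat_lit 0) (nat_lit 0) (XT.lf (nat_lit 0) (nat_lit 287498887504) (nat_lit 152) (nat_lit 77748534534) (nat_lit 0) (nat_lit 209727094660) (nat_lit 5) (nat_lit 5) (nat_lit 7) (nat_lit 4) (nat_lit 5) (nat_lit 4) (nat_lit 428) (nat_lit 326) (nat_lit 146)) (XT.nd (nat_lit 38922) (nat_lit 0) (nat_lit 7220) (XT.lf (nat_lit 0) (nat_lit 329271661615) (nat_lit 152) (nat_lit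 21380527305) (nat_lit 0) (nat_lit 251499300447) (nat_lit 5) (nat_lit 5) (nat_lit 7) (nat_lit 4) (nat_lit 5) (nat_lit 4) (nat_lit 429) (nat_lit 326) (nat_lit 145)) (XT.lf (nat_lit 0) (nat_lit 2829337609) (nat_lit 0) (nat_lit 2829337609) (nat_lit 684) (nat_lit 2054565091) (nat_lit 100) (nat_lit 5) (nat_lit 100) (nat_lit 3) (nat_lit 109) (nat_lit 3) (nat_lit 327) (nat_lit 327) (nat_lit 246)))))) (XT.nd (nat_lit 468) (nat_lit 1140) (nat_lit 0) (XT.nd (nat_lit 234) (nat_lit 0) (nat_lit 76) (XT.nd (nat_lit 78) (nat_lit 0) (nat_lit 0) (XT.lf (nat_lit 0) (nat_lit 11886859401) (nat_lit 684) (nat_lit 2626034295) (nat_lit 760) (nat_lit 1284511260) (nat_lit 100) (nat_lit 5) (nat_lit 109) (nat_lit 3) (nat_lit 110) (nat_lit 5) (nat_lit 328) (nat_lit 327) (nat_lit 245)) (XT.nd (nat_lit 78) (nat_lit 0) (nat_lit 0) (XT.lf (nat_lit 76) (nat_lit 4928276805) (nat_lit 0) (nat_lit 7709391051) (nat_lit 760)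 (nat_lit 3541592627) (nat_lit 101) (nat_lit 5) (nat_lit 100) (nat_lit 5) (nat_lit 110) (nat_lit 5) (nat_lit 329) (nat_lit 327) (nat_lit 244)) (XT.lf (nat_lit 76) (nat_lit 12942107946) (nat_lit 0) (nat_lit 512154457) (nat_lit 760) (nat_lit 3124559030) (nat_lit 101) (nat_lit 5) (nat_lit 100) (nat_lit 5) (nat_lit 110) (nat_lit 5) (nat_lit 330) (nat_lit 327) (nat_lit 243)))) (XT.nd (nat_lit 78) (nat_lit 0) (nat_lit 0) (XT.lf (nat_lit 76) (nat_lit 4378603518) (nat_lit 0) (nat_lit 10096084026) (nat_lit 760) (nat_lit 2515546583) (nat_lit 102) (nat_lit 5) (nat_lit 101) (nat_lit 5) (nat_lit 111) (nat_lit 5) (nat_lit 331) (nat_lit 327) (nat_lit 242)) (XT.nd (nat_lit 78) (nat_lit 0) (nat_lit 76) (XT.lf (nat_lit 76) (nat_lit 12902611592) (nat_lit 0) (nat_lit 2698599954) (nat_lit 760) (nat_lit 1818274643) (nat_lit 102) (nat_lit 5) (nat_lit 101) (nat_lit 5) (nat_lit 111) (nat_lit 5) (nat_lit 332) (nat_lit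 327) (nat_lit 241)) (XT.lf (nat_lit 76) (nat_lit 4022217054) (nat_lit 0) (nat_lit 12889787315) (nat_lit 760) (nat_lit 951820888) (nat_lit 103) (nat_lit 5) (nat_lit 102) (nat_lit 5) (nat_lit 112) (nat_lit 5) (nat_lit 333) (nat_lit 327) (nat_lit 240))))) (XT.nd (nat_lit 234) (nat_lit 532) (nat_lit 0) (XT.nd (nat_lit 78) (nat_lit 0) (nat_lit 76) (XT.lf (nat_lit 0) (nat_lit 67568952) (nat_lit 760) (nat_lit 5236627083) (nat_lit 836) (nat_lit 13020824214) (nat_lit 92) (nat_lit 5) (nat_lit 102) (nat_lit 5) (nat_lit 103) (nat_lit 5) (nat_lit 334) (nat_lit 327) (nat_lit 239)) (XT.nd (nat_lit 78) (nat_lit 0) (nat_lit 0) (XT.lf (nat_lit 0) (nat_lit 1196575582) (nat_lit 760) (nat_lit 14951032414) (nat_lit 836) (nat_lit 2656373679) (nat_lit 93) (nat_lit 5) (nat_lit 103) (nat_lit 5) (nat_lit 104) (nat_lit 5) (nat_lit 335) (nat_lit 327) (nat_lit 238)) (XT.lf (nat_lit 0) (nat_lit 2546574716) (nat_lit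 760) (nat_lit 5822412979) (nat_lit 836) (nat_lit 10929694087) (nat_lit 93) (nat_lit 5) (nat_lit 103) (nat_lit 5) (nat_lit 104) (nat_lit 5) (nat_lit 336) (nat_lit 327) (nat_lit 237)))) (XT.nd (nat_lit 78) (nat_lit 608) (nat_lit 0) (XT.lf (nat_lit 76) (nat_lit 3876857798) (nat_lit 0) (nat_lit 135791742) (nat_lit 836) (nat_lit 15803055439) (nat_lit 94) (nat_lit 5) (nat_lit 93) (nat_lit 5) (nat_lit 104) (nat_lit 5) (nat_lit 337) (nat_lit 327) (nat_lit 236)) (XT.nd (nat_lit 78) (nat_lit 684) (nat_lit 0) (XT.lf (nat_lit 0) (nat_lit 5773593686) (nat_lit 760) (nat_lit 6235208362) (nat_lit 76) (nat_lit 8338715080) (nat_lit 94) (nat_lit 5) (nat_lit 104) (nat_lit 5) (nat_lit 95) (nat_lit 5) (nat_lit 338) (nat_lit 327) (nat_lit 235)) (XT.lf (nat_lit 0) (nat_lit 4071877899) (nat_lit 684) (nat_lit 3605547974) (nat_lit 760) (nat_lit 13225767274) (nat_lit 85) (nat_lit 5) (nat_lit 94) (nat_lit 5) (nat_lit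 95) (nat_lit 5) (nat_lit 339) (nat_lit 327) (nat_lit 234))))))))
noncomputable def xc171 : XT := (XT.nd (nat_lit 1794) (nat_lit 1748) (nat_lit 0) (XT.nd (nat_lit 858) (nat_lit 1520) (nat_lit 0) (XT.nd (nat_lit 390) (nat_lit 988) (nat_lit 0) (XT.nd (nat_lit 156) (nat_lit 304) (nat_lit 0) (XT.nd (nat_lit 78) (nat_lit 380) (nat_lit 0) (XT.lf (nat_lit 0) (nat_lit 9854668929) (nat_lit 760) (nat_lit 6464012499) (nat_lit 76) (nat_lit 5159075151) (nat_lit 85) (nat_lit 5) (nat_lit 95) (nat_lit 5) (nat_lit 86) (nat_lit 5) (nat_lit 340) (nat_lit 327) (nat_lit 233)) (XT.lf (nat_lit 0) (nat_lit 4496725106) (nat_lit 380) (nat_lit 7763292710) (nat_lit 456) (nat_lit 9815082065) (nat_lit 80) (nat_lit 5) (nat_lit 85) (nat_lit 5) (nat_lit 86) (nat_lit 5) (nat_lit 341) (nat_lit 327) (nat_lit 232))) (XT.nd (nat_lit 78) (nat_lit 304) (nat_lit 0) (XT.lf (nat_lit 0) (nat_lit 14906207490) (nat_lit 456) (nat_lit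 6497853031) (nat_lit 76) (nat_lit 1292234380) (nat_lit 80) (nat_lit 5) (nat_lit 86) (nat_lit 5) (nat_lit 81) (nat_lit 5) (nat_lit 342) (nat_lit 327) (nat_lit 231)) (XT.nd (nat_lit 78) (nat_lit 0) (nat_lit 0) (XT.lf (nat_lit 0) (nat_lit 5165133154) (nat_lit 304) (nat_lit 12718208540) (nat_lit 380) (nat_lit 5455288818) (nat_lit 76) (nat_lit 5) (nat_lit 80) (nat_lit 5) (nat_lit 81) (nat_lit 5) (nat_lit 343) (nat_lit 327) (nat_lit 230)) (XT.lf (nat_lit 0) (nat_lit 17627403379) (nat_lit 304) (nat_lit 3482993257) (nat_lit 380) (nat_lit 2897645056) (nat_lit 76) (nat_lit 5) (nat_lit 80) (nat_lit 5) (nat_lit 81) (nat_lit 5) (nat_lit 344) (nat_lit 327) (nat_lit 229))))) (XT.nd (nat_lit 234) (nat_lit 304) (nat_lit 0) (XT.nd (nat_lit 78) (nat_lit 380) (nat_lit 0) (XT.lf (nat_lit 0) (nat_lit 6090337076) (nat_lit 304) (nat_lit 18592012466) (nat_lit 380) (nat_lit 19408050) (nat_lit 72) (nat_lit 5) (nat_lit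 76) (nat_lit 5) (nat_lit 77) (nat_lit 5) (nat_lit 345) (nat_lit 327) (nat_lit 228)) (XT.nd (nat_lit 78) (nat_lit 304) (nat_lit 0) (XT.lf (nat_lit 0) (nat_lit 3065119643) (nat_lit 380) (nat_lit 6133699711) (nat_lit 76) (nat_lit 16221081965) (nat_lit 71) (nat_lit 5) (nat_lit 76) (nat_lit 5) (nat_lit 72) (nat_lit 5) (nat_lit 346) (nat_lit 327) (nat_lit 227)) (XT.lf (nat_lit 0) (nat_lit 6419609037) (nat_lit 380) (nat_lit 18992384007) (nat_lit 76) (nat_lit 756133770) (nat_lit 67) (nat_lit 5) (nat_lit 72) (nat_lit 5) (nat_lit 68) (nat_lit 5) (nat_lit 347) (nat_lit 327) (nat_lit 226)))) (XT.nd (nat_lit 78) (nat_lit 304) (nat_lit 0) (XT.lf (nat_lit 0) (nat_lit 10190386290) (nat_lit 380) (nat_lit 5746820326) (nat_lit 76) (nat_lit 11004138193) (nat_lit 67) (nat_lit 5) (nat_lit 72) (nat_lit 5) (nat_lit 68) (nat_lit 5) (nat_lit 348) (nat_lit 327) (nat_lit 225)) (XT.nd (nat_lit 78) (nat_lit 0) (nat_lit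 0) (XT.lf (nat_lit 0) (nat_lit 8421659585) (nat_lit 304) (nat_lit 5852083762) (nat_lit 380) (nat_lit 13473287258) (nat_lit 63) (nat_lit 5) (nat_lit 67) (nat_lit 5) (nat_lit 68) (nat_lit 5) (nat_lit 349) (nat_lit 327) (nat_lit 224)) (XT.lf (nat_lit 0) (nat_lit 18726900312) (nat_lit 380) (nat_lit 5174722127) (nat_lit 76) (nat_lit 4683105172) (nat_lit 63) (nat_lit 5) (nat_lit 68) (nat_lit 5) (nat_lit 64) (nat_lit 5) (nat_lit 350) (nat_lit 327) (nat_lit 223)))))) (XT.nd (nat_lit 468) (nat_lit 684) (nat_lit 0) (XT.nd (nat_lit 234) (nat_lit 228) (nat_lit 0) (XT.nd (nat_lit 78) (nat_lit 380) (nat_lit 0) (XT.lf (nat_lit 0) (nat_lit 9895567304) (nat_lit 228) (nat_lit 13750675367) (nat_lit 304) (nat_lit 5805898534) (nat_lit 60) (nat_lit 5) (nat_lit 63) (nat_lit 5) (nat_lit 64) (nat_lit 5) (nat_lit 351) (nat_lit 327) (nat_lit 222)) (XT.nd (nat_lit 78) (nat_lit 380) (nat_lit 0) (XT.lf (nat_lit 0)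 (nat_lit 25890489751) (nat_lit 228) (nat_lit 3001988605) (nat_lit 304) (nat_lit 1466408543) (nat_lit 60) (nat_lit 5) (nat_lit 63) (nat_lit 5) (nat_lit 64) (nat_lit 5) (nat_lit 352) (nat_lit 327) (nat_lit 221)) (XT.lf (nat_lit 0) (nat_lit 3300287135) (nat_lit 380) (nat_lit 19741052675) (nat_lit 76) (nat_lit 8251768243) (nat_lit 55) (nat_lit 5) (nat_lit 60) (nat_lit 5) (nat_lit 56) (nat_lit 5) (nat_lit 353) (nat_lit 327) (nat_lit 220)))) (XT.nd (nat_lit 78) (nat_lit 228) (nat_lit 0) (XT.lf (nat_lit 0) (nat_lit 8375813802) (nat_lit 380) (nat_lit 3824596421) (nat_lit 76) (nat_lit 20066445888) (nat_lit 55) (nat_lit 5) (nat_lit 60) (nat_lit 5) (nat_lit 56) (nat_lit 5) (nat_lit 354) (nat_lit 327) (nat_lit 219)) (XT.nd (nat_lit 78) (nat_lit 0) (nat_lit 0) (XT.lf (nat_lit 0) (nat_lit 13305434802) (nat_lit 228) (nat_lit 601368731) (nat_lit 304) (nat_lit 19372410061) (nat_lit 52) (nat_lit 5) (nat_lit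 55) (nat_lit 5) (nat_lit 56) (nat_lit 5) (nat_lit 355) (nat_lit 327) (nat_lit 218)) (XT.lf (nat_lit 0) (nat_lit 19955017646) (nat_lit 304) (nat_lit 3104264248) (nat_lit 76) (nat_lit 11270879370) (nat_lit 52) (nat_lit 5) (nat_lit 56) (nat_lit 5) (nat_lit 53) (nat_lit 5) (nat_lit 356) (nat_lit 327) (nat_lit 217))))) (XT.nd (nat_lit 234) (nat_lit 228) (nat_lit 0) (XT.nd (nat_lit 78) (nat_lit 228) (nat_lit 0) (XT.lf (nat_lit 0) (nat_lit 15073463134) (nat_lit 228) (nat_lit 11471741129) (nat_lit 304) (nat_lit 8876479732) (nat_lit 49) (nat_lit 5) (nat_lit 52) (nat_lit 5) (nat_lit 53) (nat_lit 5) (nat_lit 357) (nat_lit 327) (nat_lit 216)) (XT.nd (nat_lit 78) (nat_lit 228) (nat_lit 0) (XT.lf (nat_lit 0) (nat_lit 33523665118) (nat_lit 304) (nat_lit 2316987553) (nat_lit 76) (nat_lit 724197439) (nat_lit 49) (nat_lit 5) (nat_lit 53) (nat_lit 5) (nat_lit 50) (nat_lit 5) (nat_lit 358) (nat_lit 327) (nat_lit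 215)) (XT.lf (nat_lit 0) (nat_lit 3442083339) (nat_lit 228) (nat_lit 20835232758) (nat_lit 76) (nat_lit 13462705655) (nat_lit 46) (nat_lit 5) (nat_lit 49) (nat_lit 5) (nat_lit 47) (nat_lit 5) (nat_lit 359) (nat_lit 327) (nat_lit 214)))) (XT.nd (nat_lit 78) (nat_lit 228) (nat_lit 0) (XT.lf (nat_lit 0) (nat_lit 10181979136) (nat_lit 228) (nat_lit 1862036921) (nat_lit 76) (nat_lit 26925714499) (nat_lit 46) (nat_lit 5) (nat_lit 49) (nat_lit 5) (nat_lit 47) (nat_lit 5) (nat_lit 360) (nat_lit 327) (nat_lit 213)) (XT.nd (nat_lit 78) (nat_lit 0) (nat_lit 0) (XT.lf (nat_lit 0) (nat_lit 17562315500) (nat_lit 304) (nat_lit 21614423318) (nat_lit 76) (nat_lit 1069018211) (nat_lit 43) (nat_lit 5) (nat_lit 47) (nat_lit 5) (nat_lit 44) (nat_lit 5) (nat_lit 361) (nat_lit 327) (nat_lit 212)) (XT.lf (nat_lit 0) (nat_lit 25536285041) (nat_lit 304) (nat_lit 1575321259) (nat_lit 76) (nat_lit 14462752013) (nat_lit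 43) (nat_lit 5) (nat_lit 47) (nat_lit 5) (nat_lit 44) (nat_lit 5) (nat_lit 362) (nat_lit 327) (nat_lit 211))))))) (XT.nd (nat_lit 858) (nat_lit 684) (nat_lit 0) (XT.nd (nat_lit 390) (nat_lit 532) (nat_lit 0) (XT.nd (nat_lit 156) (nat_lit 380) (nat_lit 0) (XT.nd (nat_lit 78) (nat_lit 0) (nat_lit 0) (XT.lf (nat_lit 0) (nat_lit 20102108036) (nat_lit 152) (nat_lit 14116049568) (nat_lit 228) (nat_lit 8735775931) (nat_lit 41) (nat_lit 5) (nat_lit 43) (nat_lit 5) (nat_lit 44) (nat_lit 5) (nat_lit 363) (nat_lit 327) (nat_lit 210)) (XT.lf (nat_lit 0) (nat_lit 42911192771) (nat_lit 152) (nat_lit 445077530) (nat_lit 228) (nat_lit 1045113795) (nat_lit 41) (nat_lit 5) (nat_lit 43) (nat_lit 5) (nat_lit 44) (nat_lit 5) (nat_lit 364) (nat_lit 327) (nat_lit 209))) (XT.nd (nat_lit 78) (nat_lit 152) (nat_lit 0) (XT.lf (nat_lit 0) (nat_lit 7360973596) (nat_lit 228) (nat_lit 24612042056) (nat_lit 76) (nat_lit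 13914912176) (nat_lit 38) (nat_lit 5) (nat_lit 41) (nat_lit 5) (nat_lit 39) (nat_lit 5) (nat_lit 365) (nat_lit 327) (nat_lit 208)) (XT.nd (nat_lit 78) (nat_lit 152) (nat_lit 0) (XT.lf (nat_lit 0) (nat_lit 16180868322) (nat_lit 228) (nat_lit 2247177273) (nat_lit 76) (nat_lit 29018468594) (nat_lit 38) (nat_lit 5) (nat_lit 41) (nat_lit 5) (nat_lit 39) (nat_lit 5) (nat_lit 366) (nat_lit 327) (nat_lit 207)) (XT.lf (nat_lit 0) (nat_lit 21931396107) (nat_lit 152) (nat_lit 3848656473) (nat_lit 228) (nat_lit 23286065758) (nat_lit 36) (nat_lit 5) (nat_lit 38) (nat_lit 5) (nat_lit 39) (nat_lit 5) (nat_lit 367) (nat_lit 327) (nat_lit 206))))) (XT.nd (nat_lit 234) (nat_lit 304) (nat_lit 0) (XT.nd (nat_lit 78) (nat_lit 228) (nat_lit 0) (XT.lf (nat_lit 0) (nat_lit 36072739057) (nat_lit 228) (nat_lit 3553965834) (nat_lit 76) (nat_lit 11129323713) (nat_lit 36) (nat_lit 5) (nat_lit 39) (nat_lit 5) (nat_lit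 37) (nat_lit 5) (nat_lit 368) (nat_lit 327) (nat_lit 205)) (XT.nd (nat_lit 78) (nat_lit 76) (nat_lit 0) (XT.lf (nat_lit 0) (nat_lit 21835376330) (nat_lit 152) (nat_lit 25444824833) (nat_lit 228) (nat_lit 5230229069) (nat_lit 34) (nat_lit 5) (nat_lit 36) (nat_lit 5) (nat_lit 37) (nat_lit 5) (nat_lit 369) (nat_lit 327) (nat_lit 204)) (XT.lf (nat_lit 0) (nat_lit 4602535305) (nat_lit 228) (nat_lit 5812524488) (nat_lit 76) (nat_lit 43930962521) (nat_lit 33) (nat_lit 5) (nat_lit 36) (nat_lit 5) (nat_lit 34) (nat_lit 5) (nat_lit 370) (nat_lit 327) (nat_lit 203)))) (XT.nd (nat_lit 78) (nat_lit 152) (nat_lit 0) (XT.lf (nat_lit 0) (nat_lit 15163833565) (nat_lit 228) (nat_lit 35474111659) (nat_lit 76) (nat_lit 5610530937) (nat_lit 31) (nat_lit 5) (nat_lit 34) (nat_lit 5) (nat_lit 32) (nat_lit 5) (nat_lit 371) (nat_lit 327) (nat_lit 202)) (XT.nd (nat_lit 78) (nat_lit 152) (nat_lit 0) (XT.lf (nat_lit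 0) (nat_lit 26520377603) (nat_lit 228) (nat_lit 9527095708) (nat_lit 76) (nat_lit 22185222744) (nat_lit 31) (nat_lit 5) (nat_lit 34) (nat_lit 5) (nat_lit 32) (nat_lit 5) (nat_lit 372) (nat_lit 327) (nat_lit 201)) (XT.lf (nat_lit 0) (nat_lit 18297172788) (nat_lit 152) (nat_lit 20429808607) (nat_lit 228) (nat_lit 21575036203) (nat_lit 29) (nat_lit 5) (nat_lit 31) (nat_lit 5) (nat_lit 32) (nat_lit 5) (nat_lit 373) (nat_lit 327) (nat_lit 200)))))) (XT.nd (nat_lit 468) (nat_lit 380) (nat_lit 0) (XT.nd (nat_lit 234) (nat_lit 152) (nat_lit 0) (XT.nd (nat_lit 78) (nat_lit 152) (nat_lit 0) (XT.lf (nat_lit 0) (nat_lit 47837784202) (nat_lit 152) (nat_lit 3864115356) (nat_lit 228) (nat_lit 10765008624) (nat_lit 29) (nat_lit 5) (nat_lit 31) (nat_lit 5) (nat_lit 32) (nat_lit 5) (nat_lit 374) (nat_lit 327) (nat_lit 199)) (XT.nd (nat_lit 78) (nat_lit 0) (nat_lit 0) (XT.lf (nat_lit 0) (nat_lit 1006038339)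 (nat_lit 152) (nat_lit 50376457049) (nat_lit 76) (nat_lit 13335129884) (nat_lit 27) (nat_lit 5) (nat_lit 29) (nat_lit 5) (nat_lit 28) (nat_lit 5) (nat_lit 375) (nat_lit 327) (nat_lit 198)) (XT.lf (nat_lit 0) (nat_lit 13315802214) (nat_lit 152) (nat_lit 22050018548) (nat_lit 76) (nat_lit 31690638583) (nat_lit 27) (nat_lit 5) (nat_lit 29) (nat_lit 5) (nat_lit 28) (nat_lit 5) (nat_lit 376) (nat_lit 327) (nat_lit 197)))) (XT.nd (nat_lit 78) (nat_lit 0) (nat_lit 0) (XT.lf (nat_lit 0) (nat_lit 7941677649) (nat_lit 152) (nat_lit 18420302285) (nat_lit 228) (nat_lit 43144210693) (nat_lit 25) (nat_lit 5) (nat_lit 27) (nat_lit 5) (nat_lit 28) (nat_lit 5) (nat_lit 377) (nat_lit 327) (nat_lit 196)) (XT.nd (nat_lit 78) (nat_lit 0) (nat_lit 0) (XT.lf (nat_lit 0) (nat_lit 40193322637) (nat_lit 152) (nat_lit 237570846) (nat_lit 228) (nat_lit 31628995346) (nat_lit 25) (nat_lit 5) (nat_lit 27) (nat_lit 5)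 (nat_lit 28) (nat_lit 5) (nat_lit 378) (nat_lit 327) (nat_lit 195)) (XT.lf (nat_lit 0) (nat_lit 55494731085) (nat_lit 228) (nat_lit 983119875) (nat_lit 76) (nat_lit 18248848685) (nat_lit 25) (nat_lit 5) (nat_lit 28) (nat_lit 5) (nat_lit 26) (nat_lit 4) (nat_lit 379) (nat_lit 327) (nat_lit 194))))) (XT.nd (nat_lit 234) (nat_lit 76) (nat_lit 0) (XT.nd (nat_lit 78) (nat_lit 228) (nat_lit 0) (XT.lf (nat_lit 0) (nat_lit 32475224246) (nat_lit 76) (nat_lit 39344707762) (nat_lit 152) (nat_lit 5681511966) (nat_lit 24) (nat_lit 5) (nat_lit 25) (nat_lit 5) (nat_lit 26) (nat_lit 4) (nat_lit 380) (nat_lit 327) (nat_lit 193)) (XT.nd (nat_lit 78) (nat_lit 152) (nat_lit 0) (XT.lf (nat_lit 0) (nat_lit 8287109145) (nat_lit 152) (nat_lit 12911987672) (nat_lit 76) (nat_lit 59208449289) (nat_lit 23) (nat_lit 5) (nat_lit 25) (nat_lit 5) (nat_lit 24) (nat_lit 5) (nat_lit 381) (nat_lit 327) (nat_lit 192)) (XT.lf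 (nat_lit 0) (nat_lit 21395014669) (nat_lit 152) (nat_lit 1699636688) (nat_lit 228) (nat_lit 60343075038) (nat_lit 21) (nat_lit 5) (nat_lit 23) (nat_lit 5) (nat_lit 24) (nat_lit 5) (nat_lit 382) (nat_lit 327) (nat_lit 191)))) (XT.nd (nat_lit 78) (nat_lit 76) (nat_lit 0) (XT.lf (nat_lit 0) (nat_lit 39155366976) (nat_lit 228) (nat_lit 29044152682) (nat_lit 76) (nat_lit 18394257498) (nat_lit 21) (nat_lit 5) (nat_lit 24) (nat_lit 5) (nat_lit 22) (nat_lit 4) (nat_lit 383) (nat_lit 327) (nat_lit 190)) (XT.nd (nat_lit 78) (nat_lit 0) (nat_lit 0) (XT.lf (nat_lit 0) (nat_lit 5756328205) (nat_lit 76) (nat_lit 50378062224) (nat_lit 152) (nat_lit 33767477633) (nat_lit 20) (nat_lit 5) (nat_lit 21) (nat_lit 5) (nat_lit 22) (nat_lit 4) (nat_lit 384) (nat_lit 327) (nat_lit 189)) (XT.lf (nat_lit 0) (nat_lit 43300869543) (nat_lit 76) (nat_lit 31150959027) (nat_lit 152) (nat_lit 18899062921) (nat_lit 20)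 (nat_lit 5) (nat_lit 21) (nat_lit 5) (nat_lit 22) (nat_lit 4) (nat_lit 385) (nat_lit 327) (nat_lit 188))))))))
noncomputable def xc172 : XT := (XT.nd (nat_lit 1794) (nat_lit 380) (nat_lit 0) (XT.nd (nat_lit 858) (nat_lit 304) (nat_lit 0) (XT.nd (nat_lit 390) (nat_lit 228) (nat_lit 0) (XT.nd (nat_lit 156) (nat_lit 76) (nat_lit 0) (XT.nd (nat_lit 78) (nat_lit 152) (nat_lit 0) (XT.lf (nat_lit 0) (nat_lit 82718532240) (nat_lit 76) (nat_lit 10964308029) (nat_lit 152) (nat_lit 3289641838) (nat_lit 20) (nat_lit 5) (nat_lit 21) (nat_lit 5) (nat_lit 22) (nat_lit 4) (nat_lit 386) (nat_lit 327) (nat_lit 187)) (XT.lf (nat_lit 0) (nat_lit 13220877607) (nat_lit 152) (nat_lit 77027601008) (nat_lit 76) (nat_lit 10489452197) (nat_lit 18) (nat_lit 5) (nat_lit 20) (nat_lit 5) (nat_lit 19) (nat_lit 4) (nat_lit 387) (nat_lit 327) (nat_lit 186))) (XT.nd (nat_lit 78) (nat_lit 76) (nat_lit 0) (XT.lf (nat_lit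 0) (nat_lit 30869258940) (nat_lit 152) (nat_lit 40853525667) (nat_lit 76) (nat_lit 32945027394) (nat_lit 18) (nat_lit 5) (nat_lit 20) (nat_lit 5) (nat_lit 19) (nat_lit 4) (nat_lit 388) (nat_lit 327) (nat_lit 185)) (XT.nd (nat_lit 78) (nat_lit 76) (nat_lit 0) (XT.lf (nat_lit 0) (nat_lit 49397956314) (nat_lit 152) (nat_lit 2874559280) (nat_lit 76) (nat_lit 56521777709) (nat_lit 18) (nat_lit 5) (nat_lit 20) (nat_lit 5) (nat_lit 19) (nat_lit 4) (nat_lit 389) (nat_lit 327) (nat_lit 184)) (XT.lf (nat_lit 0) (nat_lit 38223102240) (nat_lit 76) (nat_lit 31224753180) (nat_lit 152) (nat_lit 43649505768) (nat_lit 17) (nat_lit 5) (nat_lit 18) (nat_lit 5) (nat_lit 19) (nat_lit 4) (nat_lit 390) (nat_lit 327) (nat_lit 183))))) (XT.nd (nat_lit 234) (nat_lit 76) (nat_lit 0) (XT.nd (nat_lit 78) (nat_lit 152) (nat_lit 0) (XT.lf (nat_lit 0) (nat_lit 81471872448) (nat_lit 76) (nat_lit 9075095801) (nat_lit 152)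 (nat_lit 27066279098) (nat_lit 17) (nat_lit 5) (nat_lit 18) (nat_lit 5) (nat_lit 19) (nat_lit 4) (nat_lit 391) (nat_lit 327) (nat_lit 182)) (XT.nd (nat_lit 78) (nat_lit 76) (nat_lit 0) (XT.lf (nat_lit 0) (nat_lit 4445544256) (nat_lit 76) (nat_lit 108544427603) (nat_lit 76) (nat_lit 9350509979) (nat_lit 16) (nat_lit 4) (nat_lit 17) (nat_lit 5) (nat_lit 17) (nat_lit 4) (nat_lit 392) (nat_lit 327) (nat_lit 181)) (XT.lf (nat_lit 0) (nat_lit 9723945941) (nat_lit 152) (nat_lit 79263638912) (nat_lit 76) (nat_lit 38270822688) (nat_lit 15) (nat_lit 5) (nat_lit 17) (nat_lit 5) (nat_lit 16) (nat_lit 4) (nat_lit 393) (nat_lit 327) (nat_lit 180)))) (XT.nd (nat_lit 78) (nat_lit 76) (nat_lit 0) (XT.lf (nat_lit 0) (nat_lit 29436088062) (nat_lit 152) (nat_lit 38857376581) (nat_lit 76) (nat_lit 64121191114) (nat_lit 15) (nat_lit 5) (nat_lit 17) (nat_lit 5) (nat_lit 16) (nat_lit 4) (nat_lit 394) (nat_lit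 327) (nat_lit 179)) (XT.nd (nat_lit 78) (nat_lit 0) (nat_lit 0) (XT.lf (nat_lit 0) (nat_lit 3683951929) (nat_lit 76) (nat_lit 46505689653) (nat_lit 152) (nat_lit 87636285230) (nat_lit 14) (nat_lit 5) (nat_lit 15) (nat_lit 5) (nat_lit 16) (nat_lit 4) (nat_lit 395) (nat_lit 327) (nat_lit 178)) (XT.lf (nat_lit 0) (nat_lit 49698281743) (nat_lit 76) (nat_lit 22938980053) (nat_lit 152) (nat_lit 70837680783) (nat_lit 14) (nat_lit 5) (nat_lit 15) (nat_lit 5) (nat_lit 16) (nat_lit 4) (nat_lit 396) (nat_lit 327) (nat_lit 177)))))) (XT.nd (nat_lit 468) (nat_lit 76) (nat_lit 0) (XT.nd (nat_lit 234) (nat_lit 152) (nat_lit 0) (XT.nd (nat_lit 78) (nat_lit 76) (nat_lit 0) (XT.lf (nat_lit 0) (nat_lit 96233840072) (nat_lit 152) (nat_lit 51424295791) (nat_lit 0) (nat_lit 1746945003) (nat_lit 14) (nat_lit 5) (nat_lit 16) (nat_lit 4) (nat_lit 14) (nat_lit 4) (nat_lit 397) (nat_lit 327) (nat_lit 176)) (XT.nd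 (nat_lit 78) (nat_lit 76) (nat_lit 0) (XT.lf (nat_lit 0) (nat_lit 121384752602) (nat_lit 152) (nat_lit 7333234647) (nat_lit 0) (nat_lit 26895014104) (nat_lit 14) (nat_lit 5) (nat_lit 16) (nat_lit 4) (nat_lit 14) (nat_lit 4) (nat_lit 398) (nat_lit 327) (nat_lit 175)) (XT.lf (nat_lit 0) (nat_lit 40247824823) (nat_lit 76) (nat_lit 108172297265) (nat_lit 76) (nat_lit 13679850739) (nat_lit 13) (nat_lit 4) (nat_lit 14) (nat_lit 5) (nat_lit 14) (nat_lit 4) (nat_lit 399) (nat_lit 327) (nat_lit 174)))) (XT.nd (nat_lit 78) (nat_lit 76) (nat_lit 0) (XT.lf (nat_lit 0) (nat_lit 7768008550) (nat_lit 152) (nat_lit 78570608072) (nat_lit 76) (nat_lit 82560274741) (nat_lit 12) (nat_lit 5) (nat_lit 14) (nat_lit 5) (nat_lit 13) (nat_lit 4) (nat_lit 400) (nat_lit 327) (nat_lit 173)) (XT.nd (nat_lit 78) (nat_lit 76) (nat_lit 0) (XT.lf (nat_lit 0) (nat_lit 29827131761) (nat_lit 152) (nat_lit 33351861751) (nat_lit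 76) (nat_lit 112847619595) (nat_lit 12) (nat_lit 5) (nat_lit 14) (nat_lit 5) (nat_lit 13) (nat_lit 4) (nat_lit 401) (nat_lit 327) (nat_lit 172)) (XT.lf (nat_lit 0) (nat_lit 14592382829) (nat_lit 76) (nat_lit 38623326433) (nat_lit 152) (nat_lit 130283687205) (nat_lit 11) (nat_lit 5) (nat_lit 12) (nat_lit 5) (nat_lit 13) (nat_lit 4) (nat_lit 402) (nat_lit 327) (nat_lit 171))))) (XT.nd (nat_lit 234) (nat_lit 76) (nat_lit 0) (XT.nd (nat_lit 78) (nat_lit 0) (nat_lit 0) (XT.lf (nat_lit 0) (nat_lit 66089294633) (nat_lit 76) (nat_lit 12247946192) (nat_lit 152) (nat_lit 112980402323) (nat_lit 11) (nat_lit 5) (nat_lit 12) (nat_lit 5) (nat_lit 13) (nat_lit 4) (nat_lit 403) (nat_lit 327) (nat_lit 170)) (XT.nd (nat_lit 78) (nat_lit 0) (nat_lit 0) (XT.lf (nat_lit 0) (nat_lit 104954747912) (nat_lit 152) (nat_lit 79609284045) (nat_lit 0) (nat_lit 14950775654) (nat_lit 11) (nat_lit 5) (nat_lit 13) (nat_lit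 4) (nat_lit 11) (nat_lit 4) (nat_lit 404) (nat_lit 327) (nat_lit 169)) (XT.lf (nat_lit 0) (nat_lit 133102716762) (nat_lit 152) (nat_lit 31912314632) (nat_lit 0) (nat_lit 43096819958) (nat_lit 11) (nat_lit 5) (nat_lit 13) (nat_lit 4) (nat_lit 11) (nat_lit 4) (nat_lit 405) (nat_lit 327) (nat_lit 168)))) (XT.nd (nat_lit 78) (nat_lit 0) (nat_lit 0) (XT.lf (nat_lit 0) (nat_lit 18768043295) (nat_lit 76) (nat_lit 144181920041) (nat_lit 76) (nat_lit 54174190337) (nat_lit 10) (nat_lit 4) (nat_lit 11) (nat_lit 5) (nat_lit 11) (nat_lit 4) (nat_lit 406) (nat_lit 327) (nat_lit 167)) (XT.nd (nat_lit 78) (nat_lit 0) (nat_lit 0) (XT.lf (nat_lit 0) (nat_lit 73088222825) (nat_lit 76) (nat_lit 121740678742) (nat_lit 76) (nat_lit 31731203419) (nat_lit 10) (nat_lit 4) (nat_lit 11) (nat_lit 5) (nat_lit 11) (nat_lit 4) (nat_lit 407) (nat_lit 327) (nat_lit 166)) (XT.lf (nat_lit 0) (nat_lit 130122392475) (nat_lit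 76) (nat_lit 98178326459) (nat_lit 76) (nat_lit 8167188641) (nat_lit 10) (nat_lit 4) (nat_lit 11) (nat_lit 5) (nat_lit 11) (nat_lit 4) (nat_lit 408) (nat_lit 327) (nat_lit 165))))))) (XT.nd (nat_lit 858) (nat_lit 152) (nat_lit 0) (XT.nd (nat_lit 390) (nat_lit 76) (nat_lit 0) (XT.nd (nat_lit 156) (nat_lit 76) (nat_lit 0) (XT.nd (nat_lit 78) (nat_lit 0) (nat_lit 0) (XT.lf (nat_lit 0) (nat_lit 16043488603) (nat_lit 152) (nat_lit 57123569509) (nat_lit 76) (nat_lit 173691155041) (nat_lit 9) (nat_lit 5) (nat_lit 11) (nat_lit 5) (nat_lit 10) (nat_lit 4) (nat_lit 409) (nat_lit 327) (nat_lit 164)) (XT.lf (nat_lit 0) (nat_lit 41189243951) (nat_lit 152) (nat_lit 5576278975) (nat_lit 76) (nat_lit 210995866179) (nat_lit 9) (nat_lit 5) (nat_lit 11) (nat_lit 5) (nat_lit 10) (nat_lit 4) (nat_lit 410) (nat_lit 327) (nat_lit 163))) (XT.nd (nat_lit 78) (nat_lit 0) (nat_lit 0) (XT.lf (nat_lit 0) (nat_lit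 50151770713) (nat_lit 76) (nat_lit 18222588269) (nat_lit 152) (nat_lit 200796261544) (nat_lit 8) (nat_lit 5) (nat_lit 9) (nat_lit 5) (nat_lit 10) (nat_lit 4) (nat_lit 411) (nat_lit 327) (nat_lit 162)) (XT.nd (nat_lit 78) (nat_lit 0) (nat_lit 0) (XT.lf (nat_lit 0) (nat_lit 97197192897) (nat_lit 152) (nat_lit 172472512385) (nat_lit 0) (nat_lit 11466685335) (nat_lit 8) (nat_lit 5) (nat_lit 10) (nat_lit 4) (nat_lit 8) (nat_lit 4) (nat_lit 412) (nat_lit 327) (nat_lit 161)) (XT.lf (nat_lit 0) (nat_lit 127759010616) (nat_lit 152) (nat_lit 123899284258) (nat_lit 0) (nat_lit 42027262474) (nat_lit 8) (nat_lit 5) (nat_lit 10) (nat_lit 4) (nat_lit 8) (nat_lit 4) (nat_lit 413) (nat_lit 327) (nat_lit 160))))) (XT.nd (nat_lit 234) (nat_lit 0) (nat_lit 0) (XT.nd (nat_lit 78) (nat_lit 76) (nat_lit 0) (XT.lf (nat_lit 0) (nat_lit 159848072700) (nat_lit 152) (nat_lit 72899009218) (nat_lit 0) (nat_lit 74115143054)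 (nat_lit 8) (nat_lit 5) (nat_lit 10) (nat_lit 4) (nat_lit 8) (nat_lit 4) (nat_lit 414) (nat_lit 327) (nat_lit 159)) (XT.nd (nat_lit 78) (nat_lit 76) (nat_lit 0) (XT.lf (nat_lit 0) (nat_lit 193540781678) (nat_lit 152) (nat_lit 19350258039) (nat_lit 0) (nat_lit 107806726791) (nat_lit 8) (nat_lit 5) (nat_lit 10) (nat_lit 4) (nat_lit 8) (nat_lit 4) (nat_lit 415) (nat_lit 327) (nat_lit 158)) (XT.lf (nat_lit 0) (nat_lit 38093702692) (nat_lit 76) (nat_lit 191418405050) (nat_lit 76) (nat_lit 105683278504) (nat_lit 7) (nat_lit 4) (nat_lit 8) (nat_lit 5) (nat_lit 8) (nat_lit 4) (nat_lit 416) (nat_lit 327) (nat_lit 157)))) (XT.nd (nat_lit 78) (nat_lit 0) (nat_lit 0) (XT.lf (nat_lit 0) (nat_lit 99080217951) (nat_lit 76) (nat_lit 168528734391) (nat_lit 76) (nat_lit 82792587218) (nat_lit 7) (nat_lit 4) (nat_lit 8) (nat_lit 5) (nat_lit 8) (nat_lit 4) (nat_lit 417) (nat_lit 327) (nat_lit 156)) (XT.nd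 (nat_lit 78) (nat_lit 0) (nat_lit 0) (XT.lf (nat_lit 0) (nat_lit 163114686807) (nat_lit 76) (nat_lit 144495234506) (nat_lit 76) (nat_lit 58758115307) (nat_lit 7) (nat_lit 4) (nat_lit 8) (nat_lit 5) (nat_lit 8) (nat_lit 4) (nat_lit 418) (nat_lit 327) (nat_lit 155)) (XT.lf (nat_lit 0) (nat_lit 230349572282) (nat_lit 76) (nat_lit 119260682778) (nat_lit 76) (nat_lit 33522637840) (nat_lit 7) (nat_lit 4) (nat_lit 8) (nat_lit 5) (nat_lit 8) (nat_lit 4) (nat_lit 419) (nat_lit 327) (nat_lit 154)))))) (XT.nd (nat_lit 468) (nat_lit 0) (nat_lit 0) (XT.nd (nat_lit 234) (nat_lit 0) (nat_lit 0) (XT.nd (nat_lit 78) (nat_lit 152) (nat_lit 0) (XT.lf (nat_lit 0) (nat_lit 300944957437) (nat_lit 76) (nat_lit 92764996939) (nat_lit 76) (nat_lit 7026070345) (nat_lit 7) (nat_lit 4) (nat_lit 8) (nat_lit 5) (nat_lit 8) (nat_lit 4) (nat_lit 420) (nat_lit 327) (nat_lit 153)) (XT.nd (nat_lit 78) (nat_lit 76) (nat_lit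 0) (XT.lf (nat_lit 0) (nat_lit 20129114801) (nat_lit 152) (nat_lit 44475080924) (nat_lit 76) (nat_lit 354598915420) (nat_lit 6) (nat_lit 5) (nat_lit 8) (nat_lit 5) (nat_lit 7) (nat_lit 4) (nat_lit 421) (nat_lit 327) (nat_lit 152)) (XT.lf (nat_lit 0) (nat_lit 13936427090) (nat_lit 76) (nat_lit 34686496346) (nat_lit 152) (nat_lit 389954020215) (nat_lit 5) (nat_lit 5) (nat_lit 6) (nat_lit 5) (nat_lit 7) (nat_lit 4) (nat_lit 422) (nat_lit 327) (nat_lit 151)))) (XT.nd (nat_lit 78) (nat_lit 0) (nat_lit 0) (XT.lf (nat_lit 0) (nat_lit 76811454532) (nat_lit 76) (nat_lit 2482585514) (nat_lit 152) (nat_lit 379587797001) (nat_lit 5) (nat_lit 5) (nat_lit 6) (nat_lit 5) (nat_lit 7) (nat_lit 4) (nat_lit 423) (nat_lit 327) (nat_lit 150)) (XT.nd (nat_lit 78) (nat_lit 0) (nat_lit 0) (XT.lf (nat_lit 0) (nat_lit 111987315889) (nat_lit 152) (nat_lit 337862011304) (nat_lit 0) (nat_lit 30328217885) (nat_lit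 5) (nat_lit 5) (nat_lit 7) (nat_lit 4) (nat_lit 5) (nat_lit 4) (nat_lit 424) (nat_lit 327) (nat_lit 149)) (XT.lf (nat_lit 0) (nat_lit 146355411317) (nat_lit 152) (nat_lit 291484964123) (nat_lit 0) (nat_lit 64695655408) (nat_lit 5) (nat_lit 5) (nat_lit 7) (nat_lit 4) (nat_lit 5) (nat_lit 4) (nat_lit 425) (nat_lit 327) (nat_lit 148))))) (XT.nd (nat_lit 234) (nat_lit 0) (nat_lit 0) (XT.nd (nat_lit 78) (nat_lit 0) (nat_lit 0) (XT.lf (nat_lit 0) (nat_lit 182441395014) (nat_lit 152) (nat_lit 242790059313) (nat_lit 0) (nat_lit 100781012528) (nat_lit 5) (nat_lit 5) (nat_lit 7) (nat_lit 4) (nat_lit 5) (nat_lit 4) (nat_lit 426) (nat_lit 327) (nat_lit 147)) (XT.nd (nat_lit 78) (nat_lit 0) (nat_lit 0) (XT.lf (nat_lit 0) (nat_lit 220331185987) (nat_lit 152) (nat_lit 191661356625) (nat_lit 0) (nat_lit 138670206761) (nat_lit 5) (nat_lit 5) (nat_lit 7) (nat_lit 4) (nat_lit 5) (nat_lit 4) (nat_lit 427)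 (nat_lit 327) (nat_lit 146)) (XT.lf (nat_lit 0) (nat_lit 260114998025) (nat_lit 152) (nat_lit 137977121052) (nat_lit 0) (nat_lit 178453450476) (nat_lit 5) (nat_lit 5) (nat_lit 7) (nat_lit 4) (nat_lit 5) (nat_lit 4) (nat_lit 428) (nat_lit 327) (nat_lit 145)))) (XT.nd (nat_lit 39000) (nat_lit 0) (nat_lit 7220) (XT.lf (nat_lit 0) (nat_lit 301887554489) (nat_lit 152) (nat_lit 81609532987) (nat_lit 0) (nat_lit 220225465679) (nat_lit 5) (nat_lit 5) (nat_lit 7) (nat_lit 4) (nat_lit 5) (nat_lit 4) (nat_lit 429) (nat_lit 327) (nat_lit 144)) (XT.nd (nat_lit 78) (nat_lit 0) (nat_lit 0) (XT.lf (nat_lit 0) (nat_lit 3101657740) (nat_lit 0) (nat_lit 3101657740) (nat_lit 684) (nat_lit 1882098984) (nat_lit 100) (nat_lit 5) (nat_lit 100) (nat_lit 3) (nat_lit 109) (nat_lit 3) (nat_lit 328) (nat_lit 328) (nat_lit 244)) (XT.lf (nat_lit 0) (nat_lit 12975799544) (nat_lit 684) (nat_lit 2478509159) (nat_lit 760)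 (nat_lit 1107469910) (nat_lit 100) (nat_lit 5) (nat_lit 109) (nat_lit 3) (nat_lit 110) (nat_lit 5) (nat_lit 329) (nat_lit 328) (nat_lit 243))))))))
noncomputable def xc173 : XT := (XT.nd (nat_lit 1794) (nat_lit 2356) (nat_lit 0) (XT.nd (nat_lit 858) (nat_lit 1900) (nat_lit 0) (XT.nd (nat_lit 390) (nat_lit 1140) (nat_lit 0) (XT.nd (nat_lit 156) (nat_lit 0) (nat_lit 76) (XT.nd (nat_lit 78) (nat_lit 0) (nat_lit 0) (XT.lf (nat_lit 76) (nat_lit 5449020289) (nat_lit 0) (nat_lit 8295858941) (nat_lit 760) (nat_lit 3218847656) (nat_lit 101) (nat_lit 5) (nat_lit 100) (nat_lit 5) (nat_lit 110) (nat_lit 5) (nat_lit 330) (nat_lit 328) (nat_lit 242)) (XT.lf (nat_lit 76) (nat_lit 13850479670) (nat_lit 0) (nat_lit 729189167) (nat_lit 760) (nat_lit 2804763551) (nat_lit 101) (nat_lit 5) (nat_lit 100) (nat_lit 5) (nat_lit 110) (nat_lit 5) (nat_lit 331) (nat_lit 328) (nat_lit 241))) (XT.nd (nat_lit 78) (nat_lit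 0) (nat_lit 0) (XT.lf (nat_lit 76) (nat_lit 4880480378) (nat_lit 0) (nat_lit 10750649232) (nat_lit 760) (nat_lit 2186318506) (nat_lit 102) (nat_lit 5) (nat_lit 101) (nat_lit 5) (nat_lit 111) (nat_lit 5) (nat_lit 332) (nat_lit 328) (nat_lit 240)) (XT.nd (nat_lit 78) (nat_lit 0) (nat_lit 76) (XT.lf (nat_lit 76) (nat_lit 13817215205) (nat_lit 0) (nat_lit 2976159480) (nat_lit 760) (nat_lit 1475849893) (nat_lit 102) (nat_lit 5) (nat_lit 101) (nat_lit 5) (nat_lit 111) (nat_lit 5) (nat_lit 333) (nat_lit 328) (nat_lit 239)) (XT.lf (nat_lit 76) (nat_lit 4511538937) (nat_lit 0) (nat_lit 13640923257) (nat_lit 760) (nat_lit 584210692) (nat_lit 103) (nat_lit 5) (nat_lit 102) (nat_lit 5) (nat_lit 112) (nat_lit 5) (nat_lit 334) (nat_lit 328) (nat_lit 238))))) (XT.nd (nat_lit 234) (nat_lit 532) (nat_lit 0) (XT.nd (nat_lit 78) (nat_lit 0) (nat_lit 76) (XT.lf (nat_lit 0) (nat_lit 453720931) (nat_lit 760)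 (nat_lit 5210770618) (nat_lit 836) (nat_lit 13557096133) (nat_lit 92) (nat_lit 5) (nat_lit 102) (nat_lit 5) (nat_lit 103) (nat_lit 5) (nat_lit 335) (nat_lit 328) (nat_lit 237)) (XT.nd (nat_lit 78) (nat_lit 0) (nat_lit 0) (XT.lf (nat_lit 0) (nat_lit 1624028334) (nat_lit 760) (nat_lit 15395227701) (nat_lit 836) (nat_lit 2706024570) (nat_lit 93) (nat_lit 5) (nat_lit 103) (nat_lit 5) (nat_lit 104) (nat_lit 5) (nat_lit 336) (nat_lit 328) (nat_lit 236)) (XT.lf (nat_lit 0) (nat_lit 3024021521) (nat_lit 760) (nat_lit 5824622833) (nat_lit 836) (nat_lit 11396971370) (nat_lit 93) (nat_lit 5) (nat_lit 103) (nat_lit 5) (nat_lit 104) (nat_lit 5) (nat_lit 337) (nat_lit 328) (nat_lit 235)))) (XT.nd (nat_lit 78) (nat_lit 608) (nat_lit 0) (XT.lf (nat_lit 76) (nat_lit 4354951631) (nat_lit 0) (nat_lit 196214120) (nat_lit 836) (nat_lit 16237959583) (nat_lit 94) (nat_lit 5) (nat_lit 93) (nat_lit 5) (nat_lit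 104) (nat_lit 5) (nat_lit 338) (nat_lit 328) (nat_lit 234)) (XT.nd (nat_lit 78) (nat_lit 684) (nat_lit 0) (XT.lf (nat_lit 0) (nat_lit 6383269918) (nat_lit 760) (nat_lit 6258918118) (nat_lit 76) (nat_lit 8706206827) (nat_lit 94) (nat_lit 5) (nat_lit 104) (nat_lit 5) (nat_lit 95) (nat_lit 5) (nat_lit 339) (nat_lit 328) (nat_lit 233)) (XT.lf (nat_lit 0) (nat_lit 4558876477) (nat_lit 684) (nat_lit 3812556429) (nat_lit 760) (nat_lit 13560986165) (nat_lit 85) (nat_lit 5) (nat_lit 94) (nat_lit 5) (nat_lit 95) (nat_lit 5) (nat_lit 340) (nat_lit 328) (nat_lit 232)))))) (XT.nd (nat_lit 468) (nat_lit 836) (nat_lit 0) (XT.nd (nat_lit 234) (nat_lit 684) (nat_lit 0) (XT.nd (nat_lit 78) (nat_lit 380) (nat_lit 0) (XT.lf (nat_lit 0) (nat_lit 10642372273) (nat_lit 760) (nat_lit 6501731445) (nat_lit 76) (nat_lit 5392385580) (nat_lit 85) (nat_lit 5) (nat_lit 95) (nat_lit 5) (nat_lit 86) (nat_lit 5) (nat_lit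 341) (nat_lit 328) (nat_lit 231)) (XT.nd (nat_lit 78) (nat_lit 0) (nat_lit 0) (XT.lf (nat_lit 0) (nat_lit 5002438497) (nat_lit 380) (nat_lit 8155889201) (nat_lit 456) (nat_lit 10005874474) (nat_lit 80) (nat_lit 5) (nat_lit 85) (nat_lit 5) (nat_lit 86) (nat_lit 5) (nat_lit 342) (nat_lit 328) (nat_lit 230)) (XT.lf (nat_lit 0) (nat_lit 15923174815) (nat_lit 456) (nat_lit 6541222795) (nat_lit 76) (nat_lit 1352760376) (nat_lit 80) (nat_lit 5) (nat_lit 86) (nat_lit 5) (nat_lit 81) (nat_lit 5) (nat_lit 343) (nat_lit 328) (nat_lit 229)))) (XT.nd (nat_lit 78) (nat_lit 380) (nat_lit 0) (XT.lf (nat_lit 0) (nat_lit 5700372007) (nat_lit 304) (nat_lit 13340182145) (nat_lit 380) (nat_lit 5451504367) (nat_lit 76) (nat_lit 5) (nat_lit 80) (nat_lit 5) (nat_lit 81) (nat_lit 5) (nat_lit 344) (nat_lit 328) (nat_lit 228)) (XT.nd (nat_lit 78) (nat_lit 380) (nat_lit 0) (XT.lf (nat_lit 0) (nat_lit 18772566115)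 (nat_lit 304) (nat_lit 3643869756) (nat_lit 380) (nat_lit 2779147412) (nat_lit 76) (nat_lit 5) (nat_lit 80) (nat_lit 5) (nat_lit 81) (nat_lit 5) (nat_lit 345) (nat_lit 328) (nat_lit 227)) (XT.lf (nat_lit 0) (nat_lit 227600092) (nat_lit 380) (nat_lit 19261205204) (nat_lit 76) (nat_lit 6435386345) (nat_lit 71) (nat_lit 5) (nat_lit 76) (nat_lit 5) (nat_lit 72) (nat_lit 5) (nat_lit 346) (nat_lit 328) (nat_lit 226))))) (XT.nd (nat_lit 234) (nat_lit 532) (nat_lit 0) (XT.nd (nat_lit 78) (nat_lit 304) (nat_lit 0) (XT.lf (nat_lit 0) (nat_lit 3453924489) (nat_lit 380) (nat_lit 6173272152) (nat_lit 76) (nat_lit 17051633328) (nat_lit 71) (nat_lit 5) (nat_lit 76) (nat_lit 5) (nat_lit 72) (nat_lit 5) (nat_lit 347) (nat_lit 328) (nat_lit 225)) (XT.nd (nat_lit 78) (nat_lit 0) (nat_lit 0) (XT.lf (nat_lit 0) (nat_lit 6969561446) (nat_lit 380) (nat_lit 19668038543) (nat_lit 76) (nat_lit 827209354) (nat_lit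 67) (nat_lit 5) (nat_lit 72) (nat_lit 5) (nat_lit 68) (nat_lit 5) (nat_lit 348) (nat_lit 328) (nat_lit 224)) (XT.lf (nat_lit 0) (nat_lit 10917974136) (nat_lit 380) (nat_lit 5773242614) (nat_lit 76) (nat_lit 11586029765) (nat_lit 67) (nat_lit 5) (nat_lit 72) (nat_lit 5) (nat_lit 68) (nat_lit 5) (nat_lit 349) (nat_lit 328) (nat_lit 223)))) (XT.nd (nat_lit 78) (nat_lit 228) (nat_lit 0) (XT.lf (nat_lit 0) (nat_lit 9099452926) (nat_lit 304) (nat_lit 6099669872) (nat_lit 380) (nat_lit 13924425097) (nat_lit 63) (nat_lit 5) (nat_lit 67) (nat_lit 5) (nat_lit 68) (nat_lit 5) (nat_lit 350) (nat_lit 328) (nat_lit 222)) (XT.nd (nat_lit 78) (nat_lit 228) (nat_lit 0) (XT.lf (nat_lit 0) (nat_lit 19865526415) (nat_lit 380) (nat_lit 5179323239) (nat_lit 76) (nat_lit 4958762543) (nat_lit 63) (nat_lit 5) (nat_lit 68) (nat_lit 5) (nat_lit 64) (nat_lit 5) (nat_lit 351) (nat_lit 328) (nat_lit 221)) (XT.lf (nat_lit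 0) (nat_lit 10640381712) (nat_lit 228) (nat_lit 14384725511) (nat_lit 304) (nat_lit 5889587004) (nat_lit 60) (nat_lit 5) (nat_lit 63) (nat_lit 5) (nat_lit 64) (nat_lit 5) (nat_lit 352) (nat_lit 328) (nat_lit 220))))))) (XT.nd (nat_lit 858) (nat_lit 1064) (nat_lit 0) (XT.nd (nat_lit 390) (nat_lit 684) (nat_lit 0) (XT.nd (nat_lit 156) (nat_lit 228) (nat_lit 0) (XT.nd (nat_lit 78) (nat_lit 380) (nat_lit 0) (XT.lf (nat_lit 0) (nat_lit 27423143803) (nat_lit 228) (nat_lit 3101151250) (nat_lit 304) (nat_lit 1342960915) (nat_lit 60) (nat_lit 5) (nat_lit 63) (nat_lit 5) (nat_lit 64) (nat_lit 5) (nat_lit 353) (nat_lit 328) (nat_lit 219)) (XT.lf (nat_lit 0) (nat_lit 3651326491) (nat_lit 380) (nat_lit 20478831732) (nat_lit 76) (nat_lit 8718108394) (nat_lit 55) (nat_lit 5) (nat_lit 60) (nat_lit 5) (nat_lit 56) (nat_lit 5) (nat_lit 354) (nat_lit 328) (nat_lit 218))) (XT.nd (nat_lit 78) (nat_lit 228)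 (nat_lit 0) (XT.lf (nat_lit 0) (nat_lit 8971771158) (nat_lit 380) (nat_lit 3778422835) (nat_lit 76) (nat_lit 21120960315) (nat_lit 55) (nat_lit 5) (nat_lit 60) (nat_lit 5) (nat_lit 56) (nat_lit 5) (nat_lit 355) (nat_lit 328) (nat_lit 217)) (XT.nd (nat_lit 78) (nat_lit 0) (nat_lit 0) (XT.lf (nat_lit 0) (nat_lit 14204280862) (nat_lit 228) (nat_lit 570239756) (nat_lit 304) (nat_lit 20159857406) (nat_lit 52) (nat_lit 5) (nat_lit 55) (nat_lit 5) (nat_lit 56) (nat_lit 5) (nat_lit 356) (nat_lit 328) (nat_lit 216)) (XT.lf (nat_lit 0) (nat_lit 21117846977) (nat_lit 304) (nat_lit 3029558311) (nat_lit 76) (nat_lit 11890841159) (nat_lit 52) (nat_lit 5) (nat_lit 56) (nat_lit 5) (nat_lit 53) (nat_lit 5) (nat_lit 357) (nat_lit 328) (nat_lit 215))))) (XT.nd (nat_lit 234) (nat_lit 228) (nat_lit 0) (XT.nd (nat_lit 78) (nat_lit 228) (nat_lit 0) (XT.lf (nat_lit 0) (nat_lit 16053347066) (nat_lit 228) (nat_lit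 11979866764) (nat_lit 304) (nat_lit 9151355985) (nat_lit 49) (nat_lit 5) (nat_lit 52) (nat_lit 5) (nat_lit 53) (nat_lit 5) (nat_lit 358) (nat_lit 328) (nat_lit 214)) (XT.nd (nat_lit 78) (nat_lit 228) (nat_lit 0) (XT.lf (nat_lit 0) (nat_lit 35353916365) (nat_lit 304) (nat_lit 2210563485) (nat_lit 76) (nat_lit 820756117) (nat_lit 49) (nat_lit 5) (nat_lit 53) (nat_lit 5) (nat_lit 50) (nat_lit 5) (nat_lit 359) (nat_lit 328) (nat_lit 213)) (XT.lf (nat_lit 0) (nat_lit 3766935950) (nat_lit 228) (nat_lit 21653116451) (nat_lit 76) (nat_lit 14199194015) (nat_lit 46) (nat_lit 5) (nat_lit 49) (nat_lit 5) (nat_lit 47) (nat_lit 5) (nat_lit 360) (nat_lit 328) (nat_lit 212)))) (XT.nd (nat_lit 78) (nat_lit 228) (nat_lit 0) (XT.lf (nat_lit 0) (nat_lit 10836552801) (nat_lit 228) (nat_lit 1741921676) (nat_lit 76) (nat_lit 28332336488) (nat_lit 46) (nat_lit 5) (nat_lit 49) (nat_lit 5) (nat_lit 47) (nat_lit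 5) (nat_lit 361) (nat_lit 328) (nat_lit 211)) (XT.nd (nat_lit 78) (nat_lit 0) (nat_lit 0) (XT.lf (nat_lit 0) (nat_lit 18583314818) (nat_lit 304) (nat_lit 22479210149) (nat_lit 76) (nat_lit 1188249660) (nat_lit 43) (nat_lit 5) (nat_lit 47) (nat_lit 5) (nat_lit 44) (nat_lit 5) (nat_lit 362) (nat_lit 328) (nat_lit 210)) (XT.lf (nat_lit 0) (nat_lit 26949178858) (nat_lit 304) (nat_lit 1448435574) (nat_lit 76) (nat_lit 15248537745) (nat_lit 43) (nat_lit 5) (nat_lit 47) (nat_lit 5) (nat_lit 44) (nat_lit 5) (nat_lit 363) (nat_lit 328) (nat_lit 209)))))) (XT.nd (nat_lit 468) (nat_lit 532) (nat_lit 0) (XT.nd (nat_lit 234) (nat_lit 152) (nat_lit 0) (XT.nd (nat_lit 78) (nat_lit 228) (nat_lit 0) (XT.lf (nat_lit 0) (nat_lit 21309548222) (nat_lit 152) (nat_lit 14752275860) (nat_lit 228) (nat_lit 9033053843) (nat_lit 41) (nat_lit 5) (nat_lit 43) (nat_lit 5) (nat_lit 44) (nat_lit 5) (nat_lit 364) (nat_lit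 328) (nat_lit 208)) (XT.nd (nat_lit 78) (nat_lit 228) (nat_lit 0) (XT.lf (nat_lit 0) (nat_lit 45249452204) (nat_lit 152) (nat_lit 401068372) (nat_lit 228) (nat_lit 964501975) (nat_lit 41) (nat_lit 5) (nat_lit 43) (nat_lit 5) (nat_lit 44) (nat_lit 5) (nat_lit 365) (nat_lit 328) (nat_lit 207)) (XT.lf (nat_lit 0) (nat_lit 7855606948) (nat_lit 228) (nat_lit 25643459017) (nat_lit 76) (nat_lit 14676830236) (nat_lit 38) (nat_lit 5) (nat_lit 41) (nat_lit 5) (nat_lit 39) (nat_lit 5) (nat_lit 366) (nat_lit 328) (nat_lit 206)))) (XT.nd (nat_lit 78) (nat_lit 152) (nat_lit 0) (XT.lf (nat_lit 0) (nat_lit 17110468569) (nat_lit 228) (nat_lit 2169836001) (nat_lit 76) (nat_lit 30532413405) (nat_lit 38) (nat_lit 5) (nat_lit 41) (nat_lit 5) (nat_lit 39) (nat_lit 5) (nat_lit 367) (nat_lit 328) (nat_lit 205)) (XT.nd (nat_lit 78) (nat_lit 0) (nat_lit 0) (XT.lf (nat_lit 0) (nat_lit 23214606368) (nat_lit 152)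 (nat_lit 3972178851) (nat_lit 228) (nat_lit 24326662934) (nat_lit 36) (nat_lit 5) (nat_lit 38) (nat_lit 5) (nat_lit 39) (nat_lit 5) (nat_lit 368) (nat_lit 328) (nat_lit 204)) (XT.lf (nat_lit 0) (nat_lit 37989524481) (nat_lit 228) (nat_lit 3549244438) (nat_lit 76) (nat_lit 11749318357) (nat_lit 36) (nat_lit 5) (nat_lit 39) (nat_lit 5) (nat_lit 37) (nat_lit 5) (nat_lit 369) (nat_lit 328) (nat_lit 203))))) (XT.nd (nat_lit 234) (nat_lit 152) (nat_lit 0) (XT.nd (nat_lit 78) (nat_lit 228) (nat_lit 0) (XT.lf (nat_lit 0) (nat_lit 23106622581) (nat_lit 152) (nat_lit 26648151234) (nat_lit 228) (nat_lit 5375568527) (nat_lit 34) (nat_lit 5) (nat_lit 36) (nat_lit 5) (nat_lit 37) (nat_lit 5) (nat_lit 370) (nat_lit 328) (nat_lit 202)) (XT.nd (nat_lit 78) (nat_lit 152) (nat_lit 0) (XT.lf (nat_lit 0) (nat_lit 4939760896) (nat_lit 228) (nat_lit 5928604936) (nat_lit 76) (nat_lit 46189528942) (nat_lit 33)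 (nat_lit 5) (nat_lit 36) (nat_lit 5) (nat_lit 34) (nat_lit 5) (nat_lit 371) (nat_lit 328) (nat_lit 201)) (XT.lf (nat_lit 0) (nat_lit 16027752165) (nat_lit 228) (nat_lit 37071829356) (nat_lit 76) (nat_lit 5955961898) (nat_lit 31) (nat_lit 5) (nat_lit 34) (nat_lit 5) (nat_lit 32) (nat_lit 5) (nat_lit 372) (nat_lit 328) (nat_lit 200)))) (XT.nd (nat_lit 78) (nat_lit 152) (nat_lit 0) (XT.lf (nat_lit 0) (nat_lit 27947088789) (nat_lit 228) (nat_lit 9835842983) (nat_lit 76) (nat_lit 23356297608) (nat_lit 31) (nat_lit 5) (nat_lit 34) (nat_lit 5) (nat_lit 32) (nat_lit 5) (nat_lit 373) (nat_lit 328) (nat_lit 199)) (XT.nd (nat_lit 78) (nat_lit 0) (nat_lit 0) (XT.lf (nat_lit 0) (nat_lit 19376935590) (nat_lit 152) (nat_lit 21384866924) (nat_lit 228) (nat_lit 22550328683) (nat_lit 29) (nat_lit 5) (nat_lit 31) (nat_lit 5) (nat_lit 32) (nat_lit 5) (nat_lit 374) (nat_lit 328) (nat_lit 198)) (XT.lf (nat_lit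 0) (nat_lit 50386724996) (nat_lit 152) (nat_lit 3994052445) (nat_lit 228) (nat_lit 11204726360) (nat_lit 29) (nat_lit 5) (nat_lit 31) (nat_lit 5) (nat_lit 32) (nat_lit 5) (nat_lit 375) (nat_lit 328) (nat_lit 197))))))))
noncomputable def xc174 : XT := (XT.nd (nat_lit 1794) (nat_lit 532) (nat_lit 0) (XT.nd (nat_lit 858) (nat_lit 456) (nat_lit 0) (XT.nd (nat_lit 390) (nat_lit 380) (nat_lit 0) (XT.nd (nat_lit 156) (nat_lit 152) (nat_lit 0) (XT.nd (nat_lit 78) (nat_lit 0) (nat_lit 0) (XT.lf (nat_lit 0) (nat_lit 1150644368) (nat_lit 152) (nat_lit 52733886968) (nat_lit 76) (nat_lit 14064204987) (nat_lit 27) (nat_lit 5) (nat_lit 29) (nat_lit 5) (nat_lit 28) (nat_lit 5) (nat_lit 376) (nat_lit 328) (nat_lit 196)) (XT.lf (nat_lit 0) (nat_lit 14071405764) (nat_lit 152) (nat_lit 22998811919) (nat_lit 76) (nat_lit 33334521568) (nat_lit 27) (nat_lit 5) (nat_lit 29) (nat_lit 5) (nat_lit 28) (nat_lit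 5) (nat_lit 377) (nat_lit 328) (nat_lit 195))) (XT.nd (nat_lit 78) (nat_lit 0) (nat_lit 0) (XT.lf (nat_lit 0) (nat_lit 8489989933) (nat_lit 152) (nat_lit 19277986706) (nat_lit 228) (nat_lit 45209078740) (nat_lit 25) (nat_lit 5) (nat_lit 27) (nat_lit 5) (nat_lit 28) (nat_lit 5) (nat_lit 378) (nat_lit 328) (nat_lit 194)) (XT.nd (nat_lit 78) (nat_lit 0) (nat_lit 0) (XT.lf (nat_lit 0) (nat_lit 42347015819) (nat_lit 152) (nat_lit 189134442) (nat_lit 228) (nat_lit 33122499887) (nat_lit 25) (nat_lit 5) (nat_lit 27) (nat_lit 5) (nat_lit 28) (nat_lit 5) (nat_lit 379) (nat_lit 328) (nat_lit 193)) (XT.lf (nat_lit 0) (nat_lit 58350090295) (nat_lit 228) (nat_lit 891972548) (nat_lit 76) (nat_lit 19216895397) (nat_lit 25) (nat_lit 5) (nat_lit 28) (nat_lit 5) (nat_lit 26) (nat_lit 4) (nat_lit 380) (nat_lit 328) (nat_lit 192))))) (XT.nd (nat_lit 234) (nat_lit 76) (nat_lit 0) (XT.nd (nat_lit 78) (nat_lit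 228) (nat_lit 0) (XT.lf (nat_lit 0) (nat_lit 34237025822) (nat_lit 76) (nat_lit 41252841465) (nat_lit 152) (nat_lit 5882658851) (nat_lit 24) (nat_lit 5) (nat_lit 25) (nat_lit 5) (nat_lit 26) (nat_lit 4) (nat_lit 381) (nat_lit 328) (nat_lit 191)) (XT.nd (nat_lit 78) (nat_lit 152) (nat_lit 0) (XT.lf (nat_lit 0) (nat_lit 8777916484) (nat_lit 152) (nat_lit 13423553105) (nat_lit 76) (nat_lit 62222592135) (nat_lit 23) (nat_lit 5) (nat_lit 25) (nat_lit 5) (nat_lit 24) (nat_lit 5) (nat_lit 382) (nat_lit 328) (nat_lit 190)) (XT.lf (nat_lit 0) (nat_lit 22596637515) (nat_lit 152) (nat_lit 1727616619) (nat_lit 228) (nat_lit 63281577839) (nat_lit 21) (nat_lit 5) (nat_lit 23) (nat_lit 5) (nat_lit 24) (nat_lit 5) (nat_lit 383) (nat_lit 328) (nat_lit 189)))) (XT.nd (nat_lit 78) (nat_lit 76) (nat_lit 0) (XT.lf (nat_lit 0) (nat_lit 41185287866) (nat_lit 228) (nat_lit 30368014702) (nat_lit 76) (nat_lit 19366520360)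 (nat_lit 21) (nat_lit 5) (nat_lit 24) (nat_lit 5) (nat_lit 22) (nat_lit 4) (nat_lit 384) (nat_lit 328) (nat_lit 188)) (XT.nd (nat_lit 78) (nat_lit 0) (nat_lit 0) (XT.lf (nat_lit 0) (nat_lit 6170420139) (nat_lit 76) (nat_lit 52841378033) (nat_lit 152) (nat_lit 35381595113) (nat_lit 20) (nat_lit 5) (nat_lit 21) (nat_lit 5) (nat_lit 22) (nat_lit 4) (nat_lit 385) (nat_lit 328) (nat_lit 187)) (XT.lf (nat_lit 0) (nat_lit 45586175424) (nat_lit 76) (nat_lit 32655566690) (nat_lit 152) (nat_lit 19773295685) (nat_lit 20) (nat_lit 5) (nat_lit 21) (nat_lit 5) (nat_lit 22) (nat_lit 4) (nat_lit 386) (nat_lit 328) (nat_lit 186)))))) (XT.nd (nat_lit 468) (nat_lit 228) (nat_lit 0) (XT.nd (nat_lit 234) (nat_lit 76) (nat_lit 0) (XT.nd (nat_lit 78) (nat_lit 152) (nat_lit 0) (XT.lf (nat_lit 0) (nat_lit 86968994475) (nat_lit 76) (nat_lit 11462104108) (nat_lit 152) (nat_lit 3386771184) (nat_lit 20) (nat_lit 5)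 (nat_lit 21) (nat_lit 5) (nat_lit 22) (nat_lit 4) (nat_lit 387) (nat_lit 328) (nat_lit 185)) (XT.nd (nat_lit 78) (nat_lit 0) (nat_lit 0) (XT.lf (nat_lit 0) (nat_lit 13946602357) (nat_lit 152) (nat_lit 80761716606) (nat_lit 76) (nat_lit 11063246563) (nat_lit 18) (nat_lit 5) (nat_lit 20) (nat_lit 5) (nat_lit 19) (nat_lit 4) (nat_lit 388) (nat_lit 328) (nat_lit 184)) (XT.lf (nat_lit 0) (nat_lit 32474322716) (nat_lit 152) (nat_lit 42784521520) (nat_lit 76) (nat_lit 34639251864) (nat_lit 18) (nat_lit 5) (nat_lit 20) (nat_lit 5) (nat_lit 19) (nat_lit 4) (nat_lit 389) (nat_lit 328) (nat_lit 183)))) (XT.nd (nat_lit 78) (nat_lit 76) (nat_lit 0) (XT.lf (nat_lit 0) (nat_lit 51926521585) (nat_lit 152) (nat_lit 2911924930) (nat_lit 76) (nat_lit 59392602881) (nat_lit 18) (nat_lit 5) (nat_lit 20) (nat_lit 5) (nat_lit 19) (nat_lit 4) (nat_lit 390) (nat_lit 328) (nat_lit 182)) (XT.nd (nat_lit 78) (nat_lit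 0) (nat_lit 0) (XT.lf (nat_lit 0) (nat_lit 40238904145) (nat_lit 76) (nat_lit 32738851642) (nat_lit 152) (nat_lit 45771574079) (nat_lit 17) (nat_lit 5) (nat_lit 18) (nat_lit 5) (nat_lit 19) (nat_lit 4) (nat_lit 391) (nat_lit 328) (nat_lit 181)) (XT.lf (nat_lit 0) (nat_lit 85645129683) (nat_lit 76) (nat_lit 9483956119) (nat_lit 152) (nat_lit 28362062599) (nat_lit 17) (nat_lit 5) (nat_lit 18) (nat_lit 5) (nat_lit 19) (nat_lit 4) (nat_lit 392) (nat_lit 328) (nat_lit 180))))) (XT.nd (nat_lit 234) (nat_lit 76) (nat_lit 0) (XT.nd (nat_lit 78) (nat_lit 76) (nat_lit 0) (XT.lf (nat_lit 0) (nat_lit 4767904758) (nat_lit 76) (nat_lit 113925956912) (nat_lit 76) (nat_lit 9760902931) (nat_lit 16) (nat_lit 4) (nat_lit 17) (nat_lit 5) (nat_lit 17) (nat_lit 4) (nat_lit 393) (nat_lit 328) (nat_lit 179)) (XT.nd (nat_lit 78) (nat_lit 0) (nat_lit 0) (XT.lf (nat_lit 0) (nat_lit 10262813665) (nat_lit 152) (nat_lit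 83129742173) (nat_lit 76) (nat_lit 40226118814) (nat_lit 15) (nat_lit 5) (nat_lit 17) (nat_lit 5) (nat_lit 16) (nat_lit 4) (nat_lit 394) (nat_lit 328) (nat_lit 178)) (XT.lf (nat_lit 0) (nat_lit 30958054776) (nat_lit 152) (nat_lit 40707789520) (nat_lit 76) (nat_lit 67367017329) (nat_lit 15) (nat_lit 5) (nat_lit 17) (nat_lit 5) (nat_lit 16) (nat_lit 4) (nat_lit 395) (nat_lit 328) (nat_lit 177)))) (XT.nd (nat_lit 78) (nat_lit 0) (nat_lit 0) (XT.lf (nat_lit 0) (nat_lit 3959114191) (nat_lit 76) (nat_lit 48789203313) (nat_lit 152) (nat_lit 91966428047) (nat_lit 14) (nat_lit 5) (nat_lit 15) (nat_lit 5) (nat_lit 16) (nat_lit 4) (nat_lit 396) (nat_lit 328) (nat_lit 176)) (XT.nd (nat_lit 78) (nat_lit 0) (nat_lit 0) (XT.lf (nat_lit 0) (nat_lit 52269828846) (nat_lit 76) (nat_lit 24046147320) (nat_lit 152) (nat_lit 74330353923) (nat_lit 14) (nat_lit 5) (nat_lit 15) (nat_lit 5) (nat_lit 16) (nat_lit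 4) (nat_lit 397) (nat_lit 328) (nat_lit 175)) (XT.lf (nat_lit 0) (nat_lit 101090743869) (nat_lit 152) (nat_lit 53911347217) (nat_lit 0) (nat_lit 1870966988) (nat_lit 14) (nat_lit 5) (nat_lit 16) (nat_lit 4) (nat_lit 14) (nat_lit 4) (nat_lit 398) (nat_lit 328) (nat_lit 174))))))) (XT.nd (nat_lit 858) (nat_lit 228) (nat_lit 0) (XT.nd (nat_lit 390) (nat_lit 76) (nat_lit 0) (XT.nd (nat_lit 156) (nat_lit 152) (nat_lit 0) (XT.nd (nat_lit 78) (nat_lit 76) (nat_lit 0) (XT.lf (nat_lit 0) (nat_lit 127497049084) (nat_lit 152) (nat_lit 7619740796) (nat_lit 0) (nat_lit 28274693128) (nat_lit 14) (nat_lit 5) (nat_lit 16) (nat_lit 4) (nat_lit 14) (nat_lit 4) (nat_lit 399) (nat_lit 328) (nat_lit 173)) (XT.lf (nat_lit 0) (nat_lit 42339078816) (nat_lit 76) (nat_lit 113544289076) (nat_lit 76) (nat_lit 14319476859) (nat_lit 13) (nat_lit 4) (nat_lit 14) (nat_lit 5) (nat_lit 14) (nat_lit 4) (nat_lit 400) (nat_lit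 328) (nat_lit 172))) (XT.nd (nat_lit 78) (nat_lit 76) (nat_lit 0) (XT.lf (nat_lit 0) (nat_lit 8197310325) (nat_lit 152) (nat_lit 82422665346) (nat_lit 76) (nat_lit 86721801829) (nat_lit 12) (nat_lit 5) (nat_lit 14) (nat_lit 5) (nat_lit 13) (nat_lit 4) (nat_lit 401) (nat_lit 328) (nat_lit 171)) (XT.nd (nat_lit 78) (nat_lit 76) (nat_lit 0) (XT.lf (nat_lit 0) (nat_lit 31357442013) (nat_lit 152) (nat_lit 34946623287) (nat_lit 76) (nat_lit 118521918052) (nat_lit 12) (nat_lit 5) (nat_lit 14) (nat_lit 5) (nat_lit 13) (nat_lit 4) (nat_lit 402) (nat_lit 328) (nat_lit 170)) (XT.lf (nat_lit 0) (nat_lit 15393658819) (nat_lit 76) (nat_lit 40521053397) (nat_lit 152) (nat_lit 136757731077) (nat_lit 11) (nat_lit 5) (nat_lit 12) (nat_lit 5) (nat_lit 13) (nat_lit 4) (nat_lit 403) (nat_lit 328) (nat_lit 169))))) (XT.nd (nat_lit 234) (nat_lit 76) (nat_lit 0) (XT.nd (nat_lit 78) (nat_lit 0) (nat_lit 0) (XT.lf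 (nat_lit 0) (nat_lit 69462003984) (nat_lit 76) (nat_lit 12828496495) (nat_lit 152) (nat_lit 118591193403) (nat_lit 11) (nat_lit 5) (nat_lit 12) (nat_lit 5) (nat_lit 13) (nat_lit 4) (nat_lit 404) (nat_lit 328) (nat_lit 168)) (XT.nd (nat_lit 78) (nat_lit 0) (nat_lit 0) (XT.lf (nat_lit 0) (nat_lit 110237623244) (nat_lit 152) (nat_lit 83523482703) (nat_lit 0) (nat_lit 15727674154) (nat_lit 11) (nat_lit 5) (nat_lit 13) (nat_lit 4) (nat_lit 11) (nat_lit 4) (nat_lit 405) (nat_lit 328) (nat_lit 167)) (XT.lf (nat_lit 0) (nat_lit 139791317301) (nat_lit 152) (nat_lit 33444820321) (nat_lit 0) (nat_lit 45279622592) (nat_lit 11) (nat_lit 5) (nat_lit 13) (nat_lit 4) (nat_lit 11) (nat_lit 4) (nat_lit 406) (nat_lit 328) (nat_lit 166)))) (XT.nd (nat_lit 78) (nat_lit 0) (nat_lit 0) (XT.lf (nat_lit 0) (nat_lit 19768537599) (nat_lit 76) (nat_lit 151361764480) (nat_lit 76) (nat_lit 56848407277) (nat_lit 10)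 (nat_lit 4) (nat_lit 11) (nat_lit 5) (nat_lit 11) (nat_lit 4) (nat_lit 407) (nat_lit 328) (nat_lit 165)) (XT.nd (nat_lit 78) (nat_lit 0) (nat_lit 0) (XT.lf (nat_lit 0) (nat_lit 76801769336) (nat_lit 76) (nat_lit 127799854047) (nat_lit 76) (nat_lit 33284913516) (nat_lit 10) (nat_lit 4) (nat_lit 11) (nat_lit 5) (nat_lit 11) (nat_lit 4) (nat_lit 408) (nat_lit 328) (nat_lit 164)) (XT.lf (nat_lit 0) (nat_lit 136684831499) (nat_lit 76) (nat_lit 103060710752) (nat_lit 76) (nat_lit 8544262290) (nat_lit 10) (nat_lit 4) (nat_lit 11) (nat_lit 5) (nat_lit 11) (nat_lit 4) (nat_lit 409) (nat_lit 328) (nat_lit 163)))))) (XT.nd (nat_lit 468) (nat_lit 76) (nat_lit 0) (XT.nd (nat_lit 234) (nat_lit 0) (nat_lit 0) (XT.nd (nat_lit 78) (nat_lit 76) (nat_lit 0) (XT.lf (nat_lit 0) (nat_lit 16874505360) (nat_lit 152) (nat_lit 59925148598) (nat_lit 76) (nat_lit 182400019532) (nat_lit 9) (nat_lit 5) (nat_lit 11)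 (nat_lit 5) (nat_lit 10) (nat_lit 4) (nat_lit 410) (nat_lit 328) (nat_lit 162)) (XT.nd (nat_lit 78) (nat_lit 76) (nat_lit 0) (XT.lf (nat_lit 0) (nat_lit 43276175032) (nat_lit 152) (nat_lit 5803093509) (nat_lit 76) (nat_lit 221568808762) (nat_lit 9) (nat_lit 5) (nat_lit 11) (nat_lit 5) (nat_lit 10) (nat_lit 4) (nat_lit 411) (nat_lit 328) (nat_lit 161)) (XT.lf (nat_lit 0) (nat_lit 52710519964) (nat_lit 76) (nat_lit 19109516571) (nat_lit 152) (nat_lit 210807759597) (nat_lit 8) (nat_lit 5) (nat_lit 9) (nat_lit 5) (nat_lit 10) (nat_lit 4) (nat_lit 412) (nat_lit 328) (nat_lit 160)))) (XT.nd (nat_lit 78) (nat_lit 0) (nat_lit 0) (XT.lf (nat_lit 0) (nat_lit 102083088209) (nat_lit 152) (nat_lit 181046482491) (nat_lit 0) (nat_lit 12062330578) (nat_lit 8) (nat_lit 5) (nat_lit 10) (nat_lit 4) (nat_lit 8) (nat_lit 4) (nat_lit 413) (nat_lit 328) (nat_lit 159)) (XT.nd (nat_lit 78) (nat_lit 0) (nat_lit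 0) (XT.lf (nat_lit 0) (nat_lit 134171757020) (nat_lit 152) (nat_lit 130046957506) (nat_lit 0) (nat_lit 44149874147) (nat_lit 8) (nat_lit 5) (nat_lit 10) (nat_lit 4) (nat_lit 8) (nat_lit 4) (nat_lit 414) (nat_lit 328) (nat_lit 158)) (XT.lf (nat_lit 0) (nat_lit 167864091452) (nat_lit 152) (nat_lit 76498920664) (nat_lit 0) (nat_lit 77841136920) (nat_lit 8) (nat_lit 5) (nat_lit 10) (nat_lit 4) (nat_lit 8) (nat_lit 4) (nat_lit 415) (nat_lit 328) (nat_lit 157))))) (XT.nd (nat_lit 234) (nat_lit 0) (nat_lit 0) (XT.nd (nat_lit 78) (nat_lit 76) (nat_lit 0) (XT.lf (nat_lit 0) (nat_lit 203240311350) (nat_lit 152) (nat_lit 20274876641) (nat_lit 0) (nat_lit 113216336191) (nat_lit 8) (nat_lit 5) (nat_lit 10) (nat_lit 4) (nat_lit 8) (nat_lit 4) (nat_lit 416) (nat_lit 328) (nat_lit 156)) (XT.nd (nat_lit 78) (nat_lit 0) (nat_lit 0) (XT.lf (nat_lit 0) (nat_lit 40040590283) (nat_lit 76) (nat_lit 200969201353)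 (nat_lit 76) (nat_lit 110944254167) (nat_lit 7) (nat_lit 4) (nat_lit 8) (nat_lit 5) (nat_lit 8) (nat_lit 4) (nat_lit 417) (nat_lit 328) (nat_lit 155)) (XT.lf (nat_lit 0) (nat_lit 104074421664) (nat_lit 76) (nat_lit 176936005444) (nat_lit 76) (nat_lit 86910132520) (nat_lit 7) (nat_lit 4) (nat_lit 8) (nat_lit 5) (nat_lit 8) (nat_lit 4) (nat_lit 418) (nat_lit 328) (nat_lit 154)))) (XT.nd (nat_lit 78) (nat_lit 0) (nat_lit 0) (XT.lf (nat_lit 0) (nat_lit 171308700020) (nat_lit 76) (nat_lit 151701743216) (nat_lit 76) (nat_lit 61674988635) (nat_lit 7) (nat_lit 4) (nat_lit 8) (nat_lit 5) (nat_lit 8) (nat_lit 4) (nat_lit 419) (nat_lit 328) (nat_lit 153)) (XT.nd (nat_lit 78) (nat_lit 0) (nat_lit 0) (XT.lf (nat_lit 0) (nat_lit 241903506965) (nat_lit 76) (nat_lit 125206333092) (nat_lit 76) (nat_lit 35178738839) (nat_lit 7) (nat_lit 4) (nat_lit 8) (nat_lit 5) (nat_lit 8) (nat_lit 4) (nat_lit 420) (nat_lit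 328) (nat_lit 152)) (XT.lf (nat_lit 0) (nat_lit 316026925374) (nat_lit 76) (nat_lit 97386690763) (nat_lit 76) (nat_lit 7358296821) (nat_lit 7) (nat_lit 4) (nat_lit 8) (nat_lit 5) (nat_lit 8) (nat_lit 4) (nat_lit 421) (nat_lit 328) (nat_lit 151))))))))
noncomputable def xc175 : XT := (XT.nd (nat_lit 40794) (nat_lit 0) (nat_lit 2736) (XT.nd (nat_lit 39858) (nat_lit 0) (nat_lit 5700) (XT.nd (nat_lit 390) (nat_lit 0) (nat_lit 0) (XT.nd (nat_lit 156) (nat_lit 0) (nat_lit 0) (XT.nd (nat_lit 78) (nat_lit 76) (nat_lit 0) (XT.lf (nat_lit 0) (nat_lit 21153157642) (nat_lit 152) (nat_lit 46665182381) (nat_lit 76) (nat_lit 372344042973) (nat_lit 6) (nat_lit 5) (nat_lit 8) (nat_lit 5) (nat_lit 7) (nat_lit 4) (nat_lit 422) (nat_lit 328) (nat_lit 150)) (XT.lf (nat_lit 0) (nat_lit 14666358249) (nat_lit 76) (nat_lit 36404977916) (nat_lit 152) (nat_lit 409433587198) (nat_lit 5) (nat_lit 5) (nat_lit 6) (nat_lit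 5) (nat_lit 7) (nat_lit 4) (nat_lit 423) (nat_lit 328) (nat_lit 149))) (XT.nd (nat_lit 78) (nat_lit 0) (nat_lit 0) (XT.lf (nat_lit 0) (nat_lit 80683560406) (nat_lit 76) (nat_lit 2591625982) (nat_lit 152) (nat_lit 398549916348) (nat_lit 5) (nat_lit 5) (nat_lit 6) (nat_lit 5) (nat_lit 7) (nat_lit 4) (nat_lit 424) (nat_lit 328) (nat_lit 148)) (XT.nd (nat_lit 78) (nat_lit 0) (nat_lit 0) (XT.lf (nat_lit 0) (nat_lit 117602567320) (nat_lit 152) (nat_lit 354724517839) (nat_lit 0) (nat_lit 31858539133) (nat_lit 5) (nat_lit 5) (nat_lit 7) (nat_lit 4) (nat_lit 5) (nat_lit 4) (nat_lit 425) (nat_lit 328) (nat_lit 147)) (XT.lf (nat_lit 0) (nat_lit 153688311061) (nat_lit 152) (nat_lit 306030075157) (nat_lit 0) (nat_lit 67943686134) (nat_lit 5) (nat_lit 5) (nat_lit 7) (nat_lit 4) (nat_lit 5) (nat_lit 4) (nat_lit 426) (nat_lit 328) (nat_lit 146))))) (XT.nd (nat_lit 39234) (nat_lit 0) (nat_lit 7220) (XT.nd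 (nat_lit 78) (nat_lit 0) (nat_lit 0) (XT.lf (nat_lit 0) (nat_lit 191577873505) (nat_lit 152) (nat_lit 254901812591) (nat_lit 0) (nat_lit 105832680255) (nat_lit 5) (nat_lit 5) (nat_lit 7) (nat_lit 4) (nat_lit 5) (nat_lit 4) (nat_lit 427) (nat_lit 328) (nat_lit 145)) (XT.nd (nat_lit 78) (nat_lit 0) (nat_lit 0) (XT.lf (nat_lit 0) (nat_lit 231361467897) (nat_lit 152) (nat_lit 201217996182) (nat_lit 0) (nat_lit 145615733386) (nat_lit 5) (nat_lit 5) (nat_lit 7) (nat_lit 4) (nat_lit 5) (nat_lit 4) (nat_lit 428) (nat_lit 328) (nat_lit 144)) (XT.lf (nat_lit 0) (nat_lit 273133817079) (nat_lit 152) (nat_lit 144850807320) (nat_lit 0) (nat_lit 187387567082) (nat_lit 5) (nat_lit 5) (nat_lit 7) (nat_lit 4) (nat_lit 5) (nat_lit 4) (nat_lit 429) (nat_lit 328) (nat_lit 143)))) (XT.nd (nat_lit 78) (nat_lit 0) (nat_lit 0) (XT.lf (nat_lit 0) (nat_lit 3375428383) (nat_lit 0) (nat_lit 3375428383) (nat_lit 684)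 (nat_lit 1726594535) (nat_lit 100) (nat_lit 5) (nat_lit 100) (nat_lit 3) (nat_lit 109) (nat_lit 3) (nat_lit 329) (nat_lit 329) (nat_lit 242)) (XT.nd (nat_lit 78) (nat_lit 0) (nat_lit 0) (XT.lf (nat_lit 0) (nat_lit 14073203736) (nat_lit 684) (nat_lit 2349530443) (nat_lit 760) (nat_lit 944007203) (nat_lit 100) (nat_lit 5) (nat_lit 109) (nat_lit 3) (nat_lit 110) (nat_lit 5) (nat_lit 330) (nat_lit 329) (nat_lit 241)) (XT.lf (nat_lit 76) (nat_lit 5970296377) (nat_lit 0) (nat_lit 8892963305) (nat_lit 760) (nat_lit 2926434391) (nat_lit 101) (nat_lit 5) (nat_lit 100) (nat_lit 5) (nat_lit 110) (nat_lit 5) (nat_lit 331) (nat_lit 329) (nat_lit 240)))))) (XT.nd (nat_lit 468) (nat_lit 912) (nat_lit 0) (XT.nd (nat_lit 234) (nat_lit 608) (nat_lit 0) (XT.nd (nat_lit 78) (nat_lit 0) (nat_lit 76) (XT.lf (nat_lit 76) (nat_lit 14779979915) (nat_lit 0) (nat_lit 939278546) (nat_lit 760) (nat_lit 2513234444)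 (nat_lit 101) (nat_lit 5) (nat_lit 100) (nat_lit 5) (nat_lit 110) (nat_lit 5) (nat_lit 332) (nat_lit 329) (nat_lit 239)) (XT.nd (nat_lit 78) (nat_lit 0) (nat_lit 0) (XT.lf (nat_lit 76) (nat_lit 5381145381) (nat_lit 0) (nat_lit 11424019340) (nat_lit 760) (nat_lit 1882931115) (nat_lit 102) (nat_lit 5) (nat_lit 101) (nat_lit 5) (nat_lit 111) (nat_lit 5) (nat_lit 333) (nat_lit 329) (nat_lit 238)) (XT.lf (nat_lit 76) (nat_lit 14752495949) (nat_lit 0) (nat_lit 3254336640) (nat_lit 760) (nat_lit 1156591610) (nat_lit 102) (nat_lit 5) (nat_lit 101) (nat_lit 5) (nat_lit 111) (nat_lit 5) (nat_lit 334) (nat_lit 329) (nat_lit 237)))) (XT.nd (nat_lit 78) (nat_lit 760) (nat_lit 0) (XT.lf (nat_lit 76) (nat_lit 4998531784) (nat_lit 0) (nat_lit 14419701007) (nat_lit 760) (nat_lit 236821462) (nat_lit 103) (nat_lit 5) (nat_lit 102) (nat_lit 5) (nat_lit 112) (nat_lit 5) (nat_lit 335) (nat_lit 329) (nat_lit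 236)) (XT.nd (nat_lit 78) (nat_lit 0) (nat_lit 76) (XT.lf (nat_lit 0) (nat_lit 823593854) (nat_lit 760) (nat_lit 5210367816) (nat_lit 836) (nat_lit 14130851809) (nat_lit 92) (nat_lit 5) (nat_lit 102) (nat_lit 5) (nat_lit 103) (nat_lit 5) (nat_lit 336) (nat_lit 329) (nat_lit 235)) (XT.lf (nat_lit 0) (nat_lit 2038675531) (nat_lit 760) (nat_lit 15889835949) (nat_lit 836) (nat_lit 2765890160) (nat_lit 93) (nat_lit 5) (nat_lit 103) (nat_lit 5) (nat_lit 104) (nat_lit 5) (nat_lit 337) (nat_lit 329) (nat_lit 234))))) (XT.nd (nat_lit 234) (nat_lit 988) (nat_lit 0) (XT.nd (nat_lit 78) (nat_lit 0) (nat_lit 0) (XT.lf (nat_lit 0) (nat_lit 3492790006) (nat_lit 760) (nat_lit 5853803368) (nat_lit 836) (nat_lit 11894976473) (nat_lit 93) (nat_lit 5) (nat_lit 103) (nat_lit 5) (nat_lit 104) (nat_lit 5) (nat_lit 338) (nat_lit 329) (nat_lit 233)) (XT.nd (nat_lit 78) (nat_lit 0) (nat_lit 76) (XT.lf (nat_lit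 76) (nat_lit 4830523197) (nat_lit 0) (nat_lit 254671348) (nat_lit 836) (nat_lit 16727636584) (nat_lit 94) (nat_lit 5) (nat_lit 93) (nat_lit 5) (nat_lit 104) (nat_lit 5) (nat_lit 339) (nat_lit 329) (nat_lit 232)) (XT.lf (nat_lit 0) (nat_lit 6993586746) (nat_lit 760) (nat_lit 6310593582) (nat_lit 76) (nat_lit 9096669997) (nat_lit 94) (nat_lit 5) (nat_lit 104) (nat_lit 5) (nat_lit 95) (nat_lit 5) (nat_lit 340) (nat_lit 329) (nat_lit 231)))) (XT.nd (nat_lit 78) (nat_lit 380) (nat_lit 0) (XT.lf (nat_lit 0) (nat_lit 5043876704) (nat_lit 684) (nat_lit 4027430106) (nat_lit 760) (nat_lit 13943280850) (nat_lit 85) (nat_lit 5) (nat_lit 94) (nat_lit 5) (nat_lit 95) (nat_lit 5) (nat_lit 341) (nat_lit 329) (nat_lit 230)) (XT.nd (nat_lit 78) (nat_lit 380) (nat_lit 0) (XT.lf (nat_lit 0) (nat_lit 11442037280) (nat_lit 760) (nat_lit 6567877719) (nat_lit 76) (nat_lit 5639652633) (nat_lit 85) (nat_lit 5)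 (nat_lit 95) (nat_lit 5) (nat_lit 86) (nat_lit 5) (nat_lit 342) (nat_lit 329) (nat_lit 229)) (XT.lf (nat_lit 0) (nat_lit 5507324265) (nat_lit 380) (nat_lit 8567703484) (nat_lit 456) (nat_lit 10234094100) (nat_lit 80) (nat_lit 5) (nat_lit 85) (nat_lit 5) (nat_lit 86) (nat_lit 5) (nat_lit 343) (nat_lit 329) (nat_lit 228))))))) (XT.nd (nat_lit 858) (nat_lit 1444) (nat_lit 0) (XT.nd (nat_lit 390) (nat_lit 836) (nat_lit 0) (XT.nd (nat_lit 156) (nat_lit 380) (nat_lit 0) (XT.nd (nat_lit 78) (nat_lit 304) (nat_lit 0) (XT.lf (nat_lit 0) (nat_lit 16965734418) (nat_lit 456) (nat_lit 6612934377) (nat_lit 76) (nat_lit 1416692525) (nat_lit 80) (nat_lit 5) (nat_lit 86) (nat_lit 5) (nat_lit 81) (nat_lit 5) (nat_lit 344) (nat_lit 329) (nat_lit 227)) (XT.lf (nat_lit 0) (nat_lit 6236621624) (nat_lit 304) (nat_lit 13994550144) (nat_lit 380) (nat_lit 5473241588) (nat_lit 76) (nat_lit 5) (nat_lit 80) (nat_lit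 5) (nat_lit 81) (nat_lit 5) (nat_lit 345) (nat_lit 329) (nat_lit 226))) (XT.nd (nat_lit 78) (nat_lit 380) (nat_lit 0) (XT.lf (nat_lit 0) (nat_lit 19950462056) (nat_lit 304) (nat_lit 3814024093) (nat_lit 380) (nat_lit 2679211452) (nat_lit 76) (nat_lit 5) (nat_lit 80) (nat_lit 5) (nat_lit 81) (nat_lit 5) (nat_lit 346) (nat_lit 329) (nat_lit 225)) (XT.nd (nat_lit 78) (nat_lit 0) (nat_lit 0) (XT.lf (nat_lit 0) (nat_lit 463312348) (nat_lit 380) (nat_lit 19969872564) (nat_lit 76) (nat_lit 6775724486) (nat_lit 71) (nat_lit 5) (nat_lit 76) (nat_lit 5) (nat_lit 72) (nat_lit 5) (nat_lit 347) (nat_lit 329) (nat_lit 224)) (XT.lf (nat_lit 0) (nat_lit 3840270477) (nat_lit 380) (nat_lit 6239656806) (nat_lit 76) (nat_lit 17921899588) (nat_lit 71) (nat_lit 5) (nat_lit 76) (nat_lit 5) (nat_lit 72) (nat_lit 5) (nat_lit 348) (nat_lit 329) (nat_lit 223))))) (XT.nd (nat_lit 234) (nat_lit 228) (nat_lit 0) (XT.nd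 (nat_lit 78) (nat_lit 304) (nat_lit 0) (XT.lf (nat_lit 0) (nat_lit 7525723834) (nat_lit 380) (nat_lit 20402946443) (nat_lit 76) (nat_lit 898745692) (nat_lit 67) (nat_lit 5) (nat_lit 72) (nat_lit 5) (nat_lit 68) (nat_lit 5) (nat_lit 349) (nat_lit 329) (nat_lit 222)) (XT.nd (nat_lit 78) (nat_lit 304) (nat_lit 0) (XT.lf (nat_lit 0) (nat_lit 11661667429) (nat_lit 380) (nat_lit 5825243767) (nat_lit 76) (nat_lit 12194070177) (nat_lit 67) (nat_lit 5) (nat_lit 72) (nat_lit 5) (nat_lit 68) (nat_lit 5) (nat_lit 350) (nat_lit 329) (nat_lit 221)) (XT.lf (nat_lit 0) (nat_lit 9787269438) (nat_lit 304) (nat_lit 6363820642) (nat_lit 380) (nat_lit 14418808234) (nat_lit 63) (nat_lit 5) (nat_lit 67) (nat_lit 5) (nat_lit 68) (nat_lit 5) (nat_lit 351) (nat_lit 329) (nat_lit 220)))) (XT.nd (nat_lit 78) (nat_lit 228) (nat_lit 0) (XT.lf (nat_lit 0) (nat_lit 21042277645) (nat_lit 380) (nat_lit 5207781470) (nat_lit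 76) (nat_lit 5244344310) (nat_lit 63) (nat_lit 5) (nat_lit 68) (nat_lit 5) (nat_lit 64) (nat_lit 5) (nat_lit 352) (nat_lit 329) (nat_lit 219)) (XT.nd (nat_lit 78) (nat_lit 0) (nat_lit 0) (XT.lf (nat_lit 0) (nat_lit 11399190859) (nat_lit 228) (nat_lit 15055450563) (nat_lit 304) (nat_lit 5996668206) (nat_lit 60) (nat_lit 5) (nat_lit 63) (nat_lit 5) (nat_lit 64) (nat_lit 5) (nat_lit 353) (nat_lit 329) (nat_lit 218)) (XT.lf (nat_lit 0) (nat_lit 29010291528) (nat_lit 228) (nat_lit 3210007647) (nat_lit 304) (nat_lit 1231634535) (nat_lit 60) (nat_lit 5) (nat_lit 63) (nat_lit 5) (nat_lit 64) (nat_lit 5) (nat_lit 354) (nat_lit 329) (nat_lit 217)))))) (XT.nd (nat_lit 468) (nat_lit 608) (nat_lit 0) (XT.nd (nat_lit 234) (nat_lit 228) (nat_lit 0) (XT.nd (nat_lit 78) (nat_lit 228) (nat_lit 0) (XT.lf (nat_lit 0) (nat_lit 4002622974) (nat_lit 380) (nat_lit 21276674836) (nat_lit 76) (nat_lit 9202768225)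 (nat_lit 55) (nat_lit 5) (nat_lit 60) (nat_lit 5) (nat_lit 56) (nat_lit 5) (nat_lit 355) (nat_lit 329) (nat_lit 216)) (XT.nd (nat_lit 78) (nat_lit 228) (nat_lit 0) (XT.lf (nat_lit 0) (nat_lit 9581055105) (nat_lit 380) (nat_lit 3752012089) (nat_lit 76) (nat_lit 22223441104) (nat_lit 55) (nat_lit 5) (nat_lit 60) (nat_lit 5) (nat_lit 56) (nat_lit 5) (nat_lit 356) (nat_lit 329) (nat_lit 215)) (XT.lf (nat_lit 0) (nat_lit 15126353698) (nat_lit 228) (nat_lit 543243887) (nat_lit 304) (nat_lit 21003520882) (nat_lit 52) (nat_lit 5) (nat_lit 55) (nat_lit 5) (nat_lit 56) (nat_lit 5) (nat_lit 357) (nat_lit 329) (nat_lit 214)))) (XT.nd (nat_lit 78) (nat_lit 228) (nat_lit 0) (XT.lf (nat_lit 0) (nat_lit 22323470345) (nat_lit 304) (nat_lit 2972492781) (nat_lit 76) (nat_lit 12536555844) (nat_lit 52) (nat_lit 5) (nat_lit 56) (nat_lit 5) (nat_lit 53) (nat_lit 5) (nat_lit 358) (nat_lit 329) (nat_lit 213))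 (XT.nd (nat_lit 78) (nat_lit 0) (nat_lit 0) (XT.lf (nat_lit 0) (nat_lit 17061194261) (nat_lit 228) (nat_lit 12519484664) (nat_lit 304) (nat_lit 9455683210) (nat_lit 49) (nat_lit 5) (nat_lit 52) (nat_lit 5) (nat_lit 53) (nat_lit 5) (nat_lit 359) (nat_lit 329) (nat_lit 212)) (XT.lf (nat_lit 0) (nat_lit 37261356393) (nat_lit 304) (nat_lit 2119483091) (nat_lit 76) (nat_lit 916532070) (nat_lit 49) (nat_lit 5) (nat_lit 53) (nat_lit 5) (nat_lit 50) (nat_lit 5) (nat_lit 360) (nat_lit 329) (nat_lit 211))))) (XT.nd (nat_lit 234) (nat_lit 152) (nat_lit 0) (XT.nd (nat_lit 78) (nat_lit 228) (nat_lit 0) (XT.lf (nat_lit 0) (nat_lit 4093830089) (nat_lit 228) (nat_lit 22532708378) (nat_lit 76) (nat_lit 14966616824) (nat_lit 46) (nat_lit 5) (nat_lit 49) (nat_lit 5) (nat_lit 47) (nat_lit 5) (nat_lit 361) (nat_lit 329) (nat_lit 210)) (XT.nd (nat_lit 78) (nat_lit 228) (nat_lit 0) (XT.lf (nat_lit 0) (nat_lit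 11510330291) (nat_lit 228) (nat_lit 1635623574) (nat_lit 76) (nat_lit 29803680082) (nat_lit 46) (nat_lit 5) (nat_lit 49) (nat_lit 5) (nat_lit 47) (nat_lit 5) (nat_lit 362) (nat_lit 329) (nat_lit 209)) (XT.lf (nat_lit 0) (nat_lit 19642080143) (nat_lit 304) (nat_lit 23407311848) (nat_lit 76) (nat_lit 1307327029) (nat_lit 43) (nat_lit 5) (nat_lit 47) (nat_lit 5) (nat_lit 44) (nat_lit 5) (nat_lit 363) (nat_lit 329) (nat_lit 208)))) (XT.nd (nat_lit 78) (nat_lit 152) (nat_lit 0) (XT.lf (nat_lit 0) (nat_lit 28420065977) (nat_lit 304) (nat_lit 1334325155) (nat_lit 76) (nat_lit 16067788334) (nat_lit 43) (nat_lit 5) (nat_lit 47) (nat_lit 5) (nat_lit 44) (nat_lit 5) (nat_lit 364) (nat_lit 329) (nat_lit 207)) (XT.nd (nat_lit 78) (nat_lit 0) (nat_lit 0) (XT.lf (nat_lit 0) (nat_lit 22558549247) (nat_lit 152) (nat_lit 15426782001) (nat_lit 228) (nat_lit 9358166051) (nat_lit 41) (nat_lit 5) (nat_lit 43)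 (nat_lit 5) (nat_lit 44) (nat_lit 5) (nat_lit 365) (nat_lit 329) (nat_lit 206)) (XT.lf (nat_lit 0) (nat_lit 47686709208) (nat_lit 152) (nat_lit 361019265) (nat_lit 228) (nat_lit 892212327) (nat_lit 41) (nat_lit 5) (nat_lit 43) (nat_lit 5) (nat_lit 44) (nat_lit 5) (nat_lit 366) (nat_lit 329) (nat_lit 205))))))))
noncomputable def xc176 : XT := (XT.nd (nat_lit 1716) (nat_lit 836) (nat_lit 0) (XT.nd (nat_lit 858) (nat_lit 532) (nat_lit 0) (XT.nd (nat_lit 390) (nat_lit 532) (nat_lit 0) (XT.nd (nat_lit 156) (nat_lit 304) (nat_lit 0) (XT.nd (nat_lit 78) (nat_lit 0) (nat_lit 0) (XT.lf (nat_lit 0) (nat_lit 8363203325) (nat_lit 228) (nat_lit 26744965172) (nat_lit 76) (nat_lit 15470692111) (nat_lit 38) (nat_lit 5) (nat_lit 41) (nat_lit 5) (nat_lit 39) (nat_lit 5) (nat_lit 367) (nat_lit 329) (nat_lit 204)) (XT.lf (nat_lit 0) (nat_lit 18075340596) (nat_lit 228) (nat_lit 2106264186) (nat_lit 76) (nat_lit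 32116196326) (nat_lit 38) (nat_lit 5) (nat_lit 41) (nat_lit 5) (nat_lit 39) (nat_lit 5) (nat_lit 368) (nat_lit 329) (nat_lit 203))) (XT.nd (nat_lit 78) (nat_lit 152) (nat_lit 0) (XT.lf (nat_lit 0) (nat_lit 24544625082) (nat_lit 152) (nat_lit 4108283988) (nat_lit 228) (nat_lit 25430790991) (nat_lit 36) (nat_lit 5) (nat_lit 38) (nat_lit 5) (nat_lit 39) (nat_lit 5) (nat_lit 369) (nat_lit 329) (nat_lit 202)) (XT.nd (nat_lit 78) (nat_lit 152) (nat_lit 0) (XT.lf (nat_lit 0) (nat_lit 39991629704) (nat_lit 228) (nat_lit 3561246625) (nat_lit 76) (nat_lit 12394406460) (nat_lit 36) (nat_lit 5) (nat_lit 39) (nat_lit 5) (nat_lit 37) (nat_lit 5) (nat_lit 370) (nat_lit 329) (nat_lit 201)) (XT.lf (nat_lit 0) (nat_lit 24424745035) (nat_lit 152) (nat_lit 27918051004) (nat_lit 228) (nat_lit 5538975529) (nat_lit 34) (nat_lit 5) (nat_lit 36) (nat_lit 5) (nat_lit 37) (nat_lit 5) (nat_lit 371) (nat_lit 329)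 (nat_lit 200))))) (XT.nd (nat_lit 234) (nat_lit 304) (nat_lit 0) (XT.nd (nat_lit 78) (nat_lit 152) (nat_lit 0) (XT.lf (nat_lit 0) (nat_lit 5283890732) (nat_lit 228) (nat_lit 6066717018) (nat_lit 76) (nat_lit 48555257811) (nat_lit 33) (nat_lit 5) (nat_lit 36) (nat_lit 5) (nat_lit 34) (nat_lit 5) (nat_lit 372) (nat_lit 329) (nat_lit 199)) (XT.nd (nat_lit 78) (nat_lit 0) (nat_lit 0) (XT.lf (nat_lit 0) (nat_lit 16925037207) (nat_lit 228) (nat_lit 38765794624) (nat_lit 76) (nat_lit 6312630209) (nat_lit 31) (nat_lit 5) (nat_lit 34) (nat_lit 5) (nat_lit 32) (nat_lit 5) (nat_lit 373) (nat_lit 329) (nat_lit 198)) (XT.lf (nat_lit 0) (nat_lit 29435774118) (nat_lit 228) (nat_lit 10175610180) (nat_lit 76) (nat_lit 24580179361) (nat_lit 31) (nat_lit 5) (nat_lit 34) (nat_lit 5) (nat_lit 32) (nat_lit 5) (nat_lit 374) (nat_lit 329) (nat_lit 197)))) (XT.nd (nat_lit 78) (nat_lit 152) (nat_lit 0) (XT.lf (nat_lit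 0) (nat_lit 20495355307) (nat_lit 152) (nat_lit 22393854386) (nat_lit 228) (nat_lit 23584004454) (nat_lit 29) (nat_lit 5) (nat_lit 31) (nat_lit 5) (nat_lit 32) (nat_lit 5) (nat_lit 375) (nat_lit 329) (nat_lit 196)) (XT.nd (nat_lit 78) (nat_lit 152) (nat_lit 0) (XT.lf (nat_lit 0) (nat_lit 53048511662) (nat_lit 152) (nat_lit 4136368510) (nat_lit 228) (nat_lit 11675590618) (nat_lit 29) (nat_lit 5) (nat_lit 31) (nat_lit 5) (nat_lit 32) (nat_lit 5) (nat_lit 376) (nat_lit 329) (nat_lit 195)) (XT.lf (nat_lit 0) (nat_lit 1293713196) (nat_lit 152) (nat_lit 55224193168) (nat_lit 76) (nat_lit 14823940052) (nat_lit 27) (nat_lit 5) (nat_lit 29) (nat_lit 5) (nat_lit 28) (nat_lit 5) (nat_lit 377) (nat_lit 329) (nat_lit 194)))))) (XT.nd (nat_lit 390) (nat_lit 304) (nat_lit 0) (XT.nd (nat_lit 156) (nat_lit 76) (nat_lit 0) (XT.nd (nat_lit 78) (nat_lit 152) (nat_lit 0) (XT.lf (nat_lit 0) (nat_lit 14856439490)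 (nat_lit 152) (nat_lit 24009335231) (nat_lit 76) (nat_lit 35055080804) (nat_lit 27) (nat_lit 5) (nat_lit 29) (nat_lit 5) (nat_lit 28) (nat_lit 5) (nat_lit 378) (nat_lit 329) (nat_lit 193)) (XT.lf (nat_lit 0) (nat_lit 9051658048) (nat_lit 152) (nat_lit 20184443235) (nat_lit 228) (nat_lit 47385775319) (nat_lit 25) (nat_lit 5) (nat_lit 27) (nat_lit 5) (nat_lit 28) (nat_lit 5) (nat_lit 379) (nat_lit 329) (nat_lit 192))) (XT.nd (nat_lit 78) (nat_lit 76) (nat_lit 0) (XT.lf (nat_lit 0) (nat_lit 44595003389) (nat_lit 152) (nat_lit 143883730) (nat_lit 228) (nat_lit 34698855969) (nat_lit 25) (nat_lit 5) (nat_lit 27) (nat_lit 5) (nat_lit 28) (nat_lit 5) (nat_lit 380) (nat_lit 329) (nat_lit 191)) (XT.nd (nat_lit 78) (nat_lit 76) (nat_lit 0) (XT.lf (nat_lit 0) (nat_lit 61340721935) (nat_lit 228) (nat_lit 809311927) (nat_lit 76) (nat_lit 20228174885) (nat_lit 25) (nat_lit 5) (nat_lit 28) (nat_lit 5)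 (nat_lit 26) (nat_lit 4) (nat_lit 381) (nat_lit 329) (nat_lit 190)) (XT.lf (nat_lit 0) (nat_lit 36074083793) (nat_lit 76) (nat_lit 43261876568) (nat_lit 152) (nat_lit 6101573007) (nat_lit 24) (nat_lit 5) (nat_lit 25) (nat_lit 5) (nat_lit 26) (nat_lit 4) (nat_lit 382) (nat_lit 329) (nat_lit 189))))) (XT.nd (nat_lit 234) (nat_lit 76) (nat_lit 0) (XT.nd (nat_lit 78) (nat_lit 152) (nat_lit 0) (XT.lf (nat_lit 0) (nat_lit 9286156418) (nat_lit 152) (nat_lit 13973158016) (nat_lit 76) (nat_lit 65382447712) (nat_lit 23) (nat_lit 5) (nat_lit 25) (nat_lit 5) (nat_lit 24) (nat_lit 5) (nat_lit 383) (nat_lit 329) (nat_lit 188)) (XT.nd (nat_lit 78) (nat_lit 0) (nat_lit 0) (XT.lf (nat_lit 0) (nat_lit 23846081284) (nat_lit 152) (nat_lit 1762295043) (nat_lit 228) (nat_lit 66374318000) (nat_lit 21) (nat_lit 5) (nat_lit 23) (nat_lit 5) (nat_lit 24) (nat_lit 5) (nat_lit 384) (nat_lit 329) (nat_lit 187)) (XT.lf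 (nat_lit 0) (nat_lit 43309996741) (nat_lit 228) (nat_lit 31770002181) (nat_lit 76) (nat_lit 20382510766) (nat_lit 21) (nat_lit 5) (nat_lit 24) (nat_lit 5) (nat_lit 22) (nat_lit 4) (nat_lit 385) (nat_lit 329) (nat_lit 186)))) (XT.nd (nat_lit 78) (nat_lit 0) (nat_lit 0) (XT.lf (nat_lit 0) (nat_lit 6593476769) (nat_lit 76) (nat_lit 55433027612) (nat_lit 152) (nat_lit 37083322123) (nat_lit 20) (nat_lit 5) (nat_lit 21) (nat_lit 5) (nat_lit 22) (nat_lit 4) (nat_lit 386) (nat_lit 329) (nat_lit 185)) (XT.nd (nat_lit 78) (nat_lit 0) (nat_lit 0) (XT.lf (nat_lit 0) (nat_lit 47974565740) (nat_lit 76) (nat_lit 34240326622) (nat_lit 152) (nat_lit 20697814997) (nat_lit 20) (nat_lit 5) (nat_lit 21) (nat_lit 5) (nat_lit 22) (nat_lit 4) (nat_lit 387) (nat_lit 329) (nat_lit 184)) (XT.lf (nat_lit 0) (nat_lit 91421331384) (nat_lit 76) (nat_lit 11989477502) (nat_lit 152) (nat_lit 3495018818) (nat_lit 20) (nat_lit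 5) (nat_lit 21) (nat_lit 5) (nat_lit 22) (nat_lit 4) (nat_lit 388) (nat_lit 329) (nat_lit 183))))))) (XT.nd (nat_lit 858) (nat_lit 380) (nat_lit 0) (XT.nd (nat_lit 390) (nat_lit 228) (nat_lit 0) (XT.nd (nat_lit 156) (nat_lit 76) (nat_lit 0) (XT.nd (nat_lit 78) (nat_lit 0) (nat_lit 0) (XT.lf (nat_lit 0) (nat_lit 14702599931) (nat_lit 152) (nat_lit 84693440122) (nat_lit 76) (nat_lit 11661145177) (nat_lit 18) (nat_lit 5) (nat_lit 20) (nat_lit 5) (nat_lit 19) (nat_lit 4) (nat_lit 389) (nat_lit 329) (nat_lit 182)) (XT.lf (nat_lit 0) (nat_lit 34153912619) (nat_lit 152) (nat_lit 44822450153) (nat_lit 76) (nat_lit 36413820445) (nat_lit 18) (nat_lit 5) (nat_lit 20) (nat_lit 5) (nat_lit 19) (nat_lit 4) (nat_lit 390) (nat_lit 329) (nat_lit 181))) (XT.nd (nat_lit 78) (nat_lit 76) (nat_lit 0) (XT.lf (nat_lit 0) (nat_lit 54576060776) (nat_lit 152) (nat_lit 2961047421) (nat_lit 76) (nat_lit 62402810155)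 (nat_lit 18) (nat_lit 5) (nat_lit 20) (nat_lit 5) (nat_lit 19) (nat_lit 4) (nat_lit 391) (nat_lit 329) (nat_lit 180)) (XT.nd (nat_lit 78) (nat_lit 0) (nat_lit 0) (XT.lf (nat_lit 0) (nat_lit 42345767079) (nat_lit 76) (nat_lit 34333037584) (nat_lit 152) (nat_lit 48005361875) (nat_lit 17) (nat_lit 5) (nat_lit 18) (nat_lit 5) (nat_lit 19) (nat_lit 4) (nat_lit 392) (nat_lit 329) (nat_lit 179)) (XT.lf (nat_lit 0) (nat_lit 90017784002) (nat_lit 76) (nat_lit 9917433315) (nat_lit 152) (nat_lit 29727983911) (nat_lit 17) (nat_lit 5) (nat_lit 18) (nat_lit 5) (nat_lit 19) (nat_lit 4) (nat_lit 393) (nat_lit 329) (nat_lit 178))))) (XT.nd (nat_lit 234) (nat_lit 76) (nat_lit 0) (XT.nd (nat_lit 78) (nat_lit 76) (nat_lit 0) (XT.lf (nat_lit 0) (nat_lit 5097078489) (nat_lit 76) (nat_lit 119580810703) (nat_lit 76) (nat_lit 10197127174) (nat_lit 16) (nat_lit 4) (nat_lit 17) (nat_lit 5) (nat_lit 17) (nat_lit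 4) (nat_lit 394) (nat_lit 329) (nat_lit 177)) (XT.nd (nat_lit 78) (nat_lit 0) (nat_lit 0) (XT.lf (nat_lit 0) (nat_lit 10823727978) (nat_lit 152) (nat_lit 87198176053) (nat_lit 76) (nat_lit 42275297763) (nat_lit 15) (nat_lit 5) (nat_lit 17) (nat_lit 5) (nat_lit 16) (nat_lit 4) (nat_lit 395) (nat_lit 329) (nat_lit 176)) (XT.lf (nat_lit 0) (nat_lit 32551456210) (nat_lit 152) (nat_lit 42659318779) (nat_lit 76) (nat_lit 70771437727) (nat_lit 15) (nat_lit 5) (nat_lit 17) (nat_lit 5) (nat_lit 16) (nat_lit 4) (nat_lit 396) (nat_lit 329) (nat_lit 175)))) (XT.nd (nat_lit 78) (nat_lit 0) (nat_lit 0) (XT.lf (nat_lit 0) (nat_lit 4239577534) (nat_lit 76) (nat_lit 51190776112) (nat_lit 152) (nat_lit 96517881926) (nat_lit 14) (nat_lit 5) (nat_lit 15) (nat_lit 5) (nat_lit 16) (nat_lit 4) (nat_lit 397) (nat_lit 329) (nat_lit 174)) (XT.nd (nat_lit 78) (nat_lit 0) (nat_lit 0) (XT.lf (nat_lit 0) (nat_lit 54961898986)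 (nat_lit 76) (nat_lit 25212371479) (nat_lit 152) (nat_lit 78002235883) (nat_lit 14) (nat_lit 5) (nat_lit 15) (nat_lit 5) (nat_lit 16) (nat_lit 4) (nat_lit 398) (nat_lit 329) (nat_lit 173)) (XT.lf (nat_lit 0) (nat_lit 106186289493) (nat_lit 152) (nat_lit 56530575928) (nat_lit 0) (nat_lit 1997780403) (nat_lit 14) (nat_lit 5) (nat_lit 16) (nat_lit 4) (nat_lit 14) (nat_lit 4) (nat_lit 399) (nat_lit 329) (nat_lit 172)))))) (XT.nd (nat_lit 468) (nat_lit 152) (nat_lit 0) (XT.nd (nat_lit 234) (nat_lit 76) (nat_lit 0) (XT.nd (nat_lit 78) (nat_lit 152) (nat_lit 0) (XT.lf (nat_lit 0) (nat_lit 133910957186) (nat_lit 152) (nat_lit 7928024358) (nat_lit 0) (nat_lit 29720108800) (nat_lit 14) (nat_lit 5) (nat_lit 16) (nat_lit 4) (nat_lit 14) (nat_lit 4) (nat_lit 400) (nat_lit 329) (nat_lit 171)) (XT.nd (nat_lit 78) (nat_lit 76) (nat_lit 0) (XT.lf (nat_lit 0) (nat_lit 44527563597) (nat_lit 76) (nat_lit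 119188285341) (nat_lit 76) (nat_lit 14995209053) (nat_lit 13) (nat_lit 4) (nat_lit 14) (nat_lit 5) (nat_lit 14) (nat_lit 4) (nat_lit 401) (nat_lit 329) (nat_lit 170)) (XT.lf (nat_lit 0) (nat_lit 8644274569) (nat_lit 152) (nat_lit 86474435231) (nat_lit 76) (nat_lit 91088289517) (nat_lit 12) (nat_lit 5) (nat_lit 14) (nat_lit 5) (nat_lit 13) (nat_lit 4) (nat_lit 402) (nat_lit 329) (nat_lit 169)))) (XT.nd (nat_lit 78) (nat_lit 76) (nat_lit 0) (XT.lf (nat_lit 0) (nat_lit 32960646235) (nat_lit 152) (nat_lit 36627894087) (nat_lit 76) (nat_lit 124476964047) (nat_lit 12) (nat_lit 5) (nat_lit 14) (nat_lit 5) (nat_lit 13) (nat_lit 4) (nat_lit 403) (nat_lit 329) (nat_lit 168)) (XT.nd (nat_lit 78) (nat_lit 0) (nat_lit 0) (XT.lf (nat_lit 0) (nat_lit 16228336635) (nat_lit 76) (nat_lit 42516775584) (nat_lit 152) (nat_lit 143559209025) (nat_lit 11) (nat_lit 5) (nat_lit 12) (nat_lit 5) (nat_lit 13) (nat_lit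 4) (nat_lit 404) (nat_lit 329) (nat_lit 167)) (XT.lf (nat_lit 0) (nat_lit 72997004063) (nat_lit 76) (nat_lit 13441035145) (nat_lit 152) (nat_lit 124486078210) (nat_lit 11) (nat_lit 5) (nat_lit 12) (nat_lit 5) (nat_lit 13) (nat_lit 4) (nat_lit 405) (nat_lit 329) (nat_lit 166))))) (XT.nd (nat_lit 234) (nat_lit 76) (nat_lit 0) (XT.nd (nat_lit 78) (nat_lit 76) (nat_lit 0) (XT.lf (nat_lit 0) (nat_lit 115781375549) (nat_lit 152) (nat_lit 87639552035) (nat_lit 0) (nat_lit 16540687992) (nat_lit 11) (nat_lit 5) (nat_lit 13) (nat_lit 4) (nat_lit 11) (nat_lit 4) (nat_lit 406) (nat_lit 329) (nat_lit 165)) (XT.nd (nat_lit 78) (nat_lit 76) (nat_lit 0) (XT.lf (nat_lit 0) (nat_lit 146811236636) (nat_lit 152) (nat_lit 35059818668) (nat_lit 0) (nat_lit 47568965750) (nat_lit 11) (nat_lit 5) (nat_lit 13) (nat_lit 4) (nat_lit 11) (nat_lit 4) (nat_lit 407) (nat_lit 329) (nat_lit 164)) (XT.lf (nat_lit 0) (nat_lit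 20813283879) (nat_lit 76) (nat_lit 158903320674) (nat_lit 76) (nat_lit 59659541857) (nat_lit 10) (nat_lit 4) (nat_lit 11) (nat_lit 5) (nat_lit 11) (nat_lit 4) (nat_lit 408) (nat_lit 329) (nat_lit 163)))) (XT.nd (nat_lit 78) (nat_lit 76) (nat_lit 0) (XT.lf (nat_lit 0) (nat_lit 80695495327) (nat_lit 76) (nat_lit 134164578150) (nat_lit 76) (nat_lit 34919363207) (nat_lit 10) (nat_lit 4) (nat_lit 11) (nat_lit 5) (nat_lit 11) (nat_lit 4) (nat_lit 409) (nat_lit 329) (nat_lit 162)) (XT.nd (nat_lit 78) (nat_lit 76) (nat_lit 0) (XT.lf (nat_lit 0) (nat_lit 143570156430) (nat_lit 76) (nat_lit 108189680956) (nat_lit 76) (nat_lit 8943098276) (nat_lit 10) (nat_lit 4) (nat_lit 11) (nat_lit 5) (nat_lit 11) (nat_lit 4) (nat_lit 410) (nat_lit 329) (nat_lit 161)) (XT.lf (nat_lit 0) (nat_lit 17744391469) (nat_lit 152) (nat_lit 62871882776) (nat_lit 76) (nat_lit 191542067436) (nat_lit 9) (nat_lit 5) (nat_lit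 11) (nat_lit 5) (nat_lit 10) (nat_lit 4) (nat_lit 411) (nat_lit 329) (nat_lit 160))))))))
noncomputable def xc177 : XT := (XT.nd (nat_lit 40872) (nat_lit 0) (nat_lit 3800) (XT.nd (nat_lit 858) (nat_lit 152) (nat_lit 0) (XT.nd (nat_lit 390) (nat_lit 76) (nat_lit 0) (XT.nd (nat_lit 156) (nat_lit 0) (nat_lit 0) (XT.nd (nat_lit 78) (nat_lit 76) (nat_lit 0) (XT.lf (nat_lit 0) (nat_lit 45464898870) (nat_lit 152) (nat_lit 6046083182) (nat_lit 76) (nat_lit 232668246275) (nat_lit 9) (nat_lit 5) (nat_lit 11) (nat_lit 5) (nat_lit 10) (nat_lit 4) (nat_lit 412) (nat_lit 329) (nat_lit 159)) (XT.lf (nat_lit 0) (nat_lit 55392450239) (nat_lit 76) (nat_lit 20043041278) (nat_lit 152) (nat_lit 221322465015) (nat_lit 8) (nat_lit 5) (nat_lit 9) (nat_lit 5) (nat_lit 10) (nat_lit 4) (nat_lit 413) (nat_lit 329) (nat_lit 158))) (XT.nd (nat_lit 78) (nat_lit 0) (nat_lit 0) (XT.lf (nat_lit 0) (nat_lit 107210857737)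 (nat_lit 152) (nat_lit 190053767601) (nat_lit 0) (nat_lit 12685683820) (nat_lit 8) (nat_lit 5) (nat_lit 10) (nat_lit 4) (nat_lit 8) (nat_lit 4) (nat_lit 414) (nat_lit 329) (nat_lit 157)) (XT.nd (nat_lit 78) (nat_lit 0) (nat_lit 0) (XT.lf (nat_lit 0) (nat_lit 140902835459) (nat_lit 152) (nat_lit 136506411081) (nat_lit 0) (nat_lit 46376640914) (nat_lit 8) (nat_lit 5) (nat_lit 10) (nat_lit 4) (nat_lit 8) (nat_lit 4) (nat_lit 415) (nat_lit 329) (nat_lit 156)) (XT.lf (nat_lit 0) (nat_lit 176278715632) (nat_lit 152) (nat_lit 80283014983) (nat_lit 0) (nat_lit 81751549062) (nat_lit 8) (nat_lit 5) (nat_lit 10) (nat_lit 4) (nat_lit 8) (nat_lit 4) (nat_lit 416) (nat_lit 329) (nat_lit 155))))) (XT.nd (nat_lit 234) (nat_lit 0) (nat_lit 0) (XT.nd (nat_lit 78) (nat_lit 76) (nat_lit 0) (XT.lf (nat_lit 0) (nat_lit 213422726543) (nat_lit 152) (nat_lit 21249714078) (nat_lit 0) (nat_lit 118894634234) (nat_lit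 8) (nat_lit 5) (nat_lit 10) (nat_lit 4) (nat_lit 8) (nat_lit 4) (nat_lit 417) (nat_lit 329) (nat_lit 154)) (XT.nd (nat_lit 78) (nat_lit 0) (nat_lit 0) (XT.lf (nat_lit 0) (nat_lit 42080898669) (nat_lit 76) (nat_lit 210999408404) (nat_lit 76) (nat_lit 116470434438) (nat_lit 7) (nat_lit 4) (nat_lit 8) (nat_lit 5) (nat_lit 8) (nat_lit 4) (nat_lit 418) (nat_lit 329) (nat_lit 153)) (XT.lf (nat_lit 0) (nat_lit 109314598816) (nat_lit 76) (nat_lit 185765421891) (nat_lit 76) (nat_lit 91235608253) (nat_lit 7) (nat_lit 4) (nat_lit 8) (nat_lit 5) (nat_lit 8) (nat_lit 4) (nat_lit 419) (nat_lit 329) (nat_lit 152)))) (XT.nd (nat_lit 78) (nat_lit 0) (nat_lit 0) (XT.lf (nat_lit 0) (nat_lit 179908855086) (nat_lit 76) (nat_lit 159270274353) (nat_lit 76) (nat_lit 64739661026) (nat_lit 7) (nat_lit 4) (nat_lit 8) (nat_lit 5) (nat_lit 8) (nat_lit 4) (nat_lit 420) (nat_lit 329) (nat_lit 151)) (XT.nd (nat_lit 78)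 (nat_lit 0) (nat_lit 0) (XT.lf (nat_lit 0) (nat_lit 254031749042) (nat_lit 76) (nat_lit 131450882105) (nat_lit 76) (nat_lit 36919507171) (nat_lit 7) (nat_lit 4) (nat_lit 8) (nat_lit 5) (nat_lit 8) (nat_lit 4) (nat_lit 421) (nat_lit 329) (nat_lit 150)) (XT.lf (nat_lit 0) (nat_lit 331859763765) (nat_lit 76) (nat_lit 102241008500) (nat_lit 76) (nat_lit 7708908224) (nat_lit 7) (nat_lit 4) (nat_lit 8) (nat_lit 5) (nat_lit 8) (nat_lit 4) (nat_lit 422) (nat_lit 329) (nat_lit 149)))))) (XT.nd (nat_lit 468) (nat_lit 0) (nat_lit 0) (XT.nd (nat_lit 234) (nat_lit 0) (nat_lit 0) (XT.nd (nat_lit 78) (nat_lit 76) (nat_lit 0) (XT.lf (nat_lit 0) (nat_lit 22226767544) (nat_lit 152) (nat_lit 48967917610) (nat_lit 76) (nat_lit 390975015445) (nat_lit 6) (nat_lit 5) (nat_lit 8) (nat_lit 5) (nat_lit 7) (nat_lit 4) (nat_lit 423) (nat_lit 329) (nat_lit 148)) (XT.nd (nat_lit 78) (nat_lit 0) (nat_lit 0) (XT.lf (nat_lit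 0) (nat_lit 15429707731) (nat_lit 76) (nat_lit 38210856519) (nat_lit 152) (nat_lit 429888818459) (nat_lit 5) (nat_lit 5) (nat_lit 6) (nat_lit 5) (nat_lit 7) (nat_lit 4) (nat_lit 424) (nat_lit 329) (nat_lit 147)) (XT.lf (nat_lit 0) (nat_lit 84746339921) (nat_lit 76) (nat_lit 2707521288) (nat_lit 152) (nat_lit 418461747310) (nat_lit 5) (nat_lit 5) (nat_lit 6) (nat_lit 5) (nat_lit 7) (nat_lit 4) (nat_lit 425) (nat_lit 329) (nat_lit 146)))) (XT.nd (nat_lit 78) (nat_lit 0) (nat_lit 0) (XT.lf (nat_lit 0) (nat_lit 123497104427) (nat_lit 152) (nat_lit 372432994043) (nat_lit 0) (nat_lit 33464083190) (nat_lit 5) (nat_lit 5) (nat_lit 7) (nat_lit 4) (nat_lit 5) (nat_lit 4) (nat_lit 426) (nat_lit 329) (nat_lit 145)) (XT.nd (nat_lit 78) (nat_lit 0) (nat_lit 0) (XT.lf (nat_lit 0) (nat_lit 161386449225) (nat_lit 152) (nat_lit 321305150641) (nat_lit 0) (nat_lit 71352886728) (nat_lit 5) (nat_lit 5) (nat_lit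 7) (nat_lit 4) (nat_lit 5) (nat_lit 4) (nat_lit 427) (nat_lit 329) (nat_lit 144)) (XT.lf (nat_lit 0) (nat_lit 201169836333) (nat_lit 152) (nat_lit 267621733435) (nat_lit 0) (nat_lit 111135758350) (nat_lit 5) (nat_lit 5) (nat_lit 7) (nat_lit 4) (nat_lit 5) (nat_lit 4) (nat_lit 428) (nat_lit 329) (nat_lit 143))))) (XT.nd (nat_lit 39312) (nat_lit 0) (nat_lit 7220) (XT.nd (nat_lit 39156) (nat_lit 0) (nat_lit 7220) (XT.lf (nat_lit 0) (nat_lit 242941988104) (nat_lit 152) (nat_lit 211254924767) (nat_lit 0) (nat_lit 152907419181) (nat_lit 5) (nat_lit 5) (nat_lit 7) (nat_lit 4) (nat_lit 5) (nat_lit 4) (nat_lit 429) (nat_lit 329) (nat_lit 142)) (XT.nd (nat_lit 78) (nat_lit 0) (nat_lit 0) (XT.lf (nat_lit 0) (nat_lit 3651853096) (nat_lit 0) (nat_lit 3651853096) (nat_lit 684) (nat_lit 1586521180) (nat_lit 100) (nat_lit 5) (nat_lit 100) (nat_lit 3) (nat_lit 109) (nat_lit 3) (nat_lit 330) (nat_lit 330)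 (nat_lit 240)) (XT.lf (nat_lit 0) (nat_lit 15183770241) (nat_lit 684) (nat_lit 2237615425) (nat_lit 760) (nat_lit 792716676) (nat_lit 100) (nat_lit 5) (nat_lit 109) (nat_lit 3) (nat_lit 110) (nat_lit 5) (nat_lit 331) (nat_lit 330) (nat_lit 239)))) (XT.nd (nat_lit 78) (nat_lit 0) (nat_lit 0) (XT.lf (nat_lit 76) (nat_lit 6494502873) (nat_lit 0) (nat_lit 9502973299) (nat_lit 760) (nat_lit 2661549173) (nat_lit 101) (nat_lit 5) (nat_lit 100) (nat_lit 5) (nat_lit 110) (nat_lit 5) (nat_lit 332) (nat_lit 330) (nat_lit 238)) (XT.nd (nat_lit 78) (nat_lit 0) (nat_lit 76) (XT.lf (nat_lit 76) (nat_lit 15733923364) (nat_lit 0) (nat_lit 1143729930) (nat_lit 760) (nat_lit 2247270512) (nat_lit 101) (nat_lit 5) (nat_lit 100) (nat_lit 5) (nat_lit 110) (nat_lit 5) (nat_lit 333) (nat_lit 330) (nat_lit 237)) (XT.lf (nat_lit 76) (nat_lit 5882983587) (nat_lit 0) (nat_lit 12118429056) (nat_lit 760) (nat_lit 1602743597)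 (nat_lit 102) (nat_lit 5) (nat_lit 101) (nat_lit 5) (nat_lit 111) (nat_lit 5) (nat_lit 334) (nat_lit 330) (nat_lit 236))))))) (XT.nd (nat_lit 858) (nat_lit 1900) (nat_lit 0) (XT.nd (nat_lit 390) (nat_lit 912) (nat_lit 0) (XT.nd (nat_lit 156) (nat_lit 0) (nat_lit 0) (XT.nd (nat_lit 78) (nat_lit 684) (nat_lit 0) (XT.lf (nat_lit 76) (nat_lit 15711816878) (nat_lit 0) (nat_lit 3534395138) (nat_lit 760) (nat_lit 857912549) (nat_lit 102) (nat_lit 5) (nat_lit 101) (nat_lit 5) (nat_lit 111) (nat_lit 5) (nat_lit 335) (nat_lit 330) (nat_lit 235)) (XT.lf (nat_lit 0) (nat_lit 89950387) (nat_lit 760) (nat_lit 15136950718) (nat_lit 836) (nat_lit 5394096560) (nat_lit 92) (nat_lit 5) (nat_lit 102) (nat_lit 5) (nat_lit 103) (nat_lit 5) (nat_lit 336) (nat_lit 330) (nat_lit 234))) (XT.nd (nat_lit 78) (nat_lit 0) (nat_lit 76) (XT.lf (nat_lit 0) (nat_lit 1179682279) (nat_lit 760) (nat_lit 5234204726) (nat_lit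 836) (nat_lit 14742973419) (nat_lit 92) (nat_lit 5) (nat_lit 102) (nat_lit 5) (nat_lit 103) (nat_lit 5) (nat_lit 337) (nat_lit 330) (nat_lit 233)) (XT.nd (nat_lit 78) (nat_lit 0) (nat_lit 0) (XT.lf (nat_lit 0) (nat_lit 2443054459) (nat_lit 760) (nat_lit 16434755739) (nat_lit 836) (nat_lit 2835762319) (nat_lit 93) (nat_lit 5) (nat_lit 103) (nat_lit 5) (nat_lit 104) (nat_lit 5) (nat_lit 338) (nat_lit 330) (nat_lit 232)) (XT.lf (nat_lit 0) (nat_lit 3955472508) (nat_lit 760) (nat_lit 5908805911) (nat_lit 836) (nat_lit 12424561155) (nat_lit 93) (nat_lit 5) (nat_lit 103) (nat_lit 5) (nat_lit 104) (nat_lit 5) (nat_lit 339) (nat_lit 330) (nat_lit 231))))) (XT.nd (nat_lit 234) (nat_lit 380) (nat_lit 0) (XT.nd (nat_lit 78) (nat_lit 608) (nat_lit 0) (XT.lf (nat_lit 76) (nat_lit 5305903311) (nat_lit 0) (nat_lit 311528746) (nat_lit 836) (nat_lit 17271754488) (nat_lit 94) (nat_lit 5) (nat_lit 93) (nat_lit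 5) (nat_lit 104) (nat_lit 5) (nat_lit 340) (nat_lit 330) (nat_lit 230)) (XT.nd (nat_lit 78) (nat_lit 684) (nat_lit 0) (XT.lf (nat_lit 0) (nat_lit 7607350738) (nat_lit 760) (nat_lit 6389143269) (nat_lit 76) (nat_lit 9510825791) (nat_lit 94) (nat_lit 5) (nat_lit 104) (nat_lit 5) (nat_lit 95) (nat_lit 5) (nat_lit 341) (nat_lit 330) (nat_lit 229)) (XT.lf (nat_lit 0) (nat_lit 5529228274) (nat_lit 684) (nat_lit 4250793317) (nat_lit 760) (nat_lit 14372186730) (nat_lit 85) (nat_lit 5) (nat_lit 94) (nat_lit 5) (nat_lit 95) (nat_lit 5) (nat_lit 342) (nat_lit 330) (nat_lit 228)))) (XT.nd (nat_lit 78) (nat_lit 380) (nat_lit 0) (XT.lf (nat_lit 0) (nat_lit 12256811609) (nat_lit 760) (nat_lit 6661405120) (nat_lit 76) (nat_lit 5901361137) (nat_lit 85) (nat_lit 5) (nat_lit 95) (nat_lit 5) (nat_lit 86) (nat_lit 5) (nat_lit 343) (nat_lit 330) (nat_lit 227)) (XT.nd (nat_lit 78) (nat_lit 0) (nat_lit 0) (XT.lf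 (nat_lit 0) (nat_lit 6013768793) (nat_lit 380) (nat_lit 8999734757) (nat_lit 456) (nat_lit 10499019577) (nat_lit 80) (nat_lit 5) (nat_lit 85) (nat_lit 5) (nat_lit 86) (nat_lit 5) (nat_lit 344) (nat_lit 330) (nat_lit 226)) (XT.lf (nat_lit 0) (nat_lit 18037513985) (nat_lit 456) (nat_lit 6711971519) (nat_lit 76) (nat_lit 1484165817) (nat_lit 80) (nat_lit 5) (nat_lit 86) (nat_lit 5) (nat_lit 81) (nat_lit 5) (nat_lit 345) (nat_lit 330) (nat_lit 225)))))) (XT.nd (nat_lit 468) (nat_lit 912) (nat_lit 0) (XT.nd (nat_lit 234) (nat_lit 304) (nat_lit 0) (XT.nd (nat_lit 78) (nat_lit 380) (nat_lit 0) (XT.lf (nat_lit 0) (nat_lit 6776326643) (nat_lit 304) (nat_lit 14682811793) (nat_lit 380) (nat_lit 5519386211) (nat_lit 76) (nat_lit 5) (nat_lit 80) (nat_lit 5) (nat_lit 81) (nat_lit 5) (nat_lit 346) (nat_lit 330) (nat_lit 224)) (XT.nd (nat_lit 78) (nat_lit 380) (nat_lit 0) (XT.lf (nat_lit 0) (nat_lit 21165007956)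 (nat_lit 304) (nat_lit 3993805433) (nat_lit 380) (nat_lit 2596488732) (nat_lit 76) (nat_lit 5) (nat_lit 80) (nat_lit 5) (nat_lit 81) (nat_lit 5) (nat_lit 347) (nat_lit 330) (nat_lit 223)) (XT.lf (nat_lit 0) (nat_lit 689953930) (nat_lit 380) (nat_lit 20737624333) (nat_lit 76) (nat_lit 7131353181) (nat_lit 71) (nat_lit 5) (nat_lit 76) (nat_lit 5) (nat_lit 72) (nat_lit 5) (nat_lit 348) (nat_lit 330) (nat_lit 222)))) (XT.nd (nat_lit 78) (nat_lit 304) (nat_lit 0) (XT.lf (nat_lit 0) (nat_lit 4226070634) (nat_lit 380) (nat_lit 6331885495) (nat_lit 76) (nat_lit 18834035016) (nat_lit 71) (nat_lit 5) (nat_lit 76) (nat_lit 5) (nat_lit 72) (nat_lit 5) (nat_lit 349) (nat_lit 330) (nat_lit 221)) (XT.nd (nat_lit 78) (nat_lit 0) (nat_lit 0) (XT.lf (nat_lit 0) (nat_lit 8090385822) (nat_lit 380) (nat_lit 21197702358) (nat_lit 76) (nat_lit 971053379) (nat_lit 67) (nat_lit 5) (nat_lit 72) (nat_lit 5) (nat_lit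 68) (nat_lit 5) (nat_lit 350) (nat_lit 330) (nat_lit 220)) (XT.lf (nat_lit 0) (nat_lit 12424156321) (nat_lit 380) (nat_lit 5901847472) (nat_lit 76) (nat_lit 12829840736) (nat_lit 67) (nat_lit 5) (nat_lit 72) (nat_lit 5) (nat_lit 68) (nat_lit 5) (nat_lit 351) (nat_lit 330) (nat_lit 219))))) (XT.nd (nat_lit 234) (nat_lit 380) (nat_lit 0) (XT.nd (nat_lit 78) (nat_lit 228) (nat_lit 0) (XT.lf (nat_lit 0) (nat_lit 10487829160) (nat_lit 304) (nat_lit 6644975190) (nat_lit 380) (nat_lit 14956675524) (nat_lit 63) (nat_lit 5) (nat_lit 67) (nat_lit 5) (nat_lit 68) (nat_lit 5) (nat_lit 352) (nat_lit 330) (nat_lit 218)) (XT.nd (nat_lit 78) (nat_lit 228) (nat_lit 0) (XT.lf (nat_lit 0) (nat_lit 22260808679) (nat_lit 380) (nat_lit 5259093055) (nat_lit 76) (nat_lit 5540705417) (nat_lit 63) (nat_lit 5) (nat_lit 68) (nat_lit 5) (nat_lit 64) (nat_lit 5) (nat_lit 353) (nat_lit 330) (nat_lit 217)) (XT.lf (nat_lit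 0) (nat_lit 12174855672) (nat_lit 228) (nat_lit 15764221981) (nat_lit 304) (nat_lit 6126525973) (nat_lit 60) (nat_lit 5) (nat_lit 63) (nat_lit 5) (nat_lit 64) (nat_lit 5) (nat_lit 354) (nat_lit 330) (nat_lit 216)))) (XT.nd (nat_lit 78) (nat_lit 380) (nat_lit 0) (XT.lf (nat_lit 0) (nat_lit 30656715886) (nat_lit 228) (nat_lit 3328602210) (nat_lit 304) (nat_lit 1131334696) (nat_lit 60) (nat_lit 5) (nat_lit 63) (nat_lit 5) (nat_lit 64) (nat_lit 5) (nat_lit 355) (nat_lit 330) (nat_lit 215)) (XT.nd (nat_lit 78) (nat_lit 0) (nat_lit 0) (XT.lf (nat_lit 0) (nat_lit 4355797350) (nat_lit 380) (nat_lit 22135430590) (nat_lit 76) (nat_lit 9707128325) (nat_lit 55) (nat_lit 5) (nat_lit 60) (nat_lit 5) (nat_lit 56) (nat_lit 5) (nat_lit 356) (nat_lit 330) (nat_lit 214)) (XT.lf (nat_lit 0) (nat_lit 10205863314) (nat_lit 380) (nat_lit 3744300324) (nat_lit 76) (nat_lit 23376729053) (nat_lit 55) (nat_lit 5)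 (nat_lit 60) (nat_lit 5) (nat_lit 56) (nat_lit 5) (nat_lit 357) (nat_lit 330) (nat_lit 213))))))))
noncomputable def xc178 : XT := (XT.nd (nat_lit 1794) (nat_lit 988) (nat_lit 0) (XT.nd (nat_lit 858) (nat_lit 988) (nat_lit 0) (XT.nd (nat_lit 390) (nat_lit 608) (nat_lit 0) (XT.nd (nat_lit 156) (nat_lit 456) (nat_lit 0) (XT.nd (nat_lit 78) (nat_lit 0) (nat_lit 0) (XT.lf (nat_lit 0) (nat_lit 16074833553) (nat_lit 228) (nat_lit 520058820) (nat_lit 304) (nat_lit 21904645320) (nat_lit 52) (nat_lit 5) (nat_lit 55) (nat_lit 5) (nat_lit 56) (nat_lit 5) (nat_lit 358) (nat_lit 330) (nat_lit 212)) (XT.lf (nat_lit 0) (nat_lit 23575454310) (nat_lit 304) (nat_lit 2931962367) (nat_lit 76) (nat_lit 13209798717) (nat_lit 52) (nat_lit 5) (nat_lit 56) (nat_lit 5) (nat_lit 53) (nat_lit 5) (nat_lit 359) (nat_lit 330) (nat_lit 211))) (XT.nd (nat_lit 78) (nat_lit 228) (nat_lit 0) (XT.lf (nat_lit 0) (nat_lit 18100358139)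 (nat_lit 228) (nat_lit 13091603623) (nat_lit 304) (nat_lit 9789473652) (nat_lit 49) (nat_lit 5) (nat_lit 52) (nat_lit 5) (nat_lit 53) (nat_lit 5) (nat_lit 360) (nat_lit 330) (nat_lit 210)) (XT.nd (nat_lit 78) (nat_lit 228) (nat_lit 0) (XT.lf (nat_lit 0) (nat_lit 39251176330) (nat_lit 304) (nat_lit 2042592332) (nat_lit 76) (nat_lit 1012007786) (nat_lit 49) (nat_lit 5) (nat_lit 53) (nat_lit 5) (nat_lit 50) (nat_lit 5) (nat_lit 361) (nat_lit 330) (nat_lit 209)) (XT.lf (nat_lit 0) (nat_lit 4424188117) (nat_lit 228) (nat_lit 23475158857) (nat_lit 76) (nat_lit 15767068399) (nat_lit 46) (nat_lit 5) (nat_lit 49) (nat_lit 5) (nat_lit 47) (nat_lit 5) (nat_lit 362) (nat_lit 330) (nat_lit 208))))) (XT.nd (nat_lit 234) (nat_lit 380) (nat_lit 0) (XT.nd (nat_lit 78) (nat_lit 228) (nat_lit 0) (XT.lf (nat_lit 0) (nat_lit 12205529208) (nat_lit 228) (nat_lit 1541990524) (nat_lit 76) (nat_lit 31343502880)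 (nat_lit 46) (nat_lit 5) (nat_lit 49) (nat_lit 5) (nat_lit 47) (nat_lit 5) (nat_lit 363) (nat_lit 330) (nat_lit 207)) (XT.nd (nat_lit 78) (nat_lit 0) (nat_lit 0) (XT.lf (nat_lit 0) (nat_lit 20741734795) (nat_lit 304) (nat_lit 24400027729) (nat_lit 76) (nat_lit 1426811192) (nat_lit 43) (nat_lit 5) (nat_lit 47) (nat_lit 5) (nat_lit 44) (nat_lit 5) (nat_lit 364) (nat_lit 330) (nat_lit 206)) (XT.lf (nat_lit 0) (nat_lit 29953022270) (nat_lit 304) (nat_lit 1231851211) (nat_lit 76) (nat_lit 16922718523) (nat_lit 43) (nat_lit 5) (nat_lit 47) (nat_lit 5) (nat_lit 44) (nat_lit 5) (nat_lit 365) (nat_lit 330) (nat_lit 205)))) (XT.nd (nat_lit 78) (nat_lit 228) (nat_lit 0) (XT.lf (nat_lit 0) (nat_lit 23852938037) (nat_lit 152) (nat_lit 16140880600) (nat_lit 228) (nat_lit 9711298403) (nat_lit 41) (nat_lit 5) (nat_lit 43) (nat_lit 5) (nat_lit 44) (nat_lit 5) (nat_lit 366) (nat_lit 330) (nat_lit 204))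 (XT.nd (nat_lit 78) (nat_lit 228) (nat_lit 0) (XT.lf (nat_lit 0) (nat_lit 50229579267) (nat_lit 152) (nat_lit 324555465) (nat_lit 228) (nat_lit 827512514) (nat_lit 41) (nat_lit 5) (nat_lit 43) (nat_lit 5) (nat_lit 44) (nat_lit 5) (nat_lit 367) (nat_lit 330) (nat_lit 203)) (XT.lf (nat_lit 0) (nat_lit 8885505014) (nat_lit 228) (nat_lit 27918343322) (nat_lit 76) (nat_lit 16298666955) (nat_lit 38) (nat_lit 5) (nat_lit 41) (nat_lit 5) (nat_lit 39) (nat_lit 5) (nat_lit 368) (nat_lit 330) (nat_lit 202)))))) (XT.nd (nat_lit 468) (nat_lit 456) (nat_lit 0) (XT.nd (nat_lit 234) (nat_lit 380) (nat_lit 0) (XT.nd (nat_lit 78) (nat_lit 152) (nat_lit 0) (XT.lf (nat_lit 0) (nat_lit 19078290029) (nat_lit 228) (nat_lit 2055510625) (nat_lit 76) (nat_lit 33773853989) (nat_lit 38) (nat_lit 5) (nat_lit 41) (nat_lit 5) (nat_lit 39) (nat_lit 5) (nat_lit 369) (nat_lit 330) (nat_lit 201)) (XT.nd (nat_lit 78) (nat_lit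 0) (nat_lit 0) (XT.lf (nat_lit 0) (nat_lit 25925405901) (nat_lit 152) (nat_lit 4257005393) (nat_lit 228) (nat_lit 26600557216) (nat_lit 36) (nat_lit 5) (nat_lit 38) (nat_lit 5) (nat_lit 39) (nat_lit 5) (nat_lit 370) (nat_lit 330) (nat_lit 200)) (XT.lf (nat_lit 0) (nat_lit 42084298717) (nat_lit 228) (nat_lit 3589231828) (nat_lit 76) (nat_lit 13066391803) (nat_lit 36) (nat_lit 5) (nat_lit 39) (nat_lit 5) (nat_lit 37) (nat_lit 5) (nat_lit 371) (nat_lit 330) (nat_lit 199)))) (XT.nd (nat_lit 78) (nat_lit 228) (nat_lit 0) (XT.lf (nat_lit 0) (nat_lit 25793638816) (nat_lit 152) (nat_lit 29257257145) (nat_lit 228) (nat_lit 5720349317) (nat_lit 34) (nat_lit 5) (nat_lit 36) (nat_lit 5) (nat_lit 37) (nat_lit 5) (nat_lit 372) (nat_lit 330) (nat_lit 198)) (XT.nd (nat_lit 78) (nat_lit 152) (nat_lit 0) (XT.lf (nat_lit 0) (nat_lit 5636195737) (nat_lit 228) (nat_lit 6226453626) (nat_lit 76) (nat_lit 51034043306)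 (nat_lit 33) (nat_lit 5) (nat_lit 36) (nat_lit 5) (nat_lit 34) (nat_lit 5) (nat_lit 373) (nat_lit 330) (nat_lit 197)) (XT.lf (nat_lit 0) (nat_lit 17858270867) (nat_lit 228) (nat_lit 40559298686) (nat_lit 76) (nat_lit 6681658741) (nat_lit 31) (nat_lit 5) (nat_lit 34) (nat_lit 5) (nat_lit 32) (nat_lit 5) (nat_lit 374) (nat_lit 330) (nat_lit 196))))) (XT.nd (nat_lit 234) (nat_lit 304) (nat_lit 0) (XT.nd (nat_lit 78) (nat_lit 152) (nat_lit 0) (XT.lf (nat_lit 0) (nat_lit 30990402633) (nat_lit 228) (nat_lit 10546499576) (nat_lit 76) (nat_lit 25860042636) (nat_lit 31) (nat_lit 5) (nat_lit 34) (nat_lit 5) (nat_lit 32) (nat_lit 5) (nat_lit 375) (nat_lit 330) (nat_lit 195)) (XT.nd (nat_lit 78) (nat_lit 0) (nat_lit 0) (XT.lf (nat_lit 0) (nat_lit 21655790136) (nat_lit 152) (nat_lit 23458893241) (nat_lit 228) (nat_lit 24678088429) (nat_lit 29) (nat_lit 5) (nat_lit 31) (nat_lit 5) (nat_lit 32) (nat_lit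 5) (nat_lit 376) (nat_lit 330) (nat_lit 194)) (XT.lf (nat_lit 0) (nat_lit 55830143972) (nat_lit 152) (nat_lit 4291135637) (nat_lit 228) (nat_lit 12178307056) (nat_lit 29) (nat_lit 5) (nat_lit 31) (nat_lit 5) (nat_lit 32) (nat_lit 5) (nat_lit 377) (nat_lit 330) (nat_lit 193)))) (XT.nd (nat_lit 78) (nat_lit 152) (nat_lit 0) (XT.lf (nat_lit 0) (nat_lit 1435983082) (nat_lit 152) (nat_lit 57852624460) (nat_lit 76) (nat_lit 15616406728) (nat_lit 27) (nat_lit 5) (nat_lit 29) (nat_lit 5) (nat_lit 28) (nat_lit 5) (nat_lit 378) (nat_lit 330) (nat_lit 192)) (XT.nd (nat_lit 78) (nat_lit 152) (nat_lit 0) (XT.lf (nat_lit 0) (nat_lit 15673151204) (nat_lit 152) (nat_lit 25083346406) (nat_lit 76) (nat_lit 36856663105) (nat_lit 27) (nat_lit 5) (nat_lit 29) (nat_lit 5) (nat_lit 28) (nat_lit 5) (nat_lit 379) (nat_lit 330) (nat_lit 191)) (XT.lf (nat_lit 0) (nat_lit 9628656931) (nat_lit 152) (nat_lit 21141563079)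 (nat_lit 228) (nat_lit 49679093692) (nat_lit 25) (nat_lit 5) (nat_lit 27) (nat_lit 5) (nat_lit 28) (nat_lit 5) (nat_lit 380) (nat_lit 330) (nat_lit 190))))))) (XT.nd (nat_lit 858) (nat_lit 456) (nat_lit 0) (XT.nd (nat_lit 390) (nat_lit 228) (nat_lit 0) (XT.nd (nat_lit 156) (nat_lit 304) (nat_lit 0) (XT.nd (nat_lit 78) (nat_lit 0) (nat_lit 0) (XT.lf (nat_lit 0) (nat_lit 46943244968) (nat_lit 152) (nat_lit 101456662) (nat_lit 228) (nat_lit 36361446012) (nat_lit 25) (nat_lit 5) (nat_lit 27) (nat_lit 5) (nat_lit 28) (nat_lit 5) (nat_lit 381) (nat_lit 330) (nat_lit 189)) (XT.lf (nat_lit 0) (nat_lit 64474086490) (nat_lit 228) (nat_lit 734349634) (nat_lit 76) (nat_lit 21285329406) (nat_lit 25) (nat_lit 5) (nat_lit 28) (nat_lit 5) (nat_lit 26) (nat_lit 4) (nat_lit 382) (nat_lit 330) (nat_lit 188))) (XT.nd (nat_lit 78) (nat_lit 228) (nat_lit 0) (XT.lf (nat_lit 0) (nat_lit 37991354131) (nat_lit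 76) (nat_lit 45376347294) (nat_lit 152) (nat_lit 6338426001) (nat_lit 24) (nat_lit 5) (nat_lit 25) (nat_lit 5) (nat_lit 26) (nat_lit 4) (nat_lit 383) (nat_lit 330) (nat_lit 187)) (XT.nd (nat_lit 78) (nat_lit 152) (nat_lit 0) (XT.lf (nat_lit 0) (nat_lit 9813361391) (nat_lit 152) (nat_lit 14561545854) (nat_lit 76) (nat_lit 68695765989) (nat_lit 23) (nat_lit 5) (nat_lit 25) (nat_lit 5) (nat_lit 24) (nat_lit 5) (nat_lit 384) (nat_lit 330) (nat_lit 186)) (XT.lf (nat_lit 0) (nat_lit 25146876862) (nat_lit 152) (nat_lit 1803514189) (nat_lit 228) (nat_lit 69628327568) (nat_lit 21) (nat_lit 5) (nat_lit 23) (nat_lit 5) (nat_lit 24) (nat_lit 5) (nat_lit 385) (nat_lit 330) (nat_lit 185))))) (XT.nd (nat_lit 234) (nat_lit 152) (nat_lit 0) (XT.nd (nat_lit 78) (nat_lit 76) (nat_lit 0) (XT.lf (nat_lit 0) (nat_lit 45534856653) (nat_lit 228) (nat_lit 33252912036) (nat_lit 76) (nat_lit 21444869309) (nat_lit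 21) (nat_lit 5) (nat_lit 24) (nat_lit 5) (nat_lit 22) (nat_lit 4) (nat_lit 386) (nat_lit 330) (nat_lit 184)) (XT.nd (nat_lit 78) (nat_lit 0) (nat_lit 0) (XT.lf (nat_lit 0) (nat_lit 7027037793) (nat_lit 76) (nat_lit 58158947181) (nat_lit 152) (nat_lit 38876397303) (nat_lit 20) (nat_lit 5) (nat_lit 21) (nat_lit 5) (nat_lit 22) (nat_lit 4) (nat_lit 387) (nat_lit 330) (nat_lit 183)) (XT.lf (nat_lit 0) (nat_lit 50472234204) (nat_lit 76) (nat_lit 35908788847) (nat_lit 152) (nat_lit 21674523913) (nat_lit 20) (nat_lit 5) (nat_lit 21) (nat_lit 5) (nat_lit 22) (nat_lit 4) (nat_lit 388) (nat_lit 330) (nat_lit 182)))) (XT.nd (nat_lit 78) (nat_lit 152) (nat_lit 0) (XT.lf (nat_lit 0) (nat_lit 96086626694) (nat_lit 76) (nat_lit 12547471276) (nat_lit 152) (nat_lit 3614358488) (nat_lit 20) (nat_lit 5) (nat_lit 21) (nat_lit 5) (nat_lit 22) (nat_lit 4) (nat_lit 389) (nat_lit 330) (nat_lit 181)) (XT.nd (nat_lit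 78) (nat_lit 0) (nat_lit 0) (XT.lf (nat_lit 0) (nat_lit 15490943040) (nat_lit 152) (nat_lit 88831638373) (nat_lit 76) (nat_lit 12284779567) (nat_lit 18) (nat_lit 5) (nat_lit 20) (nat_lit 5) (nat_lit 19) (nat_lit 4) (nat_lit 390) (nat_lit 330) (nat_lit 180)) (XT.lf (nat_lit 0) (nat_lit 35912287404) (nat_lit 152) (nat_lit 46971692894) (nat_lit 76) (nat_lit 38273156353) (nat_lit 18) (nat_lit 5) (nat_lit 20) (nat_lit 5) (nat_lit 19) (nat_lit 4) (nat_lit 391) (nat_lit 330) (nat_lit 179)))))) (XT.nd (nat_lit 468) (nat_lit 228) (nat_lit 0) (XT.nd (nat_lit 234) (nat_lit 152) (nat_lit 0) (XT.nd (nat_lit 78) (nat_lit 76) (nat_lit 0) (XT.lf (nat_lit 0) (nat_lit 57353129676) (nat_lit 152) (nat_lit 3021595253) (nat_lit 76) (nat_lit 65559755317) (nat_lit 18) (nat_lit 5) (nat_lit 20) (nat_lit 5) (nat_lit 19) (nat_lit 4) (nat_lit 392) (nat_lit 330) (nat_lit 178)) (XT.nd (nat_lit 78) (nat_lit 0) (nat_lit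 0) (XT.lf (nat_lit 0) (nat_lit 44549148609) (nat_lit 76) (nat_lit 36010907930) (nat_lit 152) (nat_lit 50355932999) (nat_lit 17) (nat_lit 5) (nat_lit 18) (nat_lit 5) (nat_lit 19) (nat_lit 4) (nat_lit 393) (nat_lit 330) (nat_lit 177)) (XT.lf (nat_lit 0) (nat_lit 94600666703) (nat_lit 76) (nat_lit 10376370187) (nat_lit 152) (nat_lit 31167052660) (nat_lit 17) (nat_lit 5) (nat_lit 18) (nat_lit 5) (nat_lit 19) (nat_lit 4) (nat_lit 394) (nat_lit 330) (nat_lit 176)))) (XT.nd (nat_lit 78) (nat_lit 76) (nat_lit 0) (XT.lf (nat_lit 0) (nat_lit 5434271182) (nat_lit 76) (nat_lit 125522260258) (nat_lit 76) (nat_lit 10659980445) (nat_lit 16) (nat_lit 4) (nat_lit 17) (nat_lit 5) (nat_lit 17) (nat_lit 4) (nat_lit 395) (nat_lit 330) (nat_lit 175)) (XT.nd (nat_lit 78) (nat_lit 0) (nat_lit 0) (XT.lf (nat_lit 0) (nat_lit 11408246468) (nat_lit 152) (nat_lit 91478217982) (nat_lit 76) (nat_lit 44423414586) (nat_lit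 15) (nat_lit 5) (nat_lit 17) (nat_lit 5) (nat_lit 16) (nat_lit 4) (nat_lit 396) (nat_lit 330) (nat_lit 174)) (XT.lf (nat_lit 0) (nat_lit 34220297679) (nat_lit 152) (nat_lit 44716221029) (nat_lit 76) (nat_lit 74342725741) (nat_lit 15) (nat_lit 5) (nat_lit 17) (nat_lit 5) (nat_lit 16) (nat_lit 4) (nat_lit 397) (nat_lit 330) (nat_lit 173))))) (XT.nd (nat_lit 234) (nat_lit 152) (nat_lit 0) (XT.nd (nat_lit 78) (nat_lit 0) (nat_lit 0) (XT.lf (nat_lit 0) (nat_lit 4526393267) (nat_lit 76) (nat_lit 53715949958) (nat_lit 152) (nat_lit 101301265797) (nat_lit 14) (nat_lit 5) (nat_lit 15) (nat_lit 5) (nat_lit 16) (nat_lit 4) (nat_lit 398) (nat_lit 330) (nat_lit 172)) (XT.nd (nat_lit 78) (nat_lit 0) (nat_lit 0) (XT.lf (nat_lit 0) (nat_lit 57781267132) (nat_lit 76) (nat_lit 26440261521) (nat_lit 152) (nat_lit 81861861748) (nat_lit 14) (nat_lit 5) (nat_lit 15) (nat_lit 5) (nat_lit 16) (nat_lit 4) (nat_lit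 399) (nat_lit 330) (nat_lit 171)) (XT.lf (nat_lit 0) (nat_lit 111532799822) (nat_lit 152) (nat_lit 59287863317) (nat_lit 0) (nat_lit 2127841819) (nat_lit 14) (nat_lit 5) (nat_lit 16) (nat_lit 4) (nat_lit 14) (nat_lit 4) (nat_lit 400) (nat_lit 330) (nat_lit 170)))) (XT.nd (nat_lit 78) (nat_lit 152) (nat_lit 0) (XT.lf (nat_lit 0) (nat_lit 140641929669) (nat_lit 152) (nat_lit 8258481379) (nat_lit 0) (nat_lit 31234849854) (nat_lit 14) (nat_lit 5) (nat_lit 16) (nat_lit 4) (nat_lit 14) (nat_lit 4) (nat_lit 401) (nat_lit 330) (nat_lit 169)) (XT.nd (nat_lit 78) (nat_lit 76) (nat_lit 0) (XT.lf (nat_lit 0) (nat_lit 46818822357) (nat_lit 76) (nat_lit 125117569732) (nat_lit 76) (nat_lit 15708469145) (nat_lit 13) (nat_lit 4) (nat_lit 14) (nat_lit 5) (nat_lit 14) (nat_lit 4) (nat_lit 402) (nat_lit 330) (nat_lit 168)) (XT.lf (nat_lit 0) (nat_lit 9110137937) (nat_lit 152) (nat_lit 90735242360) (nat_lit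 76) (nat_lit 95670275510) (nat_lit 12) (nat_lit 5) (nat_lit 14) (nat_lit 5) (nat_lit 13) (nat_lit 4) (nat_lit 403) (nat_lit 330) (nat_lit 167))))))))
noncomputable def xc179 : XT := (XT.nd (nat_lit 1794) (nat_lit 0) (nat_lit 0) (XT.nd (nat_lit 858) (nat_lit 228) (nat_lit 0) (XT.nd (nat_lit 390) (nat_lit 228) (nat_lit 0) (XT.nd (nat_lit 156) (nat_lit 0) (nat_lit 0) (XT.nd (nat_lit 78) (nat_lit 76) (nat_lit 0) (XT.lf (nat_lit 0) (nat_lit 34640725823) (nat_lit 152) (nat_lit 38399370093) (nat_lit 76) (nat_lit 130727070837) (nat_lit 12) (nat_lit 5) (nat_lit 14) (nat_lit 5) (nat_lit 13) (nat_lit 4) (nat_lit 404) (nat_lit 330) (nat_lit 166)) (XT.lf (nat_lit 0) (nat_lit 17098705734) (nat_lit 76) (nat_lit 44615103721) (nat_lit 152) (nat_lit 150704145798) (nat_lit 11) (nat_lit 5) (nat_lit 12) (nat_lit 5) (nat_lit 13) (nat_lit 4) (nat_lit 405) (nat_lit 330) (nat_lit 165))) (XT.nd (nat_lit 78) (nat_lit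 0) (nat_lit 0) (XT.lf (nat_lit 0) (nat_lit 76702999283) (nat_lit 76) (nat_lit 14086886291) (nat_lit 152) (nat_lit 130678930998) (nat_lit 11) (nat_lit 5) (nat_lit 12) (nat_lit 5) (nat_lit 13) (nat_lit 4) (nat_lit 406) (nat_lit 330) (nat_lit 164)) (XT.nd (nat_lit 78) (nat_lit 0) (nat_lit 0) (XT.lf (nat_lit 0) (nat_lit 121599352394) (nat_lit 152) (nat_lit 91967012809) (nat_lit 0) (nat_lit 17391876704) (nat_lit 11) (nat_lit 5) (nat_lit 13) (nat_lit 4) (nat_lit 11) (nat_lit 4) (nat_lit 407) (nat_lit 330) (nat_lit 163)) (XT.lf (nat_lit 0) (nat_lit 154179329960) (nat_lit 152) (nat_lit 36760888813) (nat_lit 0) (nat_lit 49970418145) (nat_lit 11) (nat_lit 5) (nat_lit 13) (nat_lit 4) (nat_lit 11) (nat_lit 4) (nat_lit 408) (nat_lit 330) (nat_lit 162))))) (XT.nd (nat_lit 234) (nat_lit 152) (nat_lit 0) (XT.nd (nat_lit 78) (nat_lit 0) (nat_lit 0) (XT.lf (nat_lit 0) (nat_lit 21905031430) (nat_lit 76)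 (nat_lit 166824421375) (nat_lit 76) (nat_lit 62614141822) (nat_lit 10) (nat_lit 4) (nat_lit 11) (nat_lit 5) (nat_lit 11) (nat_lit 4) (nat_lit 409) (nat_lit 330) (nat_lit 161)) (XT.nd (nat_lit 78) (nat_lit 0) (nat_lit 0) (XT.lf (nat_lit 0) (nat_lit 84778920909) (nat_lit 76) (nat_lit 140849887692) (nat_lit 76) (nat_lit 36638305531) (nat_lit 10) (nat_lit 4) (nat_lit 11) (nat_lit 5) (nat_lit 11) (nat_lit 4) (nat_lit 410) (nat_lit 330) (nat_lit 160)) (XT.lf (nat_lit 0) (nat_lit 150794998362) (nat_lit 76) (nat_lit 113577337037) (nat_lit 76) (nat_lit 9364514298) (nat_lit 10) (nat_lit 4) (nat_lit 11) (nat_lit 5) (nat_lit 11) (nat_lit 4) (nat_lit 411) (nat_lit 330) (nat_lit 159)))) (XT.nd (nat_lit 78) (nat_lit 76) (nat_lit 0) (XT.lf (nat_lit 0) (nat_lit 18655339696) (nat_lit 152) (nat_lit 65970557864) (nat_lit 76) (nat_lit 201139168022) (nat_lit 9) (nat_lit 5) (nat_lit 11) (nat_lit 5) (nat_lit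 10) (nat_lit 4) (nat_lit 412) (nat_lit 330) (nat_lit 158)) (XT.nd (nat_lit 78) (nat_lit 76) (nat_lit 0) (XT.lf (nat_lit 0) (nat_lit 47760742532) (nat_lit 152) (nat_lit 6305607293) (nat_lit 76) (nat_lit 244320703554) (nat_lit 9) (nat_lit 5) (nat_lit 11) (nat_lit 5) (nat_lit 10) (nat_lit 4) (nat_lit 413) (nat_lit 330) (nat_lit 157)) (XT.lf (nat_lit 0) (nat_lit 58204162798) (nat_lit 76) (nat_lit 21025283027) (nat_lit 152) (nat_lit 232365293424) (nat_lit 8) (nat_lit 5) (nat_lit 9) (nat_lit 5) (nat_lit 10) (nat_lit 4) (nat_lit 414) (nat_lit 330) (nat_lit 156)))))) (XT.nd (nat_lit 468) (nat_lit 152) (nat_lit 0) (XT.nd (nat_lit 234) (nat_lit 76) (nat_lit 0) (XT.nd (nat_lit 78) (nat_lit 0) (nat_lit 0) (XT.lf (nat_lit 0) (nat_lit 112592820231) (nat_lit 152) (nat_lit 199515604267) (nat_lit 0) (nat_lit 13338323306) (nat_lit 8) (nat_lit 5) (nat_lit 10) (nat_lit 4) (nat_lit 8) (nat_lit 4) (nat_lit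 415) (nat_lit 330) (nat_lit 155)) (XT.nd (nat_lit 78) (nat_lit 0) (nat_lit 0) (XT.lf (nat_lit 0) (nat_lit 147968376858) (nat_lit 152) (nat_lit 143292825241) (nat_lit 0) (nat_lit 48712954194) (nat_lit 8) (nat_lit 5) (nat_lit 10) (nat_lit 4) (nat_lit 8) (nat_lit 4) (nat_lit 416) (nat_lit 330) (nat_lit 154)) (XT.lf (nat_lit 0) (nat_lit 185112079629) (nat_lit 152) (nat_lit 84260112024) (nat_lit 0) (nat_lit 85855775309) (nat_lit 8) (nat_lit 5) (nat_lit 10) (nat_lit 4) (nat_lit 8) (nat_lit 4) (nat_lit 417) (nat_lit 330) (nat_lit 153)))) (XT.nd (nat_lit 78) (nat_lit 76) (nat_lit 0) (XT.lf (nat_lit 0) (nat_lit 224112365933) (nat_lit 152) (nat_lit 22276910536) (nat_lit 0) (nat_lit 124855221940) (nat_lit 8) (nat_lit 5) (nat_lit 10) (nat_lit 4) (nat_lit 8) (nat_lit 4) (nat_lit 418) (nat_lit 330) (nat_lit 152)) (XT.nd (nat_lit 78) (nat_lit 0) (nat_lit 0) (XT.lf (nat_lit 0) (nat_lit 44219663667) (nat_lit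 76) (nat_lit 221532822801) (nat_lit 76) (nat_lit 122274879120) (nat_lit 7) (nat_lit 4) (nat_lit 8) (nat_lit 5) (nat_lit 8) (nat_lit 4) (nat_lit 419) (nat_lit 330) (nat_lit 151)) (XT.lf (nat_lit 0) (nat_lit 114813395485) (nat_lit 76) (nat_lit 195037925345) (nat_lit 76) (nat_lit 95779220055) (nat_lit 7) (nat_lit 4) (nat_lit 8) (nat_lit 5) (nat_lit 8) (nat_lit 4) (nat_lit 420) (nat_lit 330) (nat_lit 150))))) (XT.nd (nat_lit 234) (nat_lit 152) (nat_lit 0) (XT.nd (nat_lit 78) (nat_lit 0) (nat_lit 0) (XT.lf (nat_lit 0) (nat_lit 188935789963) (nat_lit 76) (nat_lit 167218771270) (nat_lit 76) (nat_lit 67959340640) (nat_lit 7) (nat_lit 4) (nat_lit 8) (nat_lit 5) (nat_lit 8) (nat_lit 4) (nat_lit 421) (nat_lit 330) (nat_lit 149)) (XT.nd (nat_lit 78) (nat_lit 0) (nat_lit 0) (XT.lf (nat_lit 0) (nat_lit 266763328992) (nat_lit 76) (nat_lit 138009124495) (nat_lit 76) (nat_lit 38749003064) (nat_lit 7) (nat_lit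 4) (nat_lit 8) (nat_lit 5) (nat_lit 8) (nat_lit 4) (nat_lit 422) (nat_lit 330) (nat_lit 148)) (XT.lf (nat_lit 0) (nat_lit 348481316237) (nat_lit 76) (nat_lit 107339438243) (nat_lit 76) (nat_lit 8078658907) (nat_lit 7) (nat_lit 4) (nat_lit 8) (nat_lit 5) (nat_lit 8) (nat_lit 4) (nat_lit 423) (nat_lit 330) (nat_lit 147)))) (XT.nd (nat_lit 78) (nat_lit 76) (nat_lit 0) (XT.lf (nat_lit 0) (nat_lit 23352574872) (nat_lit 152) (nat_lit 51388627423) (nat_lit 76) (nat_lit 410536256306) (nat_lit 6) (nat_lit 5) (nat_lit 8) (nat_lit 5) (nat_lit 7) (nat_lit 4) (nat_lit 424) (nat_lit 330) (nat_lit 146)) (XT.nd (nat_lit 78) (nat_lit 0) (nat_lit 0) (XT.lf (nat_lit 0) (nat_lit 16228432636) (nat_lit 76) (nat_lit 40108365065) (nat_lit 152) (nat_lit 451368340472) (nat_lit 5) (nat_lit 5) (nat_lit 6) (nat_lit 5) (nat_lit 7) (nat_lit 4) (nat_lit 425) (nat_lit 330) (nat_lit 145)) (XT.lf (nat_lit 0) (nat_lit 89009599316)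 (nat_lit 76) (nat_lit 2830483753) (nat_lit 152) (nat_lit 439370626189) (nat_lit 5) (nat_lit 5) (nat_lit 6) (nat_lit 5) (nat_lit 7) (nat_lit 4) (nat_lit 426) (nat_lit 330) (nat_lit 144))))))) (XT.nd (nat_lit 40014) (nat_lit 0) (nat_lit 5016) (XT.nd (nat_lit 39546) (nat_lit 0) (nat_lit 6612) (XT.nd (nat_lit 156) (nat_lit 0) (nat_lit 0) (XT.nd (nat_lit 78) (nat_lit 0) (nat_lit 0) (XT.lf (nat_lit 0) (nat_lit 129685028801) (nat_lit 152) (nat_lit 391029473960) (nat_lit 0) (nat_lit 35148731432) (nat_lit 5) (nat_lit 5) (nat_lit 7) (nat_lit 4) (nat_lit 5) (nat_lit 4) (nat_lit 427) (nat_lit 330) (nat_lit 143)) (XT.lf (nat_lit 0) (nat_lit 169468218498) (nat_lit 152) (nat_lit 337346436949) (nat_lit 0) (nat_lit 74931430190) (nat_lit 5) (nat_lit 5) (nat_lit 7) (nat_lit 4) (nat_lit 5) (nat_lit 4) (nat_lit 428) (nat_lit 330) (nat_lit 142))) (XT.nd (nat_lit 39234) (nat_lit 0) (nat_lit 7220) (XT.lf (nat_lit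 0) (nat_lit 211240182257) (nat_lit 152) (nat_lit 280979990370) (nat_lit 0) (nat_lit 116702926388) (nat_lit 5) (nat_lit 5) (nat_lit 7) (nat_lit 4) (nat_lit 5) (nat_lit 4) (nat_lit 429) (nat_lit 330) (nat_lit 141)) (XT.nd (nat_lit 78) (nat_lit 0) (nat_lit 0) (XT.lf (nat_lit 0) (nat_lit 3932090461) (nat_lit 0) (nat_lit 3932090461) (nat_lit 684) (nat_lit 1460492969) (nat_lit 100) (nat_lit 5) (nat_lit 100) (nat_lit 3) (nat_lit 109) (nat_lit 3) (nat_lit 331) (nat_lit 331) (nat_lit 238)) (XT.lf (nat_lit 0) (nat_lit 16312034778) (nat_lit 684) (nat_lit 2141431307) (nat_lit 760) (nat_lit 652315425) (nat_lit 100) (nat_lit 5) (nat_lit 109) (nat_lit 3) (nat_lit 110) (nat_lit 5) (nat_lit 332) (nat_lit 331) (nat_lit 237))))) (XT.nd (nat_lit 234) (nat_lit 608) (nat_lit 0) (XT.nd (nat_lit 78) (nat_lit 0) (nat_lit 0) (XT.lf (nat_lit 76) (nat_lit 7023937021) (nat_lit 0) (nat_lit 10128110018) (nat_lit 760)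 (nat_lit 2421649819) (nat_lit 101) (nat_lit 5) (nat_lit 100) (nat_lit 5) (nat_lit 110) (nat_lit 5) (nat_lit 333) (nat_lit 331) (nat_lit 236)) (XT.nd (nat_lit 78) (nat_lit 0) (nat_lit 76) (XT.lf (nat_lit 76) (nat_lit 16715580489) (nat_lit 0) (nat_lit 1343762192) (nat_lit 760) (nat_lit 2004418025) (nat_lit 101) (nat_lit 5) (nat_lit 100) (nat_lit 5) (nat_lit 110) (nat_lit 5) (nat_lit 334) (nat_lit 331) (nat_lit 235)) (XT.lf (nat_lit 76) (nat_lit 6388271939) (nat_lit 0) (nat_lit 12836104477) (nat_lit 760) (nat_lit 1343348736) (nat_lit 102) (nat_lit 5) (nat_lit 101) (nat_lit 5) (nat_lit 111) (nat_lit 5) (nat_lit 335) (nat_lit 331) (nat_lit 234)))) (XT.nd (nat_lit 78) (nat_lit 684) (nat_lit 0) (XT.lf (nat_lit 76) (nat_lit 16698492647) (nat_lit 0) (nat_lit 3817547246) (nat_lit 760) (nat_lit 577444329) (nat_lit 102) (nat_lit 5) (nat_lit 101) (nat_lit 5) (nat_lit 111) (nat_lit 5) (nat_lit 336)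 (nat_lit 331) (nat_lit 233)) (XT.nd (nat_lit 78) (nat_lit 0) (nat_lit 0) (XT.lf (nat_lit 0) (nat_lit 394360984) (nat_lit 760) (nat_lit 15668387320) (nat_lit 836) (nat_lit 5573876645) (nat_lit 92) (nat_lit 5) (nat_lit 102) (nat_lit 5) (nat_lit 103) (nat_lit 5) (nat_lit 337) (nat_lit 331) (nat_lit 232)) (XT.lf (nat_lit 0) (nat_lit 1524297896) (nat_lit 760) (nat_lit 5281237882) (nat_lit 836) (nat_lit 15394479478) (nat_lit 92) (nat_lit 5) (nat_lit 102) (nat_lit 5) (nat_lit 103) (nat_lit 5) (nat_lit 338) (nat_lit 331) (nat_lit 231)))))) (XT.nd (nat_lit 468) (nat_lit 1064) (nat_lit 0) (XT.nd (nat_lit 234) (nat_lit 608) (nat_lit 0) (XT.nd (nat_lit 78) (nat_lit 0) (nat_lit 0) (XT.lf (nat_lit 0) (nat_lit 2839533850) (nat_lit 760) (nat_lit 17030124359) (nat_lit 836) (nat_lit 2915489348) (nat_lit 93) (nat_lit 5) (nat_lit 103) (nat_lit 5) (nat_lit 104) (nat_lit 5) (nat_lit 339) (nat_lit 331) (nat_lit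 230)) (XT.nd (nat_lit 78) (nat_lit 0) (nat_lit 0) (XT.lf (nat_lit 0) (nat_lit 4414509627) (nat_lit 760) (nat_lit 5988656523) (nat_lit 836) (nat_lit 12986683416) (nat_lit 93) (nat_lit 5) (nat_lit 103) (nat_lit 5) (nat_lit 104) (nat_lit 5) (nat_lit 340) (nat_lit 331) (nat_lit 229)) (XT.lf (nat_lit 76) (nat_lit 5783310907) (nat_lit 0) (nat_lit 367126797) (nat_lit 836) (nat_lit 17870250217) (nat_lit 94) (nat_lit 5) (nat_lit 93) (nat_lit 5) (nat_lit 104) (nat_lit 5) (nat_lit 341) (nat_lit 331) (nat_lit 228)))) (XT.nd (nat_lit 78) (nat_lit 684) (nat_lit 0) (XT.lf (nat_lit 0) (nat_lit 8227250841) (nat_lit 760) (nat_lit 6493652593) (nat_lit 76) (nat_lit 9949471202) (nat_lit 94) (nat_lit 5) (nat_lit 104) (nat_lit 5) (nat_lit 95) (nat_lit 5) (nat_lit 342) (nat_lit 331) (nat_lit 227)) (XT.nd (nat_lit 78) (nat_lit 0) (nat_lit 0) (XT.lf (nat_lit 0) (nat_lit 6017170626) (nat_lit 684) (nat_lit 4483280108)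 (nat_lit 760) (nat_lit 14847478006) (nat_lit 85) (nat_lit 5) (nat_lit 94) (nat_lit 5) (nat_lit 95) (nat_lit 5) (nat_lit 343) (nat_lit 331) (nat_lit 226)) (XT.lf (nat_lit 0) (nat_lit 13089763269) (nat_lit 760) (nat_lit 6781444552) (nat_lit 76) (nat_lit 6178039963) (nat_lit 85) (nat_lit 5) (nat_lit 95) (nat_lit 5) (nat_lit 86) (nat_lit 5) (nat_lit 344) (nat_lit 331) (nat_lit 225))))) (XT.nd (nat_lit 234) (nat_lit 380) (nat_lit 0) (XT.nd (nat_lit 78) (nat_lit 304) (nat_lit 0) (XT.lf (nat_lit 0) (nat_lit 6524052076) (nat_lit 380) (nat_lit 9453028614) (nat_lit 456) (nat_lit 10800134522) (nat_lit 80) (nat_lit 5) (nat_lit 85) (nat_lit 5) (nat_lit 86) (nat_lit 5) (nat_lit 345) (nat_lit 331) (nat_lit 224)) (XT.nd (nat_lit 78) (nat_lit 304) (nat_lit 0) (XT.lf (nat_lit 0) (nat_lit 19142104283) (nat_lit 456) (nat_lit 6837493382) (nat_lit 76) (nat_lit 1555325279) (nat_lit 80) (nat_lit 5) (nat_lit 86)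 (nat_lit 5) (nat_lit 81) (nat_lit 5) (nat_lit 346) (nat_lit 331) (nat_lit 223)) (XT.lf (nat_lit 0) (nat_lit 7321831354) (nat_lit 304) (nat_lit 15406552511) (nat_lit 380) (nat_lit 5588990480) (nat_lit 76) (nat_lit 5) (nat_lit 80) (nat_lit 5) (nat_lit 81) (nat_lit 5) (nat_lit 347) (nat_lit 331) (nat_lit 222)))) (XT.nd (nat_lit 78) (nat_lit 380) (nat_lit 0) (XT.lf (nat_lit 0) (nat_lit 22420104430) (nat_lit 304) (nat_lit 4183591065) (nat_lit 380) (nat_lit 2529775035) (nat_lit 76) (nat_lit 5) (nat_lit 80) (nat_lit 5) (nat_lit 81) (nat_lit 5) (nat_lit 348) (nat_lit 331) (nat_lit 221)) (XT.nd (nat_lit 78) (nat_lit 0) (nat_lit 0) (XT.lf (nat_lit 0) (nat_lit 909010325) (nat_lit 380) (nat_lit 21565215881) (nat_lit 76) (nat_lit 7503197457) (nat_lit 71) (nat_lit 5) (nat_lit 76) (nat_lit 5) (nat_lit 72) (nat_lit 5) (nat_lit 349) (nat_lit 331) (nat_lit 220)) (XT.lf (nat_lit 0) (nat_lit 4613144354) (nat_lit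 380) (nat_lit 6449156275) (nat_lit 76) (nat_lit 19790285925) (nat_lit 71) (nat_lit 5) (nat_lit 76) (nat_lit 5) (nat_lit 72) (nat_lit 5) (nat_lit 350) (nat_lit 331) (nat_lit 219))))))))
noncomputable def xc180 : XT := (XT.nd (nat_lit 1716) (nat_lit 1444) (nat_lit 0) (XT.nd (nat_lit 858) (nat_lit 988) (nat_lit 0) (XT.nd (nat_lit 390) (nat_lit 836) (nat_lit 0) (XT.nd (nat_lit 156) (nat_lit 532) (nat_lit 0) (XT.nd (nat_lit 78) (nat_lit 0) (nat_lit 0) (XT.lf (nat_lit 0) (nat_lit 8665767514) (nat_lit 380) (nat_lit 22053150825) (nat_lit 76) (nat_lit 1044431811) (nat_lit 67) (nat_lit 5) (nat_lit 72) (nat_lit 5) (nat_lit 68) (nat_lit 5) (nat_lit 351) (nat_lit 331) (nat_lit 218)) (XT.lf (nat_lit 0) (nat_lit 13208090232) (nat_lit 380) (nat_lit 6002238273) (nat_lit 76) (nat_lit 13494976356) (nat_lit 67) (nat_lit 5) (nat_lit 72) (nat_lit 5) (nat_lit 68) (nat_lit 5) (nat_lit 352) (nat_lit 331) (nat_lit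 217))) (XT.nd (nat_lit 78) (nat_lit 228) (nat_lit 0) (XT.lf (nat_lit 0) (nat_lit 11203781842) (nat_lit 304) (nat_lit 6943630767) (nat_lit 380) (nat_lit 15538456582) (nat_lit 63) (nat_lit 5) (nat_lit 67) (nat_lit 5) (nat_lit 68) (nat_lit 5) (nat_lit 353) (nat_lit 331) (nat_lit 216)) (XT.nd (nat_lit 78) (nat_lit 228) (nat_lit 0) (XT.lf (nat_lit 0) (nat_lit 23524794375) (nat_lit 380) (nat_lit 5332408262) (nat_lit 76) (nat_lit 5848710203) (nat_lit 63) (nat_lit 5) (nat_lit 68) (nat_lit 5) (nat_lit 64) (nat_lit 5) (nat_lit 354) (nat_lit 331) (nat_lit 215)) (XT.lf (nat_lit 0) (nat_lit 12970179201) (nat_lit 228) (nat_lit 16512522776) (nat_lit 304) (nat_lit 6278679352) (nat_lit 60) (nat_lit 5) (nat_lit 63) (nat_lit 5) (nat_lit 64) (nat_lit 5) (nat_lit 355) (nat_lit 331) (nat_lit 214))))) (XT.nd (nat_lit 234) (nat_lit 456) (nat_lit 0) (XT.nd (nat_lit 78) (nat_lit 380) (nat_lit 0) (XT.lf (nat_lit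 0) (nat_lit 32367247628) (nat_lit 228) (nat_lit 3457022508) (nat_lit 304) (nat_lit 1041070079) (nat_lit 60) (nat_lit 5) (nat_lit 63) (nat_lit 5) (nat_lit 64) (nat_lit 5) (nat_lit 356) (nat_lit 331) (nat_lit 213)) (XT.nd (nat_lit 78) (nat_lit 0) (nat_lit 0) (XT.lf (nat_lit 0) (nat_lit 4712401936) (nat_lit 380) (nat_lit 23056190338) (nat_lit 76) (nat_lit 10232595117) (nat_lit 55) (nat_lit 5) (nat_lit 60) (nat_lit 5) (nat_lit 56) (nat_lit 5) (nat_lit 357) (nat_lit 331) (nat_lit 212)) (XT.lf (nat_lit 0) (nat_lit 10848360974) (nat_lit 380) (nat_lit 3754361263) (nat_lit 76) (nat_lit 24583765863) (nat_lit 55) (nat_lit 5) (nat_lit 60) (nat_lit 5) (nat_lit 56) (nat_lit 5) (nat_lit 358) (nat_lit 331) (nat_lit 211)))) (XT.nd (nat_lit 78) (nat_lit 228) (nat_lit 0) (XT.lf (nat_lit 0) (nat_lit 17052871984) (nat_lit 228) (nat_lit 500395310) (nat_lit 304) (nat_lit 22864683386) (nat_lit 52) (nat_lit 5)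 (nat_lit 55) (nat_lit 5) (nat_lit 56) (nat_lit 5) (nat_lit 359) (nat_lit 331) (nat_lit 210)) (XT.nd (nat_lit 78) (nat_lit 228) (nat_lit 0) (XT.lf (nat_lit 0) (nat_lit 24877411106) (nat_lit 304) (nat_lit 2906991277) (nat_lit 76) (nat_lit 13912388500) (nat_lit 52) (nat_lit 5) (nat_lit 56) (nat_lit 5) (nat_lit 53) (nat_lit 5) (nat_lit 360) (nat_lit 331) (nat_lit 209)) (XT.lf (nat_lit 0) (nat_lit 19174178010) (nat_lit 228) (nat_lit 13697335484) (nat_lit 304) (nat_lit 10152875935) (nat_lit 49) (nat_lit 5) (nat_lit 52) (nat_lit 5) (nat_lit 53) (nat_lit 5) (nat_lit 361) (nat_lit 331) (nat_lit 208)))))) (XT.nd (nat_lit 390) (nat_lit 532) (nat_lit 0) (XT.nd (nat_lit 156) (nat_lit 228) (nat_lit 0) (XT.nd (nat_lit 78) (nat_lit 228) (nat_lit 0) (XT.lf (nat_lit 0) (nat_lit 41328703053) (nat_lit 304) (nat_lit 1978858080) (nat_lit 76) (nat_lit 1107641384) (nat_lit 49) (nat_lit 5) (nat_lit 53) (nat_lit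 5) (nat_lit 50) (nat_lit 5) (nat_lit 362) (nat_lit 331) (nat_lit 207)) (XT.lf (nat_lit 0) (nat_lit 4759380764) (nat_lit 228) (nat_lit 24481855630) (nat_lit 76) (nat_lit 16602696860) (nat_lit 46) (nat_lit 5) (nat_lit 49) (nat_lit 5) (nat_lit 47) (nat_lit 5) (nat_lit 363) (nat_lit 331) (nat_lit 206))) (XT.nd (nat_lit 78) (nat_lit 228) (nat_lit 0) (XT.lf (nat_lit 0) (nat_lit 12924361136) (nat_lit 228) (nat_lit 1459984175) (nat_lit 76) (nat_lit 32955701874) (nat_lit 46) (nat_lit 5) (nat_lit 49) (nat_lit 5) (nat_lit 47) (nat_lit 5) (nat_lit 364) (nat_lit 331) (nat_lit 205)) (XT.nd (nat_lit 78) (nat_lit 0) (nat_lit 0) (XT.lf (nat_lit 0) (nat_lit 21885443434) (nat_lit 304) (nat_lit 25458895589) (nat_lit 76) (nat_lit 1547238202) (nat_lit 43) (nat_lit 5) (nat_lit 47) (nat_lit 5) (nat_lit 44) (nat_lit 5) (nat_lit 365) (nat_lit 331) (nat_lit 204)) (XT.lf (nat_lit 0) (nat_lit 31552218049) (nat_lit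 304) (nat_lit 1139983271) (nat_lit 76) (nat_lit 17815603450) (nat_lit 43) (nat_lit 5) (nat_lit 47) (nat_lit 5) (nat_lit 44) (nat_lit 5) (nat_lit 366) (nat_lit 331) (nat_lit 203))))) (XT.nd (nat_lit 234) (nat_lit 152) (nat_lit 0) (XT.nd (nat_lit 78) (nat_lit 228) (nat_lit 0) (XT.lf (nat_lit 0) (nat_lit 25196570270) (nat_lit 152) (nat_lit 16896005809) (nat_lit 228) (nat_lit 10092758153) (nat_lit 41) (nat_lit 5) (nat_lit 43) (nat_lit 5) (nat_lit 44) (nat_lit 5) (nat_lit 367) (nat_lit 331) (nat_lit 202)) (XT.nd (nat_lit 78) (nat_lit 228) (nat_lit 0) (XT.lf (nat_lit 0) (nat_lit 52884853784) (nat_lit 152) (nat_lit 291336742) (nat_lit 228) (nat_lit 769740359) (nat_lit 41) (nat_lit 5) (nat_lit 43) (nat_lit 5) (nat_lit 44) (nat_lit 5) (nat_lit 368) (nat_lit 331) (nat_lit 201)) (XT.lf (nat_lit 0) (nat_lit 9424239697) (nat_lit 228) (nat_lit 29165625468) (nat_lit 76) (nat_lit 17162979205) (nat_lit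 38) (nat_lit 5) (nat_lit 41) (nat_lit 5) (nat_lit 39) (nat_lit 5) (nat_lit 369) (nat_lit 331) (nat_lit 200)))) (XT.nd (nat_lit 78) (nat_lit 152) (nat_lit 0) (XT.lf (nat_lit 0) (nat_lit 20122165894) (nat_lit 228) (nat_lit 2016728995) (nat_lit 76) (nat_lit 35509574214) (nat_lit 38) (nat_lit 5) (nat_lit 41) (nat_lit 5) (nat_lit 39) (nat_lit 5) (nat_lit 370) (nat_lit 331) (nat_lit 199)) (XT.nd (nat_lit 78) (nat_lit 0) (nat_lit 0) (XT.lf (nat_lit 0) (nat_lit 27360950178) (nat_lit 152) (nat_lit 4418433627) (nat_lit 228) (nat_lit 27838273672) (nat_lit 36) (nat_lit 5) (nat_lit 38) (nat_lit 5) (nat_lit 39) (nat_lit 5) (nat_lit 371) (nat_lit 331) (nat_lit 198)) (XT.lf (nat_lit 0) (nat_lit 44272946784) (nat_lit 228) (nat_lit 3632569039) (nat_lit 76) (nat_lit 13767117307) (nat_lit 36) (nat_lit 5) (nat_lit 39) (nat_lit 5) (nat_lit 37) (nat_lit 5) (nat_lit 372) (nat_lit 331) (nat_lit 197))))))) (XT.nd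 (nat_lit 858) (nat_lit 608) (nat_lit 0) (XT.nd (nat_lit 390) (nat_lit 304) (nat_lit 0) (XT.nd (nat_lit 156) (nat_lit 304) (nat_lit 0) (XT.nd (nat_lit 78) (nat_lit 76) (nat_lit 0) (XT.lf (nat_lit 0) (nat_lit 27217249583) (nat_lit 152) (nat_lit 30668694687) (nat_lit 228) (nat_lit 5919677451) (nat_lit 34) (nat_lit 5) (nat_lit 36) (nat_lit 5) (nat_lit 37) (nat_lit 5) (nat_lit 373) (nat_lit 331) (nat_lit 196)) (XT.lf (nat_lit 0) (nat_lit 5997924316) (nat_lit 228) (nat_lit 6407527562) (nat_lit 76) (nat_lit 53632024478) (nat_lit 33) (nat_lit 5) (nat_lit 36) (nat_lit 5) (nat_lit 34) (nat_lit 5) (nat_lit 374) (nat_lit 331) (nat_lit 195))) (XT.nd (nat_lit 78) (nat_lit 152) (nat_lit 0) (XT.lf (nat_lit 0) (nat_lit 18830079467) (nat_lit 228) (nat_lit 42455938750) (nat_lit 76) (nat_lit 7064174351) (nat_lit 31) (nat_lit 5) (nat_lit 34) (nat_lit 5) (nat_lit 32) (nat_lit 5) (nat_lit 375) (nat_lit 331)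 (nat_lit 194)) (XT.nd (nat_lit 78) (nat_lit 152) (nat_lit 0) (XT.lf (nat_lit 0) (nat_lit 32615060914) (nat_lit 228) (nat_lit 10948753250) (nat_lit 76) (nat_lit 27199171122) (nat_lit 31) (nat_lit 5) (nat_lit 34) (nat_lit 5) (nat_lit 32) (nat_lit 5) (nat_lit 376) (nat_lit 331) (nat_lit 193)) (XT.lf (nat_lit 0) (nat_lit 22861633668) (nat_lit 152) (nat_lit 24582265238) (nat_lit 228) (nat_lit 25834789905) (nat_lit 29) (nat_lit 5) (nat_lit 31) (nat_lit 5) (nat_lit 32) (nat_lit 5) (nat_lit 377) (nat_lit 331) (nat_lit 192))))) (XT.nd (nat_lit 234) (nat_lit 152) (nat_lit 0) (XT.nd (nat_lit 78) (nat_lit 152) (nat_lit 0) (XT.lf (nat_lit 0) (nat_lit 58738845481) (nat_lit 152) (nat_lit 4458480357) (nat_lit 228) (nat_lit 12713695794) (nat_lit 29) (nat_lit 5) (nat_lit 31) (nat_lit 5) (nat_lit 32) (nat_lit 5) (nat_lit 378) (nat_lit 331) (nat_lit 191)) (XT.nd (nat_lit 78) (nat_lit 0) (nat_lit 0) (XT.lf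 (nat_lit 0) (nat_lit 1578153416) (nat_lit 152) (nat_lit 60624821791) (nat_lit 76) (nat_lit 16443730170) (nat_lit 27) (nat_lit 5) (nat_lit 29) (nat_lit 5) (nat_lit 28) (nat_lit 5) (nat_lit 379) (nat_lit 331) (nat_lit 190)) (XT.lf (nat_lit 0) (nat_lit 16523828935) (nat_lit 152) (nat_lit 26222814781) (nat_lit 76) (nat_lit 38743784932) (nat_lit 27) (nat_lit 5) (nat_lit 29) (nat_lit 5) (nat_lit 28) (nat_lit 5) (nat_lit 380) (nat_lit 331) (nat_lit 189)))) (XT.nd (nat_lit 78) (nat_lit 0) (nat_lit 0) (XT.lf (nat_lit 0) (nat_lit 10222938740) (nat_lit 152) (nat_lit 22151382894) (nat_lit 228) (nat_lit 52094140991) (nat_lit 25) (nat_lit 5) (nat_lit 27) (nat_lit 5) (nat_lit 28) (nat_lit 5) (nat_lit 381) (nat_lit 331) (nat_lit 188)) (XT.nd (nat_lit 78) (nat_lit 0) (nat_lit 0) (XT.lf (nat_lit 0) (nat_lit 49397882419) (nat_lit 152) (nat_lit 61521553) (nat_lit 228) (nat_lit 38113892231) (nat_lit 25) (nat_lit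 5) (nat_lit 27) (nat_lit 5) (nat_lit 28) (nat_lit 5) (nat_lit 382) (nat_lit 331) (nat_lit 187)) (XT.lf (nat_lit 0) (nat_lit 67757952682) (nat_lit 228) (nat_lit 666370618) (nat_lit 76) (nat_lit 22391088644) (nat_lit 25) (nat_lit 5) (nat_lit 28) (nat_lit 5) (nat_lit 26) (nat_lit 4) (nat_lit 383) (nat_lit 331) (nat_lit 186)))))) (XT.nd (nat_lit 468) (nat_lit 228) (nat_lit 0) (XT.nd (nat_lit 234) (nat_lit 76) (nat_lit 0) (XT.nd (nat_lit 78) (nat_lit 228) (nat_lit 0) (XT.lf (nat_lit 0) (nat_lit 39993929683) (nat_lit 76) (nat_lit 47601062071) (nat_lit 152) (nat_lit 6593464619) (nat_lit 24) (nat_lit 5) (nat_lit 25) (nat_lit 5) (nat_lit 26) (nat_lit 4) (nat_lit 384) (nat_lit 331) (nat_lit 185)) (XT.nd (nat_lit 78) (nat_lit 152) (nat_lit 0) (XT.lf (nat_lit 0) (nat_lit 10361079032) (nat_lit 152) (nat_lit 15189604949) (nat_lit 76) (nat_lit 72170641264) (nat_lit 23) (nat_lit 5) (nat_lit 25) (nat_lit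 5) (nat_lit 24) (nat_lit 5) (nat_lit 385) (nat_lit 331) (nat_lit 184)) (XT.lf (nat_lit 0) (nat_lit 26502625706) (nat_lit 152) (nat_lit 1851154200) (nat_lit 228) (nat_lit 73051053396) (nat_lit 21) (nat_lit 5) (nat_lit 23) (nat_lit 5) (nat_lit 24) (nat_lit 5) (nat_lit 386) (nat_lit 331) (nat_lit 183)))) (XT.nd (nat_lit 78) (nat_lit 76) (nat_lit 0) (XT.lf (nat_lit 0) (nat_lit 47865440823) (nat_lit 228) (nat_lit 34819784164) (nat_lit 76) (nat_lit 22556326384) (nat_lit 21) (nat_lit 5) (nat_lit 24) (nat_lit 5) (nat_lit 22) (nat_lit 4) (nat_lit 387) (nat_lit 331) (nat_lit 182)) (XT.nd (nat_lit 78) (nat_lit 0) (nat_lit 0) (XT.lf (nat_lit 0) (nat_lit 7472618422) (nat_lit 76) (nat_lit 61025414439) (nat_lit 152) (nat_lit 40764805898) (nat_lit 20) (nat_lit 5) (nat_lit 21) (nat_lit 5) (nat_lit 22) (nat_lit 4) (nat_lit 388) (nat_lit 331) (nat_lit 181)) (XT.lf (nat_lit 0) (nat_lit 53085587571) (nat_lit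 76) (nat_lit 37664723432) (nat_lit 152) (nat_lit 22705477470) (nat_lit 20) (nat_lit 5) (nat_lit 21) (nat_lit 5) (nat_lit 22) (nat_lit 4) (nat_lit 389) (nat_lit 331) (nat_lit 180))))) (XT.nd (nat_lit 234) (nat_lit 76) (nat_lit 0) (XT.nd (nat_lit 78) (nat_lit 152) (nat_lit 0) (XT.lf (nat_lit 0) (nat_lit 100976426273) (nat_lit 76) (nat_lit 13137221165) (nat_lit 152) (nat_lit 3744816757) (nat_lit 20) (nat_lit 5) (nat_lit 21) (nat_lit 5) (nat_lit 22) (nat_lit 4) (nat_lit 390) (nat_lit 331) (nat_lit 179)) (XT.nd (nat_lit 78) (nat_lit 0) (nat_lit 0) (XT.lf (nat_lit 0) (nat_lit 16313756053) (nat_lit 152) (nat_lit 93185715752) (nat_lit 76) (nat_lit 12935823199) (nat_lit 18) (nat_lit 5) (nat_lit 20) (nat_lit 5) (nat_lit 19) (nat_lit 4) (nat_lit 391) (nat_lit 331) (nat_lit 178)) (XT.lf (nat_lit 0) (nat_lit 37753869261) (nat_lit 152) (nat_lit 49236939882) (nat_lit 76) (nat_lit 40221866222) (nat_lit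 18) (nat_lit 5) (nat_lit 20) (nat_lit 5) (nat_lit 19) (nat_lit 4) (nat_lit 392) (nat_lit 331) (nat_lit 177)))) (XT.nd (nat_lit 78) (nat_lit 76) (nat_lit 0) (XT.lf (nat_lit 0) (nat_lit 60264564719) (nat_lit 152) (nat_lit 3093305819) (nat_lit 76) (nat_lit 68871125988) (nat_lit 18) (nat_lit 5) (nat_lit 20) (nat_lit 5) (nat_lit 19) (nat_lit 4) (nat_lit 393) (nat_lit 331) (nat_lit 176)) (XT.nd (nat_lit 78) (nat_lit 0) (nat_lit 0) (XT.lf (nat_lit 0) (nat_lit 46854695088) (nat_lit 76) (nat_lit 37776277332) (nat_lit 152) (nat_lit 52828653033) (nat_lit 17) (nat_lit 5) (nat_lit 18) (nat_lit 5) (nat_lit 19) (nat_lit 4) (nat_lit 394) (nat_lit 331) (nat_lit 175)) (XT.lf (nat_lit 0) (nat_lit 99405070561) (nat_lit 76) (nat_lit 10861687749) (nat_lit 152) (nat_lit 32682475182) (nat_lit 17) (nat_lit 5) (nat_lit 18) (nat_lit 5) (nat_lit 19) (nat_lit 4) (nat_lit 395) (nat_lit 331) (nat_lit 174))))))))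
noncomputable def xc181 : XT := (XT.nd (nat_lit 1794) (nat_lit 228) (nat_lit 0) (XT.nd (nat_lit 858) (nat_lit 228) (nat_lit 0) (XT.nd (nat_lit 390) (nat_lit 228) (nat_lit 0) (XT.nd (nat_lit 156) (nat_lit 76) (nat_lit 0) (XT.nd (nat_lit 78) (nat_lit 76) (nat_lit 0) (XT.lf (nat_lit 0) (nat_lit 5780668432) (nat_lit 76) (nat_lit 131764277144) (nat_lit 76) (nat_lit 11150346281) (nat_lit 16) (nat_lit 4) (nat_lit 17) (nat_lit 5) (nat_lit 17) (nat_lit 4) (nat_lit 396) (nat_lit 331) (nat_lit 173)) (XT.lf (nat_lit 0) (nat_lit 12017962275) (nat_lit 152) (nat_lit 95979687272) (nat_lit 76) (nat_lit 46675743532) (nat_lit 15) (nat_lit 5) (nat_lit 17) (nat_lit 5) (nat_lit 16) (nat_lit 4) (nat_lit 397) (nat_lit 331) (nat_lit 172))) (XT.nd (nat_lit 78) (nat_lit 76) (nat_lit 0) (XT.lf (nat_lit 0) (nat_lit 35968744452) (nat_lit 152) (nat_lit 46883040072) (nat_lit 76) (nat_lit 78089536521) (nat_lit 15) (nat_lit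 5) (nat_lit 17) (nat_lit 5) (nat_lit 16) (nat_lit 4) (nat_lit 398) (nat_lit 331) (nat_lit 171)) (XT.nd (nat_lit 78) (nat_lit 0) (nat_lit 0) (XT.lf (nat_lit 0) (nat_lit 4820592164) (nat_lit 76) (nat_lit 56370577425) (nat_lit 152) (nat_lit 106327771060) (nat_lit 14) (nat_lit 5) (nat_lit 15) (nat_lit 5) (nat_lit 16) (nat_lit 4) (nat_lit 399) (nat_lit 331) (nat_lit 170)) (XT.lf (nat_lit 0) (nat_lit 60734977378) (nat_lit 76) (nat_lit 27732588853) (nat_lit 152) (nat_lit 85918232905) (nat_lit 14) (nat_lit 5) (nat_lit 15) (nat_lit 5) (nat_lit 16) (nat_lit 4) (nat_lit 400) (nat_lit 331) (nat_lit 169))))) (XT.nd (nat_lit 234) (nat_lit 152) (nat_lit 0) (XT.nd (nat_lit 78) (nat_lit 76) (nat_lit 0) (XT.lf (nat_lit 0) (nat_lit 117143177550) (nat_lit 152) (nat_lit 62189452486) (nat_lit 0) (nat_lit 2261601162) (nat_lit 14) (nat_lit 5) (nat_lit 16) (nat_lit 4) (nat_lit 14) (nat_lit 4) (nat_lit 401) (nat_lit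 331) (nat_lit 168)) (XT.nd (nat_lit 78) (nat_lit 76) (nat_lit 0) (XT.lf (nat_lit 0) (nat_lit 147706157330) (nat_lit 152) (nat_lit 8611592118) (nat_lit 0) (nat_lit 32822656396) (nat_lit 14) (nat_lit 5) (nat_lit 16) (nat_lit 4) (nat_lit 14) (nat_lit 4) (nat_lit 402) (nat_lit 331) (nat_lit 167)) (XT.lf (nat_lit 0) (nat_lit 49218612075) (nat_lit 76) (nat_lit 131346119532) (nat_lit 76) (nat_lit 16460785698) (nat_lit 13) (nat_lit 4) (nat_lit 14) (nat_lit 5) (nat_lit 14) (nat_lit 4) (nat_lit 403) (nat_lit 331) (nat_lit 166)))) (XT.nd (nat_lit 78) (nat_lit 76) (nat_lit 0) (XT.lf (nat_lit 0) (nat_lit 9596166049) (nat_lit 152) (nat_lit 95214939051) (nat_lit 76) (nat_lit 100478797464) (nat_lit 12) (nat_lit 5) (nat_lit 14) (nat_lit 5) (nat_lit 13) (nat_lit 4) (nat_lit 404) (nat_lit 331) (nat_lit 165)) (XT.nd (nat_lit 78) (nat_lit 76) (nat_lit 0) (XT.lf (nat_lit 0) (nat_lit 36401829938) (nat_lit 152)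 (nat_lit 40264990573) (nat_lit 76) (nat_lit 137287241691) (nat_lit 12) (nat_lit 5) (nat_lit 14) (nat_lit 5) (nat_lit 13) (nat_lit 4) (nat_lit 405) (nat_lit 331) (nat_lit 164)) (XT.lf (nat_lit 0) (nat_lit 18007112465) (nat_lit 76) (nat_lit 46820905944) (nat_lit 152) (nat_lit 158209399638) (nat_lit 11) (nat_lit 5) (nat_lit 12) (nat_lit 5) (nat_lit 13) (nat_lit 4) (nat_lit 406) (nat_lit 331) (nat_lit 163)))))) (XT.nd (nat_lit 468) (nat_lit 152) (nat_lit 0) (XT.nd (nat_lit 234) (nat_lit 76) (nat_lit 0) (XT.nd (nat_lit 78) (nat_lit 0) (nat_lit 0) (XT.lf (nat_lit 0) (nat_lit 80589074432) (nat_lit 76) (nat_lit 14767465879) (nat_lit 152) (nat_lit 137184350453) (nat_lit 11) (nat_lit 5) (nat_lit 12) (nat_lit 5) (nat_lit 13) (nat_lit 4) (nat_lit 407) (nat_lit 331) (nat_lit 162)) (XT.nd (nat_lit 78) (nat_lit 0) (nat_lit 0) (XT.lf (nat_lit 0) (nat_lit 127705540482) (nat_lit 152) (nat_lit 96515915080)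 (nat_lit 0) (nat_lit 18283379213) (nat_lit 11) (nat_lit 5) (nat_lit 13) (nat_lit 4) (nat_lit 11) (nat_lit 4) (nat_lit 408) (nat_lit 331) (nat_lit 161)) (XT.lf (nat_lit 0) (nat_lit 161913268333) (nat_lit 152) (nat_lit 38551839568) (nat_lit 0) (nat_lit 52489804456) (nat_lit 11) (nat_lit 5) (nat_lit 13) (nat_lit 4) (nat_lit 11) (nat_lit 4) (nat_lit 409) (nat_lit 331) (nat_lit 160)))) (XT.nd (nat_lit 78) (nat_lit 0) (nat_lit 0) (XT.lf (nat_lit 0) (nat_lit 23046617111) (nat_lit 76) (nat_lit 175143814477) (nat_lit 76) (nat_lit 65719110021) (nat_lit 10) (nat_lit 4) (nat_lit 11) (nat_lit 5) (nat_lit 11) (nat_lit 4) (nat_lit 410) (nat_lit 331) (nat_lit 159)) (XT.nd (nat_lit 78) (nat_lit 0) (nat_lit 0) (XT.lf (nat_lit 0) (nat_lit 89061994679) (nat_lit 76) (nat_lit 147871593537) (nat_lit 76) (nat_lit 38445707577) (nat_lit 10) (nat_lit 4) (nat_lit 11) (nat_lit 5) (nat_lit 11) (nat_lit 4) (nat_lit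 411) (nat_lit 331) (nat_lit 158)) (XT.lf (nat_lit 0) (nat_lit 158376774684) (nat_lit 76) (nat_lit 119236405280) (nat_lit 76) (nat_lit 9809394079) (nat_lit 10) (nat_lit 4) (nat_lit 11) (nat_lit 5) (nat_lit 11) (nat_lit 4) (nat_lit 412) (nat_lit 331) (nat_lit 157))))) (XT.nd (nat_lit 234) (nat_lit 0) (nat_lit 0) (XT.nd (nat_lit 78) (nat_lit 76) (nat_lit 0) (XT.lf (nat_lit 0) (nat_lit 19609629270) (nat_lit 152) (nat_lit 69228342855) (nat_lit 76) (nat_lit 211214264485) (nat_lit 9) (nat_lit 5) (nat_lit 11) (nat_lit 5) (nat_lit 10) (nat_lit 4) (nat_lit 413) (nat_lit 331) (nat_lit 156)) (XT.nd (nat_lit 78) (nat_lit 76) (nat_lit 0) (XT.lf (nat_lit 0) (nat_lit 50169277362) (nat_lit 152) (nat_lit 6582084894) (nat_lit 76) (nat_lit 256554013077) (nat_lit 9) (nat_lit 5) (nat_lit 11) (nat_lit 5) (nat_lit 10) (nat_lit 4) (nat_lit 414) (nat_lit 331) (nat_lit 155)) (XT.lf (nat_lit 0) (nat_lit 61152547851)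 (nat_lit 76) (nat_lit 22058487936) (nat_lit 152) (nat_lit 243962428988) (nat_lit 8) (nat_lit 5) (nat_lit 9) (nat_lit 5) (nat_lit 10) (nat_lit 4) (nat_lit 415) (nat_lit 331) (nat_lit 154)))) (XT.nd (nat_lit 78) (nat_lit 0) (nat_lit 0) (XT.lf (nat_lit 0) (nat_lit 118241889458) (nat_lit 152) (nat_lit 209454330771) (nat_lit 0) (nat_lit 14021888266) (nat_lit 8) (nat_lit 5) (nat_lit 10) (nat_lit 4) (nat_lit 8) (nat_lit 4) (nat_lit 416) (nat_lit 331) (nat_lit 153)) (XT.nd (nat_lit 78) (nat_lit 0) (nat_lit 0) (XT.lf (nat_lit 0) (nat_lit 155385298763) (nat_lit 152) (nat_lit 150422177256) (nat_lit 0) (nat_lit 51164457898) (nat_lit 8) (nat_lit 5) (nat_lit 10) (nat_lit 4) (nat_lit 8) (nat_lit 4) (nat_lit 417) (nat_lit 331) (nat_lit 152)) (XT.lf (nat_lit 0) (nat_lit 194385305575) (nat_lit 152) (nat_lit 88439508819) (nat_lit 0) (nat_lit 90163665021) (nat_lit 8) (nat_lit 5) (nat_lit 10) (nat_lit 4) (nat_lit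 8) (nat_lit 4) (nat_lit 418) (nat_lit 331) (nat_lit 151))))))) (XT.nd (nat_lit 40092) (nat_lit 0) (nat_lit 6612) (XT.nd (nat_lit 390) (nat_lit 152) (nat_lit 0) (XT.nd (nat_lit 156) (nat_lit 0) (nat_lit 0) (XT.nd (nat_lit 78) (nat_lit 76) (nat_lit 0) (XT.lf (nat_lit 0) (nat_lit 235334767053) (nat_lit 152) (nat_lit 23358747676) (nat_lit 0) (nat_lit 131112364891) (nat_lit 8) (nat_lit 5) (nat_lit 10) (nat_lit 4) (nat_lit 8) (nat_lit 4) (nat_lit 419) (nat_lit 331) (nat_lit 150)) (XT.lf (nat_lit 0) (nat_lit 46462138973) (nat_lit 76) (nat_lit 232594447140) (nat_lit 76) (nat_lit 128371319637) (nat_lit 7) (nat_lit 4) (nat_lit 8) (nat_lit 5) (nat_lit 8) (nat_lit 4) (nat_lit 420) (nat_lit 331) (nat_lit 149))) (XT.nd (nat_lit 78) (nat_lit 0) (nat_lit 0) (XT.lf (nat_lit 0) (nat_lit 120584057757) (nat_lit 76) (nat_lit 204775519896) (nat_lit 76) (nat_lit 100551701593) (nat_lit 7) (nat_lit 4) (nat_lit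 8) (nat_lit 5) (nat_lit 8) (nat_lit 4) (nat_lit 421) (nat_lit 331) (nat_lit 148)) (XT.nd (nat_lit 78) (nat_lit 0) (nat_lit 0) (XT.lf (nat_lit 0) (nat_lit 198411143745) (nat_lit 76) (nat_lit 175566089152) (nat_lit 76) (nat_lit 71341612943) (nat_lit 7) (nat_lit 4) (nat_lit 8) (nat_lit 5) (nat_lit 8) (nat_lit 4) (nat_lit 422) (nat_lit 331) (nat_lit 147)) (XT.lf (nat_lit 0) (nat_lit 280128699521) (nat_lit 76) (nat_lit 144896608642) (nat_lit 76) (nat_lit 40671505857) (nat_lit 7) (nat_lit 4) (nat_lit 8) (nat_lit 5) (nat_lit 8) (nat_lit 4) (nat_lit 423) (nat_lit 331) (nat_lit 146))))) (XT.nd (nat_lit 234) (nat_lit 0) (nat_lit 0) (XT.nd (nat_lit 78) (nat_lit 152) (nat_lit 0) (XT.lf (nat_lit 0) (nat_lit 365931290696) (nat_lit 76) (nat_lit 112694055796) (nat_lit 76) (nat_lit 8468356271) (nat_lit 7) (nat_lit 4) (nat_lit 8) (nat_lit 5) (nat_lit 8) (nat_lit 4) (nat_lit 424) (nat_lit 331) (nat_lit 145))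 (XT.nd (nat_lit 78) (nat_lit 76) (nat_lit 0) (XT.lf (nat_lit 0) (nat_lit 24533327382) (nat_lit 152) (nat_lit 53932946714) (nat_lit 76) (nat_lit 431074398001) (nat_lit 6) (nat_lit 5) (nat_lit 8) (nat_lit 5) (nat_lit 7) (nat_lit 4) (nat_lit 425) (nat_lit 331) (nat_lit 144)) (XT.lf (nat_lit 0) (nat_lit 17064561314) (nat_lit 76) (nat_lit 42101960843) (nat_lit 152) (nat_lit 473923225604) (nat_lit 5) (nat_lit 5) (nat_lit 6) (nat_lit 5) (nat_lit 7) (nat_lit 4) (nat_lit 426) (nat_lit 331) (nat_lit 143)))) (XT.nd (nat_lit 78) (nat_lit 0) (nat_lit 0) (XT.lf (nat_lit 0) (nat_lit 93483609802) (nat_lit 76) (nat_lit 2960748440) (nat_lit 152) (nat_lit 461326269983) (nat_lit 5) (nat_lit 5) (nat_lit 6) (nat_lit 5) (nat_lit 7) (nat_lit 4) (nat_lit 427) (nat_lit 331) (nat_lit 142)) (XT.nd (nat_lit 78) (nat_lit 0) (nat_lit 0) (XT.lf (nat_lit 0) (nat_lit 136181134347) (nat_lit 152) (nat_lit 410558117921) (nat_lit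 0) (nat_lit 36916548124) (nat_lit 5) (nat_lit 5) (nat_lit 7) (nat_lit 4) (nat_lit 5) (nat_lit 4) (nat_lit 428) (nat_lit 331) (nat_lit 141)) (XT.lf (nat_lit 0) (nat_lit 177952919048) (nat_lit 152) (nat_lit 354192016190) (nat_lit 0) (nat_lit 78687887529) (nat_lit 5) (nat_lit 5) (nat_lit 7) (nat_lit 4) (nat_lit 5) (nat_lit 4) (nat_lit 429) (nat_lit 331) (nat_lit 140)))))) (XT.nd (nat_lit 468) (nat_lit 608) (nat_lit 0) (XT.nd (nat_lit 234) (nat_lit 0) (nat_lit 0) (XT.nd (nat_lit 78) (nat_lit 0) (nat_lit 0) (XT.lf (nat_lit 0) (nat_lit 4217261615) (nat_lit 0) (nat_lit 4217261615) (nat_lit 684) (nat_lit 1347255241) (nat_lit 100) (nat_lit 5) (nat_lit 100) (nat_lit 3) (nat_lit 109) (nat_lit 3) (nat_lit 332) (nat_lit 332) (nat_lit 236)) (XT.nd (nat_lit 78) (nat_lit 0) (nat_lit 0) (XT.lf (nat_lit 0) (nat_lit 17462399352) (nat_lit 684) (nat_lit 2059781885) (nat_lit 760) (nat_lit 521632252) (nat_lit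 100) (nat_lit 5) (nat_lit 109) (nat_lit 3) (nat_lit 110) (nat_lit 5) (nat_lit 333) (nat_lit 332) (nat_lit 235)) (XT.lf (nat_lit 76) (nat_lit 7560810973) (nat_lit 0) (nat_lit 10770559105) (nat_lit 760) (nat_lit 2204431345) (nat_lit 101) (nat_lit 5) (nat_lit 100) (nat_lit 5) (nat_lit 110) (nat_lit 5) (nat_lit 334) (nat_lit 332) (nat_lit 234)))) (XT.nd (nat_lit 78) (nat_lit 0) (nat_lit 76) (XT.lf (nat_lit 76) (nat_lit 17728194848) (nat_lit 0) (nat_lit 1540515622) (nat_lit 760) (nat_lit 1782447531) (nat_lit 101) (nat_lit 5) (nat_lit 100) (nat_lit 5) (nat_lit 110) (nat_lit 5) (nat_lit 335) (nat_lit 332) (nat_lit 233)) (XT.nd (nat_lit 78) (nat_lit 0) (nat_lit 0) (XT.lf (nat_lit 76) (nat_lit 6899194989) (nat_lit 0) (nat_lit 13579273843) (nat_lit 760) (nat_lit 1102550604) (nat_lit 102) (nat_lit 5) (nat_lit 101) (nat_lit 5) (nat_lit 111) (nat_lit 5) (nat_lit 336) (nat_lit 332) (nat_lit 232)) (XT.lf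 (nat_lit 76) (nat_lit 17715807235) (nat_lit 0) (nat_lit 4104961887) (nat_lit 760) (nat_lit 313016003) (nat_lit 102) (nat_lit 5) (nat_lit 101) (nat_lit 5) (nat_lit 111) (nat_lit 5) (nat_lit 337) (nat_lit 332) (nat_lit 231))))) (XT.nd (nat_lit 234) (nat_lit 0) (nat_lit 76) (XT.nd (nat_lit 78) (nat_lit 0) (nat_lit 0) (XT.lf (nat_lit 0) (nat_lit 686109036) (nat_lit 760) (nat_lit 16247352324) (nat_lit 836) (nat_lit 5771006084) (nat_lit 92) (nat_lit 5) (nat_lit 102) (nat_lit 5) (nat_lit 103) (nat_lit 5) (nat_lit 338) (nat_lit 332) (nat_lit 230)) (XT.nd (nat_lit 78) (nat_lit 0) (nat_lit 76) (XT.lf (nat_lit 0) (nat_lit 1859588983) (nat_lit 760) (nat_lit 5350581335) (nat_lit 836) (nat_lit 16086523078) (nat_lit 92) (nat_lit 5) (nat_lit 102) (nat_lit 5) (nat_lit 103) (nat_lit 5) (nat_lit 339) (nat_lit 332) (nat_lit 229)) (XT.lf (nat_lit 0) (nat_lit 3230332918) (nat_lit 760) (nat_lit 17676307070)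 (nat_lit 836) (nat_lit 3004972581) (nat_lit 93) (nat_lit 5) (nat_lit 103) (nat_lit 5) (nat_lit 104) (nat_lit 5) (nat_lit 340) (nat_lit 332) (nat_lit 228)))) (XT.nd (nat_lit 78) (nat_lit 0) (nat_lit 0) (XT.lf (nat_lit 0) (nat_lit 4872208799) (nat_lit 760) (nat_lit 6092543152) (nat_lit 836) (nat_lit 13582406886) (nat_lit 93) (nat_lit 5) (nat_lit 103) (nat_lit 5) (nat_lit 104) (nat_lit 5) (nat_lit 341) (nat_lit 332) (nat_lit 227)) (XT.nd (nat_lit 78) (nat_lit 0) (nat_lit 76) (XT.lf (nat_lit 76) (nat_lit 6264868679) (nat_lit 0) (nat_lit 421783921) (nat_lit 836) (nat_lit 18523316473) (nat_lit 94) (nat_lit 5) (nat_lit 93) (nat_lit 5) (nat_lit 104) (nat_lit 5) (nat_lit 342) (nat_lit 332) (nat_lit 226)) (XT.lf (nat_lit 0) (nat_lit 8855876482) (nat_lit 760) (nat_lit 6623371196) (nat_lit 76) (nat_lit 10413479112) (nat_lit 94) (nat_lit 5) (nat_lit 104) (nat_lit 5) (nat_lit 95) (nat_lit 5) (nat_lit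 343) (nat_lit 332) (nat_lit 225))))))))
noncomputable def xc182 : XT := (XT.nd (nat_lit 1794) (nat_lit 1748) (nat_lit 0) (XT.nd (nat_lit 858) (nat_lit 1520) (nat_lit 0) (XT.nd (nat_lit 390) (nat_lit 988) (nat_lit 0) (XT.nd (nat_lit 156) (nat_lit 684) (nat_lit 0) (XT.nd (nat_lit 78) (nat_lit 0) (nat_lit 0) (XT.lf (nat_lit 0) (nat_lit 6509848603) (nat_lit 684) (nat_lit 4725536744) (nat_lit 760) (nat_lit 15369155253) (nat_lit 85) (nat_lit 5) (nat_lit 94) (nat_lit 5) (nat_lit 95) (nat_lit 5) (nat_lit 344) (nat_lit 332) (nat_lit 224)) (XT.lf (nat_lit 0) (nat_lit 13943898670) (nat_lit 760) (nat_lit 6927291542) (nat_lit 76) (nat_lit 6470262386) (nat_lit 85) (nat_lit 5) (nat_lit 95) (nat_lit 5) (nat_lit 86) (nat_lit 5) (nat_lit 345) (nat_lit 332) (nat_lit 223))) (XT.nd (nat_lit 78) (nat_lit 304) (nat_lit 0) (XT.lf (nat_lit 0) (nat_lit 7040363381) (nat_lit 380) (nat_lit 9928679699) (nat_lit 456)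 (nat_lit 11137115367) (nat_lit 80) (nat_lit 5) (nat_lit 85) (nat_lit 5) (nat_lit 86) (nat_lit 5) (nat_lit 346) (nat_lit 332) (nat_lit 222)) (XT.nd (nat_lit 78) (nat_lit 304) (nat_lit 0) (XT.lf (nat_lit 0) (nat_lit 20283077614) (nat_lit 456) (nat_lit 6988822280) (nat_lit 76) (nat_lit 1630326165) (nat_lit 80) (nat_lit 5) (nat_lit 86) (nat_lit 5) (nat_lit 81) (nat_lit 5) (nat_lit 347) (nat_lit 332) (nat_lit 221)) (XT.lf (nat_lit 0) (nat_lit 7875395374) (nat_lit 304) (nat_lit 16167447147) (nat_lit 380) (nat_lit 5681260829) (nat_lit 76) (nat_lit 5) (nat_lit 80) (nat_lit 5) (nat_lit 81) (nat_lit 5) (nat_lit 348) (nat_lit 332) (nat_lit 220))))) (XT.nd (nat_lit 234) (nat_lit 608) (nat_lit 0) (XT.nd (nat_lit 78) (nat_lit 380) (nat_lit 0) (XT.lf (nat_lit 0) (nat_lit 23719654844) (nat_lit 304) (nat_lit 4383786818) (nat_lit 380) (nat_lit 2477997905) (nat_lit 76) (nat_lit 5) (nat_lit 80) (nat_lit 5)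 (nat_lit 81) (nat_lit 5) (nat_lit 349) (nat_lit 332) (nat_lit 219)) (XT.nd (nat_lit 78) (nat_lit 0) (nat_lit 0) (XT.lf (nat_lit 0) (nat_lit 1121861021) (nat_lit 380) (nat_lit 22453644775) (nat_lit 76) (nat_lit 7892213671) (nat_lit 71) (nat_lit 5) (nat_lit 76) (nat_lit 5) (nat_lit 72) (nat_lit 5) (nat_lit 350) (nat_lit 332) (nat_lit 218)) (XT.lf (nat_lit 0) (nat_lit 5003230315) (nat_lit 380) (nat_lit 6590821804) (nat_lit 76) (nat_lit 20792996738) (nat_lit 71) (nat_lit 5) (nat_lit 76) (nat_lit 5) (nat_lit 72) (nat_lit 5) (nat_lit 351) (nat_lit 332) (nat_lit 217)))) (XT.nd (nat_lit 78) (nat_lit 304) (nat_lit 0) (XT.lf (nat_lit 0) (nat_lit 9254033123) (nat_lit 380) (nat_lit 22970378297) (nat_lit 76) (nat_lit 1119171099) (nat_lit 67) (nat_lit 5) (nat_lit 72) (nat_lit 5) (nat_lit 68) (nat_lit 5) (nat_lit 352) (nat_lit 332) (nat_lit 216)) (XT.nd (nat_lit 78) (nat_lit 304) (nat_lit 0) (XT.lf (nat_lit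 0) (nat_lit 14016092109) (nat_lit 380) (nat_lit 6125750122) (nat_lit 76) (nat_lit 14191170601) (nat_lit 67) (nat_lit 5) (nat_lit 72) (nat_lit 5) (nat_lit 68) (nat_lit 5) (nat_lit 353) (nat_lit 332) (nat_lit 215)) (XT.lf (nat_lit 0) (nat_lit 11937722611) (nat_lit 304) (nat_lit 7260342298) (nat_lit 380) (nat_lit 16164764700) (nat_lit 63) (nat_lit 5) (nat_lit 67) (nat_lit 5) (nat_lit 68) (nat_lit 5) (nat_lit 354) (nat_lit 332) (nat_lit 214)))))) (XT.nd (nat_lit 468) (nat_lit 684) (nat_lit 0) (XT.nd (nat_lit 234) (nat_lit 608) (nat_lit 0) (XT.nd (nat_lit 78) (nat_lit 228) (nat_lit 0) (XT.lf (nat_lit 0) (nat_lit 24837945896) (nat_lit 380) (nat_lit 5427020108) (nat_lit 76) (nat_lit 6169235977) (nat_lit 63) (nat_lit 5) (nat_lit 68) (nat_lit 5) (nat_lit 64) (nat_lit 5) (nat_lit 355) (nat_lit 332) (nat_lit 213)) (XT.nd (nat_lit 78) (nat_lit 0) (nat_lit 0) (XT.lf (nat_lit 0) (nat_lit 13787922396)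 (nat_lit 228) (nat_lit 17301949093) (nat_lit 304) (nat_lit 6452773936) (nat_lit 60) (nat_lit 5) (nat_lit 63) (nat_lit 5) (nat_lit 64) (nat_lit 5) (nat_lit 356) (nat_lit 332) (nat_lit 212)) (XT.lf (nat_lit 0) (nat_lit 34146785472) (nat_lit 228) (nat_lit 3595397612) (nat_lit 304) (nat_lit 959943218) (nat_lit 60) (nat_lit 5) (nat_lit 63) (nat_lit 5) (nat_lit 64) (nat_lit 5) (nat_lit 357) (nat_lit 332) (nat_lit 211)))) (XT.nd (nat_lit 78) (nat_lit 228) (nat_lit 0) (XT.lf (nat_lit 0) (nat_lit 5073931075) (nat_lit 380) (nat_lit 24040281686) (nat_lit 76) (nat_lit 10780606165) (nat_lit 55) (nat_lit 5) (nat_lit 60) (nat_lit 5) (nat_lit 56) (nat_lit 5) (nat_lit 358) (nat_lit 332) (nat_lit 210)) (XT.nd (nat_lit 78) (nat_lit 228) (nat_lit 0) (XT.lf (nat_lit 0) (nat_lit 11510692396) (nat_lit 380) (nat_lit 3781395356) (nat_lit 76) (nat_lit 25847603006) (nat_lit 55) (nat_lit 5) (nat_lit 60) (nat_lit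 5) (nat_lit 56) (nat_lit 5) (nat_lit 359) (nat_lit 332) (nat_lit 209)) (XT.lf (nat_lit 0) (nat_lit 18063607877) (nat_lit 228) (nat_lit 483994259) (nat_lit 304) (nat_lit 23885292431) (nat_lit 52) (nat_lit 5) (nat_lit 55) (nat_lit 5) (nat_lit 56) (nat_lit 5) (nat_lit 360) (nat_lit 332) (nat_lit 208))))) (XT.nd (nat_lit 234) (nat_lit 456) (nat_lit 0) (XT.nd (nat_lit 78) (nat_lit 228) (nat_lit 0) (XT.lf (nat_lit 0) (nat_lit 26233013253) (nat_lit 304) (nat_lit 2896722511) (nat_lit 76) (nat_lit 14646193727) (nat_lit 52) (nat_lit 5) (nat_lit 56) (nat_lit 5) (nat_lit 53) (nat_lit 5) (nat_lit 361) (nat_lit 332) (nat_lit 207)) (XT.nd (nat_lit 78) (nat_lit 0) (nat_lit 0) (XT.lf (nat_lit 0) (nat_lit 20285995267) (nat_lit 228) (nat_lit 14337895392) (nat_lit 304) (nat_lit 10546169256) (nat_lit 49) (nat_lit 5) (nat_lit 52) (nat_lit 5) (nat_lit 53) (nat_lit 5) (nat_lit 362) (nat_lit 332) (nat_lit 206))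 (XT.lf (nat_lit 0) (nat_lit 43499417487) (nat_lit 304) (nat_lit 1927357567) (nat_lit 76) (nat_lit 1203869901) (nat_lit 49) (nat_lit 5) (nat_lit 53) (nat_lit 5) (nat_lit 50) (nat_lit 5) (nat_lit 363) (nat_lit 332) (nat_lit 205)))) (XT.nd (nat_lit 78) (nat_lit 228) (nat_lit 0) (XT.lf (nat_lit 0) (nat_lit 5100735962) (nat_lit 228) (nat_lit 25554419006) (nat_lit 76) (nat_lit 17475711560) (nat_lit 46) (nat_lit 5) (nat_lit 49) (nat_lit 5) (nat_lit 47) (nat_lit 5) (nat_lit 364) (nat_lit 332) (nat_lit 204)) (XT.nd (nat_lit 78) (nat_lit 228) (nat_lit 0) (XT.lf (nat_lit 0) (nat_lit 13669042202) (nat_lit 228) (nat_lit 1388669664) (nat_lit 76) (nat_lit 34644324926) (nat_lit 46) (nat_lit 5) (nat_lit 49) (nat_lit 5) (nat_lit 47) (nat_lit 5) (nat_lit 365) (nat_lit 332) (nat_lit 203)) (XT.lf (nat_lit 0) (nat_lit 23076424811) (nat_lit 304) (nat_lit 26585687511) (nat_lit 76) (nat_lit 1669122969) (nat_lit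 43) (nat_lit 5) (nat_lit 47) (nat_lit 5) (nat_lit 44) (nat_lit 5) (nat_lit 366) (nat_lit 332) (nat_lit 202))))))) (XT.nd (nat_lit 858) (nat_lit 836) (nat_lit 0) (XT.nd (nat_lit 390) (nat_lit 532) (nat_lit 0) (XT.nd (nat_lit 156) (nat_lit 228) (nat_lit 0) (XT.nd (nat_lit 78) (nat_lit 152) (nat_lit 0) (XT.lf (nat_lit 0) (nat_lit 33221932957) (nat_lit 304) (nat_lit 1057789237) (nat_lit 76) (nat_lit 18748786343) (nat_lit 43) (nat_lit 5) (nat_lit 47) (nat_lit 5) (nat_lit 44) (nat_lit 5) (nat_lit 367) (nat_lit 332) (nat_lit 201)) (XT.lf (nat_lit 0) (nat_lit 26593346930) (nat_lit 152) (nat_lit 17693714198) (nat_lit 228) (nat_lit 10502969603) (nat_lit 41) (nat_lit 5) (nat_lit 43) (nat_lit 5) (nat_lit 44) (nat_lit 5) (nat_lit 368) (nat_lit 332) (nat_lit 200))) (XT.nd (nat_lit 78) (nat_lit 228) (nat_lit 0) (XT.lf (nat_lit 0) (nat_lit 55659523279) (nat_lit 152) (nat_lit 261054149) (nat_lit 228) (nat_lit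 718297417) (nat_lit 41) (nat_lit 5) (nat_lit 43) (nat_lit 5) (nat_lit 44) (nat_lit 5) (nat_lit 369) (nat_lit 332) (nat_lit 199)) (XT.nd (nat_lit 78) (nat_lit 0) (nat_lit 0) (XT.lf (nat_lit 0) (nat_lit 9981129170) (nat_lit 228) (nat_lit 30489090397) (nat_lit 76) (nat_lit 18065916284) (nat_lit 38) (nat_lit 5) (nat_lit 41) (nat_lit 5) (nat_lit 39) (nat_lit 5) (nat_lit 370) (nat_lit 332) (nat_lit 198)) (XT.lf (nat_lit 0) (nat_lit 21209871797) (nat_lit 228) (nat_lit 1989168926) (nat_lit 76) (nat_lit 37327708276) (nat_lit 38) (nat_lit 5) (nat_lit 41) (nat_lit 5) (nat_lit 39) (nat_lit 5) (nat_lit 371) (nat_lit 332) (nat_lit 197))))) (XT.nd (nat_lit 234) (nat_lit 228) (nat_lit 0) (XT.nd (nat_lit 78) (nat_lit 152) (nat_lit 0) (XT.lf (nat_lit 0) (nat_lit 28855323293) (nat_lit 152) (nat_lit 4592714006) (nat_lit 228) (nat_lit 29146458189) (nat_lit 36) (nat_lit 5) (nat_lit 38) (nat_lit 5) (nat_lit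 39) (nat_lit 5) (nat_lit 372) (nat_lit 332) (nat_lit 196)) (XT.nd (nat_lit 78) (nat_lit 152) (nat_lit 0) (XT.lf (nat_lit 0) (nat_lit 46563177462) (nat_lit 228) (nat_lit 3690728666) (nat_lit 76) (nat_lit 14498471733) (nat_lit 36) (nat_lit 5) (nat_lit 39) (nat_lit 5) (nat_lit 37) (nat_lit 5) (nat_lit 373) (nat_lit 332) (nat_lit 195)) (XT.lf (nat_lit 0) (nat_lit 28699589454) (nat_lit 152) (nat_lit 32155485145) (nat_lit 228) (nat_lit 6137031544) (nat_lit 34) (nat_lit 5) (nat_lit 36) (nat_lit 5) (nat_lit 37) (nat_lit 5) (nat_lit 374) (nat_lit 332) (nat_lit 194)))) (XT.nd (nat_lit 78) (nat_lit 152) (nat_lit 0) (XT.lf (nat_lit 0) (nat_lit 6370309232) (nat_lit 228) (nat_lit 6609764488) (nat_lit 76) (nat_lit 56355602125) (nat_lit 33) (nat_lit 5) (nat_lit 36) (nat_lit 5) (nat_lit 34) (nat_lit 5) (nat_lit 375) (nat_lit 332) (nat_lit 193)) (XT.nd (nat_lit 78) (nat_lit 0) (nat_lit 0) (XT.lf (nat_lit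 0) (nat_lit 19843143582) (nat_lit 228) (nat_lit 44459620159) (nat_lit 76) (nat_lit 7461312930) (nat_lit 31) (nat_lit 5) (nat_lit 34) (nat_lit 5) (nat_lit 32) (nat_lit 5) (nat_lit 376) (nat_lit 332) (nat_lit 192)) (XT.lf (nat_lit 0) (nat_lit 34313966475) (nat_lit 228) (nat_lit 11382747552) (nat_lit 76) (nat_lit 28600967642) (nat_lit 31) (nat_lit 5) (nat_lit 34) (nat_lit 5) (nat_lit 32) (nat_lit 5) (nat_lit 377) (nat_lit 332) (nat_lit 191)))))) (XT.nd (nat_lit 468) (nat_lit 380) (nat_lit 0) (XT.nd (nat_lit 234) (nat_lit 152) (nat_lit 0) (XT.nd (nat_lit 78) (nat_lit 152) (nat_lit 0) (XT.lf (nat_lit 0) (nat_lit 24116328980) (nat_lit 152) (nat_lit 25766414630) (nat_lit 228) (nat_lit 27056504053) (nat_lit 29) (nat_lit 5) (nat_lit 31) (nat_lit 5) (nat_lit 32) (nat_lit 5) (nat_lit 378) (nat_lit 332) (nat_lit 190)) (XT.nd (nat_lit 78) (nat_lit 152) (nat_lit 0) (XT.lf (nat_lit 0) (nat_lit 61782086449)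 (nat_lit 152) (nat_lit 4638581642) (nat_lit 228) (nat_lit 13282689776) (nat_lit 29) (nat_lit 5) (nat_lit 31) (nat_lit 5) (nat_lit 32) (nat_lit 5) (nat_lit 379) (nat_lit 332) (nat_lit 189)) (XT.lf (nat_lit 0) (nat_lit 1720889822) (nat_lit 152) (nat_lit 63546825790) (nat_lit 76) (nat_lit 17308096366) (nat_lit 27) (nat_lit 5) (nat_lit 29) (nat_lit 5) (nat_lit 28) (nat_lit 5) (nat_lit 380) (nat_lit 332) (nat_lit 188)))) (XT.nd (nat_lit 78) (nat_lit 152) (nat_lit 0) (XT.lf (nat_lit 0) (nat_lit 17410809653) (nat_lit 152) (nat_lit 27429920196) (nat_lit 76) (nat_lit 40721145310) (nat_lit 27) (nat_lit 5) (nat_lit 29) (nat_lit 5) (nat_lit 28) (nat_lit 5) (nat_lit 381) (nat_lit 332) (nat_lit 187)) (XT.nd (nat_lit 78) (nat_lit 0) (nat_lit 0) (XT.lf (nat_lit 0) (nat_lit 10836443012) (nat_lit 152) (nat_lit 23216087333) (nat_lit 228) (nat_lit 54636347011) (nat_lit 25) (nat_lit 5) (nat_lit 27) (nat_lit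 5) (nat_lit 28) (nat_lit 5) (nat_lit 382) (nat_lit 332) (nat_lit 186)) (XT.lf (nat_lit 0) (nat_lit 51965259716) (nat_lit 152) (nat_lit 23774101) (nat_lit 228) (nat_lit 39960062052) (nat_lit 25) (nat_lit 5) (nat_lit 27) (nat_lit 5) (nat_lit 28) (nat_lit 5) (nat_lit 383) (nat_lit 332) (nat_lit 185))))) (XT.nd (nat_lit 234) (nat_lit 228) (nat_lit 0) (XT.nd (nat_lit 78) (nat_lit 152) (nat_lit 0) (XT.lf (nat_lit 0) (nat_lit 71200418903) (nat_lit 228) (nat_lit 604726339) (nat_lit 76) (nat_lit 23548278240) (nat_lit 25) (nat_lit 5) (nat_lit 28) (nat_lit 5) (nat_lit 26) (nat_lit 4) (nat_lit 384) (nat_lit 332) (nat_lit 184)) (XT.nd (nat_lit 78) (nat_lit 76) (nat_lit 0) (XT.lf (nat_lit 0) (nat_lit 42087057319) (nat_lit 76) (nat_lit 49941112827) (nat_lit 152) (nat_lit 6867008433) (nat_lit 24) (nat_lit 5) (nat_lit 25) (nat_lit 5) (nat_lit 26) (nat_lit 4) (nat_lit 385) (nat_lit 332) (nat_lit 183)) (XT.lf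 (nat_lit 0) (nat_lit 10930878627) (nat_lit 152) (nat_lit 15858365743) (nat_lit 76) (nat_lit 75815533397) (nat_lit 23) (nat_lit 5) (nat_lit 25) (nat_lit 5) (nat_lit 24) (nat_lit 5) (nat_lit 386) (nat_lit 332) (nat_lit 182)))) (XT.nd (nat_lit 78) (nat_lit 76) (nat_lit 0) (XT.lf (nat_lit 0) (nat_lit 27917013228) (nat_lit 152) (nat_lit 1905130778) (nat_lit 228) (nat_lit 76650372007) (nat_lit 21) (nat_lit 5) (nat_lit 23) (nat_lit 5) (nat_lit 24) (nat_lit 5) (nat_lit 387) (nat_lit 332) (nat_lit 181)) (XT.nd (nat_lit 78) (nat_lit 76) (nat_lit 0) (XT.lf (nat_lit 0) (nat_lit 50307548544) (nat_lit 228) (nat_lit 36473904009) (nat_lit 76) (nat_lit 23719710603) (nat_lit 21) (nat_lit 5) (nat_lit 24) (nat_lit 5) (nat_lit 22) (nat_lit 4) (nat_lit 388) (nat_lit 332) (nat_lit 180)) (XT.lf (nat_lit 0) (nat_lit 7931717588) (nat_lit 76) (nat_lit 64039061487) (nat_lit 152) (nat_lit 42752786537) (nat_lit 20)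 (nat_lit 5) (nat_lit 21) (nat_lit 5) (nat_lit 22) (nat_lit 4) (nat_lit 389) (nat_lit 332) (nat_lit 179))))))))
noncomputable def xc183 : XT := (XT.nd (nat_lit 1794) (nat_lit 380) (nat_lit 0) (XT.nd (nat_lit 858) (nat_lit 304) (nat_lit 0) (XT.nd (nat_lit 390) (nat_lit 304) (nat_lit 0) (XT.nd (nat_lit 156) (nat_lit 152) (nat_lit 0) (XT.nd (nat_lit 78) (nat_lit 0) (nat_lit 0) (XT.lf (nat_lit 0) (nat_lit 55821265278) (nat_lit 76) (nat_lit 39512127532) (nat_lit 152) (nat_lit 23792885005) (nat_lit 20) (nat_lit 5) (nat_lit 21) (nat_lit 5) (nat_lit 22) (nat_lit 4) (nat_lit 390) (nat_lit 332) (nat_lit 178)) (XT.lf (nat_lit 0) (nat_lit 106102769804) (nat_lit 76) (nat_lit 13759956442) (nat_lit 152) (nat_lit 3886470606) (nat_lit 20) (nat_lit 5) (nat_lit 21) (nat_lit 5) (nat_lit 22) (nat_lit 4) (nat_lit 391) (nat_lit 332) (nat_lit 177))) (XT.nd (nat_lit 78) (nat_lit 0) (nat_lit 0) (XT.lf (nat_lit 0)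 (nat_lit 17173222414) (nat_lit 152) (nat_lit 97765632343) (nat_lit 76) (nat_lit 13615997265) (nat_lit 18) (nat_lit 5) (nat_lit 20) (nat_lit 5) (nat_lit 19) (nat_lit 4) (nat_lit 392) (nat_lit 332) (nat_lit 176)) (XT.nd (nat_lit 78) (nat_lit 0) (nat_lit 0) (XT.lf (nat_lit 0) (nat_lit 39683256590) (nat_lit 152) (nat_lit 51623197165) (nat_lit 76) (nat_lit 42264752777) (nat_lit 18) (nat_lit 5) (nat_lit 20) (nat_lit 5) (nat_lit 19) (nat_lit 4) (nat_lit 393) (nat_lit 332) (nat_lit 175)) (XT.lf (nat_lit 0) (nat_lit 63317501398) (nat_lit 152) (nat_lit 3175980908) (nat_lit 76) (nat_lit 72344961567) (nat_lit 18) (nat_lit 5) (nat_lit 20) (nat_lit 5) (nat_lit 19) (nat_lit 4) (nat_lit 394) (nat_lit 332) (nat_lit 174))))) (XT.nd (nat_lit 234) (nat_lit 152) (nat_lit 0) (XT.nd (nat_lit 78) (nat_lit 76) (nat_lit 0) (XT.lf (nat_lit 0) (nat_lit 49268258912) (nat_lit 76) (nat_lit 39633185535) (nat_lit 152)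 (nat_lit 55429199865) (nat_lit 17) (nat_lit 5) (nat_lit 18) (nat_lit 5) (nat_lit 19) (nat_lit 4) (nat_lit 395) (nat_lit 332) (nat_lit 173)) (XT.nd (nat_lit 78) (nat_lit 76) (nat_lit 0) (XT.lf (nat_lit 0) (nat_lit 104442780345) (nat_lit 76) (nat_lit 11374385790) (nat_lit 152) (nat_lit 34277660066) (nat_lit 17) (nat_lit 5) (nat_lit 18) (nat_lit 5) (nat_lit 19) (nat_lit 4) (nat_lit 396) (nat_lit 332) (nat_lit 172)) (XT.lf (nat_lit 0) (nat_lit 6137442163) (nat_lit 76) (nat_lit 138321564809) (nat_lit 76) (nat_lit 11669194039) (nat_lit 16) (nat_lit 4) (nat_lit 17) (nat_lit 5) (nat_lit 17) (nat_lit 4) (nat_lit 397) (nat_lit 332) (nat_lit 171)))) (XT.nd (nat_lit 78) (nat_lit 76) (nat_lit 0) (XT.lf (nat_lit 0) (nat_lit 12654509807) (nat_lit 152) (nat_lit 100712964961) (nat_lit 76) (nat_lit 49037792131) (nat_lit 15) (nat_lit 5) (nat_lit 17) (nat_lit 5) (nat_lit 16) (nat_lit 4) (nat_lit 398) (nat_lit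 332) (nat_lit 170)) (XT.nd (nat_lit 78) (nat_lit 76) (nat_lit 0) (XT.lf (nat_lit 0) (nat_lit 37801133501) (nat_lit 152) (nat_lit 49164614290) (nat_lit 76) (nat_lit 82020928987) (nat_lit 15) (nat_lit 5) (nat_lit 17) (nat_lit 5) (nat_lit 16) (nat_lit 4) (nat_lit 399) (nat_lit 332) (nat_lit 169)) (XT.lf (nat_lit 0) (nat_lit 5123190239) (nat_lit 76) (nat_lit 59160834160) (nat_lit 152) (nat_lit 111609186345) (nat_lit 14) (nat_lit 5) (nat_lit 15) (nat_lit 5) (nat_lit 16) (nat_lit 4) (nat_lit 400) (nat_lit 332) (nat_lit 168)))))) (XT.nd (nat_lit 468) (nat_lit 152) (nat_lit 0) (XT.nd (nat_lit 234) (nat_lit 152) (nat_lit 0) (XT.nd (nat_lit 78) (nat_lit 0) (nat_lit 0) (XT.lf (nat_lit 0) (nat_lit 63830362881) (nat_lit 76) (nat_lit 29092292451) (nat_lit 152) (nat_lit 90180836676) (nat_lit 14) (nat_lit 5) (nat_lit 15) (nat_lit 5) (nat_lit 16) (nat_lit 4) (nat_lit 401) (nat_lit 332) (nat_lit 167)) (XT.nd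 (nat_lit 78) (nat_lit 0) (nat_lit 0) (XT.lf (nat_lit 0) (nat_lit 123030937550) (nat_lit 152) (nat_lit 65241960034) (nat_lit 0) (nat_lit 2399504124) (nat_lit 14) (nat_lit 5) (nat_lit 16) (nat_lit 4) (nat_lit 14) (nat_lit 4) (nat_lit 402) (nat_lit 332) (nat_lit 166)) (XT.lf (nat_lit 0) (nat_lit 155120609122) (nat_lit 152) (nat_lit 8987919270) (nat_lit 0) (nat_lit 34487430077) (nat_lit 14) (nat_lit 5) (nat_lit 16) (nat_lit 4) (nat_lit 14) (nat_lit 4) (nat_lit 403) (nat_lit 332) (nat_lit 165)))) (XT.nd (nat_lit 78) (nat_lit 76) (nat_lit 0) (XT.lf (nat_lit 0) (nat_lit 51732920093) (nat_lit 76) (nat_lit 137888637585) (nat_lit 76) (nat_lit 17253796046) (nat_lit 13) (nat_lit 4) (nat_lit 14) (nat_lit 5) (nat_lit 14) (nat_lit 4) (nat_lit 404) (nat_lit 332) (nat_lit 164)) (XT.nd (nat_lit 78) (nat_lit 0) (nat_lit 0) (XT.lf (nat_lit 0) (nat_lit 10103657993) (nat_lit 152) (nat_lit 99923925979) (nat_lit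 76) (nat_lit 105525420492) (nat_lit 12) (nat_lit 5) (nat_lit 14) (nat_lit 5) (nat_lit 13) (nat_lit 4) (nat_lit 405) (nat_lit 332) (nat_lit 163)) (XT.lf (nat_lit 0) (nat_lit 38248286808) (nat_lit 152) (nat_lit 42228944840) (nat_lit 76) (nat_lit 144173206781) (nat_lit 12) (nat_lit 5) (nat_lit 14) (nat_lit 5) (nat_lit 13) (nat_lit 4) (nat_lit 406) (nat_lit 332) (nat_lit 162))))) (XT.nd (nat_lit 234) (nat_lit 76) (nat_lit 0) (XT.nd (nat_lit 78) (nat_lit 0) (nat_lit 0) (XT.lf (nat_lit 0) (nat_lit 18955968265) (nat_lit 76) (nat_lit 49139318168) (nat_lit 152) (nat_lit 166092700957) (nat_lit 11) (nat_lit 5) (nat_lit 12) (nat_lit 5) (nat_lit 13) (nat_lit 4) (nat_lit 407) (nat_lit 332) (nat_lit 161)) (XT.nd (nat_lit 78) (nat_lit 0) (nat_lit 0) (XT.lf (nat_lit 0) (nat_lit 84664718798) (nat_lit 76) (nat_lit 15484283865) (nat_lit 152) (nat_lit 144017693059) (nat_lit 11) (nat_lit 5) (nat_lit 12) (nat_lit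 5) (nat_lit 13) (nat_lit 4) (nat_lit 408) (nat_lit 332) (nat_lit 160)) (XT.lf (nat_lit 0) (nat_lit 134114600244) (nat_lit 152) (nat_lit 101296859704) (nat_lit 0) (nat_lit 19217419986) (nat_lit 11) (nat_lit 5) (nat_lit 13) (nat_lit 4) (nat_lit 11) (nat_lit 4) (nat_lit 409) (nat_lit 332) (nat_lit 159)))) (XT.nd (nat_lit 78) (nat_lit 76) (nat_lit 0) (XT.lf (nat_lit 0) (nat_lit 170031581976) (nat_lit 152) (nat_lit 40436716185) (nat_lit 0) (nat_lit 55133220215) (nat_lit 11) (nat_lit 5) (nat_lit 13) (nat_lit 4) (nat_lit 11) (nat_lit 4) (nat_lit 410) (nat_lit 332) (nat_lit 158)) (XT.nd (nat_lit 78) (nat_lit 0) (nat_lit 0) (XT.lf (nat_lit 0) (nat_lit 24240974370) (nat_lit 76) (nat_lit 183881206591) (nat_lit 76) (nat_lit 68981719588) (nat_lit 10) (nat_lit 4) (nat_lit 11) (nat_lit 5) (nat_lit 11) (nat_lit 4) (nat_lit 411) (nat_lit 332) (nat_lit 157)) (XT.lf (nat_lit 0) (nat_lit 93555119559) (nat_lit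 76) (nat_lit 155246317395) (nat_lit 76) (nat_lit 40345758734) (nat_lit 10) (nat_lit 4) (nat_lit 11) (nat_lit 5) (nat_lit 11) (nat_lit 4) (nat_lit 412) (nat_lit 332) (nat_lit 156))))))) (XT.nd (nat_lit 858) (nat_lit 152) (nat_lit 0) (XT.nd (nat_lit 390) (nat_lit 76) (nat_lit 0) (XT.nd (nat_lit 156) (nat_lit 76) (nat_lit 0) (XT.nd (nat_lit 78) (nat_lit 76) (nat_lit 0) (XT.lf (nat_lit 0) (nat_lit 166333732605) (nat_lit 76) (nat_lit 125180267622) (nat_lit 76) (nat_lit 10278688333) (nat_lit 10) (nat_lit 4) (nat_lit 11) (nat_lit 5) (nat_lit 11) (nat_lit 4) (nat_lit 413) (nat_lit 332) (nat_lit 155)) (XT.lf (nat_lit 0) (nat_lit 20609632356) (nat_lit 152) (nat_lit 72652804984) (nat_lit 76) (nat_lit 221791429467) (nat_lit 9) (nat_lit 5) (nat_lit 11) (nat_lit 5) (nat_lit 10) (nat_lit 4) (nat_lit 414) (nat_lit 332) (nat_lit 154))) (XT.nd (nat_lit 78) (nat_lit 76) (nat_lit 0) (XT.lf (nat_lit 0) (nat_lit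 52696333251) (nat_lit 152) (nat_lit 6875993887) (nat_lit 76) (nat_lit 269397382071) (nat_lit 9) (nat_lit 5) (nat_lit 11) (nat_lit 5) (nat_lit 10) (nat_lit 4) (nat_lit 415) (nat_lit 332) (nat_lit 153)) (XT.nd (nat_lit 78) (nat_lit 0) (nat_lit 0) (XT.lf (nat_lit 0) (nat_lit 64244802829) (nat_lit 76) (nat_lit 23145032068) (nat_lit 152) (nat_lit 256141385714) (nat_lit 8) (nat_lit 5) (nat_lit 9) (nat_lit 5) (nat_lit 10) (nat_lit 4) (nat_lit 416) (nat_lit 332) (nat_lit 152)) (XT.lf (nat_lit 0) (nat_lit 124171605896) (nat_lit 152) (nat_lit 219893438503) (nat_lit 0) (nat_lit 14738083626) (nat_lit 8) (nat_lit 5) (nat_lit 10) (nat_lit 4) (nat_lit 8) (nat_lit 4) (nat_lit 417) (nat_lit 332) (nat_lit 151))))) (XT.nd (nat_lit 234) (nat_lit 76) (nat_lit 0) (XT.nd (nat_lit 78) (nat_lit 0) (nat_lit 0) (XT.lf (nat_lit 0) (nat_lit 163171346525) (nat_lit 152) (nat_lit 157911277732) (nat_lit 0) (nat_lit 53737062647)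 (nat_lit 8) (nat_lit 5) (nat_lit 10) (nat_lit 4) (nat_lit 8) (nat_lit 4) (nat_lit 418) (nat_lit 332) (nat_lit 150)) (XT.nd (nat_lit 78) (nat_lit 0) (nat_lit 0) (XT.lf (nat_lit 0) (nat_lit 204120554495) (nat_lit 152) (nat_lit 92831000081) (nat_lit 0) (nat_lit 94685545277) (nat_lit 8) (nat_lit 5) (nat_lit 10) (nat_lit 4) (nat_lit 8) (nat_lit 4) (nat_lit 419) (nat_lit 332) (nat_lit 149)) (XT.lf (nat_lit 0) (nat_lit 247116727921) (nat_lit 152) (nat_lit 24497652509) (nat_lit 0) (nat_lit 137681027902) (nat_lit 8) (nat_lit 5) (nat_lit 10) (nat_lit 4) (nat_lit 8) (nat_lit 4) (nat_lit 420) (nat_lit 332) (nat_lit 148)))) (XT.nd (nat_lit 78) (nat_lit 0) (nat_lit 0) (XT.lf (nat_lit 0) (nat_lit 48813810206) (nat_lit 76) (nat_lit 244210548815) (nat_lit 76) (nat_lit 134774190891) (nat_lit 7) (nat_lit 4) (nat_lit 8) (nat_lit 5) (nat_lit 8) (nat_lit 4) (nat_lit 421) (nat_lit 332) (nat_lit 147)) (XT.nd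 (nat_lit 78) (nat_lit 0) (nat_lit 0) (XT.lf (nat_lit 0) (nat_lit 126640464725) (nat_lit 76) (nat_lit 215001323814) (nat_lit 76) (nat_lit 105564339312) (nat_lit 7) (nat_lit 4) (nat_lit 8) (nat_lit 5) (nat_lit 8) (nat_lit 4) (nat_lit 422) (nat_lit 332) (nat_lit 146)) (XT.lf (nat_lit 0) (nat_lit 208357609579) (nat_lit 76) (nat_lit 184332039250) (nat_lit 76) (nat_lit 74894458009) (nat_lit 7) (nat_lit 4) (nat_lit 8) (nat_lit 5) (nat_lit 8) (nat_lit 4) (nat_lit 423) (nat_lit 332) (nat_lit 145)))))) (XT.nd (nat_lit 39858) (nat_lit 0) (nat_lit 6612) (XT.nd (nat_lit 234) (nat_lit 76) (nat_lit 0) (XT.nd (nat_lit 78) (nat_lit 76) (nat_lit 0) (XT.lf (nat_lit 0) (nat_lit 294159809399) (nat_lit 76) (nat_lit 152129673018) (nat_lit 76) (nat_lit 42691523453) (nat_lit 7) (nat_lit 4) (nat_lit 8) (nat_lit 5) (nat_lit 8) (nat_lit 4) (nat_lit 424) (nat_lit 332) (nat_lit 144)) (XT.nd (nat_lit 78) (nat_lit 76)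 (nat_lit 0) (XT.lf (nat_lit 0) (nat_lit 384251355138) (nat_lit 76) (nat_lit 118317552817) (nat_lit 76) (nat_lit 8878861992) (nat_lit 7) (nat_lit 4) (nat_lit 8) (nat_lit 5) (nat_lit 8) (nat_lit 4) (nat_lit 425) (nat_lit 332) (nat_lit 143)) (XT.lf (nat_lit 0) (nat_lit 25771897393) (nat_lit 152) (nat_lit 56606816654) (nat_lit 76) (nat_lit 452638393528) (nat_lit 6) (nat_lit 5) (nat_lit 8) (nat_lit 5) (nat_lit 7) (nat_lit 4) (nat_lit 426) (nat_lit 332) (nat_lit 142)))) (XT.nd (nat_lit 78) (nat_lit 0) (nat_lit 0) (XT.lf (nat_lit 0) (nat_lit 17940199399) (nat_lit 76) (nat_lit 44196335551) (nat_lit 152) (nat_lit 497607113060) (nat_lit 5) (nat_lit 5) (nat_lit 6) (nat_lit 5) (nat_lit 7) (nat_lit 4) (nat_lit 427) (nat_lit 332) (nat_lit 141)) (XT.nd (nat_lit 39468) (nat_lit 0) (nat_lit 7220) (XT.lf (nat_lit 0) (nat_lit 98179133167) (nat_lit 76) (nat_lit 3098573163) (nat_lit 152) (nat_lit 484380894126)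 (nat_lit 5) (nat_lit 5) (nat_lit 6) (nat_lit 5) (nat_lit 7) (nat_lit 4) (nat_lit 428) (nat_lit 332) (nat_lit 140)) (XT.lf (nat_lit 0) (nat_lit 4508457240) (nat_lit 0) (nat_lit 4508457240) (nat_lit 684) (nat_lit 1245672538) (nat_lit 100) (nat_lit 5) (nat_lit 100) (nat_lit 3) (nat_lit 109) (nat_lit 3) (nat_lit 333) (nat_lit 333) (nat_lit 234))))) (XT.nd (nat_lit 234) (nat_lit 608) (nat_lit 0) (XT.nd (nat_lit 78) (nat_lit 0) (nat_lit 0) (XT.lf (nat_lit 0) (nat_lit 18639159079) (nat_lit 684) (nat_lit 1991595480) (nat_lit 760) (nat_lit 399596909) (nat_lit 100) (nat_lit 5) (nat_lit 109) (nat_lit 3) (nat_lit 110) (nat_lit 5) (nat_lit 334) (nat_lit 333) (nat_lit 233)) (XT.nd (nat_lit 78) (nat_lit 0) (nat_lit 0) (XT.lf (nat_lit 76) (nat_lit 8107266125) (nat_lit 0) (nat_lit 11432482604) (nat_lit 760) (nat_lit 2007803964) (nat_lit 101) (nat_lit 5) (nat_lit 100) (nat_lit 5) (nat_lit 110) (nat_lit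 5) (nat_lit 335) (nat_lit 333) (nat_lit 232)) (XT.lf (nat_lit 76) (nat_lit 18774999451) (nat_lit 0) (nat_lit 1735060968) (nat_lit 760) (nat_lit 1579332815) (nat_lit 101) (nat_lit 5) (nat_lit 100) (nat_lit 5) (nat_lit 110) (nat_lit 5) (nat_lit 336) (nat_lit 333) (nat_lit 231)))) (XT.nd (nat_lit 78) (nat_lit 684) (nat_lit 0) (XT.lf (nat_lit 76) (nat_lit 7417859458) (nat_lit 0) (nat_lit 14350177801) (nat_lit 760) (nat_lit 878344285) (nat_lit 102) (nat_lit 5) (nat_lit 101) (nat_lit 5) (nat_lit 111) (nat_lit 5) (nat_lit 337) (nat_lit 333) (nat_lit 230)) (XT.nd (nat_lit 78) (nat_lit 684) (nat_lit 0) (XT.lf (nat_lit 76) (nat_lit 18767030663) (nat_lit 0) (nat_lit 4397772139) (nat_lit 760) (nat_lit 62634566) (nat_lit 102) (nat_lit 5) (nat_lit 101) (nat_lit 5) (nat_lit 111) (nat_lit 5) (nat_lit 338) (nat_lit 333) (nat_lit 229)) (XT.lf (nat_lit 0) (nat_lit 967153719) (nat_lit 760) (nat_lit 16874273806)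 (nat_lit 836) (nat_lit 5985575079) (nat_lit 92) (nat_lit 5) (nat_lit 102) (nat_lit 5) (nat_lit 103) (nat_lit 5) (nat_lit 339) (nat_lit 333) (nat_lit 228))))))))
noncomputable def xc184 : XT := (XT.nd (nat_lit 1716) (nat_lit 2052) (nat_lit 0) (XT.nd (nat_lit 858) (nat_lit 1824) (nat_lit 0) (XT.nd (nat_lit 390) (nat_lit 1216) (nat_lit 0) (XT.nd (nat_lit 156) (nat_lit 0) (nat_lit 76) (XT.nd (nat_lit 78) (nat_lit 0) (nat_lit 76) (XT.lf (nat_lit 0) (nat_lit 2187558177) (nat_lit 760) (nat_lit 5441495037) (nat_lit 836) (nat_lit 16820390842) (nat_lit 92) (nat_lit 5) (nat_lit 102) (nat_lit 5) (nat_lit 103) (nat_lit 5) (nat_lit 340) (nat_lit 333) (nat_lit 227)) (XT.lf (nat_lit 0) (nat_lit 3617538793) (nat_lit 760) (nat_lit 18373887949) (nat_lit 836) (nat_lit 3104163400) (nat_lit 93) (nat_lit 5) (nat_lit 103) (nat_lit 5) (nat_lit 104) (nat_lit 5) (nat_lit 341) (nat_lit 333) (nat_lit 226))) (XT.nd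 (nat_lit 78) (nat_lit 0) (nat_lit 0) (XT.lf (nat_lit 0) (nat_lit 5330761362) (nat_lit 760) (nat_lit 6219804144) (nat_lit 836) (nat_lit 14212900745) (nat_lit 93) (nat_lit 5) (nat_lit 103) (nat_lit 5) (nat_lit 104) (nat_lit 5) (nat_lit 342) (nat_lit 333) (nat_lit 225)) (XT.nd (nat_lit 78) (nat_lit 0) (nat_lit 76) (XT.lf (nat_lit 76) (nat_lit 6752617534) (nat_lit 0) (nat_lit 475798998) (nat_lit 836) (nat_lit 19231390455) (nat_lit 94) (nat_lit 5) (nat_lit 93) (nat_lit 5) (nat_lit 104) (nat_lit 5) (nat_lit 343) (nat_lit 333) (nat_lit 224)) (XT.lf (nat_lit 0) (nat_lit 9495734342) (nat_lit 760) (nat_lit 6777701637) (nat_lit 76) (nat_lit 10903798737) (nat_lit 94) (nat_lit 5) (nat_lit 104) (nat_lit 5) (nat_lit 95) (nat_lit 5) (nat_lit 344) (nat_lit 333) (nat_lit 223))))) (XT.nd (nat_lit 234) (nat_lit 304) (nat_lit 0) (XT.nd (nat_lit 78) (nat_lit 380) (nat_lit 0) (XT.lf (nat_lit 0) (nat_lit 7009326925)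 (nat_lit 684) (nat_lit 4978224131) (nat_lit 760) (nat_lit 15937434645) (nat_lit 85) (nat_lit 5) (nat_lit 94) (nat_lit 5) (nat_lit 95) (nat_lit 5) (nat_lit 345) (nat_lit 333) (nat_lit 222)) (XT.nd (nat_lit 78) (nat_lit 380) (nat_lit 0) (XT.lf (nat_lit 0) (nat_lit 14822179533) (nat_lit 760) (nat_lit 7098395132) (nat_lit 76) (nat_lit 6778646640) (nat_lit 85) (nat_lit 5) (nat_lit 95) (nat_lit 5) (nat_lit 86) (nat_lit 5) (nat_lit 346) (nat_lit 333) (nat_lit 221)) (XT.lf (nat_lit 0) (nat_lit 7564815747) (nat_lit 380) (nat_lit 10427834459) (nat_lit 456) (nat_lit 11509820676) (nat_lit 80) (nat_lit 5) (nat_lit 85) (nat_lit 5) (nat_lit 86) (nat_lit 5) (nat_lit 347) (nat_lit 333) (nat_lit 220)))) (XT.nd (nat_lit 78) (nat_lit 304) (nat_lit 0) (XT.lf (nat_lit 0) (nat_lit 21464005297) (nat_lit 456) (nat_lit 7165432762) (nat_lit 76) (nat_lit 1709334194) (nat_lit 80) (nat_lit 5) (nat_lit 86) (nat_lit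 5) (nat_lit 81) (nat_lit 5) (nat_lit 348) (nat_lit 333) (nat_lit 219)) (XT.nd (nat_lit 78) (nat_lit 0) (nat_lit 0) (XT.lf (nat_lit 0) (nat_lit 8439208184) (nat_lit 304) (nat_lit 16967263504) (nat_lit 380) (nat_lit 5795546841) (nat_lit 76) (nat_lit 5) (nat_lit 80) (nat_lit 5) (nat_lit 81) (nat_lit 5) (nat_lit 349) (nat_lit 333) (nat_lit 218)) (XT.lf (nat_lit 0) (nat_lit 25067583339) (nat_lit 304) (nat_lit 4594827588) (nat_lit 380) (nat_lit 2440205391) (nat_lit 76) (nat_lit 5) (nat_lit 80) (nat_lit 5) (nat_lit 81) (nat_lit 5) (nat_lit 350) (nat_lit 333) (nat_lit 217)))))) (XT.nd (nat_lit 390) (nat_lit 836) (nat_lit 0) (XT.nd (nat_lit 156) (nat_lit 608) (nat_lit 0) (XT.nd (nat_lit 78) (nat_lit 0) (nat_lit 0) (XT.lf (nat_lit 0) (nat_lit 1329790970) (nat_lit 380) (nat_lit 23404143886) (nat_lit 76) (nat_lit 8299392466) (nat_lit 71) (nat_lit 5) (nat_lit 76) (nat_lit 5) (nat_lit 72) (nat_lit 5)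 (nat_lit 351) (nat_lit 333) (nat_lit 216)) (XT.lf (nat_lit 0) (nat_lit 5397998400) (nat_lit 380) (nat_lit 6756378963) (nat_lit 76) (nat_lit 21844616204) (nat_lit 71) (nat_lit 5) (nat_lit 76) (nat_lit 5) (nat_lit 72) (nat_lit 5) (nat_lit 352) (nat_lit 333) (nat_lit 215))) (XT.nd (nat_lit 78) (nat_lit 304) (nat_lit 0) (XT.lf (nat_lit 0) (nat_lit 9857303699) (nat_lit 380) (nat_lit 23950706673) (nat_lit 76) (nat_lit 1195553871) (nat_lit 67) (nat_lit 5) (nat_lit 72) (nat_lit 5) (nat_lit 68) (nat_lit 5) (nat_lit 353) (nat_lit 333) (nat_lit 214)) (XT.nd (nat_lit 78) (nat_lit 304) (nat_lit 0) (XT.lf (nat_lit 0) (nat_lit 14850771876) (nat_lit 380) (nat_lit 6271856162) (nat_lit 76) (nat_lit 14920180765) (nat_lit 67) (nat_lit 5) (nat_lit 72) (nat_lit 5) (nat_lit 68) (nat_lit 5) (nat_lit 354) (nat_lit 333) (nat_lit 213)) (XT.lf (nat_lit 0) (nat_lit 12692206635) (nat_lit 304) (nat_lit 7595722218) (nat_lit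 380) (nat_lit 16836390953) (nat_lit 63) (nat_lit 5) (nat_lit 67) (nat_lit 5) (nat_lit 68) (nat_lit 5) (nat_lit 355) (nat_lit 333) (nat_lit 212))))) (XT.nd (nat_lit 234) (nat_lit 608) (nat_lit 0) (XT.nd (nat_lit 78) (nat_lit 228) (nat_lit 0) (XT.lf (nat_lit 0) (nat_lit 26204026231) (nat_lit 380) (nat_lit 5542354273) (nat_lit 76) (nat_lit 6503176473) (nat_lit 63) (nat_lit 5) (nat_lit 68) (nat_lit 5) (nat_lit 64) (nat_lit 5) (nat_lit 356) (nat_lit 333) (nat_lit 211)) (XT.nd (nat_lit 78) (nat_lit 0) (nat_lit 0) (XT.lf (nat_lit 0) (nat_lit 14630818957) (nat_lit 228) (nat_lit 18134212241) (nat_lit 304) (nat_lit 6648574191) (nat_lit 60) (nat_lit 5) (nat_lit 63) (nat_lit 5) (nat_lit 64) (nat_lit 5) (nat_lit 357) (nat_lit 333) (nat_lit 210)) (XT.lf (nat_lit 0) (nat_lit 36000315641) (nat_lit 228) (nat_lit 3743896725) (nat_lit 304) (nat_lit 887141862) (nat_lit 60) (nat_lit 5) (nat_lit 63) (nat_lit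 5) (nat_lit 64) (nat_lit 5) (nat_lit 358) (nat_lit 333) (nat_lit 209)))) (XT.nd (nat_lit 78) (nat_lit 228) (nat_lit 0) (XT.lf (nat_lit 0) (nat_lit 5441830841) (nat_lit 380) (nat_lit 25089263418) (nat_lit 76) (nat_lit 11352635378) (nat_lit 55) (nat_lit 5) (nat_lit 60) (nat_lit 5) (nat_lit 56) (nat_lit 5) (nat_lit 359) (nat_lit 333) (nat_lit 208)) (XT.nd (nat_lit 78) (nat_lit 228) (nat_lit 0) (XT.lf (nat_lit 0) (nat_lit 12194991980) (nat_lit 380) (nat_lit 3824720026) (nat_lit 76) (nat_lit 27171410685) (nat_lit 55) (nat_lit 5) (nat_lit 60) (nat_lit 5) (nat_lit 56) (nat_lit 5) (nat_lit 360) (nat_lit 333) (nat_lit 207)) (XT.lf (nat_lit 0) (nat_lit 19110182641) (nat_lit 228) (nat_lit 470624070) (nat_lit 304) (nat_lit 24968332450) (nat_lit 52) (nat_lit 5) (nat_lit 55) (nat_lit 5) (nat_lit 56) (nat_lit 5) (nat_lit 361) (nat_lit 333) (nat_lit 206))))))) (XT.nd (nat_lit 858) (nat_lit 988) (nat_lit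 0) (XT.nd (nat_lit 390) (nat_lit 608) (nat_lit 0) (XT.nd (nat_lit 156) (nat_lit 228) (nat_lit 0) (XT.nd (nat_lit 78) (nat_lit 228) (nat_lit 0) (XT.lf (nat_lit 0) (nat_lit 27646007763) (nat_lit 304) (nat_lit 2900408224) (nat_lit 76) (nat_lit 15413139061) (nat_lit 52) (nat_lit 5) (nat_lit 56) (nat_lit 5) (nat_lit 53) (nat_lit 5) (nat_lit 362) (nat_lit 333) (nat_lit 205)) (XT.lf (nat_lit 0) (nat_lit 21439168824) (nat_lit 228) (nat_lit 15014602527) (nat_lit 304) (nat_lit 10969758466) (nat_lit 49) (nat_lit 5) (nat_lit 52) (nat_lit 5) (nat_lit 53) (nat_lit 5) (nat_lit 363) (nat_lit 333) (nat_lit 204))) (XT.nd (nat_lit 78) (nat_lit 228) (nat_lit 0) (XT.lf (nat_lit 0) (nat_lit 45768972743) (nat_lit 304) (nat_lit 1887268831) (nat_lit 76) (nat_lit 1301112329) (nat_lit 49) (nat_lit 5) (nat_lit 53) (nat_lit 5) (nat_lit 50) (nat_lit 5) (nat_lit 364) (nat_lit 333) (nat_lit 203)) (XT.nd (nat_lit 78)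 (nat_lit 0) (nat_lit 0) (XT.lf (nat_lit 0) (nat_lit 5449547054) (nat_lit 228) (nat_lit 26694698319) (nat_lit 76) (nat_lit 18388390432) (nat_lit 46) (nat_lit 5) (nat_lit 49) (nat_lit 5) (nat_lit 47) (nat_lit 5) (nat_lit 365) (nat_lit 333) (nat_lit 202)) (XT.lf (nat_lit 0) (nat_lit 14441803164) (nat_lit 228) (nat_lit 1327206349) (nat_lit 76) (nat_lit 36413582404) (nat_lit 46) (nat_lit 5) (nat_lit 49) (nat_lit 5) (nat_lit 47) (nat_lit 5) (nat_lit 366) (nat_lit 333) (nat_lit 201))))) (XT.nd (nat_lit 234) (nat_lit 228) (nat_lit 0) (XT.nd (nat_lit 78) (nat_lit 152) (nat_lit 0) (XT.lf (nat_lit 0) (nat_lit 24317964152) (nat_lit 304) (nat_lit 27782406936) (nat_lit 76) (nat_lit 1792962661) (nat_lit 43) (nat_lit 5) (nat_lit 47) (nat_lit 5) (nat_lit 44) (nat_lit 5) (nat_lit 367) (nat_lit 333) (nat_lit 200)) (XT.nd (nat_lit 78) (nat_lit 152) (nat_lit 0) (XT.lf (nat_lit 0) (nat_lit 34966570653) (nat_lit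 304) (nat_lit 984426365) (nat_lit 76) (nat_lit 19724686178) (nat_lit 43) (nat_lit 5) (nat_lit 47) (nat_lit 5) (nat_lit 44) (nat_lit 5) (nat_lit 368) (nat_lit 333) (nat_lit 199)) (XT.lf (nat_lit 0) (nat_lit 28047230283) (nat_lit 152) (nat_lit 18535686165) (nat_lit 228) (nat_lit 10942470502) (nat_lit 41) (nat_lit 5) (nat_lit 43) (nat_lit 5) (nat_lit 44) (nat_lit 5) (nat_lit 369) (nat_lit 333) (nat_lit 198)))) (XT.nd (nat_lit 78) (nat_lit 228) (nat_lit 0) (XT.lf (nat_lit 0) (nat_lit 58560800401) (nat_lit 152) (nat_lit 233427101) (nat_lit 228) (nat_lit 672643163) (nat_lit 41) (nat_lit 5) (nat_lit 43) (nat_lit 5) (nat_lit 44) (nat_lit 5) (nat_lit 370) (nat_lit 333) (nat_lit 197)) (XT.nd (nat_lit 78) (nat_lit 0) (nat_lit 0) (XT.lf (nat_lit 0) (nat_lit 10557897637) (nat_lit 228) (nat_lit 31891262518) (nat_lit 76) (nat_lit 19009836243) (nat_lit 38) (nat_lit 5) (nat_lit 41) (nat_lit 5) (nat_lit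 39) (nat_lit 5) (nat_lit 371) (nat_lit 333) (nat_lit 196)) (XT.lf (nat_lit 0) (nat_lit 22344376823) (nat_lit 228) (nat_lit 1972167945) (nat_lit 76) (nat_lit 39232783352) (nat_lit 38) (nat_lit 5) (nat_lit 41) (nat_lit 5) (nat_lit 39) (nat_lit 5) (nat_lit 372) (nat_lit 333) (nat_lit 195)))))) (XT.nd (nat_lit 468) (nat_lit 456) (nat_lit 0) (XT.nd (nat_lit 234) (nat_lit 228) (nat_lit 0) (XT.nd (nat_lit 78) (nat_lit 152) (nat_lit 0) (XT.lf (nat_lit 0) (nat_lit 30412670508) (nat_lit 152) (nat_lit 4780044670) (nat_lit 228) (nat_lit 30527836277) (nat_lit 36) (nat_lit 5) (nat_lit 38) (nat_lit 5) (nat_lit 39) (nat_lit 5) (nat_lit 373) (nat_lit 333) (nat_lit 194)) (XT.nd (nat_lit 78) (nat_lit 152) (nat_lit 0) (XT.lf (nat_lit 0) (nat_lit 48960799682) (nat_lit 228) (nat_lit 3763275235) (nat_lit 76) (nat_lit 15262396282) (nat_lit 36) (nat_lit 5) (nat_lit 39) (nat_lit 5) (nat_lit 37) (nat_lit 5) (nat_lit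 374) (nat_lit 333) (nat_lit 193)) (XT.lf (nat_lit 0) (nat_lit 30244752503) (nat_lit 152) (nat_lit 33720951668) (nat_lit 228) (nat_lit 6372563594) (nat_lit 34) (nat_lit 5) (nat_lit 36) (nat_lit 5) (nat_lit 37) (nat_lit 5) (nat_lit 375) (nat_lit 333) (nat_lit 192)))) (XT.nd (nat_lit 78) (nat_lit 152) (nat_lit 0) (XT.lf (nat_lit 0) (nat_lit 6754574082) (nat_lit 228) (nat_lit 6833096746) (nat_lit 76) (nat_lit 59211456085) (nat_lit 33) (nat_lit 5) (nat_lit 36) (nat_lit 5) (nat_lit 34) (nat_lit 5) (nat_lit 376) (nat_lit 333) (nat_lit 191)) (XT.nd (nat_lit 78) (nat_lit 0) (nat_lit 0) (XT.lf (nat_lit 0) (nat_lit 20900207919) (nat_lit 228) (nat_lit 46574559872) (nat_lit 76) (nat_lit 7874224256) (nat_lit 31) (nat_lit 5) (nat_lit 34) (nat_lit 5) (nat_lit 32) (nat_lit 5) (nat_lit 377) (nat_lit 333) (nat_lit 190)) (XT.lf (nat_lit 0) (nat_lit 36091481140) (nat_lit 228) (nat_lit 11848988458) (nat_lit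 76) (nat_lit 30068964291) (nat_lit 31) (nat_lit 5) (nat_lit 34) (nat_lit 5) (nat_lit 32) (nat_lit 5) (nat_lit 378) (nat_lit 333) (nat_lit 189))))) (XT.nd (nat_lit 234) (nat_lit 152) (nat_lit 0) (XT.nd (nat_lit 78) (nat_lit 152) (nat_lit 0) (XT.lf (nat_lit 0) (nat_lit 25423382280) (nat_lit 152) (nat_lit 27013951807) (nat_lit 228) (nat_lit 28345814201) (nat_lit 29) (nat_lit 5) (nat_lit 31) (nat_lit 5) (nat_lit 32) (nat_lit 5) (nat_lit 379) (nat_lit 333) (nat_lit 188)) (XT.nd (nat_lit 78) (nat_lit 152) (nat_lit 0) (XT.lf (nat_lit 0) (nat_lit 64967606820) (nat_lit 152) (nat_lit 4831669243) (nat_lit 228) (nat_lit 13886333737) (nat_lit 29) (nat_lit 5) (nat_lit 31) (nat_lit 5) (nat_lit 32) (nat_lit 5) (nat_lit 380) (nat_lit 333) (nat_lit 187)) (XT.lf (nat_lit 0) (nat_lit 1864828857) (nat_lit 152) (nat_lit 66625085819) (nat_lit 76) (nat_lit 18211759404) (nat_lit 27) (nat_lit 5) (nat_lit 29) (nat_lit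 5) (nat_lit 28) (nat_lit 5) (nat_lit 381) (nat_lit 333) (nat_lit 186)))) (XT.nd (nat_lit 78) (nat_lit 152) (nat_lit 0) (XT.lf (nat_lit 0) (nat_lit 18336487797) (nat_lit 152) (nat_lit 28707053100) (nat_lit 76) (nat_lit 42793638975) (nat_lit 27) (nat_lit 5) (nat_lit 29) (nat_lit 5) (nat_lit 28) (nat_lit 5) (nat_lit 382) (nat_lit 333) (nat_lit 185)) (XT.nd (nat_lit 78) (nat_lit 0) (nat_lit 0) (XT.lf (nat_lit 0) (nat_lit 11471106282) (nat_lit 152) (nat_lit 24338012148) (nat_lit 228) (nat_lit 57311474084) (nat_lit 25) (nat_lit 5) (nat_lit 27) (nat_lit 5) (nat_lit 28) (nat_lit 5) (nat_lit 383) (nat_lit 333) (nat_lit 184)) (XT.lf (nat_lit 0) (nat_lit 54640065852) (nat_lit 228) (nat_lit 41892197450) (nat_lit 76) (nat_lit 11679171) (nat_lit 25) (nat_lit 5) (nat_lit 28) (nat_lit 5) (nat_lit 26) (nat_lit 4) (nat_lit 384) (nat_lit 333) (nat_lit 183))))))))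
noncomputable def xc185 : XT := (XT.nd (nat_lit 1794) (nat_lit 532) (nat_lit 0) (XT.nd (nat_lit 858) (nat_lit 456) (nat_lit 0) (XT.nd (nat_lit 390) (nat_lit 228) (nat_lit 0) (XT.nd (nat_lit 156) (nat_lit 228) (nat_lit 0) (XT.nd (nat_lit 78) (nat_lit 76) (nat_lit 0) (XT.lf (nat_lit 0) (nat_lit 74809935165) (nat_lit 228) (nat_lit 548828588) (nat_lit 76) (nat_lit 24759828355) (nat_lit 25) (nat_lit 5) (nat_lit 28) (nat_lit 5) (nat_lit 26) (nat_lit 4) (nat_lit 385) (nat_lit 333) (nat_lit 182)) (XT.lf (nat_lit 0) (nat_lit 44276154994) (nat_lit 76) (nat_lit 52401885161) (nat_lit 152) (nat_lit 7159447819) (nat_lit 24) (nat_lit 5) (nat_lit 25) (nat_lit 5) (nat_lit 26) (nat_lit 4) (nat_lit 386) (nat_lit 333) (nat_lit 181))) (XT.nd (nat_lit 78) (nat_lit 152) (nat_lit 0) (XT.lf (nat_lit 0) (nat_lit 11524357381) (nat_lit 152) (nat_lit 16568998811) (nat_lit 76) (nat_lit 79639289721) (nat_lit 23) (nat_lit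 5) (nat_lit 25) (nat_lit 5) (nat_lit 24) (nat_lit 5) (nat_lit 387) (nat_lit 333) (nat_lit 180)) (XT.nd (nat_lit 78) (nat_lit 0) (nat_lit 0) (XT.lf (nat_lit 0) (nat_lit 29393821927) (nat_lit 152) (nat_lit 1965393093) (nat_lit 228) (nat_lit 80434605746) (nat_lit 21) (nat_lit 5) (nat_lit 23) (nat_lit 5) (nat_lit 24) (nat_lit 5) (nat_lit 388) (nat_lit 333) (nat_lit 179)) (XT.lf (nat_lit 0) (nat_lit 52867221373) (nat_lit 228) (nat_lit 38218806136) (nat_lit 76) (nat_lit 24937957267) (nat_lit 21) (nat_lit 5) (nat_lit 24) (nat_lit 5) (nat_lit 22) (nat_lit 4) (nat_lit 389) (nat_lit 333) (nat_lit 178))))) (XT.nd (nat_lit 234) (nat_lit 152) (nat_lit 0) (XT.nd (nat_lit 78) (nat_lit 0) (nat_lit 0) (XT.lf (nat_lit 0) (nat_lit 8405825685) (nat_lit 76) (nat_lit 67206888779) (nat_lit 152) (nat_lit 44844838875) (nat_lit 20) (nat_lit 5) (nat_lit 21) (nat_lit 5) (nat_lit 22) (nat_lit 4) (nat_lit 390) (nat_lit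 333) (nat_lit 177)) (XT.nd (nat_lit 78) (nat_lit 0) (nat_lit 0) (XT.lf (nat_lit 0) (nat_lit 58686159225) (nat_lit 76) (nat_lit 41455233165) (nat_lit 152) (nat_lit 24939113075) (nat_lit 20) (nat_lit 5) (nat_lit 21) (nat_lit 5) (nat_lit 22) (nat_lit 4) (nat_lit 391) (nat_lit 333) (nat_lit 176)) (XT.lf (nat_lit 0) (nat_lit 111478223231) (nat_lit 76) (nat_lit 14417001174) (nat_lit 152) (nat_lit 4039445393) (nat_lit 20) (nat_lit 5) (nat_lit 21) (nat_lit 5) (nat_lit 22) (nat_lit 4) (nat_lit 392) (nat_lit 333) (nat_lit 175)))) (XT.nd (nat_lit 78) (nat_lit 0) (nat_lit 0) (XT.lf (nat_lit 0) (nat_lit 18071591978) (nat_lit 152) (nat_lit 102581923759) (nat_lit 76) (nat_lit 14327076407) (nat_lit 18) (nat_lit 5) (nat_lit 20) (nat_lit 5) (nat_lit 19) (nat_lit 4) (nat_lit 393) (nat_lit 333) (nat_lit 174)) (XT.nd (nat_lit 78) (nat_lit 0) (nat_lit 0) (XT.lf (nat_lit 0) (nat_lit 41705236984) (nat_lit 152)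 (nat_lit 54135794927) (nat_lit 76) (nat_lit 44406827825) (nat_lit 18) (nat_lit 5) (nat_lit 20) (nat_lit 5) (nat_lit 19) (nat_lit 4) (nat_lit 394) (nat_lit 333) (nat_lit 173)) (XT.lf (nat_lit 0) (nat_lit 66519393197) (nat_lit 152) (nat_lit 3269482719) (nat_lit 76) (nat_lit 75989673845) (nat_lit 18) (nat_lit 5) (nat_lit 20) (nat_lit 5) (nat_lit 19) (nat_lit 4) (nat_lit 395) (nat_lit 333) (nat_lit 172)))))) (XT.nd (nat_lit 468) (nat_lit 152) (nat_lit 0) (XT.nd (nat_lit 234) (nat_lit 152) (nat_lit 0) (XT.nd (nat_lit 78) (nat_lit 76) (nat_lit 0) (XT.lf (nat_lit 0) (nat_lit 51795915911) (nat_lit 76) (nat_lit 41585905435) (nat_lit 152) (nat_lit 58163575215) (nat_lit 17) (nat_lit 5) (nat_lit 18) (nat_lit 5) (nat_lit 19) (nat_lit 4) (nat_lit 396) (nat_lit 333) (nat_lit 171)) (XT.nd (nat_lit 78) (nat_lit 76) (nat_lit 0) (XT.lf (nat_lit 0) (nat_lit 109726104175) (nat_lit 76) (nat_lit 11915543768)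 (nat_lit 152) (nat_lit 35956224361) (nat_lit 17) (nat_lit 5) (nat_lit 18) (nat_lit 5) (nat_lit 19) (nat_lit 4) (nat_lit 397) (nat_lit 333) (nat_lit 170)) (XT.lf (nat_lit 0) (nat_lit 6505756728) (nat_lit 76) (nat_lit 145209592081) (nat_lit 76) (nat_lit 12217579313) (nat_lit 16) (nat_lit 4) (nat_lit 17) (nat_lit 5) (nat_lit 17) (nat_lit 4) (nat_lit 398) (nat_lit 333) (nat_lit 169)))) (XT.nd (nat_lit 78) (nat_lit 76) (nat_lit 0) (XT.lf (nat_lit 0) (nat_lit 13319570371) (nat_lit 152) (nat_lit 105689015318) (nat_lit 76) (nat_lit 51515315680) (nat_lit 15) (nat_lit 5) (nat_lit 17) (nat_lit 5) (nat_lit 16) (nat_lit 4) (nat_lit 399) (nat_lit 333) (nat_lit 168)) (XT.nd (nat_lit 78) (nat_lit 76) (nat_lit 0) (XT.lf (nat_lit 0) (nat_lit 39721985484) (nat_lit 152) (nat_lit 51566085108) (nat_lit 76) (nat_lit 86146388715) (nat_lit 15) (nat_lit 5) (nat_lit 17) (nat_lit 5) (nat_lit 16) (nat_lit 4) (nat_lit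 400) (nat_lit 333) (nat_lit 167)) (XT.lf (nat_lit 0) (nat_lit 5435194165) (nat_lit 76) (nat_lit 62093232206) (nat_lit 152) (nat_lit 117157923878) (nat_lit 14) (nat_lit 5) (nat_lit 15) (nat_lit 5) (nat_lit 16) (nat_lit 4) (nat_lit 401) (nat_lit 333) (nat_lit 166))))) (XT.nd (nat_lit 234) (nat_lit 152) (nat_lit 0) (XT.nd (nat_lit 78) (nat_lit 0) (nat_lit 0) (XT.lf (nat_lit 0) (nat_lit 67075066182) (nat_lit 76) (nat_lit 30522484539) (nat_lit 152) (nat_lit 94659667287) (nat_lit 14) (nat_lit 5) (nat_lit 15) (nat_lit 5) (nat_lit 16) (nat_lit 4) (nat_lit 402) (nat_lit 333) (nat_lit 165)) (XT.nd (nat_lit 78) (nat_lit 0) (nat_lit 0) (XT.lf (nat_lit 0) (nat_lit 129210240547) (nat_lit 152) (nat_lit 68452389032) (nat_lit 0) (nat_lit 2541994436) (nat_lit 14) (nat_lit 5) (nat_lit 16) (nat_lit 4) (nat_lit 14) (nat_lit 4) (nat_lit 403) (nat_lit 333) (nat_lit 164)) (XT.lf (nat_lit 0) (nat_lit 162903073978)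 (nat_lit 152) (nat_lit 9388106658) (nat_lit 0) (nat_lit 36233244539) (nat_lit 14) (nat_lit 5) (nat_lit 16) (nat_lit 4) (nat_lit 14) (nat_lit 4) (nat_lit 404) (nat_lit 333) (nat_lit 163)))) (XT.nd (nat_lit 78) (nat_lit 76) (nat_lit 0) (XT.lf (nat_lit 0) (nat_lit 54367980986) (nat_lit 76) (nat_lit 144760586087) (nat_lit 76) (nat_lit 18089248717) (nat_lit 13) (nat_lit 4) (nat_lit 14) (nat_lit 5) (nat_lit 14) (nat_lit 4) (nat_lit 405) (nat_lit 333) (nat_lit 162)) (XT.nd (nat_lit 78) (nat_lit 0) (nat_lit 0) (XT.lf (nat_lit 0) (nat_lit 10633950772) (nat_lit 152) (nat_lit 104873174411) (nat_lit 76) (nat_lit 110822265807) (nat_lit 12) (nat_lit 5) (nat_lit 14) (nat_lit 5) (nat_lit 13) (nat_lit 4) (nat_lit 406) (nat_lit 333) (nat_lit 161)) (XT.lf (nat_lit 0) (nat_lit 40184615320) (nat_lit 152) (nat_lit 44295679827) (nat_lit 76) (nat_lit 151401461682) (nat_lit 12) (nat_lit 5) (nat_lit 14) (nat_lit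 5) (nat_lit 13) (nat_lit 4) (nat_lit 407) (nat_lit 333) (nat_lit 160))))))) (XT.nd (nat_lit 858) (nat_lit 228) (nat_lit 0) (XT.nd (nat_lit 390) (nat_lit 152) (nat_lit 0) (XT.nd (nat_lit 156) (nat_lit 76) (nat_lit 0) (XT.nd (nat_lit 78) (nat_lit 0) (nat_lit 0) (XT.lf (nat_lit 0) (nat_lit 19947757768) (nat_lit 76) (nat_lit 51575755212) (nat_lit 152) (nat_lit 174372693227) (nat_lit 11) (nat_lit 5) (nat_lit 12) (nat_lit 5) (nat_lit 13) (nat_lit 4) (nat_lit 408) (nat_lit 333) (nat_lit 159)) (XT.lf (nat_lit 0) (nat_lit 88939851014) (nat_lit 76) (nat_lit 16238946758) (nat_lit 152) (nat_lit 151195108400) (nat_lit 11) (nat_lit 5) (nat_lit 12) (nat_lit 5) (nat_lit 13) (nat_lit 4) (nat_lit 409) (nat_lit 333) (nat_lit 158))) (XT.nd (nat_lit 78) (nat_lit 76) (nat_lit 0) (XT.lf (nat_lit 0) (nat_lit 140841901901) (nat_lit 152) (nat_lit 106321021393) (nat_lit 0) (nat_lit 20196315306) (nat_lit 11) (nat_lit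 5) (nat_lit 13) (nat_lit 4) (nat_lit 11) (nat_lit 4) (nat_lit 410) (nat_lit 333) (nat_lit 157)) (XT.nd (nat_lit 78) (nat_lit 76) (nat_lit 0) (XT.lf (nat_lit 0) (nat_lit 178553705498) (nat_lit 152) (nat_lit 42419807903) (nat_lit 0) (nat_lit 57907047245) (nat_lit 11) (nat_lit 5) (nat_lit 13) (nat_lit 4) (nat_lit 11) (nat_lit 4) (nat_lit 411) (nat_lit 333) (nat_lit 156)) (XT.lf (nat_lit 0) (nat_lit 25491142276) (nat_lit 76) (nat_lit 193057308998) (nat_lit 76) (nat_lit 72409630117) (nat_lit 10) (nat_lit 4) (nat_lit 11) (nat_lit 5) (nat_lit 11) (nat_lit 4) (nat_lit 412) (nat_lit 333) (nat_lit 155))))) (XT.nd (nat_lit 234) (nat_lit 76) (nat_lit 0) (XT.nd (nat_lit 78) (nat_lit 76) (nat_lit 0) (XT.lf (nat_lit 0) (nat_lit 98269179525) (nat_lit 76) (nat_lit 162991530482) (nat_lit 76) (nat_lit 42342879575) (nat_lit 10) (nat_lit 4) (nat_lit 11) (nat_lit 5) (nat_lit 11) (nat_lit 4) (nat_lit 413) (nat_lit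 333) (nat_lit 154)) (XT.nd (nat_lit 78) (nat_lit 76) (nat_lit 0) (XT.lf (nat_lit 0) (nat_lit 174684994461) (nat_lit 76) (nat_lit 131422992638) (nat_lit 76) (nat_lit 10773415992) (nat_lit 10) (nat_lit 4) (nat_lit 11) (nat_lit 5) (nat_lit 11) (nat_lit 4) (nat_lit 414) (nat_lit 333) (nat_lit 153)) (XT.lf (nat_lit 0) (nat_lit 21657820660) (nat_lit 152) (nat_lit 76251925947) (nat_lit 76) (nat_lit 232895923169) (nat_lit 9) (nat_lit 5) (nat_lit 11) (nat_lit 5) (nat_lit 10) (nat_lit 4) (nat_lit 415) (nat_lit 333) (nat_lit 152)))) (XT.nd (nat_lit 78) (nat_lit 76) (nat_lit 0) (XT.lf (nat_lit 0) (nat_lit 55348013425) (nat_lit 152) (nat_lit 7187870451) (nat_lit 76) (nat_lit 282881462821) (nat_lit 9) (nat_lit 5) (nat_lit 11) (nat_lit 5) (nat_lit 10) (nat_lit 4) (nat_lit 416) (nat_lit 333) (nat_lit 151)) (XT.nd (nat_lit 78) (nat_lit 0) (nat_lit 0) (XT.lf (nat_lit 0) (nat_lit 67488451212) (nat_lit 76)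 (nat_lit 24287426288) (nat_lit 152) (nat_lit 268931072031) (nat_lit 8) (nat_lit 5) (nat_lit 9) (nat_lit 5) (nat_lit 10) (nat_lit 4) (nat_lit 417) (nat_lit 333) (nat_lit 150)) (XT.lf (nat_lit 0) (nat_lit 130396169831) (nat_lit 152) (nat_lit 230857626250) (nat_lit 0) (nat_lit 15488684811) (nat_lit 8) (nat_lit 5) (nat_lit 10) (nat_lit 4) (nat_lit 8) (nat_lit 4) (nat_lit 418) (nat_lit 333) (nat_lit 149)))))) (XT.nd (nat_lit 468) (nat_lit 152) (nat_lit 0) (XT.nd (nat_lit 234) (nat_lit 76) (nat_lit 0) (XT.nd (nat_lit 78) (nat_lit 0) (nat_lit 0) (XT.lf (nat_lit 0) (nat_lit 171345136366) (nat_lit 152) (nat_lit 165777809068) (nat_lit 0) (nat_lit 56436960545) (nat_lit 8) (nat_lit 5) (nat_lit 10) (nat_lit 4) (nat_lit 8) (nat_lit 4) (nat_lit 419) (nat_lit 333) (nat_lit 148)) (XT.nd (nat_lit 78) (nat_lit 0) (nat_lit 0) (XT.lf (nat_lit 0) (nat_lit 214341079853) (nat_lit 152) (nat_lit 97444900037) (nat_lit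 0) (nat_lit 99432246127) (nat_lit 8) (nat_lit 5) (nat_lit 10) (nat_lit 4) (nat_lit 8) (nat_lit 4) (nat_lit 420) (nat_lit 333) (nat_lit 147)) (XT.lf (nat_lit 0) (nat_lit 259486371587) (nat_lit 152) (nat_lit 25696201755) (nat_lit 0) (nat_lit 144576911284) (nat_lit 8) (nat_lit 5) (nat_lit 10) (nat_lit 4) (nat_lit 8) (nat_lit 4) (nat_lit 421) (nat_lit 333) (nat_lit 146)))) (XT.nd (nat_lit 78) (nat_lit 0) (nat_lit 0) (XT.lf (nat_lit 0) (nat_lit 51280409363) (nat_lit 76) (nat_lit 256408721897) (nat_lit 76) (nat_lit 141498664854) (nat_lit 7) (nat_lit 4) (nat_lit 8) (nat_lit 5) (nat_lit 8) (nat_lit 4) (nat_lit 422) (nat_lit 333) (nat_lit 145)) (XT.nd (nat_lit 78) (nat_lit 0) (nat_lit 0) (XT.lf (nat_lit 0) (nat_lit 132997162863) (nat_lit 76) (nat_lit 225739623947) (nat_lit 76) (nat_lit 110828998581) (nat_lit 7) (nat_lit 4) (nat_lit 8) (nat_lit 5) (nat_lit 8) (nat_lit 4) (nat_lit 423) (nat_lit 333)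 (nat_lit 144)) (XT.lf (nat_lit 0) (nat_lit 218798989965) (nat_lit 76) (nat_lit 193537435444) (nat_lit 76) (nat_lit 78626268817) (nat_lit 7) (nat_lit 4) (nat_lit 8) (nat_lit 5) (nat_lit 8) (nat_lit 4) (nat_lit 424) (nat_lit 333) (nat_lit 143))))) (XT.nd (nat_lit 234) (nat_lit 76) (nat_lit 0) (XT.nd (nat_lit 78) (nat_lit 76) (nat_lit 0) (XT.lf (nat_lit 0) (nat_lit 308890180733) (nat_lit 76) (nat_lit 159725484508) (nat_lit 76) (nat_lit 44813802395) (nat_lit 7) (nat_lit 4) (nat_lit 8) (nat_lit 5) (nat_lit 8) (nat_lit 4) (nat_lit 425) (nat_lit 333) (nat_lit 142)) (XT.nd (nat_lit 78) (nat_lit 76) (nat_lit 0) (XT.lf (nat_lit 0) (nat_lit 403485238003) (nat_lit 76) (nat_lit 124223266496) (nat_lit 76) (nat_lit 9311093444) (nat_lit 7) (nat_lit 4) (nat_lit 8) (nat_lit 5) (nat_lit 8) (nat_lit 4) (nat_lit 426) (nat_lit 333) (nat_lit 141)) (XT.lf (nat_lit 0) (nat_lit 27071289217) (nat_lit 152) (nat_lit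 59416497716) (nat_lit 76) (nat_lit 475279633501) (nat_lit 6) (nat_lit 5) (nat_lit 8) (nat_lit 5) (nat_lit 7) (nat_lit 4) (nat_lit 427) (nat_lit 333) (nat_lit 140)))) (XT.nd (nat_lit 39546) (nat_lit 0) (nat_lit 7220) (XT.lf (nat_lit 0) (nat_lit 18857535917) (nat_lit 76) (nat_lit 46396425949) (nat_lit 152) (nat_lit 522476335992) (nat_lit 5) (nat_lit 5) (nat_lit 6) (nat_lit 5) (nat_lit 7) (nat_lit 4) (nat_lit 428) (nat_lit 333) (nat_lit 139)) (XT.nd (nat_lit 78) (nat_lit 0) (nat_lit 0) (XT.lf (nat_lit 0) (nat_lit 4806744089) (nat_lit 0) (nat_lit 4806744089) (nat_lit 684) (nat_lit 1154717647) (nat_lit 100) (nat_lit 5) (nat_lit 100) (nat_lit 3) (nat_lit 109) (nat_lit 3) (nat_lit 334) (nat_lit 334) (nat_lit 232)) (XT.lf (nat_lit 0) (nat_lit 19846527246) (nat_lit 684) (nat_lit 1935914030) (nat_lit 760) (nat_lit 285230309) (nat_lit 100) (nat_lit 5) (nat_lit 109) (nat_lit 3) (nat_lit 110) (nat_lit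 5) (nat_lit 335) (nat_lit 334) (nat_lit 231))))))))
noncomputable def xc186 : XT := (XT.nd (nat_lit 1794) (nat_lit 2356) (nat_lit 0) (XT.nd (nat_lit 858) (nat_lit 1900) (nat_lit 0) (XT.nd (nat_lit 390) (nat_lit 456) (nat_lit 0) (XT.nd (nat_lit 156) (nat_lit 684) (nat_lit 0) (XT.nd (nat_lit 78) (nat_lit 0) (nat_lit 0) (XT.lf (nat_lit 76) (nat_lit 8665386442) (nat_lit 0) (nat_lit 12116030129) (nat_lit 760) (nat_lit 1829873122) (nat_lit 101) (nat_lit 5) (nat_lit 100) (nat_lit 5) (nat_lit 110) (nat_lit 5) (nat_lit 336) (nat_lit 334) (nat_lit 230)) (XT.lf (nat_lit 76) (nat_lit 19859232291) (nat_lit 0) (nat_lit 1928407726) (nat_lit 760) (nat_lit 1393231798) (nat_lit 101) (nat_lit 5) (nat_lit 100) (nat_lit 5) (nat_lit 110) (nat_lit 5) (nat_lit 337) (nat_lit 334) (nat_lit 229))) (XT.nd (nat_lit 78) (nat_lit 760) (nat_lit 0) (XT.lf (nat_lit 76) (nat_lit 7946307732) (nat_lit 0) (nat_lit 15151079223)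 (nat_lit 760) (nat_lit 668897463) (nat_lit 102) (nat_lit 5) (nat_lit 101) (nat_lit 5) (nat_lit 111) (nat_lit 5) (nat_lit 338) (nat_lit 334) (nat_lit 228)) (XT.nd (nat_lit 78) (nat_lit 0) (nat_lit 76) (XT.lf (nat_lit 0) (nat_lit 169914642) (nat_lit 760) (nat_lit 4524289976) (nat_lit 836) (nat_lit 19682642636) (nat_lit 91) (nat_lit 5) (nat_lit 101) (nat_lit 5) (nat_lit 102) (nat_lit 5) (nat_lit 339) (nat_lit 334) (nat_lit 227)) (XT.lf (nat_lit 0) (nat_lit 1239311161) (nat_lit 760) (nat_lit 17549782387) (nat_lit 836) (nat_lit 6217750606) (nat_lit 92) (nat_lit 5) (nat_lit 102) (nat_lit 5) (nat_lit 103) (nat_lit 5) (nat_lit 340) (nat_lit 334) (nat_lit 226))))) (XT.nd (nat_lit 234) (nat_lit 532) (nat_lit 0) (XT.nd (nat_lit 78) (nat_lit 0) (nat_lit 76) (XT.lf (nat_lit 0) (nat_lit 2510078711) (nat_lit 760) (nat_lit 5553374446) (nat_lit 836) (nat_lit 17597502548) (nat_lit 92) (nat_lit 5) (nat_lit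 102) (nat_lit 5) (nat_lit 103) (nat_lit 5) (nat_lit 341) (nat_lit 334) (nat_lit 225)) (XT.nd (nat_lit 78) (nat_lit 0) (nat_lit 0) (XT.lf (nat_lit 0) (nat_lit 4003122516) (nat_lit 760) (nat_lit 19123662189) (nat_lit 836) (nat_lit 3213060631) (nat_lit 93) (nat_lit 5) (nat_lit 103) (nat_lit 5) (nat_lit 104) (nat_lit 5) (nat_lit 342) (nat_lit 334) (nat_lit 224)) (XT.lf (nat_lit 0) (nat_lit 5792258272) (nat_lit 760) (nat_lit 6369918010) (nat_lit 836) (nat_lit 14879440126) (nat_lit 93) (nat_lit 5) (nat_lit 103) (nat_lit 5) (nat_lit 104) (nat_lit 5) (nat_lit 343) (nat_lit 334) (nat_lit 223)))) (XT.nd (nat_lit 78) (nat_lit 608) (nat_lit 0) (XT.lf (nat_lit 76) (nat_lit 7248529972) (nat_lit 0) (nat_lit 529453693) (nat_lit 836) (nat_lit 19995144249) (nat_lit 94) (nat_lit 5) (nat_lit 93) (nat_lit 5) (nat_lit 104) (nat_lit 5) (nat_lit 344) (nat_lit 334) (nat_lit 222)) (XT.nd (nat_lit 78) (nat_lit 684)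 (nat_lit 0) (XT.lf (nat_lit 0) (nat_lit 10149263948) (nat_lit 760) (nat_lit 6956189331) (nat_lit 76) (nat_lit 11421456401) (nat_lit 94) (nat_lit 5) (nat_lit 104) (nat_lit 5) (nat_lit 95) (nat_lit 5) (nat_lit 345) (nat_lit 334) (nat_lit 221)) (XT.lf (nat_lit 0) (nat_lit 7517603603) (nat_lit 684) (nat_lit 5242020189) (nat_lit 760) (nat_lit 16552738694) (nat_lit 85) (nat_lit 5) (nat_lit 94) (nat_lit 5) (nat_lit 95) (nat_lit 5) (nat_lit 346) (nat_lit 334) (nat_lit 220)))))) (XT.nd (nat_lit 468) (nat_lit 836) (nat_lit 0) (XT.nd (nat_lit 234) (nat_lit 684) (nat_lit 0) (XT.nd (nat_lit 78) (nat_lit 380) (nat_lit 0) (XT.lf (nat_lit 0) (nat_lit 15727538786) (nat_lit 760) (nat_lit 7294348008) (nat_lit 76) (nat_lit 7103856644) (nat_lit 85) (nat_lit 5) (nat_lit 95) (nat_lit 5) (nat_lit 86) (nat_lit 5) (nat_lit 347) (nat_lit 334) (nat_lit 219)) (XT.nd (nat_lit 78) (nat_lit 0) (nat_lit 0) (XT.lf (nat_lit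 0) (nat_lit 8099459434) (nat_lit 380) (nat_lit 10951694005) (nat_lit 456) (nat_lit 11918281814) (nat_lit 80) (nat_lit 5) (nat_lit 85) (nat_lit 5) (nat_lit 86) (nat_lit 5) (nat_lit 348) (nat_lit 334) (nat_lit 218)) (XT.lf (nat_lit 0) (nat_lit 22688474317) (nat_lit 456) (nat_lit 7366941923) (nat_lit 76) (nat_lit 1792525821) (nat_lit 80) (nat_lit 5) (nat_lit 86) (nat_lit 5) (nat_lit 81) (nat_lit 5) (nat_lit 349) (nat_lit 334) (nat_lit 217)))) (XT.nd (nat_lit 78) (nat_lit 380) (nat_lit 0) (XT.lf (nat_lit 0) (nat_lit 9015402644) (nat_lit 304) (nat_lit 17807866136) (nat_lit 380) (nat_lit 5931331412) (nat_lit 76) (nat_lit 5) (nat_lit 80) (nat_lit 5) (nat_lit 81) (nat_lit 5) (nat_lit 350) (nat_lit 334) (nat_lit 216)) (XT.nd (nat_lit 78) (nat_lit 380) (nat_lit 0) (XT.lf (nat_lit 0) (nat_lit 26467852079) (nat_lit 304) (nat_lit 4817177973) (nat_lit 380) (nat_lit 2415555879) (nat_lit 76) (nat_lit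 5) (nat_lit 80) (nat_lit 5) (nat_lit 81) (nat_lit 5) (nat_lit 351) (nat_lit 334) (nat_lit 215)) (XT.lf (nat_lit 0) (nat_lit 1534001061) (nat_lit 380) (nat_lit 24418175907) (nat_lit 76) (nat_lit 8725761736) (nat_lit 71) (nat_lit 5) (nat_lit 76) (nat_lit 5) (nat_lit 72) (nat_lit 5) (nat_lit 352) (nat_lit 334) (nat_lit 214))))) (XT.nd (nat_lit 234) (nat_lit 532) (nat_lit 0) (XT.nd (nat_lit 78) (nat_lit 304) (nat_lit 0) (XT.lf (nat_lit 0) (nat_lit 5799060741) (nat_lit 380) (nat_lit 6945459651) (nat_lit 76) (nat_lit 22947703821) (nat_lit 71) (nat_lit 5) (nat_lit 76) (nat_lit 5) (nat_lit 72) (nat_lit 5) (nat_lit 353) (nat_lit 334) (nat_lit 213)) (XT.nd (nat_lit 78) (nat_lit 0) (nat_lit 0) (XT.lf (nat_lit 0) (nat_lit 10477669038) (nat_lit 380) (nat_lit 24995688231) (nat_lit 76) (nat_lit 1273856930) (nat_lit 67) (nat_lit 5) (nat_lit 72) (nat_lit 5) (nat_lit 68) (nat_lit 5) (nat_lit 354) (nat_lit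 334) (nat_lit 212)) (XT.lf (nat_lit 0) (nat_lit 15714739188) (nat_lit 380) (nat_lit 6440159659) (nat_lit 76) (nat_lit 15683833009) (nat_lit 67) (nat_lit 5) (nat_lit 72) (nat_lit 5) (nat_lit 68) (nat_lit 5) (nat_lit 355) (nat_lit 334) (nat_lit 211)))) (XT.nd (nat_lit 78) (nat_lit 228) (nat_lit 0) (XT.lf (nat_lit 0) (nat_lit 13469762902) (nat_lit 304) (nat_lit 7950440578) (nat_lit 380) (nat_lit 17554299406) (nat_lit 63) (nat_lit 5) (nat_lit 67) (nat_lit 5) (nat_lit 68) (nat_lit 5) (nat_lit 356) (nat_lit 334) (nat_lit 210)) (XT.nd (nat_lit 78) (nat_lit 228) (nat_lit 0) (XT.lf (nat_lit 0) (nat_lit 27626865221) (nat_lit 380) (nat_lit 5677960112) (nat_lit 76) (nat_lit 6851445226) (nat_lit 63) (nat_lit 5) (nat_lit 68) (nat_lit 5) (nat_lit 64) (nat_lit 5) (nat_lit 357) (nat_lit 334) (nat_lit 209)) (XT.lf (nat_lit 0) (nat_lit 15501589329) (nat_lit 228) (nat_lit 19011141170) (nat_lit 304) (nat_lit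 6865956694) (nat_lit 60) (nat_lit 5) (nat_lit 63) (nat_lit 5) (nat_lit 64) (nat_lit 5) (nat_lit 358) (nat_lit 334) (nat_lit 208))))))) (XT.nd (nat_lit 858) (nat_lit 1064) (nat_lit 0) (XT.nd (nat_lit 390) (nat_lit 684) (nat_lit 0) (XT.nd (nat_lit 156) (nat_lit 228) (nat_lit 0) (XT.nd (nat_lit 78) (nat_lit 380) (nat_lit 0) (XT.lf (nat_lit 0) (nat_lit 37932930875) (nat_lit 228) (nat_lit 3902728053) (nat_lit 304) (nat_lit 821931140) (nat_lit 60) (nat_lit 5) (nat_lit 63) (nat_lit 5) (nat_lit 64) (nat_lit 5) (nat_lit 359) (nat_lit 334) (nat_lit 207)) (XT.lf (nat_lit 0) (nat_lit 5817508063) (nat_lit 380) (nat_lit 26204921734) (nat_lit 76) (nat_lit 11950198127) (nat_lit 55) (nat_lit 5) (nat_lit 60) (nat_lit 5) (nat_lit 56) (nat_lit 5) (nat_lit 360) (nat_lit 334) (nat_lit 206))) (XT.nd (nat_lit 78) (nat_lit 228) (nat_lit 0) (XT.lf (nat_lit 0) (nat_lit 12903394608) (nat_lit 380) (nat_lit 3883760927)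 (nat_lit 76) (nat_lit 28558486914) (nat_lit 55) (nat_lit 5) (nat_lit 60) (nat_lit 5) (nat_lit 56) (nat_lit 5) (nat_lit 361) (nat_lit 334) (nat_lit 205)) (XT.nd (nat_lit 78) (nat_lit 0) (nat_lit 0) (XT.lf (nat_lit 0) (nat_lit 20195754694) (nat_lit 228) (nat_lit 460078265) (nat_lit 304) (nat_lit 26115865079) (nat_lit 52) (nat_lit 5) (nat_lit 55) (nat_lit 5) (nat_lit 56) (nat_lit 5) (nat_lit 362) (nat_lit 334) (nat_lit 204)) (XT.lf (nat_lit 0) (nat_lit 29120230008) (nat_lit 304) (nat_lit 2917401049) (nat_lit 76) (nat_lit 16215211568) (nat_lit 52) (nat_lit 5) (nat_lit 56) (nat_lit 5) (nat_lit 53) (nat_lit 5) (nat_lit 363) (nat_lit 334) (nat_lit 203))))) (XT.nd (nat_lit 234) (nat_lit 228) (nat_lit 0) (XT.nd (nat_lit 78) (nat_lit 228) (nat_lit 0) (XT.lf (nat_lit 0) (nat_lit 22637089889) (nat_lit 228) (nat_lit 15728881284) (nat_lit 304) (nat_lit 11424169970) (nat_lit 49) (nat_lit 5) (nat_lit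 52) (nat_lit 5) (nat_lit 53) (nat_lit 5) (nat_lit 364) (nat_lit 334) (nat_lit 202)) (XT.nd (nat_lit 78) (nat_lit 228) (nat_lit 0) (XT.lf (nat_lit 0) (nat_lit 48143212202) (nat_lit 304) (nat_lit 1857862101) (nat_lit 76) (nat_lit 1399772419) (nat_lit 49) (nat_lit 5) (nat_lit 53) (nat_lit 5) (nat_lit 50) (nat_lit 5) (nat_lit 365) (nat_lit 334) (nat_lit 201)) (XT.lf (nat_lit 0) (nat_lit 5807080457) (nat_lit 228) (nat_lit 27904769618) (nat_lit 76) (nat_lit 19343087317) (nat_lit 46) (nat_lit 5) (nat_lit 49) (nat_lit 5) (nat_lit 47) (nat_lit 5) (nat_lit 366) (nat_lit 334) (nat_lit 200)))) (XT.nd (nat_lit 78) (nat_lit 228) (nat_lit 0) (XT.lf (nat_lit 0) (nat_lit 15244899084) (nat_lit 228) (nat_lit 1274839412) (nat_lit 76) (nat_lit 38267859014) (nat_lit 46) (nat_lit 5) (nat_lit 49) (nat_lit 5) (nat_lit 47) (nat_lit 5) (nat_lit 367) (nat_lit 334) (nat_lit 199)) (XT.nd (nat_lit 78) (nat_lit 0) (nat_lit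 0) (XT.lf (nat_lit 0) (nat_lit 25613425262) (nat_lit 304) (nat_lit 29051286965) (nat_lit 76) (nat_lit 1919239859) (nat_lit 43) (nat_lit 5) (nat_lit 47) (nat_lit 5) (nat_lit 44) (nat_lit 5) (nat_lit 368) (nat_lit 334) (nat_lit 198)) (XT.lf (nat_lit 0) (nat_lit 36790673379) (nat_lit 304) (nat_lit 919133094) (nat_lit 76) (nat_lit 20745805311) (nat_lit 43) (nat_lit 5) (nat_lit 47) (nat_lit 5) (nat_lit 44) (nat_lit 5) (nat_lit 369) (nat_lit 334) (nat_lit 197)))))) (XT.nd (nat_lit 468) (nat_lit 532) (nat_lit 0) (XT.nd (nat_lit 234) (nat_lit 152) (nat_lit 0) (XT.nd (nat_lit 78) (nat_lit 228) (nat_lit 0) (XT.lf (nat_lit 0) (nat_lit 29562259376) (nat_lit 152) (nat_lit 19423727849) (nat_lit 228) (nat_lit 11411909146) (nat_lit 41) (nat_lit 5) (nat_lit 43) (nat_lit 5) (nat_lit 44) (nat_lit 5) (nat_lit 370) (nat_lit 334) (nat_lit 196)) (XT.nd (nat_lit 78) (nat_lit 228) (nat_lit 0) (XT.lf (nat_lit 0)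 (nat_lit 61596142877) (nat_lit 152) (nat_lit 208200719) (nat_lit 228) (nat_lit 632289721) (nat_lit 41) (nat_lit 5) (nat_lit 43) (nat_lit 5) (nat_lit 44) (nat_lit 5) (nat_lit 371) (nat_lit 334) (nat_lit 195)) (XT.lf (nat_lit 0) (nat_lit 11156279601) (nat_lit 228) (nat_lit 33374911904) (nat_lit 76) (nat_lit 19997175352) (nat_lit 38) (nat_lit 5) (nat_lit 41) (nat_lit 5) (nat_lit 39) (nat_lit 5) (nat_lit 372) (nat_lit 334) (nat_lit 194)))) (XT.nd (nat_lit 78) (nat_lit 152) (nat_lit 0) (XT.lf (nat_lit 0) (nat_lit 23528726218) (nat_lit 228) (nat_lit 1965144209) (nat_lit 76) (nat_lit 41229515183) (nat_lit 38) (nat_lit 5) (nat_lit 41) (nat_lit 5) (nat_lit 39) (nat_lit 5) (nat_lit 373) (nat_lit 334) (nat_lit 193)) (XT.nd (nat_lit 78) (nat_lit 0) (nat_lit 0) (XT.lf (nat_lit 0) (nat_lit 32037232422) (nat_lit 152) (nat_lit 4980674989) (nat_lit 228) (nat_lit 31985343899) (nat_lit 36) (nat_lit 5) (nat_lit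 38) (nat_lit 5) (nat_lit 39) (nat_lit 5) (nat_lit 374) (nat_lit 334) (nat_lit 192)) (XT.lf (nat_lit 0) (nat_lit 51471844969) (nat_lit 228) (nat_lit 3849860889) (nat_lit 76) (nat_lit 16060891119) (nat_lit 36) (nat_lit 5) (nat_lit 39) (nat_lit 5) (nat_lit 37) (nat_lit 5) (nat_lit 375) (nat_lit 334) (nat_lit 191))))) (XT.nd (nat_lit 234) (nat_lit 152) (nat_lit 0) (XT.nd (nat_lit 78) (nat_lit 228) (nat_lit 0) (XT.lf (nat_lit 0) (nat_lit 31856929880) (nat_lit 152) (nat_lit 35368624890) (nat_lit 228) (nat_lit 6626502859) (nat_lit 34) (nat_lit 5) (nat_lit 36) (nat_lit 5) (nat_lit 37) (nat_lit 5) (nat_lit 376) (nat_lit 334) (nat_lit 190)) (XT.nd (nat_lit 78) (nat_lit 152) (nat_lit 0) (XT.lf (nat_lit 0) (nat_lit 7151939419) (nat_lit 228) (nat_lit 7077557964) (nat_lit 76) (nat_lit 62206562997) (nat_lit 33) (nat_lit 5) (nat_lit 36) (nat_lit 5) (nat_lit 34) (nat_lit 5) (nat_lit 377) (nat_lit 334)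 (nat_lit 189)) (XT.lf (nat_lit 0) (nat_lit 22004091021) (nat_lit 228) (nat_lit 48805291226) (nat_lit 76) (nat_lit 8304076675) (nat_lit 31) (nat_lit 5) (nat_lit 34) (nat_lit 5) (nat_lit 32) (nat_lit 5) (nat_lit 378) (nat_lit 334) (nat_lit 188)))) (XT.nd (nat_lit 78) (nat_lit 152) (nat_lit 0) (XT.lf (nat_lit 0) (nat_lit 37952124441) (nat_lit 228) (nat_lit 12348107747) (nat_lit 76) (nat_lit 31606832701) (nat_lit 31) (nat_lit 5) (nat_lit 34) (nat_lit 5) (nat_lit 32) (nat_lit 5) (nat_lit 379) (nat_lit 334) (nat_lit 187)) (XT.nd (nat_lit 78) (nat_lit 0) (nat_lit 0) (XT.lf (nat_lit 0) (nat_lit 26786376203) (nat_lit 152) (nat_lit 28327657511) (nat_lit 228) (nat_lit 29705494885) (nat_lit 29) (nat_lit 5) (nat_lit 31) (nat_lit 5) (nat_lit 32) (nat_lit 5) (nat_lit 380) (nat_lit 334) (nat_lit 186)) (XT.lf (nat_lit 0) (nat_lit 68303439360) (nat_lit 152) (nat_lit 5038022338) (nat_lit 228) (nat_lit 14525783732)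 (nat_lit 29) (nat_lit 5) (nat_lit 31) (nat_lit 5) (nat_lit 32) (nat_lit 5) (nat_lit 381) (nat_lit 334) (nat_lit 185))))))))
noncomputable def xc187 : XT := (XT.nd (nat_lit 1794) (nat_lit 532) (nat_lit 0) (XT.nd (nat_lit 858) (nat_lit 456) (nat_lit 0) (XT.nd (nat_lit 390) (nat_lit 380) (nat_lit 0) (XT.nd (nat_lit 156) (nat_lit 152) (nat_lit 0) (XT.nd (nat_lit 78) (nat_lit 0) (nat_lit 0) (XT.lf (nat_lit 0) (nat_lit 2010582358) (nat_lit 152) (nat_lit 69866470485) (nat_lit 76) (nat_lit 19157048708) (nat_lit 27) (nat_lit 5) (nat_lit 29) (nat_lit 5) (nat_lit 28) (nat_lit 5) (nat_lit 382) (nat_lit 334) (nat_lit 184)) (XT.lf (nat_lit 0) (nat_lit 19303323671) (nat_lit 152) (nat_lit 30056815637) (nat_lit 76) (nat_lit 44966369813) (nat_lit 27) (nat_lit 5) (nat_lit 29) (nat_lit 5) (nat_lit 28) (nat_lit 5) (nat_lit 383) (nat_lit 334) (nat_lit 183))) (XT.nd (nat_lit 78) (nat_lit 0) (nat_lit 0) (XT.lf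 (nat_lit 0) (nat_lit 12128871229) (nat_lit 152) (nat_lit 25519647855) (nat_lit 228) (nat_lit 60125628036) (nat_lit 25) (nat_lit 5) (nat_lit 27) (nat_lit 5) (nat_lit 28) (nat_lit 5) (nat_lit 384) (nat_lit 334) (nat_lit 182)) (XT.nd (nat_lit 78) (nat_lit 0) (nat_lit 0) (XT.lf (nat_lit 0) (nat_lit 57419207542) (nat_lit 228) (nat_lit 43904774877) (nat_lit 76) (nat_lit 44773799) (nat_lit 25) (nat_lit 5) (nat_lit 28) (nat_lit 5) (nat_lit 26) (nat_lit 4) (nat_lit 385) (nat_lit 334) (nat_lit 181)) (XT.lf (nat_lit 0) (nat_lit 78595325635) (nat_lit 228) (nat_lit 498143878) (nat_lit 76) (nat_lit 26028782315) (nat_lit 25) (nat_lit 5) (nat_lit 28) (nat_lit 5) (nat_lit 26) (nat_lit 4) (nat_lit 386) (nat_lit 334) (nat_lit 180))))) (XT.nd (nat_lit 234) (nat_lit 76) (nat_lit 0) (XT.nd (nat_lit 78) (nat_lit 228) (nat_lit 0) (XT.lf (nat_lit 0) (nat_lit 46566828783) (nat_lit 76) (nat_lit 54989069389) (nat_lit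 152) (nat_lit 7471242400) (nat_lit 24) (nat_lit 5) (nat_lit 25) (nat_lit 5) (nat_lit 26) (nat_lit 4) (nat_lit 387) (nat_lit 334) (nat_lit 179)) (XT.nd (nat_lit 78) (nat_lit 152) (nat_lit 0) (XT.lf (nat_lit 0) (nat_lit 12143146519) (nat_lit 152) (nat_lit 17322813633) (nat_lit 76) (nat_lit 83651167726) (nat_lit 23) (nat_lit 5) (nat_lit 25) (nat_lit 5) (nat_lit 24) (nat_lit 5) (nat_lit 388) (nat_lit 334) (nat_lit 178)) (XT.lf (nat_lit 0) (nat_lit 30936944350) (nat_lit 152) (nat_lit 2031921955) (nat_lit 228) (nat_lit 84412540241) (nat_lit 21) (nat_lit 5) (nat_lit 23) (nat_lit 5) (nat_lit 24) (nat_lit 5) (nat_lit 389) (nat_lit 334) (nat_lit 177)))) (XT.nd (nat_lit 78) (nat_lit 76) (nat_lit 0) (XT.lf (nat_lit 0) (nat_lit 55550759677) (nat_lit 228) (nat_lit 40058278802) (nat_lit 76) (nat_lit 26214116929) (nat_lit 21) (nat_lit 5) (nat_lit 24) (nat_lit 5) (nat_lit 22) (nat_lit 4) (nat_lit 390)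 (nat_lit 334) (nat_lit 176)) (XT.nd (nat_lit 78) (nat_lit 0) (nat_lit 0) (XT.lf (nat_lit 0) (nat_lit 8896431906) (nat_lit 76) (nat_lit 70536280128) (nat_lit 152) (nat_lit 47045732075) (nat_lit 20) (nat_lit 5) (nat_lit 21) (nat_lit 5) (nat_lit 22) (nat_lit 4) (nat_lit 391) (nat_lit 334) (nat_lit 175)) (XT.lf (nat_lit 0) (nat_lit 61687433793) (nat_lit 76) (nat_lit 43498515689) (nat_lit 152) (nat_lit 26146688973) (nat_lit 20) (nat_lit 5) (nat_lit 21) (nat_lit 5) (nat_lit 22) (nat_lit 4) (nat_lit 392) (nat_lit 334) (nat_lit 174)))))) (XT.nd (nat_lit 468) (nat_lit 228) (nat_lit 0) (XT.nd (nat_lit 234) (nat_lit 76) (nat_lit 0) (XT.nd (nat_lit 78) (nat_lit 152) (nat_lit 0) (XT.lf (nat_lit 0) (nat_lit 117115912113) (nat_lit 76) (nat_lit 15109775867) (nat_lit 152) (nat_lit 4203913133) (nat_lit 20) (nat_lit 5) (nat_lit 21) (nat_lit 5) (nat_lit 22) (nat_lit 4) (nat_lit 393) (nat_lit 334) (nat_lit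 173)) (XT.nd (nat_lit 78) (nat_lit 0) (nat_lit 0) (XT.lf (nat_lit 0) (nat_lit 19011188306) (nat_lit 152) (nat_lit 107645722712) (nat_lit 76) (nat_lit 15070894427) (nat_lit 18) (nat_lit 5) (nat_lit 20) (nat_lit 5) (nat_lit 19) (nat_lit 4) (nat_lit 394) (nat_lit 334) (nat_lit 172)) (XT.lf (nat_lit 0) (nat_lit 43824800480) (nat_lit 152) (nat_lit 56780396831) (nat_lit 76) (nat_lit 46653325596) (nat_lit 18) (nat_lit 5) (nat_lit 20) (nat_lit 5) (nat_lit 19) (nat_lit 4) (nat_lit 395) (nat_lit 334) (nat_lit 171)))) (XT.nd (nat_lit 78) (nat_lit 76) (nat_lit 0) (XT.lf (nat_lit 0) (nat_lit 69878031091) (nat_lit 152) (nat_lit 3373730338) (nat_lit 76) (nat_lit 79814068376) (nat_lit 18) (nat_lit 5) (nat_lit 20) (nat_lit 5) (nat_lit 19) (nat_lit 4) (nat_lit 396) (nat_lit 334) (nat_lit 170)) (XT.nd (nat_lit 78) (nat_lit 0) (nat_lit 0) (XT.lf (nat_lit 0) (nat_lit 54443982957) (nat_lit 76) (nat_lit 43638951838)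 (nat_lit 152) (nat_lit 61038117111) (nat_lit 17) (nat_lit 5) (nat_lit 18) (nat_lit 5) (nat_lit 19) (nat_lit 4) (nat_lit 397) (nat_lit 334) (nat_lit 169)) (XT.lf (nat_lit 0) (nat_lit 115267905813) (nat_lit 76) (nat_lit 12486322034) (nat_lit 152) (nat_lit 37722000469) (nat_lit 17) (nat_lit 5) (nat_lit 18) (nat_lit 5) (nat_lit 19) (nat_lit 4) (nat_lit 398) (nat_lit 334) (nat_lit 168))))) (XT.nd (nat_lit 234) (nat_lit 76) (nat_lit 0) (XT.nd (nat_lit 78) (nat_lit 76) (nat_lit 0) (XT.lf (nat_lit 0) (nat_lit 6886774685) (nat_lit 76) (nat_lit 152444628631) (nat_lit 76) (nat_lit 12796644739) (nat_lit 16) (nat_lit 4) (nat_lit 17) (nat_lit 5) (nat_lit 17) (nat_lit 4) (nat_lit 399) (nat_lit 334) (nat_lit 167)) (XT.nd (nat_lit 78) (nat_lit 0) (nat_lit 0) (XT.lf (nat_lit 0) (nat_lit 14014877754) (nat_lit 152) (nat_lit 110919409040) (nat_lit 76) (nat_lit 54114332205) (nat_lit 15) (nat_lit 5) (nat_lit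 17) (nat_lit 5) (nat_lit 16) (nat_lit 4) (nat_lit 400) (nat_lit 334) (nat_lit 166)) (XT.lf (nat_lit 0) (nat_lit 41736017010) (nat_lit 152) (nat_lit 54092906464) (nat_lit 76) (nat_lit 90475851714) (nat_lit 15) (nat_lit 5) (nat_lit 17) (nat_lit 5) (nat_lit 16) (nat_lit 4) (nat_lit 401) (nat_lit 334) (nat_lit 165)))) (XT.nd (nat_lit 78) (nat_lit 0) (nat_lit 0) (XT.lf (nat_lit 0) (nat_lit 5757606402) (nat_lit 76) (nat_lit 65174634260) (nat_lit 152) (nat_lit 122987047478) (nat_lit 14) (nat_lit 5) (nat_lit 15) (nat_lit 5) (nat_lit 16) (nat_lit 4) (nat_lit 402) (nat_lit 334) (nat_lit 164)) (XT.nd (nat_lit 78) (nat_lit 0) (nat_lit 0) (XT.lf (nat_lit 0) (nat_lit 70477059995) (nat_lit 76) (nat_lit 32026456807) (nat_lit 152) (nat_lit 99365248181) (nat_lit 14) (nat_lit 5) (nat_lit 15) (nat_lit 5) (nat_lit 16) (nat_lit 4) (nat_lit 403) (nat_lit 334) (nat_lit 163)) (XT.lf (nat_lit 0) (nat_lit 135695928193)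 (nat_lit 152) (nat_lit 71828143174) (nat_lit 0) (nat_lit 2689516023) (nat_lit 14) (nat_lit 5) (nat_lit 16) (nat_lit 4) (nat_lit 14) (nat_lit 4) (nat_lit 404) (nat_lit 334) (nat_lit 162))))))) (XT.nd (nat_lit 858) (nat_lit 228) (nat_lit 0) (XT.nd (nat_lit 390) (nat_lit 76) (nat_lit 0) (XT.nd (nat_lit 156) (nat_lit 152) (nat_lit 0) (XT.nd (nat_lit 78) (nat_lit 76) (nat_lit 0) (XT.lf (nat_lit 0) (nat_lit 171072204457) (nat_lit 152) (nat_lit 9812878363) (nat_lit 0) (nat_lit 38064356161) (nat_lit 14) (nat_lit 5) (nat_lit 16) (nat_lit 4) (nat_lit 14) (nat_lit 4) (nat_lit 405) (nat_lit 334) (nat_lit 161)) (XT.lf (nat_lit 0) (nat_lit 57130293766) (nat_lit 76) (nat_lit 151978222305) (nat_lit 76) (nat_lit 18969006271) (nat_lit 13) (nat_lit 4) (nat_lit 14) (nat_lit 5) (nat_lit 14) (nat_lit 4) (nat_lit 406) (nat_lit 334) (nat_lit 160))) (XT.nd (nat_lit 78) (nat_lit 76) (nat_lit 0) (XT.lf (nat_lit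 0) (nat_lit 11188423712) (nat_lit 152) (nat_lit 110074250031) (nat_lit 76) (nat_lit 116382040585) (nat_lit 12) (nat_lit 5) (nat_lit 14) (nat_lit 5) (nat_lit 13) (nat_lit 4) (nat_lit 407) (nat_lit 334) (nat_lit 159)) (XT.nd (nat_lit 78) (nat_lit 76) (nat_lit 0) (XT.lf (nat_lit 0) (nat_lit 42215536943) (nat_lit 152) (nat_lit 46469908485) (nat_lit 76) (nat_lit 158989307611) (nat_lit 12) (nat_lit 5) (nat_lit 14) (nat_lit 5) (nat_lit 13) (nat_lit 4) (nat_lit 408) (nat_lit 334) (nat_lit 158)) (XT.lf (nat_lit 0) (nat_lit 20985046871) (nat_lit 76) (nat_lit 54135922687) (nat_lit 152) (nat_lit 183068976163) (nat_lit 11) (nat_lit 5) (nat_lit 12) (nat_lit 5) (nat_lit 13) (nat_lit 4) (nat_lit 409) (nat_lit 334) (nat_lit 157))))) (XT.nd (nat_lit 234) (nat_lit 76) (nat_lit 0) (XT.nd (nat_lit 78) (nat_lit 0) (nat_lit 0) (XT.lf (nat_lit 0) (nat_lit 93424844722) (nat_lit 76) (nat_lit 17033160491) (nat_lit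 152) (nat_lit 158733576462) (nat_lit 11) (nat_lit 5) (nat_lit 12) (nat_lit 5) (nat_lit 13) (nat_lit 4) (nat_lit 410) (nat_lit 334) (nat_lit 156)) (XT.nd (nat_lit 78) (nat_lit 0) (nat_lit 0) (XT.lf (nat_lit 0) (nat_lit 147903563113) (nat_lit 152) (nat_lit 111600173328) (nat_lit 0) (nat_lit 21222479661) (nat_lit 11) (nat_lit 5) (nat_lit 13) (nat_lit 4) (nat_lit 11) (nat_lit 4) (nat_lit 411) (nat_lit 334) (nat_lit 155)) (XT.lf (nat_lit 0) (nat_lit 187500025170) (nat_lit 152) (nat_lit 44505656264) (nat_lit 0) (nat_lit 60817969692) (nat_lit 11) (nat_lit 5) (nat_lit 13) (nat_lit 4) (nat_lit 11) (nat_lit 4) (nat_lit 412) (nat_lit 334) (nat_lit 154)))) (XT.nd (nat_lit 78) (nat_lit 0) (nat_lit 0) (XT.lf (nat_lit 0) (nat_lit 26800274616) (nat_lit 76) (nat_lit 202693886083) (nat_lit 76) (nat_lit 76010904866) (nat_lit 10) (nat_lit 4) (nat_lit 11) (nat_lit 5) (nat_lit 11) (nat_lit 4) (nat_lit 413)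 (nat_lit 334) (nat_lit 153)) (XT.nd (nat_lit 78) (nat_lit 0) (nat_lit 0) (XT.lf (nat_lit 0) (nat_lit 103215567288) (nat_lit 76) (nat_lit 171125594278) (nat_lit 76) (nat_lit 44441731404) (nat_lit 10) (nat_lit 4) (nat_lit 11) (nat_lit 5) (nat_lit 11) (nat_lit 4) (nat_lit 414) (nat_lit 334) (nat_lit 152)) (XT.lf (nat_lit 0) (nat_lit 183450604934) (nat_lit 76) (nat_lit 137979368243) (nat_lit 76) (nat_lit 11294665696) (nat_lit 10) (nat_lit 4) (nat_lit 11) (nat_lit 5) (nat_lit 11) (nat_lit 4) (nat_lit 415) (nat_lit 334) (nat_lit 151)))))) (XT.nd (nat_lit 468) (nat_lit 76) (nat_lit 0) (XT.nd (nat_lit 234) (nat_lit 0) (nat_lit 0) (XT.nd (nat_lit 78) (nat_lit 76) (nat_lit 0) (XT.lf (nat_lit 0) (nat_lit 22756772181) (nat_lit 152) (nat_lit 80034119263) (nat_lit 76) (nat_lit 244554254229) (nat_lit 9) (nat_lit 5) (nat_lit 11) (nat_lit 5) (nat_lit 10) (nat_lit 4) (nat_lit 416) (nat_lit 334) (nat_lit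 150)) (XT.nd (nat_lit 78) (nat_lit 76) (nat_lit 0) (XT.lf (nat_lit 0) (nat_lit 58130709799) (nat_lit 152) (nat_lit 7518308754) (nat_lit 76) (nat_lit 297038426344) (nat_lit 9) (nat_lit 5) (nat_lit 11) (nat_lit 5) (nat_lit 10) (nat_lit 4) (nat_lit 417) (nat_lit 334) (nat_lit 149)) (XT.lf (nat_lit 0) (nat_lit 70891361973) (nat_lit 76) (nat_lit 25488321517) (nat_lit 152) (nat_lit 282361858767) (nat_lit 8) (nat_lit 5) (nat_lit 9) (nat_lit 5) (nat_lit 10) (nat_lit 4) (nat_lit 418) (nat_lit 334) (nat_lit 148)))) (XT.nd (nat_lit 78) (nat_lit 0) (nat_lit 0) (XT.lf (nat_lit 0) (nat_lit 136930475957) (nat_lit 152) (nat_lit 242372857515) (nat_lit 0) (nat_lit 16275542638) (nat_lit 8) (nat_lit 5) (nat_lit 10) (nat_lit 4) (nat_lit 8) (nat_lit 4) (nat_lit 419) (nat_lit 334) (nat_lit 147)) (XT.nd (nat_lit 78) (nat_lit 0) (nat_lit 0) (XT.lf (nat_lit 0) (nat_lit 179926200455) (nat_lit 152) (nat_lit 174040366143)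 (nat_lit 0) (nat_lit 59270640560) (nat_lit 8) (nat_lit 5) (nat_lit 10) (nat_lit 4) (nat_lit 8) (nat_lit 4) (nat_lit 420) (nat_lit 334) (nat_lit 146)) (XT.lf (nat_lit 0) (nat_lit 225071283627) (nat_lit 152) (nat_lit 102292065631) (nat_lit 0) (nat_lit 104415126992) (nat_lit 8) (nat_lit 5) (nat_lit 10) (nat_lit 4) (nat_lit 8) (nat_lit 4) (nat_lit 421) (nat_lit 334) (nat_lit 145))))) (XT.nd (nat_lit 234) (nat_lit 0) (nat_lit 0) (XT.nd (nat_lit 78) (nat_lit 76) (nat_lit 0) (XT.lf (nat_lit 0) (nat_lit 272473213767) (nat_lit 152) (nat_lit 26957126692) (nat_lit 0) (nat_lit 151816488809) (nat_lit 8) (nat_lit 5) (nat_lit 10) (nat_lit 4) (nat_lit 8) (nat_lit 4) (nat_lit 422) (nat_lit 334) (nat_lit 144)) (XT.nd (nat_lit 78) (nat_lit 0) (nat_lit 0) (XT.lf (nat_lit 0) (nat_lit 53867929738) (nat_lit 76) (nat_lit 269217952223) (nat_lit 76) (nat_lit 148560686004) (nat_lit 7) (nat_lit 4) (nat_lit 8) (nat_lit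 5) (nat_lit 8) (nat_lit 4) (nat_lit 423) (nat_lit 334) (nat_lit 143)) (XT.lf (nat_lit 0) (nat_lit 139669401870) (nat_lit 76) (nat_lit 237015932985) (nat_lit 76) (nat_lit 116358151280) (nat_lit 7) (nat_lit 4) (nat_lit 8) (nat_lit 5) (nat_lit 8) (nat_lit 4) (nat_lit 424) (nat_lit 334) (nat_lit 142)))) (XT.nd (nat_lit 78) (nat_lit 0) (nat_lit 0) (XT.lf (nat_lit 0) (nat_lit 229760254571) (nat_lit 76) (nat_lit 203204143254) (nat_lit 76) (nat_lit 82545870610) (nat_lit 7) (nat_lit 4) (nat_lit 8) (nat_lit 5) (nat_lit 8) (nat_lit 4) (nat_lit 425) (nat_lit 334) (nat_lit 141)) (XT.nd (nat_lit 78) (nat_lit 0) (nat_lit 0) (XT.lf (nat_lit 0) (nat_lit 324354989873) (nat_lit 76) (nat_lit 167702078770) (nat_lit 76) (nat_lit 47043338565) (nat_lit 7) (nat_lit 4) (nat_lit 8) (nat_lit 5) (nat_lit 8) (nat_lit 4) (nat_lit 426) (nat_lit 334) (nat_lit 140)) (XT.lf (nat_lit 0) (nat_lit 423678833335) (nat_lit 76)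 (nat_lit 130425210807) (nat_lit 76) (nat_lit 9766025306) (nat_lit 7) (nat_lit 4) (nat_lit 8) (nat_lit 5) (nat_lit 8) (nat_lit 4) (nat_lit 427) (nat_lit 334) (nat_lit 139))))))))
noncomputable def xc188 : XT := (XT.nd (nat_lit 41340) (nat_lit 0) (nat_lit 1900) (XT.nd (nat_lit 40404) (nat_lit 0) (nat_lit 4636) (XT.nd (nat_lit 39936) (nat_lit 0) (nat_lit 6460) (XT.nd (nat_lit 39702) (nat_lit 0) (nat_lit 7144) (XT.nd (nat_lit 39624) (nat_lit 0) (nat_lit 7144) (XT.lf (nat_lit 0) (nat_lit 28434646834) (nat_lit 152) (nat_lit 62368583581) (nat_lit 76) (nat_lit 499052068960) (nat_lit 6) (nat_lit 5) (nat_lit 8) (nat_lit 5) (nat_lit 7) (nat_lit 4) (nat_lit 428) (nat_lit 334) (nat_lit 138)) (XT.lf (nat_lit 0) (nat_lit 5113171077) (nat_lit 0) (nat_lit 5113171077) (nat_lit 684) (nat_lit 1073461676) (nat_lit 100) (nat_lit 5) (nat_lit 100) (nat_lit 3) (nat_lit 109) (nat_lit 3) (nat_lit 335) (nat_lit 335)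 (nat_lit 230))) (XT.nd (nat_lit 78) (nat_lit 0) (nat_lit 0) (XT.lf (nat_lit 0) (nat_lit 21088658790) (nat_lit 684) (nat_lit 1891883225) (nat_lit 760) (nat_lit 177635638) (nat_lit 100) (nat_lit 5) (nat_lit 109) (nat_lit 3) (nat_lit 110) (nat_lit 5) (nat_lit 336) (nat_lit 335) (nat_lit 229)) (XT.nd (nat_lit 78) (nat_lit 0) (nat_lit 0) (XT.lf (nat_lit 76) (nat_lit 9237210876) (nat_lit 0) (nat_lit 12823349454) (nat_lit 760) (nat_lit 1668921389) (nat_lit 101) (nat_lit 5) (nat_lit 100) (nat_lit 5) (nat_lit 110) (nat_lit 5) (nat_lit 337) (nat_lit 335) (nat_lit 228)) (XT.lf (nat_lit 76) (nat_lit 20984151155) (nat_lit 0) (nat_lit 2121511749) (nat_lit 760) (nat_lit 1222469208) (nat_lit 101) (nat_lit 5) (nat_lit 100) (nat_lit 5) (nat_lit 110) (nat_lit 5) (nat_lit 338) (nat_lit 335) (nat_lit 227))))) (XT.nd (nat_lit 234) (nat_lit 0) (nat_lit 76) (XT.nd (nat_lit 78) (nat_lit 760) (nat_lit 0) (XT.lf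 (nat_lit 76) (nat_lit 8486530421) (nat_lit 0) (nat_lit 15984272668) (nat_lit 760) (nat_lit 472533687) (nat_lit 102) (nat_lit 5) (nat_lit 101) (nat_lit 5) (nat_lit 111) (nat_lit 5) (nat_lit 339) (nat_lit 335) (nat_lit 226)) (XT.nd (nat_lit 78) (nat_lit 0) (nat_lit 76) (XT.lf (nat_lit 0) (nat_lit 390270695) (nat_lit 760) (nat_lit 4607093800) (nat_lit 836) (nat_lit 20587428682) (nat_lit 91) (nat_lit 5) (nat_lit 101) (nat_lit 5) (nat_lit 102) (nat_lit 5) (nat_lit 340) (nat_lit 335) (nat_lit 225)) (XT.lf (nat_lit 0) (nat_lit 1504269696) (nat_lit 760) (nat_lit 18274704513) (nat_lit 836) (nat_lit 6467773530) (nat_lit 92) (nat_lit 5) (nat_lit 102) (nat_lit 5) (nat_lit 103) (nat_lit 5) (nat_lit 341) (nat_lit 335) (nat_lit 224)))) (XT.nd (nat_lit 78) (nat_lit 0) (nat_lit 76) (XT.lf (nat_lit 0) (nat_lit 2828909290) (nat_lit 760) (nat_lit 5685741270) (nat_lit 836) (nat_lit 18419411385) (nat_lit 92)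 (nat_lit 5) (nat_lit 102) (nat_lit 5) (nat_lit 103) (nat_lit 5) (nat_lit 342) (nat_lit 335) (nat_lit 223)) (XT.nd (nat_lit 78) (nat_lit 0) (nat_lit 0) (XT.lf (nat_lit 0) (nat_lit 4388953729) (nat_lit 760) (nat_lit 19926629735) (nat_lit 836) (nat_lit 3331708276) (nat_lit 93) (nat_lit 5) (nat_lit 103) (nat_lit 5) (nat_lit 104) (nat_lit 5) (nat_lit 343) (nat_lit 335) (nat_lit 222)) (XT.lf (nat_lit 0) (nat_lit 6258704602) (nat_lit 760) (nat_lit 6542494327) (nat_lit 836) (nat_lit 15583407003) (nat_lit 93) (nat_lit 5) (nat_lit 103) (nat_lit 5) (nat_lit 104) (nat_lit 5) (nat_lit 344) (nat_lit 335) (nat_lit 221)))))) (XT.nd (nat_lit 468) (nat_lit 988) (nat_lit 0) (XT.nd (nat_lit 234) (nat_lit 380) (nat_lit 0) (XT.nd (nat_lit 78) (nat_lit 608) (nat_lit 0) (XT.lf (nat_lit 76) (nat_lit 7754522512) (nat_lit 0) (nat_lit 583014582) (nat_lit 836) (nat_lit 20815476764) (nat_lit 94) (nat_lit 5) (nat_lit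 93) (nat_lit 5) (nat_lit 104) (nat_lit 5) (nat_lit 345) (nat_lit 335) (nat_lit 220)) (XT.nd (nat_lit 78) (nat_lit 684) (nat_lit 0) (XT.lf (nat_lit 0) (nat_lit 10818852215) (nat_lit 760) (nat_lit 7158513640) (nat_lit 76) (nat_lit 11967556638) (nat_lit 94) (nat_lit 5) (nat_lit 104) (nat_lit 5) (nat_lit 95) (nat_lit 5) (nat_lit 346) (nat_lit 335) (nat_lit 219)) (XT.lf (nat_lit 0) (nat_lit 8036622407) (nat_lit 684) (nat_lit 5517622198) (nat_lit 760) (nat_lit 17215688388) (nat_lit 85) (nat_lit 5) (nat_lit 94) (nat_lit 5) (nat_lit 95) (nat_lit 5) (nat_lit 347) (nat_lit 335) (nat_lit 218)))) (XT.nd (nat_lit 78) (nat_lit 380) (nat_lit 0) (XT.lf (nat_lit 0) (nat_lit 16662895568) (nat_lit 760) (nat_lit 7514877761) (nat_lit 76) (nat_lit 7446602921) (nat_lit 85) (nat_lit 5) (nat_lit 95) (nat_lit 5) (nat_lit 86) (nat_lit 5) (nat_lit 348) (nat_lit 335) (nat_lit 217)) (XT.nd (nat_lit 78) (nat_lit 0)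 (nat_lit 0) (XT.lf (nat_lit 0) (nat_lit 8646294446) (nat_lit 380) (nat_lit 11501517093) (nat_lit 456) (nat_lit 12362694867) (nat_lit 80) (nat_lit 5) (nat_lit 85) (nat_lit 5) (nat_lit 86) (nat_lit 5) (nat_lit 349) (nat_lit 335) (nat_lit 216)) (XT.lf (nat_lit 0) (nat_lit 23960103253) (nat_lit 456) (nat_lit 7593100830) (nat_lit 76) (nat_lit 1880088545) (nat_lit 80) (nat_lit 5) (nat_lit 86) (nat_lit 5) (nat_lit 81) (nat_lit 5) (nat_lit 350) (nat_lit 335) (nat_lit 215))))) (XT.nd (nat_lit 234) (nat_lit 304) (nat_lit 0) (XT.nd (nat_lit 78) (nat_lit 380) (nat_lit 0) (XT.lf (nat_lit 0) (nat_lit 9606067607) (nat_lit 304) (nat_lit 18691220400) (nat_lit 380) (nat_lit 6088222000) (nat_lit 76) (nat_lit 5) (nat_lit 80) (nat_lit 5) (nat_lit 81) (nat_lit 5) (nat_lit 351) (nat_lit 335) (nat_lit 214)) (XT.nd (nat_lit 78) (nat_lit 380) (nat_lit 0) (XT.lf (nat_lit 0) (nat_lit 27924477854) (nat_lit 304) (nat_lit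 5051333022) (nat_lit 380) (nat_lit 2403308928) (nat_lit 76) (nat_lit 5) (nat_lit 80) (nat_lit 5) (nat_lit 81) (nat_lit 5) (nat_lit 352) (nat_lit 335) (nat_lit 213)) (XT.lf (nat_lit 0) (nat_lit 1735617706) (nat_lit 380) (nat_lit 25497429217) (nat_lit 76) (nat_lit 9172389638) (nat_lit 71) (nat_lit 5) (nat_lit 76) (nat_lit 5) (nat_lit 72) (nat_lit 5) (nat_lit 353) (nat_lit 335) (nat_lit 212)))) (XT.nd (nat_lit 78) (nat_lit 304) (nat_lit 0) (XT.lf (nat_lit 0) (nat_lit 6207981961) (nat_lit 380) (nat_lit 7157822647) (nat_lit 76) (nat_lit 24104936455) (nat_lit 71) (nat_lit 5) (nat_lit 76) (nat_lit 5) (nat_lit 72) (nat_lit 5) (nat_lit 354) (nat_lit 335) (nat_lit 211)) (XT.nd (nat_lit 78) (nat_lit 0) (nat_lit 0) (XT.lf (nat_lit 0) (nat_lit 11117198888) (nat_lit 380) (nat_lit 26107101870) (nat_lit 76) (nat_lit 1354352830) (nat_lit 67) (nat_lit 5) (nat_lit 72) (nat_lit 5) (nat_lit 68) (nat_lit 5)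 (nat_lit 355) (nat_lit 335) (nat_lit 210)) (XT.lf (nat_lit 0) (nat_lit 16610615574) (nat_lit 380) (nat_lit 6630385954) (nat_lit 76) (nat_lit 16484027568) (nat_lit 67) (nat_lit 5) (nat_lit 72) (nat_lit 5) (nat_lit 68) (nat_lit 5) (nat_lit 356) (nat_lit 335) (nat_lit 209))))))) (XT.nd (nat_lit 858) (nat_lit 1140) (nat_lit 0) (XT.nd (nat_lit 390) (nat_lit 684) (nat_lit 0) (XT.nd (nat_lit 156) (nat_lit 608) (nat_lit 0) (XT.nd (nat_lit 78) (nat_lit 0) (nat_lit 0) (XT.lf (nat_lit 0) (nat_lit 14272907224) (nat_lit 304) (nat_lit 8325225419) (nat_lit 380) (nat_lit 18319623360) (nat_lit 63) (nat_lit 5) (nat_lit 67) (nat_lit 5) (nat_lit 68) (nat_lit 5) (nat_lit 357) (nat_lit 335) (nat_lit 208)) (XT.lf (nat_lit 0) (nat_lit 29110374177) (nat_lit 380) (nat_lit 5833502677) (nat_lit 76) (nat_lit 7214978874) (nat_lit 63) (nat_lit 5) (nat_lit 68) (nat_lit 5) (nat_lit 64) (nat_lit 5) (nat_lit 358) (nat_lit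 335) (nat_lit 207))) (XT.nd (nat_lit 78) (nat_lit 380) (nat_lit 0) (XT.lf (nat_lit 0) (nat_lit 16402953988) (nat_lit 228) (nat_lit 19934685364) (nat_lit 304) (nat_lit 7104904228) (nat_lit 60) (nat_lit 5) (nat_lit 63) (nat_lit 5) (nat_lit 64) (nat_lit 5) (nat_lit 359) (nat_lit 335) (nat_lit 206)) (XT.nd (nat_lit 78) (nat_lit 380) (nat_lit 0) (XT.lf (nat_lit 0) (nat_lit 39949849030) (nat_lit 228) (nat_lit 4072137918) (nat_lit 304) (nat_lit 763646458) (nat_lit 60) (nat_lit 5) (nat_lit 63) (nat_lit 5) (nat_lit 64) (nat_lit 5) (nat_lit 360) (nat_lit 335) (nat_lit 205)) (XT.lf (nat_lit 0) (nat_lit 6202338732) (nat_lit 380) (nat_lit 27389267726) (nat_lit 76) (nat_lit 12574856314) (nat_lit 55) (nat_lit 5) (nat_lit 60) (nat_lit 5) (nat_lit 56) (nat_lit 5) (nat_lit 361) (nat_lit 335) (nat_lit 204))))) (XT.nd (nat_lit 234) (nat_lit 456) (nat_lit 0) (XT.nd (nat_lit 78) (nat_lit 228) (nat_lit 0) (XT.lf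 (nat_lit 0) (nat_lit 13638045544) (nat_lit 380) (nat_lit 3958044121) (nat_lit 76) (nat_lit 30012266765) (nat_lit 55) (nat_lit 5) (nat_lit 60) (nat_lit 5) (nat_lit 56) (nat_lit 5) (nat_lit 362) (nat_lit 335) (nat_lit 203)) (XT.nd (nat_lit 78) (nat_lit 0) (nat_lit 0) (XT.lf (nat_lit 0) (nat_lit 21323513332) (nat_lit 228) (nat_lit 452173327) (nat_lit 304) (nat_lit 27330153577) (nat_lit 52) (nat_lit 5) (nat_lit 55) (nat_lit 5) (nat_lit 56) (nat_lit 5) (nat_lit 363) (nat_lit 335) (nat_lit 202)) (XT.lf (nat_lit 0) (nat_lit 30659617343) (nat_lit 304) (nat_lit 2947146308) (nat_lit 76) (nat_lit 17054466980) (nat_lit 52) (nat_lit 5) (nat_lit 56) (nat_lit 5) (nat_lit 53) (nat_lit 5) (nat_lit 364) (nat_lit 335) (nat_lit 201)))) (XT.nd (nat_lit 78) (nat_lit 228) (nat_lit 0) (XT.lf (nat_lit 0) (nat_lit 23883196197) (nat_lit 228) (nat_lit 16482262883) (nat_lit 304) (nat_lit 11910048383) (nat_lit 49)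 (nat_lit 5) (nat_lit 52) (nat_lit 5) (nat_lit 53) (nat_lit 5) (nat_lit 365) (nat_lit 335) (nat_lit 200)) (XT.nd (nat_lit 78) (nat_lit 228) (nat_lit 0) (XT.lf (nat_lit 0) (nat_lit 50628187617) (nat_lit 304) (nat_lit 1838492011) (nat_lit 76) (nat_lit 1500241288) (nat_lit 49) (nat_lit 5) (nat_lit 53) (nat_lit 5) (nat_lit 50) (nat_lit 5) (nat_lit 366) (nat_lit 335) (nat_lit 199)) (XT.lf (nat_lit 0) (nat_lit 6174582824) (nat_lit 228) (nat_lit 29186934523) (nat_lit 76) (nat_lit 20342239292) (nat_lit 46) (nat_lit 5) (nat_lit 49) (nat_lit 5) (nat_lit 47) (nat_lit 5) (nat_lit 367) (nat_lit 335) (nat_lit 198)))))) (XT.nd (nat_lit 468) (nat_lit 532) (nat_lit 0) (XT.nd (nat_lit 234) (nat_lit 380) (nat_lit 0) (XT.nd (nat_lit 78) (nat_lit 228) (nat_lit 0) (XT.lf (nat_lit 0) (nat_lit 16080618652) (nat_lit 228) (nat_lit 1230892263) (nat_lit 76) (nat_lit 40211725878) (nat_lit 46) (nat_lit 5) (nat_lit 49)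 (nat_lit 5) (nat_lit 47) (nat_lit 5) (nat_lit 368) (nat_lit 335) (nat_lit 197)) (XT.nd (nat_lit 78) (nat_lit 0) (nat_lit 0) (XT.lf (nat_lit 0) (nat_lit 26966262424) (nat_lit 304) (nat_lit 30394789800) (nat_lit 76) (nat_lit 2048425494) (nat_lit 43) (nat_lit 5) (nat_lit 47) (nat_lit 5) (nat_lit 44) (nat_lit 5) (nat_lit 369) (nat_lit 335) (nat_lit 196)) (XT.lf (nat_lit 0) (nat_lit 38698936475) (nat_lit 304) (nat_lit 861221642) (nat_lit 76) (nat_lit 21814737140) (nat_lit 43) (nat_lit 5) (nat_lit 47) (nat_lit 5) (nat_lit 44) (nat_lit 5) (nat_lit 370) (nat_lit 335) (nat_lit 195)))) (XT.nd (nat_lit 78) (nat_lit 228) (nat_lit 0) (XT.lf (nat_lit 0) (nat_lit 31142565160) (nat_lit 152) (nat_lit 20359773539) (nat_lit 228) (nat_lit 11912042127) (nat_lit 41) (nat_lit 5) (nat_lit 43) (nat_lit 5) (nat_lit 44) (nat_lit 5) (nat_lit 371) (nat_lit 335) (nat_lit 194)) (XT.nd (nat_lit 78) (nat_lit 228) (nat_lit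 0) (XT.lf (nat_lit 0) (nat_lit 64773276512) (nat_lit 152) (nat_lit 185143420) (nat_lit 228) (nat_lit 596797086) (nat_lit 41) (nat_lit 5) (nat_lit 43) (nat_lit 5) (nat_lit 44) (nat_lit 5) (nat_lit 372) (nat_lit 335) (nat_lit 193)) (XT.lf (nat_lit 0) (nat_lit 11778027442) (nat_lit 228) (nat_lit 34943055467) (nat_lit 76) (nat_lit 21030455703) (nat_lit 38) (nat_lit 5) (nat_lit 41) (nat_lit 5) (nat_lit 39) (nat_lit 5) (nat_lit 373) (nat_lit 335) (nat_lit 192))))) (XT.nd (nat_lit 234) (nat_lit 380) (nat_lit 0) (XT.nd (nat_lit 78) (nat_lit 152) (nat_lit 0) (XT.lf (nat_lit 0) (nat_lit 24766051921) (nat_lit 228) (nat_lit 1967589960) (nat_lit 76) (nat_lit 43322821022) (nat_lit 38) (nat_lit 5) (nat_lit 41) (nat_lit 5) (nat_lit 39) (nat_lit 5) (nat_lit 374) (nat_lit 335) (nat_lit 191)) (XT.nd (nat_lit 78) (nat_lit 0) (nat_lit 0) (XT.lf (nat_lit 0) (nat_lit 33733360156) (nat_lit 152) (nat_lit 5194904281)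 (nat_lit 228) (nat_lit 33522131102) (nat_lit 36) (nat_lit 5) (nat_lit 38) (nat_lit 5) (nat_lit 39) (nat_lit 5) (nat_lit 375) (nat_lit 335) (nat_lit 190)) (XT.lf (nat_lit 0) (nat_lit 54102584884) (nat_lit 228) (nat_lit 3950219595) (nat_lit 76) (nat_lit 16896021863) (nat_lit 36) (nat_lit 5) (nat_lit 39) (nat_lit 5) (nat_lit 37) (nat_lit 5) (nat_lit 376) (nat_lit 335) (nat_lit 189)))) (XT.nd (nat_lit 78) (nat_lit 228) (nat_lit 0) (XT.lf (nat_lit 0) (nat_lit 33540424675) (nat_lit 152) (nat_lit 37102249457) (nat_lit 228) (nat_lit 6899153250) (nat_lit 34) (nat_lit 5) (nat_lit 36) (nat_lit 5) (nat_lit 37) (nat_lit 5) (nat_lit 377) (nat_lit 335) (nat_lit 188)) (XT.nd (nat_lit 78) (nat_lit 152) (nat_lit 0) (XT.lf (nat_lit 0) (nat_lit 7563628575) (nat_lit 228) (nat_lit 7343278384) (nat_lit 76) (nat_lit 65348214600) (nat_lit 33) (nat_lit 5) (nat_lit 36) (nat_lit 5) (nat_lit 34) (nat_lit 5) (nat_lit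 378) (nat_lit 335) (nat_lit 187)) (XT.lf (nat_lit 0) (nat_lit 23157694852) (nat_lit 228) (nat_lit 51156669946) (nat_lit 76) (nat_lit 8752061648) (nat_lit 31) (nat_lit 5) (nat_lit 34) (nat_lit 5) (nat_lit 32) (nat_lit 5) (nat_lit 379) (nat_lit 335) (nat_lit 186))))))))
noncomputable def xc189 : XT := (XT.nd (nat_lit 1794) (nat_lit 608) (nat_lit 0) (XT.nd (nat_lit 858) (nat_lit 456) (nat_lit 0) (XT.nd (nat_lit 390) (nat_lit 456) (nat_lit 0) (XT.nd (nat_lit 156) (nat_lit 152) (nat_lit 0) (XT.nd (nat_lit 78) (nat_lit 152) (nat_lit 0) (XT.lf (nat_lit 0) (nat_lit 39900587119) (nat_lit 228) (nat_lit 12880859953) (nat_lit 76) (nat_lit 33218394469) (nat_lit 31) (nat_lit 5) (nat_lit 34) (nat_lit 5) (nat_lit 32) (nat_lit 5) (nat_lit 380) (nat_lit 335) (nat_lit 185)) (XT.lf (nat_lit 0) (nat_lit 28208982821) (nat_lit 152) (nat_lit 29710487656) (nat_lit 228) (nat_lit 31138515636) (nat_lit 29) (nat_lit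 5) (nat_lit 31) (nat_lit 5) (nat_lit 32) (nat_lit 5) (nat_lit 381) (nat_lit 335) (nat_lit 184))) (XT.nd (nat_lit 78) (nat_lit 152) (nat_lit 0) (XT.lf (nat_lit 0) (nat_lit 71797933050) (nat_lit 152) (nat_lit 5257968472) (nat_lit 228) (nat_lit 15202307212) (nat_lit 29) (nat_lit 5) (nat_lit 31) (nat_lit 5) (nat_lit 32) (nat_lit 5) (nat_lit 382) (nat_lit 335) (nat_lit 183)) (XT.nd (nat_lit 78) (nat_lit 0) (nat_lit 0) (XT.lf (nat_lit 0) (nat_lit 2158741461) (nat_lit 152) (nat_lit 73278279611) (nat_lit 76) (nat_lit 20146376275) (nat_lit 27) (nat_lit 5) (nat_lit 29) (nat_lit 5) (nat_lit 28) (nat_lit 5) (nat_lit 383) (nat_lit 335) (nat_lit 182)) (XT.lf (nat_lit 0) (nat_lit 20313851745) (nat_lit 152) (nat_lit 31482023658) (nat_lit 76) (nat_lit 47244664620) (nat_lit 27) (nat_lit 5) (nat_lit 29) (nat_lit 5) (nat_lit 28) (nat_lit 5) (nat_lit 384) (nat_lit 335) (nat_lit 181))))) (XT.nd (nat_lit 234)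 (nat_lit 304) (nat_lit 0) (XT.nd (nat_lit 78) (nat_lit 0) (nat_lit 0) (XT.lf (nat_lit 0) (nat_lit 12811695410) (nat_lit 152) (nat_lit 26763643944) (nat_lit 228) (nat_lit 63085270207) (nat_lit 25) (nat_lit 5) (nat_lit 27) (nat_lit 5) (nat_lit 28) (nat_lit 5) (nat_lit 385) (nat_lit 335) (nat_lit 180)) (XT.nd (nat_lit 78) (nat_lit 0) (nat_lit 0) (XT.lf (nat_lit 0) (nat_lit 60332923834) (nat_lit 228) (nat_lit 46025607775) (nat_lit 76) (nat_lit 76500624) (nat_lit 25) (nat_lit 5) (nat_lit 28) (nat_lit 5) (nat_lit 26) (nat_lit 4) (nat_lit 386) (nat_lit 335) (nat_lit 179)) (XT.lf (nat_lit 0) (nat_lit 82565811837) (nat_lit 228) (nat_lit 452188361) (nat_lit 76) (nat_lit 27358305369) (nat_lit 25) (nat_lit 5) (nat_lit 28) (nat_lit 5) (nat_lit 26) (nat_lit 4) (nat_lit 387) (nat_lit 335) (nat_lit 178)))) (XT.nd (nat_lit 78) (nat_lit 228) (nat_lit 0) (XT.lf (nat_lit 0) (nat_lit 48964889987) (nat_lit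 76) (nat_lit 57708672492) (nat_lit 152) (nat_lit 7802919884) (nat_lit 24) (nat_lit 5) (nat_lit 25) (nat_lit 5) (nat_lit 26) (nat_lit 4) (nat_lit 388) (nat_lit 335) (nat_lit 177)) (XT.nd (nat_lit 78) (nat_lit 152) (nat_lit 0) (XT.lf (nat_lit 0) (nat_lit 12788917240) (nat_lit 152) (nat_lit 18121258062) (nat_lit 76) (nat_lit 87860858555) (nat_lit 23) (nat_lit 5) (nat_lit 25) (nat_lit 5) (nat_lit 24) (nat_lit 5) (nat_lit 389) (nat_lit 335) (nat_lit 176)) (XT.lf (nat_lit 0) (nat_lit 32550395945) (nat_lit 152) (nat_lit 2104728218) (nat_lit 228) (nat_lit 88593443178) (nat_lit 21) (nat_lit 5) (nat_lit 23) (nat_lit 5) (nat_lit 24) (nat_lit 5) (nat_lit 390) (nat_lit 335) (nat_lit 175)))))) (XT.nd (nat_lit 468) (nat_lit 228) (nat_lit 0) (XT.nd (nat_lit 234) (nat_lit 152) (nat_lit 0) (XT.nd (nat_lit 78) (nat_lit 76) (nat_lit 0) (XT.lf (nat_lit 0) (nat_lit 58364739597) (nat_lit 228) (nat_lit 41996369486)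 (nat_lit 76) (nat_lit 27551364090) (nat_lit 21) (nat_lit 5) (nat_lit 24) (nat_lit 5) (nat_lit 22) (nat_lit 4) (nat_lit 391) (nat_lit 335) (nat_lit 174)) (XT.nd (nat_lit 78) (nat_lit 0) (nat_lit 0) (XT.lf (nat_lit 0) (nat_lit 9405031222) (nat_lit 76) (nat_lit 74035018770) (nat_lit 152) (nat_lit 49360514150) (nat_lit 20) (nat_lit 5) (nat_lit 21) (nat_lit 5) (nat_lit 22) (nat_lit 4) (nat_lit 392) (nat_lit 335) (nat_lit 173)) (XT.lf (nat_lit 0) (nat_lit 64832546169) (nat_lit 76) (nat_lit 45646703031) (nat_lit 152) (nat_lit 27418304823) (nat_lit 20) (nat_lit 5) (nat_lit 21) (nat_lit 5) (nat_lit 22) (nat_lit 4) (nat_lit 393) (nat_lit 335) (nat_lit 172)))) (XT.nd (nat_lit 78) (nat_lit 152) (nat_lit 0) (XT.lf (nat_lit 0) (nat_lit 123029555991) (nat_lit 76) (nat_lit 15839799477) (nat_lit 152) (nat_lit 4380091077) (nat_lit 20) (nat_lit 5) (nat_lit 21) (nat_lit 5) (nat_lit 22) (nat_lit 4) (nat_lit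 394) (nat_lit 335) (nat_lit 171)) (XT.nd (nat_lit 78) (nat_lit 0) (nat_lit 0) (XT.lf (nat_lit 0) (nat_lit 19994415956) (nat_lit 152) (nat_lit 112968782331) (nat_lit 76) (nat_lit 15849349987) (nat_lit 18) (nat_lit 5) (nat_lit 20) (nat_lit 5) (nat_lit 19) (nat_lit 4) (nat_lit 395) (nat_lit 335) (nat_lit 170)) (XT.lf (nat_lit 0) (nat_lit 46047153108) (nat_lit 152) (nat_lit 59563010466) (nat_lit 76) (nat_lit 49009716484) (nat_lit 18) (nat_lit 5) (nat_lit 20) (nat_lit 5) (nat_lit 19) (nat_lit 4) (nat_lit 396) (nat_lit 335) (nat_lit 169))))) (XT.nd (nat_lit 234) (nat_lit 152) (nat_lit 0) (XT.nd (nat_lit 78) (nat_lit 76) (nat_lit 0) (XT.lf (nat_lit 0) (nat_lit 73401563698) (nat_lit 152) (nat_lit 3488696659) (nat_lit 76) (nat_lit 83827366659) (nat_lit 18) (nat_lit 5) (nat_lit 20) (nat_lit 5) (nat_lit 19) (nat_lit 4) (nat_lit 397) (nat_lit 335) (nat_lit 168)) (XT.nd (nat_lit 78) (nat_lit 0) (nat_lit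 0) (XT.lf (nat_lit 0) (nat_lit 57219035846) (nat_lit 76) (nat_lit 45797090932) (nat_lit 152) (nat_lit 64059513338) (nat_lit 17) (nat_lit 5) (nat_lit 18) (nat_lit 5) (nat_lit 19) (nat_lit 4) (nat_lit 398) (nat_lit 335) (nat_lit 167)) (XT.lf (nat_lit 0) (nat_lit 121081638001) (nat_lit 76) (nat_lit 13087963377) (nat_lit 152) (nat_lit 39579043704) (nat_lit 17) (nat_lit 5) (nat_lit 18) (nat_lit 5) (nat_lit 19) (nat_lit 4) (nat_lit 399) (nat_lit 335) (nat_lit 166)))) (XT.nd (nat_lit 78) (nat_lit 76) (nat_lit 0) (XT.lf (nat_lit 0) (nat_lit 7281662280) (nat_lit 76) (nat_lit 160043782462) (nat_lit 76) (nat_lit 13407621157) (nat_lit 16) (nat_lit 4) (nat_lit 17) (nat_lit 5) (nat_lit 17) (nat_lit 4) (nat_lit 400) (nat_lit 335) (nat_lit 165)) (XT.nd (nat_lit 78) (nat_lit 0) (nat_lit 0) (XT.lf (nat_lit 0) (nat_lit 14742223786) (nat_lit 152) (nat_lit 116416348160) (nat_lit 76) (nat_lit 56841137924) (nat_lit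 15) (nat_lit 5) (nat_lit 17) (nat_lit 5) (nat_lit 16) (nat_lit 4) (nat_lit 401) (nat_lit 335) (nat_lit 164)) (XT.lf (nat_lit 0) (nat_lit 43848153237) (nat_lit 152) (nat_lit 56750855281) (nat_lit 76) (nat_lit 95019729165) (nat_lit 15) (nat_lit 5) (nat_lit 17) (nat_lit 5) (nat_lit 16) (nat_lit 4) (nat_lit 402) (nat_lit 335) (nat_lit 163))))))) (XT.nd (nat_lit 858) (nat_lit 304) (nat_lit 0) (XT.nd (nat_lit 390) (nat_lit 152) (nat_lit 0) (XT.nd (nat_lit 156) (nat_lit 76) (nat_lit 0) (XT.nd (nat_lit 78) (nat_lit 0) (nat_lit 0) (XT.lf (nat_lit 0) (nat_lit 6091430060) (nat_lit 76) (nat_lit 68412268869) (nat_lit 152) (nat_lit 129110302262) (nat_lit 14) (nat_lit 5) (nat_lit 15) (nat_lit 5) (nat_lit 16) (nat_lit 4) (nat_lit 403) (nat_lit 335) (nat_lit 162)) (XT.lf (nat_lit 0) (nat_lit 74044668554) (nat_lit 76) (nat_lit 33607687168) (nat_lit 152) (nat_lit 104308655742) (nat_lit 14) (nat_lit 5) (nat_lit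 15) (nat_lit 5) (nat_lit 16) (nat_lit 4) (nat_lit 404) (nat_lit 335) (nat_lit 161))) (XT.nd (nat_lit 78) (nat_lit 76) (nat_lit 0) (XT.lf (nat_lit 0) (nat_lit 142503559631) (nat_lit 152) (nat_lit 75377042115) (nat_lit 0) (nat_lit 2842515057) (nat_lit 14) (nat_lit 5) (nat_lit 16) (nat_lit 4) (nat_lit 14) (nat_lit 4) (nat_lit 405) (nat_lit 335) (nat_lit 160)) (XT.nd (nat_lit 78) (nat_lit 76) (nat_lit 0) (XT.lf (nat_lit 0) (nat_lit 179647562326) (nat_lit 152) (nat_lit 10263038265) (nat_lit 0) (nat_lit 39985215144) (nat_lit 14) (nat_lit 5) (nat_lit 16) (nat_lit 4) (nat_lit 14) (nat_lit 4) (nat_lit 406) (nat_lit 335) (nat_lit 159)) (XT.lf (nat_lit 0) (nat_lit 60026639503) (nat_lit 76) (nat_lit 159558636290) (nat_lit 76) (nat_lit 19895048529) (nat_lit 13) (nat_lit 4) (nat_lit 14) (nat_lit 5) (nat_lit 14) (nat_lit 4) (nat_lit 407) (nat_lit 335) (nat_lit 158))))) (XT.nd (nat_lit 234) (nat_lit 0)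 (nat_lit 0) (XT.nd (nat_lit 78) (nat_lit 76) (nat_lit 0) (XT.lf (nat_lit 0) (nat_lit 11768502857) (nat_lit 152) (nat_lit 115539338406) (nat_lit 76) (nat_lit 122218069134) (nat_lit 12) (nat_lit 5) (nat_lit 14) (nat_lit 5) (nat_lit 13) (nat_lit 4) (nat_lit 408) (nat_lit 335) (nat_lit 157)) (XT.nd (nat_lit 78) (nat_lit 76) (nat_lit 0) (XT.lf (nat_lit 0) (nat_lit 44345988038) (nat_lit 152) (nat_lit 48756619027) (nat_lit 76) (nat_lit 166954893487) (nat_lit 12) (nat_lit 5) (nat_lit 14) (nat_lit 5) (nat_lit 13) (nat_lit 4) (nat_lit 409) (nat_lit 335) (nat_lit 156)) (XT.lf (nat_lit 0) (nat_lit 22070490793) (nat_lit 76) (nat_lit 56825829674) (nat_lit 152) (nat_lit 192202151297) (nat_lit 11) (nat_lit 5) (nat_lit 12) (nat_lit 5) (nat_lit 13) (nat_lit 4) (nat_lit 410) (nat_lit 335) (nat_lit 155)))) (XT.nd (nat_lit 78) (nat_lit 0) (nat_lit 0) (XT.lf (nat_lit 0) (nat_lit 98130555128) (nat_lit 76) (nat_lit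 17868733613) (nat_lit 152) (nat_lit 166650947024) (nat_lit 11) (nat_lit 5) (nat_lit 12) (nat_lit 5) (nat_lit 13) (nat_lit 4) (nat_lit 411) (nat_lit 335) (nat_lit 154)) (XT.nd (nat_lit 78) (nat_lit 0) (nat_lit 0) (XT.lf (nat_lit 0) (nat_lit 155316488314) (nat_lit 152) (nat_lit 117146713391) (nat_lit 0) (nat_lit 22298432296) (nat_lit 11) (nat_lit 5) (nat_lit 13) (nat_lit 4) (nat_lit 11) (nat_lit 4) (nat_lit 412) (nat_lit 335) (nat_lit 153)) (XT.lf (nat_lit 0) (nat_lit 196891928377) (nat_lit 152) (nat_lit 46699064217) (nat_lit 0) (nat_lit 63872990703) (nat_lit 11) (nat_lit 5) (nat_lit 13) (nat_lit 4) (nat_lit 11) (nat_lit 4) (nat_lit 413) (nat_lit 335) (nat_lit 152)))))) (XT.nd (nat_lit 468) (nat_lit 76) (nat_lit 0) (XT.nd (nat_lit 234) (nat_lit 152) (nat_lit 0) (XT.nd (nat_lit 78) (nat_lit 0) (nat_lit 0) (XT.lf (nat_lit 0) (nat_lit 28171649096) (nat_lit 76) (nat_lit 212813806360) (nat_lit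 76) (nat_lit 79794029014) (nat_lit 10) (nat_lit 4) (nat_lit 11) (nat_lit 5) (nat_lit 11) (nat_lit 4) (nat_lit 414) (nat_lit 335) (nat_lit 151)) (XT.nd (nat_lit 78) (nat_lit 0) (nat_lit 0) (XT.lf (nat_lit 0) (nat_lit 108406213033) (nat_lit 76) (nat_lit 179667803490) (nat_lit 76) (nat_lit 46647226455) (nat_lit 10) (nat_lit 4) (nat_lit 11) (nat_lit 5) (nat_lit 11) (nat_lit 4) (nat_lit 415) (nat_lit 335) (nat_lit 150)) (XT.lf (nat_lit 0) (nat_lit 192651580305) (nat_lit 76) (nat_lit 144864936177) (nat_lit 76) (nat_lit 11843597534) (nat_lit 10) (nat_lit 4) (nat_lit 11) (nat_lit 5) (nat_lit 11) (nat_lit 4) (nat_lit 416) (nat_lit 335) (nat_lit 149)))) (XT.nd (nat_lit 78) (nat_lit 76) (nat_lit 0) (XT.lf (nat_lit 0) (nat_lit 23909178125) (nat_lit 152) (nat_lit 84008248826) (nat_lit 76) (nat_lit 256794243494) (nat_lit 9) (nat_lit 5) (nat_lit 11) (nat_lit 5) (nat_lit 10) (nat_lit 4) (nat_lit 417)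 (nat_lit 335) (nat_lit 148)) (XT.nd (nat_lit 78) (nat_lit 76) (nat_lit 0) (XT.lf (nat_lit 0) (nat_lit 61051118941) (nat_lit 152) (nat_lit 7867960953) (nat_lit 76) (nat_lit 311902039618) (nat_lit 9) (nat_lit 5) (nat_lit 11) (nat_lit 5) (nat_lit 10) (nat_lit 4) (nat_lit 418) (nat_lit 335) (nat_lit 147)) (XT.lf (nat_lit 0) (nat_lit 74461769709) (nat_lit 76) (nat_lit 26750514387) (nat_lit 152) (nat_lit 296465650694) (nat_lit 8) (nat_lit 5) (nat_lit 9) (nat_lit 5) (nat_lit 10) (nat_lit 4) (nat_lit 419) (nat_lit 335) (nat_lit 146))))) (XT.nd (nat_lit 234) (nat_lit 76) (nat_lit 0) (XT.nd (nat_lit 78) (nat_lit 0) (nat_lit 0) (XT.lf (nat_lit 0) (nat_lit 143790149536) (nat_lit 152) (nat_lit 254466420982) (nat_lit 0) (nat_lit 17100588329) (nat_lit 8) (nat_lit 5) (nat_lit 10) (nat_lit 4) (nat_lit 8) (nat_lit 4) (nat_lit 420) (nat_lit 335) (nat_lit 145)) (XT.nd (nat_lit 78) (nat_lit 0) (nat_lit 0)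 (XT.lf (nat_lit 0) (nat_lit 188935034078) (nat_lit 152) (nat_lit 182718499299) (nat_lit 0) (nat_lit 62244904549) (nat_lit 8) (nat_lit 5) (nat_lit 10) (nat_lit 4) (nat_lit 8) (nat_lit 4) (nat_lit 421) (nat_lit 335) (nat_lit 144)) (XT.lf (nat_lit 0) (nat_lit 236336775047) (nat_lit 152) (nat_lit 107383921149) (nat_lit 0) (nat_lit 109646104257) (nat_lit 8) (nat_lit 5) (nat_lit 10) (nat_lit 4) (nat_lit 8) (nat_lit 4) (nat_lit 422) (nat_lit 335) (nat_lit 143)))) (XT.nd (nat_lit 78) (nat_lit 76) (nat_lit 0) (XT.lf (nat_lit 0) (nat_lit 286108233731) (nat_lit 152) (nat_lit 28283318490) (nat_lit 0) (nat_lit 159417047455) (nat_lit 8) (nat_lit 5) (nat_lit 10) (nat_lit 4) (nat_lit 8) (nat_lit 4) (nat_lit 423) (nat_lit 335) (nat_lit 142)) (XT.nd (nat_lit 78) (nat_lit 0) (nat_lit 0) (XT.lf (nat_lit 0) (nat_lit 56582641333) (nat_lit 76) (nat_lit 282668685872) (nat_lit 76) (nat_lit 155977008657) (nat_lit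 7) (nat_lit 4) (nat_lit 8) (nat_lit 5) (nat_lit 8) (nat_lit 4) (nat_lit 424) (nat_lit 335) (nat_lit 141)) (XT.lf (nat_lit 0) (nat_lit 146673172066) (nat_lit 76) (nat_lit 248857049670) (nat_lit 76) (nat_lit 122164904893) (nat_lit 7) (nat_lit 4) (nat_lit 8) (nat_lit 5) (nat_lit 8) (nat_lit 4) (nat_lit 425) (nat_lit 335) (nat_lit 140))))))))
noncomputable def xc190 : XT := (XT.nd (nat_lit 41418) (nat_lit 0) (nat_lit 2052) (XT.nd (nat_lit 40482) (nat_lit 0) (nat_lit 4864) (XT.nd (nat_lit 40014) (nat_lit 0) (nat_lit 6384) (XT.nd (nat_lit 156) (nat_lit 0) (nat_lit 0) (XT.nd (nat_lit 78) (nat_lit 0) (nat_lit 0) (XT.lf (nat_lit 0) (nat_lit 241267600731) (nat_lit 76) (nat_lit 213355131403) (nat_lit 76) (nat_lit 86662541330) (nat_lit 7) (nat_lit 4) (nat_lit 8) (nat_lit 5) (nat_lit 8) (nat_lit 4) (nat_lit 426) (nat_lit 335) (nat_lit 139)) (XT.lf (nat_lit 0) (nat_lit 340591152158) (nat_lit 76) (nat_lit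 176078402696) (nat_lit 76) (nat_lit 49385388531) (nat_lit 7) (nat_lit 4) (nat_lit 8) (nat_lit 5) (nat_lit 8) (nat_lit 4) (nat_lit 427) (nat_lit 335) (nat_lit 138))) (XT.nd (nat_lit 39702) (nat_lit 0) (nat_lit 7068) (XT.lf (nat_lit 0) (nat_lit 444880310994) (nat_lit 76) (nat_lit 136938109431) (nat_lit 76) (nat_lit 10244691369) (nat_lit 7) (nat_lit 4) (nat_lit 8) (nat_lit 5) (nat_lit 8) (nat_lit 4) (nat_lit 428) (nat_lit 335) (nat_lit 137)) (XT.nd (nat_lit 78) (nat_lit 0) (nat_lit 0) (XT.lf (nat_lit 0) (nat_lit 5428775012) (nat_lit 0) (nat_lit 5428775012) (nat_lit 684) (nat_lit 1001065052) (nat_lit 100) (nat_lit 5) (nat_lit 100) (nat_lit 3) (nat_lit 109) (nat_lit 3) (nat_lit 336) (nat_lit 336) (nat_lit 228)) (XT.lf (nat_lit 0) (nat_lit 22369672393) (nat_lit 684) (nat_lit 1858743593) (nat_lit 760) (nat_lit 75990267) (nat_lit 100) (nat_lit 5) (nat_lit 109) (nat_lit 3) (nat_lit 110) (nat_lit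 5) (nat_lit 337) (nat_lit 336) (nat_lit 227))))) (XT.nd (nat_lit 234) (nat_lit 684) (nat_lit 0) (XT.nd (nat_lit 78) (nat_lit 0) (nat_lit 0) (XT.lf (nat_lit 76) (nat_lit 9824744990) (nat_lit 0) (nat_lit 13556596581) (nat_lit 760) (nat_lit 1523392050) (nat_lit 101) (nat_lit 5) (nat_lit 100) (nat_lit 5) (nat_lit 110) (nat_lit 5) (nat_lit 338) (nat_lit 336) (nat_lit 226)) (XT.nd (nat_lit 78) (nat_lit 0) (nat_lit 76) (XT.lf (nat_lit 76) (nat_lit 22153047827) (nat_lit 0) (nat_lit 2315282246) (nat_lit 760) (nat_lit 1065520850) (nat_lit 101) (nat_lit 5) (nat_lit 100) (nat_lit 5) (nat_lit 110) (nat_lit 5) (nat_lit 339) (nat_lit 336) (nat_lit 225)) (XT.lf (nat_lit 76) (nat_lit 9040478079) (nat_lit 0) (nat_lit 16852093543) (nat_lit 760) (nat_lit 287717152) (nat_lit 102) (nat_lit 5) (nat_lit 101) (nat_lit 5) (nat_lit 111) (nat_lit 5) (nat_lit 340) (nat_lit 336) (nat_lit 224)))) (XT.nd (nat_lit 78)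 (nat_lit 0) (nat_lit 76) (XT.lf (nat_lit 0) (nat_lit 601947786) (nat_lit 760) (nat_lit 4707370781) (nat_lit 836) (nat_lit 21544830878) (nat_lit 91) (nat_lit 5) (nat_lit 101) (nat_lit 5) (nat_lit 102) (nat_lit 5) (nat_lit 341) (nat_lit 336) (nat_lit 223)) (XT.nd (nat_lit 78) (nat_lit 0) (nat_lit 0) (XT.lf (nat_lit 0) (nat_lit 1763603794) (nat_lit 760) (nat_lit 19050056979) (nat_lit 836) (nat_lit 6735956215) (nat_lit 92) (nat_lit 5) (nat_lit 102) (nat_lit 5) (nat_lit 103) (nat_lit 5) (nat_lit 342) (nat_lit 336) (nat_lit 222)) (XT.lf (nat_lit 0) (nat_lit 3145707720) (nat_lit 760) (nat_lit 5838235229) (nat_lit 836) (nat_lit 19287804819) (nat_lit 92) (nat_lit 5) (nat_lit 102) (nat_lit 5) (nat_lit 103) (nat_lit 5) (nat_lit 343) (nat_lit 336) (nat_lit 221)))))) (XT.nd (nat_lit 468) (nat_lit 1064) (nat_lit 0) (XT.nd (nat_lit 234) (nat_lit 608) (nat_lit 0) (XT.nd (nat_lit 78) (nat_lit 0) (nat_lit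 0) (XT.lf (nat_lit 0) (nat_lit 4776814193) (nat_lit 760) (nat_lit 20783990190) (nat_lit 836) (nat_lit 3460193566) (nat_lit 93) (nat_lit 5) (nat_lit 103) (nat_lit 5) (nat_lit 104) (nat_lit 5) (nat_lit 344) (nat_lit 336) (nat_lit 220)) (XT.nd (nat_lit 78) (nat_lit 0) (nat_lit 0) (XT.lf (nat_lit 0) (nat_lit 6732032953) (nat_lit 760) (nat_lit 6737265680) (nat_lit 836) (nat_lit 16326291521) (nat_lit 93) (nat_lit 5) (nat_lit 103) (nat_lit 5) (nat_lit 104) (nat_lit 5) (nat_lit 345) (nat_lit 336) (nat_lit 219)) (XT.lf (nat_lit 76) (nat_lit 8272467270) (nat_lit 0) (nat_lit 636735110) (nat_lit 836) (nat_lit 21693507113) (nat_lit 94) (nat_lit 5) (nat_lit 93) (nat_lit 5) (nat_lit 104) (nat_lit 5) (nat_lit 346) (nat_lit 336) (nat_lit 218)))) (XT.nd (nat_lit 78) (nat_lit 684) (nat_lit 0) (XT.lf (nat_lit 0) (nat_lit 11506847043) (nat_lit 760) (nat_lit 7384479994) (nat_lit 76) (nat_lit 12543283601) (nat_lit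 94) (nat_lit 5) (nat_lit 104) (nat_lit 5) (nat_lit 95) (nat_lit 5) (nat_lit 347) (nat_lit 336) (nat_lit 217)) (XT.nd (nat_lit 78) (nat_lit 0) (nat_lit 0) (XT.lf (nat_lit 0) (nat_lit 8568284478) (nat_lit 684) (nat_lit 5805749113) (nat_lit 760) (nat_lit 17927096625) (nat_lit 85) (nat_lit 5) (nat_lit 94) (nat_lit 5) (nat_lit 95) (nat_lit 5) (nat_lit 348) (nat_lit 336) (nat_lit 216)) (XT.lf (nat_lit 0) (nat_lit 17631169456) (nat_lit 760) (nat_lit 7759839202) (nat_lit 76) (nat_lit 7807643674) (nat_lit 85) (nat_lit 5) (nat_lit 95) (nat_lit 5) (nat_lit 86) (nat_lit 5) (nat_lit 349) (nat_lit 336) (nat_lit 215))))) (XT.nd (nat_lit 234) (nat_lit 380) (nat_lit 0) (XT.nd (nat_lit 78) (nat_lit 304) (nat_lit 0) (XT.lf (nat_lit 0) (nat_lit 9207282220) (nat_lit 380) (nat_lit 12078623232) (nat_lit 456) (nat_lit 12843413702) (nat_lit 80) (nat_lit 5) (nat_lit 85) (nat_lit 5) (nat_lit 86) (nat_lit 5) (nat_lit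 350) (nat_lit 336) (nat_lit 214)) (XT.nd (nat_lit 78) (nat_lit 304) (nat_lit 0) (XT.lf (nat_lit 0) (nat_lit 25282557594) (nat_lit 456) (nat_lit 7843786994) (nat_lit 76) (nat_lit 1972221255) (nat_lit 80) (nat_lit 5) (nat_lit 86) (nat_lit 5) (nat_lit 81) (nat_lit 5) (nat_lit 351) (nat_lit 336) (nat_lit 213)) (XT.lf (nat_lit 0) (nat_lit 10213259722) (nat_lit 304) (nat_lit 19619396801) (nat_lit 380) (nat_lit 6265942867) (nat_lit 76) (nat_lit 5) (nat_lit 80) (nat_lit 5) (nat_lit 81) (nat_lit 5) (nat_lit 352) (nat_lit 336) (nat_lit 212)))) (XT.nd (nat_lit 78) (nat_lit 380) (nat_lit 0) (XT.lf (nat_lit 0) (nat_lit 29441548162) (nat_lit 304) (nat_lit 5297819084) (nat_lit 380) (nat_lit 2402817009) (nat_lit 76) (nat_lit 5) (nat_lit 80) (nat_lit 5) (nat_lit 81) (nat_lit 5) (nat_lit 353) (nat_lit 336) (nat_lit 211)) (XT.nd (nat_lit 78) (nat_lit 0) (nat_lit 0) (XT.lf (nat_lit 0) (nat_lit 1935701622)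 (nat_lit 380) (nat_lit 26643814976) (nat_lit 76) (nat_lit 9640387638) (nat_lit 71) (nat_lit 5) (nat_lit 76) (nat_lit 5) (nat_lit 72) (nat_lit 5) (nat_lit 354) (nat_lit 336) (nat_lit 210)) (XT.lf (nat_lit 0) (nat_lit 6626288708) (nat_lit 380) (nat_lit 7393346444) (nat_lit 76) (nat_lit 25319115199) (nat_lit 71) (nat_lit 5) (nat_lit 76) (nat_lit 5) (nat_lit 72) (nat_lit 5) (nat_lit 355) (nat_lit 336) (nat_lit 209))))))) (XT.nd (nat_lit 858) (nat_lit 1140) (nat_lit 0) (XT.nd (nat_lit 390) (nat_lit 836) (nat_lit 0) (XT.nd (nat_lit 156) (nat_lit 532) (nat_lit 0) (XT.nd (nat_lit 78) (nat_lit 0) (nat_lit 0) (XT.lf (nat_lit 0) (nat_lit 11777953524) (nat_lit 380) (nat_lit 27286950594) (nat_lit 76) (nat_lit 1437311336) (nat_lit 67) (nat_lit 5) (nat_lit 72) (nat_lit 5) (nat_lit 68) (nat_lit 5) (nat_lit 356) (nat_lit 336) (nat_lit 208)) (XT.lf (nat_lit 0) (nat_lit 17541046060) (nat_lit 380) (nat_lit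 6842375377) (nat_lit 76) (nat_lit 17322744055) (nat_lit 67) (nat_lit 5) (nat_lit 72) (nat_lit 5) (nat_lit 68) (nat_lit 5) (nat_lit 357) (nat_lit 336) (nat_lit 207))) (XT.nd (nat_lit 78) (nat_lit 228) (nat_lit 0) (XT.lf (nat_lit 0) (nat_lit 15104154560) (nat_lit 304) (nat_lit 8720863390) (nat_lit 380) (nat_lit 19133662563) (nat_lit 63) (nat_lit 5) (nat_lit 67) (nat_lit 5) (nat_lit 68) (nat_lit 5) (nat_lit 358) (nat_lit 336) (nat_lit 206)) (XT.nd (nat_lit 78) (nat_lit 228) (nat_lit 0) (XT.lf (nat_lit 0) (nat_lit 30658560183) (nat_lit 380) (nat_lit 6008755642) (nat_lit 76) (nat_lit 7594740414) (nat_lit 63) (nat_lit 5) (nat_lit 68) (nat_lit 5) (nat_lit 64) (nat_lit 5) (nat_lit 359) (nat_lit 336) (nat_lit 205)) (XT.lf (nat_lit 0) (nat_lit 17337646079) (nat_lit 228) (nat_lit 20906918168) (nat_lit 304) (nat_lit 7365500641) (nat_lit 60) (nat_lit 5) (nat_lit 63) (nat_lit 5) (nat_lit 64) (nat_lit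 5) (nat_lit 360) (nat_lit 336) (nat_lit 204))))) (XT.nd (nat_lit 234) (nat_lit 456) (nat_lit 0) (XT.nd (nat_lit 78) (nat_lit 380) (nat_lit 0) (XT.lf (nat_lit 0) (nat_lit 42056431379) (nat_lit 228) (nat_lit 4252410086) (nat_lit 304) (nat_lit 711687068) (nat_lit 60) (nat_lit 5) (nat_lit 63) (nat_lit 5) (nat_lit 64) (nat_lit 5) (nat_lit 361) (nat_lit 336) (nat_lit 203)) (XT.nd (nat_lit 78) (nat_lit 0) (nat_lit 0) (XT.lf (nat_lit 0) (nat_lit 6597675864) (nat_lit 380) (nat_lit 28644536014) (nat_lit 76) (nat_lit 13228223420) (nat_lit 55) (nat_lit 5) (nat_lit 60) (nat_lit 5) (nat_lit 56) (nat_lit 5) (nat_lit 362) (nat_lit 336) (nat_lit 202)) (XT.lf (nat_lit 0) (nat_lit 14401109912) (nat_lit 380) (nat_lit 4047189091) (nat_lit 76) (nat_lit 31536331809) (nat_lit 55) (nat_lit 5) (nat_lit 60) (nat_lit 5) (nat_lit 56) (nat_lit 5) (nat_lit 363) (nat_lit 336) (nat_lit 201)))) (XT.nd (nat_lit 78) (nat_lit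 228) (nat_lit 0) (XT.lf (nat_lit 0) (nat_lit 22496692086) (nat_lit 228) (nat_lit 446746754) (nat_lit 304) (nat_lit 28613663744) (nat_lit 52) (nat_lit 5) (nat_lit 55) (nat_lit 5) (nat_lit 56) (nat_lit 5) (nat_lit 364) (nat_lit 336) (nat_lit 200)) (XT.nd (nat_lit 78) (nat_lit 228) (nat_lit 0) (XT.lf (nat_lit 0) (nat_lit 32268222549) (nat_lit 304) (nat_lit 2989175012) (nat_lit 76) (nat_lit 17933035983) (nat_lit 52) (nat_lit 5) (nat_lit 56) (nat_lit 5) (nat_lit 53) (nat_lit 5) (nat_lit 365) (nat_lit 336) (nat_lit 199)) (XT.lf (nat_lit 0) (nat_lit 25180985770) (nat_lit 228) (nat_lit 17276387395) (nat_lit 304) (nat_lit 12428153899) (nat_lit 49) (nat_lit 5) (nat_lit 52) (nat_lit 5) (nat_lit 53) (nat_lit 5) (nat_lit 366) (nat_lit 336) (nat_lit 198)))))) (XT.nd (nat_lit 468) (nat_lit 532) (nat_lit 0) (XT.nd (nat_lit 234) (nat_lit 380) (nat_lit 0) (XT.nd (nat_lit 78) (nat_lit 228) (nat_lit 0) (XT.lf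 (nat_lit 0) (nat_lit 53230177320) (nat_lit 304) (nat_lit 1828590585) (nat_lit 76) (nat_lit 1602899837) (nat_lit 49) (nat_lit 5) (nat_lit 53) (nat_lit 5) (nat_lit 50) (nat_lit 5) (nat_lit 367) (nat_lit 336) (nat_lit 197)) (XT.nd (nat_lit 78) (nat_lit 0) (nat_lit 0) (XT.lf (nat_lit 0) (nat_lit 6553287787) (nat_lit 228) (nat_lit 30543720183) (nat_lit 76) (nat_lit 21388374032) (nat_lit 46) (nat_lit 5) (nat_lit 49) (nat_lit 5) (nat_lit 47) (nat_lit 5) (nat_lit 368) (nat_lit 336) (nat_lit 196)) (XT.lf (nat_lit 0) (nat_lit 16951293225) (nat_lit 228) (nat_lit 1194759671) (nat_lit 76) (nat_lit 42249952910) (nat_lit 46) (nat_lit 5) (nat_lit 49) (nat_lit 5) (nat_lit 47) (nat_lit 5) (nat_lit 369) (nat_lit 336) (nat_lit 195)))) (XT.nd (nat_lit 78) (nat_lit 152) (nat_lit 0) (XT.lf (nat_lit 0) (nat_lit 28380032142) (nat_lit 304) (nat_lit 31815607283) (nat_lit 76) (nat_lit 2180981591) (nat_lit 43) (nat_lit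 5) (nat_lit 47) (nat_lit 5) (nat_lit 44) (nat_lit 5) (nat_lit 370) (nat_lit 336) (nat_lit 194)) (XT.nd (nat_lit 78) (nat_lit 152) (nat_lit 0) (XT.lf (nat_lit 0) (nat_lit 40696222915) (nat_lit 304) (nat_lit 810071289) (nat_lit 76) (nat_lit 22934173828) (nat_lit 43) (nat_lit 5) (nat_lit 47) (nat_lit 5) (nat_lit 44) (nat_lit 5) (nat_lit 371) (nat_lit 336) (nat_lit 193)) (XT.lf (nat_lit 0) (nat_lit 32792385314) (nat_lit 152) (nat_lit 21345888564) (nat_lit 228) (nat_lit 12443732689) (nat_lit 41) (nat_lit 5) (nat_lit 43) (nat_lit 5) (nat_lit 44) (nat_lit 5) (nat_lit 372) (nat_lit 336) (nat_lit 192))))) (XT.nd (nat_lit 234) (nat_lit 304) (nat_lit 0) (XT.nd (nat_lit 78) (nat_lit 228) (nat_lit 0) (XT.lf (nat_lit 0) (nat_lit 68100218334) (nat_lit 152) (nat_lit 164044731) (nat_lit 228) (nat_lit 565768803) (nat_lit 41) (nat_lit 5) (nat_lit 43) (nat_lit 5) (nat_lit 44) (nat_lit 5) (nat_lit 373) (nat_lit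 336) (nat_lit 191)) (XT.nd (nat_lit 78) (nat_lit 0) (nat_lit 0) (XT.lf (nat_lit 0) (nat_lit 12424918711) (nat_lit 228) (nat_lit 36598959232) (nat_lit 76) (nat_lit 22112292850) (nat_lit 38) (nat_lit 5) (nat_lit 41) (nat_lit 5) (nat_lit 39) (nat_lit 5) (nat_lit 374) (nat_lit 336) (nat_lit 190)) (XT.lf (nat_lit 0) (nat_lit 26059582990) (nat_lit 228) (nat_lit 1979065640) (nat_lit 76) (nat_lit 45517832894) (nat_lit 38) (nat_lit 5) (nat_lit 41) (nat_lit 5) (nat_lit 39) (nat_lit 5) (nat_lit 375) (nat_lit 336) (nat_lit 189)))) (XT.nd (nat_lit 78) (nat_lit 152) (nat_lit 0) (XT.lf (nat_lit 0) (nat_lit 35505530307) (nat_lit 152) (nat_lit 5423080826) (nat_lit 228) (nat_lit 35141566462) (nat_lit 36) (nat_lit 5) (nat_lit 38) (nat_lit 5) (nat_lit 39) (nat_lit 5) (nat_lit 376) (nat_lit 336) (nat_lit 188)) (XT.nd (nat_lit 78) (nat_lit 152) (nat_lit 0) (XT.lf (nat_lit 0) (nat_lit 56859548747) (nat_lit 228)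 (nat_lit 4064162014) (nat_lit 76) (nat_lit 17769926075) (nat_lit 36) (nat_lit 5) (nat_lit 39) (nat_lit 5) (nat_lit 37) (nat_lit 5) (nat_lit 377) (nat_lit 336) (nat_lit 187)) (XT.lf (nat_lit 0) (nat_lit 35299666589) (nat_lit 152) (nat_lit 38925791248) (nat_lit 228) (nat_lit 7190891183) (nat_lit 34) (nat_lit 5) (nat_lit 36) (nat_lit 5) (nat_lit 37) (nat_lit 5) (nat_lit 378) (nat_lit 336) (nat_lit 186))))))))
noncomputable def xc191 : XT := (XT.nd (nat_lit 1794) (nat_lit 608) (nat_lit 0) (XT.nd (nat_lit 858) (nat_lit 608) (nat_lit 0) (XT.nd (nat_lit 390) (nat_lit 380) (nat_lit 0) (XT.nd (nat_lit 156) (nat_lit 152) (nat_lit 0) (XT.nd (nat_lit 78) (nat_lit 152) (nat_lit 0) (XT.lf (nat_lit 0) (nat_lit 7990873209) (nat_lit 228) (nat_lit 7630480872) (nat_lit 76) (nat_lit 68644036625) (nat_lit 33) (nat_lit 5) (nat_lit 36) (nat_lit 5) (nat_lit 34) (nat_lit 5) (nat_lit 379) (nat_lit 336) (nat_lit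 185)) (XT.lf (nat_lit 0) (nat_lit 24364014315) (nat_lit 228) (nat_lit 53633881365) (nat_lit 76) (nat_lit 9219398190) (nat_lit 31) (nat_lit 5) (nat_lit 34) (nat_lit 5) (nat_lit 32) (nat_lit 5) (nat_lit 380) (nat_lit 336) (nat_lit 184))) (XT.nd (nat_lit 78) (nat_lit 152) (nat_lit 0) (XT.lf (nat_lit 0) (nat_lit 41941744781) (nat_lit 228) (nat_lit 13448120019) (nat_lit 76) (nat_lit 34907631773) (nat_lit 31) (nat_lit 5) (nat_lit 34) (nat_lit 5) (nat_lit 32) (nat_lit 5) (nat_lit 381) (nat_lit 336) (nat_lit 183)) (XT.nd (nat_lit 78) (nat_lit 0) (nat_lit 0) (XT.lf (nat_lit 0) (nat_lit 29694976460) (nat_lit 152) (nat_lit 31165578722) (nat_lit 228) (nat_lit 32648045507) (nat_lit 29) (nat_lit 5) (nat_lit 31) (nat_lit 5) (nat_lit 32) (nat_lit 5) (nat_lit 382) (nat_lit 336) (nat_lit 182)) (XT.lf (nat_lit 0) (nat_lit 75459776843) (nat_lit 152) (nat_lit 5491882785) (nat_lit 228) (nat_lit 15917283609)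 (nat_lit 29) (nat_lit 5) (nat_lit 31) (nat_lit 5) (nat_lit 32) (nat_lit 5) (nat_lit 383) (nat_lit 336) (nat_lit 181))))) (XT.nd (nat_lit 234) (nat_lit 76) (nat_lit 0) (XT.nd (nat_lit 78) (nat_lit 152) (nat_lit 0) (XT.lf (nat_lit 0) (nat_lit 2309880334) (nat_lit 152) (nat_lit 76868257629) (nat_lit 76) (nat_lit 21182243962) (nat_lit 27) (nat_lit 5) (nat_lit 29) (nat_lit 5) (nat_lit 28) (nat_lit 5) (nat_lit 384) (nat_lit 336) (nat_lit 180)) (XT.nd (nat_lit 78) (nat_lit 152) (nat_lit 0) (XT.lf (nat_lit 0) (nat_lit 21370688904) (nat_lit 152) (nat_lit 32985709638) (nat_lit 76) (nat_lit 49634087254) (nat_lit 27) (nat_lit 5) (nat_lit 29) (nat_lit 5) (nat_lit 28) (nat_lit 5) (nat_lit 385) (nat_lit 336) (nat_lit 179)) (XT.lf (nat_lit 0) (nat_lit 13521559654) (nat_lit 152) (nat_lit 28072813621) (nat_lit 228) (nat_lit 66197230560) (nat_lit 25) (nat_lit 5) (nat_lit 27) (nat_lit 5) (nat_lit 28) (nat_lit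 5) (nat_lit 386) (nat_lit 336) (nat_lit 178)))) (XT.nd (nat_lit 78) (nat_lit 76) (nat_lit 0) (XT.lf (nat_lit 0) (nat_lit 63388350902) (nat_lit 228) (nat_lit 48259399867) (nat_lit 76) (nat_lit 107072264) (nat_lit 25) (nat_lit 5) (nat_lit 28) (nat_lit 5) (nat_lit 26) (nat_lit 4) (nat_lit 387) (nat_lit 336) (nat_lit 177)) (XT.nd (nat_lit 78) (nat_lit 76) (nat_lit 0) (XT.lf (nat_lit 0) (nat_lit 86731036596) (nat_lit 228) (nat_lit 410523212) (nat_lit 76) (nat_lit 28751693598) (nat_lit 25) (nat_lit 5) (nat_lit 28) (nat_lit 5) (nat_lit 26) (nat_lit 4) (nat_lit 388) (nat_lit 336) (nat_lit 176)) (XT.lf (nat_lit 0) (nat_lit 51476372367) (nat_lit 76) (nat_lit 60567030953) (nat_lit 152) (nat_lit 8155075280) (nat_lit 24) (nat_lit 5) (nat_lit 25) (nat_lit 5) (nat_lit 26) (nat_lit 4) (nat_lit 389) (nat_lit 336) (nat_lit 175)))))) (XT.nd (nat_lit 468) (nat_lit 304) (nat_lit 0) (XT.nd (nat_lit 234) (nat_lit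 76) (nat_lit 0) (XT.nd (nat_lit 78) (nat_lit 152) (nat_lit 0) (XT.lf (nat_lit 0) (nat_lit 13463386590) (nat_lit 152) (nat_lit 18965918468) (nat_lit 76) (nat_lit 92278511409) (nat_lit 23) (nat_lit 5) (nat_lit 25) (nat_lit 5) (nat_lit 24) (nat_lit 5) (nat_lit 390) (nat_lit 336) (nat_lit 174)) (XT.nd (nat_lit 78) (nat_lit 0) (nat_lit 0) (XT.lf (nat_lit 0) (nat_lit 34238327877) (nat_lit 152) (nat_lit 2183851400) (nat_lit 228) (nat_lit 92987084430) (nat_lit 21) (nat_lit 5) (nat_lit 23) (nat_lit 5) (nat_lit 24) (nat_lit 5) (nat_lit 391) (nat_lit 336) (nat_lit 173)) (XT.lf (nat_lit 0) (nat_lit 61316030488) (nat_lit 228) (nat_lit 44037391355) (nat_lit 76) (nat_lit 28953006050) (nat_lit 21) (nat_lit 5) (nat_lit 24) (nat_lit 5) (nat_lit 22) (nat_lit 4) (nat_lit 392) (nat_lit 336) (nat_lit 172)))) (XT.nd (nat_lit 78) (nat_lit 0) (nat_lit 0) (XT.lf (nat_lit 0) (nat_lit 9933131055) (nat_lit 76) (nat_lit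 77711304524) (nat_lit 152) (nat_lit 51794522144) (nat_lit 20) (nat_lit 5) (nat_lit 21) (nat_lit 5) (nat_lit 22) (nat_lit 4) (nat_lit 393) (nat_lit 336) (nat_lit 171)) (XT.nd (nat_lit 78) (nat_lit 0) (nat_lit 0) (XT.lf (nat_lit 0) (nat_lit 68129267070) (nat_lit 76) (nat_lit 47904785626) (nat_lit 152) (nat_lit 28756822242) (nat_lit 20) (nat_lit 5) (nat_lit 21) (nat_lit 5) (nat_lit 22) (nat_lit 4) (nat_lit 394) (nat_lit 336) (nat_lit 170)) (XT.lf (nat_lit 0) (nat_lit 129233503879) (nat_lit 76) (nat_lit 16608691779) (nat_lit 152) (nat_lit 4568240562) (nat_lit 20) (nat_lit 5) (nat_lit 21) (nat_lit 5) (nat_lit 22) (nat_lit 4) (nat_lit 395) (nat_lit 336) (nat_lit 169))))) (XT.nd (nat_lit 234) (nat_lit 152) (nat_lit 0) (XT.nd (nat_lit 78) (nat_lit 0) (nat_lit 0) (XT.lf (nat_lit 0) (nat_lit 21023767806) (nat_lit 152) (nat_lit 118563501251) (nat_lit 76) (nat_lit 16664412351) (nat_lit 18) (nat_lit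 5) (nat_lit 20) (nat_lit 5) (nat_lit 19) (nat_lit 4) (nat_lit 396) (nat_lit 336) (nat_lit 168)) (XT.nd (nat_lit 78) (nat_lit 0) (nat_lit 0) (XT.lf (nat_lit 0) (nat_lit 48377730813) (nat_lit 152) (nat_lit 62489998897) (nat_lit 76) (nat_lit 51481721227) (nat_lit 18) (nat_lit 5) (nat_lit 20) (nat_lit 5) (nat_lit 19) (nat_lit 4) (nat_lit 397) (nat_lit 336) (nat_lit 167)) (XT.lf (nat_lit 0) (nat_lit 77098518120) (nat_lit 152) (nat_lit 3614405690) (nat_lit 76) (nat_lit 88039229200) (nat_lit 18) (nat_lit 5) (nat_lit 20) (nat_lit 5) (nat_lit 19) (nat_lit 4) (nat_lit 398) (nat_lit 336) (nat_lit 166)))) (XT.nd (nat_lit 78) (nat_lit 76) (nat_lit 0) (XT.lf (nat_lit 0) (nat_lit 60127927541) (nat_lit 76) (nat_lit 48065350470) (nat_lit 152) (nat_lit 67234815873) (nat_lit 17) (nat_lit 5) (nat_lit 18) (nat_lit 5) (nat_lit 19) (nat_lit 4) (nat_lit 399) (nat_lit 336) (nat_lit 165)) (XT.nd (nat_lit 78) (nat_lit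 76) (nat_lit 0) (XT.lf (nat_lit 0) (nat_lit 127181376950) (nat_lit 76) (nat_lit 13721794870) (nat_lit 152) (nat_lit 41531640526) (nat_lit 17) (nat_lit 5) (nat_lit 18) (nat_lit 5) (nat_lit 19) (nat_lit 4) (nat_lit 400) (nat_lit 336) (nat_lit 164)) (XT.lf (nat_lit 0) (nat_lit 7691594702) (nat_lit 76) (nat_lit 168025039520) (nat_lit 76) (nat_lit 14051829137) (nat_lit 16) (nat_lit 4) (nat_lit 17) (nat_lit 5) (nat_lit 17) (nat_lit 4) (nat_lit 401) (nat_lit 336) (nat_lit 163))))))) (XT.nd (nat_lit 858) (nat_lit 228) (nat_lit 0) (XT.nd (nat_lit 390) (nat_lit 228) (nat_lit 0) (XT.nd (nat_lit 156) (nat_lit 76) (nat_lit 0) (XT.nd (nat_lit 78) (nat_lit 0) (nat_lit 0) (XT.lf (nat_lit 0) (nat_lit 15503463905) (nat_lit 152) (nat_lit 122192692704) (nat_lit 76) (nat_lit 59702323262) (nat_lit 15) (nat_lit 5) (nat_lit 17) (nat_lit 5) (nat_lit 16) (nat_lit 4) (nat_lit 402) (nat_lit 336) (nat_lit 162)) (XT.lf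 (nat_lit 0) (nat_lit 46063540832) (nat_lit 152) (nat_lit 59546042936) (nat_lit 76) (nat_lit 99788933187) (nat_lit 15) (nat_lit 5) (nat_lit 17) (nat_lit 5) (nat_lit 16) (nat_lit 4) (nat_lit 403) (nat_lit 336) (nat_lit 161))) (XT.nd (nat_lit 78) (nat_lit 0) (nat_lit 0) (XT.lf (nat_lit 0) (nat_lit 6437673525) (nat_lit 76) (nat_lit 71813746617) (nat_lit 152) (nat_lit 135542146091) (nat_lit 14) (nat_lit 5) (nat_lit 15) (nat_lit 5) (nat_lit 16) (nat_lit 4) (nat_lit 404) (nat_lit 336) (nat_lit 160)) (XT.nd (nat_lit 78) (nat_lit 0) (nat_lit 0) (XT.lf (nat_lit 0) (nat_lit 77786589565) (nat_lit 76) (nat_lit 35269847055) (nat_lit 152) (nat_lit 109501544449) (nat_lit 14) (nat_lit 5) (nat_lit 15) (nat_lit 5) (nat_lit 16) (nat_lit 4) (nat_lit 405) (nat_lit 336) (nat_lit 159)) (XT.lf (nat_lit 0) (nat_lit 149649449656) (nat_lit 152) (nat_lit 79107338015) (nat_lit 0) (nat_lit 3001441929) (nat_lit 14) (nat_lit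 5) (nat_lit 16) (nat_lit 4) (nat_lit 14) (nat_lit 4) (nat_lit 406) (nat_lit 336) (nat_lit 158))))) (XT.nd (nat_lit 234) (nat_lit 76) (nat_lit 0) (XT.nd (nat_lit 78) (nat_lit 152) (nat_lit 0) (XT.lf (nat_lit 0) (nat_lit 188649666198) (nat_lit 152) (nat_lit 10739469982) (nat_lit 0) (nat_lit 42000476966) (nat_lit 14) (nat_lit 5) (nat_lit 16) (nat_lit 4) (nat_lit 14) (nat_lit 4) (nat_lit 407) (nat_lit 336) (nat_lit 157)) (XT.nd (nat_lit 78) (nat_lit 76) (nat_lit 0) (XT.lf (nat_lit 0) (nat_lit 63064099413) (nat_lit 76) (nat_lit 167519790662) (nat_lit 76) (nat_lit 20869476189) (nat_lit 13) (nat_lit 4) (nat_lit 14) (nat_lit 5) (nat_lit 14) (nat_lit 4) (nat_lit 408) (nat_lit 336) (nat_lit 156)) (XT.lf (nat_lit 0) (nat_lit 12375665378) (nat_lit 152) (nat_lit 121281272105) (nat_lit 76) (nat_lit 128344325443) (nat_lit 12) (nat_lit 5) (nat_lit 14) (nat_lit 5) (nat_lit 13) (nat_lit 4) (nat_lit 409)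 (nat_lit 336) (nat_lit 155)))) (XT.nd (nat_lit 78) (nat_lit 76) (nat_lit 0) (XT.lf (nat_lit 0) (nat_lit 46581132562) (nat_lit 152) (nat_lit 51161085005) (nat_lit 76) (nat_lit 175317259925) (nat_lit 12) (nat_lit 5) (nat_lit 14) (nat_lit 5) (nat_lit 13) (nat_lit 4) (nat_lit 410) (nat_lit 336) (nat_lit 154)) (XT.nd (nat_lit 78) (nat_lit 0) (nat_lit 0) (XT.lf (nat_lit 0) (nat_lit 23206842161) (nat_lit 76) (nat_lit 59651802202) (nat_lit 152) (nat_lit 201793870042) (nat_lit 11) (nat_lit 5) (nat_lit 12) (nat_lit 5) (nat_lit 13) (nat_lit 4) (nat_lit 411) (nat_lit 336) (nat_lit 153)) (XT.lf (nat_lit 0) (nat_lit 103068346530) (nat_lit 76) (nat_lit 18747580813) (nat_lit 152) (nat_lit 174965981213) (nat_lit 11) (nat_lit 5) (nat_lit 12) (nat_lit 5) (nat_lit 13) (nat_lit 4) (nat_lit 412) (nat_lit 336) (nat_lit 152)))))) (XT.nd (nat_lit 468) (nat_lit 76) (nat_lit 0) (XT.nd (nat_lit 234) (nat_lit 76)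 (nat_lit 0) (XT.nd (nat_lit 78) (nat_lit 76) (nat_lit 0) (XT.lf (nat_lit 0) (nat_lit 163098409823) (nat_lit 152) (nat_lit 122973692051) (nat_lit 0) (nat_lit 23426803936) (nat_lit 11) (nat_lit 5) (nat_lit 13) (nat_lit 4) (nat_lit 11) (nat_lit 4) (nat_lit 413) (nat_lit 336) (nat_lit 151)) (XT.nd (nat_lit 78) (nat_lit 76) (nat_lit 0) (XT.lf (nat_lit 0) (nat_lit 206751855361) (nat_lit 152) (nat_lit 49005105991) (nat_lit 0) (nat_lit 67079449786) (nat_lit 11) (nat_lit 5) (nat_lit 13) (nat_lit 4) (nat_lit 11) (nat_lit 4) (nat_lit 414) (nat_lit 336) (nat_lit 150)) (XT.lf (nat_lit 0) (nat_lit 29608676676) (nat_lit 76) (nat_lit 223441096200) (nat_lit 76) (nat_lit 83767929018) (nat_lit 10) (nat_lit 4) (nat_lit 11) (nat_lit 5) (nat_lit 11) (nat_lit 4) (nat_lit 415) (nat_lit 336) (nat_lit 149)))) (XT.nd (nat_lit 78) (nat_lit 76) (nat_lit 0) (XT.lf (nat_lit 0) (nat_lit 113853614279) (nat_lit 76) (nat_lit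 188638431304) (nat_lit 76) (nat_lit 48964538781) (nat_lit 10) (nat_lit 4) (nat_lit 11) (nat_lit 5) (nat_lit 11) (nat_lit 4) (nat_lit 416) (nat_lit 336) (nat_lit 148)) (XT.nd (nat_lit 78) (nat_lit 76) (nat_lit 0) (XT.lf (nat_lit 0) (nat_lit 202309959886) (nat_lit 76) (nat_lit 152096028357) (nat_lit 76) (nat_lit 12421445033) (nat_lit 10) (nat_lit 4) (nat_lit 11) (nat_lit 5) (nat_lit 11) (nat_lit 4) (nat_lit 417) (nat_lit 336) (nat_lit 147)) (XT.lf (nat_lit 0) (nat_lit 25117850033) (nat_lit 152) (nat_lit 88183648660) (nat_lit 76) (nat_lit 269645090866) (nat_lit 9) (nat_lit 5) (nat_lit 11) (nat_lit 5) (nat_lit 10) (nat_lit 4) (nat_lit 418) (nat_lit 336) (nat_lit 146))))) (XT.nd (nat_lit 234) (nat_lit 0) (nat_lit 0) (XT.nd (nat_lit 78) (nat_lit 76) (nat_lit 0) (XT.lf (nat_lit 0) (nat_lit 64116258700) (nat_lit 152) (nat_lit 8237537470) (nat_lit 76) (nat_lit 327507746548) (nat_lit 9) (nat_lit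 5) (nat_lit 11) (nat_lit 5) (nat_lit 10) (nat_lit 4) (nat_lit 419) (nat_lit 336) (nat_lit 145)) (XT.nd (nat_lit 78) (nat_lit 0) (nat_lit 0) (XT.lf (nat_lit 0) (nat_lit 78208295507) (nat_lit 76) (nat_lit 28076953298) (nat_lit 152) (nat_lit 311275961790) (nat_lit 8) (nat_lit 5) (nat_lit 9) (nat_lit 5) (nat_lit 10) (nat_lit 4) (nat_lit 420) (nat_lit 336) (nat_lit 144)) (XT.lf (nat_lit 0) (nat_lit 150991584251) (nat_lit 152) (nat_lit 267166994268) (nat_lit 0) (nat_lit 17965838661) (nat_lit 8) (nat_lit 5) (nat_lit 10) (nat_lit 4) (nat_lit 8) (nat_lit 4) (nat_lit 421) (nat_lit 336) (nat_lit 143)))) (XT.nd (nat_lit 78) (nat_lit 0) (nat_lit 0) (XT.lf (nat_lit 0) (nat_lit 198393145057) (nat_lit 152) (nat_lit 191832759727) (nat_lit 0) (nat_lit 65366883981) (nat_lit 8) (nat_lit 5) (nat_lit 10) (nat_lit 4) (nat_lit 8) (nat_lit 4) (nat_lit 422) (nat_lit 336) (nat_lit 142)) (XT.nd (nat_lit 78) (nat_lit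 0) (nat_lit 0) (XT.lf (nat_lit 0) (nat_lit 248164432157) (nat_lit 152) (nat_lit 112732484315) (nat_lit 0) (nat_lit 115137680142) (nat_lit 8) (nat_lit 5) (nat_lit 10) (nat_lit 4) (nat_lit 8) (nat_lit 4) (nat_lit 423) (nat_lit 336) (nat_lit 141)) (XT.lf (nat_lit 0) (nat_lit 300423948615) (nat_lit 152) (nat_lit 29677834042) (nat_lit 0) (nat_lit 167396729038) (nat_lit 8) (nat_lit 5) (nat_lit 10) (nat_lit 4) (nat_lit 8) (nat_lit 4) (nat_lit 424) (nat_lit 336) (nat_lit 140))))))))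
noncomputable def xc192 : XT := (XT.nd (nat_lit 41418) (nat_lit 0) (nat_lit 2204) (XT.nd (nat_lit 40560) (nat_lit 0) (nat_lit 5244) (XT.nd (nat_lit 40092) (nat_lit 0) (nat_lit 6384) (XT.nd (nat_lit 156) (nat_lit 0) (nat_lit 0) (XT.nd (nat_lit 78) (nat_lit 0) (nat_lit 0) (XT.lf (nat_lit 0) (nat_lit 59431106831) (nat_lit 76) (nat_lit 296792901152) (nat_lit 76) (nat_lit 163765236279) (nat_lit 7) (nat_lit 4) (nat_lit 8) (nat_lit 5) (nat_lit 8) (nat_lit 4) (nat_lit 425) (nat_lit 336) (nat_lit 139)) (XT.lf (nat_lit 0) (nat_lit 154025243462) (nat_lit 76) (nat_lit 261291122141) (nat_lit 76) (nat_lit 128263033176) (nat_lit 7) (nat_lit 4) (nat_lit 8) (nat_lit 5) (nat_lit 8) (nat_lit 4) (nat_lit 426) (nat_lit 336) (nat_lit 138))) (XT.nd (nat_lit 78) (nat_lit 0) (nat_lit 0) (XT.lf (nat_lit 0) (nat_lit 253348516760) (nat_lit 76) (nat_lit 224014526056) (nat_lit 76) (nat_lit 90986033195) (nat_lit 7)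 (nat_lit 4) (nat_lit 8) (nat_lit 5) (nat_lit 8) (nat_lit 4) (nat_lit 427) (nat_lit 336) (nat_lit 137)) (XT.nd (nat_lit 39780) (nat_lit 0) (nat_lit 7068) (XT.lf (nat_lit 0) (nat_lit 357637410711) (nat_lit 76) (nat_lit 184874359100) (nat_lit 76) (nat_lit 51845481575) (nat_lit 7) (nat_lit 4) (nat_lit 8) (nat_lit 5) (nat_lit 8) (nat_lit 4) (nat_lit 428) (nat_lit 336) (nat_lit 136)) (XT.lf (nat_lit 0) (nat_lit 5754585992) (nat_lit 0) (nat_lit 5754585992) (nat_lit 684) (nat_lit 936769363) (nat_lit 100) (nat_lit 5) (nat_lit 100) (nat_lit 3) (nat_lit 109) (nat_lit 3) (nat_lit 337) (nat_lit 337) (nat_lit 226))))) (XT.nd (nat_lit 234) (nat_lit 684) (nat_lit 0) (XT.nd (nat_lit 78) (nat_lit 0) (nat_lit 0) (XT.lf (nat_lit 0) (nat_lit 23672863222) (nat_lit 0) (nat_lit 21138157) (nat_lit 684) (nat_lit 1815014325) (nat_lit 100) (nat_lit 5) (nat_lit 100) (nat_lit 3) (nat_lit 109) (nat_lit 3) (nat_lit 338)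 (nat_lit 337) (nat_lit 225)) (XT.nd (nat_lit 78) (nat_lit 0) (nat_lit 0) (XT.lf (nat_lit 76) (nat_lit 10429971873) (nat_lit 0) (nat_lit 14317945371) (nat_lit 760) (nat_lit 1391874206) (nat_lit 101) (nat_lit 5) (nat_lit 100) (nat_lit 5) (nat_lit 110) (nat_lit 5) (nat_lit 339) (nat_lit 337) (nat_lit 224)) (XT.lf (nat_lit 76) (nat_lit 23369261774) (nat_lit 0) (nat_lit 2510588225) (nat_lit 760) (nat_lit 920999325) (nat_lit 101) (nat_lit 5) (nat_lit 100) (nat_lit 5) (nat_lit 110) (nat_lit 5) (nat_lit 340) (nat_lit 337) (nat_lit 223)))) (XT.nd (nat_lit 78) (nat_lit 760) (nat_lit 0) (XT.lf (nat_lit 76) (nat_lit 9610072174) (nat_lit 0) (nat_lit 17756927011) (nat_lit 760) (nat_lit 113038865) (nat_lit 102) (nat_lit 5) (nat_lit 101) (nat_lit 5) (nat_lit 111) (nat_lit 5) (nat_lit 341) (nat_lit 337) (nat_lit 222)) (XT.nd (nat_lit 78) (nat_lit 0) (nat_lit 76) (XT.lf (nat_lit 0) (nat_lit 806343186) (nat_lit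 760) (nat_lit 4824755003) (nat_lit 836) (nat_lit 22556794201) (nat_lit 91) (nat_lit 5) (nat_lit 101) (nat_lit 5) (nat_lit 102) (nat_lit 5) (nat_lit 342) (nat_lit 337) (nat_lit 221)) (XT.lf (nat_lit 0) (nat_lit 2018786808) (nat_lit 760) (nat_lit 19877042585) (nat_lit 836) (nat_lit 7022680564) (nat_lit 92) (nat_lit 5) (nat_lit 102) (nat_lit 5) (nat_lit 103) (nat_lit 5) (nat_lit 343) (nat_lit 337) (nat_lit 220)))))) (XT.nd (nat_lit 390) (nat_lit 1216) (nat_lit 0) (XT.nd (nat_lit 156) (nat_lit 0) (nat_lit 76) (XT.nd (nat_lit 78) (nat_lit 0) (nat_lit 76) (XT.lf (nat_lit 0) (nat_lit 3462043415) (nat_lit 760) (nat_lit 6010606759) (nat_lit 836) (nat_lit 20204506049) (nat_lit 92) (nat_lit 5) (nat_lit 102) (nat_lit 5) (nat_lit 103) (nat_lit 5) (nat_lit 344) (nat_lit 337) (nat_lit 219)) (XT.lf (nat_lit 0) (nat_lit 5168410256) (nat_lit 760) (nat_lit 21697138877) (nat_lit 836) (nat_lit 3598645309)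 (nat_lit 93) (nat_lit 5) (nat_lit 103) (nat_lit 5) (nat_lit 104) (nat_lit 5) (nat_lit 345) (nat_lit 337) (nat_lit 218))) (XT.nd (nat_lit 78) (nat_lit 0) (nat_lit 0) (XT.lf (nat_lit 0) (nat_lit 7214115890) (nat_lit 760) (nat_lit 6954080561) (nat_lit 836) (nat_lit 17109693777) (nat_lit 93) (nat_lit 5) (nat_lit 103) (nat_lit 5) (nat_lit 104) (nat_lit 5) (nat_lit 346) (nat_lit 337) (nat_lit 217)) (XT.nd (nat_lit 78) (nat_lit 0) (nat_lit 76) (XT.lf (nat_lit 76) (nat_lit 8804202771) (nat_lit 0) (nat_lit 690857398) (nat_lit 836) (nat_lit 22630569326) (nat_lit 94) (nat_lit 5) (nat_lit 93) (nat_lit 5) (nat_lit 104) (nat_lit 5) (nat_lit 347) (nat_lit 337) (nat_lit 216)) (XT.lf (nat_lit 0) (nat_lit 12215570091) (nat_lit 760) (nat_lit 7634012994) (nat_lit 76) (nat_lit 13149902775) (nat_lit 94) (nat_lit 5) (nat_lit 104) (nat_lit 5) (nat_lit 95) (nat_lit 5) (nat_lit 348) (nat_lit 337) (nat_lit 215)))))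 (XT.nd (nat_lit 234) (nat_lit 304) (nat_lit 0) (XT.nd (nat_lit 78) (nat_lit 380) (nat_lit 0) (XT.lf (nat_lit 0) (nat_lit 9114459202) (nat_lit 684) (nat_lit 6107143874) (nat_lit 760) (nat_lit 18687962856) (nat_lit 85) (nat_lit 5) (nat_lit 94) (nat_lit 5) (nat_lit 95) (nat_lit 5) (nat_lit 349) (nat_lit 337) (nat_lit 214)) (XT.nd (nat_lit 78) (nat_lit 380) (nat_lit 0) (XT.lf (nat_lit 0) (nat_lit 18635294014) (nat_lit 760) (nat_lit 8029207628) (nat_lit 76) (nat_lit 8187786046) (nat_lit 85) (nat_lit 5) (nat_lit 95) (nat_lit 5) (nat_lit 86) (nat_lit 5) (nat_lit 350) (nat_lit 337) (nat_lit 213)) (XT.lf (nat_lit 0) (nat_lit 9784356583) (nat_lit 380) (nat_lit 12684395921) (nat_lit 456) (nat_lit 13360944108) (nat_lit 80) (nat_lit 5) (nat_lit 85) (nat_lit 5) (nat_lit 86) (nat_lit 5) (nat_lit 351) (nat_lit 337) (nat_lit 212)))) (XT.nd (nat_lit 78) (nat_lit 304) (nat_lit 0) (XT.lf (nat_lit 0) (nat_lit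 26659564548) (nat_lit 456) (nat_lit 8118997769) (nat_lit 76) (nat_lit 2069134616) (nat_lit 80) (nat_lit 5) (nat_lit 86) (nat_lit 5) (nat_lit 81) (nat_lit 5) (nat_lit 352) (nat_lit 337) (nat_lit 211)) (XT.nd (nat_lit 78) (nat_lit 0) (nat_lit 0) (XT.lf (nat_lit 0) (nat_lit 10839014532) (nat_lit 304) (nat_lit 20594575604) (nat_lit 380) (nat_lit 6464328234) (nat_lit 76) (nat_lit 5) (nat_lit 80) (nat_lit 5) (nat_lit 81) (nat_lit 5) (nat_lit 353) (nat_lit 337) (nat_lit 210)) (XT.lf (nat_lit 0) (nat_lit 31023236830) (nat_lit 304) (nat_lit 5557194764) (nat_lit 380) (nat_lit 2413518072) (nat_lit 76) (nat_lit 5) (nat_lit 80) (nat_lit 5) (nat_lit 81) (nat_lit 5) (nat_lit 354) (nat_lit 337) (nat_lit 209))))))) (XT.nd (nat_lit 858) (nat_lit 1216) (nat_lit 0) (XT.nd (nat_lit 390) (nat_lit 836) (nat_lit 0) (XT.nd (nat_lit 156) (nat_lit 608) (nat_lit 0) (XT.nd (nat_lit 78) (nat_lit 0) (nat_lit 0) (XT.lf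 (nat_lit 0) (nat_lit 2135255892) (nat_lit 380) (nat_lit 27859465406) (nat_lit 76) (nat_lit 10130913612) (nat_lit 71) (nat_lit 5) (nat_lit 76) (nat_lit 5) (nat_lit 72) (nat_lit 5) (nat_lit 355) (nat_lit 337) (nat_lit 208)) (XT.lf (nat_lit 0) (nat_lit 7055478561) (nat_lit 380) (nat_lit 7652022987) (nat_lit 76) (nat_lit 26593172476) (nat_lit 71) (nat_lit 5) (nat_lit 76) (nat_lit 5) (nat_lit 72) (nat_lit 5) (nat_lit 356) (nat_lit 337) (nat_lit 207))) (XT.nd (nat_lit 78) (nat_lit 304) (nat_lit 0) (XT.lf (nat_lit 0) (nat_lit 12461993778) (nat_lit 380) (nat_lit 28537460147) (nat_lit 76) (nat_lit 1523000816) (nat_lit 67) (nat_lit 5) (nat_lit 72) (nat_lit 5) (nat_lit 68) (nat_lit 5) (nat_lit 357) (nat_lit 337) (nat_lit 206)) (XT.nd (nat_lit 78) (nat_lit 304) (nat_lit 0) (XT.lf (nat_lit 0) (nat_lit 18508710342) (nat_lit 380) (nat_lit 7076077025) (nat_lit 76) (nat_lit 18202046890) (nat_lit 67) (nat_lit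 5) (nat_lit 72) (nat_lit 5) (nat_lit 68) (nat_lit 5) (nat_lit 358) (nat_lit 337) (nat_lit 205)) (XT.lf (nat_lit 0) (nat_lit 15966030745) (nat_lit 304) (nat_lit 9138200618) (nat_lit 380) (nat_lit 19997881324) (nat_lit 63) (nat_lit 5) (nat_lit 67) (nat_lit 5) (nat_lit 68) (nat_lit 5) (nat_lit 359) (nat_lit 337) (nat_lit 204))))) (XT.nd (nat_lit 234) (nat_lit 608) (nat_lit 0) (XT.nd (nat_lit 78) (nat_lit 228) (nat_lit 0) (XT.lf (nat_lit 0) (nat_lit 32275540162) (nat_lit 380) (nat_lit 6203595085) (nat_lit 76) (nat_lit 7991722420) (nat_lit 63) (nat_lit 5) (nat_lit 68) (nat_lit 5) (nat_lit 64) (nat_lit 5) (nat_lit 360) (nat_lit 337) (nat_lit 203)) (XT.nd (nat_lit 78) (nat_lit 0) (nat_lit 0) (XT.lf (nat_lit 0) (nat_lit 18308423523) (nat_lit 228) (nat_lit 21930040525) (nat_lit 304) (nat_lit 7647926422) (nat_lit 60) (nat_lit 5) (nat_lit 63) (nat_lit 5) (nat_lit 64) (nat_lit 5) (nat_lit 361) (nat_lit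 337) (nat_lit 202)) (XT.lf (nat_lit 0) (nat_lit 44258200700) (nat_lit 228) (nat_lit 4443865304) (nat_lit 304) (nat_lit 665510230) (nat_lit 60) (nat_lit 5) (nat_lit 63) (nat_lit 5) (nat_lit 64) (nat_lit 5) (nat_lit 362) (nat_lit 337) (nat_lit 201)))) (XT.nd (nat_lit 78) (nat_lit 228) (nat_lit 0) (XT.lf (nat_lit 0) (nat_lit 7004856887) (nat_lit 380) (nat_lit 29973184495) (nat_lit 76) (nat_lit 13911969549) (nat_lit 55) (nat_lit 5) (nat_lit 60) (nat_lit 5) (nat_lit 56) (nat_lit 5) (nat_lit 363) (nat_lit 337) (nat_lit 200)) (XT.nd (nat_lit 78) (nat_lit 228) (nat_lit 0) (XT.lf (nat_lit 0) (nat_lit 15194781817) (nat_lit 380) (nat_lit 4150902527) (nat_lit 76) (nat_lit 33134419787) (nat_lit 55) (nat_lit 5) (nat_lit 60) (nat_lit 5) (nat_lit 56) (nat_lit 5) (nat_lit 364) (nat_lit 337) (nat_lit 199)) (XT.lf (nat_lit 0) (nat_lit 23718581644) (nat_lit 228) (nat_lit 443655303) (nat_lit 304) (nat_lit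 29969065742) (nat_lit 52) (nat_lit 5) (nat_lit 55) (nat_lit 5) (nat_lit 56) (nat_lit 5) (nat_lit 365) (nat_lit 337) (nat_lit 198)))))) (XT.nd (nat_lit 468) (nat_lit 532) (nat_lit 0) (XT.nd (nat_lit 234) (nat_lit 456) (nat_lit 0) (XT.nd (nat_lit 78) (nat_lit 228) (nat_lit 0) (XT.lf (nat_lit 0) (nat_lit 33950227182) (nat_lit 304) (nat_lit 3043097608) (nat_lit 76) (nat_lit 18853130552) (nat_lit 52) (nat_lit 5) (nat_lit 56) (nat_lit 5) (nat_lit 53) (nat_lit 5) (nat_lit 366) (nat_lit 337) (nat_lit 197)) (XT.nd (nat_lit 78) (nat_lit 0) (nat_lit 0) (XT.lf (nat_lit 0) (nat_lit 26534030308) (nat_lit 228) (nat_lit 18113006192) (nat_lit 304) (nat_lit 12979360321) (nat_lit 49) (nat_lit 5) (nat_lit 52) (nat_lit 5) (nat_lit 53) (nat_lit 5) (nat_lit 367) (nat_lit 337) (nat_lit 196)) (XT.lf (nat_lit 0) (nat_lit 55955704618) (nat_lit 304) (nat_lit 1827660907) (nat_lit 76) (nat_lit 1708121004) (nat_lit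 49) (nat_lit 5) (nat_lit 53) (nat_lit 5) (nat_lit 50) (nat_lit 5) (nat_lit 368) (nat_lit 337) (nat_lit 195)))) (XT.nd (nat_lit 78) (nat_lit 228) (nat_lit 0) (XT.lf (nat_lit 0) (nat_lit 6944422310) (nat_lit 228) (nat_lit 31977880282) (nat_lit 76) (nat_lit 22484117245) (nat_lit 46) (nat_lit 5) (nat_lit 49) (nat_lit 5) (nat_lit 47) (nat_lit 5) (nat_lit 369) (nat_lit 337) (nat_lit 194)) (XT.nd (nat_lit 78) (nat_lit 228) (nat_lit 0) (XT.lf (nat_lit 0) (nat_lit 17859305632) (nat_lit 228) (nat_lit 1165901549) (nat_lit 76) (nat_lit 44387521519) (nat_lit 46) (nat_lit 5) (nat_lit 49) (nat_lit 5) (nat_lit 47) (nat_lit 5) (nat_lit 370) (nat_lit 337) (nat_lit 193)) (XT.lf (nat_lit 0) (nat_lit 29858404812) (nat_lit 304) (nat_lit 33316662471) (nat_lit 76) (nat_lit 2317363843) (nat_lit 43) (nat_lit 5) (nat_lit 47) (nat_lit 5) (nat_lit 44) (nat_lit 5) (nat_lit 371) (nat_lit 337) (nat_lit 192))))) (XT.nd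 (nat_lit 234) (nat_lit 380) (nat_lit 0) (XT.nd (nat_lit 78) (nat_lit 152) (nat_lit 0) (XT.lf (nat_lit 0) (nat_lit 42787577930) (nat_lit 304) (nat_lit 765122304) (nat_lit 76) (nat_lit 24106914111) (nat_lit 43) (nat_lit 5) (nat_lit 47) (nat_lit 5) (nat_lit 44) (nat_lit 5) (nat_lit 372) (nat_lit 337) (nat_lit 191)) (XT.nd (nat_lit 78) (nat_lit 0) (nat_lit 0) (XT.lf (nat_lit 0) (nat_lit 34516078862) (nat_lit 152) (nat_lit 22384272649) (nat_lit 228) (nat_lit 13007949670) (nat_lit 41) (nat_lit 5) (nat_lit 43) (nat_lit 5) (nat_lit 44) (nat_lit 5) (nat_lit 373) (nat_lit 337) (nat_lit 190)) (XT.lf (nat_lit 0) (nat_lit 71585299995) (nat_lit 152) (nat_lit 144713308) (nat_lit 228) (nat_lit 538848049) (nat_lit 41) (nat_lit 5) (nat_lit 43) (nat_lit 5) (nat_lit 44) (nat_lit 5) (nat_lit 374) (nat_lit 337) (nat_lit 189)))) (XT.nd (nat_lit 78) (nat_lit 152) (nat_lit 0) (XT.lf (nat_lit 0) (nat_lit 13098763192)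 (nat_lit 228) (nat_lit 38346141653) (nat_lit 76) (nat_lit 23245403513) (nat_lit 38) (nat_lit 5) (nat_lit 41) (nat_lit 5) (nat_lit 39) (nat_lit 5) (nat_lit 375) (nat_lit 337) (nat_lit 188)) (XT.nd (nat_lit 78) (nat_lit 152) (nat_lit 0) (XT.lf (nat_lit 0) (nat_lit 27412655993) (nat_lit 228) (nat_lit 1999194598) (nat_lit 76) (nat_lit 47819911224) (nat_lit 38) (nat_lit 5) (nat_lit 41) (nat_lit 5) (nat_lit 39) (nat_lit 5) (nat_lit 376) (nat_lit 337) (nat_lit 187)) (XT.lf (nat_lit 0) (nat_lit 37358359787) (nat_lit 152) (nat_lit 5665601153) (nat_lit 228) (nat_lit 36847242340) (nat_lit 36) (nat_lit 5) (nat_lit 38) (nat_lit 5) (nat_lit 39) (nat_lit 5) (nat_lit 377) (nat_lit 337) (nat_lit 186))))))))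
noncomputable def xc193 : XT := (XT.nd (nat_lit 1794) (nat_lit 684) (nat_lit 0) (XT.nd (nat_lit 858) (nat_lit 608) (nat_lit 0) (XT.nd (nat_lit 390) (nat_lit 456) (nat_lit 0) (XT.nd (nat_lit 156) (nat_lit 228) (nat_lit 0) (XT.nd (nat_lit 78) (nat_lit 152) (nat_lit 0) (XT.lf (nat_lit 0) (nat_lit 59749541711) (nat_lit 228) (nat_lit 4191570966) (nat_lit 76) (nat_lit 18684819766) (nat_lit 36) (nat_lit 5) (nat_lit 39) (nat_lit 5) (nat_lit 37) (nat_lit 5) (nat_lit 378) (nat_lit 337) (nat_lit 185)) (XT.lf (nat_lit 0) (nat_lit 37139226500) (nat_lit 152) (nat_lit 40843445271) (nat_lit 228) (nat_lit 7502163879) (nat_lit 34) (nat_lit 5) (nat_lit 36) (nat_lit 5) (nat_lit 37) (nat_lit 5) (nat_lit 379) (nat_lit 337) (nat_lit 184))) (XT.nd (nat_lit 78) (nat_lit 152) (nat_lit 0) (XT.lf (nat_lit 0) (nat_lit 8434918643) (nat_lit 228) (nat_lit 7939477540) (nat_lit 76) (nat_lit 72102008339) (nat_lit 33) (nat_lit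 5) (nat_lit 36) (nat_lit 5) (nat_lit 34) (nat_lit 5) (nat_lit 380) (nat_lit 337) (nat_lit 183)) (XT.nd (nat_lit 78) (nat_lit 0) (nat_lit 0) (XT.lf (nat_lit 0) (nat_lit 25626146750) (nat_lit 228) (nat_lit 56242448832) (nat_lit 76) (nat_lit 9707337224) (nat_lit 31) (nat_lit 5) (nat_lit 34) (nat_lit 5) (nat_lit 32) (nat_lit 5) (nat_lit 381) (nat_lit 337) (nat_lit 182)) (XT.lf (nat_lit 0) (nat_lit 44080671753) (nat_lit 228) (nat_lit 14050881637) (nat_lit 76) (nat_lit 36678698242) (nat_lit 31) (nat_lit 5) (nat_lit 34) (nat_lit 5) (nat_lit 32) (nat_lit 5) (nat_lit 382) (nat_lit 337) (nat_lit 181))))) (XT.nd (nat_lit 234) (nat_lit 152) (nat_lit 0) (XT.nd (nat_lit 78) (nat_lit 152) (nat_lit 0) (XT.lf (nat_lit 0) (nat_lit 31248246369) (nat_lit 152) (nat_lit 32696253743) (nat_lit 228) (nat_lit 34237458293) (nat_lit 29) (nat_lit 5) (nat_lit 31) (nat_lit 5) (nat_lit 32) (nat_lit 5) (nat_lit 383) (nat_lit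 337) (nat_lit 180)) (XT.nd (nat_lit 78) (nat_lit 152) (nat_lit 0) (XT.lf (nat_lit 0) (nat_lit 79298023862) (nat_lit 152) (nat_lit 5740187482) (nat_lit 228) (nat_lit 16672205419) (nat_lit 29) (nat_lit 5) (nat_lit 31) (nat_lit 5) (nat_lit 32) (nat_lit 5) (nat_lit 384) (nat_lit 337) (nat_lit 179)) (XT.lf (nat_lit 0) (nat_lit 2464559657) (nat_lit 152) (nat_lit 80644608413) (nat_lit 76) (nat_lit 22267250829) (nat_lit 27) (nat_lit 5) (nat_lit 29) (nat_lit 5) (nat_lit 28) (nat_lit 5) (nat_lit 385) (nat_lit 337) (nat_lit 178)))) (XT.nd (nat_lit 78) (nat_lit 152) (nat_lit 0) (XT.lf (nat_lit 0) (nat_lit 22476542688) (nat_lit 152) (nat_lit 34571126456) (nat_lit 76) (nat_lit 52140453206) (nat_lit 27) (nat_lit 5) (nat_lit 29) (nat_lit 5) (nat_lit 28) (nat_lit 5) (nat_lit 386) (nat_lit 337) (nat_lit 177)) (XT.nd (nat_lit 78) (nat_lit 0) (nat_lit 0) (XT.lf (nat_lit 0) (nat_lit 14260476161) (nat_lit 152)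 (nat_lit 29450139091) (nat_lit 228) (nat_lit 69468721877) (nat_lit 25) (nat_lit 5) (nat_lit 27) (nat_lit 5) (nat_lit 28) (nat_lit 5) (nat_lit 387) (nat_lit 337) (nat_lit 176)) (XT.lf (nat_lit 0) (nat_lit 66592943845) (nat_lit 228) (nat_lit 50611155986) (nat_lit 76) (nat_lit 136685839) (nat_lit 25) (nat_lit 5) (nat_lit 28) (nat_lit 5) (nat_lit 26) (nat_lit 4) (nat_lit 388) (nat_lit 337) (nat_lit 175)))))) (XT.nd (nat_lit 468) (nat_lit 228) (nat_lit 0) (XT.nd (nat_lit 234) (nat_lit 228) (nat_lit 0) (XT.nd (nat_lit 78) (nat_lit 152) (nat_lit 0) (XT.lf (nat_lit 0) (nat_lit 91101088805) (nat_lit 228) (nat_lit 372750444) (nat_lit 76) (nat_lit 30212383003) (nat_lit 25) (nat_lit 5) (nat_lit 28) (nat_lit 5) (nat_lit 26) (nat_lit 4) (nat_lit 389) (nat_lit 337) (nat_lit 174)) (XT.nd (nat_lit 78) (nat_lit 76) (nat_lit 0) (XT.lf (nat_lit 0) (nat_lit 54107549608) (nat_lit 76) (nat_lit 63570824530) (nat_lit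 152) (nat_lit 8528370451) (nat_lit 24) (nat_lit 5) (nat_lit 25) (nat_lit 5) (nat_lit 26) (nat_lit 4) (nat_lit 390) (nat_lit 337) (nat_lit 173)) (XT.lf (nat_lit 0) (nat_lit 14168323256) (nat_lit 152) (nat_lit 19858520516) (nat_lit 76) (nat_lit 96914758908) (nat_lit 23) (nat_lit 5) (nat_lit 25) (nat_lit 5) (nat_lit 24) (nat_lit 5) (nat_lit 391) (nat_lit 337) (nat_lit 172)))) (XT.nd (nat_lit 78) (nat_lit 76) (nat_lit 0) (XT.lf (nat_lit 0) (nat_lit 36005039857) (nat_lit 152) (nat_lit 2269358502) (nat_lit 228) (nat_lit 97603757557) (nat_lit 21) (nat_lit 5) (nat_lit 23) (nat_lit 5) (nat_lit 24) (nat_lit 5) (nat_lit 392) (nat_lit 337) (nat_lit 171)) (XT.nd (nat_lit 78) (nat_lit 76) (nat_lit 0) (XT.lf (nat_lit 0) (nat_lit 64411812883) (nat_lit 228) (nat_lit 46185930669) (nat_lit 76) (nat_lit 30422491957) (nat_lit 21) (nat_lit 5) (nat_lit 24) (nat_lit 5) (nat_lit 22) (nat_lit 4) (nat_lit 393) (nat_lit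 337) (nat_lit 170)) (XT.lf (nat_lit 0) (nat_lit 10482257696) (nat_lit 76) (nat_lit 81573772078) (nat_lit 152) (nat_lit 54353393183) (nat_lit 20) (nat_lit 5) (nat_lit 21) (nat_lit 5) (nat_lit 22) (nat_lit 4) (nat_lit 394) (nat_lit 337) (nat_lit 169))))) (XT.nd (nat_lit 234) (nat_lit 76) (nat_lit 0) (XT.nd (nat_lit 78) (nat_lit 152) (nat_lit 0) (XT.lf (nat_lit 0) (nat_lit 71585701936) (nat_lit 76) (nat_lit 50278027125) (nat_lit 152) (nat_lit 30165277574) (nat_lit 20) (nat_lit 5) (nat_lit 21) (nat_lit 5) (nat_lit 22) (nat_lit 4) (nat_lit 395) (nat_lit 337) (nat_lit 168)) (XT.nd (nat_lit 78) (nat_lit 152) (nat_lit 0) (XT.lf (nat_lit 0) (nat_lit 135742770990) (nat_lit 76) (nat_lit 17418176098) (nat_lit 152) (nat_lit 4768666133) (nat_lit 20) (nat_lit 5) (nat_lit 21) (nat_lit 5) (nat_lit 22) (nat_lit 4) (nat_lit 396) (nat_lit 337) (nat_lit 167)) (XT.lf (nat_lit 0) (nat_lit 22101832433) (nat_lit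 152) (nat_lit 124442950512) (nat_lit 76) (nat_lit 17518127176) (nat_lit 18) (nat_lit 5) (nat_lit 20) (nat_lit 5) (nat_lit 19) (nat_lit 4) (nat_lit 397) (nat_lit 337) (nat_lit 166)))) (XT.nd (nat_lit 78) (nat_lit 76) (nat_lit 0) (XT.lf (nat_lit 0) (nat_lit 50822213770) (nat_lit 152) (nat_lit 65568093316) (nat_lit 76) (nat_lit 54075325582) (nat_lit 18) (nat_lit 5) (nat_lit 20) (nat_lit 5) (nat_lit 19) (nat_lit 4) (nat_lit 398) (nat_lit 337) (nat_lit 165)) (XT.nd (nat_lit 78) (nat_lit 76) (nat_lit 0) (XT.lf (nat_lit 0) (nat_lit 80977821566) (nat_lit 152) (nat_lit 3750930236) (nat_lit 76) (nat_lit 92459779511) (nat_lit 18) (nat_lit 5) (nat_lit 20) (nat_lit 5) (nat_lit 19) (nat_lit 4) (nat_lit 399) (nat_lit 337) (nat_lit 164)) (XT.lf (nat_lit 0) (nat_lit 63177806822) (nat_lit 76) (nat_lit 50449030684) (nat_lit 152) (nat_lit 70571456321) (nat_lit 17) (nat_lit 5) (nat_lit 18) (nat_lit 5) (nat_lit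 19) (nat_lit 4) (nat_lit 400) (nat_lit 337) (nat_lit 163))))))) (XT.nd (nat_lit 858) (nat_lit 304) (nat_lit 0) (XT.nd (nat_lit 390) (nat_lit 152) (nat_lit 0) (XT.nd (nat_lit 156) (nat_lit 152) (nat_lit 0) (XT.nd (nat_lit 78) (nat_lit 76) (nat_lit 0) (XT.lf (nat_lit 0) (nat_lit 133581858087) (nat_lit 76) (nat_lit 14389230033) (nat_lit 152) (nat_lit 43584317460) (nat_lit 17) (nat_lit 5) (nat_lit 18) (nat_lit 5) (nat_lit 19) (nat_lit 4) (nat_lit 401) (nat_lit 337) (nat_lit 162)) (XT.lf (nat_lit 0) (nat_lit 8117761111) (nat_lit 76) (nat_lit 176407305497) (nat_lit 76) (nat_lit 14730680841) (nat_lit 16) (nat_lit 4) (nat_lit 17) (nat_lit 5) (nat_lit 17) (nat_lit 4) (nat_lit 402) (nat_lit 337) (nat_lit 161))) (XT.nd (nat_lit 78) (nat_lit 76) (nat_lit 0) (XT.lf (nat_lit 0) (nat_lit 16300522751) (nat_lit 152) (nat_lit 128261989141) (nat_lit 76) (nat_lit 62704789487) (nat_lit 15) (nat_lit 5) (nat_lit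 17) (nat_lit 5) (nat_lit 16) (nat_lit 4) (nat_lit 403) (nat_lit 337) (nat_lit 160)) (XT.nd (nat_lit 78) (nat_lit 76) (nat_lit 0) (XT.lf (nat_lit 0) (nat_lit 48387561350) (nat_lit 152) (nat_lit 62484927751) (nat_lit 76) (nat_lit 104794903715) (nat_lit 15) (nat_lit 5) (nat_lit 17) (nat_lit 5) (nat_lit 16) (nat_lit 4) (nat_lit 404) (nat_lit 337) (nat_lit 159)) (XT.lf (nat_lit 0) (nat_lit 6797354898) (nat_lit 76) (nat_lit 75387077309) (nat_lit 152) (nat_lit 142297782843) (nat_lit 14) (nat_lit 5) (nat_lit 15) (nat_lit 5) (nat_lit 16) (nat_lit 4) (nat_lit 405) (nat_lit 337) (nat_lit 158))))) (XT.nd (nat_lit 234) (nat_lit 152) (nat_lit 0) (XT.nd (nat_lit 78) (nat_lit 0) (nat_lit 0) (XT.lf (nat_lit 0) (nat_lit 81711916850) (nat_lit 76) (nat_lit 37016809274) (nat_lit 152) (nat_lit 114956173526) (nat_lit 14) (nat_lit 5) (nat_lit 15) (nat_lit 5) (nat_lit 16) (nat_lit 4) (nat_lit 406) (nat_lit 337)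 (nat_lit 157)) (XT.nd (nat_lit 78) (nat_lit 0) (nat_lit 0) (XT.lf (nat_lit 0) (nat_lit 157150708573) (nat_lit 152) (nat_lit 83027733300) (nat_lit 0) (nat_lit 3166753135) (nat_lit 14) (nat_lit 5) (nat_lit 16) (nat_lit 4) (nat_lit 14) (nat_lit 4) (nat_lit 407) (nat_lit 337) (nat_lit 156)) (XT.lf (nat_lit 0) (nat_lit 198100041350) (nat_lit 152) (nat_lit 11243137181) (nat_lit 0) (nat_lit 44115014253) (nat_lit 14) (nat_lit 5) (nat_lit 16) (nat_lit 4) (nat_lit 14) (nat_lit 4) (nat_lit 408) (nat_lit 337) (nat_lit 155)))) (XT.nd (nat_lit 78) (nat_lit 76) (nat_lit 0) (XT.lf (nat_lit 0) (nat_lit 66250073486) (nat_lit 76) (nat_lit 175880562560) (nat_lit 76) (nat_lit 21894514836) (nat_lit 13) (nat_lit 4) (nat_lit 14) (nat_lit 5) (nat_lit 14) (nat_lit 4) (nat_lit 409) (nat_lit 337) (nat_lit 154)) (XT.nd (nat_lit 78) (nat_lit 0) (nat_lit 0) (XT.lf (nat_lit 0) (nat_lit 13011444002) (nat_lit 152) (nat_lit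 127313559545) (nat_lit 76) (nat_lit 134775467204) (nat_lit 12) (nat_lit 5) (nat_lit 14) (nat_lit 5) (nat_lit 13) (nat_lit 4) (nat_lit 410) (nat_lit 337) (nat_lit 153)) (XT.lf (nat_lit 0) (nat_lit 48926375242) (nat_lit 152) (nat_lit 53688876241) (nat_lit 76) (nat_lit 184096385292) (nat_lit 12) (nat_lit 5) (nat_lit 14) (nat_lit 5) (nat_lit 13) (nat_lit 4) (nat_lit 411) (nat_lit 337) (nat_lit 152)))))) (XT.nd (nat_lit 468) (nat_lit 152) (nat_lit 0) (XT.nd (nat_lit 234) (nat_lit 76) (nat_lit 0) (XT.nd (nat_lit 78) (nat_lit 0) (nat_lit 0) (XT.lf (nat_lit 0) (nat_lit 24396959170) (nat_lit 76) (nat_lit 62620497569) (nat_lit 152) (nat_lit 211866884342) (nat_lit 11) (nat_lit 5) (nat_lit 12) (nat_lit 5) (nat_lit 13) (nat_lit 4) (nat_lit 412) (nat_lit 337) (nat_lit 151)) (XT.nd (nat_lit 78) (nat_lit 0) (nat_lit 0) (XT.lf (nat_lit 0) (nat_lit 108250120905) (nat_lit 76) (nat_lit 19671726764) (nat_lit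 152) (nat_lit 183698395320) (nat_lit 11) (nat_lit 5) (nat_lit 12) (nat_lit 5) (nat_lit 13) (nat_lit 4) (nat_lit 413) (nat_lit 337) (nat_lit 150)) (XT.lf (nat_lit 0) (nat_lit 171267930852) (nat_lit 152) (nat_lit 129094841951) (nat_lit 0) (nat_lit 24610343703) (nat_lit 11) (nat_lit 5) (nat_lit 13) (nat_lit 4) (nat_lit 11) (nat_lit 4) (nat_lit 414) (nat_lit 337) (nat_lit 149)))) (XT.nd (nat_lit 78) (nat_lit 76) (nat_lit 0) (XT.lf (nat_lit 0) (nat_lit 217103353403) (nat_lit 152) (nat_lit 51429137764) (nat_lit 0) (nat_lit 70445040913) (nat_lit 11) (nat_lit 5) (nat_lit 13) (nat_lit 4) (nat_lit 11) (nat_lit 4) (nat_lit 415) (nat_lit 337) (nat_lit 148)) (XT.nd (nat_lit 78) (nat_lit 0) (nat_lit 0) (XT.lf (nat_lit 0) (nat_lit 31114911076) (nat_lit 76) (nat_lit 234600996382) (nat_lit 76) (nat_lit 87941993091) (nat_lit 10) (nat_lit 4) (nat_lit 11) (nat_lit 5) (nat_lit 11) (nat_lit 4) (nat_lit 416)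 (nat_lit 337) (nat_lit 147)) (XT.lf (nat_lit 0) (nat_lit 119570866961) (nat_lit 76) (nat_lit 198058777032) (nat_lit 76) (nat_lit 51399115836) (nat_lit 10) (nat_lit 4) (nat_lit 11) (nat_lit 5) (nat_lit 11) (nat_lit 4) (nat_lit 417) (nat_lit 337) (nat_lit 146))))) (XT.nd (nat_lit 234) (nat_lit 76) (nat_lit 0) (XT.nd (nat_lit 78) (nat_lit 76) (nat_lit 0) (XT.lf (nat_lit 0) (nat_lit 212448859755) (nat_lit 76) (nat_lit 159689805168) (nat_lit 76) (nat_lit 13029517395) (nat_lit 10) (nat_lit 4) (nat_lit 11) (nat_lit 5) (nat_lit 11) (nat_lit 4) (nat_lit 418) (nat_lit 337) (nat_lit 145)) (XT.nd (nat_lit 78) (nat_lit 0) (nat_lit 0) (XT.lf (nat_lit 0) (nat_lit 26385727118) (nat_lit 152) (nat_lit 92570143920) (nat_lit 76) (nat_lit 283137445361) (nat_lit 9) (nat_lit 5) (nat_lit 11) (nat_lit 5) (nat_lit 10) (nat_lit 4) (nat_lit 419) (nat_lit 337) (nat_lit 144)) (XT.lf (nat_lit 0) (nat_lit 67333485523)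 (nat_lit 152) (nat_lit 8627807512) (nat_lit 76) (nat_lit 343892752877) (nat_lit 9) (nat_lit 5) (nat_lit 11) (nat_lit 5) (nat_lit 10) (nat_lit 4) (nat_lit 420) (nat_lit 337) (nat_lit 143)))) (XT.nd (nat_lit 78) (nat_lit 0) (nat_lit 0) (XT.lf (nat_lit 0) (nat_lit 82139968617) (nat_lit 76) (nat_lit 29470744902) (nat_lit 152) (nat_lit 326827994402) (nat_lit 8) (nat_lit 5) (nat_lit 9) (nat_lit 5) (nat_lit 10) (nat_lit 4) (nat_lit 421) (nat_lit 337) (nat_lit 142)) (XT.nd (nat_lit 78) (nat_lit 0) (nat_lit 0) (XT.lf (nat_lit 0) (nat_lit 158551981821) (nat_lit 152) (nat_lit 280504711090) (nat_lit 0) (nat_lit 18873401266) (nat_lit 8) (nat_lit 5) (nat_lit 10) (nat_lit 4) (nat_lit 8) (nat_lit 4) (nat_lit 422) (nat_lit 337) (nat_lit 141)) (XT.lf (nat_lit 0) (nat_lit 208323105508) (nat_lit 152) (nat_lit 201404747341) (nat_lit 0) (nat_lit 68644057391) (nat_lit 8) (nat_lit 5) (nat_lit 10) (nat_lit 4)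 (nat_lit 8) (nat_lit 4) (nat_lit 423) (nat_lit 337) (nat_lit 140))))))))
noncomputable def xc194 : XT := (XT.nd (nat_lit 41652) (nat_lit 0) (nat_lit 2204) (XT.nd (nat_lit 40716) (nat_lit 0) (nat_lit 4864) (XT.nd (nat_lit 40248) (nat_lit 0) (nat_lit 6384) (XT.nd (nat_lit 156) (nat_lit 76) (nat_lit 0) (XT.nd (nat_lit 78) (nat_lit 0) (nat_lit 0) (XT.lf (nat_lit 0) (nat_lit 260582466334) (nat_lit 152) (nat_lit 118350393890) (nat_lit 0) (nat_lit 120902972921) (nat_lit 8) (nat_lit 5) (nat_lit 10) (nat_lit 4) (nat_lit 8) (nat_lit 4) (nat_lit 424) (nat_lit 337) (nat_lit 139)) (XT.lf (nat_lit 0) (nat_lit 315454491350) (nat_lit 152) (nat_lit 31143902277) (nat_lit 0) (nat_lit 175774573845) (nat_lit 8) (nat_lit 5) (nat_lit 10) (nat_lit 4) (nat_lit 8) (nat_lit 4) (nat_lit 425) (nat_lit 337) (nat_lit 138))) (XT.nd (nat_lit 78) (nat_lit 0) (nat_lit 0) (XT.lf (nat_lit 0) (nat_lit 62420198165) (nat_lit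 76) (nat_lit 311624184293) (nat_lit 76) (nat_lit 171943862891) (nat_lit 7) (nat_lit 4) (nat_lit 8) (nat_lit 5) (nat_lit 8) (nat_lit 4) (nat_lit 426) (nat_lit 337) (nat_lit 137)) (XT.nd (nat_lit 39936) (nat_lit 0) (nat_lit 7068) (XT.lf (nat_lit 0) (nat_lit 161743206580) (nat_lit 76) (nat_lit 274347714517) (nat_lit 76) (nat_lit 134667008452) (nat_lit 7) (nat_lit 4) (nat_lit 8) (nat_lit 5) (nat_lit 8) (nat_lit 4) (nat_lit 427) (nat_lit 337) (nat_lit 136)) (XT.lf (nat_lit 0) (nat_lit 6091632505) (nat_lit 0) (nat_lit 6091632505) (nat_lit 684) (nat_lit 879889971) (nat_lit 100) (nat_lit 5) (nat_lit 100) (nat_lit 3) (nat_lit 109) (nat_lit 3) (nat_lit 338) (nat_lit 338) (nat_lit 224))))) (XT.nd (nat_lit 234) (nat_lit 684) (nat_lit 0) (XT.nd (nat_lit 78) (nat_lit 0) (nat_lit 0) (XT.lf (nat_lit 0) (nat_lit 24950443933) (nat_lit 0) (nat_lit 116132615) (nat_lit 684) (nat_lit 1708207212) (nat_lit 100)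 (nat_lit 5) (nat_lit 100) (nat_lit 3) (nat_lit 109) (nat_lit 3) (nat_lit 339) (nat_lit 338) (nat_lit 223)) (XT.nd (nat_lit 78) (nat_lit 0) (nat_lit 0) (XT.lf (nat_lit 76) (nat_lit 11054862424) (nat_lit 0) (nat_lit 15109596798) (nat_lit 760) (nat_lit 1273089281) (nat_lit 101) (nat_lit 5) (nat_lit 100) (nat_lit 5) (nat_lit 110) (nat_lit 5) (nat_lit 340) (nat_lit 338) (nat_lit 222)) (XT.lf (nat_lit 76) (nat_lit 24636193394) (nat_lit 0) (nat_lit 2708264455) (nat_lit 760) (nat_lit 787641067) (nat_lit 101) (nat_lit 5) (nat_lit 100) (nat_lit 5) (nat_lit 110) (nat_lit 5) (nat_lit 341) (nat_lit 338) (nat_lit 221)))) (XT.nd (nat_lit 78) (nat_lit 0) (nat_lit 0) (XT.lf (nat_lit 0) (nat_lit 51106143) (nat_lit 760) (nat_lit 18649245059) (nat_lit 836) (nat_lit 10145243762) (nat_lit 91) (nat_lit 5) (nat_lit 101) (nat_lit 5) (nat_lit 102) (nat_lit 5) (nat_lit 342) (nat_lit 338) (nat_lit 220)) (XT.nd (nat_lit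 78) (nat_lit 0) (nat_lit 76) (XT.lf (nat_lit 0) (nat_lit 1004753779) (nat_lit 760) (nat_lit 4958977500) (nat_lit 836) (nat_lit 23625424640) (nat_lit 91) (nat_lit 5) (nat_lit 101) (nat_lit 5) (nat_lit 102) (nat_lit 5) (nat_lit 343) (nat_lit 338) (nat_lit 219)) (XT.lf (nat_lit 0) (nat_lit 2271202632) (nat_lit 760) (nat_lit 20757046875) (nat_lit 836) (nat_lit 7328396486) (nat_lit 92) (nat_lit 5) (nat_lit 102) (nat_lit 5) (nat_lit 103) (nat_lit 5) (nat_lit 344) (nat_lit 338) (nat_lit 218)))))) (XT.nd (nat_lit 468) (nat_lit 1064) (nat_lit 0) (XT.nd (nat_lit 234) (nat_lit 532) (nat_lit 0) (XT.nd (nat_lit 78) (nat_lit 0) (nat_lit 76) (XT.lf (nat_lit 0) (nat_lit 3779408904) (nat_lit 760) (nat_lit 6202710584) (nat_lit 836) (nat_lit 21171476012) (nat_lit 92) (nat_lit 5) (nat_lit 102) (nat_lit 5) (nat_lit 103) (nat_lit 5) (nat_lit 345) (nat_lit 338) (nat_lit 217)) (XT.nd (nat_lit 78) (nat_lit 0)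 (nat_lit 0) (XT.lf (nat_lit 0) (nat_lit 5565384378) (nat_lit 760) (nat_lit 22667664009) (nat_lit 836) (nat_lit 3747232508) (nat_lit 93) (nat_lit 5) (nat_lit 103) (nat_lit 5) (nat_lit 104) (nat_lit 5) (nat_lit 346) (nat_lit 338) (nat_lit 216)) (XT.lf (nat_lit 0) (nat_lit 7706777503) (nat_lit 760) (nat_lit 7192897149) (nat_lit 836) (nat_lit 17935326022) (nat_lit 93) (nat_lit 5) (nat_lit 103) (nat_lit 5) (nat_lit 104) (nat_lit 5) (nat_lit 347) (nat_lit 338) (nat_lit 215)))) (XT.nd (nat_lit 78) (nat_lit 608) (nat_lit 0) (XT.lf (nat_lit 76) (nat_lit 9351544101) (nat_lit 0) (nat_lit 745613903) (nat_lit 836) (nat_lit 23628208320) (nat_lit 94) (nat_lit 5) (nat_lit 93) (nat_lit 5) (nat_lit 104) (nat_lit 5) (nat_lit 348) (nat_lit 338) (nat_lit 214)) (XT.nd (nat_lit 78) (nat_lit 684) (nat_lit 0) (XT.lf (nat_lit 0) (nat_lit 12947328818) (nat_lit 760) (nat_lit 7907150379) (nat_lit 76) (nat_lit 13788762988)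 (nat_lit 94) (nat_lit 5) (nat_lit 104) (nat_lit 5) (nat_lit 95) (nat_lit 5) (nat_lit 349) (nat_lit 338) (nat_lit 213)) (XT.lf (nat_lit 0) (nat_lit 9676994407) (nat_lit 684) (nat_lit 6422575722) (nat_lit 760) (nat_lit 19499468844) (nat_lit 85) (nat_lit 5) (nat_lit 94) (nat_lit 5) (nat_lit 95) (nat_lit 5) (nat_lit 350) (nat_lit 338) (nat_lit 212))))) (XT.nd (nat_lit 234) (nat_lit 684) (nat_lit 0) (XT.nd (nat_lit 78) (nat_lit 380) (nat_lit 0) (XT.lf (nat_lit 0) (nat_lit 19678229767) (nat_lit 760) (nat_lit 8323072967) (nat_lit 76) (nat_lit 8587887537) (nat_lit 85) (nat_lit 5) (nat_lit 95) (nat_lit 5) (nat_lit 86) (nat_lit 5) (nat_lit 351) (nat_lit 338) (nat_lit 211)) (XT.nd (nat_lit 78) (nat_lit 0) (nat_lit 0) (XT.lf (nat_lit 0) (nat_lit 10379434050) (nat_lit 380) (nat_lit 13320286037) (nat_lit 456) (nat_lit 13915938906) (nat_lit 80) (nat_lit 5) (nat_lit 85) (nat_lit 5) (nat_lit 86) (nat_lit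 5) (nat_lit 352) (nat_lit 338) (nat_lit 210)) (XT.lf (nat_lit 0) (nat_lit 28094927423) (nat_lit 456) (nat_lit 8418844642) (nat_lit 76) (nat_lit 2171051481) (nat_lit 80) (nat_lit 5) (nat_lit 86) (nat_lit 5) (nat_lit 81) (nat_lit 5) (nat_lit 353) (nat_lit 338) (nat_lit 209)))) (XT.nd (nat_lit 78) (nat_lit 380) (nat_lit 0) (XT.lf (nat_lit 0) (nat_lit 11485356935) (nat_lit 304) (nat_lit 21619051742) (nat_lit 380) (nat_lit 6683316277) (nat_lit 76) (nat_lit 5) (nat_lit 80) (nat_lit 5) (nat_lit 81) (nat_lit 5) (nat_lit 354) (nat_lit 338) (nat_lit 208)) (XT.nd (nat_lit 78) (nat_lit 380) (nat_lit 0) (XT.lf (nat_lit 0) (nat_lit 32673819316) (nat_lit 304) (nat_lit 5830051987) (nat_lit 380) (nat_lit 2434928863) (nat_lit 76) (nat_lit 5) (nat_lit 80) (nat_lit 5) (nat_lit 81) (nat_lit 5) (nat_lit 355) (nat_lit 338) (nat_lit 207)) (XT.lf (nat_lit 0) (nat_lit 2335233371) (nat_lit 380) (nat_lit 29146733172)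 (nat_lit 76) (nat_lit 10645175022) (nat_lit 71) (nat_lit 5) (nat_lit 76) (nat_lit 5) (nat_lit 72) (nat_lit 5) (nat_lit 356) (nat_lit 338) (nat_lit 206))))))) (XT.nd (nat_lit 858) (nat_lit 1216) (nat_lit 0) (XT.nd (nat_lit 390) (nat_lit 836) (nat_lit 0) (XT.nd (nat_lit 156) (nat_lit 304) (nat_lit 0) (XT.nd (nat_lit 78) (nat_lit 304) (nat_lit 0) (XT.lf (nat_lit 0) (nat_lit 7497028379) (nat_lit 380) (nat_lit 7933952227) (nat_lit 76) (nat_lit 27930179413) (nat_lit 71) (nat_lit 5) (nat_lit 76) (nat_lit 5) (nat_lit 72) (nat_lit 5) (nat_lit 357) (nat_lit 338) (nat_lit 205)) (XT.lf (nat_lit 0) (nat_lit 13171390590) (nat_lit 380) (nat_lit 29861078753) (nat_lit 76) (nat_lit 1611689554) (nat_lit 67) (nat_lit 5) (nat_lit 72) (nat_lit 5) (nat_lit 68) (nat_lit 5) (nat_lit 358) (nat_lit 338) (nat_lit 204))) (XT.nd (nat_lit 78) (nat_lit 304) (nat_lit 0) (XT.lf (nat_lit 0) (nat_lit 19516333595) (nat_lit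 380) (nat_lit 7331543351) (nat_lit 76) (nat_lit 19124090850) (nat_lit 67) (nat_lit 5) (nat_lit 72) (nat_lit 5) (nat_lit 68) (nat_lit 5) (nat_lit 359) (nat_lit 338) (nat_lit 203)) (XT.nd (nat_lit 78) (nat_lit 0) (nat_lit 0) (XT.lf (nat_lit 0) (nat_lit 16861083718) (nat_lit 304) (nat_lit 9578143809) (nat_lit 380) (nat_lit 20913907484) (nat_lit 63) (nat_lit 5) (nat_lit 67) (nat_lit 5) (nat_lit 68) (nat_lit 5) (nat_lit 360) (nat_lit 338) (nat_lit 202)) (XT.lf (nat_lit 0) (nat_lit 33965554785) (nat_lit 380) (nat_lit 6417994032) (nat_lit 76) (nat_lit 8406950250) (nat_lit 63) (nat_lit 5) (nat_lit 68) (nat_lit 5) (nat_lit 64) (nat_lit 5) (nat_lit 361) (nat_lit 338) (nat_lit 201))))) (XT.nd (nat_lit 234) (nat_lit 228) (nat_lit 0) (XT.nd (nat_lit 78) (nat_lit 380) (nat_lit 0) (XT.lf (nat_lit 0) (nat_lit 19318080654) (nat_lit 228) (nat_lit 23006385136) (nat_lit 304) (nat_lit 7952454942) (nat_lit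 60) (nat_lit 5) (nat_lit 63) (nat_lit 5) (nat_lit 64) (nat_lit 5) (nat_lit 362) (nat_lit 338) (nat_lit 200)) (XT.nd (nat_lit 78) (nat_lit 380) (nat_lit 0) (XT.lf (nat_lit 0) (nat_lit 46560859264) (nat_lit 228) (nat_lit 4646861031) (nat_lit 304) (nat_lit 624625931) (nat_lit 60) (nat_lit 5) (nat_lit 63) (nat_lit 5) (nat_lit 64) (nat_lit 5) (nat_lit 363) (nat_lit 338) (nat_lit 199)) (XT.lf (nat_lit 0) (nat_lit 7425210597) (nat_lit 380) (nat_lit 31377895131) (nat_lit 76) (nat_lit 14627826491) (nat_lit 55) (nat_lit 5) (nat_lit 60) (nat_lit 5) (nat_lit 56) (nat_lit 5) (nat_lit 364) (nat_lit 338) (nat_lit 198)))) (XT.nd (nat_lit 78) (nat_lit 228) (nat_lit 0) (XT.lf (nat_lit 0) (nat_lit 16021293161) (nat_lit 380) (nat_lit 4268972806) (nat_lit 76) (nat_lit 34810434553) (nat_lit 55) (nat_lit 5) (nat_lit 60) (nat_lit 5) (nat_lit 56) (nat_lit 5) (nat_lit 365) (nat_lit 338) (nat_lit 197)) (XT.nd (nat_lit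 78) (nat_lit 0) (nat_lit 0) (XT.lf (nat_lit 0) (nat_lit 24992542431) (nat_lit 228) (nat_lit 442773407) (nat_lit 304) (nat_lit 31399236772) (nat_lit 52) (nat_lit 5) (nat_lit 55) (nat_lit 5) (nat_lit 56) (nat_lit 5) (nat_lit 366) (nat_lit 338) (nat_lit 196)) (XT.lf (nat_lit 0) (nat_lit 35709954872) (nat_lit 304) (nat_lit 3108598379) (nat_lit 76) (nat_lit 19817050363) (nat_lit 52) (nat_lit 5) (nat_lit 56) (nat_lit 5) (nat_lit 53) (nat_lit 5) (nat_lit 367) (nat_lit 338) (nat_lit 195)))))) (XT.nd (nat_lit 468) (nat_lit 532) (nat_lit 0) (XT.nd (nat_lit 234) (nat_lit 228) (nat_lit 0) (XT.nd (nat_lit 78) (nat_lit 228) (nat_lit 0) (XT.lf (nat_lit 0) (nat_lit 27945988285) (nat_lit 228) (nat_lit 18993984781) (nat_lit 304) (nat_lit 13564653713) (nat_lit 49) (nat_lit 5) (nat_lit 52) (nat_lit 5) (nat_lit 53) (nat_lit 5) (nat_lit 368) (nat_lit 338) (nat_lit 194)) (XT.nd (nat_lit 78) (nat_lit 228) (nat_lit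 0) (XT.lf (nat_lit 0) (nat_lit 58811556454) (nat_lit 304) (nat_lit 1835271428) (nat_lit 76) (nat_lit 1816271885) (nat_lit 49) (nat_lit 5) (nat_lit 53) (nat_lit 5) (nat_lit 50) (nat_lit 5) (nat_lit 369) (nat_lit 338) (nat_lit 193)) (XT.lf (nat_lit 0) (nat_lit 7349212708) (nat_lit 228) (nat_lit 33492397053) (nat_lit 76) (nat_lit 23632200216) (nat_lit 46) (nat_lit 5) (nat_lit 49) (nat_lit 5) (nat_lit 47) (nat_lit 5) (nat_lit 370) (nat_lit 338) (nat_lit 192)))) (XT.nd (nat_lit 78) (nat_lit 228) (nat_lit 0) (XT.lf (nat_lit 0) (nat_lit 18807098802) (nat_lit 228) (nat_lit 1143837348) (nat_lit 76) (nat_lit 46629637699) (nat_lit 46) (nat_lit 5) (nat_lit 49) (nat_lit 5) (nat_lit 47) (nat_lit 5) (nat_lit 371) (nat_lit 338) (nat_lit 191)) (XT.nd (nat_lit 78) (nat_lit 0) (nat_lit 0) (XT.lf (nat_lit 0) (nat_lit 31405176357) (nat_lit 304) (nat_lit 34901112215) (nat_lit 76) (nat_lit 2458024028) (nat_lit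 43) (nat_lit 5) (nat_lit 47) (nat_lit 5) (nat_lit 44) (nat_lit 5) (nat_lit 372) (nat_lit 338) (nat_lit 190)) (XT.lf (nat_lit 0) (nat_lit 44978243783) (nat_lit 304) (nat_lit 725870438) (nat_lit 76) (nat_lit 25335871239) (nat_lit 43) (nat_lit 5) (nat_lit 47) (nat_lit 5) (nat_lit 44) (nat_lit 5) (nat_lit 373) (nat_lit 338) (nat_lit 189))))) (XT.nd (nat_lit 234) (nat_lit 152) (nat_lit 0) (XT.nd (nat_lit 78) (nat_lit 228) (nat_lit 0) (XT.lf (nat_lit 0) (nat_lit 36318140657) (nat_lit 152) (nat_lit 23477263749) (nat_lit 228) (nat_lit 13605766968) (nat_lit 41) (nat_lit 5) (nat_lit 43) (nat_lit 5) (nat_lit 44) (nat_lit 5) (nat_lit 374) (nat_lit 338) (nat_lit 188)) (XT.nd (nat_lit 78) (nat_lit 228) (nat_lit 0) (XT.lf (nat_lit 0) (nat_lit 75237191521) (nat_lit 152) (nat_lit 126975133) (nat_lit 228) (nat_lit 515714085) (nat_lit 41) (nat_lit 5) (nat_lit 43) (nat_lit 5) (nat_lit 44) (nat_lit 5) (nat_lit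 375) (nat_lit 338) (nat_lit 187)) (XT.lf (nat_lit 0) (nat_lit 13801409784) (nat_lit 228) (nat_lit 40188377951) (nat_lit 76) (nat_lit 24432613389) (nat_lit 38) (nat_lit 5) (nat_lit 41) (nat_lit 5) (nat_lit 39) (nat_lit 5) (nat_lit 376) (nat_lit 338) (nat_lit 186)))) (XT.nd (nat_lit 78) (nat_lit 152) (nat_lit 0) (XT.lf (nat_lit 0) (nat_lit 28828725394) (nat_lit 228) (nat_lit 2027658342) (nat_lit 76) (nat_lit 50234658881) (nat_lit 38) (nat_lit 5) (nat_lit 41) (nat_lit 5) (nat_lit 39) (nat_lit 5) (nat_lit 377) (nat_lit 338) (nat_lit 185)) (XT.nd (nat_lit 78) (nat_lit 0) (nat_lit 0) (XT.lf (nat_lit 0) (nat_lit 39296620601) (nat_lit 152) (nat_lit 5922909589) (nat_lit 228) (nat_lit 38642980925) (nat_lit 36) (nat_lit 5) (nat_lit 38) (nat_lit 5) (nat_lit 39) (nat_lit 5) (nat_lit 378) (nat_lit 338) (nat_lit 184)) (XT.lf (nat_lit 0) (nat_lit 62779663265) (nat_lit 228) (nat_lit 4332397453) (nat_lit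 76) (nat_lit 19643003962) (nat_lit 36) (nat_lit 5) (nat_lit 39) (nat_lit 5) (nat_lit 37) (nat_lit 5) (nat_lit 379) (nat_lit 338) (nat_lit 183))))))))
noncomputable def xc195 : XT := (XT.nd (nat_lit 1794) (nat_lit 684) (nat_lit 0) (XT.nd (nat_lit 858) (nat_lit 608) (nat_lit 0) (XT.nd (nat_lit 390) (nat_lit 304) (nat_lit 0) (XT.nd (nat_lit 156) (nat_lit 304) (nat_lit 0) (XT.nd (nat_lit 78) (nat_lit 76) (nat_lit 0) (XT.lf (nat_lit 0) (nat_lit 39063830983) (nat_lit 152) (nat_lit 42859644256) (nat_lit 228) (nat_lit 7833488069) (nat_lit 34) (nat_lit 5) (nat_lit 36) (nat_lit 5) (nat_lit 37) (nat_lit 5) (nat_lit 380) (nat_lit 338) (nat_lit 182)) (XT.lf (nat_lit 0) (nat_lit 8897028996) (nat_lit 228) (nat_lit 8270666950) (nat_lit 76) (nat_lit 75730482799) (nat_lit 33) (nat_lit 5) (nat_lit 36) (nat_lit 5) (nat_lit 34) (nat_lit 5) (nat_lit 381) (nat_lit 338) (nat_lit 181))) (XT.nd (nat_lit 78) (nat_lit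 152) (nat_lit 0) (XT.lf (nat_lit 0) (nat_lit 26947301452) (nat_lit 228) (nat_lit 58988243290) (nat_lit 76) (nat_lit 10217165876) (nat_lit 31) (nat_lit 5) (nat_lit 34) (nat_lit 5) (nat_lit 32) (nat_lit 5) (nat_lit 382) (nat_lit 338) (nat_lit 180)) (XT.nd (nat_lit 78) (nat_lit 152) (nat_lit 0) (XT.lf (nat_lit 0) (nat_lit 46322655212) (nat_lit 228) (nat_lit 14690256211) (nat_lit 76) (nat_lit 38535930098) (nat_lit 31) (nat_lit 5) (nat_lit 34) (nat_lit 5) (nat_lit 32) (nat_lit 5) (nat_lit 383) (nat_lit 338) (nat_lit 179)) (XT.lf (nat_lit 0) (nat_lit 32872809332) (nat_lit 152) (nat_lit 34306028866) (nat_lit 228) (nat_lit 35910338474) (nat_lit 29) (nat_lit 5) (nat_lit 31) (nat_lit 5) (nat_lit 32) (nat_lit 5) (nat_lit 384) (nat_lit 338) (nat_lit 178))))) (XT.nd (nat_lit 234) (nat_lit 152) (nat_lit 0) (XT.nd (nat_lit 78) (nat_lit 152) (nat_lit 0) (XT.lf (nat_lit 0) (nat_lit 83322116146) (nat_lit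 152) (nat_lit 6003351556) (nat_lit 228) (nat_lit 17468679753) (nat_lit 29) (nat_lit 5) (nat_lit 31) (nat_lit 5) (nat_lit 32) (nat_lit 5) (nat_lit 385) (nat_lit 338) (nat_lit 177)) (XT.nd (nat_lit 78) (nat_lit 0) (nat_lit 0) (XT.lf (nat_lit 0) (nat_lit 2623329868) (nat_lit 152) (nat_lit 84616011534) (nat_lit 76) (nat_lit 23404100599) (nat_lit 27) (nat_lit 5) (nat_lit 29) (nat_lit 5) (nat_lit 28) (nat_lit 5) (nat_lit 386) (nat_lit 338) (nat_lit 176)) (XT.lf (nat_lit 0) (nat_lit 23634219563) (nat_lit 152) (nat_lit 36241752018) (nat_lit 76) (nat_lit 54769844655) (nat_lit 27) (nat_lit 5) (nat_lit 29) (nat_lit 5) (nat_lit 28) (nat_lit 5) (nat_lit 387) (nat_lit 338) (nat_lit 175)))) (XT.nd (nat_lit 78) (nat_lit 0) (nat_lit 0) (XT.lf (nat_lit 0) (nat_lit 15030496364) (nat_lit 152) (nat_lit 30898777373) (nat_lit 228) (nat_lit 72907355059) (nat_lit 25) (nat_lit 5) (nat_lit 27) (nat_lit 5) (nat_lit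 28) (nat_lit 5) (nat_lit 388) (nat_lit 338) (nat_lit 174)) (XT.nd (nat_lit 78) (nat_lit 0) (nat_lit 0) (XT.lf (nat_lit 0) (nat_lit 69954496160) (nat_lit 228) (nat_lit 53086190997) (nat_lit 76) (nat_lit 165524632) (nat_lit 25) (nat_lit 5) (nat_lit 28) (nat_lit 5) (nat_lit 26) (nat_lit 4) (nat_lit 389) (nat_lit 338) (nat_lit 173)) (XT.lf (nat_lit 0) (nat_lit 95686529076) (nat_lit 228) (nat_lit 338509121) (nat_lit 76) (nat_lit 31743958821) (nat_lit 25) (nat_lit 5) (nat_lit 28) (nat_lit 5) (nat_lit 26) (nat_lit 4) (nat_lit 390) (nat_lit 338) (nat_lit 172)))))) (XT.nd (nat_lit 468) (nat_lit 228) (nat_lit 0) (XT.nd (nat_lit 234) (nat_lit 76) (nat_lit 0) (XT.nd (nat_lit 78) (nat_lit 228) (nat_lit 0) (XT.lf (nat_lit 0) (nat_lit 56864953050) (nat_lit 76) (nat_lit 66727090953) (nat_lit 152) (nat_lit 8923534014) (nat_lit 24) (nat_lit 5) (nat_lit 25) (nat_lit 5) (nat_lit 26) (nat_lit 4) (nat_lit 391)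 (nat_lit 338) (nat_lit 171)) (XT.nd (nat_lit 78) (nat_lit 152) (nat_lit 0) (XT.lf (nat_lit 0) (nat_lit 14905553329) (nat_lit 152) (nat_lit 20800930556) (nat_lit 76) (nat_lit 101780743500) (nat_lit 23) (nat_lit 5) (nat_lit 25) (nat_lit 5) (nat_lit 24) (nat_lit 5) (nat_lit 392) (nat_lit 338) (nat_lit 170)) (XT.lf (nat_lit 0) (nat_lit 37854993062) (nat_lit 152) (nat_lit 2361343009) (nat_lit 228) (nat_lit 102454302719) (nat_lit 21) (nat_lit 5) (nat_lit 23) (nat_lit 5) (nat_lit 24) (nat_lit 5) (nat_lit 393) (nat_lit 338) (nat_lit 169)))) (XT.nd (nat_lit 78) (nat_lit 76) (nat_lit 0) (XT.lf (nat_lit 0) (nat_lit 67659597061) (nat_lit 228) (nat_lit 48446855091) (nat_lit 76) (nat_lit 31963422093) (nat_lit 21) (nat_lit 5) (nat_lit 24) (nat_lit 5) (nat_lit 22) (nat_lit 4) (nat_lit 394) (nat_lit 338) (nat_lit 168)) (XT.nd (nat_lit 78) (nat_lit 0) (nat_lit 0) (XT.lf (nat_lit 0) (nat_lit 11053962498)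 (nat_lit 76) (nat_lit 85631510412) (nat_lit 152) (nat_lit 57043076385) (nat_lit 20) (nat_lit 5) (nat_lit 21) (nat_lit 5) (nat_lit 22) (nat_lit 4) (nat_lit 395) (nat_lit 338) (nat_lit 167)) (XT.lf (nat_lit 0) (nat_lit 75210312668) (nat_lit 76) (nat_lit 52771975843) (nat_lit 152) (nat_lit 31646887684) (nat_lit 20) (nat_lit 5) (nat_lit 21) (nat_lit 5) (nat_lit 22) (nat_lit 4) (nat_lit 396) (nat_lit 338) (nat_lit 166))))) (XT.nd (nat_lit 234) (nat_lit 76) (nat_lit 0) (XT.nd (nat_lit 78) (nat_lit 152) (nat_lit 0) (XT.lf (nat_lit 0) (nat_lit 142573076811) (nat_lit 76) (nat_lit 18270082390) (nat_lit 152) (nat_lit 4981714898) (nat_lit 20) (nat_lit 5) (nat_lit 21) (nat_lit 5) (nat_lit 22) (nat_lit 4) (nat_lit 397) (nat_lit 338) (nat_lit 165)) (XT.nd (nat_lit 78) (nat_lit 0) (nat_lit 0) (XT.lf (nat_lit 0) (nat_lit 23231301595) (nat_lit 152) (nat_lit 130620902299) (nat_lit 76) (nat_lit 18412622386)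 (nat_lit 18) (nat_lit 5) (nat_lit 20) (nat_lit 5) (nat_lit 19) (nat_lit 4) (nat_lit 398) (nat_lit 338) (nat_lit 164)) (XT.lf (nat_lit 0) (nat_lit 53386541163) (nat_lit 152) (nat_lit 68804406803) (nat_lit 76) (nat_lit 56796795528) (nat_lit 18) (nat_lit 5) (nat_lit 20) (nat_lit 5) (nat_lit 19) (nat_lit 4) (nat_lit 399) (nat_lit 338) (nat_lit 163)))) (XT.nd (nat_lit 78) (nat_lit 76) (nat_lit 0) (XT.lf (nat_lit 0) (nat_lit 85048823791) (nat_lit 152) (nat_lit 3898389910) (nat_lit 76) (nat_lit 97099629123) (nat_lit 18) (nat_lit 5) (nat_lit 20) (nat_lit 5) (nat_lit 19) (nat_lit 4) (nat_lit 400) (nat_lit 338) (nat_lit 162)) (XT.nd (nat_lit 78) (nat_lit 0) (nat_lit 0) (XT.lf (nat_lit 0) (nat_lit 66376137439) (nat_lit 76) (nat_lit 52953715951) (nat_lit 152) (nat_lit 74077262382) (nat_lit 17) (nat_lit 5) (nat_lit 18) (nat_lit 5) (nat_lit 19) (nat_lit 4) (nat_lit 401) (nat_lit 338) (nat_lit 161))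 (XT.lf (nat_lit 0) (nat_lit 140298513159) (nat_lit 76) (nat_lit 15091771280) (nat_lit 152) (nat_lit 45741850710) (nat_lit 17) (nat_lit 5) (nat_lit 18) (nat_lit 5) (nat_lit 19) (nat_lit 4) (nat_lit 402) (nat_lit 338) (nat_lit 160))))))) (XT.nd (nat_lit 858) (nat_lit 228) (nat_lit 0) (XT.nd (nat_lit 390) (nat_lit 228) (nat_lit 0) (XT.nd (nat_lit 156) (nat_lit 76) (nat_lit 0) (XT.nd (nat_lit 78) (nat_lit 76) (nat_lit 0) (XT.lf (nat_lit 0) (nat_lit 8561369505) (nat_lit 76) (nat_lit 185210449911) (nat_lit 76) (nat_lit 15445682227) (nat_lit 16) (nat_lit 4) (nat_lit 17) (nat_lit 5) (nat_lit 17) (nat_lit 4) (nat_lit 403) (nat_lit 338) (nat_lit 159)) (XT.lf (nat_lit 0) (nat_lit 17135399818) (nat_lit 152) (nat_lit 134638500663) (nat_lit 76) (nat_lit 65855765978) (nat_lit 15) (nat_lit 5) (nat_lit 17) (nat_lit 5) (nat_lit 16) (nat_lit 4) (nat_lit 404) (nat_lit 338) (nat_lit 158))) (XT.nd (nat_lit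 78) (nat_lit 76) (nat_lit 0) (XT.lf (nat_lit 0) (nat_lit 50825845065) (nat_lit 152) (nat_lit 65574328486) (nat_lit 76) (nat_lit 110049636536) (nat_lit 15) (nat_lit 5) (nat_lit 17) (nat_lit 5) (nat_lit 16) (nat_lit 4) (nat_lit 405) (nat_lit 338) (nat_lit 157)) (XT.nd (nat_lit 78) (nat_lit 0) (nat_lit 0) (XT.lf (nat_lit 0) (nat_lit 7171506269) (nat_lit 76) (nat_lit 79140688190) (nat_lit 152) (nat_lit 149393197561) (nat_lit 14) (nat_lit 5) (nat_lit 15) (nat_lit 5) (nat_lit 16) (nat_lit 4) (nat_lit 406) (nat_lit 338) (nat_lit 156)) (XT.lf (nat_lit 0) (nat_lit 85830163765) (nat_lit 76) (nat_lit 38852656420) (nat_lit 152) (nat_lit 120685435132) (nat_lit 14) (nat_lit 5) (nat_lit 15) (nat_lit 5) (nat_lit 16) (nat_lit 4) (nat_lit 407) (nat_lit 338) (nat_lit 155))))) (XT.nd (nat_lit 234) (nat_lit 152) (nat_lit 0) (XT.nd (nat_lit 78) (nat_lit 76) (nat_lit 0) (XT.lf (nat_lit 0) (nat_lit 165025283852)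 (nat_lit 152) (nat_lit 87147399679) (nat_lit 0) (nat_lit 3338913114) (nat_lit 14) (nat_lit 5) (nat_lit 16) (nat_lit 4) (nat_lit 14) (nat_lit 4) (nat_lit 408) (nat_lit 338) (nat_lit 154)) (XT.nd (nat_lit 78) (nat_lit 76) (nat_lit 0) (XT.lf (nat_lit 0) (nat_lit 208021271846) (nat_lit 152) (nat_lit 11775084243) (nat_lit 0) (nat_lit 46333929082) (nat_lit 14) (nat_lit 5) (nat_lit 16) (nat_lit 4) (nat_lit 14) (nat_lit 4) (nat_lit 409) (nat_lit 338) (nat_lit 153)) (XT.lf (nat_lit 0) (nat_lit 69592299702) (nat_lit 76) (nat_lit 184660787845) (nat_lit 76) (nat_lit 22972519342) (nat_lit 13) (nat_lit 4) (nat_lit 14) (nat_lit 5) (nat_lit 14) (nat_lit 4) (nat_lit 410) (nat_lit 338) (nat_lit 152)))) (XT.nd (nat_lit 78) (nat_lit 76) (nat_lit 0) (XT.lf (nat_lit 0) (nat_lit 13677431490) (nat_lit 152) (nat_lit 133650415604) (nat_lit 76) (nat_lit 141526871394) (nat_lit 12) (nat_lit 5) (nat_lit 14) (nat_lit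 5) (nat_lit 13) (nat_lit 4) (nat_lit 411) (nat_lit 338) (nat_lit 151)) (XT.nd (nat_lit 78) (nat_lit 76) (nat_lit 0) (XT.lf (nat_lit 0) (nat_lit 51387375231) (nat_lit 152) (nat_lit 56345870607) (nat_lit 76) (nat_lit 193313233918) (nat_lit 12) (nat_lit 5) (nat_lit 14) (nat_lit 5) (nat_lit 13) (nat_lit 4) (nat_lit 412) (nat_lit 338) (nat_lit 150)) (XT.lf (nat_lit 0) (nat_lit 25643813841) (nat_lit 76) (nat_lit 65738919505) (nat_lit 152) (nat_lit 222445100032) (nat_lit 11) (nat_lit 5) (nat_lit 12) (nat_lit 5) (nat_lit 13) (nat_lit 4) (nat_lit 413) (nat_lit 338) (nat_lit 149)))))) (XT.nd (nat_lit 468) (nat_lit 152) (nat_lit 0) (XT.nd (nat_lit 234) (nat_lit 76) (nat_lit 0) (XT.nd (nat_lit 78) (nat_lit 0) (nat_lit 0) (XT.lf (nat_lit 0) (nat_lit 113688347629) (nat_lit 76) (nat_lit 20643310301) (nat_lit 152) (nat_lit 192868906964) (nat_lit 11) (nat_lit 5) (nat_lit 12) (nat_lit 5) (nat_lit 13) (nat_lit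 4) (nat_lit 414) (nat_lit 338) (nat_lit 148)) (XT.nd (nat_lit 78) (nat_lit 0) (nat_lit 0) (XT.lf (nat_lit 0) (nat_lit 179844570513) (nat_lit 152) (nat_lit 135524609262) (nat_lit 0) (nat_lit 25851926257) (nat_lit 11) (nat_lit 5) (nat_lit 13) (nat_lit 4) (nat_lit 11) (nat_lit 4) (nat_lit 415) (nat_lit 338) (nat_lit 147)) (XT.lf (nat_lit 0) (nat_lit 227971133567) (nat_lit 152) (nat_lit 53976809141) (nat_lit 0) (nat_lit 73977831405) (nat_lit 11) (nat_lit 5) (nat_lit 13) (nat_lit 4) (nat_lit 11) (nat_lit 4) (nat_lit 416) (nat_lit 338) (nat_lit 146)))) (XT.nd (nat_lit 78) (nat_lit 0) (nat_lit 0) (XT.lf (nat_lit 0) (nat_lit 32694058504) (nat_lit 76) (nat_lit 246320021594) (nat_lit 76) (nat_lit 92326092856) (nat_lit 10) (nat_lit 4) (nat_lit 11) (nat_lit 5) (nat_lit 11) (nat_lit 4) (nat_lit 417) (nat_lit 338) (nat_lit 145)) (XT.nd (nat_lit 78) (nat_lit 0) (nat_lit 0) (XT.lf (nat_lit 0) (nat_lit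 125571697808) (nat_lit 76) (nat_lit 207951216259) (nat_lit 76) (nat_lit 53956690780) (nat_lit 10) (nat_lit 4) (nat_lit 11) (nat_lit 5) (nat_lit 11) (nat_lit 4) (nat_lit 418) (nat_lit 338) (nat_lit 144)) (XT.lf (nat_lit 0) (nat_lit 223092528932) (nat_lit 76) (nat_lit 167664295784) (nat_lit 76) (nat_lit 13669201982) (nat_lit 10) (nat_lit 4) (nat_lit 11) (nat_lit 5) (nat_lit 11) (nat_lit 4) (nat_lit 419) (nat_lit 338) (nat_lit 143))))) (XT.nd (nat_lit 234) (nat_lit 0) (nat_lit 0) (XT.nd (nat_lit 78) (nat_lit 76) (nat_lit 0) (XT.lf (nat_lit 0) (nat_lit 27715883843) (nat_lit 152) (nat_lit 97178073182) (nat_lit 76) (nat_lit 297303478583) (nat_lit 9) (nat_lit 5) (nat_lit 11) (nat_lit 5) (nat_lit 10) (nat_lit 4) (nat_lit 420) (nat_lit 338) (nat_lit 142)) (XT.nd (nat_lit 78) (nat_lit 76) (nat_lit 0) (XT.lf (nat_lit 0) (nat_lit 70710512533) (nat_lit 152) (nat_lit 9039599855) (nat_lit 76) (nat_lit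 361096115239) (nat_lit 9) (nat_lit 5) (nat_lit 11) (nat_lit 5) (nat_lit 10) (nat_lit 4) (nat_lit 421) (nat_lit 338) (nat_lit 141)) (XT.lf (nat_lit 0) (nat_lit 86266248983) (nat_lit 76) (nat_lit 30935161002) (nat_lit 152) (nat_lit 343158722487) (nat_lit 8) (nat_lit 5) (nat_lit 9) (nat_lit 5) (nat_lit 10) (nat_lit 4) (nat_lit 422) (nat_lit 338) (nat_lit 140)))) (XT.nd (nat_lit 78) (nat_lit 0) (nat_lit 0) (XT.lf (nat_lit 0) (nat_lit 166489393481) (nat_lit 152) (nat_lit 294511232003) (nat_lit 0) (nat_lit 19825480102) (nat_lit 8) (nat_lit 5) (nat_lit 10) (nat_lit 4) (nat_lit 8) (nat_lit 4) (nat_lit 423) (nat_lit 338) (nat_lit 139)) (XT.nd (nat_lit 78) (nat_lit 0) (nat_lit 0) (XT.lf (nat_lit 0) (nat_lit 218748606087) (nat_lit 152) (nat_lit 211457161240) (nat_lit 0) (nat_lit 72084268615) (nat_lit 8) (nat_lit 5) (nat_lit 10) (nat_lit 4) (nat_lit 8) (nat_lit 4) (nat_lit 424) (nat_lit 338) (nat_lit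 138)) (XT.lf (nat_lit 0) (nat_lit 273620489940) (nat_lit 152) (nat_lit 124250938853) (nat_lit 0) (nat_lit 126955748572) (nat_lit 8) (nat_lit 5) (nat_lit 10) (nat_lit 4) (nat_lit 8) (nat_lit 4) (nat_lit 425) (nat_lit 338) (nat_lit 137))))))))
noncomputable def xc196 : XT := (XT.nd (nat_lit 41652) (nat_lit 0) (nat_lit 2052) (XT.nd (nat_lit 40794) (nat_lit 0) (nat_lit 4864) (XT.nd (nat_lit 40326) (nat_lit 0) (nat_lit 6384) (XT.nd (nat_lit 40092) (nat_lit 0) (nat_lit 7068) (XT.nd (nat_lit 78) (nat_lit 76) (nat_lit 0) (XT.lf (nat_lit 0) (nat_lit 331235692383) (nat_lit 152) (nat_lit 32684930980) (nat_lit 0) (nat_lit 184570566351) (nat_lit 8) (nat_lit 5) (nat_lit 10) (nat_lit 4) (nat_lit 8) (nat_lit 4) (nat_lit 426) (nat_lit 338) (nat_lit 136)) (XT.lf (nat_lit 0) (nat_lit 65557113735) (nat_lit 76) (nat_lit 327197809003) (nat_lit 76) (nat_lit 180532316624) (nat_lit 7) (nat_lit 4) (nat_lit 8) (nat_lit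 5) (nat_lit 8) (nat_lit 4) (nat_lit 427) (nat_lit 338) (nat_lit 135))) (XT.nd (nat_lit 78) (nat_lit 0) (nat_lit 0) (XT.lf (nat_lit 0) (nat_lit 6440946297) (nat_lit 0) (nat_lit 6440946297) (nat_lit 684) (nat_lit 829809312) (nat_lit 100) (nat_lit 5) (nat_lit 100) (nat_lit 3) (nat_lit 109) (nat_lit 3) (nat_lit 339) (nat_lit 339) (nat_lit 222)) (XT.nd (nat_lit 78) (nat_lit 0) (nat_lit 0) (XT.lf (nat_lit 0) (nat_lit 26283170257) (nat_lit 0) (nat_lit 207143374) (nat_lit 684) (nat_lit 1614426797) (nat_lit 100) (nat_lit 5) (nat_lit 100) (nat_lit 3) (nat_lit 109) (nat_lit 3) (nat_lit 340) (nat_lit 339) (nat_lit 221)) (XT.lf (nat_lit 76) (nat_lit 11701385099) (nat_lit 0) (nat_lit 15933787894) (nat_lit 760) (nat_lit 1165878769) (nat_lit 101) (nat_lit 5) (nat_lit 100) (nat_lit 5) (nat_lit 110) (nat_lit 5) (nat_lit 341) (nat_lit 339) (nat_lit 220))))) (XT.nd (nat_lit 234) (nat_lit 0) (nat_lit 76) (XT.nd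 (nat_lit 78) (nat_lit 684) (nat_lit 0) (XT.lf (nat_lit 76) (nat_lit 25957316924) (nat_lit 0) (nat_lit 2909116969) (nat_lit 760) (nat_lit 664294572) (nat_lit 101) (nat_lit 5) (nat_lit 100) (nat_lit 5) (nat_lit 110) (nat_lit 5) (nat_lit 342) (nat_lit 339) (nat_lit 219)) (XT.nd (nat_lit 78) (nat_lit 0) (nat_lit 0) (XT.lf (nat_lit 0) (nat_lit 204226625) (nat_lit 760) (nat_lit 19479788023) (nat_lit 836) (nat_lit 10596116169) (nat_lit 91) (nat_lit 5) (nat_lit 101) (nat_lit 5) (nat_lit 102) (nat_lit 5) (nat_lit 343) (nat_lit 339) (nat_lit 218)) (XT.lf (nat_lit 0) (nat_lit 1198386873) (nat_lit 760) (nat_lit 5109860386) (nat_lit 836) (nat_lit 24752991319) (nat_lit 91) (nat_lit 5) (nat_lit 101) (nat_lit 5) (nat_lit 102) (nat_lit 5) (nat_lit 344) (nat_lit 339) (nat_lit 217)))) (XT.nd (nat_lit 78) (nat_lit 0) (nat_lit 0) (XT.lf (nat_lit 0) (nat_lit 2522156401) (nat_lit 760) (nat_lit 21691635873) (nat_lit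 836) (nat_lit 7653620750) (nat_lit 92) (nat_lit 5) (nat_lit 102) (nat_lit 5) (nat_lit 103) (nat_lit 5) (nat_lit 345) (nat_lit 339) (nat_lit 216)) (XT.nd (nat_lit 78) (nat_lit 0) (nat_lit 76) (XT.lf (nat_lit 0) (nat_lit 4099230431) (nat_lit 760) (nat_lit 6414500069) (nat_lit 836) (nat_lit 22190815945) (nat_lit 92) (nat_lit 5) (nat_lit 102) (nat_lit 5) (nat_lit 103) (nat_lit 5) (nat_lit 346) (nat_lit 339) (nat_lit 215)) (XT.lf (nat_lit 0) (nat_lit 5969325804) (nat_lit 760) (nat_lit 23697344886) (nat_lit 836) (nat_lit 3906163235) (nat_lit 93) (nat_lit 5) (nat_lit 103) (nat_lit 5) (nat_lit 104) (nat_lit 5) (nat_lit 347) (nat_lit 339) (nat_lit 214)))))) (XT.nd (nat_lit 390) (nat_lit 1064) (nat_lit 0) (XT.nd (nat_lit 156) (nat_lit 608) (nat_lit 0) (XT.nd (nat_lit 78) (nat_lit 0) (nat_lit 0) (XT.lf (nat_lit 0) (nat_lit 8211804195) (nat_lit 760) (nat_lit 7453777889) (nat_lit 836) (nat_lit 18805015277)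 (nat_lit 93) (nat_lit 5) (nat_lit 103) (nat_lit 5) (nat_lit 104) (nat_lit 5) (nat_lit 348) (nat_lit 339) (nat_lit 213)) (XT.lf (nat_lit 76) (nat_lit 9916292454) (nat_lit 0) (nat_lit 801228961) (nat_lit 836) (nat_lit 24688177039) (nat_lit 94) (nat_lit 5) (nat_lit 93) (nat_lit 5) (nat_lit 104) (nat_lit 5) (nat_lit 349) (nat_lit 339) (nat_lit 212))) (XT.nd (nat_lit 78) (nat_lit 684) (nat_lit 0) (XT.lf (nat_lit 0) (nat_lit 13704427888) (nat_lit 760) (nat_lit 8204037816) (nat_lit 76) (nat_lit 14461298710) (nat_lit 94) (nat_lit 5) (nat_lit 104) (nat_lit 5) (nat_lit 95) (nat_lit 5) (nat_lit 350) (nat_lit 339) (nat_lit 211)) (XT.nd (nat_lit 78) (nat_lit 0) (nat_lit 0) (XT.lf (nat_lit 0) (nat_lit 10257725982) (nat_lit 684) (nat_lit 6752842516) (nat_lit 760) (nat_lit 20362975479) (nat_lit 85) (nat_lit 5) (nat_lit 94) (nat_lit 5) (nat_lit 95) (nat_lit 5) (nat_lit 351) (nat_lit 339) (nat_lit 210))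 (XT.lf (nat_lit 0) (nat_lit 20762976677) (nat_lit 760) (nat_lit 8641634740) (nat_lit 76) (nat_lit 9008857595) (nat_lit 85) (nat_lit 5) (nat_lit 95) (nat_lit 5) (nat_lit 86) (nat_lit 5) (nat_lit 352) (nat_lit 339) (nat_lit 209))))) (XT.nd (nat_lit 234) (nat_lit 380) (nat_lit 0) (XT.nd (nat_lit 78) (nat_lit 304) (nat_lit 0) (XT.lf (nat_lit 0) (nat_lit 10994423566) (nat_lit 380) (nat_lit 13987815368) (nat_lit 456) (nat_lit 14509193985) (nat_lit 80) (nat_lit 5) (nat_lit 85) (nat_lit 5) (nat_lit 86) (nat_lit 5) (nat_lit 353) (nat_lit 339) (nat_lit 208)) (XT.nd (nat_lit 78) (nat_lit 304) (nat_lit 0) (XT.lf (nat_lit 0) (nat_lit 29592539688) (nat_lit 456) (nat_lit 8743548311) (nat_lit 76) (nat_lit 2278207352) (nat_lit 80) (nat_lit 5) (nat_lit 86) (nat_lit 5) (nat_lit 81) (nat_lit 5) (nat_lit 354) (nat_lit 339) (nat_lit 207)) (XT.lf (nat_lit 0) (nat_lit 12154311109) (nat_lit 304) (nat_lit 22695240029)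 (nat_lit 380) (nat_lit 6922943887) (nat_lit 76) (nat_lit 5) (nat_lit 80) (nat_lit 5) (nat_lit 81) (nat_lit 5) (nat_lit 355) (nat_lit 339) (nat_lit 206)))) (XT.nd (nat_lit 78) (nat_lit 380) (nat_lit 0) (XT.lf (nat_lit 0) (nat_lit 34397687737) (nat_lit 304) (nat_lit 6117017157) (nat_lit 380) (nat_lit 2466638922) (nat_lit 76) (nat_lit 5) (nat_lit 80) (nat_lit 5) (nat_lit 81) (nat_lit 5) (nat_lit 356) (nat_lit 339) (nat_lit 205)) (XT.nd (nat_lit 78) (nat_lit 0) (nat_lit 0) (XT.lf (nat_lit 0) (nat_lit 2536543506) (nat_lit 380) (nat_lit 30508191822) (nat_lit 76) (nat_lit 11184432167) (nat_lit 71) (nat_lit 5) (nat_lit 76) (nat_lit 5) (nat_lit 72) (nat_lit 5) (nat_lit 357) (nat_lit 339) (nat_lit 204)) (XT.lf (nat_lit 0) (nat_lit 7952402147) (nat_lit 380) (nat_lit 8239337449) (nat_lit 76) (nat_lit 29333353521) (nat_lit 71) (nat_lit 5) (nat_lit 76) (nat_lit 5) (nat_lit 72) (nat_lit 5) (nat_lit 358)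 (nat_lit 339) (nat_lit 203))))))) (XT.nd (nat_lit 858) (nat_lit 1140) (nat_lit 0) (XT.nd (nat_lit 390) (nat_lit 836) (nat_lit 0) (XT.nd (nat_lit 156) (nat_lit 532) (nat_lit 0) (XT.nd (nat_lit 78) (nat_lit 0) (nat_lit 0) (XT.lf (nat_lit 0) (nat_lit 13908234154) (nat_lit 380) (nat_lit 31260477906) (nat_lit 76) (nat_lit 1703647000) (nat_lit 67) (nat_lit 5) (nat_lit 72) (nat_lit 5) (nat_lit 68) (nat_lit 5) (nat_lit 359) (nat_lit 339) (nat_lit 202)) (XT.lf (nat_lit 0) (nat_lit 20566696974) (nat_lit 380) (nat_lit 7608925485) (nat_lit 76) (nat_lit 20091126791) (nat_lit 67) (nat_lit 5) (nat_lit 72) (nat_lit 5) (nat_lit 68) (nat_lit 5) (nat_lit 360) (nat_lit 339) (nat_lit 201))) (XT.nd (nat_lit 78) (nat_lit 228) (nat_lit 0) (XT.lf (nat_lit 0) (nat_lit 17791894308) (nat_lit 304) (nat_lit 10041661575) (nat_lit 380) (nat_lit 21883532195) (nat_lit 63) (nat_lit 5) (nat_lit 67) (nat_lit 5) (nat_lit 68)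 (nat_lit 5) (nat_lit 361) (nat_lit 339) (nat_lit 200)) (XT.nd (nat_lit 78) (nat_lit 228) (nat_lit 0) (XT.lf (nat_lit 0) (nat_lit 35732982288) (nat_lit 380) (nat_lit 6652017719) (nat_lit 76) (nat_lit 8841485255) (nat_lit 63) (nat_lit 5) (nat_lit 68) (nat_lit 5) (nat_lit 64) (nat_lit 5) (nat_lit 362) (nat_lit 339) (nat_lit 199)) (XT.lf (nat_lit 0) (nat_lit 20369459476) (nat_lit 228) (nat_lit 24138421023) (nat_lit 304) (nat_lit 8279449299) (nat_lit 60) (nat_lit 5) (nat_lit 63) (nat_lit 5) (nat_lit 64) (nat_lit 5) (nat_lit 363) (nat_lit 339) (nat_lit 198))))) (XT.nd (nat_lit 234) (nat_lit 456) (nat_lit 0) (XT.nd (nat_lit 78) (nat_lit 380) (nat_lit 0) (XT.lf (nat_lit 0) (nat_lit 48970306788) (nat_lit 228) (nat_lit 4861791349) (nat_lit 304) (nat_lit 588592094) (nat_lit 60) (nat_lit 5) (nat_lit 63) (nat_lit 5) (nat_lit 64) (nat_lit 5) (nat_lit 364) (nat_lit 339) (nat_lit 197)) (XT.nd (nat_lit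 78) (nat_lit 0) (nat_lit 0) (XT.lf (nat_lit 0) (nat_lit 7860063749) (nat_lit 380) (nat_lit 32861575747) (nat_lit 76) (nat_lit 15377592841) (nat_lit 55) (nat_lit 5) (nat_lit 60) (nat_lit 5) (nat_lit 56) (nat_lit 5) (nat_lit 365) (nat_lit 339) (nat_lit 196)) (XT.lf (nat_lit 0) (nat_lit 16882922221) (nat_lit 380) (nat_lit 4401265123) (nat_lit 76) (nat_lit 36568456304) (nat_lit 55) (nat_lit 5) (nat_lit 60) (nat_lit 5) (nat_lit 56) (nat_lit 5) (nat_lit 366) (nat_lit 339) (nat_lit 195)))) (XT.nd (nat_lit 78) (nat_lit 228) (nat_lit 0) (XT.lf (nat_lit 0) (nat_lit 26322016903) (nat_lit 228) (nat_lit 443991751) (nat_lit 304) (nat_lit 32907264590) (nat_lit 52) (nat_lit 5) (nat_lit 55) (nat_lit 5) (nat_lit 56) (nat_lit 5) (nat_lit 367) (nat_lit 339) (nat_lit 194)) (XT.nd (nat_lit 78) (nat_lit 228) (nat_lit 0) (XT.lf (nat_lit 0) (nat_lit 37551884662) (nat_lit 304) (nat_lit 3185430466) (nat_lit 76)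 (nat_lit 20827189306) (nat_lit 52) (nat_lit 5) (nat_lit 56) (nat_lit 5) (nat_lit 53) (nat_lit 5) (nat_lit 368) (nat_lit 339) (nat_lit 193)) (XT.lf (nat_lit 0) (nat_lit 29420617824) (nat_lit 228) (nat_lit 19921306041) (nat_lit 304) (nat_lit 14185131638) (nat_lit 49) (nat_lit 5) (nat_lit 52) (nat_lit 5) (nat_lit 53) (nat_lit 5) (nat_lit 369) (nat_lit 339) (nat_lit 192)))))) (XT.nd (nat_lit 468) (nat_lit 532) (nat_lit 0) (XT.nd (nat_lit 234) (nat_lit 380) (nat_lit 0) (XT.nd (nat_lit 78) (nat_lit 228) (nat_lit 0) (XT.lf (nat_lit 0) (nat_lit 61804802400) (nat_lit 304) (nat_lit 1851050850) (nat_lit 76) (nat_lit 1927715711) (nat_lit 49) (nat_lit 5) (nat_lit 53) (nat_lit 5) (nat_lit 50) (nat_lit 5) (nat_lit 370) (nat_lit 339) (nat_lit 191)) (XT.nd (nat_lit 78) (nat_lit 0) (nat_lit 0) (XT.lf (nat_lit 0) (nat_lit 7768890379) (nat_lit 228) (nat_lit 35090484259) (nat_lit 76) (nat_lit 24835467468)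 (nat_lit 46) (nat_lit 5) (nat_lit 49) (nat_lit 5) (nat_lit 47) (nat_lit 5) (nat_lit 371) (nat_lit 339) (nat_lit 190)) (XT.lf (nat_lit 0) (nat_lit 19797184252) (nat_lit 228) (nat_lit 1128140980) (nat_lit 76) (nat_lit 48981745528) (nat_lit 46) (nat_lit 5) (nat_lit 49) (nat_lit 5) (nat_lit 47) (nat_lit 5) (nat_lit 372) (nat_lit 339) (nat_lit 189)))) (XT.nd (nat_lit 78) (nat_lit 152) (nat_lit 0) (XT.lf (nat_lit 0) (nat_lit 33024279896) (nat_lit 304) (nat_lit 36572350701) (nat_lit 76) (nat_lit 2603412297) (nat_lit 43) (nat_lit 5) (nat_lit 47) (nat_lit 5) (nat_lit 44) (nat_lit 5) (nat_lit 373) (nat_lit 339) (nat_lit 188)) (XT.nd (nat_lit 78) (nat_lit 152) (nat_lit 0) (XT.lf (nat_lit 0) (nat_lit 47273674754) (nat_lit 304) (nat_lit 691861937) (nat_lit 76) (nat_lit 26624081056) (nat_lit 43) (nat_lit 5) (nat_lit 47) (nat_lit 5) (nat_lit 44) (nat_lit 5) (nat_lit 374) (nat_lit 339) (nat_lit 187))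 (XT.lf (nat_lit 0) (nat_lit 38203215810) (nat_lit 152) (nat_lit 24627342326) (nat_lit 228) (nat_lit 14238363539) (nat_lit 41) (nat_lit 5) (nat_lit 43) (nat_lit 5) (nat_lit 44) (nat_lit 5) (nat_lit 375) (nat_lit 339) (nat_lit 186))))) (XT.nd (nat_lit 234) (nat_lit 304) (nat_lit 0) (XT.nd (nat_lit 78) (nat_lit 228) (nat_lit 0) (XT.lf (nat_lit 0) (nat_lit 79064925497) (nat_lit 152) (nat_lit 110671880) (nat_lit 228) (nat_lit 496079048) (nat_lit 41) (nat_lit 5) (nat_lit 43) (nat_lit 5) (nat_lit 44) (nat_lit 5) (nat_lit 376) (nat_lit 339) (nat_lit 185)) (XT.nd (nat_lit 78) (nat_lit 0) (nat_lit 0) (XT.lf (nat_lit 0) (nat_lit 14534753227) (nat_lit 228) (nat_lit 42129705433) (nat_lit 76) (nat_lit 25676865103) (nat_lit 38) (nat_lit 5) (nat_lit 41) (nat_lit 5) (nat_lit 39) (nat_lit 5) (nat_lit 377) (nat_lit 339) (nat_lit 184)) (XT.lf (nat_lit 0) (nat_lit 30311374001) (nat_lit 228) (nat_lit 2064192292)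 (nat_lit 76) (nat_lit 52767935677) (nat_lit 38) (nat_lit 5) (nat_lit 41) (nat_lit 5) (nat_lit 39) (nat_lit 5) (nat_lit 378) (nat_lit 339) (nat_lit 183)))) (XT.nd (nat_lit 78) (nat_lit 152) (nat_lit 0) (XT.lf (nat_lit 0) (nat_lit 41325254647) (nat_lit 152) (nat_lit 6195498041) (nat_lit 228) (nat_lit 40532841053) (nat_lit 36) (nat_lit 5) (nat_lit 38) (nat_lit 5) (nat_lit 39) (nat_lit 5) (nat_lit 379) (nat_lit 339) (nat_lit 182)) (XT.nd (nat_lit 78) (nat_lit 152) (nat_lit 0) (XT.lf (nat_lit 0) (nat_lit 65957326219) (nat_lit 228) (nat_lit 4486657179) (nat_lit 76) (nat_lit 20646871355) (nat_lit 36) (nat_lit 5) (nat_lit 39) (nat_lit 5) (nat_lit 37) (nat_lit 5) (nat_lit 380) (nat_lit 339) (nat_lit 181)) (XT.lf (nat_lit 0) (nat_lit 41078376870) (nat_lit 152) (nat_lit 44979067939) (nat_lit 228) (nat_lit 8185449091) (nat_lit 34) (nat_lit 5) (nat_lit 36) (nat_lit 5) (nat_lit 37) (nat_lit 5) (nat_lit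 381) (nat_lit 339) (nat_lit 180))))))))
noncomputable def xc197 : XT := (XT.nd (nat_lit 1794) (nat_lit 608) (nat_lit 0) (XT.nd (nat_lit 858) (nat_lit 608) (nat_lit 0) (XT.nd (nat_lit 390) (nat_lit 380) (nat_lit 0) (XT.nd (nat_lit 156) (nat_lit 152) (nat_lit 0) (XT.nd (nat_lit 78) (nat_lit 152) (nat_lit 0) (XT.lf (nat_lit 0) (nat_lit 9378492166) (nat_lit 228) (nat_lit 8624531846) (nat_lit 76) (nat_lit 79538207885) (nat_lit 33) (nat_lit 5) (nat_lit 36) (nat_lit 5) (nat_lit 34) (nat_lit 5) (nat_lit 382) (nat_lit 339) (nat_lit 179)) (XT.lf (nat_lit 0) (nat_lit 28330809259) (nat_lit 228) (nat_lit 61877494019) (nat_lit 76) (nat_lit 10750211736) (nat_lit 31) (nat_lit 5) (nat_lit 34) (nat_lit 5) (nat_lit 32) (nat_lit 5) (nat_lit 383) (nat_lit 339) (nat_lit 178))) (XT.nd (nat_lit 78) (nat_lit 152) (nat_lit 0) (XT.lf (nat_lit 0) (nat_lit 48673209624) (nat_lit 228) (nat_lit 15367472416) (nat_lit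 76) (nat_lit 40483857618) (nat_lit 31) (nat_lit 5) (nat_lit 34) (nat_lit 5) (nat_lit 32) (nat_lit 5) (nat_lit 384) (nat_lit 339) (nat_lit 177)) (XT.nd (nat_lit 78) (nat_lit 0) (nat_lit 0) (XT.lf (nat_lit 0) (nat_lit 34572822265) (nat_lit 152) (nat_lit 35998620500) (nat_lit 228) (nat_lit 37670487839) (nat_lit 29) (nat_lit 5) (nat_lit 31) (nat_lit 5) (nat_lit 32) (nat_lit 5) (nat_lit 385) (nat_lit 339) (nat_lit 176)) (XT.lf (nat_lit 0) (nat_lit 87541910017) (nat_lit 152) (nat_lit 6281890744) (nat_lit 228) (nat_lit 18308430351) (nat_lit 29) (nat_lit 5) (nat_lit 31) (nat_lit 5) (nat_lit 32) (nat_lit 5) (nat_lit 386) (nat_lit 339) (nat_lit 175))))) (XT.nd (nat_lit 234) (nat_lit 76) (nat_lit 0) (XT.nd (nat_lit 78) (nat_lit 152) (nat_lit 0) (XT.lf (nat_lit 0) (nat_lit 2786734209) (nat_lit 152) (nat_lit 88791639957) (nat_lit 76) (nat_lit 24595609237) (nat_lit 27) (nat_lit 5) (nat_lit 29) (nat_lit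 5) (nat_lit 28) (nat_lit 5) (nat_lit 387) (nat_lit 339) (nat_lit 174)) (XT.nd (nat_lit 78) (nat_lit 152) (nat_lit 0) (XT.lf (nat_lit 0) (nat_lit 24846633254) (nat_lit 152) (nat_lit 38001294710) (nat_lit 76) (nat_lit 57528626039) (nat_lit 27) (nat_lit 5) (nat_lit 29) (nat_lit 5) (nat_lit 28) (nat_lit 5) (nat_lit 388) (nat_lit 339) (nat_lit 173)) (XT.lf (nat_lit 0) (nat_lit 15833718592) (nat_lit 152) (nat_lit 32422066653) (nat_lit 228) (nat_lit 76521155544) (nat_lit 25) (nat_lit 5) (nat_lit 27) (nat_lit 5) (nat_lit 28) (nat_lit 5) (nat_lit 389) (nat_lit 339) (nat_lit 172)))) (XT.nd (nat_lit 78) (nat_lit 76) (nat_lit 0) (XT.lf (nat_lit 0) (nat_lit 73481159855) (nat_lit 228) (nat_lit 55690139742) (nat_lit 76) (nat_lit 193759594) (nat_lit 25) (nat_lit 5) (nat_lit 28) (nat_lit 5) (nat_lit 26) (nat_lit 4) (nat_lit 390) (nat_lit 339) (nat_lit 171)) (XT.nd (nat_lit 78) (nat_lit 76) (nat_lit 0)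 (XT.lf (nat_lit 0) (nat_lit 100498416374) (nat_lit 228) (nat_lit 307471905) (nat_lit 76) (nat_lit 33350165077) (nat_lit 25) (nat_lit 5) (nat_lit 28) (nat_lit 5) (nat_lit 26) (nat_lit 4) (nat_lit 391) (nat_lit 339) (nat_lit 170)) (XT.lf (nat_lit 0) (nat_lit 59755389783) (nat_lit 76) (nat_lit 70043241597) (nat_lit 152) (nat_lit 9341361545) (nat_lit 24) (nat_lit 5) (nat_lit 25) (nat_lit 5) (nat_lit 26) (nat_lit 4) (nat_lit 392) (nat_lit 339) (nat_lit 169)))))) (XT.nd (nat_lit 468) (nat_lit 304) (nat_lit 0) (XT.nd (nat_lit 234) (nat_lit 76) (nat_lit 0) (XT.nd (nat_lit 78) (nat_lit 152) (nat_lit 0) (XT.lf (nat_lit 0) (nat_lit 15676966061) (nat_lit 152) (nat_lit 21795157595) (nat_lit 76) (nat_lit 106888144981) (nat_lit 23) (nat_lit 5) (nat_lit 25) (nat_lit 5) (nat_lit 24) (nat_lit 5) (nat_lit 393) (nat_lit 339) (nat_lit 168)) (XT.nd (nat_lit 78) (nat_lit 0) (nat_lit 0) (XT.lf (nat_lit 0) (nat_lit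 39792823180) (nat_lit 152) (nat_lit 2459924066) (nat_lit 228) (nat_lit 107550131037) (nat_lit 21) (nat_lit 5) (nat_lit 23) (nat_lit 5) (nat_lit 24) (nat_lit 5) (nat_lit 394) (nat_lit 339) (nat_lit 167)) (XT.lf (nat_lit 0) (nat_lit 71067242252) (nat_lit 228) (nat_lit 50825322914) (nat_lit 76) (nat_lit 33579557404) (nat_lit 21) (nat_lit 5) (nat_lit 24) (nat_lit 5) (nat_lit 22) (nat_lit 4) (nat_lit 395) (nat_lit 339) (nat_lit 166)))) (XT.nd (nat_lit 78) (nat_lit 0) (nat_lit 0) (XT.lf (nat_lit 0) (nat_lit 11649827894) (nat_lit 76) (nat_lit 89894083421) (nat_lit 152) (nat_lit 59869845663) (nat_lit 20) (nat_lit 5) (nat_lit 21) (nat_lit 5) (nat_lit 22) (nat_lit 4) (nat_lit 396) (nat_lit 339) (nat_lit 165)) (XT.nd (nat_lit 78) (nat_lit 0) (nat_lit 0) (XT.lf (nat_lit 0) (nat_lit 79011939988) (nat_lit 76) (nat_lit 55392477004) (nat_lit 152) (nat_lit 33205056315) (nat_lit 20) (nat_lit 5) (nat_lit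 21) (nat_lit 5) (nat_lit 22) (nat_lit 4) (nat_lit 397) (nat_lit 339) (nat_lit 164)) (XT.lf (nat_lit 0) (nat_lit 149740884639) (nat_lit 76) (nat_lit 19166350671) (nat_lit 152) (nat_lit 5207776116) (nat_lit 20) (nat_lit 5) (nat_lit 21) (nat_lit 5) (nat_lit 22) (nat_lit 4) (nat_lit 398) (nat_lit 339) (nat_lit 163))))) (XT.nd (nat_lit 234) (nat_lit 152) (nat_lit 0) (XT.nd (nat_lit 78) (nat_lit 0) (nat_lit 0) (XT.lf (nat_lit 0) (nat_lit 24414977822) (nat_lit 152) (nat_lit 137111860576) (nat_lit 76) (nat_lit 19350114142) (nat_lit 18) (nat_lit 5) (nat_lit 20) (nat_lit 5) (nat_lit 19) (nat_lit 4) (nat_lit 399) (nat_lit 339) (nat_lit 162)) (XT.nd (nat_lit 78) (nat_lit 0) (nat_lit 0) (XT.lf (nat_lit 0) (nat_lit 56076926457) (nat_lit 152) (nat_lit 72206449202) (nat_lit 76) (nat_lit 59652693053) (nat_lit 18) (nat_lit 5) (nat_lit 20) (nat_lit 5) (nat_lit 19) (nat_lit 4) (nat_lit 400) (nat_lit 339)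 (nat_lit 161)) (XT.lf (nat_lit 0) (nat_lit 89321320443) (nat_lit 152) (nat_lit 4056949462) (nat_lit 76) (nat_lit 101969903673) (nat_lit 18) (nat_lit 5) (nat_lit 20) (nat_lit 5) (nat_lit 19) (nat_lit 4) (nat_lit 401) (nat_lit 339) (nat_lit 160)))) (XT.nd (nat_lit 78) (nat_lit 76) (nat_lit 0) (XT.lf (nat_lit 0) (nat_lit 69730717804) (nat_lit 76) (nat_lit 55585287220) (nat_lit 152) (nat_lit 77760475384) (nat_lit 17) (nat_lit 5) (nat_lit 18) (nat_lit 5) (nat_lit 19) (nat_lit 4) (nat_lit 402) (nat_lit 339) (nat_lit 159)) (XT.nd (nat_lit 78) (nat_lit 76) (nat_lit 0) (XT.lf (nat_lit 0) (nat_lit 147347508810) (nat_lit 76) (nat_lit 15831012675) (nat_lit 152) (nat_lit 48009276467) (nat_lit 17) (nat_lit 5) (nat_lit 18) (nat_lit 5) (nat_lit 19) (nat_lit 4) (nat_lit 403) (nat_lit 339) (nat_lit 158)) (XT.lf (nat_lit 0) (nat_lit 9023651440) (nat_lit 76) (nat_lit 194455352578) (nat_lit 76) (nat_lit 16198435585)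 (nat_lit 16) (nat_lit 4) (nat_lit 17) (nat_lit 5) (nat_lit 17) (nat_lit 4) (nat_lit 404) (nat_lit 339) (nat_lit 157))))))) (XT.nd (nat_lit 858) (nat_lit 228) (nat_lit 0) (XT.nd (nat_lit 390) (nat_lit 228) (nat_lit 0) (XT.nd (nat_lit 156) (nat_lit 76) (nat_lit 0) (XT.nd (nat_lit 78) (nat_lit 0) (nat_lit 0) (XT.lf (nat_lit 0) (nat_lit 18010175188) (nat_lit 152) (nat_lit 141337239361) (nat_lit 76) (nat_lit 69162828216) (nat_lit 15) (nat_lit 5) (nat_lit 17) (nat_lit 5) (nat_lit 16) (nat_lit 4) (nat_lit 405) (nat_lit 339) (nat_lit 156)) (XT.lf (nat_lit 0) (nat_lit 53384285298) (nat_lit 152) (nat_lit 68821438877) (nat_lit 76) (nat_lit 115565712590) (nat_lit 15) (nat_lit 5) (nat_lit 17) (nat_lit 5) (nat_lit 16) (nat_lit 4) (nat_lit 406) (nat_lit 339) (nat_lit 155))) (XT.nd (nat_lit 78) (nat_lit 0) (nat_lit 0) (XT.lf (nat_lit 0) (nat_lit 7561177842) (nat_lit 76) (nat_lit 83083443250) (nat_lit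 152) (nat_lit 156845193562) (nat_lit 14) (nat_lit 5) (nat_lit 15) (nat_lit 5) (nat_lit 16) (nat_lit 4) (nat_lit 407) (nat_lit 339) (nat_lit 154)) (XT.nd (nat_lit 78) (nat_lit 0) (nat_lit 0) (XT.lf (nat_lit 0) (nat_lit 90151287438) (nat_lit 76) (nat_lit 40781689860) (nat_lit 152) (nat_lit 126702884149) (nat_lit 14) (nat_lit 5) (nat_lit 15) (nat_lit 5) (nat_lit 16) (nat_lit 4) (nat_lit 408) (nat_lit 339) (nat_lit 153)) (XT.lf (nat_lit 0) (nat_lit 173292003690) (nat_lit 152) (nat_lit 91475998429) (nat_lit 0) (nat_lit 3518396023) (nat_lit 14) (nat_lit 5) (nat_lit 16) (nat_lit 4) (nat_lit 14) (nat_lit 4) (nat_lit 409) (nat_lit 339) (nat_lit 152))))) (XT.nd (nat_lit 234) (nat_lit 76) (nat_lit 0) (XT.nd (nat_lit 78) (nat_lit 152) (nat_lit 0) (XT.lf (nat_lit 0) (nat_lit 218437055101) (nat_lit 152) (nat_lit 12336437280) (nat_lit 0) (nat_lit 48662565777) (nat_lit 14) (nat_lit 5) (nat_lit 16) (nat_lit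 4) (nat_lit 14) (nat_lit 4) (nat_lit 410) (nat_lit 339) (nat_lit 151)) (XT.nd (nat_lit 78) (nat_lit 76) (nat_lit 0) (XT.lf (nat_lit 0) (nat_lit 73098873908) (nat_lit 76) (nat_lit 193881307651) (nat_lit 76) (nat_lit 24105978655) (nat_lit 13) (nat_lit 4) (nat_lit 14) (nat_lit 5) (nat_lit 14) (nat_lit 4) (nat_lit 411) (nat_lit 339) (nat_lit 150)) (XT.lf (nat_lit 0) (nat_lit 14375285185) (nat_lit 152) (nat_lit 140306794055) (nat_lit 76) (nat_lit 148614671498) (nat_lit 12) (nat_lit 5) (nat_lit 14) (nat_lit 5) (nat_lit 13) (nat_lit 4) (nat_lit 412) (nat_lit 339) (nat_lit 149)))) (XT.nd (nat_lit 78) (nat_lit 76) (nat_lit 0) (XT.lf (nat_lit 0) (nat_lit 53970060298) (nat_lit 152) (nat_lit 59138266681) (nat_lit 76) (nat_lit 202989806600) (nat_lit 12) (nat_lit 5) (nat_lit 14) (nat_lit 5) (nat_lit 13) (nat_lit 4) (nat_lit 413) (nat_lit 339) (nat_lit 148)) (XT.nd (nat_lit 78) (nat_lit 0) (nat_lit 0)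 (XT.lf (nat_lit 0) (nat_lit 26950500418) (nat_lit 76) (nat_lit 69014434241) (nat_lit 152) (nat_lit 233553633012) (nat_lit 11) (nat_lit 5) (nat_lit 12) (nat_lit 5) (nat_lit 13) (nat_lit 4) (nat_lit 414) (nat_lit 339) (nat_lit 147)) (XT.lf (nat_lit 0) (nat_lit 119396094425) (nat_lit 76) (nat_lit 21664588920) (nat_lit 152) (nat_lit 202499283721) (nat_lit 11) (nat_lit 5) (nat_lit 12) (nat_lit 5) (nat_lit 13) (nat_lit 4) (nat_lit 415) (nat_lit 339) (nat_lit 146)))))) (XT.nd (nat_lit 468) (nat_lit 76) (nat_lit 0) (XT.nd (nat_lit 234) (nat_lit 76) (nat_lit 0) (XT.nd (nat_lit 78) (nat_lit 76) (nat_lit 0) (XT.lf (nat_lit 0) (nat_lit 188848810938) (nat_lit 152) (nat_lit 142278186857) (nat_lit 0) (nat_lit 27154559185) (nat_lit 11) (nat_lit 5) (nat_lit 13) (nat_lit 4) (nat_lit 11) (nat_lit 4) (nat_lit 416) (nat_lit 339) (nat_lit 145)) (XT.nd (nat_lit 78) (nat_lit 76) (nat_lit 0) (XT.lf (nat_lit 0)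 (nat_lit 239381130149) (nat_lit 152) (nat_lit 56654075438) (nat_lit 0) (nat_lit 77686281657) (nat_lit 11) (nat_lit 5) (nat_lit 13) (nat_lit 4) (nat_lit 11) (nat_lit 4) (nat_lit 417) (nat_lit 339) (nat_lit 144)) (XT.lf (nat_lit 0) (nat_lit 34349987618) (nat_lit 76) (nat_lit 258626023031) (nat_lit 76) (nat_lit 96930606215) (nat_lit 10) (nat_lit 4) (nat_lit 11) (nat_lit 5) (nat_lit 11) (nat_lit 4) (nat_lit 418) (nat_lit 339) (nat_lit 143)))) (XT.nd (nat_lit 78) (nat_lit 76) (nat_lit 0) (XT.lf (nat_lit 0) (nat_lit 131870498117) (nat_lit 76) (nat_lit 218339253602) (nat_lit 76) (nat_lit 56643295526) (nat_lit 10) (nat_lit 4) (nat_lit 11) (nat_lit 5) (nat_lit 11) (nat_lit 4) (nat_lit 419) (nat_lit 339) (nat_lit 142)) (XT.nd (nat_lit 78) (nat_lit 76) (nat_lit 0) (XT.lf (nat_lit 0) (nat_lit 234266408159) (nat_lit 76) (nat_lit 176038440602) (nat_lit 76) (nat_lit 14341967040) (nat_lit 10) (nat_lit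 4) (nat_lit 11) (nat_lit 5) (nat_lit 11) (nat_lit 4) (nat_lit 420) (nat_lit 339) (nat_lit 141)) (XT.lf (nat_lit 0) (nat_lit 29111537781) (nat_lit 152) (nat_lit 102018312048) (nat_lit 76) (nat_lit 312176961768) (nat_lit 9) (nat_lit 5) (nat_lit 11) (nat_lit 5) (nat_lit 10) (nat_lit 4) (nat_lit 421) (nat_lit 339) (nat_lit 140))))) (XT.nd (nat_lit 234) (nat_lit 0) (nat_lit 0) (XT.nd (nat_lit 78) (nat_lit 76) (nat_lit 0) (XT.lf (nat_lit 0) (nat_lit 74255428393) (nat_lit 152) (nat_lit 9473803854) (nat_lit 76) (nat_lit 379158834578) (nat_lit 9) (nat_lit 5) (nat_lit 11) (nat_lit 5) (nat_lit 10) (nat_lit 4) (nat_lit 422) (nat_lit 339) (nat_lit 139)) (XT.nd (nat_lit 78) (nat_lit 0) (nat_lit 0) (XT.lf (nat_lit 0) (nat_lit 90597050716) (nat_lit 76) (nat_lit 32473645905) (nat_lit 152) (nat_lit 360306979123) (nat_lit 8) (nat_lit 5) (nat_lit 9) (nat_lit 5) (nat_lit 10) (nat_lit 4) (nat_lit 423) (nat_lit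 339) (nat_lit 138)) (XT.lf (nat_lit 0) (nat_lit 174822763445) (nat_lit 152) (nat_lit 309219818873) (nat_lit 0) (nat_lit 20824381111) (nat_lit 8) (nat_lit 5) (nat_lit 10) (nat_lit 4) (nat_lit 8) (nat_lit 4) (nat_lit 424) (nat_lit 339) (nat_lit 137)))) (XT.nd (nat_lit 78) (nat_lit 0) (nat_lit 0) (XT.lf (nat_lit 0) (nat_lit 229694512858) (nat_lit 152) (nat_lit 222013852892) (nat_lit 0) (nat_lit 75695745860) (nat_lit 8) (nat_lit 5) (nat_lit 10) (nat_lit 4) (nat_lit 8) (nat_lit 4) (nat_lit 425) (nat_lit 339) (nat_lit 136)) (XT.nd (nat_lit 78) (nat_lit 0) (nat_lit 0) (XT.lf (nat_lit 0) (nat_lit 287309587262) (nat_lit 152) (nat_lit 130448089215) (nat_lit 0) (nat_lit 133310453918) (nat_lit 8) (nat_lit 5) (nat_lit 10) (nat_lit 4) (nat_lit 8) (nat_lit 4) (nat_lit 426) (nat_lit 339) (nat_lit 135)) (XT.lf (nat_lit 0) (nat_lit 347805165407) (nat_lit 152) (nat_lit 34304514118) (nat_lit 0) (nat_lit 193805683162)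 (nat_lit 8) (nat_lit 5) (nat_lit 10) (nat_lit 4) (nat_lit 8) (nat_lit 4) (nat_lit 427) (nat_lit 339) (nat_lit 134))))))))
noncomputable def xc198 : XT := (XT.nd (nat_lit 1794) (nat_lit 2432) (nat_lit 0) (XT.nd (nat_lit 858) (nat_lit 2128) (nat_lit 0) (XT.nd (nat_lit 390) (nat_lit 0) (nat_lit 0) (XT.nd (nat_lit 156) (nat_lit 684) (nat_lit 0) (XT.nd (nat_lit 78) (nat_lit 0) (nat_lit 0) (XT.lf (nat_lit 0) (nat_lit 6803567006) (nat_lit 0) (nat_lit 6803567006) (nat_lit 684) (nat_lit 785970838) (nat_lit 100) (nat_lit 5) (nat_lit 100) (nat_lit 3) (nat_lit 109) (nat_lit 3) (nat_lit 340) (nat_lit 340) (nat_lit 220)) (XT.lf (nat_lit 0) (nat_lit 27674611426) (nat_lit 0) (nat_lit 294783198) (nat_lit 684) (nat_lit 1532616821) (nat_lit 100) (nat_lit 5) (nat_lit 100) (nat_lit 3) (nat_lit 109) (nat_lit 3) (nat_lit 341) (nat_lit 340) (nat_lit 219))) (XT.nd (nat_lit 78) (nat_lit 684) (nat_lit 0) (XT.lf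 (nat_lit 76) (nat_lit 12371515173) (nat_lit 0) (nat_lit 16792800423) (nat_lit 760) (nat_lit 1069193138) (nat_lit 101) (nat_lit 5) (nat_lit 100) (nat_lit 5) (nat_lit 110) (nat_lit 5) (nat_lit 342) (nat_lit 340) (nat_lit 218)) (XT.nd (nat_lit 78) (nat_lit 684) (nat_lit 0) (XT.lf (nat_lit 76) (nat_lit 27336193074) (nat_lit 0) (nat_lit 3113928183) (nat_lit 760) (nat_lit 549909710) (nat_lit 101) (nat_lit 5) (nat_lit 100) (nat_lit 5) (nat_lit 110) (nat_lit 5) (nat_lit 343) (nat_lit 340) (nat_lit 217)) (XT.lf (nat_lit 0) (nat_lit 351005008) (nat_lit 760) (nat_lit 20361333625) (nat_lit 836) (nat_lit 11074774783) (nat_lit 91) (nat_lit 5) (nat_lit 101) (nat_lit 5) (nat_lit 102) (nat_lit 5) (nat_lit 344) (nat_lit 340) (nat_lit 216))))) (XT.nd (nat_lit 234) (nat_lit 0) (nat_lit 152) (XT.nd (nat_lit 78) (nat_lit 0) (nat_lit 76) (XT.lf (nat_lit 0) (nat_lit 1388370076) (nat_lit 760) (nat_lit 5277311692)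 (nat_lit 836) (nat_lit 25941929271) (nat_lit 91) (nat_lit 5) (nat_lit 101) (nat_lit 5) (nat_lit 102) (nat_lit 5) (nat_lit 345) (nat_lit 340) (nat_lit 215)) (XT.nd (nat_lit 78) (nat_lit 0) (nat_lit 0) (XT.lf (nat_lit 0) (nat_lit 2772884299) (nat_lit 760) (nat_lit 22682554767) (nat_lit 836) (nat_lit 7998936199) (nat_lit 92) (nat_lit 5) (nat_lit 102) (nat_lit 5) (nat_lit 103) (nat_lit 5) (nat_lit 346) (nat_lit 340) (nat_lit 214)) (XT.lf (nat_lit 0) (nat_lit 4422877742) (nat_lit 760) (nat_lit 6646022311) (nat_lit 836) (nat_lit 23264770468) (nat_lit 92) (nat_lit 5) (nat_lit 102) (nat_lit 5) (nat_lit 103) (nat_lit 5) (nat_lit 347) (nat_lit 340) (nat_lit 213)))) (XT.nd (nat_lit 78) (nat_lit 0) (nat_lit 0) (XT.lf (nat_lit 0) (nat_lit 6381780491) (nat_lit 760) (nat_lit 24788151066) (nat_lit 836) (nat_lit 4075683733) (nat_lit 93) (nat_lit 5) (nat_lit 103) (nat_lit 5) (nat_lit 104) (nat_lit 5) (nat_lit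 348) (nat_lit 340) (nat_lit 212)) (XT.nd (nat_lit 78) (nat_lit 0) (nat_lit 0) (XT.lf (nat_lit 0) (nat_lit 8730954782) (nat_lit 760) (nat_lit 7736884817) (nat_lit 836) (nat_lit 19720706361) (nat_lit 93) (nat_lit 5) (nat_lit 103) (nat_lit 5) (nat_lit 104) (nat_lit 5) (nat_lit 349) (nat_lit 340) (nat_lit 211)) (XT.lf (nat_lit 76) (nat_lit 10500244172) (nat_lit 0) (nat_lit 857920216) (nat_lit 836) (nat_lit 25812434691) (nat_lit 94) (nat_lit 5) (nat_lit 93) (nat_lit 5) (nat_lit 104) (nat_lit 5) (nat_lit 350) (nat_lit 340) (nat_lit 210)))))) (XT.nd (nat_lit 468) (nat_lit 988) (nat_lit 0) (XT.nd (nat_lit 234) (nat_lit 684) (nat_lit 0) (XT.nd (nat_lit 78) (nat_lit 684) (nat_lit 0) (XT.lf (nat_lit 0) (nat_lit 14489180011) (nat_lit 760) (nat_lit 8524924440) (nat_lit 76) (nat_lit 15169032646) (nat_lit 94) (nat_lit 5) (nat_lit 104) (nat_lit 5) (nat_lit 95) (nat_lit 5) (nat_lit 351) (nat_lit 340) (nat_lit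 209)) (XT.nd (nat_lit 78) (nat_lit 0) (nat_lit 0) (XT.lf (nat_lit 0) (nat_lit 10858486979) (nat_lit 684) (nat_lit 7098773084) (nat_lit 760) (nat_lit 21280020573) (nat_lit 85) (nat_lit 5) (nat_lit 94) (nat_lit 5) (nat_lit 95) (nat_lit 5) (nat_lit 352) (nat_lit 340) (nat_lit 208)) (XT.lf (nat_lit 0) (nat_lit 21892586210) (nat_lit 760) (nat_lit 8985197769) (nat_lit 76) (nat_lit 9451659369) (nat_lit 85) (nat_lit 5) (nat_lit 95) (nat_lit 5) (nat_lit 86) (nat_lit 5) (nat_lit 353) (nat_lit 340) (nat_lit 207)))) (XT.nd (nat_lit 78) (nat_lit 304) (nat_lit 0) (XT.lf (nat_lit 0) (nat_lit 11631235731) (nat_lit 380) (nat_lit 14688580313) (nat_lit 456) (nat_lit 15141645188) (nat_lit 80) (nat_lit 5) (nat_lit 85) (nat_lit 5) (nat_lit 86) (nat_lit 5) (nat_lit 354) (nat_lit 340) (nat_lit 206)) (XT.nd (nat_lit 78) (nat_lit 304) (nat_lit 0) (XT.lf (nat_lit 0) (nat_lit 31156398775) (nat_lit 456) (nat_lit 9093434513)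 (nat_lit 76) (nat_lit 2390850868) (nat_lit 80) (nat_lit 5) (nat_lit 86) (nat_lit 5) (nat_lit 81) (nat_lit 5) (nat_lit 355) (nat_lit 340) (nat_lit 205)) (XT.lf (nat_lit 0) (nat_lit 12847909955) (nat_lit 304) (nat_lit 23825680669) (nat_lit 380) (nat_lit 7183342145) (nat_lit 76) (nat_lit 5) (nat_lit 80) (nat_lit 5) (nat_lit 81) (nat_lit 5) (nat_lit 356) (nat_lit 340) (nat_lit 204))))) (XT.nd (nat_lit 234) (nat_lit 608) (nat_lit 0) (XT.nd (nat_lit 78) (nat_lit 380) (nat_lit 0) (XT.lf (nat_lit 0) (nat_lit 36199365734) (nat_lit 304) (nat_lit 6418752432) (nat_lit 380) (nat_lit 2508305214) (nat_lit 76) (nat_lit 5) (nat_lit 80) (nat_lit 5) (nat_lit 81) (nat_lit 5) (nat_lit 357) (nat_lit 340) (nat_lit 203)) (XT.nd (nat_lit 78) (nat_lit 0) (nat_lit 0) (XT.lf (nat_lit 0) (nat_lit 2740058632) (nat_lit 380) (nat_lit 31946637233) (nat_lit 76) (nat_lit 11750001526) (nat_lit 71) (nat_lit 5) (nat_lit 76)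 (nat_lit 5) (nat_lit 72) (nat_lit 5) (nat_lit 358) (nat_lit 340) (nat_lit 202)) (XT.lf (nat_lit 0) (nat_lit 8423058398) (nat_lit 380) (nat_lit 8568481293) (nat_lit 76) (nat_lit 30806066674) (nat_lit 71) (nat_lit 5) (nat_lit 76) (nat_lit 5) (nat_lit 72) (nat_lit 5) (nat_lit 359) (nat_lit 340) (nat_lit 201)))) (XT.nd (nat_lit 78) (nat_lit 304) (nat_lit 0) (XT.lf (nat_lit 0) (nat_lit 14674642718) (nat_lit 380) (nat_lit 32738554150) (nat_lit 76) (nat_lit 1799144967) (nat_lit 67) (nat_lit 5) (nat_lit 72) (nat_lit 5) (nat_lit 68) (nat_lit 5) (nat_lit 360) (nat_lit 340) (nat_lit 200)) (XT.nd (nat_lit 78) (nat_lit 304) (nat_lit 0) (XT.lf (nat_lit 0) (nat_lit 21662647876) (nat_lit 380) (nat_lit 7908469235) (nat_lit 76) (nat_lit 21105507528) (nat_lit 67) (nat_lit 5) (nat_lit 72) (nat_lit 5) (nat_lit 68) (nat_lit 5) (nat_lit 361) (nat_lit 340) (nat_lit 199)) (XT.lf (nat_lit 0) (nat_lit 18761086669)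 (nat_lit 304) (nat_lit 10529785992) (nat_lit 380) (nat_lit 22908710470) (nat_lit 63) (nat_lit 5) (nat_lit 67) (nat_lit 5) (nat_lit 68) (nat_lit 5) (nat_lit 362) (nat_lit 340) (nat_lit 198))))))) (XT.nd (nat_lit 858) (nat_lit 1140) (nat_lit 0) (XT.nd (nat_lit 390) (nat_lit 684) (nat_lit 0) (XT.nd (nat_lit 156) (nat_lit 380) (nat_lit 0) (XT.nd (nat_lit 78) (nat_lit 228) (nat_lit 0) (XT.lf (nat_lit 0) (nat_lit 37582352276) (nat_lit 380) (nat_lit 6905819499) (nat_lit 76) (nat_lit 9296427991) (nat_lit 63) (nat_lit 5) (nat_lit 68) (nat_lit 5) (nat_lit 64) (nat_lit 5) (nat_lit 363) (nat_lit 340) (nat_lit 197)) (XT.lf (nat_lit 0) (nat_lit 21465460603) (nat_lit 228) (nat_lit 25328758518) (nat_lit 304) (nat_lit 8629359731) (nat_lit 60) (nat_lit 5) (nat_lit 63) (nat_lit 5) (nat_lit 64) (nat_lit 5) (nat_lit 364) (nat_lit 340) (nat_lit 196))) (XT.nd (nat_lit 78) (nat_lit 380) (nat_lit 0) (XT.lf (nat_lit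 0) (nat_lit 51492658464) (nat_lit 228) (nat_lit 5089087054) (nat_lit 304) (nat_lit 557010239) (nat_lit 60) (nat_lit 5) (nat_lit 63) (nat_lit 5) (nat_lit 64) (nat_lit 5) (nat_lit 365) (nat_lit 340) (nat_lit 195)) (XT.nd (nat_lit 78) (nat_lit 0) (nat_lit 0) (XT.lf (nat_lit 0) (nat_lit 8310747319) (nat_lit 380) (nat_lit 34427362797) (nat_lit 76) (nat_lit 16163139172) (nat_lit 55) (nat_lit 5) (nat_lit 60) (nat_lit 5) (nat_lit 56) (nat_lit 5) (nat_lit 366) (nat_lit 340) (nat_lit 194)) (XT.lf (nat_lit 0) (nat_lit 17782002030) (nat_lit 380) (nat_lit 4547717201) (nat_lit 76) (nat_lit 38412752157) (nat_lit 55) (nat_lit 5) (nat_lit 60) (nat_lit 5) (nat_lit 56) (nat_lit 5) (nat_lit 367) (nat_lit 340) (nat_lit 193))))) (XT.nd (nat_lit 234) (nat_lit 228) (nat_lit 0) (XT.nd (nat_lit 78) (nat_lit 228) (nat_lit 0) (XT.lf (nat_lit 0) (nat_lit 27710541650) (nat_lit 228) (nat_lit 447215985) (nat_lit 304)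 (nat_lit 34496451837) (nat_lit 52) (nat_lit 5) (nat_lit 55) (nat_lit 5) (nat_lit 56) (nat_lit 5) (nat_lit 368) (nat_lit 340) (nat_lit 192)) (XT.nd (nat_lit 78) (nat_lit 228) (nat_lit 0) (XT.lf (nat_lit 0) (nat_lit 39480664424) (nat_lit 304) (nat_lit 3273411440) (nat_lit 76) (nat_lit 21886042128) (nat_lit 52) (nat_lit 5) (nat_lit 56) (nat_lit 5) (nat_lit 53) (nat_lit 5) (nat_lit 369) (nat_lit 340) (nat_lit 191)) (XT.lf (nat_lit 0) (nat_lit 30961789418) (nat_lit 228) (nat_lit 20897073857) (nat_lit 304) (nat_lit 14842002949) (nat_lit 49) (nat_lit 5) (nat_lit 52) (nat_lit 5) (nat_lit 53) (nat_lit 5) (nat_lit 370) (nat_lit 340) (nat_lit 190)))) (XT.nd (nat_lit 78) (nat_lit 228) (nat_lit 0) (XT.lf (nat_lit 0) (nat_lit 64942814060) (nat_lit 304) (nat_lit 1874683530) (nat_lit 76) (nat_lit 2042813725) (nat_lit 49) (nat_lit 5) (nat_lit 53) (nat_lit 5) (nat_lit 50) (nat_lit 5) (nat_lit 371) (nat_lit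 340) (nat_lit 189)) (XT.nd (nat_lit 78) (nat_lit 0) (nat_lit 0) (XT.lf (nat_lit 0) (nat_lit 8204697289) (nat_lit 228) (nat_lit 36775591105) (nat_lit 76) (nat_lit 26096884598) (nat_lit 46) (nat_lit 5) (nat_lit 49) (nat_lit 5) (nat_lit 47) (nat_lit 5) (nat_lit 372) (nat_lit 340) (nat_lit 188)) (XT.lf (nat_lit 0) (nat_lit 20832150504) (nat_lit 228) (nat_lit 1118436251) (nat_lit 76) (nat_lit 51449541144) (nat_lit 46) (nat_lit 5) (nat_lit 49) (nat_lit 5) (nat_lit 47) (nat_lit 5) (nat_lit 373) (nat_lit 340) (nat_lit 187)))))) (XT.nd (nat_lit 468) (nat_lit 532) (nat_lit 0) (XT.nd (nat_lit 234) (nat_lit 228) (nat_lit 0) (XT.nd (nat_lit 78) (nat_lit 152) (nat_lit 0) (XT.lf (nat_lit 0) (nat_lit 34719797492) (nat_lit 304) (nat_lit 38334013928) (nat_lit 76) (nat_lit 2753979346) (nat_lit 43) (nat_lit 5) (nat_lit 47) (nat_lit 5) (nat_lit 44) (nat_lit 5) (nat_lit 374) (nat_lit 340) (nat_lit 186)) (XT.nd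 (nat_lit 78) (nat_lit 152) (nat_lit 0) (XT.lf (nat_lit 0) (nat_lit 49679552398) (nat_lit 304) (nat_lit 662689026) (nat_lit 76) (nat_lit 27974710284) (nat_lit 43) (nat_lit 5) (nat_lit 47) (nat_lit 5) (nat_lit 44) (nat_lit 5) (nat_lit 375) (nat_lit 340) (nat_lit 185)) (XT.lf (nat_lit 0) (nat_lit 40176114124) (nat_lit 152) (nat_lit 25837136100) (nat_lit 228) (nat_lit 14907023867) (nat_lit 41) (nat_lit 5) (nat_lit 43) (nat_lit 5) (nat_lit 44) (nat_lit 5) (nat_lit 376) (nat_lit 340) (nat_lit 184)))) (XT.nd (nat_lit 78) (nat_lit 228) (nat_lit 0) (XT.lf (nat_lit 0) (nat_lit 83077921795) (nat_lit 152) (nat_lit 95659433) (nat_lit 228) (nat_lit 479685050) (nat_lit 41) (nat_lit 5) (nat_lit 43) (nat_lit 5) (nat_lit 44) (nat_lit 5) (nat_lit 377) (nat_lit 340) (nat_lit 183)) (XT.nd (nat_lit 78) (nat_lit 0) (nat_lit 0) (XT.lf (nat_lit 0) (nat_lit 15300740733) (nat_lit 228) (nat_lit 44174429784) (nat_lit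 76) (nat_lit 26981226311) (nat_lit 38) (nat_lit 5) (nat_lit 41) (nat_lit 5) (nat_lit 39) (nat_lit 5) (nat_lit 378) (nat_lit 340) (nat_lit 182)) (XT.lf (nat_lit 0) (nat_lit 31864323506) (nat_lit 228) (nat_lit 2108581983) (nat_lit 76) (nat_lit 55425873369) (nat_lit 38) (nat_lit 5) (nat_lit 41) (nat_lit 5) (nat_lit 39) (nat_lit 5) (nat_lit 379) (nat_lit 340) (nat_lit 181))))) (XT.nd (nat_lit 234) (nat_lit 228) (nat_lit 0) (XT.nd (nat_lit 78) (nat_lit 152) (nat_lit 0) (XT.lf (nat_lit 0) (nat_lit 43449388596) (nat_lit 152) (nat_lit 6483906025) (nat_lit 228) (nat_lit 42521125810) (nat_lit 36) (nat_lit 5) (nat_lit 38) (nat_lit 5) (nat_lit 39) (nat_lit 5) (nat_lit 380) (nat_lit 340) (nat_lit 180)) (XT.nd (nat_lit 78) (nat_lit 152) (nat_lit 0) (XT.lf (nat_lit 0) (nat_lit 69290276240) (nat_lit 228) (nat_lit 4654427546) (nat_lit 76) (nat_lit 21698913059) (nat_lit 36) (nat_lit 5) (nat_lit 39) (nat_lit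 5) (nat_lit 37) (nat_lit 5) (nat_lit 381) (nat_lit 340) (nat_lit 179)) (XT.lf (nat_lit 0) (nat_lit 43187945907) (nat_lit 152) (nat_lit 47206653056) (nat_lit 228) (nat_lit 8558700337) (nat_lit 34) (nat_lit 5) (nat_lit 36) (nat_lit 5) (nat_lit 37) (nat_lit 5) (nat_lit 382) (nat_lit 340) (nat_lit 178)))) (XT.nd (nat_lit 78) (nat_lit 152) (nat_lit 0) (XT.lf (nat_lit 0) (nat_lit 9880624683) (nat_lit 228) (nat_lit 9001637394) (nat_lit 76) (nat_lit 83534348163) (nat_lit 33) (nat_lit 5) (nat_lit 36) (nat_lit 5) (nat_lit 34) (nat_lit 5) (nat_lit 383) (nat_lit 340) (nat_lit 177)) (XT.nd (nat_lit 78) (nat_lit 0) (nat_lit 0) (XT.lf (nat_lit 0) (nat_lit 29780132248) (nat_lit 228) (nat_lit 64916800524) (nat_lit 76) (nat_lit 11307847098) (nat_lit 31) (nat_lit 5) (nat_lit 34) (nat_lit 5) (nat_lit 32) (nat_lit 5) (nat_lit 384) (nat_lit 340) (nat_lit 176)) (XT.lf (nat_lit 0) (nat_lit 51138091558) (nat_lit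 228) (nat_lit 16083876327) (nat_lit 76) (nat_lit 42527216952) (nat_lit 31) (nat_lit 5) (nat_lit 34) (nat_lit 5) (nat_lit 32) (nat_lit 5) (nat_lit 385) (nat_lit 340) (nat_lit 175))))))))
noncomputable def xc199 : XT := (XT.nd (nat_lit 1794) (nat_lit 456) (nat_lit 0) (XT.nd (nat_lit 858) (nat_lit 532) (nat_lit 0) (XT.nd (nat_lit 390) (nat_lit 304) (nat_lit 0) (XT.nd (nat_lit 156) (nat_lit 304) (nat_lit 0) (XT.nd (nat_lit 78) (nat_lit 0) (nat_lit 0) (XT.lf (nat_lit 0) (nat_lit 36352594868) (nat_lit 152) (nat_lit 37777953058) (nat_lit 228) (nat_lit 39521932813) (nat_lit 29) (nat_lit 5) (nat_lit 31) (nat_lit 5) (nat_lit 32) (nat_lit 5) (nat_lit 386) (nat_lit 340) (nat_lit 174)) (XT.lf (nat_lit 0) (nat_lit 91967702174) (nat_lit 152) (nat_lit 6576367694) (nat_lit 228) (nat_lit 19193300042) (nat_lit 29) (nat_lit 5) (nat_lit 31) (nat_lit 5) (nat_lit 32) (nat_lit 5) (nat_lit 387) (nat_lit 340) (nat_lit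 173))) (XT.nd (nat_lit 78) (nat_lit 152) (nat_lit 0) (XT.lf (nat_lit 0) (nat_lit 2955311599) (nat_lit 152) (nat_lit 93181179185) (nat_lit 76) (nat_lit 25844712700) (nat_lit 27) (nat_lit 5) (nat_lit 29) (nat_lit 5) (nat_lit 28) (nat_lit 5) (nat_lit 388) (nat_lit 340) (nat_lit 172)) (XT.nd (nat_lit 78) (nat_lit 152) (nat_lit 0) (XT.lf (nat_lit 0) (nat_lit 26116813183) (nat_lit 152) (nat_lit 39853699665) (nat_lit 76) (nat_lit 60423460199) (nat_lit 27) (nat_lit 5) (nat_lit 29) (nat_lit 5) (nat_lit 28) (nat_lit 5) (nat_lit 389) (nat_lit 340) (nat_lit 171)) (XT.lf (nat_lit 0) (nat_lit 16672295596) (nat_lit 152) (nat_lit 34023533170) (nat_lit 228) (nat_lit 80318580880) (nat_lit 25) (nat_lit 5) (nat_lit 27) (nat_lit 5) (nat_lit 28) (nat_lit 5) (nat_lit 390) (nat_lit 340) (nat_lit 170))))) (XT.nd (nat_lit 234) (nat_lit 228) (nat_lit 0) (XT.nd (nat_lit 78) (nat_lit 76) (nat_lit 0) (XT.lf (nat_lit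 0) (nat_lit 77181466271) (nat_lit 228) (nat_lit 58428967993) (nat_lit 76) (nat_lit 221550731) (nat_lit 25) (nat_lit 5) (nat_lit 28) (nat_lit 5) (nat_lit 26) (nat_lit 4) (nat_lit 391) (nat_lit 340) (nat_lit 169)) (XT.nd (nat_lit 78) (nat_lit 76) (nat_lit 0) (XT.lf (nat_lit 0) (nat_lit 105548335691) (nat_lit 228) (nat_lit 279341942) (nat_lit 76) (nat_lit 35034914433) (nat_lit 25) (nat_lit 5) (nat_lit 28) (nat_lit 5) (nat_lit 26) (nat_lit 4) (nat_lit 392) (nat_lit 340) (nat_lit 168)) (XT.lf (nat_lit 0) (nat_lit 62785961159) (nat_lit 76) (nat_lit 73527078141) (nat_lit 152) (nat_lit 9782716090) (nat_lit 24) (nat_lit 5) (nat_lit 25) (nat_lit 5) (nat_lit 26) (nat_lit 4) (nat_lit 393) (nat_lit 340) (nat_lit 167)))) (XT.nd (nat_lit 78) (nat_lit 152) (nat_lit 0) (XT.lf (nat_lit 0) (nat_lit 16484519639) (nat_lit 152) (nat_lit 22843355847) (nat_lit 76) (nat_lit 112249209197) (nat_lit 23) (nat_lit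 5) (nat_lit 25) (nat_lit 5) (nat_lit 24) (nat_lit 5) (nat_lit 394) (nat_lit 340) (nat_lit 166)) (XT.nd (nat_lit 78) (nat_lit 0) (nat_lit 0) (XT.lf (nat_lit 0) (nat_lit 41823353650) (nat_lit 152) (nat_lit 2565245808) (nat_lit 228) (nat_lit 112903250453) (nat_lit 21) (nat_lit 5) (nat_lit 23) (nat_lit 5) (nat_lit 24) (nat_lit 5) (nat_lit 395) (nat_lit 340) (nat_lit 165)) (XT.lf (nat_lit 0) (nat_lit 74642976552) (nat_lit 228) (nat_lit 53326793203) (nat_lit 76) (nat_lit 35274829338) (nat_lit 21) (nat_lit 5) (nat_lit 24) (nat_lit 5) (nat_lit 22) (nat_lit 4) (nat_lit 396) (nat_lit 340) (nat_lit 164)))))) (XT.nd (nat_lit 468) (nat_lit 304) (nat_lit 0) (XT.nd (nat_lit 234) (nat_lit 152) (nat_lit 0) (XT.nd (nat_lit 78) (nat_lit 0) (nat_lit 0) (XT.lf (nat_lit 0) (nat_lit 12271473277) (nat_lit 76) (nat_lit 94371551753) (nat_lit 152) (nat_lit 62840313419) (nat_lit 20) (nat_lit 5) (nat_lit 21) (nat_lit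 5) (nat_lit 22) (nat_lit 4) (nat_lit 397) (nat_lit 340) (nat_lit 163)) (XT.nd (nat_lit 78) (nat_lit 0) (nat_lit 0) (XT.lf (nat_lit 0) (nat_lit 82999826500) (nat_lit 76) (nat_lit 58145685770) (nat_lit 152) (nat_lit 34843381009) (nat_lit 20) (nat_lit 5) (nat_lit 21) (nat_lit 5) (nat_lit 22) (nat_lit 4) (nat_lit 398) (nat_lit 340) (nat_lit 162)) (XT.lf (nat_lit 0) (nat_lit 157263442692) (nat_lit 76) (nat_lit 20109034791) (nat_lit 152) (nat_lit 5447280997) (nat_lit 20) (nat_lit 5) (nat_lit 21) (nat_lit 5) (nat_lit 22) (nat_lit 4) (nat_lit 399) (nat_lit 340) (nat_lit 161)))) (XT.nd (nat_lit 78) (nat_lit 0) (nat_lit 0) (XT.lf (nat_lit 0) (nat_lit 25655782175) (nat_lit 152) (nat_lit 143931093661) (nat_lit 76) (nat_lit 20332912942) (nat_lit 18) (nat_lit 5) (nat_lit 20) (nat_lit 5) (nat_lit 19) (nat_lit 4) (nat_lit 400) (nat_lit 340) (nat_lit 160)) (XT.nd (nat_lit 78) (nat_lit 0) (nat_lit 0) (XT.lf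 (nat_lit 0) (nat_lit 58899873220) (nat_lit 152) (nat_lit 75782143144) (nat_lit 76) (nat_lit 62649892557) (nat_lit 18) (nat_lit 5) (nat_lit 20) (nat_lit 5) (nat_lit 19) (nat_lit 4) (nat_lit 401) (nat_lit 340) (nat_lit 159)) (XT.lf (nat_lit 0) (nat_lit 93805577361) (nat_lit 152) (nat_lit 4226817394) (nat_lit 76) (nat_lit 107082270143) (nat_lit 18) (nat_lit 5) (nat_lit 20) (nat_lit 5) (nat_lit 19) (nat_lit 4) (nat_lit 402) (nat_lit 340) (nat_lit 158))))) (XT.nd (nat_lit 234) (nat_lit 152) (nat_lit 0) (XT.nd (nat_lit 78) (nat_lit 76) (nat_lit 0) (XT.lf (nat_lit 0) (nat_lit 73249701306) (nat_lit 76) (nat_lit 58349935229) (nat_lit 152) (nat_lit 81629768889) (nat_lit 17) (nat_lit 5) (nat_lit 18) (nat_lit 5) (nat_lit 19) (nat_lit 4) (nat_lit 403) (nat_lit 340) (nat_lit 157)) (XT.nd (nat_lit 78) (nat_lit 76) (nat_lit 0) (XT.lf (nat_lit 0) (nat_lit 154745786739) (nat_lit 76) (nat_lit 16608642973)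 (nat_lit 152) (nat_lit 50391901943) (nat_lit 17) (nat_lit 5) (nat_lit 18) (nat_lit 5) (nat_lit 19) (nat_lit 4) (nat_lit 404) (nat_lit 340) (nat_lit 156)) (XT.lf (nat_lit 0) (nat_lit 9505866628) (nat_lit 76) (nat_lit 204163952562) (nat_lit 76) (nat_lit 16990642395) (nat_lit 16) (nat_lit 4) (nat_lit 17) (nat_lit 5) (nat_lit 17) (nat_lit 4) (nat_lit 405) (nat_lit 340) (nat_lit 155)))) (XT.nd (nat_lit 78) (nat_lit 76) (nat_lit 0) (XT.lf (nat_lit 0) (nat_lit 18927015357) (nat_lit 152) (nat_lit 148374000344) (nat_lit 76) (nat_lit 72633916510) (nat_lit 15) (nat_lit 5) (nat_lit 17) (nat_lit 5) (nat_lit 16) (nat_lit 4) (nat_lit 406) (nat_lit 340) (nat_lit 154)) (XT.nd (nat_lit 78) (nat_lit 76) (nat_lit 0) (XT.lf (nat_lit 0) (nat_lit 56069053286) (nat_lit 152) (nat_lit 72233843216) (nat_lit 76) (nat_lit 121356328584) (nat_lit 15) (nat_lit 5) (nat_lit 17) (nat_lit 5) (nat_lit 16) (nat_lit 4) (nat_lit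 407) (nat_lit 340) (nat_lit 153)) (XT.lf (nat_lit 0) (nat_lit 7967441958) (nat_lit 76) (nat_lit 87224663621) (nat_lit 152) (nat_lit 164671431584) (nat_lit 14) (nat_lit 5) (nat_lit 15) (nat_lit 5) (nat_lit 16) (nat_lit 4) (nat_lit 408) (nat_lit 340) (nat_lit 152))))))) (XT.nd (nat_lit 858) (nat_lit 152) (nat_lit 0) (XT.nd (nat_lit 390) (nat_lit 152) (nat_lit 0) (XT.nd (nat_lit 156) (nat_lit 152) (nat_lit 0) (XT.nd (nat_lit 78) (nat_lit 0) (nat_lit 0) (XT.lf (nat_lit 0) (nat_lit 94685713928) (nat_lit 76) (nat_lit 42808439314) (nat_lit 152) (nat_lit 133022769636) (nat_lit 14) (nat_lit 5) (nat_lit 15) (nat_lit 5) (nat_lit 16) (nat_lit 4) (nat_lit 409) (nat_lit 340) (nat_lit 151)) (XT.lf (nat_lit 0) (nat_lit 181970622601) (nat_lit 152) (nat_lit 96023701992) (nat_lit 0) (nat_lit 3705687482) (nat_lit 14) (nat_lit 5) (nat_lit 16) (nat_lit 4) (nat_lit 14) (nat_lit 4) (nat_lit 410) (nat_lit 340)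 (nat_lit 150))) (XT.nd (nat_lit 78) (nat_lit 152) (nat_lit 0) (XT.lf (nat_lit 0) (nat_lit 229372259024) (nat_lit 152) (nat_lit 12928405469) (nat_lit 0) (nat_lit 51106524217) (nat_lit 14) (nat_lit 5) (nat_lit 16) (nat_lit 4) (nat_lit 14) (nat_lit 4) (nat_lit 411) (nat_lit 340) (nat_lit 149)) (XT.nd (nat_lit 78) (nat_lit 76) (nat_lit 0) (XT.lf (nat_lit 0) (nat_lit 76778270412) (nat_lit 76) (nat_lit 203564017401) (nat_lit 76) (nat_lit 25297520985) (nat_lit 13) (nat_lit 4) (nat_lit 14) (nat_lit 5) (nat_lit 14) (nat_lit 4) (nat_lit 412) (nat_lit 340) (nat_lit 148)) (XT.lf (nat_lit 0) (nat_lit 15106731639) (nat_lit 152) (nat_lit 147298421894) (nat_lit 76) (nat_lit 156055796488) (nat_lit 12) (nat_lit 5) (nat_lit 14) (nat_lit 5) (nat_lit 13) (nat_lit 4) (nat_lit 413) (nat_lit 340) (nat_lit 147))))) (XT.nd (nat_lit 234) (nat_lit 76) (nat_lit 0) (XT.nd (nat_lit 78) (nat_lit 76) (nat_lit 0) (XT.lf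 (nat_lit 0) (nat_lit 56680641594) (nat_lit 152) (nat_lit 62072597288) (nat_lit 76) (nat_lit 213149193515) (nat_lit 12) (nat_lit 5) (nat_lit 14) (nat_lit 5) (nat_lit 13) (nat_lit 4) (nat_lit 414) (nat_lit 340) (nat_lit 146)) (XT.nd (nat_lit 78) (nat_lit 0) (nat_lit 0) (XT.lf (nat_lit 0) (nat_lit 28320243929) (nat_lit 76) (nat_lit 72454787481) (nat_lit 152) (nat_lit 245218868386) (nat_lit 11) (nat_lit 5) (nat_lit 12) (nat_lit 5) (nat_lit 13) (nat_lit 4) (nat_lit 415) (nat_lit 340) (nat_lit 145)) (XT.lf (nat_lit 0) (nat_lit 125387059612) (nat_lit 76) (nat_lit 22737943632) (nat_lit 152) (nat_lit 212612394310) (nat_lit 11) (nat_lit 5) (nat_lit 12) (nat_lit 5) (nat_lit 13) (nat_lit 4) (nat_lit 416) (nat_lit 340) (nat_lit 144)))) (XT.nd (nat_lit 78) (nat_lit 76) (nat_lit 0) (XT.lf (nat_lit 0) (nat_lit 198302146631) (nat_lit 152) (nat_lit 149371549381) (nat_lit 0) (nat_lit 28521390651) (nat_lit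 11) (nat_lit 5) (nat_lit 13) (nat_lit 4) (nat_lit 11) (nat_lit 4) (nat_lit 417) (nat_lit 340) (nat_lit 143)) (XT.nd (nat_lit 78) (nat_lit 76) (nat_lit 0) (XT.lf (nat_lit 0) (nat_lit 251360562986) (nat_lit 152) (nat_lit 59467210811) (nat_lit 0) (nat_lit 81579265746) (nat_lit 11) (nat_lit 5) (nat_lit 13) (nat_lit 4) (nat_lit 11) (nat_lit 4) (nat_lit 418) (nat_lit 340) (nat_lit 142)) (XT.lf (nat_lit 0) (nat_lit 36086739779) (nat_lit 76) (nat_lit 271548254212) (nat_lit 76) (nat_lit 101766441485) (nat_lit 10) (nat_lit 4) (nat_lit 11) (nat_lit 5) (nat_lit 11) (nat_lit 4) (nat_lit 419) (nat_lit 340) (nat_lit 141)))))) (XT.nd (nat_lit 468) (nat_lit 0) (nat_lit 0) (XT.nd (nat_lit 234) (nat_lit 76) (nat_lit 0) (XT.nd (nat_lit 78) (nat_lit 76) (nat_lit 0) (XT.lf (nat_lit 0) (nat_lit 138482359004) (nat_lit 76) (nat_lit 229247578215) (nat_lit 76) (nat_lit 59465274549) (nat_lit 10) (nat_lit 4) (nat_lit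 11) (nat_lit 5) (nat_lit 11) (nat_lit 4) (nat_lit 420) (nat_lit 340) (nat_lit 140)) (XT.nd (nat_lit 78) (nat_lit 76) (nat_lit 0) (XT.lf (nat_lit 0) (nat_lit 245997191405) (nat_lit 76) (nat_lit 184832135901) (nat_lit 76) (nat_lit 15049364674) (nat_lit 10) (nat_lit 4) (nat_lit 11) (nat_lit 5) (nat_lit 11) (nat_lit 4) (nat_lit 421) (nat_lit 340) (nat_lit 139)) (XT.lf (nat_lit 0) (nat_lit 30576057751) (nat_lit 152) (nat_lit 107102298133) (nat_lit 76) (nat_lit 327793346596) (nat_lit 9) (nat_lit 5) (nat_lit 11) (nat_lit 5) (nat_lit 10) (nat_lit 4) (nat_lit 422) (nat_lit 340) (nat_lit 138)))) (XT.nd (nat_lit 78) (nat_lit 76) (nat_lit 0) (XT.lf (nat_lit 0) (nat_lit 77976717032) (nat_lit 152) (nat_lit 9931370697) (nat_lit 76) (nat_lit 398123954154) (nat_lit 9) (nat_lit 5) (nat_lit 11) (nat_lit 5) (nat_lit 10) (nat_lit 4) (nat_lit 423) (nat_lit 340) (nat_lit 137)) (XT.nd (nat_lit 78) (nat_lit 0)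 (nat_lit 0) (XT.lf (nat_lit 0) (nat_lit 95142766548) (nat_lit 76) (nat_lit 34089824212) (nat_lit 152) (nat_lit 378313548499) (nat_lit 8) (nat_lit 5) (nat_lit 9) (nat_lit 5) (nat_lit 10) (nat_lit 4) (nat_lit 424) (nat_lit 340) (nat_lit 136)) (XT.lf (nat_lit 0) (nat_lit 183571974442) (nat_lit 152) (nat_lit 324665413235) (nat_lit 0) (nat_lit 21872518084) (nat_lit 8) (nat_lit 5) (nat_lit 10) (nat_lit 4) (nat_lit 8) (nat_lit 4) (nat_lit 425) (nat_lit 340) (nat_lit 135))))) (XT.nd (nat_lit 40326) (nat_lit 0) (nat_lit 6992) (XT.nd (nat_lit 78) (nat_lit 0) (nat_lit 0) (XT.lf (nat_lit 0) (nat_lit 241186926905) (nat_lit 152) (nat_lit 233099882126) (nat_lit 0) (nat_lit 79487121646) (nat_lit 8) (nat_lit 5) (nat_lit 10) (nat_lit 4) (nat_lit 8) (nat_lit 4) (nat_lit 426) (nat_lit 340) (nat_lit 134)) (XT.nd (nat_lit 40170) (nat_lit 0) (nat_lit 6992) (XT.lf (nat_lit 0) (nat_lit 301682388915) (nat_lit 152)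 (nat_lit 136956528522) (nat_lit 0) (nat_lit 139982251369) (nat_lit 8) (nat_lit 5) (nat_lit 10) (nat_lit 4) (nat_lit 8) (nat_lit 4) (nat_lit 427) (nat_lit 340) (nat_lit 133)) (XT.lf (nat_lit 0) (nat_lit 7180546621) (nat_lit 0) (nat_lit 7180546621) (nat_lit 684) (nat_lit 747873515) (nat_lit 100) (nat_lit 5) (nat_lit 100) (nat_lit 3) (nat_lit 109) (nat_lit 3) (nat_lit 341) (nat_lit 341) (nat_lit 218)))) (XT.nd (nat_lit 78) (nat_lit 0) (nat_lit 0) (XT.lf (nat_lit 0) (nat_lit 29128439643) (nat_lit 0) (nat_lit 379620004) (nat_lit 684) (nat_lit 1461826968) (nat_lit 100) (nat_lit 5) (nat_lit 100) (nat_lit 3) (nat_lit 109) (nat_lit 3) (nat_lit 342) (nat_lit 341) (nat_lit 217)) (XT.nd (nat_lit 78) (nat_lit 0) (nat_lit 0) (XT.lf (nat_lit 76) (nat_lit 13067243603) (nat_lit 0) (nat_lit 17688969364) (nat_lit 760) (nat_lit 982081756) (nat_lit 101) (nat_lit 5) (nat_lit 100) (nat_lit 5) (nat_lit 110) (nat_lit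 5) (nat_lit 343) (nat_lit 341) (nat_lit 216)) (XT.lf (nat_lit 76) (nat_lit 28776481462) (nat_lit 0) (nat_lit 3323461659) (nat_lit 760) (nat_lit 443528016) (nat_lit 101) (nat_lit 5) (nat_lit 100) (nat_lit 5) (nat_lit 110) (nat_lit 5) (nat_lit 344) (nat_lit 341) (nat_lit 215))))))))
noncomputable def xc200 : XT := (XT.nd (nat_lit 1716) (nat_lit 2508) (nat_lit 0) (XT.nd (nat_lit 858) (nat_lit 1520) (nat_lit 0) (XT.nd (nat_lit 390) (nat_lit 836) (nat_lit 0) (XT.nd (nat_lit 156) (nat_lit 0) (nat_lit 76) (XT.nd (nat_lit 78) (nat_lit 0) (nat_lit 0) (XT.lf (nat_lit 0) (nat_lit 492425601) (nat_lit 760) (nat_lit 21295551055) (nat_lit 836) (nat_lit 11582121509) (nat_lit 91) (nat_lit 5) (nat_lit 101) (nat_lit 5) (nat_lit 102) (nat_lit 5) (nat_lit 345) (nat_lit 341) (nat_lit 214)) (XT.lf (nat_lit 0) (nat_lit 1575760334) (nat_lit 760) (nat_lit 5461320847) (nat_lit 836) (nat_lit 27194842866) (nat_lit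 91) (nat_lit 5) (nat_lit 101) (nat_lit 5) (nat_lit 102) (nat_lit 5) (nat_lit 346) (nat_lit 341) (nat_lit 213))) (XT.nd (nat_lit 78) (nat_lit 0) (nat_lit 0) (XT.lf (nat_lit 0) (nat_lit 3024562599) (nat_lit 760) (nat_lit 23731727495) (nat_lit 836) (nat_lit 8364991319) (nat_lit 92) (nat_lit 5) (nat_lit 102) (nat_lit 5) (nat_lit 103) (nat_lit 5) (nat_lit 347) (nat_lit 341) (nat_lit 212)) (XT.nd (nat_lit 78) (nat_lit 0) (nat_lit 76) (XT.lf (nat_lit 0) (nat_lit 4751673138) (nat_lit 760) (nat_lit 6897413893) (nat_lit 836) (nat_lit 24395731191) (nat_lit 92) (nat_lit 5) (nat_lit 102) (nat_lit 5) (nat_lit 103) (nat_lit 5) (nat_lit 348) (nat_lit 341) (nat_lit 211)) (XT.lf (nat_lit 0) (nat_lit 6804260352) (nat_lit 760) (nat_lit 25942242461) (nat_lit 836) (nat_lit 4256077749) (nat_lit 93) (nat_lit 5) (nat_lit 103) (nat_lit 5) (nat_lit 104) (nat_lit 5) (nat_lit 349) (nat_lit 341) (nat_lit 210))))) (XT.nd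 (nat_lit 234) (nat_lit 988) (nat_lit 0) (XT.nd (nat_lit 78) (nat_lit 0) (nat_lit 0) (XT.lf (nat_lit 0) (nat_lit 9265969984) (nat_lit 760) (nat_lit 8042475574) (nat_lit 836) (nat_lit 20684465326) (nat_lit 93) (nat_lit 5) (nat_lit 103) (nat_lit 5) (nat_lit 104) (nat_lit 5) (nat_lit 350) (nat_lit 341) (nat_lit 209)) (XT.nd (nat_lit 78) (nat_lit 0) (nat_lit 76) (XT.lf (nat_lit 76) (nat_lit 11105199325) (nat_lit 0) (nat_lit 915899953) (nat_lit 836) (nat_lit 27003146040) (nat_lit 94) (nat_lit 5) (nat_lit 93) (nat_lit 5) (nat_lit 104) (nat_lit 5) (nat_lit 351) (nat_lit 341) (nat_lit 208)) (XT.lf (nat_lit 0) (nat_lit 15303916317) (nat_lit 760) (nat_lit 8870159082) (nat_lit 76) (nat_lit 15913578609) (nat_lit 94) (nat_lit 5) (nat_lit 104) (nat_lit 5) (nat_lit 95) (nat_lit 5) (nat_lit 352) (nat_lit 341) (nat_lit 207)))) (XT.nd (nat_lit 78) (nat_lit 380) (nat_lit 0) (XT.lf (nat_lit 0) (nat_lit 11481116270)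 (nat_lit 684) (nat_lit 7461229601) (nat_lit 760) (nat_lit 22252317584) (nat_lit 85) (nat_lit 5) (nat_lit 94) (nat_lit 5) (nat_lit 95) (nat_lit 5) (nat_lit 353) (nat_lit 341) (nat_lit 206)) (XT.nd (nat_lit 78) (nat_lit 380) (nat_lit 0) (XT.lf (nat_lit 0) (nat_lit 23070173072) (nat_lit 760) (nat_lit 9354168581) (nat_lit 76) (nat_lit 9917311630) (nat_lit 85) (nat_lit 5) (nat_lit 95) (nat_lit 5) (nat_lit 86) (nat_lit 5) (nat_lit 354) (nat_lit 341) (nat_lit 205)) (XT.lf (nat_lit 0) (nat_lit 12291791609) (nat_lit 380) (nat_lit 15424255747) (nat_lit 456) (nat_lit 15814366001) (nat_lit 80) (nat_lit 5) (nat_lit 85) (nat_lit 5) (nat_lit 86) (nat_lit 5) (nat_lit 355) (nat_lit 341) (nat_lit 204)))))) (XT.nd (nat_lit 390) (nat_lit 836) (nat_lit 0) (XT.nd (nat_lit 156) (nat_lit 380) (nat_lit 0) (XT.nd (nat_lit 78) (nat_lit 304) (nat_lit 0) (XT.lf (nat_lit 0) (nat_lit 32790619714) (nat_lit 456) (nat_lit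 9468930535) (nat_lit 76) (nat_lit 2509244340) (nat_lit 80) (nat_lit 5) (nat_lit 86) (nat_lit 5) (nat_lit 81) (nat_lit 5) (nat_lit 356) (nat_lit 341) (nat_lit 203)) (XT.lf (nat_lit 0) (nat_lit 13568204129) (nat_lit 304) (nat_lit 25013045100) (nat_lit 380) (nat_lit 7464732439) (nat_lit 76) (nat_lit 5) (nat_lit 80) (nat_lit 5) (nat_lit 81) (nat_lit 5) (nat_lit 357) (nat_lit 341) (nat_lit 202))) (XT.nd (nat_lit 78) (nat_lit 380) (nat_lit 0) (XT.lf (nat_lit 0) (nat_lit 38083523236) (nat_lit 304) (nat_lit 6735957099) (nat_lit 380) (nat_lit 2559647319) (nat_lit 76) (nat_lit 5) (nat_lit 80) (nat_lit 5) (nat_lit 81) (nat_lit 5) (nat_lit 358) (nat_lit 341) (nat_lit 201)) (XT.nd (nat_lit 78) (nat_lit 0) (nat_lit 0) (XT.lf (nat_lit 0) (nat_lit 2946619796) (nat_lit 380) (nat_lit 33465090019) (nat_lit 76) (nat_lit 12343259198) (nat_lit 71) (nat_lit 5) (nat_lit 76) (nat_lit 5) (nat_lit 72) (nat_lit 5)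 (nat_lit 359) (nat_lit 341) (nat_lit 200)) (XT.lf (nat_lit 0) (nat_lit 8910457254) (nat_lit 380) (nat_lit 8921782429) (nat_lit 76) (nat_lit 32351853432) (nat_lit 71) (nat_lit 5) (nat_lit 76) (nat_lit 5) (nat_lit 72) (nat_lit 5) (nat_lit 360) (nat_lit 341) (nat_lit 199))))) (XT.nd (nat_lit 234) (nat_lit 228) (nat_lit 0) (XT.nd (nat_lit 78) (nat_lit 304) (nat_lit 0) (XT.lf (nat_lit 0) (nat_lit 15472771095) (nat_lit 380) (nat_lit 34298431834) (nat_lit 76) (nat_lit 1898458784) (nat_lit 67) (nat_lit 5) (nat_lit 72) (nat_lit 5) (nat_lit 68) (nat_lit 5) (nat_lit 361) (nat_lit 341) (nat_lit 198)) (XT.nd (nat_lit 78) (nat_lit 304) (nat_lit 0) (XT.lf (nat_lit 0) (nat_lit 22807110024) (nat_lit 380) (nat_lit 8230511722) (nat_lit 76) (nat_lit 22169693922) (nat_lit 67) (nat_lit 5) (nat_lit 72) (nat_lit 5) (nat_lit 68) (nat_lit 5) (nat_lit 362) (nat_lit 341) (nat_lit 197)) (XT.lf (nat_lit 0) (nat_lit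 19771338413) (nat_lit 304) (nat_lit 11043614375) (nat_lit 380) (nat_lit 23991562470) (nat_lit 63) (nat_lit 5) (nat_lit 67) (nat_lit 5) (nat_lit 68) (nat_lit 5) (nat_lit 363) (nat_lit 341) (nat_lit 196)))) (XT.nd (nat_lit 78) (nat_lit 228) (nat_lit 0) (XT.lf (nat_lit 0) (nat_lit 39518359572) (nat_lit 380) (nat_lit 7179637361) (nat_lit 76) (nat_lit 9772921475) (nat_lit 63) (nat_lit 5) (nat_lit 68) (nat_lit 5) (nat_lit 64) (nat_lit 5) (nat_lit 364) (nat_lit 341) (nat_lit 195)) (XT.nd (nat_lit 78) (nat_lit 0) (nat_lit 0) (XT.lf (nat_lit 0) (nat_lit 22609053953) (nat_lit 228) (nat_lit 26580154671) (nat_lit 304) (nat_lit 9002721566) (nat_lit 60) (nat_lit 5) (nat_lit 63) (nat_lit 5) (nat_lit 64) (nat_lit 5) (nat_lit 365) (nat_lit 341) (nat_lit 194)) (XT.lf (nat_lit 0) (nat_lit 54134263120) (nat_lit 228) (nat_lit 5329215908) (nat_lit 304) (nat_lit 529521558) (nat_lit 60) (nat_lit 5) (nat_lit 63)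 (nat_lit 5) (nat_lit 64) (nat_lit 5) (nat_lit 366) (nat_lit 341) (nat_lit 193))))))) (XT.nd (nat_lit 858) (nat_lit 1064) (nat_lit 0) (XT.nd (nat_lit 390) (nat_lit 608) (nat_lit 0) (XT.nd (nat_lit 156) (nat_lit 456) (nat_lit 0) (XT.nd (nat_lit 78) (nat_lit 0) (nat_lit 0) (XT.lf (nat_lit 0) (nat_lit 8778602493) (nat_lit 380) (nat_lit 36078625053) (nat_lit 76) (nat_lit 16986413310) (nat_lit 55) (nat_lit 5) (nat_lit 60) (nat_lit 5) (nat_lit 56) (nat_lit 5) (nat_lit 367) (nat_lit 341) (nat_lit 192)) (XT.lf (nat_lit 0) (nat_lit 18720928615) (nat_lit 380) (nat_lit 4708335552) (nat_lit 76) (nat_lit 40347787078) (nat_lit 55) (nat_lit 5) (nat_lit 60) (nat_lit 5) (nat_lit 56) (nat_lit 5) (nat_lit 368) (nat_lit 341) (nat_lit 191))) (XT.nd (nat_lit 78) (nat_lit 228) (nat_lit 0) (XT.lf (nat_lit 0) (nat_lit 29161759345) (nat_lit 228) (nat_lit 452365579) (nat_lit 304) (nat_lit 36170321156) (nat_lit 52)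 (nat_lit 5) (nat_lit 55) (nat_lit 5) (nat_lit 56) (nat_lit 5) (nat_lit 369) (nat_lit 341) (nat_lit 190)) (XT.nd (nat_lit 78) (nat_lit 228) (nat_lit 0) (XT.lf (nat_lit 0) (nat_lit 41501124430) (nat_lit 304) (nat_lit 3372419381) (nat_lit 76) (nat_lit 22996211223) (nat_lit 52) (nat_lit 5) (nat_lit 56) (nat_lit 5) (nat_lit 53) (nat_lit 5) (nat_lit 370) (nat_lit 341) (nat_lit 189)) (XT.lf (nat_lit 0) (nat_lit 32573498574) (nat_lit 228) (nat_lit 21923517132) (nat_lit 304) (nat_lit 15536588112) (nat_lit 49) (nat_lit 5) (nat_lit 52) (nat_lit 5) (nat_lit 53) (nat_lit 5) (nat_lit 371) (nat_lit 341) (nat_lit 188))))) (XT.nd (nat_lit 234) (nat_lit 380) (nat_lit 0) (XT.nd (nat_lit 78) (nat_lit 228) (nat_lit 0) (XT.lf (nat_lit 0) (nat_lit 68233284958) (nat_lit 304) (nat_lit 1905905359) (nat_lit 76) (nat_lit 2161926954) (nat_lit 49) (nat_lit 5) (nat_lit 53) (nat_lit 5) (nat_lit 50) (nat_lit 5) (nat_lit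 372) (nat_lit 341) (nat_lit 187)) (XT.nd (nat_lit 78) (nat_lit 0) (nat_lit 0) (XT.lf (nat_lit 0) (nat_lit 8657891239) (nat_lit 228) (nat_lit 38551407063) (nat_lit 76) (nat_lit 27419546294) (nat_lit 46) (nat_lit 5) (nat_lit 49) (nat_lit 5) (nat_lit 47) (nat_lit 5) (nat_lit 373) (nat_lit 341) (nat_lit 186)) (XT.lf (nat_lit 0) (nat_lit 21914671443) (nat_lit 228) (nat_lit 1114392733) (nat_lit 76) (nat_lit 54038987216) (nat_lit 46) (nat_lit 5) (nat_lit 49) (nat_lit 5) (nat_lit 47) (nat_lit 5) (nat_lit 374) (nat_lit 341) (nat_lit 185)))) (XT.nd (nat_lit 78) (nat_lit 152) (nat_lit 0) (XT.lf (nat_lit 0) (nat_lit 36495972039) (nat_lit 304) (nat_lit 40189985093) (nat_lit 76) (nat_lit 2910178480) (nat_lit 43) (nat_lit 5) (nat_lit 47) (nat_lit 5) (nat_lit 44) (nat_lit 5) (nat_lit 375) (nat_lit 341) (nat_lit 184)) (XT.nd (nat_lit 78) (nat_lit 152) (nat_lit 0) (XT.lf (nat_lit 0) (nat_lit 52201801134)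 (nat_lit 304) (nat_lit 637985828) (nat_lit 76) (nat_lit 29391065005) (nat_lit 43) (nat_lit 5) (nat_lit 47) (nat_lit 5) (nat_lit 44) (nat_lit 5) (nat_lit 376) (nat_lit 341) (nat_lit 183)) (XT.lf (nat_lit 0) (nat_lit 42241824614) (nat_lit 152) (nat_lit 27109425247) (nat_lit 228) (nat_lit 15613138917) (nat_lit 41) (nat_lit 5) (nat_lit 43) (nat_lit 5) (nat_lit 44) (nat_lit 5) (nat_lit 377) (nat_lit 341) (nat_lit 182)))))) (XT.nd (nat_lit 468) (nat_lit 532) (nat_lit 0) (XT.nd (nat_lit 234) (nat_lit 304) (nat_lit 0) (XT.nd (nat_lit 78) (nat_lit 228) (nat_lit 0) (XT.lf (nat_lit 0) (nat_lit 87286012916) (nat_lit 152) (nat_lit 81806540) (nat_lit 228) (nat_lit 466301546) (nat_lit 41) (nat_lit 5) (nat_lit 43) (nat_lit 5) (nat_lit 44) (nat_lit 5) (nat_lit 378) (nat_lit 341) (nat_lit 181)) (XT.nd (nat_lit 78) (nat_lit 0) (nat_lit 0) (XT.lf (nat_lit 0) (nat_lit 16101378536) (nat_lit 228) (nat_lit 46327132298)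 (nat_lit 76) (nat_lit 28348898015) (nat_lit 38) (nat_lit 5) (nat_lit 41) (nat_lit 5) (nat_lit 39) (nat_lit 5) (nat_lit 379) (nat_lit 341) (nat_lit 180)) (XT.lf (nat_lit 0) (nat_lit 33491445173) (nat_lit 228) (nat_lit 2160659676) (nat_lit 76) (nat_lit 58214891217) (nat_lit 38) (nat_lit 5) (nat_lit 41) (nat_lit 5) (nat_lit 39) (nat_lit 5) (nat_lit 380) (nat_lit 341) (nat_lit 179)))) (XT.nd (nat_lit 78) (nat_lit 152) (nat_lit 0) (XT.lf (nat_lit 0) (nat_lit 45674348924) (nat_lit 152) (nat_lit 6788720902) (nat_lit 228) (nat_lit 44612390902) (nat_lit 36) (nat_lit 5) (nat_lit 38) (nat_lit 5) (nat_lit 39) (nat_lit 5) (nat_lit 381) (nat_lit 341) (nat_lit 178)) (XT.nd (nat_lit 78) (nat_lit 152) (nat_lit 0) (XT.lf (nat_lit 0) (nat_lit 72786612011) (nat_lit 228) (nat_lit 4835845076) (nat_lit 76) (nat_lit 22801725503) (nat_lit 36) (nat_lit 5) (nat_lit 39) (nat_lit 5) (nat_lit 37) (nat_lit 5) (nat_lit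 382) (nat_lit 341) (nat_lit 177)) (XT.lf (nat_lit 0) (nat_lit 45397819568) (nat_lit 152) (nat_lit 49547604048) (nat_lit 228) (nat_lit 8953963057) (nat_lit 34) (nat_lit 5) (nat_lit 36) (nat_lit 5) (nat_lit 37) (nat_lit 5) (nat_lit 383) (nat_lit 341) (nat_lit 176))))) (XT.nd (nat_lit 234) (nat_lit 304) (nat_lit 0) (XT.nd (nat_lit 78) (nat_lit 152) (nat_lit 0) (XT.lf (nat_lit 0) (nat_lit 10404776469) (nat_lit 228) (nat_lit 9402629881) (nat_lit 76) (nat_lit 87728507642) (nat_lit 33) (nat_lit 5) (nat_lit 36) (nat_lit 5) (nat_lit 34) (nat_lit 5) (nat_lit 384) (nat_lit 341) (nat_lit 175)) (XT.nd (nat_lit 78) (nat_lit 0) (nat_lit 0) (XT.lf (nat_lit 0) (nat_lit 31298873577) (nat_lit 228) (nat_lit 68113145587) (nat_lit 76) (nat_lit 11891493218) (nat_lit 31) (nat_lit 5) (nat_lit 34) (nat_lit 5) (nat_lit 32) (nat_lit 5) (nat_lit 385) (nat_lit 341) (nat_lit 174)) (XT.lf (nat_lit 0) (nat_lit 53723314914)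 (nat_lit 228) (nat_lit 16840932084) (nat_lit 76) (nat_lit 44670962337) (nat_lit 31) (nat_lit 5) (nat_lit 34) (nat_lit 5) (nat_lit 32) (nat_lit 5) (nat_lit 386) (nat_lit 341) (nat_lit 173)))) (XT.nd (nat_lit 78) (nat_lit 152) (nat_lit 0) (XT.lf (nat_lit 0) (nat_lit 38216602380) (nat_lit 152) (nat_lit 39648167295) (nat_lit 228) (nat_lit 41468932475) (nat_lit 29) (nat_lit 5) (nat_lit 31) (nat_lit 5) (nat_lit 32) (nat_lit 5) (nat_lit 387) (nat_lit 341) (nat_lit 172)) (XT.nd (nat_lit 78) (nat_lit 152) (nat_lit 0) (XT.lf (nat_lit 0) (nat_lit 96610256586) (nat_lit 152) (nat_lit 6887392349) (nat_lit 228) (nat_lit 20125253636) (nat_lit 29) (nat_lit 5) (nat_lit 31) (nat_lit 5) (nat_lit 32) (nat_lit 5) (nat_lit 388) (nat_lit 341) (nat_lit 171)) (XT.lf (nat_lit 0) (nat_lit 3129599336) (nat_lit 152) (nat_lit 97794847877) (nat_lit 76) (nat_lit 27154474866) (nat_lit 27) (nat_lit 5) (nat_lit 29) (nat_lit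 5) (nat_lit 28) (nat_lit 5) (nat_lit 389) (nat_lit 341) (nat_lit 170))))))))
noncomputable def xc201 : XT := (XT.nd (nat_lit 1794) (nat_lit 456) (nat_lit 0) (XT.nd (nat_lit 858) (nat_lit 456) (nat_lit 0) (XT.nd (nat_lit 390) (nat_lit 304) (nat_lit 0) (XT.nd (nat_lit 156) (nat_lit 76) (nat_lit 0) (XT.nd (nat_lit 78) (nat_lit 152) (nat_lit 0) (XT.lf (nat_lit 0) (nat_lit 27447913040) (nat_lit 152) (nat_lit 41803155823) (nat_lit 76) (nat_lit 63461325144) (nat_lit 27) (nat_lit 5) (nat_lit 29) (nat_lit 5) (nat_lit 28) (nat_lit 5) (nat_lit 390) (nat_lit 341) (nat_lit 169)) (XT.lf (nat_lit 0) (nat_lit 17548441962) (nat_lit 152) (nat_lit 35706898657) (nat_lit 228) (nat_lit 84308539455) (nat_lit 25) (nat_lit 5) (nat_lit 27) (nat_lit 5) (nat_lit 28) (nat_lit 5) (nat_lit 391) (nat_lit 341) (nat_lit 168))) (XT.nd (nat_lit 78) (nat_lit 76) (nat_lit 0) (XT.lf (nat_lit 0) (nat_lit 81064347678) (nat_lit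 228) (nat_lit 61308984434) (nat_lit 76) (nat_lit 249048365) (nat_lit 25) (nat_lit 5) (nat_lit 28) (nat_lit 5) (nat_lit 26) (nat_lit 4) (nat_lit 392) (nat_lit 341) (nat_lit 167)) (XT.nd (nat_lit 78) (nat_lit 76) (nat_lit 0) (XT.lf (nat_lit 0) (nat_lit 110848426851) (nat_lit 228) (nat_lit 253850031) (nat_lit 76) (nat_lit 36802298342) (nat_lit 25) (nat_lit 5) (nat_lit 28) (nat_lit 5) (nat_lit 26) (nat_lit 4) (nat_lit 393) (nat_lit 341) (nat_lit 166)) (XT.lf (nat_lit 0) (nat_lit 65964081791) (nat_lit 76) (nat_lit 77186810247) (nat_lit 152) (nat_lit 10248528962) (nat_lit 24) (nat_lit 5) (nat_lit 25) (nat_lit 5) (nat_lit 26) (nat_lit 4) (nat_lit 394) (nat_lit 341) (nat_lit 165))))) (XT.nd (nat_lit 234) (nat_lit 76) (nat_lit 0) (XT.nd (nat_lit 78) (nat_lit 152) (nat_lit 0) (XT.lf (nat_lit 0) (nat_lit 17330247005) (nat_lit 152) (nat_lit 23947827833) (nat_lit 76) (nat_lit 117876778016) (nat_lit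 23) (nat_lit 5) (nat_lit 25) (nat_lit 5) (nat_lit 24) (nat_lit 5) (nat_lit 395) (nat_lit 341) (nat_lit 164)) (XT.nd (nat_lit 78) (nat_lit 0) (nat_lit 0) (XT.lf (nat_lit 0) (nat_lit 43951609142) (nat_lit 152) (nat_lit 2677476841) (nat_lit 228) (nat_lit 118526293125) (nat_lit 21) (nat_lit 5) (nat_lit 23) (nat_lit 5) (nat_lit 24) (nat_lit 5) (nat_lit 396) (nat_lit 341) (nat_lit 163)) (XT.lf (nat_lit 0) (nat_lit 78395417613) (nat_lit 228) (nat_lit 55957036848) (nat_lit 76) (nat_lit 37053350002) (nat_lit 21) (nat_lit 5) (nat_lit 24) (nat_lit 5) (nat_lit 22) (nat_lit 4) (nat_lit 397) (nat_lit 341) (nat_lit 162)))) (XT.nd (nat_lit 78) (nat_lit 0) (nat_lit 0) (XT.lf (nat_lit 0) (nat_lit 12920560762) (nat_lit 76) (nat_lit 99074495927) (nat_lit 152) (nat_lit 65961445165) (nat_lit 20) (nat_lit 5) (nat_lit 21) (nat_lit 5) (nat_lit 22) (nat_lit 4) (nat_lit 398) (nat_lit 341) (nat_lit 161)) (XT.nd (nat_lit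 78) (nat_lit 0) (nat_lit 0) (XT.lf (nat_lit 0) (nat_lit 87183640512) (nat_lit 76) (nat_lit 61038081093) (nat_lit 152) (nat_lit 36565660607) (nat_lit 20) (nat_lit 5) (nat_lit 21) (nat_lit 5) (nat_lit 22) (nat_lit 4) (nat_lit 399) (nat_lit 341) (nat_lit 160)) (XT.lf (nat_lit 0) (nat_lit 165158826909) (nat_lit 76) (nat_lit 21100306563) (nat_lit 152) (nat_lit 5700702711) (nat_lit 20) (nat_lit 5) (nat_lit 21) (nat_lit 5) (nat_lit 22) (nat_lit 4) (nat_lit 400) (nat_lit 341) (nat_lit 159)))))) (XT.nd (nat_lit 468) (nat_lit 152) (nat_lit 0) (XT.nd (nat_lit 234) (nat_lit 152) (nat_lit 0) (XT.nd (nat_lit 78) (nat_lit 0) (nat_lit 0) (XT.lf (nat_lit 0) (nat_lit 26956762179) (nat_lit 152) (nat_lit 151094668804) (nat_lit 76) (nat_lit 21363429877) (nat_lit 18) (nat_lit 5) (nat_lit 20) (nat_lit 5) (nat_lit 19) (nat_lit 4) (nat_lit 401) (nat_lit 341) (nat_lit 158)) (XT.nd (nat_lit 78) (nat_lit 0) (nat_lit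 0) (XT.lf (nat_lit 0) (nat_lit 61862191543) (nat_lit 152) (nat_lit 79539841215) (nat_lit 76) (nat_lit 65795597935) (nat_lit 18) (nat_lit 5) (nat_lit 20) (nat_lit 5) (nat_lit 19) (nat_lit 4) (nat_lit 402) (nat_lit 341) (nat_lit 157)) (XT.lf (nat_lit 0) (nat_lit 98512355907) (nat_lit 152) (nat_lit 4408244848) (nat_lit 76) (nat_lit 112448965317) (nat_lit 18) (nat_lit 5) (nat_lit 20) (nat_lit 5) (nat_lit 19) (nat_lit 4) (nat_lit 403) (nat_lit 341) (nat_lit 156)))) (XT.nd (nat_lit 78) (nat_lit 76) (nat_lit 0) (XT.lf (nat_lit 0) (nat_lit 76941617313) (nat_lit 76) (nat_lit 61254174528) (nat_lit 152) (nat_lit 85694268431) (nat_lit 17) (nat_lit 5) (nat_lit 18) (nat_lit 5) (nat_lit 19) (nat_lit 4) (nat_lit 404) (nat_lit 341) (nat_lit 155)) (XT.nd (nat_lit 78) (nat_lit 76) (nat_lit 0) (XT.lf (nat_lit 0) (nat_lit 162511105544) (nat_lit 76) (nat_lit 17426448967) (nat_lit 152) (nat_lit 52895317133)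 (nat_lit 17) (nat_lit 5) (nat_lit 18) (nat_lit 5) (nat_lit 19) (nat_lit 4) (nat_lit 405) (nat_lit 341) (nat_lit 154)) (XT.lf (nat_lit 0) (nat_lit 10009307457) (nat_lit 76) (nat_lit 214359299719) (nat_lit 76) (nat_lit 17824106515) (nat_lit 16) (nat_lit 4) (nat_lit 17) (nat_lit 5) (nat_lit 17) (nat_lit 4) (nat_lit 406) (nat_lit 341) (nat_lit 153))))) (XT.nd (nat_lit 234) (nat_lit 0) (nat_lit 0) (XT.nd (nat_lit 78) (nat_lit 76) (nat_lit 0) (XT.lf (nat_lit 0) (nat_lit 19888179194) (nat_lit 152) (nat_lit 155765397880) (nat_lit 76) (nat_lit 76277355540) (nat_lit 15) (nat_lit 5) (nat_lit 17) (nat_lit 5) (nat_lit 16) (nat_lit 4) (nat_lit 407) (nat_lit 341) (nat_lit 152)) (XT.nd (nat_lit 78) (nat_lit 76) (nat_lit 0) (XT.lf (nat_lit 0) (nat_lit 58886613636) (nat_lit 152) (nat_lit 75819533014) (nat_lit 76) (nat_lit 127435329017) (nat_lit 15) (nat_lit 5) (nat_lit 17) (nat_lit 5) (nat_lit 16) (nat_lit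 4) (nat_lit 408) (nat_lit 341) (nat_lit 151)) (XT.lf (nat_lit 0) (nat_lit 8391397025) (nat_lit 76) (nat_lit 91574149145) (nat_lit 152) (nat_lit 172890471048) (nat_lit 14) (nat_lit 5) (nat_lit 15) (nat_lit 5) (nat_lit 16) (nat_lit 4) (nat_lit 409) (nat_lit 341) (nat_lit 150)))) (XT.nd (nat_lit 78) (nat_lit 0) (nat_lit 0) (XT.lf (nat_lit 0) (nat_lit 99444364357) (nat_lit 76) (nat_lit 44937673035) (nat_lit 152) (nat_lit 139660068008) (nat_lit 14) (nat_lit 5) (nat_lit 15) (nat_lit 5) (nat_lit 16) (nat_lit 4) (nat_lit 410) (nat_lit 341) (nat_lit 149)) (XT.nd (nat_lit 78) (nat_lit 0) (nat_lit 0) (XT.lf (nat_lit 0) (nat_lit 191081869130) (nat_lit 152) (nat_lit 100801216926) (nat_lit 0) (nat_lit 3901286286) (nat_lit 14) (nat_lit 5) (nat_lit 16) (nat_lit 4) (nat_lit 14) (nat_lit 4) (nat_lit 411) (nat_lit 341) (nat_lit 148)) (XT.lf (nat_lit 0) (nat_lit 240852981878) (nat_lit 152) (nat_lit 13552282728)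 (nat_lit 0) (nat_lit 53671673694) (nat_lit 14) (nat_lit 5) (nat_lit 16) (nat_lit 4) (nat_lit 14) (nat_lit 4) (nat_lit 412) (nat_lit 341) (nat_lit 147))))))) (XT.nd (nat_lit 858) (nat_lit 76) (nat_lit 0) (XT.nd (nat_lit 390) (nat_lit 152) (nat_lit 0) (XT.nd (nat_lit 156) (nat_lit 76) (nat_lit 0) (XT.nd (nat_lit 78) (nat_lit 76) (nat_lit 0) (XT.lf (nat_lit 0) (nat_lit 80639363351) (nat_lit 76) (nat_lit 213731918376) (nat_lit 76) (nat_lit 26549919391) (nat_lit 13) (nat_lit 4) (nat_lit 14) (nat_lit 5) (nat_lit 14) (nat_lit 4) (nat_lit 413) (nat_lit 341) (nat_lit 146)) (XT.lf (nat_lit 0) (nat_lit 15873571346) (nat_lit 152) (nat_lit 154641835630) (nat_lit 76) (nat_lit 163868011632) (nat_lit 12) (nat_lit 5) (nat_lit 14) (nat_lit 5) (nat_lit 13) (nat_lit 4) (nat_lit 414) (nat_lit 341) (nat_lit 145))) (XT.nd (nat_lit 78) (nat_lit 76) (nat_lit 0) (XT.lf (nat_lit 0) (nat_lit 59525629031) (nat_lit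 152) (nat_lit 65155743953) (nat_lit 76) (nat_lit 223815629686) (nat_lit 12) (nat_lit 5) (nat_lit 14) (nat_lit 5) (nat_lit 13) (nat_lit 4) (nat_lit 415) (nat_lit 341) (nat_lit 144)) (XT.nd (nat_lit 78) (nat_lit 0) (nat_lit 0) (XT.lf (nat_lit 0) (nat_lit 29756408950) (nat_lit 76) (nat_lit 76068122346) (nat_lit 152) (nat_lit 257468522665) (nat_lit 11) (nat_lit 5) (nat_lit 12) (nat_lit 5) (nat_lit 13) (nat_lit 4) (nat_lit 416) (nat_lit 341) (nat_lit 143)) (XT.lf (nat_lit 0) (nat_lit 131675605760) (nat_lit 76) (nat_lit 23865884137) (nat_lit 152) (nat_lit 223232262463) (nat_lit 11) (nat_lit 5) (nat_lit 12) (nat_lit 5) (nat_lit 13) (nat_lit 4) (nat_lit 417) (nat_lit 341) (nat_lit 142))))) (XT.nd (nat_lit 234) (nat_lit 76) (nat_lit 0) (XT.nd (nat_lit 78) (nat_lit 76) (nat_lit 0) (XT.lf (nat_lit 0) (nat_lit 208227136181) (nat_lit 152) (nat_lit 156821490279) (nat_lit 0) (nat_lit 29955717332) (nat_lit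 11) (nat_lit 5) (nat_lit 13) (nat_lit 4) (nat_lit 11) (nat_lit 4) (nat_lit 418) (nat_lit 341) (nat_lit 141)) (XT.nd (nat_lit 78) (nat_lit 76) (nat_lit 0) (XT.lf (nat_lit 0) (nat_lit 263938002773) (nat_lit 152) (nat_lit 62422822236) (nat_lit 0) (nat_lit 85666092984) (nat_lit 11) (nat_lit 5) (nat_lit 13) (nat_lit 4) (nat_lit 11) (nat_lit 4) (nat_lit 419) (nat_lit 341) (nat_lit 140)) (XT.lf (nat_lit 0) (nat_lit 37908539607) (nat_lit 76) (nat_lit 285117440191) (nat_lit 76) (nat_lit 106845062842) (nat_lit 10) (nat_lit 4) (nat_lit 11) (nat_lit 5) (nat_lit 11) (nat_lit 4) (nat_lit 420) (nat_lit 341) (nat_lit 139)))) (XT.nd (nat_lit 78) (nat_lit 76) (nat_lit 0) (XT.lf (nat_lit 0) (nat_lit 145423108229) (nat_lit 76) (nat_lit 240702122143) (nat_lit 76) (nat_lit 62429299498) (nat_lit 10) (nat_lit 4) (nat_lit 11) (nat_lit 5) (nat_lit 11) (nat_lit 4) (nat_lit 421) (nat_lit 341) (nat_lit 138)) (XT.nd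 (nat_lit 78) (nat_lit 76) (nat_lit 0) (XT.lf (nat_lit 0) (nat_lit 258312890285) (nat_lit 76) (nat_lit 194066280808) (nat_lit 76) (nat_lit 15793034071) (nat_lit 10) (nat_lit 4) (nat_lit 11) (nat_lit 5) (nat_lit 11) (nat_lit 4) (nat_lit 422) (nat_lit 341) (nat_lit 137)) (XT.lf (nat_lit 0) (nat_lit 32112972276) (nat_lit 152) (nat_lit 112442057468) (nat_lit 76) (nat_lit 344189849970) (nat_lit 9) (nat_lit 5) (nat_lit 11) (nat_lit 5) (nat_lit 10) (nat_lit 4) (nat_lit 423) (nat_lit 341) (nat_lit 136)))))) (XT.nd (nat_lit 40716) (nat_lit 0) (nat_lit 6308) (XT.nd (nat_lit 40482) (nat_lit 0) (nat_lit 6992) (XT.nd (nat_lit 78) (nat_lit 76) (nat_lit 0) (XT.lf (nat_lit 0) (nat_lit 81883278253) (nat_lit 152) (nat_lit 10413314878) (nat_lit 76) (nat_lit 418036662381) (nat_lit 9) (nat_lit 5) (nat_lit 11) (nat_lit 5) (nat_lit 10) (nat_lit 4) (nat_lit 424) (nat_lit 341) (nat_lit 135)) (XT.nd (nat_lit 78)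 (nat_lit 0) (nat_lit 0) (XT.lf (nat_lit 0) (nat_lit 99914293352) (nat_lit 76) (nat_lit 35787509084) (nat_lit 152) (nat_lit 397221262586) (nat_lit 8) (nat_lit 5) (nat_lit 9) (nat_lit 5) (nat_lit 10) (nat_lit 4) (nat_lit 425) (nat_lit 341) (nat_lit 134)) (XT.lf (nat_lit 0) (nat_lit 192757895454) (nat_lit 152) (nat_lit 340884718743) (nat_lit 0) (nat_lit 22972418744) (nat_lit 8) (nat_lit 5) (nat_lit 10) (nat_lit 4) (nat_lit 8) (nat_lit 4) (nat_lit 426) (nat_lit 341) (nat_lit 133)))) (XT.nd (nat_lit 78) (nat_lit 0) (nat_lit 0) (XT.lf (nat_lit 0) (nat_lit 7572953784) (nat_lit 0) (nat_lit 7572953784) (nat_lit 684) (nat_lit 715066860) (nat_lit 100) (nat_lit 5) (nat_lit 100) (nat_lit 3) (nat_lit 109) (nat_lit 3) (nat_lit 342) (nat_lit 342) (nat_lit 216)) (XT.nd (nat_lit 78) (nat_lit 0) (nat_lit 0) (XT.lf (nat_lit 0) (nat_lit 30648442257) (nat_lit 0) (nat_lit 462181636) (nat_lit 684) (nat_lit 1401203401)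 (nat_lit 100) (nat_lit 5) (nat_lit 100) (nat_lit 3) (nat_lit 109) (nat_lit 3) (nat_lit 343) (nat_lit 342) (nat_lit 215)) (XT.lf (nat_lit 76) (nat_lit 13790585529) (nat_lit 0) (nat_lit 18624691230) (nat_lit 760) (nat_lit 903683768) (nat_lit 101) (nat_lit 5) (nat_lit 100) (nat_lit 5) (nat_lit 110) (nat_lit 5) (nat_lit 344) (nat_lit 342) (nat_lit 214))))) (XT.nd (nat_lit 234) (nat_lit 0) (nat_lit 76) (XT.nd (nat_lit 78) (nat_lit 684) (nat_lit 0) (XT.lf (nat_lit 76) (nat_lit 30281952913) (nat_lit 0) (nat_lit 3538466549) (nat_lit 760) (nat_lit 344273869) (nat_lit 101) (nat_lit 5) (nat_lit 100) (nat_lit 5) (nat_lit 110) (nat_lit 5) (nat_lit 345) (nat_lit 342) (nat_lit 213)) (XT.nd (nat_lit 78) (nat_lit 0) (nat_lit 0) (XT.lf (nat_lit 0) (nat_lit 629400932) (nat_lit 760) (nat_lit 22284274865) (nat_lit 836) (nat_lit 12119148662) (nat_lit 91) (nat_lit 5) (nat_lit 101) (nat_lit 5) (nat_lit 102) (nat_lit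 5) (nat_lit 346) (nat_lit 342) (nat_lit 212)) (XT.lf (nat_lit 0) (nat_lit 1761552209) (nat_lit 760) (nat_lit 5661954753) (nat_lit 836) (nat_lit 28514509844) (nat_lit 91) (nat_lit 5) (nat_lit 101) (nat_lit 5) (nat_lit 102) (nat_lit 5) (nat_lit 347) (nat_lit 342) (nat_lit 211)))) (XT.nd (nat_lit 78) (nat_lit 0) (nat_lit 0) (XT.lf (nat_lit 0) (nat_lit 3278315976) (nat_lit 760) (nat_lit 24841257171) (nat_lit 836) (nat_lit 8752500123) (nat_lit 92) (nat_lit 5) (nat_lit 102) (nat_lit 5) (nat_lit 103) (nat_lit 5) (nat_lit 348) (nat_lit 342) (nat_lit 210)) (XT.nd (nat_lit 78) (nat_lit 0) (nat_lit 76) (XT.lf (nat_lit 0) (nat_lit 5086899888) (nat_lit 760) (nat_lit 7168897256) (nat_lit 836) (nat_lit 25586240835) (nat_lit 92) (nat_lit 5) (nat_lit 102) (nat_lit 5) (nat_lit 103) (nat_lit 5) (nat_lit 349) (nat_lit 342) (nat_lit 209)) (XT.lf (nat_lit 0) (nat_lit 7238251906) (nat_lit 760) (nat_lit 27161970313)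 (nat_lit 836) (nat_lit 4447666062) (nat_lit 93) (nat_lit 5) (nat_lit 103) (nat_lit 5) (nat_lit 104) (nat_lit 5) (nat_lit 350) (nat_lit 342) (nat_lit 208))))))))
noncomputable def xc202 : XT := (XT.nd (nat_lit 1794) (nat_lit 1976) (nat_lit 0) (XT.nd (nat_lit 858) (nat_lit 1672) (nat_lit 0) (XT.nd (nat_lit 390) (nat_lit 1064) (nat_lit 0) (XT.nd (nat_lit 156) (nat_lit 608) (nat_lit 0) (XT.nd (nat_lit 78) (nat_lit 0) (nat_lit 0) (XT.lf (nat_lit 0) (nat_lit 9818581375) (nat_lit 760) (nat_lit 8370900047) (nat_lit 836) (nat_lit 21698483283) (nat_lit 93) (nat_lit 5) (nat_lit 103) (nat_lit 5) (nat_lit 104) (nat_lit 5) (nat_lit 351) (nat_lit 342) (nat_lit 207)) (XT.lf (nat_lit 76) (nat_lit 11732969898) (nat_lit 0) (nat_lit 975376334) (nat_lit 836) (nat_lit 28262681678) (nat_lit 94) (nat_lit 5) (nat_lit 93) (nat_lit 5) (nat_lit 104) (nat_lit 5) (nat_lit 352) (nat_lit 342) (nat_lit 206))) (XT.nd (nat_lit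 78) (nat_lit 684) (nat_lit 0) (XT.lf (nat_lit 0) (nat_lit 16150996310) (nat_lit 760) (nat_lit 9240187145) (nat_lit 76) (nat_lit 16696644688) (nat_lit 94) (nat_lit 5) (nat_lit 104) (nat_lit 5) (nat_lit 95) (nat_lit 5) (nat_lit 353) (nat_lit 342) (nat_lit 205)) (XT.nd (nat_lit 78) (nat_lit 0) (nat_lit 0) (XT.lf (nat_lit 0) (nat_lit 12127466815) (nat_lit 684) (nat_lit 7841110003) (nat_lit 760) (nat_lit 23281755215) (nat_lit 85) (nat_lit 5) (nat_lit 94) (nat_lit 5) (nat_lit 95) (nat_lit 5) (nat_lit 354) (nat_lit 342) (nat_lit 204)) (XT.lf (nat_lit 0) (nat_lit 24298926670) (nat_lit 760) (nat_lit 9749052450) (nat_lit 76) (nat_lit 10406890855) (nat_lit 85) (nat_lit 5) (nat_lit 95) (nat_lit 5) (nat_lit 86) (nat_lit 5) (nat_lit 355) (nat_lit 342) (nat_lit 203))))) (XT.nd (nat_lit 234) (nat_lit 380) (nat_lit 0) (XT.nd (nat_lit 78) (nat_lit 304) (nat_lit 0) (XT.lf (nat_lit 0) (nat_lit 12978031160)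 (nat_lit 380) (nat_lit 16196599072) (nat_lit 456) (nat_lit 16528565981) (nat_lit 80) (nat_lit 5) (nat_lit 85) (nat_lit 5) (nat_lit 86) (nat_lit 5) (nat_lit 356) (nat_lit 342) (nat_lit 202)) (XT.nd (nat_lit 78) (nat_lit 304) (nat_lit 0) (XT.lf (nat_lit 0) (nat_lit 34499448660) (nat_lit 456) (nat_lit 9870562365) (nat_lit 76) (nat_lit 2633664315) (nat_lit 80) (nat_lit 5) (nat_lit 86) (nat_lit 5) (nat_lit 81) (nat_lit 5) (nat_lit 357) (nat_lit 342) (nat_lit 201)) (XT.lf (nat_lit 0) (nat_lit 14317270732) (nat_lit 304) (nat_lit 26260142161) (nat_lit 380) (nat_lit 7767423198) (nat_lit 76) (nat_lit 5) (nat_lit 80) (nat_lit 5) (nat_lit 81) (nat_lit 5) (nat_lit 358) (nat_lit 342) (nat_lit 200)))) (XT.nd (nat_lit 78) (nat_lit 380) (nat_lit 0) (XT.lf (nat_lit 0) (nat_lit 40054991203) (nat_lit 304) (nat_lit 7069369055) (nat_lit 380) (nat_lit 2620443150) (nat_lit 76) (nat_lit 5) (nat_lit 80) (nat_lit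 5) (nat_lit 81) (nat_lit 5) (nat_lit 359) (nat_lit 342) (nat_lit 199)) (XT.nd (nat_lit 78) (nat_lit 0) (nat_lit 0) (XT.lf (nat_lit 0) (nat_lit 3157042153) (nat_lit 380) (nat_lit 35066798874) (nat_lit 76) (nat_lit 12965644468) (nat_lit 71) (nat_lit 5) (nat_lit 76) (nat_lit 5) (nat_lit 72) (nat_lit 5) (nat_lit 360) (nat_lit 342) (nat_lit 198)) (XT.lf (nat_lit 0) (nat_lit 9416067133) (nat_lit 380) (nat_lit 9299732840) (nat_lit 76) (nat_lit 33974419732) (nat_lit 71) (nat_lit 5) (nat_lit 76) (nat_lit 5) (nat_lit 72) (nat_lit 5) (nat_lit 361) (nat_lit 342) (nat_lit 197)))))) (XT.nd (nat_lit 468) (nat_lit 836) (nat_lit 0) (XT.nd (nat_lit 234) (nat_lit 228) (nat_lit 0) (XT.nd (nat_lit 78) (nat_lit 304) (nat_lit 0) (XT.lf (nat_lit 0) (nat_lit 16304818940) (nat_lit 380) (nat_lit 35943466783) (nat_lit 76) (nat_lit 2001868407) (nat_lit 67) (nat_lit 5) (nat_lit 72) (nat_lit 5) (nat_lit 68) (nat_lit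 5) (nat_lit 362) (nat_lit 342) (nat_lit 196)) (XT.nd (nat_lit 78) (nat_lit 304) (nat_lit 0) (XT.lf (nat_lit 0) (nat_lit 24003093420) (nat_lit 380) (nat_lit 8575478600) (nat_lit 76) (nat_lit 23286261174) (nat_lit 67) (nat_lit 5) (nat_lit 72) (nat_lit 5) (nat_lit 68) (nat_lit 5) (nat_lit 363) (nat_lit 342) (nat_lit 195)) (XT.lf (nat_lit 0) (nat_lit 20825390514) (nat_lit 304) (nat_lit 11584311268) (nat_lit 380) (nat_lit 25134375493) (nat_lit 63) (nat_lit 5) (nat_lit 67) (nat_lit 5) (nat_lit 68) (nat_lit 5) (nat_lit 364) (nat_lit 342) (nat_lit 194)))) (XT.nd (nat_lit 78) (nat_lit 228) (nat_lit 0) (XT.lf (nat_lit 0) (nat_lit 41545878169) (nat_lit 380) (nat_lit 7473791009) (nat_lit 76) (nat_lit 10272154474) (nat_lit 63) (nat_lit 5) (nat_lit 68) (nat_lit 5) (nat_lit 64) (nat_lit 5) (nat_lit 365) (nat_lit 342) (nat_lit 193)) (XT.nd (nat_lit 78) (nat_lit 0) (nat_lit 0) (XT.lf (nat_lit 0) (nat_lit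 23803289254) (nat_lit 228) (nat_lit 27895519072) (nat_lit 304) (nat_lit 9400153651) (nat_lit 60) (nat_lit 5) (nat_lit 63) (nat_lit 5) (nat_lit 64) (nat_lit 5) (nat_lit 366) (nat_lit 342) (nat_lit 192)) (XT.lf (nat_lit 0) (nat_lit 56901721613) (nat_lit 228) (nat_lit 5582683053) (nat_lit 304) (nat_lit 505803358) (nat_lit 60) (nat_lit 5) (nat_lit 63) (nat_lit 5) (nat_lit 64) (nat_lit 5) (nat_lit 367) (nat_lit 342) (nat_lit 191))))) (XT.nd (nat_lit 234) (nat_lit 228) (nat_lit 0) (XT.nd (nat_lit 78) (nat_lit 228) (nat_lit 0) (XT.lf (nat_lit 0) (nat_lit 9264986411) (nat_lit 380) (nat_lit 37818968203) (nat_lit 76) (nat_lit 17849445702) (nat_lit 55) (nat_lit 5) (nat_lit 60) (nat_lit 5) (nat_lit 56) (nat_lit 5) (nat_lit 368) (nat_lit 342) (nat_lit 190)) (XT.nd (nat_lit 78) (nat_lit 228) (nat_lit 0) (XT.lf (nat_lit 0) (nat_lit 19702169135) (nat_lit 380) (nat_lit 4883192231) (nat_lit 76) (nat_lit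 42378235219) (nat_lit 55) (nat_lit 5) (nat_lit 60) (nat_lit 5) (nat_lit 56) (nat_lit 5) (nat_lit 369) (nat_lit 342) (nat_lit 189)) (XT.lf (nat_lit 0) (nat_lit 30679430635) (nat_lit 228) (nat_lit 459372788) (nat_lit 304) (nat_lit 37932621094) (nat_lit 52) (nat_lit 5) (nat_lit 55) (nat_lit 5) (nat_lit 56) (nat_lit 5) (nat_lit 370) (nat_lit 342) (nat_lit 188)))) (XT.nd (nat_lit 78) (nat_lit 228) (nat_lit 0) (XT.lf (nat_lit 0) (nat_lit 43618291113) (nat_lit 304) (nat_lit 3482389438) (nat_lit 76) (nat_lit 24160413612) (nat_lit 52) (nat_lit 5) (nat_lit 56) (nat_lit 5) (nat_lit 53) (nat_lit 5) (nat_lit 371) (nat_lit 342) (nat_lit 187)) (XT.nd (nat_lit 78) (nat_lit 0) (nat_lit 0) (XT.lf (nat_lit 0) (nat_lit 34259878432) (nat_lit 228) (nat_lit 23002994197) (nat_lit 304) (nat_lit 16270320026) (nat_lit 49) (nat_lit 5) (nat_lit 52) (nat_lit 5) (nat_lit 53) (nat_lit 5) (nat_lit 372) (nat_lit 342) (nat_lit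 186)) (XT.lf (nat_lit 0) (nat_lit 71684250970) (nat_lit 304) (nat_lit 1944500085) (nat_lit 76) (nat_lit 2285417898) (nat_lit 49) (nat_lit 5) (nat_lit 53) (nat_lit 5) (nat_lit 50) (nat_lit 5) (nat_lit 373) (nat_lit 342) (nat_lit 185))))))) (XT.nd (nat_lit 858) (nat_lit 836) (nat_lit 0) (XT.nd (nat_lit 390) (nat_lit 532) (nat_lit 0) (XT.nd (nat_lit 156) (nat_lit 380) (nat_lit 0) (XT.nd (nat_lit 78) (nat_lit 0) (nat_lit 0) (XT.lf (nat_lit 0) (nat_lit 9129750957) (nat_lit 228) (nat_lit 40421867576) (nat_lit 76) (nat_lit 28806684576) (nat_lit 46) (nat_lit 5) (nat_lit 49) (nat_lit 5) (nat_lit 47) (nat_lit 5) (nat_lit 374) (nat_lit 342) (nat_lit 184)) (XT.lf (nat_lit 0) (nat_lit 23047514688) (nat_lit 228) (nat_lit 1115722046) (nat_lit 76) (nat_lit 56756327974) (nat_lit 46) (nat_lit 5) (nat_lit 49) (nat_lit 5) (nat_lit 47) (nat_lit 5) (nat_lit 375) (nat_lit 342) (nat_lit 183))) (XT.nd (nat_lit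 78) (nat_lit 152) (nat_lit 0) (XT.lf (nat_lit 0) (nat_lit 38357219323) (nat_lit 304) (nat_lit 42144400872) (nat_lit 76) (nat_lit 3072467601) (nat_lit 43) (nat_lit 5) (nat_lit 47) (nat_lit 5) (nat_lit 44) (nat_lit 5) (nat_lit 376) (nat_lit 342) (nat_lit 182)) (XT.nd (nat_lit 78) (nat_lit 152) (nat_lit 0) (XT.lf (nat_lit 0) (nat_lit 54846604222) (nat_lit 304) (nat_lit 617424667) (nat_lit 76) (nat_lit 30876599395) (nat_lit 43) (nat_lit 5) (nat_lit 47) (nat_lit 5) (nat_lit 44) (nat_lit 5) (nat_lit 377) (nat_lit 342) (nat_lit 181)) (XT.lf (nat_lit 0) (nat_lit 44405530161) (nat_lit 152) (nat_lit 28447148067) (nat_lit 228) (nat_lit 16358207524) (nat_lit 41) (nat_lit 5) (nat_lit 43) (nat_lit 5) (nat_lit 44) (nat_lit 5) (nat_lit 378) (nat_lit 342) (nat_lit 180))))) (XT.nd (nat_lit 234) (nat_lit 304) (nat_lit 0) (XT.nd (nat_lit 78) (nat_lit 228) (nat_lit 0) (XT.lf (nat_lit 0) (nat_lit 91699470054)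 (nat_lit 152) (nat_lit 68993589) (nat_lit 228) (nat_lit 455722968) (nat_lit 41) (nat_lit 5) (nat_lit 43) (nat_lit 5) (nat_lit 44) (nat_lit 5) (nat_lit 379) (nat_lit 342) (nat_lit 179)) (XT.nd (nat_lit 78) (nat_lit 0) (nat_lit 0) (XT.lf (nat_lit 0) (nat_lit 16938738407) (nat_lit 228) (nat_lit 48592678050) (nat_lit 76) (nat_lit 29783223087) (nat_lit 38) (nat_lit 5) (nat_lit 41) (nat_lit 5) (nat_lit 39) (nat_lit 5) (nat_lit 380) (nat_lit 342) (nat_lit 178)) (XT.lf (nat_lit 0) (nat_lit 35196770712) (nat_lit 228) (nat_lit 2220301363) (nat_lit 76) (nat_lit 61141712131) (nat_lit 38) (nat_lit 5) (nat_lit 41) (nat_lit 5) (nat_lit 39) (nat_lit 5) (nat_lit 381) (nat_lit 342) (nat_lit 177)))) (XT.nd (nat_lit 78) (nat_lit 152) (nat_lit 0) (XT.lf (nat_lit 0) (nat_lit 48005677163) (nat_lit 152) (nat_lit 7110578331) (nat_lit 228) (nat_lit 46811453806) (nat_lit 36) (nat_lit 5) (nat_lit 38) (nat_lit 5)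 (nat_lit 39) (nat_lit 5) (nat_lit 382) (nat_lit 342) (nat_lit 176)) (XT.nd (nat_lit 78) (nat_lit 152) (nat_lit 0) (XT.lf (nat_lit 0) (nat_lit 76454806067) (nat_lit 228) (nat_lit 5031103229) (nat_lit 76) (nat_lit 23958017483) (nat_lit 36) (nat_lit 5) (nat_lit 39) (nat_lit 5) (nat_lit 37) (nat_lit 5) (nat_lit 383) (nat_lit 342) (nat_lit 175)) (XT.lf (nat_lit 0) (nat_lit 47713494098) (nat_lit 152) (nat_lit 52007404513) (nat_lit 228) (nat_lit 9372026473) (nat_lit 34) (nat_lit 5) (nat_lit 36) (nat_lit 5) (nat_lit 37) (nat_lit 5) (nat_lit 384) (nat_lit 342) (nat_lit 174)))))) (XT.nd (nat_lit 468) (nat_lit 304) (nat_lit 0) (XT.nd (nat_lit 234) (nat_lit 304) (nat_lit 0) (XT.nd (nat_lit 78) (nat_lit 152) (nat_lit 0) (XT.lf (nat_lit 0) (nat_lit 10952335522) (nat_lit 228) (nat_lit 9828235859) (nat_lit 76) (nat_lit 92130753496) (nat_lit 33) (nat_lit 5) (nat_lit 36) (nat_lit 5) (nat_lit 34) (nat_lit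 5) (nat_lit 385) (nat_lit 342) (nat_lit 173)) (XT.nd (nat_lit 78) (nat_lit 0) (nat_lit 0) (XT.lf (nat_lit 0) (nat_lit 32890787521) (nat_lit 228) (nat_lit 71473909477) (nat_lit 76) (nat_lit 12502624582) (nat_lit 31) (nat_lit 5) (nat_lit 34) (nat_lit 5) (nat_lit 32) (nat_lit 5) (nat_lit 386) (nat_lit 342) (nat_lit 172)) (XT.lf (nat_lit 0) (nat_lit 56435166626) (nat_lit 228) (nat_lit 17640223078) (nat_lit 76) (nat_lit 46920278743) (nat_lit 31) (nat_lit 5) (nat_lit 34) (nat_lit 5) (nat_lit 32) (nat_lit 5) (nat_lit 387) (nat_lit 342) (nat_lit 171)))) (XT.nd (nat_lit 78) (nat_lit 152) (nat_lit 0) (XT.lf (nat_lit 0) (nat_lit 40169498501) (nat_lit 152) (nat_lit 41613629250) (nat_lit 228) (nat_lit 43515987282) (nat_lit 29) (nat_lit 5) (nat_lit 31) (nat_lit 5) (nat_lit 32) (nat_lit 5) (nat_lit 388) (nat_lit 342) (nat_lit 170)) (XT.nd (nat_lit 78) (nat_lit 152) (nat_lit 0) (XT.lf (nat_lit 0) (nat_lit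 101480832275) (nat_lit 152) (nat_lit 7215622529) (nat_lit 228) (nat_lit 21106381254) (nat_lit 29) (nat_lit 5) (nat_lit 31) (nat_lit 5) (nat_lit 32) (nat_lit 5) (nat_lit 389) (nat_lit 342) (nat_lit 169)) (XT.lf (nat_lit 0) (nat_lit 3310135682) (nat_lit 152) (nat_lit 102643419961) (nat_lit 76) (nat_lit 28528095690) (nat_lit 27) (nat_lit 5) (nat_lit 29) (nat_lit 5) (nat_lit 28) (nat_lit 5) (nat_lit 390) (nat_lit 342) (nat_lit 168))))) (XT.nd (nat_lit 234) (nat_lit 152) (nat_lit 0) (XT.nd (nat_lit 78) (nat_lit 152) (nat_lit 0) (XT.lf (nat_lit 0) (nat_lit 28843219529) (nat_lit 152) (nat_lit 43854103794) (nat_lit 76) (nat_lit 66649531478) (nat_lit 27) (nat_lit 5) (nat_lit 29) (nat_lit 5) (nat_lit 28) (nat_lit 5) (nat_lit 391) (nat_lit 342) (nat_lit 167)) (XT.nd (nat_lit 78) (nat_lit 0) (nat_lit 0) (XT.lf (nat_lit 0) (nat_lit 18464441464) (nat_lit 152) (nat_lit 37476088333) (nat_lit 228) (nat_lit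 88500410446) (nat_lit 25) (nat_lit 5) (nat_lit 27) (nat_lit 5) (nat_lit 28) (nat_lit 5) (nat_lit 392) (nat_lit 342) (nat_lit 166)) (XT.lf (nat_lit 0) (nat_lit 85139159705) (nat_lit 228) (nat_lit 64336853647) (nat_lit 76) (nat_lit 276394295) (nat_lit 25) (nat_lit 5) (nat_lit 28) (nat_lit 5) (nat_lit 26) (nat_lit 4) (nat_lit 393) (nat_lit 342) (nat_lit 165)))) (XT.nd (nat_lit 78) (nat_lit 152) (nat_lit 0) (XT.lf (nat_lit 0) (nat_lit 116411414520) (nat_lit 228) (nat_lit 230752048) (nat_lit 76) (nat_lit 38656597557) (nat_lit 25) (nat_lit 5) (nat_lit 28) (nat_lit 5) (nat_lit 26) (nat_lit 4) (nat_lit 394) (nat_lit 342) (nat_lit 164)) (XT.nd (nat_lit 78) (nat_lit 76) (nat_lit 0) (XT.lf (nat_lit 0) (nat_lit 69297499099) (nat_lit 76) (nat_lit 81031074295) (nat_lit 152) (nat_lit 10739800824) (nat_lit 24) (nat_lit 5) (nat_lit 25) (nat_lit 5) (nat_lit 26) (nat_lit 4) (nat_lit 395) (nat_lit 342) (nat_lit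 163)) (XT.lf (nat_lit 0) (nat_lit 18216261743) (nat_lit 152) (nat_lit 25111028017) (nat_lit 76) (nat_lit 123784320645) (nat_lit 23) (nat_lit 5) (nat_lit 25) (nat_lit 5) (nat_lit 24) (nat_lit 5) (nat_lit 396) (nat_lit 342) (nat_lit 162))))))))
noncomputable def xc203 : XT := (XT.nd (nat_lit 1794) (nat_lit 228) (nat_lit 0) (XT.nd (nat_lit 858) (nat_lit 380) (nat_lit 0) (XT.nd (nat_lit 390) (nat_lit 304) (nat_lit 0) (XT.nd (nat_lit 156) (nat_lit 76) (nat_lit 0) (XT.nd (nat_lit 78) (nat_lit 0) (nat_lit 0) (XT.lf (nat_lit 0) (nat_lit 46182829336) (nat_lit 152) (nat_lit 2796809861) (nat_lit 228) (nat_lit 124432544424) (nat_lit 21) (nat_lit 5) (nat_lit 23) (nat_lit 5) (nat_lit 24) (nat_lit 5) (nat_lit 397) (nat_lit 342) (nat_lit 161)) (XT.lf (nat_lit 0) (nat_lit 82333594148) (nat_lit 228) (nat_lit 58722148541) (nat_lit 76) (nat_lit 38919422670) (nat_lit 21) (nat_lit 5) (nat_lit 24) (nat_lit 5)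 (nat_lit 22) (nat_lit 4) (nat_lit 398) (nat_lit 342) (nat_lit 160))) (XT.nd (nat_lit 78) (nat_lit 0) (nat_lit 0) (XT.lf (nat_lit 0) (nat_lit 13598800883) (nat_lit 76) (nat_lit 104014040756) (nat_lit 152) (nat_lit 69240575087) (nat_lit 20) (nat_lit 5) (nat_lit 21) (nat_lit 5) (nat_lit 22) (nat_lit 4) (nat_lit 399) (nat_lit 342) (nat_lit 159)) (XT.nd (nat_lit 78) (nat_lit 0) (nat_lit 0) (XT.lf (nat_lit 0) (nat_lit 91573500711) (nat_lit 76) (nat_lit 64076480417) (nat_lit 152) (nat_lit 38375903318) (nat_lit 20) (nat_lit 5) (nat_lit 21) (nat_lit 5) (nat_lit 22) (nat_lit 4) (nat_lit 400) (nat_lit 342) (nat_lit 158)) (XT.lf (nat_lit 0) (nat_lit 173445985563) (nat_lit 76) (nat_lit 22142460243) (nat_lit 152) (nat_lit 5968556590) (nat_lit 20) (nat_lit 5) (nat_lit 21) (nat_lit 5) (nat_lit 22) (nat_lit 4) (nat_lit 401) (nat_lit 342) (nat_lit 157))))) (XT.nd (nat_lit 234) (nat_lit 152) (nat_lit 0)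 (XT.nd (nat_lit 78) (nat_lit 0) (nat_lit 0) (XT.lf (nat_lit 0) (nat_lit 28321099967) (nat_lit 152) (nat_lit 158619488829) (nat_lit 76) (nat_lit 22444183036) (nat_lit 18) (nat_lit 5) (nat_lit 20) (nat_lit 5) (nat_lit 19) (nat_lit 4) (nat_lit 402) (nat_lit 342) (nat_lit 156)) (XT.nd (nat_lit 78) (nat_lit 0) (nat_lit 0) (XT.lf (nat_lit 0) (nat_lit 64971015100) (nat_lit 152) (nat_lit 83488344309) (nat_lit 76) (nat_lit 69097360370) (nat_lit 18) (nat_lit 5) (nat_lit 20) (nat_lit 5) (nat_lit 19) (nat_lit 4) (nat_lit 403) (nat_lit 342) (nat_lit 155)) (XT.lf (nat_lit 0) (nat_lit 103452939397) (nat_lit 152) (nat_lit 4601524741) (nat_lit 76) (nat_lit 118082825525) (nat_lit 18) (nat_lit 5) (nat_lit 20) (nat_lit 5) (nat_lit 19) (nat_lit 4) (nat_lit 404) (nat_lit 342) (nat_lit 154)))) (XT.nd (nat_lit 78) (nat_lit 76) (nat_lit 0) (XT.lf (nat_lit 0) (nat_lit 80815392910) (nat_lit 76) (nat_lit 64304858346)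 (nat_lit 152) (nat_lit 89963572417) (nat_lit 17) (nat_lit 5) (nat_lit 18) (nat_lit 5) (nat_lit 19) (nat_lit 4) (nat_lit 405) (nat_lit 342) (nat_lit 153)) (XT.nd (nat_lit 78) (nat_lit 76) (nat_lit 0) (XT.lf (nat_lit 0) (nat_lit 170662084374) (nat_lit 76) (nat_lit 18286319121) (nat_lit 152) (nat_lit 55525407337) (nat_lit 17) (nat_lit 5) (nat_lit 18) (nat_lit 5) (nat_lit 19) (nat_lit 4) (nat_lit 406) (nat_lit 342) (nat_lit 152)) (XT.lf (nat_lit 0) (nat_lit 10535303440) (nat_lit 76) (nat_lit 225065608948) (nat_lit 76) (nat_lit 18700737692) (nat_lit 16) (nat_lit 4) (nat_lit 17) (nat_lit 5) (nat_lit 17) (nat_lit 4) (nat_lit 407) (nat_lit 342) (nat_lit 151)))))) (XT.nd (nat_lit 468) (nat_lit 228) (nat_lit 0) (XT.nd (nat_lit 234) (nat_lit 0) (nat_lit 0) (XT.nd (nat_lit 78) (nat_lit 76) (nat_lit 0) (XT.lf (nat_lit 0) (nat_lit 20896024045) (nat_lit 152) (nat_lit 163528903620) (nat_lit 76) (nat_lit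 80101874749) (nat_lit 15) (nat_lit 5) (nat_lit 17) (nat_lit 5) (nat_lit 16) (nat_lit 4) (nat_lit 408) (nat_lit 342) (nat_lit 150)) (XT.nd (nat_lit 78) (nat_lit 76) (nat_lit 0) (XT.lf (nat_lit 0) (nat_lit 61843740404) (nat_lit 152) (nat_lit 79586924756) (nat_lit 76) (nat_lit 133817239690) (nat_lit 15) (nat_lit 5) (nat_lit 17) (nat_lit 5) (nat_lit 16) (nat_lit 4) (nat_lit 409) (nat_lit 342) (nat_lit 149)) (XT.lf (nat_lit 0) (nat_lit 8834171384) (nat_lit 76) (nat_lit 96142201131) (nat_lit 152) (nat_lit 181521813544) (nat_lit 14) (nat_lit 5) (nat_lit 15) (nat_lit 5) (nat_lit 16) (nat_lit 4) (nat_lit 410) (nat_lit 342) (nat_lit 148)))) (XT.nd (nat_lit 78) (nat_lit 0) (nat_lit 0) (XT.lf (nat_lit 0) (nat_lit 104438682106) (nat_lit 76) (nat_lit 47174408619) (nat_lit 152) (nat_lit 146630518021) (nat_lit 14) (nat_lit 5) (nat_lit 15) (nat_lit 5) (nat_lit 16) (nat_lit 4) (nat_lit 411) (nat_lit 342)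 (nat_lit 147)) (XT.nd (nat_lit 78) (nat_lit 0) (nat_lit 0) (XT.lf (nat_lit 0) (nat_lit 200647495827) (nat_lit 152) (nat_lit 105819808234) (nat_lit 0) (nat_lit 4105706092) (nat_lit 14) (nat_lit 5) (nat_lit 16) (nat_lit 4) (nat_lit 14) (nat_lit 4) (nat_lit 412) (nat_lit 342) (nat_lit 146)) (XT.lf (nat_lit 0) (nat_lit 252906615011) (nat_lit 152) (nat_lit 14209449685) (nat_lit 0) (nat_lit 56364167370) (nat_lit 14) (nat_lit 5) (nat_lit 16) (nat_lit 4) (nat_lit 14) (nat_lit 4) (nat_lit 413) (nat_lit 342) (nat_lit 145))))) (XT.nd (nat_lit 234) (nat_lit 76) (nat_lit 0) (XT.nd (nat_lit 78) (nat_lit 76) (nat_lit 0) (XT.lf (nat_lit 0) (nat_lit 84691448905) (nat_lit 76) (nat_lit 224409171987) (nat_lit 76) (nat_lit 27866097770) (nat_lit 13) (nat_lit 4) (nat_lit 14) (nat_lit 5) (nat_lit 14) (nat_lit 4) (nat_lit 414) (nat_lit 342) (nat_lit 144)) (XT.nd (nat_lit 78) (nat_lit 0) (nat_lit 0) (XT.lf (nat_lit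 0) (nat_lit 16677683587) (nat_lit 152) (nat_lit 162354419603) (nat_lit 76) (nat_lit 172069961256) (nat_lit 12) (nat_lit 5) (nat_lit 14) (nat_lit 5) (nat_lit 13) (nat_lit 4) (nat_lit 415) (nat_lit 342) (nat_lit 143)) (XT.lf (nat_lit 0) (nat_lit 62511847314) (nat_lit 152) (nat_lit 68394952286) (nat_lit 76) (nat_lit 235014553115) (nat_lit 12) (nat_lit 5) (nat_lit 14) (nat_lit 5) (nat_lit 13) (nat_lit 4) (nat_lit 416) (nat_lit 342) (nat_lit 142)))) (XT.nd (nat_lit 78) (nat_lit 0) (nat_lit 0) (XT.lf (nat_lit 0) (nat_lit 31262508604) (nat_lit 76) (nat_lit 79862998296) (nat_lit 152) (nat_lit 270331709215) (nat_lit 11) (nat_lit 5) (nat_lit 12) (nat_lit 5) (nat_lit 13) (nat_lit 4) (nat_lit 417) (nat_lit 342) (nat_lit 141)) (XT.nd (nat_lit 78) (nat_lit 0) (nat_lit 0) (XT.lf (nat_lit 0) (nat_lit 138276794816) (nat_lit 76) (nat_lit 25051054376) (nat_lit 152) (nat_lit 234384123602) (nat_lit 11) (nat_lit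 5) (nat_lit 12) (nat_lit 5) (nat_lit 13) (nat_lit 4) (nat_lit 418) (nat_lit 342) (nat_lit 140)) (XT.lf (nat_lit 0) (nat_lit 218647456454) (nat_lit 152) (nat_lit 164645660874) (nat_lit 0) (nat_lit 31460992676) (nat_lit 11) (nat_lit 5) (nat_lit 13) (nat_lit 4) (nat_lit 11) (nat_lit 4) (nat_lit 419) (nat_lit 342) (nat_lit 139))))))) (XT.nd (nat_lit 41184) (nat_lit 0) (nat_lit 5472) (XT.nd (nat_lit 390) (nat_lit 76) (nat_lit 0) (XT.nd (nat_lit 156) (nat_lit 76) (nat_lit 0) (XT.nd (nat_lit 78) (nat_lit 76) (nat_lit 0) (XT.lf (nat_lit 0) (nat_lit 277143439543) (nat_lit 152) (nat_lit 65527864378) (nat_lit 0) (nat_lit 89956530469) (nat_lit 11) (nat_lit 5) (nat_lit 13) (nat_lit 4) (nat_lit 11) (nat_lit 4) (nat_lit 420) (nat_lit 342) (nat_lit 138)) (XT.lf (nat_lit 0) (nat_lit 39819805897) (nat_lit 76) (nat_lit 299365850313) (nat_lit 76) (nat_lit 112178517147) (nat_lit 10) (nat_lit 4) (nat_lit 11)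 (nat_lit 5) (nat_lit 11) (nat_lit 4) (nat_lit 421) (nat_lit 342) (nat_lit 137))) (XT.nd (nat_lit 78) (nat_lit 76) (nat_lit 0) (XT.lf (nat_lit 0) (nat_lit 152709348697) (nat_lit 76) (nat_lit 252730121691) (nat_lit 76) (nat_lit 65542384628) (nat_lit 10) (nat_lit 4) (nat_lit 11) (nat_lit 5) (nat_lit 11) (nat_lit 4) (nat_lit 422) (nat_lit 342) (nat_lit 136)) (XT.nd (nat_lit 78) (nat_lit 76) (nat_lit 0) (XT.lf (nat_lit 0) (nat_lit 271242901520) (nat_lit 76) (nat_lit 203762826697) (nat_lit 76) (nat_lit 16574704970) (nat_lit 10) (nat_lit 4) (nat_lit 11) (nat_lit 5) (nat_lit 11) (nat_lit 4) (nat_lit 423) (nat_lit 342) (nat_lit 135)) (XT.lf (nat_lit 0) (nat_lit 33725978384) (nat_lit 152) (nat_lit 118050232385) (nat_lit 76) (nat_lit 361405542963) (nat_lit 9) (nat_lit 5) (nat_lit 11) (nat_lit 5) (nat_lit 10) (nat_lit 4) (nat_lit 424) (nat_lit 342) (nat_lit 134))))) (XT.nd (nat_lit 40560) (nat_lit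 0) (nat_lit 6992) (XT.nd (nat_lit 78) (nat_lit 76) (nat_lit 0) (XT.lf (nat_lit 0) (nat_lit 85984449303) (nat_lit 152) (nat_lit 10920715902) (nat_lit 76) (nat_lit 438944400732) (nat_lit 9) (nat_lit 5) (nat_lit 11) (nat_lit 5) (nat_lit 10) (nat_lit 4) (nat_lit 425) (nat_lit 342) (nat_lit 133)) (XT.nd (nat_lit 40404) (nat_lit 0) (nat_lit 6992) (XT.lf (nat_lit 0) (nat_lit 104923058793) (nat_lit 76) (nat_lit 37570710989) (nat_lit 152) (nat_lit 417075102732) (nat_lit 8) (nat_lit 5) (nat_lit 9) (nat_lit 5) (nat_lit 10) (nat_lit 4) (nat_lit 426) (nat_lit 342) (nat_lit 132)) (XT.lf (nat_lit 0) (nat_lit 7981877964) (nat_lit 0) (nat_lit 7981877964) (nat_lit 684) (nat_lit 687146434) (nat_lit 100) (nat_lit 5) (nat_lit 100) (nat_lit 3) (nat_lit 109) (nat_lit 3) (nat_lit 343) (nat_lit 343) (nat_lit 214)))) (XT.nd (nat_lit 78) (nat_lit 0) (nat_lit 0) (XT.lf (nat_lit 0) (nat_lit 32238533878) (nat_lit 0)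 (nat_lit 542960225) (nat_lit 684) (nat_lit 1349980201) (nat_lit 100) (nat_lit 5) (nat_lit 100) (nat_lit 3) (nat_lit 109) (nat_lit 3) (nat_lit 344) (nat_lit 343) (nat_lit 213)) (XT.nd (nat_lit 78) (nat_lit 0) (nat_lit 0) (XT.lf (nat_lit 76) (nat_lit 14543588499) (nat_lit 0) (nat_lit 19602432273) (nat_lit 760) (nat_lit 833219816) (nat_lit 101) (nat_lit 5) (nat_lit 100) (nat_lit 5) (nat_lit 110) (nat_lit 5) (nat_lit 345) (nat_lit 343) (nat_lit 212)) (XT.lf (nat_lit 76) (nat_lit 31856501694) (nat_lit 0) (nat_lit 3759681764) (nat_lit 760) (nat_lit 251346475) (nat_lit 101) (nat_lit 5) (nat_lit 100) (nat_lit 5) (nat_lit 110) (nat_lit 5) (nat_lit 346) (nat_lit 343) (nat_lit 211)))))) (XT.nd (nat_lit 468) (nat_lit 836) (nat_lit 0) (XT.nd (nat_lit 234) (nat_lit 0) (nat_lit 76) (XT.nd (nat_lit 78) (nat_lit 0) (nat_lit 0) (XT.lf (nat_lit 0) (nat_lit 762779416) (nat_lit 760) (nat_lit 23329505622) (nat_lit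 836) (nat_lit 12686939271) (nat_lit 91) (nat_lit 5) (nat_lit 101) (nat_lit 5) (nat_lit 102) (nat_lit 5) (nat_lit 347) (nat_lit 343) (nat_lit 210)) (XT.nd (nat_lit 78) (nat_lit 0) (nat_lit 76) (XT.lf (nat_lit 0) (nat_lit 1946685474) (nat_lit 760) (nat_lit 5879354409) (nat_lit 836) (nat_lit 29903885980) (nat_lit 91) (nat_lit 5) (nat_lit 101) (nat_lit 5) (nat_lit 102) (nat_lit 5) (nat_lit 348) (nat_lit 343) (nat_lit 209)) (XT.lf (nat_lit 0) (nat_lit 3535225196) (nat_lit 760) (nat_lit 26013427332) (nat_lit 836) (nat_lit 9162242352) (nat_lit 92) (nat_lit 5) (nat_lit 102) (nat_lit 5) (nat_lit 103) (nat_lit 5) (nat_lit 349) (nat_lit 343) (nat_lit 208)))) (XT.nd (nat_lit 78) (nat_lit 0) (nat_lit 76) (XT.lf (nat_lit 0) (nat_lit 5429810045) (nat_lit 760) (nat_lit 7460777645) (nat_lit 836) (nat_lit 26838997851) (nat_lit 92) (nat_lit 5) (nat_lit 102) (nat_lit 5) (nat_lit 103) (nat_lit 5) (nat_lit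 350) (nat_lit 343) (nat_lit 207)) (XT.nd (nat_lit 78) (nat_lit 0) (nat_lit 0) (XT.lf (nat_lit 0) (nat_lit 7685224398) (nat_lit 760) (nat_lit 28449879014) (nat_lit 836) (nat_lit 4650806213) (nat_lit 93) (nat_lit 5) (nat_lit 103) (nat_lit 5) (nat_lit 104) (nat_lit 5) (nat_lit 351) (nat_lit 343) (nat_lit 206)) (XT.lf (nat_lit 0) (nat_lit 10390519870) (nat_lit 760) (nat_lit 8722597607) (nat_lit 836) (nat_lit 22765080636) (nat_lit 93) (nat_lit 5) (nat_lit 103) (nat_lit 5) (nat_lit 104) (nat_lit 5) (nat_lit 352) (nat_lit 343) (nat_lit 205))))) (XT.nd (nat_lit 234) (nat_lit 380) (nat_lit 0) (XT.nd (nat_lit 78) (nat_lit 608) (nat_lit 0) (XT.lf (nat_lit 76) (nat_lit 12385387651) (nat_lit 0) (nat_lit 1036554569) (nat_lit 836) (nat_lit 29593619240) (nat_lit 94) (nat_lit 5) (nat_lit 93) (nat_lit 5) (nat_lit 104) (nat_lit 5) (nat_lit 353) (nat_lit 343) (nat_lit 204)) (XT.nd (nat_lit 78) (nat_lit 684)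 (nat_lit 0) (XT.lf (nat_lit 0) (nat_lit 17032817488) (nat_lit 760) (nat_lit 9635548075) (nat_lit 76) (nat_lit 17520036695) (nat_lit 94) (nat_lit 5) (nat_lit 104) (nat_lit 5) (nat_lit 95) (nat_lit 5) (nat_lit 354) (nat_lit 343) (nat_lit 203)) (XT.lf (nat_lit 0) (nat_lit 12799413609) (nat_lit 684) (nat_lit 8239350466) (nat_lit 760) (nat_lit 24370397854) (nat_lit 85) (nat_lit 5) (nat_lit 94) (nat_lit 5) (nat_lit 95) (nat_lit 5) (nat_lit 355) (nat_lit 343) (nat_lit 202)))) (XT.nd (nat_lit 78) (nat_lit 380) (nat_lit 0) (XT.lf (nat_lit 0) (nat_lit 25582122385) (nat_lit 760) (nat_lit 10170451050) (nat_lit 76) (nat_lit 10921533487) (nat_lit 85) (nat_lit 5) (nat_lit 95) (nat_lit 5) (nat_lit 86) (nat_lit 5) (nat_lit 356) (nat_lit 343) (nat_lit 201)) (XT.nd (nat_lit 78) (nat_lit 0) (nat_lit 0) (XT.lf (nat_lit 0) (nat_lit 13691921353) (nat_lit 380) (nat_lit 17007454457) (nat_lit 456) (nat_lit 17285589909)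 (nat_lit 80) (nat_lit 5) (nat_lit 85) (nat_lit 5) (nat_lit 86) (nat_lit 5) (nat_lit 357) (nat_lit 343) (nat_lit 200)) (XT.lf (nat_lit 0) (nat_lit 36287276385) (nat_lit 456) (nat_lit 10298952436) (nat_lit 76) (nat_lit 2764402187) (nat_lit 80) (nat_lit 5) (nat_lit 86) (nat_lit 5) (nat_lit 81) (nat_lit 5) (nat_lit 358) (nat_lit 343) (nat_lit 199))))))))
noncomputable def xc204 : XT := (XT.nd (nat_lit 1794) (nat_lit 1520) (nat_lit 0) (XT.nd (nat_lit 858) (nat_lit 1292) (nat_lit 0) (XT.nd (nat_lit 390) (nat_lit 912) (nat_lit 0) (XT.nd (nat_lit 156) (nat_lit 684) (nat_lit 0) (XT.nd (nat_lit 78) (nat_lit 0) (nat_lit 0) (XT.lf (nat_lit 0) (nat_lit 15097221702) (nat_lit 304) (nat_lit 27569924602) (nat_lit 380) (nat_lit 8091807181) (nat_lit 76) (nat_lit 5) (nat_lit 80) (nat_lit 5) (nat_lit 81) (nat_lit 5) (nat_lit 359) (nat_lit 343) (nat_lit 198)) (XT.lf (nat_lit 0) (nat_lit 42118776415) (nat_lit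 304) (nat_lit 7419766397) (nat_lit 380) (nat_lit 2690525139) (nat_lit 76) (nat_lit 5) (nat_lit 80) (nat_lit 5) (nat_lit 81) (nat_lit 5) (nat_lit 360) (nat_lit 343) (nat_lit 197))) (XT.nd (nat_lit 78) (nat_lit 304) (nat_lit 0) (XT.lf (nat_lit 0) (nat_lit 3372119991) (nat_lit 380) (nat_lit 36755244808) (nat_lit 76) (nat_lit 13618663480) (nat_lit 71) (nat_lit 5) (nat_lit 76) (nat_lit 5) (nat_lit 72) (nat_lit 5) (nat_lit 361) (nat_lit 343) (nat_lit 196)) (XT.nd (nat_lit 78) (nat_lit 304) (nat_lit 0) (XT.lf (nat_lit 0) (nat_lit 9941371185) (nat_lit 380) (nat_lit 9702915663) (nat_lit 76) (nat_lit 35677651946) (nat_lit 71) (nat_lit 5) (nat_lit 76) (nat_lit 5) (nat_lit 72) (nat_lit 5) (nat_lit 362) (nat_lit 343) (nat_lit 195)) (XT.lf (nat_lit 0) (nat_lit 17173038834) (nat_lit 380) (nat_lit 37677250877) (nat_lit 76) (nat_lit 2109659499) (nat_lit 67) (nat_lit 5) (nat_lit 72) (nat_lit 5) (nat_lit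 68) (nat_lit 5) (nat_lit 363) (nat_lit 343) (nat_lit 194))))) (XT.nd (nat_lit 234) (nat_lit 608) (nat_lit 0) (XT.nd (nat_lit 78) (nat_lit 304) (nat_lit 0) (XT.lf (nat_lit 0) (nat_lit 25253704231) (nat_lit 380) (nat_lit 8943881821) (nat_lit 76) (nat_lit 24457905349) (nat_lit 67) (nat_lit 5) (nat_lit 72) (nat_lit 5) (nat_lit 68) (nat_lit 5) (nat_lit 364) (nat_lit 343) (nat_lit 193)) (XT.nd (nat_lit 78) (nat_lit 0) (nat_lit 0) (XT.lf (nat_lit 0) (nat_lit 21926057028) (nat_lit 304) (nat_lit 12153110664) (nat_lit 380) (nat_lit 26339606649) (nat_lit 63) (nat_lit 5) (nat_lit 67) (nat_lit 5) (nat_lit 68) (nat_lit 5) (nat_lit 365) (nat_lit 343) (nat_lit 192)) (XT.lf (nat_lit 0) (nat_lit 43669975359) (nat_lit 380) (nat_lit 7788679453) (nat_lit 76) (nat_lit 10795364851) (nat_lit 63) (nat_lit 5) (nat_lit 68) (nat_lit 5) (nat_lit 64) (nat_lit 5) (nat_lit 366) (nat_lit 343) (nat_lit 191)))) (XT.nd (nat_lit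 78) (nat_lit 380) (nat_lit 0) (XT.lf (nat_lit 0) (nat_lit 25051306419) (nat_lit 228) (nat_lit 29277920121) (nat_lit 304) (nat_lit 9822357259) (nat_lit 60) (nat_lit 5) (nat_lit 63) (nat_lit 5) (nat_lit 64) (nat_lit 5) (nat_lit 367) (nat_lit 343) (nat_lit 190)) (XT.nd (nat_lit 78) (nat_lit 380) (nat_lit 0) (XT.lf (nat_lit 0) (nat_lit 59801905505) (nat_lit 228) (nat_lit 5850031583) (nat_lit 304) (nat_lit 485565835) (nat_lit 60) (nat_lit 5) (nat_lit 63) (nat_lit 5) (nat_lit 64) (nat_lit 5) (nat_lit 368) (nat_lit 343) (nat_lit 189)) (XT.lf (nat_lit 0) (nat_lit 9771277722) (nat_lit 380) (nat_lit 39652240329) (nat_lit 76) (nat_lit 18754354927) (nat_lit 55) (nat_lit 5) (nat_lit 60) (nat_lit 5) (nat_lit 56) (nat_lit 5) (nat_lit 369) (nat_lit 343) (nat_lit 188)))))) (XT.nd (nat_lit 468) (nat_lit 608) (nat_lit 0) (XT.nd (nat_lit 234) (nat_lit 456) (nat_lit 0) (XT.nd (nat_lit 78) (nat_lit 228) (nat_lit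 0) (XT.lf (nat_lit 0) (nat_lit 20728269962) (nat_lit 380) (nat_lit 5072422048) (nat_lit 76) (nat_lit 44508991685) (nat_lit 55) (nat_lit 5) (nat_lit 60) (nat_lit 5) (nat_lit 56) (nat_lit 5) (nat_lit 370) (nat_lit 343) (nat_lit 187)) (XT.nd (nat_lit 78) (nat_lit 0) (nat_lit 0) (XT.lf (nat_lit 0) (nat_lit 32267445997) (nat_lit 228) (nat_lit 468181726) (nat_lit 304) (nat_lit 39787332766) (nat_lit 52) (nat_lit 5) (nat_lit 55) (nat_lit 5) (nat_lit 56) (nat_lit 5) (nat_lit 371) (nat_lit 343) (nat_lit 186)) (XT.lf (nat_lit 0) (nat_lit 45837401099) (nat_lit 304) (nat_lit 3603310804) (nat_lit 76) (nat_lit 25381488104) (nat_lit 52) (nat_lit 5) (nat_lit 56) (nat_lit 5) (nat_lit 53) (nat_lit 5) (nat_lit 372) (nat_lit 343) (nat_lit 185)))) (XT.nd (nat_lit 78) (nat_lit 228) (nat_lit 0) (XT.lf (nat_lit 0) (nat_lit 36025212425) (nat_lit 228) (nat_lit 24137997610) (nat_lit 304) (nat_lit 17044745332) (nat_lit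 49) (nat_lit 5) (nat_lit 52) (nat_lit 5) (nat_lit 53) (nat_lit 5) (nat_lit 373) (nat_lit 343) (nat_lit 184)) (XT.nd (nat_lit 78) (nat_lit 228) (nat_lit 0) (XT.lf (nat_lit 0) (nat_lit 75304111377) (nat_lit 304) (nat_lit 1990296027) (nat_lit 76) (nat_lit 2413652146) (nat_lit 49) (nat_lit 5) (nat_lit 53) (nat_lit 5) (nat_lit 50) (nat_lit 5) (nat_lit 374) (nat_lit 343) (nat_lit 183)) (XT.lf (nat_lit 0) (nat_lit 9621581050) (nat_lit 228) (nat_lit 42391160648) (nat_lit 76) (nat_lit 30261677278) (nat_lit 46) (nat_lit 5) (nat_lit 49) (nat_lit 5) (nat_lit 47) (nat_lit 5) (nat_lit 375) (nat_lit 343) (nat_lit 182))))) (XT.nd (nat_lit 234) (nat_lit 380) (nat_lit 0) (XT.nd (nat_lit 78) (nat_lit 228) (nat_lit 0) (XT.lf (nat_lit 0) (nat_lit 24233549989) (nat_lit 228) (nat_lit 1122174522) (nat_lit 76) (nat_lit 59608104823) (nat_lit 46) (nat_lit 5) (nat_lit 49) (nat_lit 5) (nat_lit 47) (nat_lit 5) (nat_lit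 376) (nat_lit 343) (nat_lit 181)) (XT.nd (nat_lit 78) (nat_lit 0) (nat_lit 0) (XT.lf (nat_lit 0) (nat_lit 40308140319) (nat_lit 304) (nat_lit 44201658580) (nat_lit 76) (nat_lit 3241311114) (nat_lit 43) (nat_lit 5) (nat_lit 47) (nat_lit 5) (nat_lit 44) (nat_lit 5) (nat_lit 377) (nat_lit 343) (nat_lit 180)) (XT.lf (nat_lit 0) (nat_lit 57620420176) (nat_lit 304) (nat_lit 600712724) (nat_lit 76) (nat_lit 32434924729) (nat_lit 43) (nat_lit 5) (nat_lit 47) (nat_lit 5) (nat_lit 44) (nat_lit 5) (nat_lit 378) (nat_lit 343) (nat_lit 179)))) (XT.nd (nat_lit 78) (nat_lit 228) (nat_lit 0) (XT.lf (nat_lit 0) (nat_lit 46672622375) (nat_lit 152) (nat_lit 29853407109) (nat_lit 228) (nat_lit 17143838228) (nat_lit 41) (nat_lit 5) (nat_lit 43) (nat_lit 5) (nat_lit 44) (nat_lit 5) (nat_lit 379) (nat_lit 343) (nat_lit 178)) (XT.nd (nat_lit 78) (nat_lit 228) (nat_lit 0) (XT.lf (nat_lit 0) (nat_lit 96329029943)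 (nat_lit 152) (nat_lit 57111496) (nat_lit 228) (nat_lit 447766571) (nat_lit 41) (nat_lit 5) (nat_lit 43) (nat_lit 5) (nat_lit 44) (nat_lit 5) (nat_lit 380) (nat_lit 343) (nat_lit 177)) (XT.lf (nat_lit 0) (nat_lit 17814964166) (nat_lit 228) (nat_lit 50976225003) (nat_lit 76) (nat_lit 31287695054) (nat_lit 38) (nat_lit 5) (nat_lit 41) (nat_lit 5) (nat_lit 39) (nat_lit 5) (nat_lit 381) (nat_lit 343) (nat_lit 176))))))) (XT.nd (nat_lit 858) (nat_lit 684) (nat_lit 0) (XT.nd (nat_lit 390) (nat_lit 456) (nat_lit 0) (XT.nd (nat_lit 156) (nat_lit 228) (nat_lit 0) (XT.nd (nat_lit 78) (nat_lit 152) (nat_lit 0) (XT.lf (nat_lit 0) (nat_lit 36984503380) (nat_lit 228) (nat_lit 2287424097) (nat_lit 76) (nat_lit 64213379464) (nat_lit 38) (nat_lit 5) (nat_lit 41) (nat_lit 5) (nat_lit 39) (nat_lit 5) (nat_lit 382) (nat_lit 343) (nat_lit 175)) (XT.lf (nat_lit 0) (nat_lit 50449145414) (nat_lit 152) (nat_lit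 7450162924) (nat_lit 228) (nat_lit 49123403691) (nat_lit 36) (nat_lit 5) (nat_lit 38) (nat_lit 5) (nat_lit 39) (nat_lit 5) (nat_lit 383) (nat_lit 343) (nat_lit 174))) (XT.nd (nat_lit 78) (nat_lit 228) (nat_lit 0) (XT.lf (nat_lit 0) (nat_lit 80303726375) (nat_lit 228) (nat_lit 5240450588) (nat_lit 76) (nat_lit 25170617410) (nat_lit 36) (nat_lit 5) (nat_lit 39) (nat_lit 5) (nat_lit 37) (nat_lit 5) (nat_lit 384) (nat_lit 343) (nat_lit 173)) (XT.nd (nat_lit 78) (nat_lit 76) (nat_lit 0) (XT.lf (nat_lit 0) (nat_lit 50140695834) (nat_lit 152) (nat_lit 54591829399) (nat_lit 228) (nat_lit 9813748217) (nat_lit 34) (nat_lit 5) (nat_lit 36) (nat_lit 5) (nat_lit 37) (nat_lit 5) (nat_lit 385) (nat_lit 343) (nat_lit 172)) (XT.lf (nat_lit 0) (nat_lit 11524732551) (nat_lit 228) (nat_lit 10279261695) (nat_lit 76) (nat_lit 96751640806) (nat_lit 33) (nat_lit 5) (nat_lit 36) (nat_lit 5) (nat_lit 34) (nat_lit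 5) (nat_lit 386) (nat_lit 343) (nat_lit 171))))) (XT.nd (nat_lit 234) (nat_lit 152) (nat_lit 0) (XT.nd (nat_lit 78) (nat_lit 152) (nat_lit 0) (XT.lf (nat_lit 0) (nat_lit 34559789722) (nat_lit 228) (nat_lit 75006885323) (nat_lit 76) (nat_lit 13142773229) (nat_lit 31) (nat_lit 5) (nat_lit 34) (nat_lit 5) (nat_lit 32) (nat_lit 5) (nat_lit 387) (nat_lit 343) (nat_lit 170)) (XT.nd (nat_lit 78) (nat_lit 152) (nat_lit 0) (XT.lf (nat_lit 0) (nat_lit 59280222886) (nat_lit 228) (nat_lit 18483453634) (nat_lit 76) (nat_lit 49280594982) (nat_lit 31) (nat_lit 5) (nat_lit 34) (nat_lit 5) (nat_lit 32) (nat_lit 5) (nat_lit 388) (nat_lit 343) (nat_lit 169)) (XT.lf (nat_lit 0) (nat_lit 42216128531) (nat_lit 152) (nat_lit 43678939820) (nat_lit 228) (nat_lit 45667848490) (nat_lit 29) (nat_lit 5) (nat_lit 31) (nat_lit 5) (nat_lit 32) (nat_lit 5) (nat_lit 389) (nat_lit 343) (nat_lit 168)))) (XT.nd (nat_lit 78)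 (nat_lit 152) (nat_lit 0) (XT.lf (nat_lit 0) (nat_lit 106591212083) (nat_lit 152) (nat_lit 7561764710) (nat_lit 228) (nat_lit 22138902073) (nat_lit 29) (nat_lit 5) (nat_lit 31) (nat_lit 5) (nat_lit 32) (nat_lit 5) (nat_lit 390) (nat_lit 343) (nat_lit 167)) (XT.nd (nat_lit 78) (nat_lit 0) (nat_lit 0) (XT.lf (nat_lit 0) (nat_lit 3497462311) (nat_lit 152) (nat_lit 107738248274) (nat_lit 76) (nat_lit 29968919596) (nat_lit 27) (nat_lit 5) (nat_lit 29) (nat_lit 5) (nat_lit 28) (nat_lit 5) (nat_lit 391) (nat_lit 343) (nat_lit 166)) (XT.lf (nat_lit 0) (nat_lit 30306161310) (nat_lit 152) (nat_lit 46011244522) (nat_lit 76) (nat_lit 69995740547) (nat_lit 27) (nat_lit 5) (nat_lit 29) (nat_lit 5) (nat_lit 28) (nat_lit 5) (nat_lit 392) (nat_lit 343) (nat_lit 165)))))) (XT.nd (nat_lit 468) (nat_lit 228) (nat_lit 0) (XT.nd (nat_lit 234) (nat_lit 304) (nat_lit 0) (XT.nd (nat_lit 78) (nat_lit 0) (nat_lit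 0) (XT.lf (nat_lit 0) (nat_lit 19422654379) (nat_lit 152) (nat_lit 39335239456) (nat_lit 228) (nat_lit 92904065000) (nat_lit 25) (nat_lit 5) (nat_lit 27) (nat_lit 5) (nat_lit 28) (nat_lit 5) (nat_lit 393) (nat_lit 343) (nat_lit 164)) (XT.nd (nat_lit 78) (nat_lit 0) (nat_lit 0) (XT.lf (nat_lit 0) (nat_lit 89415704668) (nat_lit 228) (nat_lit 67519610154) (nat_lit 76) (nat_lit 303722864) (nat_lit 25) (nat_lit 5) (nat_lit 28) (nat_lit 5) (nat_lit 26) (nat_lit 4) (nat_lit 394) (nat_lit 343) (nat_lit 163)) (XT.lf (nat_lit 0) (nat_lit 122250639510) (nat_lit 228) (nat_lit 209826626) (nat_lit 76) (nat_lit 40602293010) (nat_lit 25) (nat_lit 5) (nat_lit 28) (nat_lit 5) (nat_lit 26) (nat_lit 4) (nat_lit 395) (nat_lit 343) (nat_lit 162)))) (XT.nd (nat_lit 78) (nat_lit 228) (nat_lit 0) (XT.lf (nat_lit 0) (nat_lit 72794313481) (nat_lit 76) (nat_lit 85068953213) (nat_lit 152) (nat_lit 11257603031) (nat_lit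 24) (nat_lit 5) (nat_lit 25) (nat_lit 5) (nat_lit 26) (nat_lit 4) (nat_lit 396) (nat_lit 343) (nat_lit 161)) (XT.nd (nat_lit 78) (nat_lit 152) (nat_lit 0) (XT.lf (nat_lit 0) (nat_lit 19144764072) (nat_lit 152) (nat_lit 26335566984) (nat_lit 76) (nat_lit 129985966362) (nat_lit 23) (nat_lit 5) (nat_lit 25) (nat_lit 5) (nat_lit 24) (nat_lit 5) (nat_lit 397) (nat_lit 343) (nat_lit 160)) (XT.lf (nat_lit 0) (nat_lit 48522483036) (nat_lit 152) (nat_lit 2923461399) (nat_lit 228) (nat_lit 130635973589) (nat_lit 21) (nat_lit 5) (nat_lit 23) (nat_lit 5) (nat_lit 24) (nat_lit 5) (nat_lit 398) (nat_lit 343) (nat_lit 159))))) (XT.nd (nat_lit 234) (nat_lit 152) (nat_lit 0) (XT.nd (nat_lit 78) (nat_lit 76) (nat_lit 0) (XT.lf (nat_lit 0) (nat_lit 86466968327) (nat_lit 228) (nat_lit 61628559688) (nat_lit 76) (nat_lit 40877552686) (nat_lit 21) (nat_lit 5) (nat_lit 24) (nat_lit 5) (nat_lit 22) (nat_lit 4)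 (nat_lit 399) (nat_lit 343) (nat_lit 158)) (XT.nd (nat_lit 78) (nat_lit 0) (nat_lit 0) (XT.lf (nat_lit 0) (nat_lit 14307958235) (nat_lit 76) (nat_lit 109201881146) (nat_lit 152) (nat_lit 72685422585) (nat_lit 20) (nat_lit 5) (nat_lit 21) (nat_lit 5) (nat_lit 22) (nat_lit 4) (nat_lit 400) (nat_lit 343) (nat_lit 157)) (XT.lf (nat_lit 0) (nat_lit 96180001755) (nat_lit 76) (nat_lit 67268055249) (nat_lit 152) (nat_lit 40278335382) (nat_lit 20) (nat_lit 5) (nat_lit 21) (nat_lit 5) (nat_lit 22) (nat_lit 4) (nat_lit 401) (nat_lit 343) (nat_lit 156)))) (XT.nd (nat_lit 78) (nat_lit 152) (nat_lit 0) (XT.lf (nat_lit 0) (nat_lit 182144785802) (nat_lit 76) (nat_lit 23237917361) (nat_lit 152) (nat_lit 6251400513) (nat_lit 20) (nat_lit 5) (nat_lit 21) (nat_lit 5) (nat_lit 22) (nat_lit 4) (nat_lit 402) (nat_lit 343) (nat_lit 155)) (XT.nd (nat_lit 78) (nat_lit 0) (nat_lit 0) (XT.lf (nat_lit 0) (nat_lit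 29752120660) (nat_lit 152) (nat_lit 166523330920) (nat_lit 76) (nat_lit 23577804130) (nat_lit 18) (nat_lit 5) (nat_lit 20) (nat_lit 5) (nat_lit 19) (nat_lit 4) (nat_lit 403) (nat_lit 343) (nat_lit 154)) (XT.lf (nat_lit 0) (nat_lit 68233818898) (nat_lit 152) (nat_lit 87636921191) (nat_lit 76) (nat_lit 72563096905) (nat_lit 18) (nat_lit 5) (nat_lit 20) (nat_lit 5) (nat_lit 19) (nat_lit 4) (nat_lit 404) (nat_lit 343) (nat_lit 153))))))))
noncomputable def xc205 : XT := (XT.nd (nat_lit 42198) (nat_lit 0) (nat_lit 4104) (XT.nd (nat_lit 858) (nat_lit 304) (nat_lit 0) (XT.nd (nat_lit 390) (nat_lit 152) (nat_lit 0) (XT.nd (nat_lit 156) (nat_lit 152) (nat_lit 0) (XT.nd (nat_lit 78) (nat_lit 76) (nat_lit 0) (XT.lf (nat_lit 0) (nat_lit 108639160694) (nat_lit 152) (nat_lit 4806991137) (nat_lit 76) (nat_lit 123997317769) (nat_lit 18) (nat_lit 5) (nat_lit 20) (nat_lit 5) (nat_lit 19) (nat_lit 4) (nat_lit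 405) (nat_lit 343) (nat_lit 152)) (XT.lf (nat_lit 0) (nat_lit 84880375463) (nat_lit 76) (nat_lit 67509194316) (nat_lit 152) (nat_lit 94447774225) (nat_lit 17) (nat_lit 5) (nat_lit 18) (nat_lit 5) (nat_lit 19) (nat_lit 4) (nat_lit 406) (nat_lit 343) (nat_lit 151))) (XT.nd (nat_lit 78) (nat_lit 152) (nat_lit 0) (XT.lf (nat_lit 0) (nat_lit 179218248506) (nat_lit 76) (nat_lit 19190247509) (nat_lit 152) (nat_lit 58288366454) (nat_lit 17) (nat_lit 5) (nat_lit 18) (nat_lit 5) (nat_lit 19) (nat_lit 4) (nat_lit 407) (nat_lit 343) (nat_lit 150)) (XT.nd (nat_lit 78) (nat_lit 76) (nat_lit 0) (XT.lf (nat_lit 0) (nat_lit 11085225628) (nat_lit 76) (nat_lit 236308317281) (nat_lit 76) (nat_lit 19622555393) (nat_lit 16) (nat_lit 4) (nat_lit 17) (nat_lit 5) (nat_lit 17) (nat_lit 4) (nat_lit 408) (nat_lit 343) (nat_lit 149)) (XT.lf (nat_lit 0) (nat_lit 21953011996) (nat_lit 152) (nat_lit 171682886983) (nat_lit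 76) (nat_lit 84116629650) (nat_lit 15) (nat_lit 5) (nat_lit 17) (nat_lit 5) (nat_lit 16) (nat_lit 4) (nat_lit 409) (nat_lit 343) (nat_lit 148))))) (XT.nd (nat_lit 234) (nat_lit 76) (nat_lit 0) (XT.nd (nat_lit 78) (nat_lit 76) (nat_lit 0) (XT.lf (nat_lit 0) (nat_lit 64947533852) (nat_lit 152) (nat_lit 83544878786) (nat_lit 76) (nat_lit 140517302782) (nat_lit 15) (nat_lit 5) (nat_lit 17) (nat_lit 5) (nat_lit 16) (nat_lit 4) (nat_lit 410) (nat_lit 343) (nat_lit 147)) (XT.nd (nat_lit 78) (nat_lit 0) (nat_lit 0) (XT.lf (nat_lit 0) (nat_lit 9296927126) (nat_lit 76) (nat_lit 100939646361) (nat_lit 152) (nat_lit 190585948614) (nat_lit 14) (nat_lit 5) (nat_lit 15) (nat_lit 5) (nat_lit 16) (nat_lit 4) (nat_lit 411) (nat_lit 343) (nat_lit 146)) (XT.lf (nat_lit 0) (nat_lit 109680661137) (nat_lit 76) (nat_lit 49523924453) (nat_lit 152) (nat_lit 153950657630) (nat_lit 14) (nat_lit 5) (nat_lit 15) (nat_lit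 5) (nat_lit 16) (nat_lit 4) (nat_lit 412) (nat_lit 343) (nat_lit 145)))) (XT.nd (nat_lit 78) (nat_lit 76) (nat_lit 0) (XT.lf (nat_lit 0) (nat_lit 210690331608) (nat_lit 152) (nat_lit 111091325141) (nat_lit 0) (nat_lit 4319477103) (nat_lit 14) (nat_lit 5) (nat_lit 16) (nat_lit 4) (nat_lit 14) (nat_lit 4) (nat_lit 413) (nat_lit 343) (nat_lit 144)) (XT.nd (nat_lit 78) (nat_lit 76) (nat_lit 0) (XT.lf (nat_lit 0) (nat_lit 265561908609) (nat_lit 152) (nat_lit 14901375975) (nat_lit 0) (nat_lit 59190457364) (nat_lit 14) (nat_lit 5) (nat_lit 16) (nat_lit 4) (nat_lit 14) (nat_lit 4) (nat_lit 414) (nat_lit 343) (nat_lit 143)) (XT.lf (nat_lit 0) (nat_lit 88944268412) (nat_lit 76) (nat_lit 235621156838) (nat_lit 76) (nat_lit 29249137270) (nat_lit 13) (nat_lit 4) (nat_lit 14) (nat_lit 5) (nat_lit 14) (nat_lit 4) (nat_lit 415) (nat_lit 343) (nat_lit 142)))))) (XT.nd (nat_lit 468) (nat_lit 152) (nat_lit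 0) (XT.nd (nat_lit 234) (nat_lit 0) (nat_lit 0) (XT.nd (nat_lit 78) (nat_lit 76) (nat_lit 0) (XT.lf (nat_lit 0) (nat_lit 17521031416) (nat_lit 152) (nat_lit 170454446425) (nat_lit 76) (nat_lit 180681213552) (nat_lit 12) (nat_lit 5) (nat_lit 14) (nat_lit 5) (nat_lit 13) (nat_lit 4) (nat_lit 416) (nat_lit 343) (nat_lit 141)) (XT.nd (nat_lit 78) (nat_lit 76) (nat_lit 0) (XT.lf (nat_lit 0) (nat_lit 65646452679) (nat_lit 152) (nat_lit 71797848321) (nat_lit 76) (nat_lit 246772665755) (nat_lit 12) (nat_lit 5) (nat_lit 14) (nat_lit 5) (nat_lit 13) (nat_lit 4) (nat_lit 417) (nat_lit 343) (nat_lit 140)) (XT.lf (nat_lit 0) (nat_lit 32842213813) (nat_lit 76) (nat_lit 83848411097) (nat_lit 152) (nat_lit 283839007072) (nat_lit 11) (nat_lit 5) (nat_lit 12) (nat_lit 5) (nat_lit 13) (nat_lit 4) (nat_lit 418) (nat_lit 343) (nat_lit 139)))) (XT.nd (nat_lit 78) (nat_lit 0) (nat_lit 0) (XT.lf (nat_lit 0) (nat_lit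 145206424822) (nat_lit 76) (nat_lit 26296238415) (nat_lit 152) (nat_lit 246094484446) (nat_lit 11) (nat_lit 5) (nat_lit 12) (nat_lit 5) (nat_lit 13) (nat_lit 4) (nat_lit 419) (nat_lit 343) (nat_lit 138)) (XT.nd (nat_lit 78) (nat_lit 0) (nat_lit 0) (XT.lf (nat_lit 0) (nat_lit 229587959403) (nat_lit 152) (nat_lit 172862611565) (nat_lit 0) (nat_lit 33040835487) (nat_lit 11) (nat_lit 5) (nat_lit 13) (nat_lit 4) (nat_lit 11) (nat_lit 4) (nat_lit 420) (nat_lit 343) (nat_lit 137)) (XT.lf (nat_lit 0) (nat_lit 291008354498) (nat_lit 152) (nat_lit 68789655356) (nat_lit 0) (nat_lit 94460826685) (nat_lit 11) (nat_lit 5) (nat_lit 13) (nat_lit 4) (nat_lit 11) (nat_lit 4) (nat_lit 421) (nat_lit 343) (nat_lit 136))))) (XT.nd (nat_lit 234) (nat_lit 76) (nat_lit 0) (XT.nd (nat_lit 78) (nat_lit 0) (nat_lit 0) (XT.lf (nat_lit 0) (nat_lit 41825162912) (nat_lit 76) (nat_lit 314327374677) (nat_lit 76) (nat_lit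 117779462200) (nat_lit 10) (nat_lit 4) (nat_lit 11) (nat_lit 5) (nat_lit 11) (nat_lit 4) (nat_lit 422) (nat_lit 343) (nat_lit 135)) (XT.nd (nat_lit 78) (nat_lit 0) (nat_lit 0) (XT.lf (nat_lit 0) (nat_lit 160358498723) (nat_lit 76) (nat_lit 265360181916) (nat_lit 76) (nat_lit 68811903093) (nat_lit 10) (nat_lit 4) (nat_lit 11) (nat_lit 5) (nat_lit 11) (nat_lit 4) (nat_lit 423) (nat_lit 343) (nat_lit 134)) (XT.lf (nat_lit 0) (nat_lit 284818077636) (nat_lit 76) (nat_lit 213944829118) (nat_lit 76) (nat_lit 17396201393) (nat_lit 10) (nat_lit 4) (nat_lit 11) (nat_lit 5) (nat_lit 11) (nat_lit 4) (nat_lit 424) (nat_lit 343) (nat_lit 133)))) (XT.nd (nat_lit 78) (nat_lit 0) (nat_lit 0) (XT.lf (nat_lit 0) (nat_lit 35418950767) (nat_lit 152) (nat_lit 123940110938) (nat_lit 76) (nat_lit 379481444142) (nat_lit 9) (nat_lit 5) (nat_lit 11) (nat_lit 5) (nat_lit 10) (nat_lit 4) (nat_lit 425) (nat_lit 343)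 (nat_lit 132)) (XT.nd (nat_lit 40482) (nat_lit 0) (nat_lit 6916) (XT.lf (nat_lit 0) (nat_lit 90290027448) (nat_lit 152) (nat_lit 11454720205) (nat_lit 76) (nat_lit 460896976989) (nat_lit 9) (nat_lit 5) (nat_lit 11) (nat_lit 5) (nat_lit 10) (nat_lit 4) (nat_lit 426) (nat_lit 343) (nat_lit 131)) (XT.lf (nat_lit 0) (nat_lit 8408433533) (nat_lit 0) (nat_lit 8408433533) (nat_lit 684) (nat_lit 663749770) (nat_lit 100) (nat_lit 5) (nat_lit 100) (nat_lit 3) (nat_lit 109) (nat_lit 3) (nat_lit 344) (nat_lit 344) (nat_lit 212))))))) (XT.nd (nat_lit 858) (nat_lit 2128) (nat_lit 0) (XT.nd (nat_lit 390) (nat_lit 0) (nat_lit 76) (XT.nd (nat_lit 156) (nat_lit 684) (nat_lit 0) (XT.nd (nat_lit 78) (nat_lit 0) (nat_lit 0) (XT.lf (nat_lit 0) (nat_lit 33902768515) (nat_lit 0) (nat_lit 622416180) (nat_lit 684) (nat_lit 1307471619) (nat_lit 100) (nat_lit 5) (nat_lit 100) (nat_lit 3) (nat_lit 109) (nat_lit 3)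 (nat_lit 345) (nat_lit 344) (nat_lit 211)) (XT.lf (nat_lit 76) (nat_lit 15328340435) (nat_lit 0) (nat_lit 20624736638) (nat_lit 760) (nat_lit 769984533) (nat_lit 101) (nat_lit 5) (nat_lit 100) (nat_lit 5) (nat_lit 110) (nat_lit 5) (nat_lit 346) (nat_lit 344) (nat_lit 210))) (XT.nd (nat_lit 78) (nat_lit 684) (nat_lit 0) (XT.lf (nat_lit 76) (nat_lit 33504157742) (nat_lit 0) (nat_lit 3987839901) (nat_lit 760) (nat_lit 164012587) (nat_lit 101) (nat_lit 5) (nat_lit 100) (nat_lit 5) (nat_lit 110) (nat_lit 5) (nat_lit 347) (nat_lit 344) (nat_lit 209)) (XT.nd (nat_lit 78) (nat_lit 0) (nat_lit 0) (XT.lf (nat_lit 0) (nat_lit 893352343) (nat_lit 760) (nat_lit 24433411301) (nat_lit 836) (nat_lit 13286667800) (nat_lit 91) (nat_lit 5) (nat_lit 101) (nat_lit 5) (nat_lit 102) (nat_lit 5) (nat_lit 348) (nat_lit 344) (nat_lit 208)) (XT.lf (nat_lit 0) (nat_lit 2132052087) (nat_lit 760) (nat_lit 6113732032)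 (nat_lit 836) (nat_lit 31366110342) (nat_lit 91) (nat_lit 5) (nat_lit 101) (nat_lit 5) (nat_lit 102) (nat_lit 5) (nat_lit 349) (nat_lit 344) (nat_lit 207))))) (XT.nd (nat_lit 234) (nat_lit 0) (nat_lit 76) (XT.nd (nat_lit 78) (nat_lit 0) (nat_lit 0) (XT.lf (nat_lit 0) (nat_lit 3796334230) (nat_lit 760) (nat_lit 27250703962) (nat_lit 836) (nat_lit 9595063969) (nat_lit 92) (nat_lit 5) (nat_lit 102) (nat_lit 5) (nat_lit 103) (nat_lit 5) (nat_lit 350) (nat_lit 344) (nat_lit 206)) (XT.nd (nat_lit 78) (nat_lit 0) (nat_lit 76) (XT.lf (nat_lit 0) (nat_lit 5781631761) (nat_lit 760) (nat_lit 7773440587) (nat_lit 836) (nat_lit 28156861552) (nat_lit 92) (nat_lit 5) (nat_lit 102) (nat_lit 5) (nat_lit 103) (nat_lit 5) (nat_lit 351) (nat_lit 344) (nat_lit 205)) (XT.lf (nat_lit 0) (nat_lit 8146637452) (nat_lit 760) (nat_lit 29808708734) (nat_lit 836) (nat_lit 4865892418) (nat_lit 93) (nat_lit 5) (nat_lit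 103) (nat_lit 5) (nat_lit 104) (nat_lit 5) (nat_lit 352) (nat_lit 344) (nat_lit 204)))) (XT.nd (nat_lit 78) (nat_lit 0) (nat_lit 0) (XT.lf (nat_lit 0) (nat_lit 10983523800) (nat_lit 760) (nat_lit 9098094887) (nat_lit 836) (nat_lit 23886711710) (nat_lit 93) (nat_lit 5) (nat_lit 103) (nat_lit 5) (nat_lit 104) (nat_lit 5) (nat_lit 353) (nat_lit 344) (nat_lit 203)) (XT.nd (nat_lit 78) (nat_lit 0) (nat_lit 76) (XT.lf (nat_lit 76) (nat_lit 13064311689) (nat_lit 0) (nat_lit 1099638006) (nat_lit 836) (nat_lit 30998745535) (nat_lit 94) (nat_lit 5) (nat_lit 93) (nat_lit 5) (nat_lit 104) (nat_lit 5) (nat_lit 354) (nat_lit 344) (nat_lit 202)) (XT.lf (nat_lit 0) (nat_lit 17951824677) (nat_lit 760) (nat_lit 10056873391) (nat_lit 76) (nat_lit 18385661906) (nat_lit 94) (nat_lit 5) (nat_lit 104) (nat_lit 5) (nat_lit 95) (nat_lit 5) (nat_lit 355) (nat_lit 344) (nat_lit 201)))))) (XT.nd (nat_lit 468) (nat_lit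 988) (nat_lit 0) (XT.nd (nat_lit 234) (nat_lit 304) (nat_lit 0) (XT.nd (nat_lit 78) (nat_lit 380) (nat_lit 0) (XT.lf (nat_lit 0) (nat_lit 13498861344) (nat_lit 684) (nat_lit 8656927934) (nat_lit 760) (nat_lit 25520486796) (nat_lit 85) (nat_lit 5) (nat_lit 94) (nat_lit 5) (nat_lit 95) (nat_lit 5) (nat_lit 356) (nat_lit 344) (nat_lit 200)) (XT.nd (nat_lit 78) (nat_lit 380) (nat_lit 0) (XT.lf (nat_lit 0) (nat_lit 26923132706) (nat_lit 760) (nat_lit 10619060657) (nat_lit 76) (nat_lit 11462438361) (nat_lit 85) (nat_lit 5) (nat_lit 95) (nat_lit 5) (nat_lit 86) (nat_lit 5) (nat_lit 357) (nat_lit 344) (nat_lit 199)) (XT.lf (nat_lit 0) (nat_lit 14435464029) (nat_lit 380) (nat_lit 17858757277) (nat_lit 456) (nat_lit 18086917594) (nat_lit 80) (nat_lit 5) (nat_lit 85) (nat_lit 5) (nat_lit 86) (nat_lit 5) (nat_lit 358) (nat_lit 344) (nat_lit 198)))) (XT.nd (nat_lit 78) (nat_lit 304) (nat_lit 0) (XT.lf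 (nat_lit 0) (nat_lit 38158651807) (nat_lit 456) (nat_lit 10754817928) (nat_lit 76) (nat_lit 2901764841) (nat_lit 80) (nat_lit 5) (nat_lit 86) (nat_lit 5) (nat_lit 81) (nat_lit 5) (nat_lit 359) (nat_lit 344) (nat_lit 197)) (XT.nd (nat_lit 78) (nat_lit 0) (nat_lit 0) (XT.lf (nat_lit 0) (nat_lit 15910211979) (nat_lit 304) (nat_lit 28945495965) (nat_lit 380) (nat_lit 8438359285) (nat_lit 76) (nat_lit 5) (nat_lit 80) (nat_lit 5) (nat_lit 81) (nat_lit 5) (nat_lit 360) (nat_lit 344) (nat_lit 196)) (XT.lf (nat_lit 0) (nat_lit 44280076370) (nat_lit 304) (nat_lit 7787969128) (nat_lit 380) (nat_lit 2769776866) (nat_lit 76) (nat_lit 5) (nat_lit 80) (nat_lit 5) (nat_lit 81) (nat_lit 5) (nat_lit 361) (nat_lit 344) (nat_lit 195))))) (XT.nd (nat_lit 234) (nat_lit 304) (nat_lit 0) (XT.nd (nat_lit 78) (nat_lit 304) (nat_lit 0) (XT.lf (nat_lit 0) (nat_lit 3592631414) (nat_lit 380) (nat_lit 38534146268) (nat_lit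 76) (nat_lit 14303893061) (nat_lit 71) (nat_lit 5) (nat_lit 76) (nat_lit 5) (nat_lit 72) (nat_lit 5) (nat_lit 362) (nat_lit 344) (nat_lit 194)) (XT.nd (nat_lit 78) (nat_lit 304) (nat_lit 0) (XT.lf (nat_lit 0) (nat_lit 10487873481) (nat_lit 380) (nat_lit 10132003560) (nat_lit 76) (nat_lit 37465626360) (nat_lit 71) (nat_lit 5) (nat_lit 76) (nat_lit 5) (nat_lit 72) (nat_lit 5) (nat_lit 363) (nat_lit 344) (nat_lit 193)) (XT.lf (nat_lit 0) (nat_lit 18079744243) (nat_lit 380) (nat_lit 39503617507) (nat_lit 76) (nat_lit 2222124490) (nat_lit 67) (nat_lit 5) (nat_lit 72) (nat_lit 5) (nat_lit 68) (nat_lit 5) (nat_lit 364) (nat_lit 344) (nat_lit 192)))) (XT.nd (nat_lit 78) (nat_lit 304) (nat_lit 0) (XT.lf (nat_lit 0) (nat_lit 26562154650) (nat_lit 380) (nat_lit 9336317899) (nat_lit 76) (nat_lit 25687450155) (nat_lit 67) (nat_lit 5) (nat_lit 72) (nat_lit 5) (nat_lit 68) (nat_lit 5) (nat_lit 365) (nat_lit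 344) (nat_lit 191)) (XT.nd (nat_lit 78) (nat_lit 0) (nat_lit 0) (XT.lf (nat_lit 0) (nat_lit 23076234699) (nat_lit 304) (nat_lit 12751318425) (nat_lit 380) (nat_lit 27609886193) (nat_lit 63) (nat_lit 5) (nat_lit 67) (nat_lit 5) (nat_lit 68) (nat_lit 5) (nat_lit 366) (nat_lit 344) (nat_lit 190)) (XT.lf (nat_lit 0) (nat_lit 45895926084) (nat_lit 380) (nat_lit 8124779089) (nat_lit 76) (nat_lit 11343842982) (nat_lit 63) (nat_lit 5) (nat_lit 68) (nat_lit 5) (nat_lit 64) (nat_lit 5) (nat_lit 367) (nat_lit 344) (nat_lit 189))))))))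
noncomputable def xc206 : XT := (XT.nd (nat_lit 1794) (nat_lit 1140) (nat_lit 0) (XT.nd (nat_lit 858) (nat_lit 1064) (nat_lit 0) (XT.nd (nat_lit 390) (nat_lit 684) (nat_lit 0) (XT.nd (nat_lit 156) (nat_lit 608) (nat_lit 0) (XT.nd (nat_lit 78) (nat_lit 0) (nat_lit 0) (XT.lf (nat_lit 0) (nat_lit 26356345845) (nat_lit 228) (nat_lit 30730591724) (nat_lit 304) (nat_lit 10270115417) (nat_lit 60) (nat_lit 5) (nat_lit 63) (nat_lit 5) (nat_lit 64) (nat_lit 5) (nat_lit 368) (nat_lit 344) (nat_lit 188)) (XT.lf (nat_lit 0) (nat_lit 62841976119) (nat_lit 228) (nat_lit 6131843254) (nat_lit 304) (nat_lit 468549169) (nat_lit 60) (nat_lit 5) (nat_lit 63) (nat_lit 5) (nat_lit 64) (nat_lit 5) (nat_lit 369) (nat_lit 344) (nat_lit 187))) (XT.nd (nat_lit 78) (nat_lit 228) (nat_lit 0) (XT.lf (nat_lit 0) (nat_lit 10298881961) (nat_lit 380) (nat_lit 41582538255) (nat_lit 76) (nat_lit 19703353345) (nat_lit 55)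 (nat_lit 5) (nat_lit 60) (nat_lit 5) (nat_lit 56) (nat_lit 5) (nat_lit 370) (nat_lit 344) (nat_lit 186)) (XT.nd (nat_lit 78) (nat_lit 228) (nat_lit 0) (XT.lf (nat_lit 0) (nat_lit 21801864750) (nat_lit 380) (nat_lit 5276220208) (nat_lit 76) (nat_lit 46745184766) (nat_lit 55) (nat_lit 5) (nat_lit 60) (nat_lit 5) (nat_lit 56) (nat_lit 5) (nat_lit 371) (nat_lit 344) (nat_lit 185)) (XT.lf (nat_lit 0) (nat_lit 33929837644) (nat_lit 228) (nat_lit 478747546) (nat_lit 304) (nat_lit 41738677288) (nat_lit 52) (nat_lit 5) (nat_lit 55) (nat_lit 5) (nat_lit 56) (nat_lit 5) (nat_lit 372) (nat_lit 344) (nat_lit 184))))) (XT.nd (nat_lit 234) (nat_lit 456) (nat_lit 0) (XT.nd (nat_lit 78) (nat_lit 228) (nat_lit 0) (XT.lf (nat_lit 0) (nat_lit 48163915535) (nat_lit 304) (nat_lit 3735224094) (nat_lit 76) (nat_lit 26662402701) (nat_lit 52) (nat_lit 5) (nat_lit 56) (nat_lit 5) (nat_lit 53) (nat_lit 5) (nat_lit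 373) (nat_lit 344) (nat_lit 183)) (XT.nd (nat_lit 78) (nat_lit 0) (nat_lit 0) (XT.lf (nat_lit 0) (nat_lit 37873947035) (nat_lit 228) (nat_lit 25331159353) (nat_lit 304) (nat_lit 17861526185) (nat_lit 49) (nat_lit 5) (nat_lit 52) (nat_lit 5) (nat_lit 53) (nat_lit 5) (nat_lit 374) (nat_lit 344) (nat_lit 182)) (XT.lf (nat_lit 0) (nat_lit 79101650605) (nat_lit 304) (nat_lit 2043163152) (nat_lit 76) (nat_lit 2546999926) (nat_lit 49) (nat_lit 5) (nat_lit 53) (nat_lit 5) (nat_lit 50) (nat_lit 5) (nat_lit 375) (nat_lit 344) (nat_lit 181)))) (XT.nd (nat_lit 78) (nat_lit 228) (nat_lit 0) (XT.lf (nat_lit 0) (nat_lit 10134716833) (nat_lit 228) (nat_lit 44463734274) (nat_lit 76) (nat_lit 31788056809) (nat_lit 46) (nat_lit 5) (nat_lit 49) (nat_lit 5) (nat_lit 47) (nat_lit 5) (nat_lit 376) (nat_lit 344) (nat_lit 180)) (XT.nd (nat_lit 78) (nat_lit 228) (nat_lit 0) (XT.lf (nat_lit 0) (nat_lit 25475757708)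 (nat_lit 228) (nat_lit 1133536195) (nat_lit 76) (nat_lit 62601172605) (nat_lit 46) (nat_lit 5) (nat_lit 49) (nat_lit 5) (nat_lit 47) (nat_lit 5) (nat_lit 377) (nat_lit 344) (nat_lit 179)) (XT.lf (nat_lit 0) (nat_lit 42353533756) (nat_lit 304) (nat_lit 46366424198) (nat_lit 76) (nat_lit 3417181779) (nat_lit 43) (nat_lit 5) (nat_lit 47) (nat_lit 5) (nat_lit 44) (nat_lit 5) (nat_lit 378) (nat_lit 344) (nat_lit 178)))))) (XT.nd (nat_lit 468) (nat_lit 532) (nat_lit 0) (XT.nd (nat_lit 234) (nat_lit 380) (nat_lit 0) (XT.nd (nat_lit 78) (nat_lit 152) (nat_lit 0) (XT.lf (nat_lit 0) (nat_lit 60529999681) (nat_lit 304) (nat_lit 587589016) (nat_lit 76) (nat_lit 34069818689) (nat_lit 43) (nat_lit 5) (nat_lit 47) (nat_lit 5) (nat_lit 44) (nat_lit 5) (nat_lit 379) (nat_lit 344) (nat_lit 177)) (XT.nd (nat_lit 78) (nat_lit 0) (nat_lit 0) (XT.lf (nat_lit 0) (nat_lit 49048716720) (nat_lit 152) (nat_lit 31331475777)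 (nat_lit 228) (nat_lit 17971751524) (nat_lit 41) (nat_lit 5) (nat_lit 43) (nat_lit 5) (nat_lit 44) (nat_lit 5) (nat_lit 380) (nat_lit 344) (nat_lit 176)) (XT.lf (nat_lit 0) (nat_lit 101185922608) (nat_lit 152) (nat_lit 46060702) (nat_lit 228) (nat_lit 442270505) (nat_lit 41) (nat_lit 5) (nat_lit 43) (nat_lit 5) (nat_lit 44) (nat_lit 5) (nat_lit 381) (nat_lit 344) (nat_lit 175)))) (XT.nd (nat_lit 78) (nat_lit 152) (nat_lit 0) (XT.lf (nat_lit 0) (nat_lit 18732278214) (nat_lit 228) (nat_lit 53483234031) (nat_lit 76) (nat_lit 32865967166) (nat_lit 38) (nat_lit 5) (nat_lit 41) (nat_lit 5) (nat_lit 39) (nat_lit 5) (nat_lit 382) (nat_lit 344) (nat_lit 174)) (XT.nd (nat_lit 78) (nat_lit 152) (nat_lit 0) (XT.lf (nat_lit 0) (nat_lit 38859029348) (nat_lit 228) (nat_lit 2361983662) (nat_lit 76) (nat_lit 67437274493) (nat_lit 38) (nat_lit 5) (nat_lit 41) (nat_lit 5) (nat_lit 39) (nat_lit 5) (nat_lit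 383) (nat_lit 344) (nat_lit 173)) (XT.lf (nat_lit 0) (nat_lit 53010772202) (nat_lit 152) (nat_lit 7808209099) (nat_lit 228) (nat_lit 51553612149) (nat_lit 36) (nat_lit 5) (nat_lit 38) (nat_lit 5) (nat_lit 39) (nat_lit 5) (nat_lit 384) (nat_lit 344) (nat_lit 172))))) (XT.nd (nat_lit 234) (nat_lit 304) (nat_lit 0) (XT.nd (nat_lit 78) (nat_lit 228) (nat_lit 0) (XT.lf (nat_lit 0) (nat_lit 84342658730) (nat_lit 228) (nat_lit 5464189397) (nat_lit 76) (nat_lit 26442480755) (nat_lit 36) (nat_lit 5) (nat_lit 39) (nat_lit 5) (nat_lit 37) (nat_lit 5) (nat_lit 385) (nat_lit 344) (nat_lit 171)) (XT.nd (nat_lit 78) (nat_lit 76) (nat_lit 0) (XT.lf (nat_lit 0) (nat_lit 52685396867) (nat_lit 152) (nat_lit 57306957976) (nat_lit 228) (nat_lit 10280055056) (nat_lit 34) (nat_lit 5) (nat_lit 36) (nat_lit 5) (nat_lit 37) (nat_lit 5) (nat_lit 386) (nat_lit 344) (nat_lit 170)) (XT.lf (nat_lit 0) (nat_lit 12123445598)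 (nat_lit 228) (nat_lit 10756593527) (nat_lit 76) (nat_lit 101602238388) (nat_lit 33) (nat_lit 5) (nat_lit 36) (nat_lit 5) (nat_lit 34) (nat_lit 5) (nat_lit 387) (nat_lit 344) (nat_lit 169)))) (XT.nd (nat_lit 78) (nat_lit 152) (nat_lit 0) (XT.lf (nat_lit 0) (nat_lit 36309967712) (nat_lit 228) (nat_lit 78720295686) (nat_lit 76) (nat_lit 13813533130) (nat_lit 31) (nat_lit 5) (nat_lit 34) (nat_lit 5) (nat_lit 32) (nat_lit 5) (nat_lit 388) (nat_lit 344) (nat_lit 168)) (XT.nd (nat_lit 78) (nat_lit 152) (nat_lit 0) (XT.lf (nat_lit 0) (nat_lit 62265365939) (nat_lit 228) (nat_lit 19372451170) (nat_lit 76) (nat_lit 51757597341) (nat_lit 31) (nat_lit 5) (nat_lit 34) (nat_lit 5) (nat_lit 32) (nat_lit 5) (nat_lit 389) (nat_lit 344) (nat_lit 167)) (XT.lf (nat_lit 0) (nat_lit 44361542762) (nat_lit 152) (nat_lit 45848944958) (nat_lit 228) (nat_lit 47929528301) (nat_lit 29) (nat_lit 5) (nat_lit 31) (nat_lit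 5) (nat_lit 32) (nat_lit 5) (nat_lit 390) (nat_lit 344) (nat_lit 166))))))) (XT.nd (nat_lit 858) (nat_lit 456) (nat_lit 0) (XT.nd (nat_lit 390) (nat_lit 380) (nat_lit 0) (XT.nd (nat_lit 156) (nat_lit 152) (nat_lit 0) (XT.nd (nat_lit 78) (nat_lit 152) (nat_lit 0) (XT.lf (nat_lit 0) (nat_lit 111953732501) (nat_lit 152) (nat_lit 7926574990) (nat_lit 228) (nat_lit 23225168498) (nat_lit 29) (nat_lit 5) (nat_lit 31) (nat_lit 5) (nat_lit 32) (nat_lit 5) (nat_lit 391) (nat_lit 344) (nat_lit 165)) (XT.lf (nat_lit 0) (nat_lit 3692126669) (nat_lit 152) (nat_lit 113091289771) (nat_lit 76) (nat_lit 31480444143) (nat_lit 27) (nat_lit 5) (nat_lit 29) (nat_lit 5) (nat_lit 28) (nat_lit 5) (nat_lit 392) (nat_lit 344) (nat_lit 164))) (XT.nd (nat_lit 78) (nat_lit 152) (nat_lit 0) (XT.lf (nat_lit 0) (nat_lit 31840318177) (nat_lit 152) (nat_lit 48279548732) (nat_lit 76) (nat_lit 73507983353) (nat_lit 27) (nat_lit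 5) (nat_lit 29) (nat_lit 5) (nat_lit 28) (nat_lit 5) (nat_lit 393) (nat_lit 344) (nat_lit 163)) (XT.nd (nat_lit 78) (nat_lit 0) (nat_lit 0) (XT.lf (nat_lit 0) (nat_lit 20425524822) (nat_lit 152) (nat_lit 41288710459) (nat_lit 228) (nat_lit 97529888686) (nat_lit 25) (nat_lit 5) (nat_lit 27) (nat_lit 5) (nat_lit 28) (nat_lit 5) (nat_lit 394) (nat_lit 344) (nat_lit 162)) (XT.lf (nat_lit 0) (nat_lit 93904255867) (nat_lit 228) (nat_lit 70864673495) (nat_lit 76) (nat_lit 331161937) (nat_lit 25) (nat_lit 5) (nat_lit 28) (nat_lit 5) (nat_lit 26) (nat_lit 4) (nat_lit 395) (nat_lit 344) (nat_lit 161))))) (XT.nd (nat_lit 234) (nat_lit 228) (nat_lit 0) (XT.nd (nat_lit 78) (nat_lit 152) (nat_lit 0) (XT.lf (nat_lit 0) (nat_lit 128380091454) (nat_lit 228) (nat_lit 190873037) (nat_lit 76) (nat_lit 42644077117) (nat_lit 25) (nat_lit 5) (nat_lit 28) (nat_lit 5) (nat_lit 26) (nat_lit 4) (nat_lit 396) (nat_lit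 344) (nat_lit 160)) (XT.nd (nat_lit 78) (nat_lit 76) (nat_lit 0) (XT.lf (nat_lit 0) (nat_lit 76462999157) (nat_lit 76) (nat_lit 89309997429) (nat_lit 152) (nat_lit 11803079252) (nat_lit 24) (nat_lit 5) (nat_lit 25) (nat_lit 5) (nat_lit 26) (nat_lit 4) (nat_lit 397) (nat_lit 344) (nat_lit 159)) (XT.lf (nat_lit 0) (nat_lit 20118046939) (nat_lit 152) (nat_lit 27624216142) (nat_lit 76) (nat_lit 136496538771) (nat_lit 23) (nat_lit 5) (nat_lit 25) (nat_lit 5) (nat_lit 24) (nat_lit 5) (nat_lit 398) (nat_lit 344) (nat_lit 158)))) (XT.nd (nat_lit 78) (nat_lit 76) (nat_lit 0) (XT.lf (nat_lit 0) (nat_lit 50976282683) (nat_lit 152) (nat_lit 3057671698) (nat_lit 228) (nat_lit 137151266094) (nat_lit 21) (nat_lit 5) (nat_lit 23) (nat_lit 5) (nat_lit 24) (nat_lit 5) (nat_lit 399) (nat_lit 344) (nat_lit 157)) (XT.nd (nat_lit 78) (nat_lit 76) (nat_lit 0) (XT.lf (nat_lit 0) (nat_lit 90805459120) (nat_lit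 228) (nat_lit 64683052270) (nat_lit 76) (nat_lit 42932458784) (nat_lit 21) (nat_lit 5) (nat_lit 24) (nat_lit 5) (nat_lit 22) (nat_lit 4) (nat_lit 400) (nat_lit 344) (nat_lit 156)) (XT.lf (nat_lit 0) (nat_lit 15049857107) (nat_lit 76) (nat_lit 114650309309) (nat_lit 152) (nat_lit 76304109808) (nat_lit 20) (nat_lit 5) (nat_lit 21) (nat_lit 5) (nat_lit 22) (nat_lit 4) (nat_lit 401) (nat_lit 344) (nat_lit 155)))))) (XT.nd (nat_lit 468) (nat_lit 228) (nat_lit 0) (XT.nd (nat_lit 234) (nat_lit 76) (nat_lit 0) (XT.nd (nat_lit 78) (nat_lit 152) (nat_lit 0) (XT.lf (nat_lit 0) (nat_lit 101014240852) (nat_lit 76) (nat_lit 70620347636) (nat_lit 152) (nat_lit 42277410336) (nat_lit 20) (nat_lit 5) (nat_lit 21) (nat_lit 5) (nat_lit 22) (nat_lit 4) (nat_lit 402) (nat_lit 344) (nat_lit 154)) (XT.nd (nat_lit 78) (nat_lit 152) (nat_lit 0) (XT.lf (nat_lit 0) (nat_lit 191276062244) (nat_lit 76) (nat_lit 24389231920)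 (nat_lit 152) (nat_lit 6549835476) (nat_lit 20) (nat_lit 5) (nat_lit 21) (nat_lit 5) (nat_lit 22) (nat_lit 4) (nat_lit 403) (nat_lit 344) (nat_lit 153)) (XT.lf (nat_lit 0) (nat_lit 31253301019) (nat_lit 152) (nat_lit 174824887625) (nat_lit 76) (nat_lit 24767045305) (nat_lit 18) (nat_lit 5) (nat_lit 20) (nat_lit 5) (nat_lit 19) (nat_lit 4) (nat_lit 404) (nat_lit 344) (nat_lit 152)))) (XT.nd (nat_lit 78) (nat_lit 76) (nat_lit 0) (XT.lf (nat_lit 0) (nat_lit 71658437772) (nat_lit 152) (nat_lit 91995329307) (nat_lit 76) (nat_lit 76201109815) (nat_lit 18) (nat_lit 5) (nat_lit 20) (nat_lit 5) (nat_lit 19) (nat_lit 4) (nat_lit 405) (nat_lit 344) (nat_lit 151)) (XT.nd (nat_lit 78) (nat_lit 76) (nat_lit 0) (XT.lf (nat_lit 0) (nat_lit 114083431042) (nat_lit 152) (nat_lit 5025018843) (nat_lit 76) (nat_lit 130206572290) (nat_lit 18) (nat_lit 5) (nat_lit 20) (nat_lit 5) (nat_lit 19) (nat_lit 4) (nat_lit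 406) (nat_lit 344) (nat_lit 150)) (XT.lf (nat_lit 0) (nat_lit 89146356058) (nat_lit 76) (nat_lit 70874761110) (nat_lit 152) (nat_lit 99157485556) (nat_lit 17) (nat_lit 5) (nat_lit 18) (nat_lit 5) (nat_lit 19) (nat_lit 4) (nat_lit 407) (nat_lit 344) (nat_lit 149))))) (XT.nd (nat_lit 234) (nat_lit 76) (nat_lit 0) (XT.nd (nat_lit 78) (nat_lit 152) (nat_lit 0) (XT.lf (nat_lit 0) (nat_lit 188200076951) (nat_lit 76) (nat_lit 20140338053) (nat_lit 152) (nat_lit 61190711081) (nat_lit 17) (nat_lit 5) (nat_lit 18) (nat_lit 5) (nat_lit 19) (nat_lit 4) (nat_lit 408) (nat_lit 344) (nat_lit 148)) (XT.nd (nat_lit 78) (nat_lit 76) (nat_lit 0) (XT.lf (nat_lit 0) (nat_lit 11660491005) (nat_lit 76) (nat_lit 248114143925) (nat_lit 76) (nat_lit 20591692974) (nat_lit 16) (nat_lit 4) (nat_lit 17) (nat_lit 5) (nat_lit 17) (nat_lit 4) (nat_lit 409) (nat_lit 344) (nat_lit 147)) (XT.lf (nat_lit 0) (nat_lit 23061716336)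 (nat_lit 152) (nat_lit 180246657800) (nat_lit 76) (nat_lit 88331224092) (nat_lit 15) (nat_lit 5) (nat_lit 17) (nat_lit 5) (nat_lit 16) (nat_lit 4) (nat_lit 410) (nat_lit 344) (nat_lit 146)))) (XT.nd (nat_lit 78) (nat_lit 76) (nat_lit 0) (XT.lf (nat_lit 0) (nat_lit 68205437916) (nat_lit 152) (nat_lit 87702719362) (nat_lit 76) (nat_lit 147551513597) (nat_lit 15) (nat_lit 5) (nat_lit 17) (nat_lit 5) (nat_lit 16) (nat_lit 4) (nat_lit 411) (nat_lit 344) (nat_lit 145)) (XT.nd (nat_lit 78) (nat_lit 0) (nat_lit 0) (XT.lf (nat_lit 0) (nat_lit 9780863888) (nat_lit 76) (nat_lit 105977862397) (nat_lit 152) (nat_lit 200104401957) (nat_lit 14) (nat_lit 5) (nat_lit 15) (nat_lit 5) (nat_lit 16) (nat_lit 4) (nat_lit 412) (nat_lit 344) (nat_lit 144)) (XT.lf (nat_lit 0) (nat_lit 115182875533) (nat_lit 76) (nat_lit 51991771836) (nat_lit 152) (nat_lit 161637862808) (nat_lit 14) (nat_lit 5) (nat_lit 15) (nat_lit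 5) (nat_lit 16) (nat_lit 4) (nat_lit 413) (nat_lit 344) (nat_lit 143))))))))
noncomputable def xc207 : XT := (XT.nd (nat_lit 42276) (nat_lit 0) (nat_lit 2812) (XT.nd (nat_lit 858) (nat_lit 76) (nat_lit 0) (XT.nd (nat_lit 390) (nat_lit 152) (nat_lit 0) (XT.nd (nat_lit 156) (nat_lit 152) (nat_lit 0) (XT.nd (nat_lit 78) (nat_lit 0) (nat_lit 0) (XT.lf (nat_lit 0) (nat_lit 221234336614) (nat_lit 152) (nat_lit 116628228356) (nat_lit 0) (nat_lit 4543147744) (nat_lit 14) (nat_lit 5) (nat_lit 16) (nat_lit 4) (nat_lit 14) (nat_lit 4) (nat_lit 414) (nat_lit 344) (nat_lit 142)) (XT.lf (nat_lit 0) (nat_lit 278849040636) (nat_lit 152) (nat_lit 15629622828) (nat_lit 0) (nat_lit 62157310505) (nat_lit 14) (nat_lit 5) (nat_lit 16) (nat_lit 4) (nat_lit 14) (nat_lit 4) (nat_lit 415) (nat_lit 344) (nat_lit 141))) (XT.nd (nat_lit 78) (nat_lit 76) (nat_lit 0) (XT.lf (nat_lit 0) (nat_lit 93408032456) (nat_lit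 76) (nat_lit 247394528741) (nat_lit 76) (nat_lit 30702283123) (nat_lit 13) (nat_lit 4) (nat_lit 14) (nat_lit 5) (nat_lit 14) (nat_lit 4) (nat_lit 416) (nat_lit 344) (nat_lit 140)) (XT.nd (nat_lit 78) (nat_lit 0) (nat_lit 0) (XT.lf (nat_lit 0) (nat_lit 18405666796) (nat_lit 152) (nat_lit 178961119624) (nat_lit 76) (nat_lit 189722307549) (nat_lit 12) (nat_lit 5) (nat_lit 14) (nat_lit 5) (nat_lit 13) (nat_lit 4) (nat_lit 417) (nat_lit 344) (nat_lit 139)) (XT.lf (nat_lit 0) (nat_lit 68936950369) (nat_lit 152) (nat_lit 75372455859) (nat_lit 76) (nat_lit 259117997442) (nat_lit 12) (nat_lit 5) (nat_lit 14) (nat_lit 5) (nat_lit 13) (nat_lit 4) (nat_lit 418) (nat_lit 344) (nat_lit 138))))) (XT.nd (nat_lit 234) (nat_lit 76) (nat_lit 0) (XT.nd (nat_lit 78) (nat_lit 0) (nat_lit 0) (XT.lf (nat_lit 0) (nat_lit 34499362852) (nat_lit 76) (nat_lit 88033813862) (nat_lit 152) (nat_lit 298022533295) (nat_lit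 11) (nat_lit 5) (nat_lit 12) (nat_lit 5) (nat_lit 13) (nat_lit 4) (nat_lit 419) (nat_lit 344) (nat_lit 137)) (XT.nd (nat_lit 78) (nat_lit 0) (nat_lit 0) (XT.lf (nat_lit 0) (nat_lit 152481068300) (nat_lit 76) (nat_lit 27604366727) (nat_lit 152) (nat_lit 258391185687) (nat_lit 11) (nat_lit 5) (nat_lit 12) (nat_lit 5) (nat_lit 13) (nat_lit 4) (nat_lit 420) (nat_lit 344) (nat_lit 136)) (XT.lf (nat_lit 0) (nat_lit 241074731637) (nat_lit 152) (nat_lit 181491835248) (nat_lit 0) (nat_lit 34699038872) (nat_lit 11) (nat_lit 5) (nat_lit 13) (nat_lit 4) (nat_lit 11) (nat_lit 4) (nat_lit 421) (nat_lit 344) (nat_lit 135)))) (XT.nd (nat_lit 78) (nat_lit 76) (nat_lit 0) (XT.lf (nat_lit 0) (nat_lit 305565795331) (nat_lit 152) (nat_lit 72215893461) (nat_lit 0) (nat_lit 99189736220) (nat_lit 11) (nat_lit 5) (nat_lit 13) (nat_lit 4) (nat_lit 11) (nat_lit 4) (nat_lit 422) (nat_lit 344) (nat_lit 134)) (XT.nd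 (nat_lit 78) (nat_lit 0) (nat_lit 0) (XT.lf (nat_lit 0) (nat_lit 43929452097) (nat_lit 76) (nat_lit 330037604497) (nat_lit 76) (nat_lit 123661196485) (nat_lit 10) (nat_lit 4) (nat_lit 11) (nat_lit 5) (nat_lit 11) (nat_lit 4) (nat_lit 423) (nat_lit 344) (nat_lit 133)) (XT.lf (nat_lit 0) (nat_lit 168388834173) (nat_lit 76) (nat_lit 278622344428) (nat_lit 76) (nat_lit 72245604129) (nat_lit 10) (nat_lit 4) (nat_lit 11) (nat_lit 5) (nat_lit 11) (nat_lit 4) (nat_lit 424) (nat_lit 344) (nat_lit 132)))))) (XT.nd (nat_lit 40950) (nat_lit 0) (nat_lit 6232) (XT.nd (nat_lit 40716) (nat_lit 0) (nat_lit 6916) (XT.nd (nat_lit 78) (nat_lit 76) (nat_lit 0) (XT.lf (nat_lit 0) (nat_lit 299070801054) (nat_lit 76) (nat_lit 224636502398) (nat_lit 76) (nat_lit 18259445636) (nat_lit 10) (nat_lit 4) (nat_lit 11) (nat_lit 5) (nat_lit 11) (nat_lit 4) (nat_lit 425) (nat_lit 344) (nat_lit 131)) (XT.nd (nat_lit 40560)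 (nat_lit 0) (nat_lit 6916) (XT.lf (nat_lit 0) (nat_lit 37195951334) (nat_lit 152) (nat_lit 130125657921) (nat_lit 76) (nat_lit 398460617512) (nat_lit 9) (nat_lit 5) (nat_lit 11) (nat_lit 5) (nat_lit 10) (nat_lit 4) (nat_lit 426) (nat_lit 344) (nat_lit 130)) (XT.lf (nat_lit 0) (nat_lit 8853763754) (nat_lit 0) (nat_lit 8853763754) (nat_lit 684) (nat_lit 644552691) (nat_lit 100) (nat_lit 5) (nat_lit 100) (nat_lit 3) (nat_lit 109) (nat_lit 3) (nat_lit 345) (nat_lit 345) (nat_lit 210)))) (XT.nd (nat_lit 78) (nat_lit 0) (nat_lit 0) (XT.lf (nat_lit 0) (nat_lit 35645351787) (nat_lit 0) (nat_lit 700981835) (nat_lit 684) (nat_lit 1273065072) (nat_lit 100) (nat_lit 5) (nat_lit 100) (nat_lit 3) (nat_lit 109) (nat_lit 3) (nat_lit 346) (nat_lit 345) (nat_lit 209)) (XT.nd (nat_lit 78) (nat_lit 0) (nat_lit 0) (XT.lf (nat_lit 76) (nat_lit 16146977421) (nat_lit 0) (nat_lit 21694234468) (nat_lit 760) (nat_lit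 713339748) (nat_lit 101) (nat_lit 5) (nat_lit 100) (nat_lit 5) (nat_lit 110) (nat_lit 5) (nat_lit 347) (nat_lit 345) (nat_lit 208)) (XT.lf (nat_lit 76) (nat_lit 35229098928) (nat_lit 0) (nat_lit 4223670942) (nat_lit 760) (nat_lit 81599871) (nat_lit 101) (nat_lit 5) (nat_lit 100) (nat_lit 5) (nat_lit 110) (nat_lit 5) (nat_lit 348) (nat_lit 345) (nat_lit 207))))) (XT.nd (nat_lit 234) (nat_lit 0) (nat_lit 76) (XT.nd (nat_lit 78) (nat_lit 0) (nat_lit 0) (XT.lf (nat_lit 0) (nat_lit 1021860284) (nat_lit 760) (nat_lit 25598329393) (nat_lit 836) (nat_lit 13919601250) (nat_lit 91) (nat_lit 5) (nat_lit 101) (nat_lit 5) (nat_lit 102) (nat_lit 5) (nat_lit 349) (nat_lit 345) (nat_lit 206)) (XT.nd (nat_lit 78) (nat_lit 0) (nat_lit 76) (XT.lf (nat_lit 0) (nat_lit 2318502619) (nat_lit 760) (nat_lit 6365368658) (nat_lit 836) (nat_lit 32904511154) (nat_lit 91) (nat_lit 5) (nat_lit 101) (nat_lit 5) (nat_lit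 102) (nat_lit 5) (nat_lit 350) (nat_lit 345) (nat_lit 205)) (XT.lf (nat_lit 0) (nat_lit 4062656860) (nat_lit 760) (nat_lit 28555738265) (nat_lit 836) (nat_lit 10051877938) (nat_lit 92) (nat_lit 5) (nat_lit 102) (nat_lit 5) (nat_lit 103) (nat_lit 5) (nat_lit 351) (nat_lit 345) (nat_lit 204)))) (XT.nd (nat_lit 78) (nat_lit 0) (nat_lit 76) (XT.lf (nat_lit 0) (nat_lit 6143576128) (nat_lit 760) (nat_lit 8107349859) (nat_lit 836) (nat_lit 29542857744) (nat_lit 92) (nat_lit 5) (nat_lit 102) (nat_lit 5) (nat_lit 103) (nat_lit 5) (nat_lit 352) (nat_lit 345) (nat_lit 203)) (XT.nd (nat_lit 78) (nat_lit 0) (nat_lit 0) (XT.lf (nat_lit 0) (nat_lit 8623948312) (nat_lit 760) (nat_lit 31241398837) (nat_lit 836) (nat_lit 5093355651) (nat_lit 93) (nat_lit 5) (nat_lit 103) (nat_lit 5) (nat_lit 104) (nat_lit 5) (nat_lit 353) (nat_lit 345) (nat_lit 202)) (XT.lf (nat_lit 0) (nat_lit 11599346645) (nat_lit 760)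 (nat_lit 9498004075) (nat_lit 836) (nat_lit 25065969783) (nat_lit 93) (nat_lit 5) (nat_lit 103) (nat_lit 5) (nat_lit 104) (nat_lit 5) (nat_lit 354) (nat_lit 345) (nat_lit 201))))))) (XT.nd (nat_lit 858) (nat_lit 1596) (nat_lit 0) (XT.nd (nat_lit 390) (nat_lit 988) (nat_lit 0) (XT.nd (nat_lit 156) (nat_lit 988) (nat_lit 0) (XT.nd (nat_lit 78) (nat_lit 0) (nat_lit 76) (XT.lf (nat_lit 76) (nat_lit 13771635805) (nat_lit 0) (nat_lit 1164829165) (nat_lit 836) (nat_lit 32481059530) (nat_lit 94) (nat_lit 5) (nat_lit 93) (nat_lit 5) (nat_lit 104) (nat_lit 5) (nat_lit 355) (nat_lit 345) (nat_lit 200)) (XT.lf (nat_lit 0) (nat_lit 18910519144) (nat_lit 760) (nat_lit 10504885234) (nat_lit 76) (nat_lit 19295533097) (nat_lit 94) (nat_lit 5) (nat_lit 104) (nat_lit 5) (nat_lit 95) (nat_lit 5) (nat_lit 356) (nat_lit 345) (nat_lit 199))) (XT.nd (nat_lit 78) (nat_lit 380) (nat_lit 0) (XT.lf (nat_lit 0) (nat_lit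 14227751853) (nat_lit 684) (nat_lit 9094862715) (nat_lit 760) (nat_lit 26734442247) (nat_lit 85) (nat_lit 5) (nat_lit 94) (nat_lit 5) (nat_lit 95) (nat_lit 5) (nat_lit 357) (nat_lit 345) (nat_lit 198)) (XT.nd (nat_lit 78) (nat_lit 380) (nat_lit 0) (XT.lf (nat_lit 0) (nat_lit 28325438278) (nat_lit 760) (nat_lit 11095670881) (nat_lit 76) (nat_lit 12030869303) (nat_lit 85) (nat_lit 5) (nat_lit 95) (nat_lit 5) (nat_lit 86) (nat_lit 5) (nat_lit 358) (nat_lit 345) (nat_lit 197)) (XT.lf (nat_lit 0) (nat_lit 15210703541) (nat_lit 380) (nat_lit 18752538765) (nat_lit 456) (nat_lit 18934164325) (nat_lit 80) (nat_lit 5) (nat_lit 85) (nat_lit 5) (nat_lit 86) (nat_lit 5) (nat_lit 359) (nat_lit 345) (nat_lit 196))))) (XT.nd (nat_lit 234) (nat_lit 684) (nat_lit 0) (XT.nd (nat_lit 78) (nat_lit 304) (nat_lit 0) (XT.lf (nat_lit 0) (nat_lit 40118295601) (nat_lit 456) (nat_lit 11238969592) (nat_lit 76) (nat_lit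 3046075346) (nat_lit 80) (nat_lit 5) (nat_lit 86) (nat_lit 5) (nat_lit 81) (nat_lit 5) (nat_lit 360) (nat_lit 345) (nat_lit 195)) (XT.nd (nat_lit 78) (nat_lit 0) (nat_lit 0) (XT.lf (nat_lit 0) (nat_lit 16758447468) (nat_lit 304) (nat_lit 30390117822) (nat_lit 380) (nat_lit 8807634840) (nat_lit 76) (nat_lit 5) (nat_lit 80) (nat_lit 5) (nat_lit 81) (nat_lit 5) (nat_lit 361) (nat_lit 345) (nat_lit 194)) (XT.lf (nat_lit 0) (nat_lit 46544294370) (nat_lit 304) (nat_lit 8174840974) (nat_lit 380) (nat_lit 2858130082) (nat_lit 76) (nat_lit 5) (nat_lit 80) (nat_lit 5) (nat_lit 81) (nat_lit 5) (nat_lit 362) (nat_lit 345) (nat_lit 193)))) (XT.nd (nat_lit 78) (nat_lit 304) (nat_lit 0) (XT.lf (nat_lit 0) (nat_lit 3819342735) (nat_lit 380) (nat_lit 40407465118) (nat_lit 76) (nat_lit 15022984681) (nat_lit 71) (nat_lit 5) (nat_lit 76) (nat_lit 5) (nat_lit 72) (nat_lit 5) (nat_lit 363) (nat_lit 345) (nat_lit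 192)) (XT.nd (nat_lit 78) (nat_lit 304) (nat_lit 0) (XT.lf (nat_lit 0) (nat_lit 11057105012) (nat_lit 380) (nat_lit 10587757583) (nat_lit 76) (nat_lit 39342619075) (nat_lit 71) (nat_lit 5) (nat_lit 76) (nat_lit 5) (nat_lit 72) (nat_lit 5) (nat_lit 364) (nat_lit 345) (nat_lit 191)) (XT.lf (nat_lit 0) (nat_lit 19027317366) (nat_lit 380) (nat_lit 41426647893) (nat_lit 76) (nat_lit 2339563608) (nat_lit 67) (nat_lit 5) (nat_lit 72) (nat_lit 5) (nat_lit 68) (nat_lit 5) (nat_lit 365) (nat_lit 345) (nat_lit 190)))))) (XT.nd (nat_lit 468) (nat_lit 684) (nat_lit 0) (XT.nd (nat_lit 234) (nat_lit 608) (nat_lit 0) (XT.nd (nat_lit 78) (nat_lit 304) (nat_lit 0) (XT.lf (nat_lit 0) (nat_lit 27931772774) (nat_lit 380) (nat_lit 9753466661) (nat_lit 76) (nat_lit 26977853991) (nat_lit 67) (nat_lit 5) (nat_lit 72) (nat_lit 5) (nat_lit 68) (nat_lit 5) (nat_lit 366) (nat_lit 345) (nat_lit 189)) (XT.nd (nat_lit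 78) (nat_lit 0) (nat_lit 0) (XT.lf (nat_lit 0) (nat_lit 24278912483) (nat_lit 304) (nat_lit 13380314939) (nat_lit 380) (nat_lit 28948021510) (nat_lit 63) (nat_lit 5) (nat_lit 67) (nat_lit 5) (nat_lit 68) (nat_lit 5) (nat_lit 367) (nat_lit 345) (nat_lit 188)) (XT.lf (nat_lit 0) (nat_lit 48229227564) (nat_lit 380) (nat_lit 8482642227) (nat_lit 76) (nat_lit 11918935258) (nat_lit 63) (nat_lit 5) (nat_lit 68) (nat_lit 5) (nat_lit 64) (nat_lit 5) (nat_lit 368) (nat_lit 345) (nat_lit 187)))) (XT.nd (nat_lit 78) (nat_lit 380) (nat_lit 0) (XT.lf (nat_lit 0) (nat_lit 27721758699) (nat_lit 228) (nat_lit 32256940445) (nat_lit 304) (nat_lit 10744292657) (nat_lit 60) (nat_lit 5) (nat_lit 63) (nat_lit 5) (nat_lit 64) (nat_lit 5) (nat_lit 369) (nat_lit 345) (nat_lit 186)) (XT.nd (nat_lit 78) (nat_lit 380) (nat_lit 0) (XT.lf (nat_lit 0) (nat_lit 66029404031) (nat_lit 228) (nat_lit 6428739355) (nat_lit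 304) (nat_lit 454520884) (nat_lit 60) (nat_lit 5) (nat_lit 63) (nat_lit 5) (nat_lit 64) (nat_lit 5) (nat_lit 370) (nat_lit 345) (nat_lit 185)) (XT.lf (nat_lit 0) (nat_lit 10849236811) (nat_lit 380) (nat_lit 43614214746) (nat_lit 76) (nat_lit 20698752913) (nat_lit 55) (nat_lit 5) (nat_lit 60) (nat_lit 5) (nat_lit 56) (nat_lit 5) (nat_lit 371) (nat_lit 345) (nat_lit 184))))) (XT.nd (nat_lit 234) (nat_lit 456) (nat_lit 0) (XT.nd (nat_lit 78) (nat_lit 228) (nat_lit 0) (XT.lf (nat_lit 0) (nat_lit 22925682512) (nat_lit 380) (nat_lit 5494840340) (nat_lit 76) (nat_lit 49092188672) (nat_lit 55) (nat_lit 5) (nat_lit 60) (nat_lit 5) (nat_lit 56) (nat_lit 5) (nat_lit 372) (nat_lit 345) (nat_lit 183)) (XT.nd (nat_lit 78) (nat_lit 0) (nat_lit 0) (XT.lf (nat_lit 0) (nat_lit 35670791519) (nat_lit 228) (nat_lit 491035702) (nat_lit 304) (nat_lit 43791123973) (nat_lit 52) (nat_lit 5) (nat_lit 55) (nat_lit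 5) (nat_lit 56) (nat_lit 5) (nat_lit 373) (nat_lit 345) (nat_lit 182)) (XT.lf (nat_lit 0) (nat_lit 50603534787) (nat_lit 304) (nat_lit 3878219085) (nat_lit 76) (nat_lit 28006262239) (nat_lit 52) (nat_lit 5) (nat_lit 56) (nat_lit 5) (nat_lit 53) (nat_lit 5) (nat_lit 374) (nat_lit 345) (nat_lit 181)))) (XT.nd (nat_lit 78) (nat_lit 228) (nat_lit 0) (XT.lf (nat_lit 0) (nat_lit 39810704694) (nat_lit 228) (nat_lit 26585256425) (nat_lit 304) (nat_lit 18722442483) (nat_lit 49) (nat_lit 5) (nat_lit 52) (nat_lit 5) (nat_lit 53) (nat_lit 5) (nat_lit 375) (nat_lit 345) (nat_lit 180)) (XT.nd (nat_lit 78) (nat_lit 228) (nat_lit 0) (XT.lf (nat_lit 0) (nat_lit 83086060716) (nat_lit 304) (nat_lit 2103010492) (nat_lit 76) (nat_lit 2685837608) (nat_lit 49) (nat_lit 5) (nat_lit 53) (nat_lit 5) (nat_lit 50) (nat_lit 5) (nat_lit 376) (nat_lit 345) (nat_lit 179)) (XT.lf (nat_lit 0) (nat_lit 10670529074) (nat_lit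 228) (nat_lit 46644304746) (nat_lit 76) (nat_lit 33389519212) (nat_lit 46) (nat_lit 5) (nat_lit 49) (nat_lit 5) (nat_lit 47) (nat_lit 5) (nat_lit 377) (nat_lit 345) (nat_lit 178))))))))
noncomputable def xc208 : XT := (XT.nd (nat_lit 1716) (nat_lit 912) (nat_lit 0) (XT.nd (nat_lit 858) (nat_lit 760) (nat_lit 0) (XT.nd (nat_lit 390) (nat_lit 608) (nat_lit 0) (XT.nd (nat_lit 156) (nat_lit 152) (nat_lit 0) (XT.nd (nat_lit 78) (nat_lit 228) (nat_lit 0) (XT.lf (nat_lit 0) (nat_lit 26777237403) (nat_lit 228) (nat_lit 1149626108) (nat_lit 76) (nat_lit 65742716533) (nat_lit 46) (nat_lit 5) (nat_lit 49) (nat_lit 5) (nat_lit 47) (nat_lit 5) (nat_lit 378) (nat_lit 345) (nat_lit 177)) (XT.lf (nat_lit 0) (nat_lit 44498409012) (nat_lit 304) (nat_lit 48643641271) (nat_lit 76) (nat_lit 3600562509) (nat_lit 43) (nat_lit 5) (nat_lit 47) (nat_lit 5) (nat_lit 44) (nat_lit 5) (nat_lit 379) (nat_lit 345) (nat_lit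 176))) (XT.nd (nat_lit 78) (nat_lit 152) (nat_lit 0) (XT.lf (nat_lit 0) (nat_lit 63582403063) (nat_lit 304) (nat_lit 577821670) (nat_lit 76) (nat_lit 35785234996) (nat_lit 43) (nat_lit 5) (nat_lit 47) (nat_lit 5) (nat_lit 44) (nat_lit 5) (nat_lit 380) (nat_lit 345) (nat_lit 175)) (XT.nd (nat_lit 78) (nat_lit 0) (nat_lit 0) (XT.lf (nat_lit 0) (nat_lit 51539667953) (nat_lit 152) (nat_lit 32884805405) (nat_lit 228) (nat_lit 18843782534) (nat_lit 41) (nat_lit 5) (nat_lit 43) (nat_lit 5) (nat_lit 44) (nat_lit 5) (nat_lit 381) (nat_lit 345) (nat_lit 174)) (XT.lf (nat_lit 0) (nat_lit 106281900069) (nat_lit 152) (nat_lit 35750250) (nat_lit 228) (nat_lit 439092062) (nat_lit 41) (nat_lit 5) (nat_lit 43) (nat_lit 5) (nat_lit 44) (nat_lit 5) (nat_lit 382) (nat_lit 345) (nat_lit 173))))) (XT.nd (nat_lit 234) (nat_lit 228) (nat_lit 0) (XT.nd (nat_lit 78) (nat_lit 152) (nat_lit 0) (XT.lf (nat_lit 0)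 (nat_lit 19692988125) (nat_lit 228) (nat_lit 56119479884) (nat_lit 76) (nat_lit 34521861768) (nat_lit 38) (nat_lit 5) (nat_lit 41) (nat_lit 5) (nat_lit 39) (nat_lit 5) (nat_lit 383) (nat_lit 345) (nat_lit 172)) (XT.nd (nat_lit 78) (nat_lit 152) (nat_lit 0) (XT.lf (nat_lit 0) (nat_lit 40824929387) (nat_lit 228) (nat_lit 2443972514) (nat_lit 76) (nat_lit 70821134640) (nat_lit 38) (nat_lit 5) (nat_lit 41) (nat_lit 5) (nat_lit 39) (nat_lit 5) (nat_lit 384) (nat_lit 345) (nat_lit 171)) (XT.lf (nat_lit 0) (nat_lit 55696838718) (nat_lit 152) (nat_lit 8185502120) (nat_lit 228) (nat_lit 54107744704) (nat_lit 36) (nat_lit 5) (nat_lit 38) (nat_lit 5) (nat_lit 39) (nat_lit 5) (nat_lit 385) (nat_lit 345) (nat_lit 170)))) (XT.nd (nat_lit 78) (nat_lit 228) (nat_lit 0) (XT.lf (nat_lit 0) (nat_lit 88581330021) (nat_lit 228) (nat_lit 5702674403) (nat_lit 76) (nat_lit 27776697739) (nat_lit 36) (nat_lit 5)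 (nat_lit 39) (nat_lit 5) (nat_lit 37) (nat_lit 5) (nat_lit 386) (nat_lit 345) (nat_lit 169)) (XT.nd (nat_lit 78) (nat_lit 76) (nat_lit 0) (XT.lf (nat_lit 0) (nat_lit 55353831101) (nat_lit 152) (nat_lit 60159187604) (nat_lit 228) (nat_lit 10771943912) (nat_lit 34) (nat_lit 5) (nat_lit 36) (nat_lit 5) (nat_lit 37) (nat_lit 5) (nat_lit 387) (nat_lit 345) (nat_lit 168)) (XT.lf (nat_lit 0) (nat_lit 12750004653) (nat_lit 228) (nat_lit 11261197577) (nat_lit 76) (nat_lit 106694155788) (nat_lit 33) (nat_lit 5) (nat_lit 36) (nat_lit 5) (nat_lit 34) (nat_lit 5) (nat_lit 388) (nat_lit 345) (nat_lit 167)))))) (XT.nd (nat_lit 390) (nat_lit 304) (nat_lit 0) (XT.nd (nat_lit 156) (nat_lit 304) (nat_lit 0) (XT.nd (nat_lit 78) (nat_lit 0) (nat_lit 0) (XT.lf (nat_lit 0) (nat_lit 38145591725) (nat_lit 228) (nat_lit 82622810332) (nat_lit 76) (nat_lit 14516564654) (nat_lit 31) (nat_lit 5) (nat_lit 34) (nat_lit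 5) (nat_lit 32) (nat_lit 5) (nat_lit 389) (nat_lit 345) (nat_lit 166)) (XT.lf (nat_lit 0) (nat_lit 65397801500) (nat_lit 228) (nat_lit 20309168835) (nat_lit 76) (nat_lit 54357243748) (nat_lit 31) (nat_lit 5) (nat_lit 34) (nat_lit 5) (nat_lit 32) (nat_lit 5) (nat_lit 390) (nat_lit 345) (nat_lit 165))) (XT.nd (nat_lit 78) (nat_lit 152) (nat_lit 0) (XT.lf (nat_lit 0) (nat_lit 46611010199) (nat_lit 152) (nat_lit 48128746534) (nat_lit 228) (nat_lit 50306310736) (nat_lit 29) (nat_lit 5) (nat_lit 31) (nat_lit 5) (nat_lit 32) (nat_lit 5) (nat_lit 391) (nat_lit 345) (nat_lit 164)) (XT.nd (nat_lit 78) (nat_lit 152) (nat_lit 0) (XT.lf (nat_lit 0) (nat_lit 117581314649) (nat_lit 152) (nat_lit 8310860243) (nat_lit 228) (nat_lit 24367670751) (nat_lit 29) (nat_lit 5) (nat_lit 31) (nat_lit 5) (nat_lit 32) (nat_lit 5) (nat_lit 392) (nat_lit 345) (nat_lit 163)) (XT.lf (nat_lit 0) (nat_lit 3894684243) (nat_lit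 152) (nat_lit 118715132340) (nat_lit 76) (nat_lit 33066328996) (nat_lit 27) (nat_lit 5) (nat_lit 29) (nat_lit 5) (nat_lit 28) (nat_lit 5) (nat_lit 393) (nat_lit 345) (nat_lit 162))))) (XT.nd (nat_lit 234) (nat_lit 152) (nat_lit 0) (XT.nd (nat_lit 78) (nat_lit 152) (nat_lit 0) (XT.lf (nat_lit 0) (nat_lit 33449430506) (nat_lit 152) (nat_lit 50664267198) (nat_lit 76) (nat_lit 77194680279) (nat_lit 27) (nat_lit 5) (nat_lit 29) (nat_lit 5) (nat_lit 28) (nat_lit 5) (nat_lit 394) (nat_lit 345) (nat_lit 161)) (XT.nd (nat_lit 78) (nat_lit 0) (nat_lit 0) (XT.lf (nat_lit 0) (nat_lit 21475588116) (nat_lit 152) (nat_lit 43341090680) (nat_lit 228) (nat_lit 102388805284) (nat_lit 25) (nat_lit 5) (nat_lit 27) (nat_lit 5) (nat_lit 28) (nat_lit 5) (nat_lit 395) (nat_lit 345) (nat_lit 160)) (XT.lf (nat_lit 0) (nat_lit 98615582915) (nat_lit 228) (nat_lit 74379864389) (nat_lit 76) (nat_lit 358833802) (nat_lit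 25) (nat_lit 5) (nat_lit 28) (nat_lit 5) (nat_lit 26) (nat_lit 4) (nat_lit 396) (nat_lit 345) (nat_lit 159)))) (XT.nd (nat_lit 78) (nat_lit 152) (nat_lit 0) (XT.lf (nat_lit 0) (nat_lit 134814442936) (nat_lit 228) (nat_lit 173709278) (nat_lit 76) (nat_lit 44786865514) (nat_lit 25) (nat_lit 5) (nat_lit 28) (nat_lit 5) (nat_lit 26) (nat_lit 4) (nat_lit 397) (nat_lit 345) (nat_lit 158)) (XT.nd (nat_lit 78) (nat_lit 76) (nat_lit 0) (XT.lf (nat_lit 0) (nat_lit 80312425761) (nat_lit 76) (nat_lit 93764247011) (nat_lit 152) (nat_lit 12377447336) (nat_lit 24) (nat_lit 5) (nat_lit 25) (nat_lit 5) (nat_lit 26) (nat_lit 4) (nat_lit 398) (nat_lit 345) (nat_lit 157)) (XT.lf (nat_lit 0) (nat_lit 21138502268) (nat_lit 152) (nat_lit 28979912943) (nat_lit 76) (nat_lit 143331591642) (nat_lit 23) (nat_lit 5) (nat_lit 25) (nat_lit 5) (nat_lit 24) (nat_lit 5) (nat_lit 399) (nat_lit 345) (nat_lit 156))))))) (XT.nd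 (nat_lit 858) (nat_lit 380) (nat_lit 0) (XT.nd (nat_lit 390) (nat_lit 304) (nat_lit 0) (XT.nd (nat_lit 156) (nat_lit 76) (nat_lit 0) (XT.nd (nat_lit 78) (nat_lit 0) (nat_lit 0) (XT.lf (nat_lit 0) (nat_lit 53550199306) (nat_lit 152) (nat_lit 3199704697) (nat_lit 228) (nat_lit 143993857813) (nat_lit 21) (nat_lit 5) (nat_lit 23) (nat_lit 5) (nat_lit 24) (nat_lit 5) (nat_lit 400) (nat_lit 345) (nat_lit 155)) (XT.lf (nat_lit 0) (nat_lit 95359466659) (nat_lit 228) (nat_lit 67892773680) (nat_lit 76) (nat_lit 45089084866) (nat_lit 21) (nat_lit 5) (nat_lit 24) (nat_lit 5) (nat_lit 22) (nat_lit 4) (nat_lit 401) (nat_lit 345) (nat_lit 154))) (XT.nd (nat_lit 78) (nat_lit 0) (nat_lit 0) (XT.lf (nat_lit 0) (nat_lit 15826387114) (nat_lit 76) (nat_lit 120372243464) (nat_lit 152) (nat_lit 80105180236) (nat_lit 20) (nat_lit 5) (nat_lit 21) (nat_lit 5) (nat_lit 22) (nat_lit 4) (nat_lit 402) (nat_lit 345)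 (nat_lit 153)) (XT.nd (nat_lit 78) (nat_lit 0) (nat_lit 0) (XT.lf (nat_lit 0) (nat_lit 106087845421) (nat_lit 76) (nat_lit 74141287580) (nat_lit 152) (nat_lit 44377818888) (nat_lit 20) (nat_lit 5) (nat_lit 21) (nat_lit 5) (nat_lit 22) (nat_lit 4) (nat_lit 403) (nat_lit 345) (nat_lit 152)) (XT.lf (nat_lit 0) (nat_lit 200861667761) (nat_lit 76) (nat_lit 25599095956) (nat_lit 152) (nat_lit 6864506331) (nat_lit 20) (nat_lit 5) (nat_lit 21) (nat_lit 5) (nat_lit 22) (nat_lit 4) (nat_lit 404) (nat_lit 345) (nat_lit 151))))) (XT.nd (nat_lit 234) (nat_lit 152) (nat_lit 0) (XT.nd (nat_lit 78) (nat_lit 0) (nat_lit 0) (XT.lf (nat_lit 0) (nat_lit 32828278384) (nat_lit 152) (nat_lit 183543810155) (nat_lit 76) (nat_lit 26014786203) (nat_lit 18) (nat_lit 5) (nat_lit 20) (nat_lit 5) (nat_lit 19) (nat_lit 4) (nat_lit 405) (nat_lit 345) (nat_lit 150)) (XT.nd (nat_lit 78) (nat_lit 0) (nat_lit 0) (XT.lf (nat_lit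 0) (nat_lit 75253085674) (nat_lit 152) (nat_lit 96573836866) (nat_lit 76) (nat_lit 80020106861) (nat_lit 18) (nat_lit 5) (nat_lit 20) (nat_lit 5) (nat_lit 19) (nat_lit 4) (nat_lit 406) (nat_lit 345) (nat_lit 149)) (XT.lf (nat_lit 0) (nat_lit 119798770226) (nat_lit 152) (nat_lit 5256023208) (nat_lit 76) (nat_lit 136725416671) (nat_lit 18) (nat_lit 5) (nat_lit 20) (nat_lit 5) (nat_lit 19) (nat_lit 4) (nat_lit 407) (nat_lit 345) (nat_lit 148)))) (XT.nd (nat_lit 78) (nat_lit 76) (nat_lit 0) (XT.lf (nat_lit 0) (nat_lit 93623593880) (nat_lit 76) (nat_lit 74409525993) (nat_lit 152) (nat_lit 104103861076) (nat_lit 17) (nat_lit 5) (nat_lit 18) (nat_lit 5) (nat_lit 19) (nat_lit 4) (nat_lit 408) (nat_lit 345) (nat_lit 147)) (XT.nd (nat_lit 78) (nat_lit 76) (nat_lit 0) (XT.lf (nat_lit 0) (nat_lit 197629052246) (nat_lit 76) (nat_lit 21138809078) (nat_lit 152) (nat_lit 64239295437) (nat_lit 17) (nat_lit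 5) (nat_lit 18) (nat_lit 5) (nat_lit 19) (nat_lit 4) (nat_lit 409) (nat_lit 345) (nat_lit 146)) (XT.lf (nat_lit 0) (nat_lit 12262566890) (nat_lit 76) (nat_lit 260511153416) (nat_lit 76) (nat_lit 21610402169) (nat_lit 16) (nat_lit 4) (nat_lit 17) (nat_lit 5) (nat_lit 17) (nat_lit 4) (nat_lit 410) (nat_lit 345) (nat_lit 145)))))) (XT.nd (nat_lit 468) (nat_lit 228) (nat_lit 0) (XT.nd (nat_lit 234) (nat_lit 0) (nat_lit 0) (XT.nd (nat_lit 78) (nat_lit 76) (nat_lit 0) (XT.lf (nat_lit 0) (nat_lit 24224828222) (nat_lit 152) (nat_lit 189240511297) (nat_lit 76) (nat_lit 92755733560) (nat_lit 15) (nat_lit 5) (nat_lit 17) (nat_lit 5) (nat_lit 16) (nat_lit 4) (nat_lit 411) (nat_lit 345) (nat_lit 144)) (XT.nd (nat_lit 78) (nat_lit 76) (nat_lit 0) (XT.lf (nat_lit 0) (nat_lit 71625258449) (nat_lit 152) (nat_lit 92070255908) (nat_lit 76) (nat_lit 154936659052) (nat_lit 15) (nat_lit 5) (nat_lit 17) (nat_lit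 5) (nat_lit 16) (nat_lit 4) (nat_lit 412) (nat_lit 345) (nat_lit 143)) (XT.lf (nat_lit 0) (nat_lit 10287222643) (nat_lit 76) (nat_lit 111268804240) (nat_lit 152) (nat_lit 210099786147) (nat_lit 14) (nat_lit 5) (nat_lit 15) (nat_lit 5) (nat_lit 16) (nat_lit 4) (nat_lit 413) (nat_lit 345) (nat_lit 142)))) (XT.nd (nat_lit 78) (nat_lit 0) (nat_lit 0) (XT.lf (nat_lit 0) (nat_lit 120958510320) (nat_lit 76) (nat_lit 54583787783) (nat_lit 152) (nat_lit 169710388418) (nat_lit 14) (nat_lit 5) (nat_lit 15) (nat_lit 5) (nat_lit 16) (nat_lit 4) (nat_lit 414) (nat_lit 345) (nat_lit 141)) (XT.nd (nat_lit 78) (nat_lit 0) (nat_lit 0) (XT.lf (nat_lit 0) (nat_lit 232304659727) (nat_lit 152) (nat_lit 122443618874) (nat_lit 0) (nat_lit 4777286343) (nat_lit 14) (nat_lit 5) (nat_lit 16) (nat_lit 4) (nat_lit 14) (nat_lit 4) (nat_lit 415) (nat_lit 345) (nat_lit 140)) (XT.lf (nat_lit 0) (nat_lit 292799689127) (nat_lit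 152) (nat_lit 16395845970) (nat_lit 0) (nat_lit 65271824803) (nat_lit 14) (nat_lit 5) (nat_lit 16) (nat_lit 4) (nat_lit 14) (nat_lit 4) (nat_lit 416) (nat_lit 345) (nat_lit 139))))) (XT.nd (nat_lit 234) (nat_lit 76) (nat_lit 0) (XT.nd (nat_lit 78) (nat_lit 76) (nat_lit 0) (XT.lf (nat_lit 0) (nat_lit 98093445982) (nat_lit 76) (nat_lit 259757283804) (nat_lit 76) (nat_lit 32228951919) (nat_lit 13) (nat_lit 4) (nat_lit 14) (nat_lit 5) (nat_lit 14) (nat_lit 4) (nat_lit 417) (nat_lit 345) (nat_lit 138)) (XT.nd (nat_lit 78) (nat_lit 0) (nat_lit 0) (XT.lf (nat_lit 0) (nat_lit 19333735903) (nat_lit 152) (nat_lit 187894618578) (nat_lit 76) (nat_lit 199214802353) (nat_lit 12) (nat_lit 5) (nat_lit 14) (nat_lit 5) (nat_lit 13) (nat_lit 4) (nat_lit 418) (nat_lit 345) (nat_lit 137)) (XT.lf (nat_lit 0) (nat_lit 72391212905) (nat_lit 152) (nat_lit 79127214816) (nat_lit 76) (nat_lit 272079972959) (nat_lit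 12) (nat_lit 5) (nat_lit 14) (nat_lit 5) (nat_lit 13) (nat_lit 4) (nat_lit 419) (nat_lit 345) (nat_lit 136)))) (XT.nd (nat_lit 78) (nat_lit 0) (nat_lit 0) (XT.lf (nat_lit 0) (nat_lit 36237971220) (nat_lit 76) (nat_lit 92429139213) (nat_lit 152) (nat_lit 312916019026) (nat_lit 11) (nat_lit 5) (nat_lit 12) (nat_lit 5) (nat_lit 13) (nat_lit 4) (nat_lit 420) (nat_lit 345) (nat_lit 135)) (XT.nd (nat_lit 78) (nat_lit 0) (nat_lit 0) (XT.lf (nat_lit 0) (nat_lit 160118112405) (nat_lit 76) (nat_lit 28978522832) (nat_lit 152) (nat_lit 271303467890) (nat_lit 11) (nat_lit 5) (nat_lit 12) (nat_lit 5) (nat_lit 13) (nat_lit 4) (nat_lit 421) (nat_lit 345) (nat_lit 134)) (XT.lf (nat_lit 0) (nat_lit 253135156893) (nat_lit 152) (nat_lit 190553813046) (nat_lit 0) (nat_lit 36439579579) (nat_lit 11) (nat_lit 5) (nat_lit 13) (nat_lit 4) (nat_lit 11) (nat_lit 4) (nat_lit 422) (nat_lit 345) (nat_lit 133))))))))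
noncomputable def xc209 : XT := (XT.nd (nat_lit 42432) (nat_lit 0) (nat_lit 1824) (XT.nd (nat_lit 41496) (nat_lit 0) (nat_lit 4636) (XT.nd (nat_lit 41028) (nat_lit 0) (nat_lit 6156) (XT.nd (nat_lit 156) (nat_lit 0) (nat_lit 0) (XT.nd (nat_lit 78) (nat_lit 76) (nat_lit 0) (XT.lf (nat_lit 0) (nat_lit 320850455264) (nat_lit 152) (nat_lit 75814674834) (nat_lit 0) (nat_lit 104154545663) (nat_lit 11) (nat_lit 5) (nat_lit 13) (nat_lit 4) (nat_lit 11) (nat_lit 4) (nat_lit 423) (nat_lit 345) (nat_lit 132)) (XT.lf (nat_lit 0) (nat_lit 46137744239) (nat_lit 76) (nat_lit 346533916546) (nat_lit 76) (nat_lit 129837690482) (nat_lit 10) (nat_lit 4) (nat_lit 11) (nat_lit 5) (nat_lit 11) (nat_lit 4) (nat_lit 424) (nat_lit 345) (nat_lit 131))) (XT.nd (nat_lit 40716) (nat_lit 0) (nat_lit 6840) (XT.lf (nat_lit 0) (nat_lit 176819532583) (nat_lit 76) (nat_lit 292548158625) (nat_lit 76) (nat_lit 75851631166)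 (nat_lit 10) (nat_lit 4) (nat_lit 11) (nat_lit 5) (nat_lit 11) (nat_lit 4) (nat_lit 425) (nat_lit 345) (nat_lit 130)) (XT.nd (nat_lit 78) (nat_lit 0) (nat_lit 0) (XT.lf (nat_lit 0) (nat_lit 9319044725) (nat_lit 0) (nat_lit 9319044725) (nat_lit 684) (nat_lit 629265978) (nat_lit 100) (nat_lit 5) (nat_lit 100) (nat_lit 3) (nat_lit 109) (nat_lit 3) (nat_lit 346) (nat_lit 346) (nat_lit 208)) (XT.lf (nat_lit 0) (nat_lit 37470653250) (nat_lit 0) (nat_lit 779064801) (nat_lit 684) (nat_lit 1246214807) (nat_lit 100) (nat_lit 5) (nat_lit 100) (nat_lit 3) (nat_lit 109) (nat_lit 3) (nat_lit 347) (nat_lit 346) (nat_lit 207))))) (XT.nd (nat_lit 234) (nat_lit 0) (nat_lit 0) (XT.nd (nat_lit 78) (nat_lit 684) (nat_lit 0) (XT.lf (nat_lit 76) (nat_lit 17001691339) (nat_lit 0) (nat_lit 22813650044) (nat_lit 760) (nat_lit 662708312) (nat_lit 101) (nat_lit 5) (nat_lit 100) (nat_lit 5) (nat_lit 110) (nat_lit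 5) (nat_lit 348) (nat_lit 346) (nat_lit 206)) (XT.nd (nat_lit 78) (nat_lit 684) (nat_lit 0) (XT.lf (nat_lit 76) (nat_lit 37035663443) (nat_lit 0) (nat_lit 4467905777) (nat_lit 760) (nat_lit 3490890) (nat_lit 101) (nat_lit 5) (nat_lit 100) (nat_lit 5) (nat_lit 110) (nat_lit 5) (nat_lit 349) (nat_lit 346) (nat_lit 205)) (XT.lf (nat_lit 0) (nat_lit 1148998942) (nat_lit 760) (nat_lit 26826769696) (nat_lit 836) (nat_lit 14587100641) (nat_lit 91) (nat_lit 5) (nat_lit 101) (nat_lit 5) (nat_lit 102) (nat_lit 5) (nat_lit 350) (nat_lit 346) (nat_lit 204)))) (XT.nd (nat_lit 78) (nat_lit 0) (nat_lit 76) (XT.lf (nat_lit 0) (nat_lit 2506852173) (nat_lit 760) (nat_lit 6634612171) (nat_lit 836) (nat_lit 34522612263) (nat_lit 91) (nat_lit 5) (nat_lit 101) (nat_lit 5) (nat_lit 102) (nat_lit 5) (nat_lit 351) (nat_lit 346) (nat_lit 203)) (XT.nd (nat_lit 78) (nat_lit 0) (nat_lit 0) (XT.lf (nat_lit 0) (nat_lit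 4335182826) (nat_lit 760) (nat_lit 29931370171) (nat_lit 836) (nat_lit 10533665277) (nat_lit 92) (nat_lit 5) (nat_lit 102) (nat_lit 5) (nat_lit 103) (nat_lit 5) (nat_lit 352) (nat_lit 346) (nat_lit 202)) (XT.lf (nat_lit 0) (nat_lit 6516843623) (nat_lit 760) (nat_lit 8463045917) (nat_lit 836) (nat_lit 31000184862) (nat_lit 92) (nat_lit 5) (nat_lit 102) (nat_lit 5) (nat_lit 103) (nat_lit 5) (nat_lit 353) (nat_lit 346) (nat_lit 201)))))) (XT.nd (nat_lit 468) (nat_lit 1064) (nat_lit 0) (XT.nd (nat_lit 234) (nat_lit 608) (nat_lit 0) (XT.nd (nat_lit 78) (nat_lit 0) (nat_lit 0) (XT.lf (nat_lit 0) (nat_lit 9118618732) (nat_lit 760) (nat_lit 32751092058) (nat_lit 836) (nat_lit 5333663897) (nat_lit 93) (nat_lit 5) (nat_lit 103) (nat_lit 5) (nat_lit 104) (nat_lit 5) (nat_lit 354) (nat_lit 346) (nat_lit 200)) (XT.nd (nat_lit 78) (nat_lit 0) (nat_lit 0) (XT.lf (nat_lit 0) (nat_lit 12239764458) (nat_lit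 760) (nat_lit 9923021688) (nat_lit 836) (nat_lit 26305592523) (nat_lit 93) (nat_lit 5) (nat_lit 103) (nat_lit 5) (nat_lit 104) (nat_lit 5) (nat_lit 355) (nat_lit 346) (nat_lit 199)) (XT.lf (nat_lit 76) (nat_lit 14509295628) (nat_lit 0) (nat_lit 1232330722) (nat_lit 836) (nat_lit 34043776197) (nat_lit 94) (nat_lit 5) (nat_lit 93) (nat_lit 5) (nat_lit 104) (nat_lit 5) (nat_lit 356) (nat_lit 346) (nat_lit 198)))) (XT.nd (nat_lit 78) (nat_lit 684) (nat_lit 0) (XT.lf (nat_lit 0) (nat_lit 19911467536) (nat_lit 760) (nat_lit 10980395413) (nat_lit 76) (nat_lit 20251772878) (nat_lit 94) (nat_lit 5) (nat_lit 104) (nat_lit 5) (nat_lit 95) (nat_lit 5) (nat_lit 357) (nat_lit 346) (nat_lit 197)) (XT.nd (nat_lit 78) (nat_lit 0) (nat_lit 0) (XT.lf (nat_lit 0) (nat_lit 14988071365) (nat_lit 684) (nat_lit 9554221166) (nat_lit 760) (nat_lit 28014866047) (nat_lit 85) (nat_lit 5) (nat_lit 94) (nat_lit 5) (nat_lit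 95) (nat_lit 5) (nat_lit 358) (nat_lit 346) (nat_lit 196)) (XT.lf (nat_lit 0) (nat_lit 29792638932) (nat_lit 760) (nat_lit 11601163897) (nat_lit 76) (nat_lit 12628157915) (nat_lit 85) (nat_lit 5) (nat_lit 95) (nat_lit 5) (nat_lit 86) (nat_lit 5) (nat_lit 359) (nat_lit 346) (nat_lit 195))))) (XT.nd (nat_lit 234) (nat_lit 380) (nat_lit 0) (XT.nd (nat_lit 78) (nat_lit 304) (nat_lit 0) (XT.lf (nat_lit 0) (nat_lit 16019734239) (nat_lit 380) (nat_lit 19690930896) (nat_lit 456) (nat_lit 19829081931) (nat_lit 80) (nat_lit 5) (nat_lit 85) (nat_lit 5) (nat_lit 86) (nat_lit 5) (nat_lit 360) (nat_lit 346) (nat_lit 194)) (XT.nd (nat_lit 78) (nat_lit 304) (nat_lit 0) (XT.lf (nat_lit 0) (nat_lit 42171113968) (nat_lit 456) (nat_lit 11752311058) (nat_lit 76) (nat_lit 3197673683) (nat_lit 80) (nat_lit 5) (nat_lit 86) (nat_lit 5) (nat_lit 81) (nat_lit 5) (nat_lit 361) (nat_lit 346) (nat_lit 193)) (XT.lf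 (nat_lit 0) (nat_lit 17644192871) (nat_lit 304) (nat_lit 31907217418) (nat_lit 380) (nat_lit 9200268365) (nat_lit 76) (nat_lit 5) (nat_lit 80) (nat_lit 5) (nat_lit 81) (nat_lit 5) (nat_lit 362) (nat_lit 346) (nat_lit 192)))) (XT.nd (nat_lit 78) (nat_lit 380) (nat_lit 0) (XT.lf (nat_lit 0) (nat_lit 48917054831) (nat_lit 304) (nat_lit 8581291313) (nat_lit 380) (nat_lit 2955562094) (nat_lit 76) (nat_lit 5) (nat_lit 80) (nat_lit 5) (nat_lit 81) (nat_lit 5) (nat_lit 363) (nat_lit 346) (nat_lit 191)) (XT.nd (nat_lit 78) (nat_lit 0) (nat_lit 0) (XT.lf (nat_lit 0) (nat_lit 4053012592) (nat_lit 380) (nat_lit 42379413465) (nat_lit 76) (nat_lit 15777668580) (nat_lit 71) (nat_lit 5) (nat_lit 76) (nat_lit 5) (nat_lit 72) (nat_lit 5) (nat_lit 364) (nat_lit 346) (nat_lit 190)) (XT.lf (nat_lit 0) (nat_lit 11650629520) (nat_lit 380) (nat_lit 11071026501) (nat_lit 76) (nat_lit 41313116377) (nat_lit 71)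 (nat_lit 5) (nat_lit 76) (nat_lit 5) (nat_lit 72) (nat_lit 5) (nat_lit 365) (nat_lit 346) (nat_lit 189))))))) (XT.nd (nat_lit 858) (nat_lit 1140) (nat_lit 0) (XT.nd (nat_lit 390) (nat_lit 836) (nat_lit 0) (XT.nd (nat_lit 156) (nat_lit 532) (nat_lit 0) (XT.nd (nat_lit 78) (nat_lit 0) (nat_lit 0) (XT.lf (nat_lit 0) (nat_lit 20018216941) (nat_lit 380) (nat_lit 43450678257) (nat_lit 76) (nat_lit 2462285910) (nat_lit 67) (nat_lit 5) (nat_lit 72) (nat_lit 5) (nat_lit 68) (nat_lit 5) (nat_lit 366) (nat_lit 346) (nat_lit 188)) (XT.lf (nat_lit 0) (nat_lit 29366012561) (nat_lit 380) (nat_lit 10196090441) (nat_lit 76) (nat_lit 28332217282) (nat_lit 67) (nat_lit 5) (nat_lit 72) (nat_lit 5) (nat_lit 68) (nat_lit 5) (nat_lit 367) (nat_lit 346) (nat_lit 187))) (XT.nd (nat_lit 78) (nat_lit 228) (nat_lit 0) (XT.lf (nat_lit 0) (nat_lit 25537181055) (nat_lit 304) (nat_lit 14041557981) (nat_lit 380) (nat_lit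 30357001732) (nat_lit 63) (nat_lit 5) (nat_lit 67) (nat_lit 5) (nat_lit 68) (nat_lit 5) (nat_lit 368) (nat_lit 346) (nat_lit 186)) (XT.nd (nat_lit 78) (nat_lit 228) (nat_lit 0) (XT.lf (nat_lit 0) (nat_lit 50675614272) (nat_lit 380) (nat_lit 8862896048) (nat_lit 76) (nat_lit 12522047668) (nat_lit 63) (nat_lit 5) (nat_lit 68) (nat_lit 5) (nat_lit 64) (nat_lit 5) (nat_lit 369) (nat_lit 346) (nat_lit 185)) (XT.lf (nat_lit 0) (nat_lit 29151017210) (nat_lit 228) (nat_lit 33860553123) (nat_lit 304) (nat_lit 11245835153) (nat_lit 60) (nat_lit 5) (nat_lit 63) (nat_lit 5) (nat_lit 64) (nat_lit 5) (nat_lit 370) (nat_lit 346) (nat_lit 184))))) (XT.nd (nat_lit 234) (nat_lit 456) (nat_lit 0) (XT.nd (nat_lit 78) (nat_lit 380) (nat_lit 0) (XT.lf (nat_lit 0) (nat_lit 69371989067) (nat_lit 228) (nat_lit 6741381709) (nat_lit 304) (nat_lit 443273465) (nat_lit 60) (nat_lit 5) (nat_lit 63) (nat_lit 5) (nat_lit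 64) (nat_lit 5) (nat_lit 371) (nat_lit 346) (nat_lit 183)) (XT.nd (nat_lit 78) (nat_lit 0) (nat_lit 0) (XT.lf (nat_lit 0) (nat_lit 11423817247) (nat_lit 380) (nat_lit 45751886552) (nat_lit 76) (nat_lit 21742971195) (nat_lit 55) (nat_lit 5) (nat_lit 60) (nat_lit 5) (nat_lit 56) (nat_lit 5) (nat_lit 372) (nat_lit 346) (nat_lit 182)) (XT.lf (nat_lit 0) (nat_lit 24102555776) (nat_lit 380) (nat_lit 5728592899) (nat_lit 76) (nat_lit 51555636807) (nat_lit 55) (nat_lit 5) (nat_lit 60) (nat_lit 5) (nat_lit 56) (nat_lit 5) (nat_lit 373) (nat_lit 346) (nat_lit 181)))) (XT.nd (nat_lit 78) (nat_lit 228) (nat_lit 0) (XT.lf (nat_lit 0) (nat_lit 37494659433) (nat_lit 228) (nat_lit 505021301) (nat_lit 304) (nat_lit 45949399282) (nat_lit 52) (nat_lit 5) (nat_lit 55) (nat_lit 5) (nat_lit 56) (nat_lit 5) (nat_lit 374) (nat_lit 346) (nat_lit 180)) (XT.nd (nat_lit 78) (nat_lit 228) (nat_lit 0) (XT.lf (nat_lit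 0) (nat_lit 53162213544) (nat_lit 304) (nat_lit 4032432794) (nat_lit 76) (nat_lit 29416316306) (nat_lit 52) (nat_lit 5) (nat_lit 56) (nat_lit 5) (nat_lit 53) (nat_lit 5) (nat_lit 375) (nat_lit 346) (nat_lit 179)) (XT.lf (nat_lit 0) (nat_lit 41840296896) (nat_lit 228) (nat_lit 27903216846) (nat_lit 304) (nat_lit 19629394528) (nat_lit 49) (nat_lit 5) (nat_lit 52) (nat_lit 5) (nat_lit 53) (nat_lit 5) (nat_lit 376) (nat_lit 346) (nat_lit 178)))))) (XT.nd (nat_lit 468) (nat_lit 532) (nat_lit 0) (XT.nd (nat_lit 234) (nat_lit 380) (nat_lit 0) (XT.nd (nat_lit 78) (nat_lit 228) (nat_lit 0) (XT.lf (nat_lit 0) (nat_lit 87266964733) (nat_lit 304) (nat_lit 2169783858) (nat_lit 76) (nat_lit 2830549157) (nat_lit 49) (nat_lit 5) (nat_lit 53) (nat_lit 5) (nat_lit 50) (nat_lit 5) (nat_lit 377) (nat_lit 346) (nat_lit 177)) (XT.nd (nat_lit 78) (nat_lit 0) (nat_lit 0) (XT.lf (nat_lit 0) (nat_lit 11230428679)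 (nat_lit 228) (nat_lit 48937865796) (nat_lit 76) (nat_lit 35069933551) (nat_lit 46) (nat_lit 5) (nat_lit 49) (nat_lit 5) (nat_lit 47) (nat_lit 5) (nat_lit 378) (nat_lit 346) (nat_lit 176)) (XT.lf (nat_lit 0) (nat_lit 28141216560) (nat_lit 228) (nat_lit 1170293902) (nat_lit 76) (nat_lit 69040269863) (nat_lit 46) (nat_lit 5) (nat_lit 49) (nat_lit 5) (nat_lit 47) (nat_lit 5) (nat_lit 379) (nat_lit 346) (nat_lit 175)))) (XT.nd (nat_lit 78) (nat_lit 152) (nat_lit 0) (XT.lf (nat_lit 0) (nat_lit 46747999366) (nat_lit 304) (nat_lit 51038540671) (nat_lit 76) (nat_lit 3791948132) (nat_lit 43) (nat_lit 5) (nat_lit 47) (nat_lit 5) (nat_lit 44) (nat_lit 5) (nat_lit 380) (nat_lit 346) (nat_lit 174)) (XT.nd (nat_lit 78) (nat_lit 152) (nat_lit 0) (XT.lf (nat_lit 0) (nat_lit 66785018362) (nat_lit 304) (nat_lit 571205454) (nat_lit 76) (nat_lit 37585313410) (nat_lit 43) (nat_lit 5) (nat_lit 47) (nat_lit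 5) (nat_lit 44) (nat_lit 5) (nat_lit 381) (nat_lit 346) (nat_lit 173)) (XT.lf (nat_lit 0) (nat_lit 54151585951) (nat_lit 152) (nat_lit 34517032831) (nat_lit 228) (nat_lit 19761884072) (nat_lit 41) (nat_lit 5) (nat_lit 43) (nat_lit 5) (nat_lit 44) (nat_lit 5) (nat_lit 382) (nat_lit 346) (nat_lit 172))))) (XT.nd (nat_lit 234) (nat_lit 304) (nat_lit 0) (XT.nd (nat_lit 78) (nat_lit 228) (nat_lit 0) (XT.lf (nat_lit 0) (nat_lit 111629266121) (nat_lit 152) (nat_lit 26096959) (nat_lit 228) (nat_lit 438106104) (nat_lit 41) (nat_lit 5) (nat_lit 43) (nat_lit 5) (nat_lit 44) (nat_lit 5) (nat_lit 383) (nat_lit 346) (nat_lit 171)) (XT.nd (nat_lit 78) (nat_lit 0) (nat_lit 0) (XT.lf (nat_lit 0) (nat_lit 20699493313) (nat_lit 228) (nat_lit 58891063087) (nat_lit 76) (nat_lit 36259380020) (nat_lit 38) (nat_lit 5) (nat_lit 41) (nat_lit 5) (nat_lit 39) (nat_lit 5) (nat_lit 384) (nat_lit 346) (nat_lit 170))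 (XT.lf (nat_lit 0) (nat_lit 42886990887) (nat_lit 228) (nat_lit 2533418005) (nat_lit 76) (nat_lit 74373072481) (nat_lit 38) (nat_lit 5) (nat_lit 41) (nat_lit 5) (nat_lit 39) (nat_lit 5) (nat_lit 385) (nat_lit 346) (nat_lit 169)))) (XT.nd (nat_lit 78) (nat_lit 152) (nat_lit 0) (XT.lf (nat_lit 0) (nat_lit 58513905513) (nat_lit 152) (nat_lit 8582879327) (nat_lit 228) (nat_lit 56791773162) (nat_lit 36) (nat_lit 5) (nat_lit 38) (nat_lit 5) (nat_lit 39) (nat_lit 5) (nat_lit 386) (nat_lit 346) (nat_lit 168)) (XT.nd (nat_lit 78) (nat_lit 152) (nat_lit 0) (XT.lf (nat_lit 0) (nat_lit 93029932445) (nat_lit 228) (nat_lit 5956312012) (nat_lit 76) (nat_lit 29176501286) (nat_lit 36) (nat_lit 5) (nat_lit 39) (nat_lit 5) (nat_lit 37) (nat_lit 5) (nat_lit 387) (nat_lit 346) (nat_lit 167)) (XT.lf (nat_lit 0) (nat_lit 58152510766) (nat_lit 152) (nat_lit 63155248326) (nat_lit 228) (nat_lit 11290483151) (nat_lit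 34) (nat_lit 5) (nat_lit 36) (nat_lit 5) (nat_lit 37) (nat_lit 5) (nat_lit 388) (nat_lit 346) (nat_lit 166))))))))
noncomputable def xc210 : XT := (XT.nd (nat_lit 1794) (nat_lit 456) (nat_lit 0) (XT.nd (nat_lit 858) (nat_lit 608) (nat_lit 0) (XT.nd (nat_lit 390) (nat_lit 380) (nat_lit 0) (XT.nd (nat_lit 156) (nat_lit 152) (nat_lit 0) (XT.nd (nat_lit 78) (nat_lit 152) (nat_lit 0) (XT.lf (nat_lit 0) (nat_lit 13405996292) (nat_lit 228) (nat_lit 11794120833) (nat_lit 76) (nat_lit 112039571496) (nat_lit 33) (nat_lit 5) (nat_lit 36) (nat_lit 5) (nat_lit 34) (nat_lit 5) (nat_lit 389) (nat_lit 346) (nat_lit 165)) (XT.lf (nat_lit 0) (nat_lit 40071125848) (nat_lit 228) (nat_lit 86723565235) (nat_lit 76) (nat_lit 15253599115) (nat_lit 31) (nat_lit 5) (nat_lit 34) (nat_lit 5) (nat_lit 32) (nat_lit 5) (nat_lit 390) (nat_lit 346) (nat_lit 164))) (XT.nd (nat_lit 78) (nat_lit 152) (nat_lit 0) (XT.lf (nat_lit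 0) (nat_lit 68685076848) (nat_lit 228) (nat_lit 21295688597) (nat_lit 76) (nat_lit 57085778534) (nat_lit 31) (nat_lit 5) (nat_lit 34) (nat_lit 5) (nat_lit 32) (nat_lit 5) (nat_lit 391) (nat_lit 346) (nat_lit 163)) (XT.nd (nat_lit 78) (nat_lit 0) (nat_lit 0) (XT.lf (nat_lit 0) (nat_lit 48970032636) (nat_lit 152) (nat_lit 50523713864) (nat_lit 228) (nat_lit 52803763252) (nat_lit 29) (nat_lit 5) (nat_lit 31) (nat_lit 5) (nat_lit 32) (nat_lit 5) (nat_lit 392) (nat_lit 346) (nat_lit 162)) (XT.lf (nat_lit 0) (nat_lit 123487496502) (nat_lit 152) (nat_lit 8715479449) (nat_lit 228) (nat_lit 25569041888) (nat_lit 29) (nat_lit 5) (nat_lit 31) (nat_lit 5) (nat_lit 32) (nat_lit 5) (nat_lit 393) (nat_lit 346) (nat_lit 161))))) (XT.nd (nat_lit 234) (nat_lit 76) (nat_lit 0) (XT.nd (nat_lit 78) (nat_lit 152) (nat_lit 0) (XT.lf (nat_lit 0) (nat_lit 4105700759) (nat_lit 152) (nat_lit 124623023270) (nat_lit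 76) (nat_lit 34730405216) (nat_lit 27) (nat_lit 5) (nat_lit 29) (nat_lit 5) (nat_lit 28) (nat_lit 5) (nat_lit 394) (nat_lit 346) (nat_lit 160)) (XT.nd (nat_lit 78) (nat_lit 152) (nat_lit 0) (XT.lf (nat_lit 0) (nat_lit 35137408987) (nat_lit 152) (nat_lit 53170941809) (nat_lit 76) (nat_lit 81064661693) (nat_lit 27) (nat_lit 5) (nat_lit 29) (nat_lit 5) (nat_lit 28) (nat_lit 5) (nat_lit 395) (nat_lit 346) (nat_lit 159)) (XT.lf (nat_lit 0) (nat_lit 22575478226) (nat_lit 152) (nat_lit 45497210701) (nat_lit 228) (nat_lit 107492301934) (nat_lit 25) (nat_lit 5) (nat_lit 27) (nat_lit 5) (nat_lit 28) (nat_lit 5) (nat_lit 396) (nat_lit 346) (nat_lit 158)))) (XT.nd (nat_lit 78) (nat_lit 76) (nat_lit 0) (XT.lf (nat_lit 0) (nat_lit 103560978166) (nat_lit 228) (nat_lit 78073421979) (nat_lit 76) (nat_lit 386856007) (nat_lit 25) (nat_lit 5) (nat_lit 28) (nat_lit 5) (nat_lit 26) (nat_lit 4) (nat_lit 397)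 (nat_lit 346) (nat_lit 157)) (XT.nd (nat_lit 78) (nat_lit 76) (nat_lit 0) (XT.lf (nat_lit 0) (nat_lit 141569085182) (nat_lit 228) (nat_lit 158170334) (nat_lit 76) (nat_lit 47035809281) (nat_lit 25) (nat_lit 5) (nat_lit 28) (nat_lit 5) (nat_lit 26) (nat_lit 4) (nat_lit 398) (nat_lit 346) (nat_lit 156)) (XT.lf (nat_lit 0) (nat_lit 84351880741) (nat_lit 76) (nat_lit 98442255018) (nat_lit 152) (nat_lit 12982001445) (nat_lit 24) (nat_lit 5) (nat_lit 25) (nat_lit 5) (nat_lit 26) (nat_lit 4) (nat_lit 399) (nat_lit 346) (nat_lit 155)))))) (XT.nd (nat_lit 468) (nat_lit 304) (nat_lit 0) (XT.nd (nat_lit 234) (nat_lit 76) (nat_lit 0) (XT.nd (nat_lit 78) (nat_lit 152) (nat_lit 0) (XT.lf (nat_lit 0) (nat_lit 22208627366) (nat_lit 152) (nat_lit 30405766635) (nat_lit 76) (nat_lit 150507446446) (nat_lit 23) (nat_lit 5) (nat_lit 25) (nat_lit 5) (nat_lit 24) (nat_lit 5) (nat_lit 400) (nat_lit 346) (nat_lit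 154)) (XT.nd (nat_lit 78) (nat_lit 0) (nat_lit 0) (XT.lf (nat_lit 0) (nat_lit 56250477970) (nat_lit 152) (nat_lit 3349848130) (nat_lit 228) (nat_lit 151179971034) (nat_lit 21) (nat_lit 5) (nat_lit 23) (nat_lit 5) (nat_lit 24) (nat_lit 5) (nat_lit 401) (nat_lit 346) (nat_lit 153)) (XT.lf (nat_lit 0) (nat_lit 100139897663) (nat_lit 228) (nat_lit 71265252542) (nat_lit 76) (nat_lit 47352612254) (nat_lit 21) (nat_lit 5) (nat_lit 24) (nat_lit 5) (nat_lit 22) (nat_lit 4) (nat_lit 402) (nat_lit 346) (nat_lit 152)))) (XT.nd (nat_lit 78) (nat_lit 0) (nat_lit 0) (XT.lf (nat_lit 0) (nat_lit 16639508876) (nat_lit 76) (nat_lit 126381258078) (nat_lit 152) (nat_lit 84097618329) (nat_lit 20) (nat_lit 5) (nat_lit 21) (nat_lit 5) (nat_lit 22) (nat_lit 4) (nat_lit 403) (nat_lit 346) (nat_lit 151)) (XT.nd (nat_lit 78) (nat_lit 0) (nat_lit 0) (XT.lf (nat_lit 0) (nat_lit 111413001887) (nat_lit 76) (nat_lit 77839211426)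 (nat_lit 152) (nat_lit 46584499434) (nat_lit 20) (nat_lit 5) (nat_lit 21) (nat_lit 5) (nat_lit 22) (nat_lit 4) (nat_lit 404) (nat_lit 346) (nat_lit 150)) (XT.lf (nat_lit 0) (nat_lit 210924526574) (nat_lit 76) (nat_lit 26870345484) (nat_lit 152) (nat_lit 7196102697) (nat_lit 20) (nat_lit 5) (nat_lit 21) (nat_lit 5) (nat_lit 22) (nat_lit 4) (nat_lit 405) (nat_lit 346) (nat_lit 149))))) (XT.nd (nat_lit 234) (nat_lit 152) (nat_lit 0) (XT.nd (nat_lit 78) (nat_lit 0) (nat_lit 0) (XT.lf (nat_lit 0) (nat_lit 34480859935) (nat_lit 152) (nat_lit 192700754086) (nat_lit 76) (nat_lit 27324041280) (nat_lit 18) (nat_lit 5) (nat_lit 20) (nat_lit 5) (nat_lit 19) (nat_lit 4) (nat_lit 406) (nat_lit 346) (nat_lit 148)) (XT.nd (nat_lit 78) (nat_lit 0) (nat_lit 0) (XT.lf (nat_lit 0) (nat_lit 79026375798) (nat_lit 152) (nat_lit 101383246255) (nat_lit 76) (nat_lit 84029222458) (nat_lit 18) (nat_lit 5) (nat_lit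 20) (nat_lit 5) (nat_lit 19) (nat_lit 4) (nat_lit 407) (nat_lit 346) (nat_lit 147)) (XT.lf (nat_lit 0) (nat_lit 125798838109) (nat_lit 152) (nat_lit 5500460126) (nat_lit 76) (nat_lit 143569411557) (nat_lit 18) (nat_lit 5) (nat_lit 20) (nat_lit 5) (nat_lit 19) (nat_lit 4) (nat_lit 408) (nat_lit 346) (nat_lit 146)))) (XT.nd (nat_lit 78) (nat_lit 76) (nat_lit 0) (XT.lf (nat_lit 0) (nat_lit 98322841619) (nat_lit 76) (nat_lit 78121863361) (nat_lit 152) (nat_lit 109298624417) (nat_lit 17) (nat_lit 5) (nat_lit 18) (nat_lit 5) (nat_lit 19) (nat_lit 4) (nat_lit 409) (nat_lit 346) (nat_lit 145)) (XT.nd (nat_lit 78) (nat_lit 76) (nat_lit 0) (XT.lf (nat_lit 0) (nat_lit 207527712520) (nat_lit 76) (nat_lit 22187998168) (nat_lit 152) (nat_lit 67441327150) (nat_lit 17) (nat_lit 5) (nat_lit 18) (nat_lit 5) (nat_lit 19) (nat_lit 4) (nat_lit 410) (nat_lit 346) (nat_lit 144)) (XT.lf (nat_lit 0) (nat_lit 12892975356)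 (nat_lit 76) (nat_lit 273528822012) (nat_lit 76) (nat_lit 22681057919) (nat_lit 16) (nat_lit 4) (nat_lit 17) (nat_lit 5) (nat_lit 17) (nat_lit 4) (nat_lit 411) (nat_lit 346) (nat_lit 143))))))) (XT.nd (nat_lit 858) (nat_lit 76) (nat_lit 0) (XT.nd (nat_lit 390) (nat_lit 228) (nat_lit 0) (XT.nd (nat_lit 156) (nat_lit 76) (nat_lit 0) (XT.nd (nat_lit 78) (nat_lit 0) (nat_lit 0) (XT.lf (nat_lit 0) (nat_lit 25445163573) (nat_lit 152) (nat_lit 198685775507) (nat_lit 76) (nat_lit 97400729547) (nat_lit 15) (nat_lit 5) (nat_lit 17) (nat_lit 5) (nat_lit 16) (nat_lit 4) (nat_lit 412) (nat_lit 346) (nat_lit 142)) (XT.lf (nat_lit 0) (nat_lit 75215182266) (nat_lit 152) (nat_lit 96657805508) (nat_lit 76) (nat_lit 162690358013) (nat_lit 15) (nat_lit 5) (nat_lit 17) (nat_lit 5) (nat_lit 16) (nat_lit 4) (nat_lit 413) (nat_lit 346) (nat_lit 141))) (XT.nd (nat_lit 78) (nat_lit 0) (nat_lit 0) (XT.lf (nat_lit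 0) (nat_lit 10817289499) (nat_lit 76) (nat_lit 116825032410) (nat_lit 152) (nat_lit 220595853996) (nat_lit 14) (nat_lit 5) (nat_lit 15) (nat_lit 5) (nat_lit 16) (nat_lit 4) (nat_lit 414) (nat_lit 346) (nat_lit 140)) (XT.nd (nat_lit 78) (nat_lit 0) (nat_lit 0) (XT.lf (nat_lit 0) (nat_lit 127021393668) (nat_lit 76) (nat_lit 57306108561) (nat_lit 152) (nat_lit 178187411212) (nat_lit 14) (nat_lit 5) (nat_lit 15) (nat_lit 5) (nat_lit 16) (nat_lit 4) (nat_lit 415) (nat_lit 346) (nat_lit 139)) (XT.lf (nat_lit 0) (nat_lit 243927698865) (nat_lit 152) (nat_lit 128551268389) (nat_lit 0) (nat_lit 5022482825) (nat_lit 14) (nat_lit 5) (nat_lit 16) (nat_lit 4) (nat_lit 14) (nat_lit 4) (nat_lit 416) (nat_lit 346) (nat_lit 138))))) (XT.nd (nat_lit 234) (nat_lit 76) (nat_lit 0) (XT.nd (nat_lit 78) (nat_lit 152) (nat_lit 0) (XT.lf (nat_lit 0) (nat_lit 307447108013) (nat_lit 152) (nat_lit 17201798813) (nat_lit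 0) (nat_lit 68541446677) (nat_lit 14) (nat_lit 5) (nat_lit 16) (nat_lit 4) (nat_lit 14) (nat_lit 4) (nat_lit 417) (nat_lit 346) (nat_lit 137)) (XT.nd (nat_lit 78) (nat_lit 76) (nat_lit 0) (XT.lf (nat_lit 0) (nat_lit 103011734520) (nat_lit 76) (nat_lit 272738824752) (nat_lit 76) (nat_lit 33832739324) (nat_lit 13) (nat_lit 4) (nat_lit 14) (nat_lit 5) (nat_lit 14) (nat_lit 4) (nat_lit 418) (nat_lit 346) (nat_lit 136)) (XT.lf (nat_lit 0) (nat_lit 20307484619) (nat_lit 152) (nat_lit 197276145854) (nat_lit 76) (nat_lit 209181328799) (nat_lit 12) (nat_lit 5) (nat_lit 14) (nat_lit 5) (nat_lit 13) (nat_lit 4) (nat_lit 419) (nat_lit 346) (nat_lit 135)))) (XT.nd (nat_lit 78) (nat_lit 76) (nat_lit 0) (XT.lf (nat_lit 0) (nat_lit 76017499189) (nat_lit 152) (nat_lit 83071000650) (nat_lit 76) (nat_lit 285689482396) (nat_lit 12) (nat_lit 5) (nat_lit 14) (nat_lit 5) (nat_lit 13) (nat_lit 4) (nat_lit 420)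 (nat_lit 346) (nat_lit 134)) (XT.nd (nat_lit 78) (nat_lit 0) (nat_lit 0) (XT.lf (nat_lit 0) (nat_lit 38062241867) (nat_lit 76) (nat_lit 97044822621) (nat_lit 152) (nat_lit 328554889424) (nat_lit 11) (nat_lit 5) (nat_lit 12) (nat_lit 5) (nat_lit 13) (nat_lit 4) (nat_lit 421) (nat_lit 346) (nat_lit 133)) (XT.lf (nat_lit 0) (nat_lit 168135800965) (nat_lit 76) (nat_lit 30421950352) (nat_lit 152) (nat_lit 284862040758) (nat_lit 11) (nat_lit 5) (nat_lit 12) (nat_lit 5) (nat_lit 13) (nat_lit 4) (nat_lit 422) (nat_lit 346) (nat_lit 132)))))) (XT.nd (nat_lit 41184) (nat_lit 0) (nat_lit 6080) (XT.nd (nat_lit 40950) (nat_lit 0) (nat_lit 6840) (XT.nd (nat_lit 78) (nat_lit 76) (nat_lit 0) (XT.lf (nat_lit 0) (nat_lit 265797981563) (nat_lit 152) (nat_lit 200070062460) (nat_lit 0) (nat_lit 38266627731) (nat_lit 11) (nat_lit 5) (nat_lit 13) (nat_lit 4) (nat_lit 11) (nat_lit 4) (nat_lit 423) (nat_lit 346)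 (nat_lit 131)) (XT.nd (nat_lit 78) (nat_lit 76) (nat_lit 0) (XT.lf (nat_lit 0) (nat_lit 336898755956) (nat_lit 152) (nat_lit 79594512159) (nat_lit 0) (nat_lit 109367100730) (nat_lit 11) (nat_lit 5) (nat_lit 13) (nat_lit 4) (nat_lit 11) (nat_lit 4) (nat_lit 424) (nat_lit 346) (nat_lit 130)) (XT.lf (nat_lit 0) (nat_lit 48455352119) (nat_lit 76) (nat_lit 363855561874) (nat_lit 76) (nat_lit 136323619607) (nat_lit 10) (nat_lit 4) (nat_lit 11) (nat_lit 5) (nat_lit 11) (nat_lit 4) (nat_lit 425) (nat_lit 346) (nat_lit 129)))) (XT.nd (nat_lit 78) (nat_lit 0) (nat_lit 0) (XT.lf (nat_lit 0) (nat_lit 9805489283) (nat_lit 0) (nat_lit 9805489283) (nat_lit 684) (nat_lit 617632364) (nat_lit 100) (nat_lit 5) (nat_lit 100) (nat_lit 3) (nat_lit 109) (nat_lit 3) (nat_lit 347) (nat_lit 347) (nat_lit 206)) (XT.nd (nat_lit 78) (nat_lit 0) (nat_lit 0) (XT.lf (nat_lit 0) (nat_lit 39383218905) (nat_lit 0) (nat_lit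 857051034) (nat_lit 684) (nat_lit 1226436189) (nat_lit 100) (nat_lit 5) (nat_lit 100) (nat_lit 3) (nat_lit 109) (nat_lit 3) (nat_lit 348) (nat_lit 347) (nat_lit 205)) (XT.lf (nat_lit 76) (nat_lit 17894737400) (nat_lit 0) (nat_lit 23985809965) (nat_lit 760) (nat_lit 617568513) (nat_lit 101) (nat_lit 5) (nat_lit 100) (nat_lit 5) (nat_lit 110) (nat_lit 5) (nat_lit 349) (nat_lit 347) (nat_lit 204))))) (XT.nd (nat_lit 234) (nat_lit 0) (nat_lit 152) (XT.nd (nat_lit 78) (nat_lit 0) (nat_lit 76) (XT.lf (nat_lit 0) (nat_lit 68613708) (nat_lit 760) (nat_lit 4651503844) (nat_lit 836) (nat_lit 38858586609) (nat_lit 90) (nat_lit 5) (nat_lit 100) (nat_lit 5) (nat_lit 101) (nat_lit 5) (nat_lit 350) (nat_lit 347) (nat_lit 203)) (XT.nd (nat_lit 78) (nat_lit 0) (nat_lit 0) (XT.lf (nat_lit 0) (nat_lit 1275424531) (nat_lit 760) (nat_lit 28121417780) (nat_lit 836) (nat_lit 15290622865) (nat_lit 91) (nat_lit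 5) (nat_lit 101) (nat_lit 5) (nat_lit 102) (nat_lit 5) (nat_lit 351) (nat_lit 347) (nat_lit 202)) (XT.lf (nat_lit 0) (nat_lit 2697885869) (nat_lit 760) (nat_lit 6921875731) (nat_lit 836) (nat_lit 36224140201) (nat_lit 91) (nat_lit 5) (nat_lit 101) (nat_lit 5) (nat_lit 102) (nat_lit 5) (nat_lit 352) (nat_lit 347) (nat_lit 201)))) (XT.nd (nat_lit 78) (nat_lit 0) (nat_lit 0) (XT.lf (nat_lit 0) (nat_lit 4614883575) (nat_lit 760) (nat_lit 31380632551) (nat_lit 836) (nat_lit 11041476380) (nat_lit 92) (nat_lit 5) (nat_lit 102) (nat_lit 5) (nat_lit 103) (nat_lit 5) (nat_lit 353) (nat_lit 347) (nat_lit 200)) (XT.nd (nat_lit 78) (nat_lit 0) (nat_lit 76) (XT.lf (nat_lit 0) (nat_lit 6902630193) (nat_lit 760) (nat_lit 8841144757) (nat_lit 836) (nat_lit 32532220619) (nat_lit 92) (nat_lit 5) (nat_lit 102) (nat_lit 5) (nat_lit 103) (nat_lit 5) (nat_lit 354) (nat_lit 347) (nat_lit 199)) (XT.lf (nat_lit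 0) (nat_lit 9632121555) (nat_lit 760) (nat_lit 34341139432) (nat_lit 836) (nat_lit 5587322570) (nat_lit 93) (nat_lit 5) (nat_lit 103) (nat_lit 5) (nat_lit 104) (nat_lit 5) (nat_lit 355) (nat_lit 347) (nat_lit 198))))))))
noncomputable def xc211 : XT := (XT.nd (nat_lit 1794) (nat_lit 1976) (nat_lit 0) (XT.nd (nat_lit 858) (nat_lit 1672) (nat_lit 0) (XT.nd (nat_lit 390) (nat_lit 1064) (nat_lit 0) (XT.nd (nat_lit 156) (nat_lit 608) (nat_lit 0) (XT.nd (nat_lit 78) (nat_lit 0) (nat_lit 0) (XT.lf (nat_lit 0) (nat_lit 12906583049) (nat_lit 760) (nat_lit 10373927792) (nat_lit 836) (nat_lit 27608467843) (nat_lit 93) (nat_lit 5) (nat_lit 103) (nat_lit 5) (nat_lit 104) (nat_lit 5) (nat_lit 356) (nat_lit 347) (nat_lit 197)) (XT.lf (nat_lit 76) (nat_lit 15279275632) (nat_lit 0) (nat_lit 1302346441) (nat_lit 836) (nat_lit 35690331166) (nat_lit 94) (nat_lit 5) (nat_lit 93) (nat_lit 5) (nat_lit 104) (nat_lit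 5) (nat_lit 357) (nat_lit 347) (nat_lit 196))) (XT.nd (nat_lit 78) (nat_lit 684) (nat_lit 0) (XT.lf (nat_lit 0) (nat_lit 20957310694) (nat_lit 760) (nat_lit 11484304905) (nat_lit 76) (nat_lit 21256618325) (nat_lit 94) (nat_lit 5) (nat_lit 104) (nat_lit 5) (nat_lit 95) (nat_lit 5) (nat_lit 358) (nat_lit 347) (nat_lit 195)) (XT.nd (nat_lit 78) (nat_lit 0) (nat_lit 0) (XT.lf (nat_lit 0) (nat_lit 15781857627) (nat_lit 684) (nat_lit 10036118451) (nat_lit 760) (nat_lit 29364545121) (nat_lit 85) (nat_lit 5) (nat_lit 94) (nat_lit 5) (nat_lit 95) (nat_lit 5) (nat_lit 359) (nat_lit 347) (nat_lit 194)) (XT.lf (nat_lit 0) (nat_lit 31328464747) (nat_lit 760) (nat_lit 12136514129) (nat_lit 76) (nat_lit 13255706533) (nat_lit 85) (nat_lit 5) (nat_lit 95) (nat_lit 5) (nat_lit 86) (nat_lit 5) (nat_lit 360) (nat_lit 347) (nat_lit 193))))) (XT.nd (nat_lit 234) (nat_lit 380) (nat_lit 0) (XT.nd (nat_lit 78)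 (nat_lit 304) (nat_lit 0) (XT.lf (nat_lit 0) (nat_lit 16864707817) (nat_lit 380) (nat_lit 20676171494) (nat_lit 456) (nat_lit 20773560417) (nat_lit 80) (nat_lit 5) (nat_lit 85) (nat_lit 5) (nat_lit 86) (nat_lit 5) (nat_lit 361) (nat_lit 347) (nat_lit 192)) (XT.nd (nat_lit 78) (nat_lit 304) (nat_lit 0) (XT.lf (nat_lit 0) (nat_lit 44322212603) (nat_lit 456) (nat_lit 12295838616) (nat_lit 76) (nat_lit 3356917522) (nat_lit 80) (nat_lit 5) (nat_lit 86) (nat_lit 5) (nat_lit 81) (nat_lit 5) (nat_lit 362) (nat_lit 347) (nat_lit 191)) (XT.lf (nat_lit 0) (nat_lit 18569779413) (nat_lit 304) (nat_lit 33500395708) (nat_lit 380) (nat_lit 9616972744) (nat_lit 76) (nat_lit 5) (nat_lit 80) (nat_lit 5) (nat_lit 81) (nat_lit 5) (nat_lit 363) (nat_lit 347) (nat_lit 190)))) (XT.nd (nat_lit 78) (nat_lit 380) (nat_lit 0) (XT.lf (nat_lit 0) (nat_lit 51404218904) (nat_lit 304) (nat_lit 9008277230) (nat_lit 380)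 (nat_lit 3062093494) (nat_lit 76) (nat_lit 5) (nat_lit 80) (nat_lit 5) (nat_lit 81) (nat_lit 5) (nat_lit 364) (nat_lit 347) (nat_lit 189)) (XT.nd (nat_lit 78) (nat_lit 0) (nat_lit 0) (XT.lf (nat_lit 0) (nat_lit 4294395848) (nat_lit 380) (nat_lit 44454461317) (nat_lit 76) (nat_lit 16569758054) (nat_lit 71) (nat_lit 5) (nat_lit 76) (nat_lit 5) (nat_lit 72) (nat_lit 5) (nat_lit 365) (nat_lit 347) (nat_lit 188)) (XT.lf (nat_lit 0) (nat_lit 12270049212) (nat_lit 380) (nat_lit 11582746568) (nat_lit 76) (nat_lit 43381825572) (nat_lit 71) (nat_lit 5) (nat_lit 76) (nat_lit 5) (nat_lit 72) (nat_lit 5) (nat_lit 366) (nat_lit 347) (nat_lit 187)))))) (XT.nd (nat_lit 468) (nat_lit 836) (nat_lit 0) (XT.nd (nat_lit 234) (nat_lit 228) (nat_lit 0) (XT.nd (nat_lit 78) (nat_lit 304) (nat_lit 0) (XT.lf (nat_lit 0) (nat_lit 21054986025) (nat_lit 380) (nat_lit 45580307834) (nat_lit 76) (nat_lit 2590610293) (nat_lit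 67) (nat_lit 5) (nat_lit 72) (nat_lit 5) (nat_lit 68) (nat_lit 5) (nat_lit 367) (nat_lit 347) (nat_lit 186)) (XT.nd (nat_lit 78) (nat_lit 304) (nat_lit 0) (XT.lf (nat_lit 0) (nat_lit 30868463891) (nat_lit 380) (nat_lit 10665033691) (nat_lit 76) (nat_lit 29753790135) (nat_lit 67) (nat_lit 5) (nat_lit 72) (nat_lit 5) (nat_lit 68) (nat_lit 5) (nat_lit 368) (nat_lit 347) (nat_lit 185)) (XT.lf (nat_lit 0) (nat_lit 26854242327) (nat_lit 304) (nat_lit 14736585808) (nat_lit 380) (nat_lit 31840002971) (nat_lit 63) (nat_lit 5) (nat_lit 67) (nat_lit 5) (nat_lit 68) (nat_lit 5) (nat_lit 369) (nat_lit 347) (nat_lit 184)))) (XT.nd (nat_lit 78) (nat_lit 228) (nat_lit 0) (XT.lf (nat_lit 0) (nat_lit 53241073289) (nat_lit 380) (nat_lit 9266241947) (nat_lit 76) (nat_lit 13154649505) (nat_lit 63) (nat_lit 5) (nat_lit 68) (nat_lit 5) (nat_lit 64) (nat_lit 5) (nat_lit 370) (nat_lit 347) (nat_lit 183)) (XT.nd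 (nat_lit 78) (nat_lit 0) (nat_lit 0) (XT.lf (nat_lit 0) (nat_lit 30647725056) (nat_lit 228) (nat_lit 35545204957) (nat_lit 304) (nat_lit 11775771231) (nat_lit 60) (nat_lit 5) (nat_lit 63) (nat_lit 5) (nat_lit 64) (nat_lit 5) (nat_lit 371) (nat_lit 347) (nat_lit 182)) (XT.lf (nat_lit 0) (nat_lit 72877880888) (nat_lit 228) (nat_lit 7070473821) (nat_lit 304) (nat_lit 434622205) (nat_lit 60) (nat_lit 5) (nat_lit 63) (nat_lit 5) (nat_lit 64) (nat_lit 5) (nat_lit 372) (nat_lit 347) (nat_lit 181))))) (XT.nd (nat_lit 234) (nat_lit 228) (nat_lit 0) (XT.nd (nat_lit 78) (nat_lit 228) (nat_lit 0) (XT.lf (nat_lit 0) (nat_lit 12024140622) (nat_lit 380) (nat_lit 48000443300) (nat_lit 76) (nat_lit 22838537566) (nat_lit 55) (nat_lit 5) (nat_lit 60) (nat_lit 5) (nat_lit 56) (nat_lit 5) (nat_lit 373) (nat_lit 347) (nat_lit 180)) (XT.nd (nat_lit 78) (nat_lit 228) (nat_lit 0) (XT.lf (nat_lit 0) (nat_lit 25335428816)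 (nat_lit 380) (nat_lit 5977843897) (nat_lit 76) (nat_lit 54141435610) (nat_lit 55) (nat_lit 5) (nat_lit 60) (nat_lit 5) (nat_lit 56) (nat_lit 5) (nat_lit 374) (nat_lit 347) (nat_lit 179)) (XT.lf (nat_lit 0) (nat_lit 39405971396) (nat_lit 228) (nat_lit 520688523) (nat_lit 304) (nat_lit 48218496558) (nat_lit 52) (nat_lit 5) (nat_lit 55) (nat_lit 5) (nat_lit 56) (nat_lit 5) (nat_lit 375) (nat_lit 347) (nat_lit 178)))) (XT.nd (nat_lit 78) (nat_lit 228) (nat_lit 0) (XT.lf (nat_lit 0) (nat_lit 55846176392) (nat_lit 304) (nat_lit 4198047861) (nat_lit 76) (nat_lit 30895967455) (nat_lit 52) (nat_lit 5) (nat_lit 56) (nat_lit 5) (nat_lit 53) (nat_lit 5) (nat_lit 376) (nat_lit 347) (nat_lit 177)) (XT.nd (nat_lit 78) (nat_lit 0) (nat_lit 0) (XT.lf (nat_lit 0) (nat_lit 43967737562) (nat_lit 228) (nat_lit 29288126079) (nat_lit 304) (nat_lit 20584406133) (nat_lit 49) (nat_lit 5) (nat_lit 52) (nat_lit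 5) (nat_lit 53) (nat_lit 5) (nat_lit 377) (nat_lit 347) (nat_lit 176)) (XT.lf (nat_lit 0) (nat_lit 91654440844) (nat_lit 304) (nat_lit 2243463837) (nat_lit 76) (nat_lit 2981527562) (nat_lit 49) (nat_lit 5) (nat_lit 53) (nat_lit 5) (nat_lit 50) (nat_lit 5) (nat_lit 378) (nat_lit 347) (nat_lit 175))))))) (XT.nd (nat_lit 858) (nat_lit 836) (nat_lit 0) (XT.nd (nat_lit 390) (nat_lit 532) (nat_lit 0) (XT.nd (nat_lit 156) (nat_lit 380) (nat_lit 0) (XT.nd (nat_lit 78) (nat_lit 0) (nat_lit 0) (XT.lf (nat_lit 0) (nat_lit 11815871339) (nat_lit 228) (nat_lit 51349698599) (nat_lit 76) (nat_lit 36833351661) (nat_lit 46) (nat_lit 5) (nat_lit 49) (nat_lit 5) (nat_lit 47) (nat_lit 5) (nat_lit 379) (nat_lit 347) (nat_lit 174)) (XT.lf (nat_lit 0) (nat_lit 29571059508) (nat_lit 228) (nat_lit 1195417656) (nat_lit 76) (nat_lit 72501732339) (nat_lit 46) (nat_lit 5) (nat_lit 49) (nat_lit 5) (nat_lit 47) (nat_lit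 5) (nat_lit 380) (nat_lit 347) (nat_lit 173))) (XT.nd (nat_lit 78) (nat_lit 152) (nat_lit 0) (XT.lf (nat_lit 0) (nat_lit 49107775664) (nat_lit 304) (nat_lit 53556651229) (nat_lit 76) (nat_lit 3991847124) (nat_lit 43) (nat_lit 5) (nat_lit 47) (nat_lit 5) (nat_lit 44) (nat_lit 5) (nat_lit 381) (nat_lit 347) (nat_lit 172)) (XT.nd (nat_lit 78) (nat_lit 152) (nat_lit 0) (XT.lf (nat_lit 0) (nat_lit 70145580070) (nat_lit 304) (nat_lit 567559560) (nat_lit 76) (nat_lit 39474390114) (nat_lit 43) (nat_lit 5) (nat_lit 47) (nat_lit 5) (nat_lit 44) (nat_lit 5) (nat_lit 382) (nat_lit 347) (nat_lit 171)) (XT.lf (nat_lit 0) (nat_lit 56890851962) (nat_lit 152) (nat_lit 36231988469) (nat_lit 228) (nat_lit 20728130123) (nat_lit 41) (nat_lit 5) (nat_lit 43) (nat_lit 5) (nat_lit 44) (nat_lit 5) (nat_lit 383) (nat_lit 347) (nat_lit 170))))) (XT.nd (nat_lit 234) (nat_lit 304) (nat_lit 0) (XT.nd (nat_lit 78) (nat_lit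 228) (nat_lit 0) (XT.lf (nat_lit 0) (nat_lit 117240907248) (nat_lit 152) (nat_lit 17024660) (nat_lit 228) (nat_lit 439203645) (nat_lit 41) (nat_lit 5) (nat_lit 43) (nat_lit 5) (nat_lit 44) (nat_lit 5) (nat_lit 384) (nat_lit 347) (nat_lit 169)) (XT.nd (nat_lit 78) (nat_lit 0) (nat_lit 0) (XT.lf (nat_lit 0) (nat_lit 21754291818) (nat_lit 228) (nat_lit 61804422779) (nat_lit 76) (nat_lit 38082711982) (nat_lit 38) (nat_lit 5) (nat_lit 41) (nat_lit 5) (nat_lit 39) (nat_lit 5) (nat_lit 385) (nat_lit 347) (nat_lit 168)) (XT.lf (nat_lit 0) (nat_lit 45050220278) (nat_lit 228) (nat_lit 2630380846) (nat_lit 76) (nat_lit 78101595592) (nat_lit 38) (nat_lit 5) (nat_lit 41) (nat_lit 5) (nat_lit 39) (nat_lit 5) (nat_lit 386) (nat_lit 347) (nat_lit 167)))) (XT.nd (nat_lit 78) (nat_lit 152) (nat_lit 0) (XT.lf (nat_lit 0) (nat_lit 61468829685) (nat_lit 152) (nat_lit 9001231548) (nat_lit 228) (nat_lit 59611988779)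 (nat_lit 36) (nat_lit 5) (nat_lit 38) (nat_lit 5) (nat_lit 39) (nat_lit 5) (nat_lit 387) (nat_lit 347) (nat_lit 166)) (XT.nd (nat_lit 78) (nat_lit 152) (nat_lit 0) (XT.lf (nat_lit 0) (nat_lit 97699148724) (nat_lit 228) (nat_lit 6225559711) (nat_lit 76) (nat_lit 30645275248) (nat_lit 36) (nat_lit 5) (nat_lit 39) (nat_lit 5) (nat_lit 37) (nat_lit 5) (nat_lit 388) (nat_lit 347) (nat_lit 165)) (XT.lf (nat_lit 0) (nat_lit 61088243434) (nat_lit 152) (nat_lit 66302218308) (nat_lit 228) (nat_lit 11836814151) (nat_lit 34) (nat_lit 5) (nat_lit 36) (nat_lit 5) (nat_lit 37) (nat_lit 5) (nat_lit 389) (nat_lit 347) (nat_lit 164)))))) (XT.nd (nat_lit 468) (nat_lit 304) (nat_lit 0) (XT.nd (nat_lit 234) (nat_lit 304) (nat_lit 0) (XT.nd (nat_lit 78) (nat_lit 152) (nat_lit 0) (XT.lf (nat_lit 0) (nat_lit 14093068357) (nat_lit 228) (nat_lit 12356492070) (nat_lit 76) (nat_lit 117651262468) (nat_lit 33) (nat_lit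 5) (nat_lit 36) (nat_lit 5) (nat_lit 34) (nat_lit 5) (nat_lit 390) (nat_lit 347) (nat_lit 163)) (XT.nd (nat_lit 78) (nat_lit 0) (nat_lit 0) (XT.lf (nat_lit 0) (nat_lit 42091239543) (nat_lit 228) (nat_lit 91032182850) (nat_lit 76) (nat_lit 16026443450) (nat_lit 31) (nat_lit 5) (nat_lit 34) (nat_lit 5) (nat_lit 32) (nat_lit 5) (nat_lit 391) (nat_lit 347) (nat_lit 162)) (XT.lf (nat_lit 0) (nat_lit 72135099645) (nat_lit 228) (nat_lit 22334224792) (nat_lit 76) (nat_lit 59949747822) (nat_lit 31) (nat_lit 5) (nat_lit 34) (nat_lit 5) (nat_lit 32) (nat_lit 5) (nat_lit 392) (nat_lit 347) (nat_lit 161)))) (XT.nd (nat_lit 78) (nat_lit 152) (nat_lit 0) (XT.lf (nat_lit 0) (nat_lit 51444359144) (nat_lit 152) (nat_lit 53039495932) (nat_lit 228) (nat_lit 55427749129) (nat_lit 29) (nat_lit 5) (nat_lit 31) (nat_lit 5) (nat_lit 32) (nat_lit 5) (nat_lit 393) (nat_lit 347) (nat_lit 160)) (XT.nd (nat_lit 78)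 (nat_lit 152) (nat_lit 0) (XT.lf (nat_lit 0) (nat_lit 129686466448) (nat_lit 152) (nat_lit 9141345207) (nat_lit 228) (nat_lit 26832063234) (nat_lit 29) (nat_lit 5) (nat_lit 31) (nat_lit 5) (nat_lit 32) (nat_lit 5) (nat_lit 394) (nat_lit 347) (nat_lit 159)) (XT.lf (nat_lit 0) (nat_lit 4325754327) (nat_lit 152) (nat_lit 130828899435) (nat_lit 76) (nat_lit 36476684905) (nat_lit 27) (nat_lit 5) (nat_lit 29) (nat_lit 5) (nat_lit 28) (nat_lit 5) (nat_lit 395) (nat_lit 347) (nat_lit 158))))) (XT.nd (nat_lit 234) (nat_lit 152) (nat_lit 0) (XT.nd (nat_lit 78) (nat_lit 152) (nat_lit 0) (XT.lf (nat_lit 0) (nat_lit 36908344703) (nat_lit 152) (nat_lit 55805417471) (nat_lit 76) (nat_lit 85127189472) (nat_lit 27) (nat_lit 5) (nat_lit 29) (nat_lit 5) (nat_lit 28) (nat_lit 5) (nat_lit 396) (nat_lit 347) (nat_lit 157)) (XT.nd (nat_lit 78) (nat_lit 0) (nat_lit 0) (XT.lf (nat_lit 0) (nat_lit 23727935317)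 (nat_lit 152) (nat_lit 47762153309) (nat_lit 228) (nat_lit 112852455701) (nat_lit 25) (nat_lit 5) (nat_lit 27) (nat_lit 5) (nat_lit 28) (nat_lit 5) (nat_lit 397) (nat_lit 347) (nat_lit 156)) (XT.lf (nat_lit 0) (nat_lit 108752284311) (nat_lit 228) (nat_lit 81954022213) (nat_lit 76) (nat_lit 415342132) (nat_lit 25) (nat_lit 5) (nat_lit 28) (nat_lit 5) (nat_lit 26) (nat_lit 4) (nat_lit 398) (nat_lit 347) (nat_lit 155)))) (XT.nd (nat_lit 78) (nat_lit 152) (nat_lit 0) (XT.lf (nat_lit 0) (nat_lit 148660165382) (nat_lit 228) (nat_lit 144106598) (nat_lit 76) (nat_lit 49396307673) (nat_lit 25) (nat_lit 5) (nat_lit 28) (nat_lit 5) (nat_lit 26) (nat_lit 4) (nat_lit 399) (nat_lit 347) (nat_lit 154)) (XT.nd (nat_lit 78) (nat_lit 76) (nat_lit 0) (XT.lf (nat_lit 0) (nat_lit 88591092640) (nat_lit 76) (nat_lit 103355112128) (nat_lit 152) (nat_lit 13618114437) (nat_lit 24) (nat_lit 5) (nat_lit 25) (nat_lit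 5) (nat_lit 26) (nat_lit 4) (nat_lit 400) (nat_lit 347) (nat_lit 153)) (XT.lf (nat_lit 0) (nat_lit 23331031509) (nat_lit 152) (nat_lit 31905064531) (nat_lit 76) (nat_lit 158041231669) (nat_lit 23) (nat_lit 5) (nat_lit 25) (nat_lit 5) (nat_lit 24) (nat_lit 5) (nat_lit 401) (nat_lit 347) (nat_lit 152))))))))
noncomputable def xc212 : XT := (XT.nd (nat_lit 1716) (nat_lit 0) (nat_lit 0) (XT.nd (nat_lit 858) (nat_lit 380) (nat_lit 0) (XT.nd (nat_lit 390) (nat_lit 304) (nat_lit 0) (XT.nd (nat_lit 156) (nat_lit 76) (nat_lit 0) (XT.nd (nat_lit 78) (nat_lit 0) (nat_lit 0) (XT.lf (nat_lit 0) (nat_lit 59083653748) (nat_lit 152) (nat_lit 3508413733) (nat_lit 228) (nat_lit 158726652425) (nat_lit 21) (nat_lit 5) (nat_lit 23) (nat_lit 5) (nat_lit 24) (nat_lit 5) (nat_lit 402) (nat_lit 347) (nat_lit 151)) (XT.lf (nat_lit 0) (nat_lit 105158192022) (nat_lit 228) (nat_lit 74808415557) (nat_lit 76) (nat_lit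 49728472477) (nat_lit 21) (nat_lit 5) (nat_lit 24) (nat_lit 5) (nat_lit 22) (nat_lit 4) (nat_lit 403) (nat_lit 347) (nat_lit 150))) (XT.nd (nat_lit 78) (nat_lit 0) (nat_lit 0) (XT.lf (nat_lit 0) (nat_lit 17491259744) (nat_lit 76) (nat_lit 132691615712) (nat_lit 152) (nat_lit 88290870295) (nat_lit 20) (nat_lit 5) (nat_lit 21) (nat_lit 5) (nat_lit 22) (nat_lit 4) (nat_lit 404) (nat_lit 347) (nat_lit 149)) (XT.nd (nat_lit 78) (nat_lit 0) (nat_lit 0) (XT.lf (nat_lit 0) (nat_lit 117002485719) (nat_lit 76) (nat_lit 81722881264) (nat_lit 152) (nat_lit 48902649215) (nat_lit 20) (nat_lit 5) (nat_lit 21) (nat_lit 5) (nat_lit 22) (nat_lit 4) (nat_lit 405) (nat_lit 347) (nat_lit 148)) (XT.lf (nat_lit 0) (nat_lit 221488689796) (nat_lit 76) (nat_lit 28205966822) (nat_lit 152) (nat_lit 7545360031) (nat_lit 20) (nat_lit 5) (nat_lit 21) (nat_lit 5) (nat_lit 22) (nat_lit 4) (nat_lit 406) (nat_lit 347) (nat_lit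 147))))) (XT.nd (nat_lit 234) (nat_lit 152) (nat_lit 0) (XT.nd (nat_lit 78) (nat_lit 0) (nat_lit 0) (XT.lf (nat_lit 0) (nat_lit 36215032303) (nat_lit 152) (nat_lit 202317427548) (nat_lit 76) (nat_lit 28697967396) (nat_lit 18) (nat_lit 5) (nat_lit 20) (nat_lit 5) (nat_lit 19) (nat_lit 4) (nat_lit 407) (nat_lit 347) (nat_lit 146)) (XT.nd (nat_lit 78) (nat_lit 0) (nat_lit 0) (XT.lf (nat_lit 0) (nat_lit 82987341608) (nat_lit 152) (nat_lit 106434918814) (nat_lit 76) (nat_lit 88238039821) (nat_lit 18) (nat_lit 5) (nat_lit 20) (nat_lit 5) (nat_lit 19) (nat_lit 4) (nat_lit 408) (nat_lit 347) (nat_lit 145)) (XT.lf (nat_lit 0) (nat_lit 132097967653) (nat_lit 152) (nat_lit 5758826223) (nat_lit 76) (nat_lit 150754888077) (nat_lit 18) (nat_lit 5) (nat_lit 20) (nat_lit 5) (nat_lit 19) (nat_lit 4) (nat_lit 409) (nat_lit 347) (nat_lit 144)))) (XT.nd (nat_lit 78) (nat_lit 76) (nat_lit 0) (XT.lf (nat_lit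 0) (nat_lit 103255371949) (nat_lit 76) (nat_lit 82020574278) (nat_lit 152) (nat_lit 114754095582) (nat_lit 17) (nat_lit 5) (nat_lit 18) (nat_lit 5) (nat_lit 19) (nat_lit 4) (nat_lit 410) (nat_lit 347) (nat_lit 143)) (XT.nd (nat_lit 78) (nat_lit 76) (nat_lit 0) (XT.lf (nat_lit 0) (nat_lit 217919706002) (nat_lit 76) (nat_lit 23290367361) (nat_lit 152) (nat_lit 70804383929) (nat_lit 17) (nat_lit 5) (nat_lit 18) (nat_lit 5) (nat_lit 19) (nat_lit 4) (nat_lit 411) (nat_lit 347) (nat_lit 142)) (XT.lf (nat_lit 0) (nat_lit 13553297704) (nat_lit 76) (nat_lit 287198107489) (nat_lit 76) (nat_lit 23806163552) (nat_lit 16) (nat_lit 4) (nat_lit 17) (nat_lit 5) (nat_lit 17) (nat_lit 4) (nat_lit 412) (nat_lit 347) (nat_lit 141)))))) (XT.nd (nat_lit 390) (nat_lit 228) (nat_lit 0) (XT.nd (nat_lit 156) (nat_lit 76) (nat_lit 0) (XT.nd (nat_lit 78) (nat_lit 0) (nat_lit 0) (XT.lf (nat_lit 0) (nat_lit 26725670223)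 (nat_lit 152) (nat_lit 208604861240) (nat_lit 76) (nat_lit 102277305080) (nat_lit 15) (nat_lit 5) (nat_lit 17) (nat_lit 5) (nat_lit 16) (nat_lit 4) (nat_lit 413) (nat_lit 347) (nat_lit 140)) (XT.lf (nat_lit 0) (nat_lit 78983797067) (nat_lit 152) (nat_lit 101476216695) (nat_lit 76) (nat_lit 170831103585) (nat_lit 15) (nat_lit 5) (nat_lit 17) (nat_lit 5) (nat_lit 16) (nat_lit 4) (nat_lit 414) (nat_lit 347) (nat_lit 139))) (XT.nd (nat_lit 78) (nat_lit 0) (nat_lit 0) (XT.lf (nat_lit 0) (nat_lit 11372399529) (nat_lit 76) (nat_lit 122659742496) (nat_lit 152) (nat_lit 231617554671) (nat_lit 14) (nat_lit 5) (nat_lit 15) (nat_lit 5) (nat_lit 16) (nat_lit 4) (nat_lit 415) (nat_lit 347) (nat_lit 138)) (XT.nd (nat_lit 78) (nat_lit 0) (nat_lit 0) (XT.lf (nat_lit 0) (nat_lit 133386030546) (nat_lit 76) (nat_lit 60165183956) (nat_lit 152) (nat_lit 187089075082) (nat_lit 14) (nat_lit 5) (nat_lit 15) (nat_lit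 5) (nat_lit 16) (nat_lit 4) (nat_lit 416) (nat_lit 347) (nat_lit 137)) (XT.lf (nat_lit 0) (nat_lit 256131164218) (nat_lit 152) (nat_lit 134965651375) (nat_lit 0) (nat_lit 5279350427) (nat_lit 14) (nat_lit 5) (nat_lit 16) (nat_lit 4) (nat_lit 14) (nat_lit 4) (nat_lit 417) (nat_lit 347) (nat_lit 136))))) (XT.nd (nat_lit 234) (nat_lit 76) (nat_lit 0) (XT.nd (nat_lit 78) (nat_lit 152) (nat_lit 0) (XT.lf (nat_lit 0) (nat_lit 322826206661) (nat_lit 152) (nat_lit 18049335959) (nat_lit 0) (nat_lit 71973988973) (nat_lit 14) (nat_lit 5) (nat_lit 16) (nat_lit 4) (nat_lit 14) (nat_lit 4) (nat_lit 418) (nat_lit 347) (nat_lit 135)) (XT.nd (nat_lit 78) (nat_lit 76) (nat_lit 0) (XT.lf (nat_lit 0) (nat_lit 108174671576) (nat_lit 76) (nat_lit 286370030623) (nat_lit 76) (nat_lit 35517428271) (nat_lit 13) (nat_lit 4) (nat_lit 14) (nat_lit 5) (nat_lit 14) (nat_lit 4) (nat_lit 419) (nat_lit 347) (nat_lit 134))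 (XT.lf (nat_lit 0) (nat_lit 21329264221) (nat_lit 152) (nat_lit 207127977044) (nat_lit 76) (nat_lit 219645643610) (nat_lit 12) (nat_lit 5) (nat_lit 14) (nat_lit 5) (nat_lit 13) (nat_lit 4) (nat_lit 420) (nat_lit 347) (nat_lit 133)))) (XT.nd (nat_lit 78) (nat_lit 76) (nat_lit 0) (XT.lf (nat_lit 0) (nat_lit 79824474501) (nat_lit 152) (nat_lit 87213144871) (nat_lit 76) (nat_lit 299978954964) (nat_lit 12) (nat_lit 5) (nat_lit 14) (nat_lit 5) (nat_lit 13) (nat_lit 4) (nat_lit 421) (nat_lit 347) (nat_lit 132)) (XT.nd (nat_lit 78) (nat_lit 0) (nat_lit 0) (XT.lf (nat_lit 0) (nat_lit 39976575808) (nat_lit 76) (nat_lit 101891826969) (nat_lit 152) (nat_lit 344976347679) (nat_lit 11) (nat_lit 5) (nat_lit 12) (nat_lit 5) (nat_lit 13) (nat_lit 4) (nat_lit 422) (nat_lit 347) (nat_lit 131)) (XT.lf (nat_lit 0) (nat_lit 176553278487) (nat_lit 76) (nat_lit 31938060458) (nat_lit 152) (nat_lit 299099155924)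 (nat_lit 11) (nat_lit 5) (nat_lit 12) (nat_lit 5) (nat_lit 13) (nat_lit 4) (nat_lit 423) (nat_lit 347) (nat_lit 130))))))) (XT.nd (nat_lit 41652) (nat_lit 0) (nat_lit 4256) (XT.nd (nat_lit 41184) (nat_lit 0) (nat_lit 6004) (XT.nd (nat_lit 40950) (nat_lit 0) (nat_lit 6764) (XT.nd (nat_lit 78) (nat_lit 0) (nat_lit 0) (XT.lf (nat_lit 0) (nat_lit 279093383431) (nat_lit 152) (nat_lit 210063188043) (nat_lit 0) (nat_lit 40184557007) (nat_lit 11) (nat_lit 5) (nat_lit 13) (nat_lit 4) (nat_lit 11) (nat_lit 4) (nat_lit 424) (nat_lit 347) (nat_lit 129)) (XT.lf (nat_lit 0) (nat_lit 353748934505) (nat_lit 152) (nat_lit 83564354396) (nat_lit 0) (nat_lit 114839834709) (nat_lit 11) (nat_lit 5) (nat_lit 13) (nat_lit 4) (nat_lit 11) (nat_lit 4) (nat_lit 425) (nat_lit 347) (nat_lit 128))) (XT.nd (nat_lit 78) (nat_lit 0) (nat_lit 0) (XT.lf (nat_lit 0) (nat_lit 10314350886) (nat_lit 0) (nat_lit 10314350886)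 (nat_lit 684) (nat_lit 609423811) (nat_lit 100) (nat_lit 5) (nat_lit 100) (nat_lit 3) (nat_lit 109) (nat_lit 3) (nat_lit 348) (nat_lit 348) (nat_lit 204)) (XT.nd (nat_lit 78) (nat_lit 0) (nat_lit 0) (XT.lf (nat_lit 0) (nat_lit 41387783925) (nat_lit 0) (nat_lit 935307660) (nat_lit 684) (nat_lit 1213300530) (nat_lit 100) (nat_lit 5) (nat_lit 100) (nat_lit 3) (nat_lit 109) (nat_lit 3) (nat_lit 349) (nat_lit 348) (nat_lit 203)) (XT.lf (nat_lit 76) (nat_lit 18828441611) (nat_lit 0) (nat_lit 25213651409) (nat_lit 760) (nat_lit 577449012) (nat_lit 101) (nat_lit 5) (nat_lit 100) (nat_lit 5) (nat_lit 110) (nat_lit 5) (nat_lit 350) (nat_lit 348) (nat_lit 202))))) (XT.nd (nat_lit 234) (nat_lit 0) (nat_lit 152) (XT.nd (nat_lit 78) (nat_lit 0) (nat_lit 76) (XT.lf (nat_lit 0) (nat_lit 137497298) (nat_lit 760) (nat_lit 4844709033) (nat_lit 836) (nat_lit 40772066312) (nat_lit 90) (nat_lit 5) (nat_lit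 100) (nat_lit 5) (nat_lit 101) (nat_lit 5) (nat_lit 351) (nat_lit 348) (nat_lit 201)) (XT.nd (nat_lit 78) (nat_lit 0) (nat_lit 0) (XT.lf (nat_lit 0) (nat_lit 1401758698) (nat_lit 760) (nat_lit 29485139099) (nat_lit 836) (nat_lit 16031722889) (nat_lit 91) (nat_lit 5) (nat_lit 101) (nat_lit 5) (nat_lit 102) (nat_lit 5) (nat_lit 352) (nat_lit 348) (nat_lit 200)) (XT.lf (nat_lit 0) (nat_lit 2892363915) (nat_lit 760) (nat_lit 7227636594) (nat_lit 836) (nat_lit 38013031860) (nat_lit 91) (nat_lit 5) (nat_lit 101) (nat_lit 5) (nat_lit 102) (nat_lit 5) (nat_lit 353) (nat_lit 348) (nat_lit 199)))) (XT.nd (nat_lit 78) (nat_lit 0) (nat_lit 0) (XT.lf (nat_lit 0) (nat_lit 4902717648) (nat_lit 760) (nat_lit 32906756126) (nat_lit 836) (nat_lit 11576432592) (nat_lit 92) (nat_lit 5) (nat_lit 102) (nat_lit 5) (nat_lit 103) (nat_lit 5) (nat_lit 354) (nat_lit 348) (nat_lit 198)) (XT.nd (nat_lit 78) (nat_lit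 0) (nat_lit 76) (XT.lf (nat_lit 0) (nat_lit 7302133030) (nat_lit 760) (nat_lit 9242337182) (nat_lit 836) (nat_lit 34142529167) (nat_lit 92) (nat_lit 5) (nat_lit 102) (nat_lit 5) (nat_lit 103) (nat_lit 5) (nat_lit 355) (nat_lit 348) (nat_lit 197)) (XT.lf (nat_lit 0) (nat_lit 10165947031) (nat_lit 760) (nat_lit 36015105946) (nat_lit 836) (nat_lit 5854875073) (nat_lit 93) (nat_lit 5) (nat_lit 103) (nat_lit 5) (nat_lit 104) (nat_lit 5) (nat_lit 356) (nat_lit 348) (nat_lit 196)))))) (XT.nd (nat_lit 468) (nat_lit 988) (nat_lit 0) (XT.nd (nat_lit 234) (nat_lit 988) (nat_lit 0) (XT.nd (nat_lit 78) (nat_lit 0) (nat_lit 0) (XT.lf (nat_lit 0) (nat_lit 13601644961) (nat_lit 760) (nat_lit 10851585651) (nat_lit 836) (nat_lit 28977640162) (nat_lit 93) (nat_lit 5) (nat_lit 103) (nat_lit 5) (nat_lit 104) (nat_lit 5) (nat_lit 357) (nat_lit 348) (nat_lit 195)) (XT.nd (nat_lit 78) (nat_lit 0) (nat_lit 76)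 (XT.lf (nat_lit 76) (nat_lit 16083616033) (nat_lit 0) (nat_lit 1375082070) (nat_lit 836) (nat_lit 37424386190) (nat_lit 94) (nat_lit 5) (nat_lit 93) (nat_lit 5) (nat_lit 104) (nat_lit 5) (nat_lit 358) (nat_lit 348) (nat_lit 194)) (XT.lf (nat_lit 0) (nat_lit 22050772403) (nat_lit 760) (nat_lit 12017603797) (nat_lit 76) (nat_lit 22312425933) (nat_lit 94) (nat_lit 5) (nat_lit 104) (nat_lit 5) (nat_lit 95) (nat_lit 5) (nat_lit 359) (nat_lit 348) (nat_lit 193)))) (XT.nd (nat_lit 78) (nat_lit 380) (nat_lit 0) (XT.lf (nat_lit 0) (nat_lit 16611206920) (nat_lit 684) (nat_lit 10541721405) (nat_lit 760) (nat_lit 30786455616) (nat_lit 85) (nat_lit 5) (nat_lit 94) (nat_lit 5) (nat_lit 95) (nat_lit 5) (nat_lit 360) (nat_lit 348) (nat_lit 192)) (XT.nd (nat_lit 78) (nat_lit 380) (nat_lit 0) (XT.lf (nat_lit 0) (nat_lit 32936787184) (nat_lit 760) (nat_lit 12702788396) (nat_lit 76) (nat_lit 13914991381)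 (nat_lit 85) (nat_lit 5) (nat_lit 95) (nat_lit 5) (nat_lit 86) (nat_lit 5) (nat_lit 361) (nat_lit 348) (nat_lit 191)) (XT.lf (nat_lit 0) (nat_lit 17747840592) (nat_lit 380) (nat_lit 21710609594) (nat_lit 456) (nat_lit 21769630175) (nat_lit 80) (nat_lit 5) (nat_lit 85) (nat_lit 5) (nat_lit 86) (nat_lit 5) (nat_lit 362) (nat_lit 348) (nat_lit 190))))) (XT.nd (nat_lit 234) (nat_lit 684) (nat_lit 0) (XT.nd (nat_lit 78) (nat_lit 304) (nat_lit 0) (XT.lf (nat_lit 0) (nat_lit 46576910930) (nat_lit 456) (nat_lit 12870641436) (nat_lit 76) (nat_lit 3524183038) (nat_lit 80) (nat_lit 5) (nat_lit 86) (nat_lit 5) (nat_lit 81) (nat_lit 5) (nat_lit 363) (nat_lit 348) (nat_lit 189)) (XT.nd (nat_lit 78) (nat_lit 0) (nat_lit 0) (XT.lf (nat_lit 0) (nat_lit 19537612508) (nat_lit 304) (nat_lit 35173435828) (nat_lit 380) (nat_lit 10058538805) (nat_lit 76) (nat_lit 5) (nat_lit 80) (nat_lit 5) (nat_lit 81) (nat_lit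 5) (nat_lit 364) (nat_lit 348) (nat_lit 188)) (XT.lf (nat_lit 0) (nat_lit 54011900444) (nat_lit 304) (nat_lit 9456805696) (nat_lit 380) (nat_lit 3177786192) (nat_lit 76) (nat_lit 5) (nat_lit 80) (nat_lit 5) (nat_lit 81) (nat_lit 5) (nat_lit 365) (nat_lit 348) (nat_lit 187)))) (XT.nd (nat_lit 78) (nat_lit 304) (nat_lit 0) (XT.lf (nat_lit 0) (nat_lit 4544247275) (nat_lit 380) (nat_lit 46637345090) (nat_lit 76) (nat_lit 17401153934) (nat_lit 71) (nat_lit 5) (nat_lit 76) (nat_lit 5) (nat_lit 72) (nat_lit 5) (nat_lit 366) (nat_lit 348) (nat_lit 186)) (XT.nd (nat_lit 78) (nat_lit 304) (nat_lit 0) (XT.lf (nat_lit 0) (nat_lit 12917010372) (nat_lit 380) (nat_lit 12123941713) (nat_lit 76) (nat_lit 45553686353) (nat_lit 71) (nat_lit 5) (nat_lit 76) (nat_lit 5) (nat_lit 72) (nat_lit 5) (nat_lit 367) (nat_lit 348) (nat_lit 185)) (XT.lf (nat_lit 0) (nat_lit 22140259804) (nat_lit 380) (nat_lit 47820407728)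 (nat_lit 76) (nat_lit 2724866511) (nat_lit 67) (nat_lit 5) (nat_lit 72) (nat_lit 5) (nat_lit 68) (nat_lit 5) (nat_lit 368) (nat_lit 348) (nat_lit 184))))))))
noncomputable def xc213 : XT := (XT.nd (nat_lit 1794) (nat_lit 1368) (nat_lit 0) (XT.nd (nat_lit 858) (nat_lit 1216) (nat_lit 0) (XT.nd (nat_lit 390) (nat_lit 836) (nat_lit 0) (XT.nd (nat_lit 156) (nat_lit 228) (nat_lit 0) (XT.nd (nat_lit 78) (nat_lit 304) (nat_lit 0) (XT.lf (nat_lit 0) (nat_lit 32442862779) (nat_lit 380) (nat_lit 11161222997) (nat_lit 76) (nat_lit 31245980311) (nat_lit 67) (nat_lit 5) (nat_lit 72) (nat_lit 5) (nat_lit 68) (nat_lit 5) (nat_lit 369) (nat_lit 348) (nat_lit 183)) (XT.lf (nat_lit 0) (nat_lit 28233419042) (nat_lit 304) (nat_lit 15467020475) (nat_lit 380) (nat_lit 33400394187) (nat_lit 63) (nat_lit 5) (nat_lit 67) (nat_lit 5) (nat_lit 68) (nat_lit 5) (nat_lit 370) (nat_lit 348) (nat_lit 182))) (XT.nd (nat_lit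 78) (nat_lit 228) (nat_lit 0) (XT.lf (nat_lit 0) (nat_lit 55931860108) (nat_lit 380) (nat_lit 9693455265) (nat_lit 76) (nat_lit 13818277176) (nat_lit 63) (nat_lit 5) (nat_lit 68) (nat_lit 5) (nat_lit 64) (nat_lit 5) (nat_lit 371) (nat_lit 348) (nat_lit 181)) (XT.nd (nat_lit 78) (nat_lit 0) (nat_lit 0) (XT.lf (nat_lit 0) (nat_lit 32215627849) (nat_lit 228) (nat_lit 37314868087) (nat_lit 304) (nat_lit 12335212237) (nat_lit 60) (nat_lit 5) (nat_lit 63) (nat_lit 5) (nat_lit 64) (nat_lit 5) (nat_lit 372) (nat_lit 348) (nat_lit 180)) (XT.lf (nat_lit 0) (nat_lit 76555600208) (nat_lit 228) (nat_lit 7416762162) (nat_lit 304) (nat_lit 428403263) (nat_lit 60) (nat_lit 5) (nat_lit 63) (nat_lit 5) (nat_lit 64) (nat_lit 5) (nat_lit 373) (nat_lit 348) (nat_lit 179))))) (XT.nd (nat_lit 234) (nat_lit 228) (nat_lit 0) (XT.nd (nat_lit 78) (nat_lit 228) (nat_lit 0) (XT.lf (nat_lit 0) (nat_lit 12651771701)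 (nat_lit 380) (nat_lit 50365057230) (nat_lit 76) (nat_lit 23988099646) (nat_lit 55) (nat_lit 5) (nat_lit 60) (nat_lit 5) (nat_lit 56) (nat_lit 5) (nat_lit 374) (nat_lit 348) (nat_lit 178)) (XT.nd (nat_lit 78) (nat_lit 228) (nat_lit 0) (XT.lf (nat_lit 0) (nat_lit 26627366016) (nat_lit 380) (nat_lit 6243013963) (nat_lit 76) (nat_lit 56855779012) (nat_lit 55) (nat_lit 5) (nat_lit 60) (nat_lit 5) (nat_lit 56) (nat_lit 5) (nat_lit 375) (nat_lit 348) (nat_lit 177)) (XT.lf (nat_lit 0) (nat_lit 41409448189) (nat_lit 228) (nat_lit 538030121) (nat_lit 304) (nat_lit 50603686521) (nat_lit 52) (nat_lit 5) (nat_lit 55) (nat_lit 5) (nat_lit 56) (nat_lit 5) (nat_lit 376) (nat_lit 348) (nat_lit 176)))) (XT.nd (nat_lit 78) (nat_lit 228) (nat_lit 0) (XT.lf (nat_lit 0) (nat_lit 58661933893) (nat_lit 304) (nat_lit 4375291232) (nat_lit 76) (nat_lit 32448779736) (nat_lit 52) (nat_lit 5) (nat_lit 56) (nat_lit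 5) (nat_lit 53) (nat_lit 5) (nat_lit 377) (nat_lit 348) (nat_lit 175)) (XT.nd (nat_lit 78) (nat_lit 0) (nat_lit 0) (XT.lf (nat_lit 0) (nat_lit 46198256704) (nat_lit 228) (nat_lit 30743233870) (nat_lit 304) (nat_lit 21589628144) (nat_lit 49) (nat_lit 5) (nat_lit 52) (nat_lit 5) (nat_lit 53) (nat_lit 5) (nat_lit 378) (nat_lit 348) (nat_lit 174)) (XT.lf (nat_lit 0) (nat_lit 96259047579) (nat_lit 304) (nat_lit 2324064046) (nat_lit 76) (nat_lit 3139176227) (nat_lit 49) (nat_lit 5) (nat_lit 53) (nat_lit 5) (nat_lit 50) (nat_lit 5) (nat_lit 379) (nat_lit 348) (nat_lit 173)))))) (XT.nd (nat_lit 468) (nat_lit 608) (nat_lit 0) (XT.nd (nat_lit 234) (nat_lit 152) (nat_lit 0) (XT.nd (nat_lit 78) (nat_lit 228) (nat_lit 0) (XT.lf (nat_lit 0) (nat_lit 12428362163) (nat_lit 228) (nat_lit 53885382633) (nat_lit 76) (nat_lit 38684018275) (nat_lit 46) (nat_lit 5) (nat_lit 49) (nat_lit 5) (nat_lit 47) (nat_lit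 5) (nat_lit 380) (nat_lit 348) (nat_lit 172)) (XT.nd (nat_lit 78) (nat_lit 228) (nat_lit 0) (XT.lf (nat_lit 0) (nat_lit 31070276538) (nat_lit 228) (nat_lit 1224901972) (nat_lit 76) (nat_lit 76135389461) (nat_lit 46) (nat_lit 5) (nat_lit 49) (nat_lit 5) (nat_lit 47) (nat_lit 5) (nat_lit 381) (nat_lit 348) (nat_lit 171)) (XT.lf (nat_lit 0) (nat_lit 51583460437) (nat_lit 304) (nat_lit 56203811250) (nat_lit 76) (nat_lit 4200783321) (nat_lit 43) (nat_lit 5) (nat_lit 47) (nat_lit 5) (nat_lit 44) (nat_lit 5) (nat_lit 382) (nat_lit 348) (nat_lit 170)))) (XT.nd (nat_lit 78) (nat_lit 152) (nat_lit 0) (XT.lf (nat_lit 0) (nat_lit 73672188588) (nat_lit 304) (nat_lit 566725595) (nat_lit 76) (nat_lit 41457008516) (nat_lit 43) (nat_lit 5) (nat_lit 47) (nat_lit 5) (nat_lit 44) (nat_lit 5) (nat_lit 383) (nat_lit 348) (nat_lit 169)) (XT.nd (nat_lit 78) (nat_lit 0) (nat_lit 0) (XT.lf (nat_lit 0) (nat_lit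 59764135342) (nat_lit 152) (nat_lit 38033704895) (nat_lit 228) (nat_lit 21744719710) (nat_lit 41) (nat_lit 5) (nat_lit 43) (nat_lit 5) (nat_lit 44) (nat_lit 5) (nat_lit 384) (nat_lit 348) (nat_lit 168)) (XT.lf (nat_lit 0) (nat_lit 123130324785) (nat_lit 152) (nat_lit 8463515) (nat_lit 228) (nat_lit 442290571) (nat_lit 41) (nat_lit 5) (nat_lit 43) (nat_lit 5) (nat_lit 44) (nat_lit 5) (nat_lit 385) (nat_lit 348) (nat_lit 167))))) (XT.nd (nat_lit 234) (nat_lit 228) (nat_lit 0) (XT.nd (nat_lit 78) (nat_lit 152) (nat_lit 0) (XT.lf (nat_lit 0) (nat_lit 22859987215) (nat_lit 228) (nat_lit 64866350529) (nat_lit 76) (nat_lit 39996247092) (nat_lit 38) (nat_lit 5) (nat_lit 41) (nat_lit 5) (nat_lit 39) (nat_lit 5) (nat_lit 386) (nat_lit 348) (nat_lit 166)) (XT.nd (nat_lit 78) (nat_lit 152) (nat_lit 0) (XT.lf (nat_lit 0) (nat_lit 47319855869) (nat_lit 228) (nat_lit 2734953803) (nat_lit 76) (nat_lit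 82015627286) (nat_lit 38) (nat_lit 5) (nat_lit 41) (nat_lit 5) (nat_lit 39) (nat_lit 5) (nat_lit 387) (nat_lit 348) (nat_lit 165)) (XT.lf (nat_lit 0) (nat_lit 64568782640) (nat_lit 152) (nat_lit 9441504694) (nat_lit 228) (nat_lit 62575016299) (nat_lit 36) (nat_lit 5) (nat_lit 38) (nat_lit 5) (nat_lit 39) (nat_lit 5) (nat_lit 388) (nat_lit 348) (nat_lit 164)))) (XT.nd (nat_lit 78) (nat_lit 228) (nat_lit 0) (XT.lf (nat_lit 0) (nat_lit 102600178413) (nat_lit 228) (nat_lit 6510925767) (nat_lit 76) (nat_lit 32186562953) (nat_lit 36) (nat_lit 5) (nat_lit 39) (nat_lit 5) (nat_lit 37) (nat_lit 5) (nat_lit 389) (nat_lit 348) (nat_lit 163)) (XT.nd (nat_lit 78) (nat_lit 76) (nat_lit 0) (XT.lf (nat_lit 0) (nat_lit 64168149600) (nat_lit 152) (nat_lit 69607540168) (nat_lit 228) (nat_lit 12412153128) (nat_lit 34) (nat_lit 5) (nat_lit 36) (nat_lit 5) (nat_lit 37) (nat_lit 5) (nat_lit 390) (nat_lit 348)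 (nat_lit 162)) (XT.lf (nat_lit 0) (nat_lit 14812934701) (nat_lit 228) (nat_lit 12949523199) (nat_lit 76) (nat_lit 123542635023) (nat_lit 33) (nat_lit 5) (nat_lit 36) (nat_lit 5) (nat_lit 34) (nat_lit 5) (nat_lit 391) (nat_lit 348) (nat_lit 161))))))) (XT.nd (nat_lit 858) (nat_lit 608) (nat_lit 0) (XT.nd (nat_lit 390) (nat_lit 304) (nat_lit 0) (XT.nd (nat_lit 156) (nat_lit 304) (nat_lit 0) (XT.nd (nat_lit 78) (nat_lit 0) (nat_lit 0) (XT.lf (nat_lit 0) (nat_lit 44210819573) (nat_lit 228) (nat_lit 95558793673) (nat_lit 76) (nat_lit 16836985014) (nat_lit 31) (nat_lit 5) (nat_lit 34) (nat_lit 5) (nat_lit 32) (nat_lit 5) (nat_lit 392) (nat_lit 348) (nat_lit 160)) (XT.lf (nat_lit 0) (nat_lit 75756157535) (nat_lit 228) (nat_lit 23427128108) (nat_lit 76) (nat_lit 62956015586) (nat_lit 31) (nat_lit 5) (nat_lit 34) (nat_lit 5) (nat_lit 32) (nat_lit 5) (nat_lit 393) (nat_lit 348) (nat_lit 159))) (XT.nd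 (nat_lit 78) (nat_lit 152) (nat_lit 0) (XT.lf (nat_lit 0) (nat_lit 54040001026) (nat_lit 152) (nat_lit 55682034334) (nat_lit 228) (nat_lit 58184440634) (nat_lit 29) (nat_lit 5) (nat_lit 31) (nat_lit 5) (nat_lit 32) (nat_lit 5) (nat_lit 394) (nat_lit 348) (nat_lit 158)) (XT.nd (nat_lit 78) (nat_lit 152) (nat_lit 0) (XT.lf (nat_lit 0) (nat_lit 136193098270) (nat_lit 152) (nat_lit 9589425424) (nat_lit 228) (nat_lit 28159670251) (nat_lit 29) (nat_lit 5) (nat_lit 31) (nat_lit 5) (nat_lit 32) (nat_lit 5) (nat_lit 395) (nat_lit 348) (nat_lit 157)) (XT.lf (nat_lit 0) (nat_lit 4555437535) (nat_lit 152) (nat_lit 137347419237) (nat_lit 76) (nat_lit 38309371240) (nat_lit 27) (nat_lit 5) (nat_lit 29) (nat_lit 5) (nat_lit 28) (nat_lit 5) (nat_lit 396) (nat_lit 348) (nat_lit 156))))) (XT.nd (nat_lit 234) (nat_lit 152) (nat_lit 0) (XT.nd (nat_lit 78) (nat_lit 152) (nat_lit 0) (XT.lf (nat_lit 0) (nat_lit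 38766519550) (nat_lit 152) (nat_lit 58573854850) (nat_lit 76) (nat_lit 89391979507) (nat_lit 27) (nat_lit 5) (nat_lit 29) (nat_lit 5) (nat_lit 28) (nat_lit 5) (nat_lit 397) (nat_lit 348) (nat_lit 155)) (XT.nd (nat_lit 78) (nat_lit 0) (nat_lit 0) (XT.lf (nat_lit 0) (nat_lit 24935813424) (nat_lit 152) (nat_lit 50141265123) (nat_lit 228) (nat_lit 118481961635) (nat_lit 25) (nat_lit 5) (nat_lit 27) (nat_lit 5) (nat_lit 28) (nat_lit 5) (nat_lit 398) (nat_lit 348) (nat_lit 154)) (XT.lf (nat_lit 0) (nat_lit 114201923232) (nat_lit 228) (nat_lit 86030797369) (nat_lit 76) (nat_lit 444402504) (nat_lit 25) (nat_lit 5) (nat_lit 28) (nat_lit 5) (nat_lit 26) (nat_lit 4) (nat_lit 399) (nat_lit 348) (nat_lit 153)))) (XT.nd (nat_lit 78) (nat_lit 152) (nat_lit 0) (XT.lf (nat_lit 0) (nat_lit 156104625751) (nat_lit 228) (nat_lit 131382447) (nat_lit 76) (nat_lit 51874021404) (nat_lit 25) (nat_lit 5) (nat_lit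 28) (nat_lit 5) (nat_lit 26) (nat_lit 4) (nat_lit 400) (nat_lit 348) (nat_lit 152)) (XT.nd (nat_lit 78) (nat_lit 76) (nat_lit 0) (XT.lf (nat_lit 0) (nat_lit 93040255310) (nat_lit 76) (nat_lit 108514472595) (nat_lit 152) (nat_lit 14287240493) (nat_lit 24) (nat_lit 5) (nat_lit 25) (nat_lit 5) (nat_lit 26) (nat_lit 4) (nat_lit 401) (nat_lit 348) (nat_lit 151)) (XT.lf (nat_lit 0) (nat_lit 24508442744) (nat_lit 152) (nat_lit 33481278814) (nat_lit 76) (nat_lit 165950924000) (nat_lit 23) (nat_lit 5) (nat_lit 25) (nat_lit 5) (nat_lit 24) (nat_lit 5) (nat_lit 402) (nat_lit 348) (nat_lit 150)))))) (XT.nd (nat_lit 468) (nat_lit 228) (nat_lit 0) (XT.nd (nat_lit 234) (nat_lit 152) (nat_lit 0) (XT.nd (nat_lit 78) (nat_lit 76) (nat_lit 0) (XT.lf (nat_lit 0) (nat_lit 62056568300) (nat_lit 152) (nat_lit 3675737545) (nat_lit 228) (nat_lit 166651813018) (nat_lit 21) (nat_lit 5) (nat_lit 23) (nat_lit 5) (nat_lit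 24) (nat_lit 5) (nat_lit 403) (nat_lit 348) (nat_lit 149)) (XT.nd (nat_lit 78) (nat_lit 76) (nat_lit 0) (XT.lf (nat_lit 0) (nat_lit 110426350580) (nat_lit 228) (nat_lit 78530605395) (nat_lit 76) (nat_lit 52222360599) (nat_lit 21) (nat_lit 5) (nat_lit 24) (nat_lit 5) (nat_lit 22) (nat_lit 4) (nat_lit 404) (nat_lit 348) (nat_lit 148)) (XT.lf (nat_lit 0) (nat_lit 18383759624) (nat_lit 76) (nat_lit 139318300561) (nat_lit 152) (nat_lit 92694866008) (nat_lit 20) (nat_lit 5) (nat_lit 21) (nat_lit 5) (nat_lit 22) (nat_lit 4) (nat_lit 405) (nat_lit 348) (nat_lit 147)))) (XT.nd (nat_lit 78) (nat_lit 152) (nat_lit 0) (XT.lf (nat_lit 0) (nat_lit 122869692760) (nat_lit 76) (nat_lit 85801505388) (nat_lit 152) (nat_lit 51337736150) (nat_lit 20) (nat_lit 5) (nat_lit 21) (nat_lit 5) (nat_lit 22) (nat_lit 4) (nat_lit 406) (nat_lit 348) (nat_lit 146)) (XT.nd (nat_lit 78) (nat_lit 152) (nat_lit 0) (XT.lf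 (nat_lit 0) (nat_lit 232579393576) (nat_lit 76) (nat_lit 29609103316) (nat_lit 152) (nat_lit 7913060866) (nat_lit 20) (nat_lit 5) (nat_lit 21) (nat_lit 5) (nat_lit 22) (nat_lit 4) (nat_lit 407) (nat_lit 348) (nat_lit 145)) (XT.lf (nat_lit 0) (nat_lit 38034971557) (nat_lit 152) (nat_lit 212416642016) (nat_lit 76) (nat_lit 30139871708) (nat_lit 18) (nat_lit 5) (nat_lit 20) (nat_lit 5) (nat_lit 19) (nat_lit 4) (nat_lit 408) (nat_lit 348) (nat_lit 144))))) (XT.nd (nat_lit 234) (nat_lit 152) (nat_lit 0) (XT.nd (nat_lit 78) (nat_lit 76) (nat_lit 0) (XT.lf (nat_lit 0) (nat_lit 87145458820) (nat_lit 152) (nat_lit 111740801031) (nat_lit 76) (nat_lit 92656614138) (nat_lit 18) (nat_lit 5) (nat_lit 20) (nat_lit 5) (nat_lit 19) (nat_lit 4) (nat_lit 409) (nat_lit 348) (nat_lit 143)) (XT.nd (nat_lit 78) (nat_lit 76) (nat_lit 0) (XT.lf (nat_lit 0) (nat_lit 138711199494) (nat_lit 152) (nat_lit 6031659227)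 (nat_lit 76) (nat_lit 158298987077) (nat_lit 18) (nat_lit 5) (nat_lit 20) (nat_lit 5) (nat_lit 19) (nat_lit 4) (nat_lit 410) (nat_lit 348) (nat_lit 142)) (XT.lf (nat_lit 0) (nat_lit 108433005172) (nat_lit 76) (nat_lit 86114907072) (nat_lit 152) (nat_lit 120483219811) (nat_lit 17) (nat_lit 5) (nat_lit 18) (nat_lit 5) (nat_lit 19) (nat_lit 4) (nat_lit 411) (nat_lit 348) (nat_lit 141)))) (XT.nd (nat_lit 78) (nat_lit 152) (nat_lit 0) (XT.lf (nat_lit 0) (nat_lit 228829848089) (nat_lit 76) (nat_lit 24448508663) (nat_lit 152) (nat_lit 74336431173) (nat_lit 17) (nat_lit 5) (nat_lit 18) (nat_lit 5) (nat_lit 19) (nat_lit 4) (nat_lit 412) (nat_lit 348) (nat_lit 140)) (XT.nd (nat_lit 78) (nat_lit 76) (nat_lit 0) (XT.lf (nat_lit 0) (nat_lit 14245178988) (nat_lit 76) (nat_lit 301551522502) (nat_lit 76) (nat_lit 24988356298) (nat_lit 16) (nat_lit 4) (nat_lit 17) (nat_lit 5) (nat_lit 17) (nat_lit 4) (nat_lit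 413) (nat_lit 348) (nat_lit 139)) (XT.lf (nat_lit 0) (nat_lit 28069435341) (nat_lit 152) (nat_lit 219021314694) (nat_lit 76) (nat_lit 107397101450) (nat_lit 15) (nat_lit 5) (nat_lit 17) (nat_lit 5) (nat_lit 16) (nat_lit 4) (nat_lit 414) (nat_lit 348) (nat_lit 138))))))))
noncomputable def xc214 : XT := (XT.nd (nat_lit 42744) (nat_lit 0) (nat_lit 2432) (XT.nd (nat_lit 41808) (nat_lit 0) (nat_lit 5624) (XT.nd (nat_lit 390) (nat_lit 228) (nat_lit 0) (XT.nd (nat_lit 156) (nat_lit 0) (nat_lit 0) (XT.nd (nat_lit 78) (nat_lit 76) (nat_lit 0) (XT.lf (nat_lit 0) (nat_lit 82940112260) (nat_lit 152) (nat_lit 106536894570) (nat_lit 76) (nat_lit 179378307447) (nat_lit 15) (nat_lit 5) (nat_lit 17) (nat_lit 5) (nat_lit 16) (nat_lit 4) (nat_lit 415) (nat_lit 348) (nat_lit 137)) (XT.lf (nat_lit 0) (nat_lit 11953940643) (nat_lit 76) (nat_lit 128786796256) (nat_lit 152) (nat_lit 243191092699) (nat_lit 14)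 (nat_lit 5) (nat_lit 15) (nat_lit 5) (nat_lit 16) (nat_lit 4) (nat_lit 416) (nat_lit 348) (nat_lit 136))) (XT.nd (nat_lit 78) (nat_lit 0) (nat_lit 0) (XT.lf (nat_lit 0) (nat_lit 140067637920) (nat_lit 76) (nat_lit 63167792330) (nat_lit 152) (nat_lit 196436538640) (nat_lit 14) (nat_lit 5) (nat_lit 15) (nat_lit 5) (nat_lit 16) (nat_lit 4) (nat_lit 417) (nat_lit 348) (nat_lit 135)) (XT.nd (nat_lit 78) (nat_lit 0) (nat_lit 0) (XT.lf (nat_lit 0) (nat_lit 268944144569) (nat_lit 152) (nat_lit 141701978901) (nat_lit 0) (nat_lit 5548527436) (nat_lit 14) (nat_lit 5) (nat_lit 16) (nat_lit 4) (nat_lit 14) (nat_lit 4) (nat_lit 418) (nat_lit 348) (nat_lit 134)) (XT.lf (nat_lit 0) (nat_lit 338973633318) (nat_lit 152) (nat_lit 18940417002) (nat_lit 0) (nat_lit 75577649838) (nat_lit 14) (nat_lit 5) (nat_lit 16) (nat_lit 4) (nat_lit 14) (nat_lit 4) (nat_lit 419) (nat_lit 348) (nat_lit 133))))) (XT.nd (nat_lit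 234) (nat_lit 76) (nat_lit 0) (XT.nd (nat_lit 78) (nat_lit 76) (nat_lit 0) (XT.lf (nat_lit 0) (nat_lit 113594607268) (nat_lit 76) (nat_lit 300683330008) (nat_lit 76) (nat_lit 37286997627) (nat_lit 13) (nat_lit 4) (nat_lit 14) (nat_lit 5) (nat_lit 14) (nat_lit 4) (nat_lit 420) (nat_lit 348) (nat_lit 132)) (XT.nd (nat_lit 78) (nat_lit 0) (nat_lit 0) (XT.lf (nat_lit 0) (nat_lit 22401537292) (nat_lit 152) (nat_lit 217473513219) (nat_lit 76) (nat_lit 230632686217) (nat_lit 12) (nat_lit 5) (nat_lit 14) (nat_lit 5) (nat_lit 13) (nat_lit 4) (nat_lit 421) (nat_lit 348) (nat_lit 131)) (XT.lf (nat_lit 0) (nat_lit 83821231426) (nat_lit 152) (nat_lit 91563456707) (nat_lit 76) (nat_lit 314982436452) (nat_lit 12) (nat_lit 5) (nat_lit 14) (nat_lit 5) (nat_lit 13) (nat_lit 4) (nat_lit 422) (nat_lit 348) (nat_lit 130)))) (XT.nd (nat_lit 78) (nat_lit 0) (nat_lit 0) (XT.lf (nat_lit 0) (nat_lit 41985583144)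 (nat_lit 76) (nat_lit 106981668401) (nat_lit 152) (nat_lit 362219463280) (nat_lit 11) (nat_lit 5) (nat_lit 12) (nat_lit 5) (nat_lit 13) (nat_lit 4) (nat_lit 423) (nat_lit 348) (nat_lit 129)) (XT.nd (nat_lit 41028) (nat_lit 0) (nat_lit 6764) (XT.lf (nat_lit 0) (nat_lit 185390636264) (nat_lit 76) (nat_lit 33530439751) (nat_lit 152) (nat_lit 314048683451) (nat_lit 11) (nat_lit 5) (nat_lit 12) (nat_lit 5) (nat_lit 13) (nat_lit 4) (nat_lit 424) (nat_lit 348) (nat_lit 128)) (XT.lf (nat_lit 0) (nat_lit 10846927514) (nat_lit 0) (nat_lit 10846927514) (nat_lit 684) (nat_lit 604439065) (nat_lit 100) (nat_lit 5) (nat_lit 100) (nat_lit 3) (nat_lit 109) (nat_lit 3) (nat_lit 349) (nat_lit 349) (nat_lit 202)))))) (XT.nd (nat_lit 468) (nat_lit 380) (nat_lit 0) (XT.nd (nat_lit 234) (nat_lit 0) (nat_lit 76) (XT.nd (nat_lit 78) (nat_lit 760) (nat_lit 0) (XT.lf (nat_lit 0) (nat_lit 43489285661) (nat_lit 0)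 (nat_lit 1014185583) (nat_lit 684) (nat_lit 1206430438) (nat_lit 100) (nat_lit 5) (nat_lit 100) (nat_lit 3) (nat_lit 109) (nat_lit 3) (nat_lit 350) (nat_lit 349) (nat_lit 201)) (XT.nd (nat_lit 78) (nat_lit 760) (nat_lit 0) (XT.lf (nat_lit 76) (nat_lit 19805208219) (nat_lit 0) (nat_lit 26500230529) (nat_lit 760) (nat_lit 541924251) (nat_lit 101) (nat_lit 5) (nat_lit 100) (nat_lit 5) (nat_lit 110) (nat_lit 5) (nat_lit 351) (nat_lit 349) (nat_lit 200)) (XT.lf (nat_lit 0) (nat_lit 203739877) (nat_lit 760) (nat_lit 5051234730) (nat_lit 836) (nat_lit 42783957948) (nat_lit 90) (nat_lit 5) (nat_lit 100) (nat_lit 5) (nat_lit 101) (nat_lit 5) (nat_lit 352) (nat_lit 349) (nat_lit 199)))) (XT.nd (nat_lit 78) (nat_lit 0) (nat_lit 0) (XT.lf (nat_lit 0) (nat_lit 1528593064) (nat_lit 760) (nat_lit 30920983746) (nat_lit 836) (nat_lit 16812056318) (nat_lit 91) (nat_lit 5) (nat_lit 101) (nat_lit 5) (nat_lit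 102) (nat_lit 5) (nat_lit 353) (nat_lit 349) (nat_lit 198)) (XT.nd (nat_lit 78) (nat_lit 0) (nat_lit 76) (XT.lf (nat_lit 0) (nat_lit 3091026330) (nat_lit 760) (nat_lit 7552435274) (nat_lit 836) (nat_lit 39893442771) (nat_lit 91) (nat_lit 5) (nat_lit 101) (nat_lit 5) (nat_lit 102) (nat_lit 5) (nat_lit 354) (nat_lit 349) (nat_lit 197)) (XT.lf (nat_lit 0) (nat_lit 5199635747) (nat_lit 760) (nat_lit 34513175063) (nat_lit 836) (nat_lit 12139728048) (nat_lit 92) (nat_lit 5) (nat_lit 102) (nat_lit 5) (nat_lit 103) (nat_lit 5) (nat_lit 355) (nat_lit 349) (nat_lit 196))))) (XT.nd (nat_lit 234) (nat_lit 532) (nat_lit 0) (XT.nd (nat_lit 78) (nat_lit 0) (nat_lit 76) (XT.lf (nat_lit 0) (nat_lit 7716556078) (nat_lit 760) (nat_lit 9667388452) (nat_lit 836) (nat_lit 35834868794) (nat_lit 92) (nat_lit 5) (nat_lit 102) (nat_lit 5) (nat_lit 103) (nat_lit 5) (nat_lit 356) (nat_lit 349) (nat_lit 195)) (XT.nd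 (nat_lit 78) (nat_lit 0) (nat_lit 0) (XT.lf (nat_lit 0) (nat_lit 10721608916) (nat_lit 760) (nat_lit 37776776928) (nat_lit 836) (nat_lit 6136903519) (nat_lit 93) (nat_lit 5) (nat_lit 103) (nat_lit 5) (nat_lit 104) (nat_lit 5) (nat_lit 357) (nat_lit 349) (nat_lit 194)) (XT.lf (nat_lit 0) (nat_lit 14326836288) (nat_lit 760) (nat_lit 11356941776) (nat_lit 836) (nat_lit 30416317117) (nat_lit 93) (nat_lit 5) (nat_lit 103) (nat_lit 5) (nat_lit 104) (nat_lit 5) (nat_lit 358) (nat_lit 349) (nat_lit 193)))) (XT.nd (nat_lit 78) (nat_lit 608) (nat_lit 0) (XT.lf (nat_lit 76) (nat_lit 16924419618) (nat_lit 0) (nat_lit 1450746202) (nat_lit 836) (nat_lit 39249835401) (nat_lit 94) (nat_lit 5) (nat_lit 93) (nat_lit 5) (nat_lit 104) (nat_lit 5) (nat_lit 359) (nat_lit 349) (nat_lit 192)) (XT.nd (nat_lit 78) (nat_lit 684) (nat_lit 0) (XT.lf (nat_lit 0) (nat_lit 23194668096) (nat_lit 760) (nat_lit 12581371649)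 (nat_lit 76) (nat_lit 23421676883) (nat_lit 94) (nat_lit 5) (nat_lit 104) (nat_lit 5) (nat_lit 95) (nat_lit 5) (nat_lit 360) (nat_lit 349) (nat_lit 191)) (XT.lf (nat_lit 0) (nat_lit 17478281019) (nat_lit 684) (nat_lit 11072251494) (nat_lit 760) (nat_lit 32283767730) (nat_lit 85) (nat_lit 5) (nat_lit 94) (nat_lit 5) (nat_lit 95) (nat_lit 5) (nat_lit 361) (nat_lit 349) (nat_lit 190))))))) (XT.nd (nat_lit 858) (nat_lit 1520) (nat_lit 0) (XT.nd (nat_lit 390) (nat_lit 988) (nat_lit 0) (XT.nd (nat_lit 156) (nat_lit 304) (nat_lit 0) (XT.nd (nat_lit 78) (nat_lit 380) (nat_lit 0) (XT.lf (nat_lit 0) (nat_lit 34621630354) (nat_lit 760) (nat_lit 13301146464) (nat_lit 76) (nat_lit 14607565913) (nat_lit 85) (nat_lit 5) (nat_lit 95) (nat_lit 5) (nat_lit 86) (nat_lit 5) (nat_lit 362) (nat_lit 349) (nat_lit 189)) (XT.lf (nat_lit 0) (nat_lit 18671420726) (nat_lit 380) (nat_lit 22796711073) (nat_lit 456)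 (nat_lit 22819464732) (nat_lit 80) (nat_lit 5) (nat_lit 85) (nat_lit 5) (nat_lit 86) (nat_lit 5) (nat_lit 363) (nat_lit 349) (nat_lit 188))) (XT.nd (nat_lit 78) (nat_lit 304) (nat_lit 0) (XT.lf (nat_lit 0) (nat_lit 48940756655) (nat_lit 456) (nat_lit 13477902206) (nat_lit 76) (nat_lit 3699865788) (nat_lit 80) (nat_lit 5) (nat_lit 86) (nat_lit 5) (nat_lit 81) (nat_lit 5) (nat_lit 364) (nat_lit 349) (nat_lit 187)) (XT.nd (nat_lit 78) (nat_lit 0) (nat_lit 0) (XT.lf (nat_lit 0) (nat_lit 20550179415) (nat_lit 304) (nat_lit 36930312004) (nat_lit 380) (nat_lit 10525835291) (nat_lit 76) (nat_lit 5) (nat_lit 80) (nat_lit 5) (nat_lit 81) (nat_lit 5) (nat_lit 365) (nat_lit 349) (nat_lit 186)) (XT.lf (nat_lit 0) (nat_lit 56746482401) (nat_lit 304) (nat_lit 9927935871) (nat_lit 380) (nat_lit 3302741735) (nat_lit 76) (nat_lit 5) (nat_lit 80) (nat_lit 5) (nat_lit 81) (nat_lit 5) (nat_lit 366) (nat_lit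 349) (nat_lit 185))))) (XT.nd (nat_lit 234) (nat_lit 304) (nat_lit 0) (XT.nd (nat_lit 78) (nat_lit 304) (nat_lit 0) (XT.lf (nat_lit 0) (nat_lit 4803325066) (nat_lit 380) (nat_lit 48933076932) (nat_lit 76) (nat_lit 18273849252) (nat_lit 71) (nat_lit 5) (nat_lit 76) (nat_lit 5) (nat_lit 72) (nat_lit 5) (nat_lit 367) (nat_lit 349) (nat_lit 184)) (XT.nd (nat_lit 78) (nat_lit 304) (nat_lit 0) (XT.lf (nat_lit 0) (nat_lit 13593208917) (nat_lit 380) (nat_lit 12695724119) (nat_lit 76) (nat_lit 47833882690) (nat_lit 71) (nat_lit 5) (nat_lit 76) (nat_lit 5) (nat_lit 72) (nat_lit 5) (nat_lit 368) (nat_lit 349) (nat_lit 183)) (XT.lf (nat_lit 0) (nat_lit 23276773454) (nat_lit 380) (nat_lit 50176130611) (nat_lit 76) (nat_lit 2865396189) (nat_lit 67) (nat_lit 5) (nat_lit 72) (nat_lit 5) (nat_lit 68) (nat_lit 5) (nat_lit 369) (nat_lit 349) (nat_lit 182)))) (XT.nd (nat_lit 78) (nat_lit 304) (nat_lit 0)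 (XT.lf (nat_lit 0) (nat_lit 34093101785) (nat_lit 380) (nat_lit 11685667476) (nat_lit 76) (nat_lit 32812361566) (nat_lit 67) (nat_lit 5) (nat_lit 72) (nat_lit 5) (nat_lit 68) (nat_lit 5) (nat_lit 370) (nat_lit 349) (nat_lit 181)) (XT.nd (nat_lit 78) (nat_lit 0) (nat_lit 0) (XT.lf (nat_lit 0) (nat_lit 29678164460) (nat_lit 304) (nat_lit 16234571386) (nat_lit 380) (nat_lit 35041743664) (nat_lit 63) (nat_lit 5) (nat_lit 67) (nat_lit 5) (nat_lit 68) (nat_lit 5) (nat_lit 371) (nat_lit 349) (nat_lit 180)) (XT.lf (nat_lit 0) (nat_lit 58754514932) (nat_lit 380) (nat_lit 10145385372) (nat_lit 76) (nat_lit 14514538152) (nat_lit 63) (nat_lit 5) (nat_lit 68) (nat_lit 5) (nat_lit 64) (nat_lit 5) (nat_lit 372) (nat_lit 349) (nat_lit 179)))))) (XT.nd (nat_lit 468) (nat_lit 684) (nat_lit 0) (XT.nd (nat_lit 234) (nat_lit 228) (nat_lit 0) (XT.nd (nat_lit 78) (nat_lit 380) (nat_lit 0) (XT.lf (nat_lit 0)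 (nat_lit 33858623791) (nat_lit 228) (nat_lit 39173720682) (nat_lit 304) (nat_lit 12925353751) (nat_lit 60) (nat_lit 5) (nat_lit 63) (nat_lit 5) (nat_lit 64) (nat_lit 5) (nat_lit 373) (nat_lit 349) (nat_lit 178)) (XT.nd (nat_lit 78) (nat_lit 380) (nat_lit 0) (XT.lf (nat_lit 0) (nat_lit 80414060742) (nat_lit 228) (nat_lit 7781037594) (nat_lit 304) (nat_lit 424471904) (nat_lit 60) (nat_lit 5) (nat_lit 63) (nat_lit 5) (nat_lit 64) (nat_lit 5) (nat_lit 374) (nat_lit 349) (nat_lit 177)) (XT.lf (nat_lit 0) (nat_lit 13308327676) (nat_lit 380) (nat_lit 52851193778) (nat_lit 76) (nat_lit 25194429982) (nat_lit 55) (nat_lit 5) (nat_lit 60) (nat_lit 5) (nat_lit 56) (nat_lit 5) (nat_lit 375) (nat_lit 349) (nat_lit 176)))) (XT.nd (nat_lit 78) (nat_lit 228) (nat_lit 0) (XT.lf (nat_lit 0) (nat_lit 27981560403) (nat_lit 380) (nat_lit 6524577696) (nat_lit 76) (nat_lit 59705163537) (nat_lit 55) (nat_lit 5)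 (nat_lit 60) (nat_lit 5) (nat_lit 56) (nat_lit 5) (nat_lit 376) (nat_lit 349) (nat_lit 175)) (XT.nd (nat_lit 78) (nat_lit 0) (nat_lit 0) (XT.lf (nat_lit 0) (nat_lit 43510014226) (nat_lit 228) (nat_lit 557046976) (nat_lit 304) (nat_lit 53110528566) (nat_lit 52) (nat_lit 5) (nat_lit 55) (nat_lit 5) (nat_lit 56) (nat_lit 5) (nat_lit 377) (nat_lit 349) (nat_lit 174)) (XT.lf (nat_lit 0) (nat_lit 61616299232) (nat_lit 304) (nat_lit 4564433098) (nat_lit 76) (nat_lit 34078487573) (nat_lit 52) (nat_lit 5) (nat_lit 56) (nat_lit 5) (nat_lit 53) (nat_lit 5) (nat_lit 378) (nat_lit 349) (nat_lit 173))))) (XT.nd (nat_lit 234) (nat_lit 228) (nat_lit 0) (XT.nd (nat_lit 78) (nat_lit 228) (nat_lit 0) (XT.lf (nat_lit 0) (nat_lit 48537314450) (nat_lit 228) (nat_lit 32271961539) (nat_lit 304) (nat_lit 22647342389) (nat_lit 49) (nat_lit 5) (nat_lit 52) (nat_lit 5) (nat_lit 53) (nat_lit 5) (nat_lit 379) (nat_lit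 349) (nat_lit 172)) (XT.nd (nat_lit 78) (nat_lit 228) (nat_lit 0) (XT.lf (nat_lit 0) (nat_lit 101091850019) (nat_lit 304) (nat_lit 2411629622) (nat_lit 76) (nat_lit 3303910356) (nat_lit 49) (nat_lit 5) (nat_lit 53) (nat_lit 5) (nat_lit 50) (nat_lit 5) (nat_lit 380) (nat_lit 349) (nat_lit 171)) (XT.lf (nat_lit 0) (nat_lit 13069460323) (nat_lit 228) (nat_lit 56550807415) (nat_lit 76) (nat_lit 40626381575) (nat_lit 46) (nat_lit 5) (nat_lit 49) (nat_lit 5) (nat_lit 47) (nat_lit 5) (nat_lit 381) (nat_lit 349) (nat_lit 170)))) (XT.nd (nat_lit 78) (nat_lit 228) (nat_lit 0) (XT.lf (nat_lit 0) (nat_lit 32642533271) (nat_lit 228) (nat_lit 1258676262) (nat_lit 76) (nat_lit 79949932636) (nat_lit 46) (nat_lit 5) (nat_lit 49) (nat_lit 5) (nat_lit 47) (nat_lit 5) (nat_lit 382) (nat_lit 349) (nat_lit 169)) (XT.nd (nat_lit 78) (nat_lit 0) (nat_lit 0) (XT.lf (nat_lit 0) (nat_lit 54181042520) (nat_lit 304)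 (nat_lit 58986180915) (nat_lit 76) (nat_lit 4419297627) (nat_lit 43) (nat_lit 5) (nat_lit 47) (nat_lit 5) (nat_lit 44) (nat_lit 5) (nat_lit 383) (nat_lit 349) (nat_lit 168)) (XT.lf (nat_lit 0) (nat_lit 77373330457) (nat_lit 304) (nat_lit 568565781) (nat_lit 76) (nat_lit 43537930504) (nat_lit 43) (nat_lit 5) (nat_lit 47) (nat_lit 5) (nat_lit 44) (nat_lit 5) (nat_lit 384) (nat_lit 349) (nat_lit 167))))))))
noncomputable def xc215 : XT := (XT.nd (nat_lit 1794) (nat_lit 684) (nat_lit 0) (XT.nd (nat_lit 858) (nat_lit 684) (nat_lit 0) (XT.nd (nat_lit 390) (nat_lit 532) (nat_lit 0) (XT.nd (nat_lit 156) (nat_lit 380) (nat_lit 0) (XT.nd (nat_lit 78) (nat_lit 0) (nat_lit 0) (XT.lf (nat_lit 0) (nat_lit 62778410846) (nat_lit 152) (nat_lit 39926425971) (nat_lit 228) (nat_lit 22813981166) (nat_lit 41) (nat_lit 5) (nat_lit 43) (nat_lit 5) (nat_lit 44) (nat_lit 5) (nat_lit 385) (nat_lit 349) (nat_lit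 166)) (XT.lf (nat_lit 0) (nat_lit 129311668393) (nat_lit 152) (nat_lit 349386) (nat_lit 228) (nat_lit 447286500) (nat_lit 41) (nat_lit 5) (nat_lit 43) (nat_lit 5) (nat_lit 44) (nat_lit 5) (nat_lit 386) (nat_lit 349) (nat_lit 165))) (XT.nd (nat_lit 78) (nat_lit 152) (nat_lit 0) (XT.lf (nat_lit 0) (nat_lit 24019295697) (nat_lit 228) (nat_lit 68084005117) (nat_lit 76) (nat_lit 42004585080) (nat_lit 38) (nat_lit 5) (nat_lit 41) (nat_lit 5) (nat_lit 39) (nat_lit 5) (nat_lit 387) (nat_lit 349) (nat_lit 164)) (XT.nd (nat_lit 78) (nat_lit 152) (nat_lit 0) (XT.lf (nat_lit 0) (nat_lit 49701381159) (nat_lit 228) (nat_lit 2847260600) (nat_lit 76) (nat_lit 86124528302) (nat_lit 38) (nat_lit 5) (nat_lit 41) (nat_lit 5) (nat_lit 39) (nat_lit 5) (nat_lit 388) (nat_lit 349) (nat_lit 163)) (XT.lf (nat_lit 0) (nat_lit 67821268458) (nat_lit 152) (nat_lit 9904701533) (nat_lit 228) (nat_lit 65687828865) (nat_lit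 36) (nat_lit 5) (nat_lit 38) (nat_lit 5) (nat_lit 39) (nat_lit 5) (nat_lit 389) (nat_lit 349) (nat_lit 162))))) (XT.nd (nat_lit 234) (nat_lit 304) (nat_lit 0) (XT.nd (nat_lit 78) (nat_lit 228) (nat_lit 0) (XT.lf (nat_lit 0) (nat_lit 107744765339) (nat_lit 228) (nat_lit 6812969172) (nat_lit 76) (nat_lit 33804076083) (nat_lit 36) (nat_lit 5) (nat_lit 39) (nat_lit 5) (nat_lit 37) (nat_lit 5) (nat_lit 390) (nat_lit 349) (nat_lit 161)) (XT.nd (nat_lit 78) (nat_lit 76) (nat_lit 0) (XT.lf (nat_lit 0) (nat_lit 67399680885) (nat_lit 152) (nat_lit 73079038215) (nat_lit 228) (nat_lit 13017793229) (nat_lit 34) (nat_lit 5) (nat_lit 36) (nat_lit 5) (nat_lit 37) (nat_lit 5) (nat_lit 391) (nat_lit 349) (nat_lit 160)) (XT.lf (nat_lit 0) (nat_lit 15567380008) (nat_lit 228) (nat_lit 13574510948) (nat_lit 76) (nat_lit 129727757188) (nat_lit 33) (nat_lit 5) (nat_lit 36) (nat_lit 5) (nat_lit 34) (nat_lit 5)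 (nat_lit 392) (nat_lit 349) (nat_lit 159)))) (XT.nd (nat_lit 78) (nat_lit 152) (nat_lit 0) (XT.lf (nat_lit 0) (nat_lit 46434982368) (nat_lit 228) (nat_lit 100314059144) (nat_lit 76) (nat_lit 17687196525) (nat_lit 31) (nat_lit 5) (nat_lit 34) (nat_lit 5) (nat_lit 32) (nat_lit 5) (nat_lit 393) (nat_lit 349) (nat_lit 158)) (XT.nd (nat_lit 78) (nat_lit 152) (nat_lit 0) (XT.lf (nat_lit 0) (nat_lit 79556938570) (nat_lit 228) (nat_lit 24576890026) (nat_lit 76) (nat_lit 66111780423) (nat_lit 31) (nat_lit 5) (nat_lit 34) (nat_lit 5) (nat_lit 32) (nat_lit 5) (nat_lit 394) (nat_lit 349) (nat_lit 157)) (XT.lf (nat_lit 0) (nat_lit 56763247267) (nat_lit 152) (nat_lit 58457576962) (nat_lit 228) (nat_lit 61080333005) (nat_lit 29) (nat_lit 5) (nat_lit 31) (nat_lit 5) (nat_lit 32) (nat_lit 5) (nat_lit 395) (nat_lit 349) (nat_lit 156)))))) (XT.nd (nat_lit 468) (nat_lit 380) (nat_lit 0) (XT.nd (nat_lit 234)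 (nat_lit 152) (nat_lit 0) (XT.nd (nat_lit 78) (nat_lit 152) (nat_lit 0) (XT.lf (nat_lit 0) (nat_lit 143022987650) (nat_lit 152) (nat_lit 10060745183) (nat_lit 228) (nat_lit 29554958849) (nat_lit 29) (nat_lit 5) (nat_lit 31) (nat_lit 5) (nat_lit 32) (nat_lit 5) (nat_lit 396) (nat_lit 349) (nat_lit 155)) (XT.nd (nat_lit 78) (nat_lit 0) (nat_lit 0) (XT.lf (nat_lit 0) (nat_lit 4795359518) (nat_lit 152) (nat_lit 144193996394) (nat_lit 76) (nat_lit 40232868908) (nat_lit 27) (nat_lit 5) (nat_lit 29) (nat_lit 5) (nat_lit 28) (nat_lit 5) (nat_lit 397) (nat_lit 349) (nat_lit 154)) (XT.lf (nat_lit 0) (nat_lit 40716417057) (nat_lit 152) (nat_lit 61482743970) (nat_lit 76) (nat_lit 93869225250) (nat_lit 27) (nat_lit 5) (nat_lit 29) (nat_lit 5) (nat_lit 28) (nat_lit 5) (nat_lit 398) (nat_lit 349) (nat_lit 153)))) (XT.nd (nat_lit 78) (nat_lit 0) (nat_lit 0) (XT.lf (nat_lit 0) (nat_lit 26202088305) (nat_lit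 152) (nat_lit 52640168877) (nat_lit 228) (nat_lit 124394162346) (nat_lit 25) (nat_lit 5) (nat_lit 27) (nat_lit 5) (nat_lit 28) (nat_lit 5) (nat_lit 399) (nat_lit 349) (nat_lit 152)) (XT.nd (nat_lit 78) (nat_lit 0) (nat_lit 0) (XT.lf (nat_lit 0) (nat_lit 119922926156) (nat_lit 228) (nat_lit 90313356779) (nat_lit 76) (nat_lit 474144865) (nat_lit 25) (nat_lit 5) (nat_lit 28) (nat_lit 5) (nat_lit 26) (nat_lit 4) (nat_lit 400) (nat_lit 349) (nat_lit 151)) (XT.lf (nat_lit 0) (nat_lit 163920244431) (nat_lit 228) (nat_lit 119874942) (nat_lit 76) (nat_lit 54474886508) (nat_lit 25) (nat_lit 5) (nat_lit 28) (nat_lit 5) (nat_lit 26) (nat_lit 4) (nat_lit 401) (nat_lit 349) (nat_lit 150))))) (XT.nd (nat_lit 234) (nat_lit 76) (nat_lit 0) (XT.nd (nat_lit 78) (nat_lit 228) (nat_lit 0) (XT.lf (nat_lit 0) (nat_lit 97710053143) (nat_lit 76) (nat_lit 113932581586) (nat_lit 152) (nat_lit 14990918014) (nat_lit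 24) (nat_lit 5) (nat_lit 25) (nat_lit 5) (nat_lit 26) (nat_lit 4) (nat_lit 402) (nat_lit 349) (nat_lit 149)) (XT.nd (nat_lit 78) (nat_lit 152) (nat_lit 0) (XT.lf (nat_lit 0) (nat_lit 25743714913) (nat_lit 152) (nat_lit 35138073871) (nat_lit 76) (nat_lit 174255391514) (nat_lit 23) (nat_lit 5) (nat_lit 25) (nat_lit 5) (nat_lit 24) (nat_lit 5) (nat_lit 403) (nat_lit 349) (nat_lit 148)) (XT.lf (nat_lit 0) (nat_lit 65176387068) (nat_lit 152) (nat_lit 3852180319) (nat_lit 228) (nat_lit 174974270310) (nat_lit 21) (nat_lit 5) (nat_lit 23) (nat_lit 5) (nat_lit 24) (nat_lit 5) (nat_lit 404) (nat_lit 349) (nat_lit 147)))) (XT.nd (nat_lit 78) (nat_lit 76) (nat_lit 0) (XT.lf (nat_lit 0) (nat_lit 115956964215) (nat_lit 228) (nat_lit 82440599664) (nat_lit 76) (nat_lit 54840249150) (nat_lit 21) (nat_lit 5) (nat_lit 24) (nat_lit 5) (nat_lit 22) (nat_lit 4) (nat_lit 405) (nat_lit 349) (nat_lit 146)) (XT.nd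 (nat_lit 78) (nat_lit 0) (nat_lit 0) (XT.lf (nat_lit 0) (nat_lit 19319216896) (nat_lit 76) (nat_lit 146277053742) (nat_lit 152) (nat_lit 97320042142) (nat_lit 20) (nat_lit 5) (nat_lit 21) (nat_lit 5) (nat_lit 22) (nat_lit 4) (nat_lit 406) (nat_lit 349) (nat_lit 145)) (XT.lf (nat_lit 0) (nat_lit 129028671961) (nat_lit 76) (nat_lit 90084759851) (nat_lit 152) (nat_lit 53895511371) (nat_lit 20) (nat_lit 5) (nat_lit 21) (nat_lit 5) (nat_lit 22) (nat_lit 4) (nat_lit 407) (nat_lit 349) (nat_lit 144))))))) (XT.nd (nat_lit 858) (nat_lit 228) (nat_lit 0) (XT.nd (nat_lit 390) (nat_lit 228) (nat_lit 0) (XT.nd (nat_lit 156) (nat_lit 76) (nat_lit 0) (XT.nd (nat_lit 78) (nat_lit 152) (nat_lit 0) (XT.lf (nat_lit 0) (nat_lit 244223119981) (nat_lit 76) (nat_lit 31083062475) (nat_lit 152) (nat_lit 8300036207) (nat_lit 20) (nat_lit 5) (nat_lit 21) (nat_lit 5) (nat_lit 22) (nat_lit 4) (nat_lit 408) (nat_lit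 349) (nat_lit 143)) (XT.lf (nat_lit 0) (nat_lit 39945053593) (nat_lit 152) (nat_lit 223022365810) (nat_lit 76) (nat_lit 31653219890) (nat_lit 18) (nat_lit 5) (nat_lit 20) (nat_lit 5) (nat_lit 19) (nat_lit 4) (nat_lit 409) (nat_lit 349) (nat_lit 142))) (XT.nd (nat_lit 78) (nat_lit 76) (nat_lit 0) (XT.lf (nat_lit 0) (nat_lit 91510668389) (nat_lit 152) (nat_lit 117313452219) (nat_lit 76) (nat_lit 97295496841) (nat_lit 18) (nat_lit 5) (nat_lit 20) (nat_lit 5) (nat_lit 19) (nat_lit 4) (nat_lit 410) (nat_lit 349) (nat_lit 141)) (XT.nd (nat_lit 78) (nat_lit 76) (nat_lit 0) (XT.lf (nat_lit 0) (nat_lit 145654318162) (nat_lit 152) (nat_lit 6319538508) (nat_lit 76) (nat_lit 166219700237) (nat_lit 18) (nat_lit 5) (nat_lit 20) (nat_lit 5) (nat_lit 19) (nat_lit 4) (nat_lit 411) (nat_lit 349) (nat_lit 140)) (XT.lf (nat_lit 0) (nat_lit 113868138084) (nat_lit 76) (nat_lit 90414579030) (nat_lit 152) (nat_lit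 126499597989) (nat_lit 17) (nat_lit 5) (nat_lit 18) (nat_lit 5) (nat_lit 19) (nat_lit 4) (nat_lit 412) (nat_lit 349) (nat_lit 139))))) (XT.nd (nat_lit 234) (nat_lit 76) (nat_lit 0) (XT.nd (nat_lit 78) (nat_lit 152) (nat_lit 0) (XT.lf (nat_lit 0) (nat_lit 240284181115) (nat_lit 76) (nat_lit 25665149910) (nat_lit 152) (nat_lit 78045840530) (nat_lit 17) (nat_lit 5) (nat_lit 18) (nat_lit 5) (nat_lit 19) (nat_lit 4) (nat_lit 413) (nat_lit 349) (nat_lit 138)) (XT.nd (nat_lit 78) (nat_lit 76) (nat_lit 0) (XT.lf (nat_lit 0) (nat_lit 14970332631) (nat_lit 76) (nat_lit 316623211678) (nat_lit 76) (nat_lit 26230413177) (nat_lit 16) (nat_lit 4) (nat_lit 17) (nat_lit 5) (nat_lit 17) (nat_lit 4) (nat_lit 414) (nat_lit 349) (nat_lit 137)) (XT.lf (nat_lit 0) (nat_lit 29479693146) (nat_lit 152) (nat_lit 229959872848) (nat_lit 76) (nat_lit 112772336220) (nat_lit 15) (nat_lit 5) (nat_lit 17) (nat_lit 5) (nat_lit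 16) (nat_lit 4) (nat_lit 415) (nat_lit 349) (nat_lit 136)))) (XT.nd (nat_lit 78) (nat_lit 76) (nat_lit 0) (XT.lf (nat_lit 0) (nat_lit 87093580766) (nat_lit 152) (nat_lit 111851827317) (nat_lit 76) (nat_lit 188352346340) (nat_lit 15) (nat_lit 5) (nat_lit 17) (nat_lit 5) (nat_lit 16) (nat_lit 4) (nat_lit 416) (nat_lit 349) (nat_lit 135)) (XT.nd (nat_lit 78) (nat_lit 0) (nat_lit 0) (XT.lf (nat_lit 0) (nat_lit 12563357528) (nat_lit 76) (nat_lit 135220754332) (nat_lit 152) (nat_lit 255343990005) (nat_lit 14) (nat_lit 5) (nat_lit 15) (nat_lit 5) (nat_lit 16) (nat_lit 4) (nat_lit 417) (nat_lit 349) (nat_lit 134)) (XT.lf (nat_lit 0) (nat_lit 147082181580) (nat_lit 76) (nat_lit 66321056482) (nat_lit 152) (nat_lit 206252025259) (nat_lit 14) (nat_lit 5) (nat_lit 15) (nat_lit 5) (nat_lit 16) (nat_lit 4) (nat_lit 418) (nat_lit 349) (nat_lit 133)))))) (XT.nd (nat_lit 41496) (nat_lit 0) (nat_lit 6004)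 (XT.nd (nat_lit 234) (nat_lit 152) (nat_lit 0) (XT.nd (nat_lit 78) (nat_lit 76) (nat_lit 0) (XT.lf (nat_lit 0) (nat_lit 282397176868) (nat_lit 152) (nat_lit 148776234270) (nat_lit 0) (nat_lit 5830678967) (nat_lit 14) (nat_lit 5) (nat_lit 16) (nat_lit 4) (nat_lit 14) (nat_lit 4) (nat_lit 419) (nat_lit 349) (nat_lit 132)) (XT.nd (nat_lit 78) (nat_lit 76) (nat_lit 0) (XT.lf (nat_lit 0) (nat_lit 355927862670) (nat_lit 152) (nat_lit 19877110638) (nat_lit 0) (nat_lit 79361032482) (nat_lit 14) (nat_lit 5) (nat_lit 16) (nat_lit 4) (nat_lit 14) (nat_lit 4) (nat_lit 420) (nat_lit 349) (nat_lit 131)) (XT.lf (nat_lit 0) (nat_lit 119284498279) (nat_lit 76) (nat_lit 315712778008) (nat_lit 76) (nat_lit 39145631356) (nat_lit 13) (nat_lit 4) (nat_lit 14) (nat_lit 5) (nat_lit 14) (nat_lit 4) (nat_lit 421) (nat_lit 349) (nat_lit 130)))) (XT.nd (nat_lit 78) (nat_lit 76) (nat_lit 0) (XT.lf (nat_lit 0) (nat_lit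 23526883870) (nat_lit 152) (nat_lit 228337336111) (nat_lit 76) (nat_lit 242168638376) (nat_lit 12) (nat_lit 5) (nat_lit 14) (nat_lit 5) (nat_lit 13) (nat_lit 4) (nat_lit 422) (nat_lit 349) (nat_lit 129)) (XT.nd (nat_lit 78) (nat_lit 76) (nat_lit 0) (XT.lf (nat_lit 0) (nat_lit 88017311773) (nat_lit 152) (nat_lit 96132245952) (nat_lit 76) (nat_lit 330735670510) (nat_lit 12) (nat_lit 5) (nat_lit 14) (nat_lit 5) (nat_lit 13) (nat_lit 4) (nat_lit 423) (nat_lit 349) (nat_lit 128)) (XT.lf (nat_lit 0) (nat_lit 44094094543) (nat_lit 76) (nat_lit 112326443507) (nat_lit 152) (nat_lit 380325264759) (nat_lit 11) (nat_lit 5) (nat_lit 12) (nat_lit 5) (nat_lit 13) (nat_lit 4) (nat_lit 424) (nat_lit 349) (nat_lit 127))))) (XT.nd (nat_lit 234) (nat_lit 760) (nat_lit 0) (XT.nd (nat_lit 78) (nat_lit 0) (nat_lit 0) (XT.lf (nat_lit 0) (nat_lit 11404565575) (nat_lit 0) (nat_lit 11404565575) (nat_lit 684) (nat_lit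 602501438) (nat_lit 100) (nat_lit 5) (nat_lit 100) (nat_lit 3) (nat_lit 109) (nat_lit 3) (nat_lit 350) (nat_lit 350) (nat_lit 200)) (XT.nd (nat_lit 78) (nat_lit 0) (nat_lit 0) (XT.lf (nat_lit 0) (nat_lit 45692876964) (nat_lit 0) (nat_lit 1094021882) (nat_lit 684) (nat_lit 1205495616) (nat_lit 100) (nat_lit 5) (nat_lit 100) (nat_lit 3) (nat_lit 109) (nat_lit 3) (nat_lit 351) (nat_lit 350) (nat_lit 199)) (XT.lf (nat_lit 76) (nat_lit 20827527158) (nat_lit 0) (nat_lit 27848730989) (nat_lit 760) (nat_lit 510610293) (nat_lit 101) (nat_lit 5) (nat_lit 100) (nat_lit 5) (nat_lit 110) (nat_lit 5) (nat_lit 352) (nat_lit 350) (nat_lit 198)))) (XT.nd (nat_lit 78) (nat_lit 0) (nat_lit 76) (XT.lf (nat_lit 0) (nat_lit 267775137) (nat_lit 760) (nat_lit 5271406667) (nat_lit 836) (nat_lit 44898927564) (nat_lit 90) (nat_lit 5) (nat_lit 100) (nat_lit 5) (nat_lit 101) (nat_lit 5) (nat_lit 353) (nat_lit 350)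 (nat_lit 197)) (XT.nd (nat_lit 78) (nat_lit 0) (nat_lit 0) (XT.lf (nat_lit 0) (nat_lit 1656493402) (nat_lit 760) (nat_lit 32432191838) (nat_lit 836) (nat_lit 17633382294) (nat_lit 91) (nat_lit 5) (nat_lit 101) (nat_lit 5) (nat_lit 102) (nat_lit 5) (nat_lit 354) (nat_lit 350) (nat_lit 196)) (XT.lf (nat_lit 0) (nat_lit 3294597348) (nat_lit 760) (nat_lit 7896875041) (nat_lit 836) (nat_lit 41869756015) (nat_lit 91) (nat_lit 5) (nat_lit 101) (nat_lit 5) (nat_lit 102) (nat_lit 5) (nat_lit 355) (nat_lit 350) (nat_lit 195))))))))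
noncomputable def xc216 : XT := (XT.nd (nat_lit 1716) (nat_lit 2280) (nat_lit 0) (XT.nd (nat_lit 858) (nat_lit 1596) (nat_lit 0) (XT.nd (nat_lit 390) (nat_lit 1216) (nat_lit 0) (XT.nd (nat_lit 156) (nat_lit 0) (nat_lit 76) (XT.nd (nat_lit 78) (nat_lit 0) (nat_lit 0) (XT.lf (nat_lit 0) (nat_lit 5506585531) (nat_lit 760) (nat_lit 36203533254) (nat_lit 836) (nat_lit 12732631753) (nat_lit 92) (nat_lit 5) (nat_lit 102) (nat_lit 5) (nat_lit 103) (nat_lit 5) (nat_lit 356) (nat_lit 350) (nat_lit 194)) (XT.lf (nat_lit 0) (nat_lit 8147115308) (nat_lit 760) (nat_lit 10117138292) (nat_lit 836) (nat_lit 37613200141) (nat_lit 92) (nat_lit 5) (nat_lit 102) (nat_lit 5) (nat_lit 103) (nat_lit 5) (nat_lit 357) (nat_lit 350) (nat_lit 193))) (XT.nd (nat_lit 78) (nat_lit 0) (nat_lit 0) (XT.lf (nat_lit 0) (nat_lit 11300650390) (nat_lit 760) (nat_lit 39630165149) (nat_lit 836) (nat_lit 6434029596) (nat_lit 93)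 (nat_lit 5) (nat_lit 103) (nat_lit 5) (nat_lit 104) (nat_lit 5) (nat_lit 358) (nat_lit 350) (nat_lit 192)) (XT.nd (nat_lit 78) (nat_lit 0) (nat_lit 0) (XT.lf (nat_lit 0) (nat_lit 15084093368) (nat_lit 760) (nat_lit 11891026364) (nat_lit 836) (nat_lit 31927876687) (nat_lit 93) (nat_lit 5) (nat_lit 103) (nat_lit 5) (nat_lit 104) (nat_lit 5) (nat_lit 359) (nat_lit 350) (nat_lit 191)) (XT.lf (nat_lit 76) (nat_lit 17803858544) (nat_lit 0) (nat_lit 1529551111) (nat_lit 836) (nat_lit 41170812342) (nat_lit 94) (nat_lit 5) (nat_lit 93) (nat_lit 5) (nat_lit 104) (nat_lit 5) (nat_lit 360) (nat_lit 350) (nat_lit 190))))) (XT.nd (nat_lit 234) (nat_lit 684) (nat_lit 0) (XT.nd (nat_lit 78) (nat_lit 684) (nat_lit 0) (XT.lf (nat_lit 0) (nat_lit 24391913586) (nat_lit 760) (nat_lit 13176778247) (nat_lit 76) (nat_lit 24586982635) (nat_lit 94) (nat_lit 5) (nat_lit 104) (nat_lit 5) (nat_lit 95) (nat_lit 5)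 (nat_lit 361) (nat_lit 350) (nat_lit 189)) (XT.nd (nat_lit 78) (nat_lit 0) (nat_lit 0) (XT.lf (nat_lit 0) (nat_lit 18385314119) (nat_lit 684) (nat_lit 11628987896) (nat_lit 760) (nat_lit 33859851203) (nat_lit 85) (nat_lit 5) (nat_lit 94) (nat_lit 5) (nat_lit 95) (nat_lit 5) (nat_lit 362) (nat_lit 350) (nat_lit 188)) (XT.lf (nat_lit 0) (nat_lit 36387182447) (nat_lit 760) (nat_lit 13932842018) (nat_lit 76) (nat_lit 15335064357) (nat_lit 85) (nat_lit 5) (nat_lit 95) (nat_lit 5) (nat_lit 86) (nat_lit 5) (nat_lit 363) (nat_lit 350) (nat_lit 187)))) (XT.nd (nat_lit 78) (nat_lit 304) (nat_lit 0) (XT.lf (nat_lit 0) (nat_lit 19637815439) (nat_lit 380) (nat_lit 23937064539) (nat_lit 456) (nat_lit 23925384045) (nat_lit 80) (nat_lit 5) (nat_lit 85) (nat_lit 5) (nat_lit 86) (nat_lit 5) (nat_lit 364) (nat_lit 350) (nat_lit 186)) (XT.nd (nat_lit 78) (nat_lit 304) (nat_lit 0) (XT.lf (nat_lit 0) (nat_lit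 51419540681) (nat_lit 456) (nat_lit 14118898176) (nat_lit 76) (nat_lit 3884381614) (nat_lit 80) (nat_lit 5) (nat_lit 86) (nat_lit 5) (nat_lit 81) (nat_lit 5) (nat_lit 365) (nat_lit 350) (nat_lit 185)) (XT.lf (nat_lit 0) (nat_lit 21610056894) (nat_lit 304) (nat_lit 38775198929) (nat_lit 380) (nat_lit 11019809183) (nat_lit 76) (nat_lit 5) (nat_lit 80) (nat_lit 5) (nat_lit 81) (nat_lit 5) (nat_lit 366) (nat_lit 350) (nat_lit 184)))))) (XT.nd (nat_lit 390) (nat_lit 912) (nat_lit 0) (XT.nd (nat_lit 156) (nat_lit 304) (nat_lit 0) (XT.nd (nat_lit 78) (nat_lit 380) (nat_lit 0) (XT.lf (nat_lit 0) (nat_lit 59614633673) (nat_lit 304) (nat_lit 10422781545) (nat_lit 380) (nat_lit 3437099896) (nat_lit 76) (nat_lit 5) (nat_lit 80) (nat_lit 5) (nat_lit 81) (nat_lit 5) (nat_lit 367) (nat_lit 350) (nat_lit 183)) (XT.lf (nat_lit 0) (nat_lit 5072394202) (nat_lit 380) (nat_lit 51346954894) (nat_lit 76) (nat_lit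 19189934115) (nat_lit 71) (nat_lit 5) (nat_lit 76) (nat_lit 5) (nat_lit 72) (nat_lit 5) (nat_lit 368) (nat_lit 350) (nat_lit 182))) (XT.nd (nat_lit 78) (nat_lit 304) (nat_lit 0) (XT.lf (nat_lit 0) (nat_lit 14300395917) (nat_lit 380) (nat_lit 13299295197) (nat_lit 76) (nat_lit 50227855301) (nat_lit 71) (nat_lit 5) (nat_lit 76) (nat_lit 5) (nat_lit 72) (nat_lit 5) (nat_lit 369) (nat_lit 350) (nat_lit 181)) (XT.nd (nat_lit 78) (nat_lit 0) (nat_lit 0) (XT.lf (nat_lit 0) (nat_lit 24467370096) (nat_lit 380) (nat_lit 52652921265) (nat_lit 76) (nat_lit 3012553846) (nat_lit 67) (nat_lit 5) (nat_lit 72) (nat_lit 5) (nat_lit 68) (nat_lit 5) (nat_lit 370) (nat_lit 350) (nat_lit 180)) (XT.lf (nat_lit 0) (nat_lit 35823240654) (nat_lit 380) (nat_lit 12239459540) (nat_lit 76) (nat_lit 34456682357) (nat_lit 67) (nat_lit 5) (nat_lit 72) (nat_lit 5) (nat_lit 68) (nat_lit 5) (nat_lit 371) (nat_lit 350) (nat_lit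 179))))) (XT.nd (nat_lit 234) (nat_lit 380) (nat_lit 0) (XT.nd (nat_lit 78) (nat_lit 228) (nat_lit 0) (XT.lf (nat_lit 0) (nat_lit 31192072198) (nat_lit 304) (nat_lit 17041039083) (nat_lit 380) (nat_lit 36767826100) (nat_lit 63) (nat_lit 5) (nat_lit 67) (nat_lit 5) (nat_lit 68) (nat_lit 5) (nat_lit 372) (nat_lit 350) (nat_lit 178)) (XT.nd (nat_lit 78) (nat_lit 228) (nat_lit 0) (XT.lf (nat_lit 0) (nat_lit 61715879517) (nat_lit 380) (nat_lit 10622956086) (nat_lit 76) (nat_lit 15245115052) (nat_lit 63) (nat_lit 5) (nat_lit 68) (nat_lit 5) (nat_lit 64) (nat_lit 5) (nat_lit 373) (nat_lit 350) (nat_lit 177)) (XT.lf (nat_lit 0) (nat_lit 35580774526) (nat_lit 228) (nat_lit 41126156548) (nat_lit 304) (nat_lit 13547477132) (nat_lit 60) (nat_lit 5) (nat_lit 63) (nat_lit 5) (nat_lit 64) (nat_lit 5) (nat_lit 374) (nat_lit 350) (nat_lit 176)))) (XT.nd (nat_lit 78) (nat_lit 380) (nat_lit 0) (XT.lf (nat_lit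 0) (nat_lit 84462591918) (nat_lit 228) (nat_lit 8164136933) (nat_lit 304) (nat_lit 422700922) (nat_lit 60) (nat_lit 5) (nat_lit 63) (nat_lit 5) (nat_lit 64) (nat_lit 5) (nat_lit 375) (nat_lit 350) (nat_lit 175)) (XT.nd (nat_lit 78) (nat_lit 0) (nat_lit 0) (XT.lf (nat_lit 0) (nat_lit 13995483190) (nat_lit 380) (nat_lit 55464623024) (nat_lit 76) (nat_lit 26460432982) (nat_lit 55) (nat_lit 5) (nat_lit 60) (nat_lit 5) (nat_lit 56) (nat_lit 5) (nat_lit 376) (nat_lit 350) (nat_lit 174)) (XT.lf (nat_lit 0) (nat_lit 29401342357) (nat_lit 380) (nat_lit 6823063302) (nat_lit 76) (nat_lit 62696404095) (nat_lit 55) (nat_lit 5) (nat_lit 60) (nat_lit 5) (nat_lit 56) (nat_lit 5) (nat_lit 377) (nat_lit 350) (nat_lit 173))))))) (XT.nd (nat_lit 858) (nat_lit 988) (nat_lit 0) (XT.nd (nat_lit 390) (nat_lit 608) (nat_lit 0) (XT.nd (nat_lit 156) (nat_lit 456) (nat_lit 0) (XT.nd (nat_lit 78) (nat_lit 0) (nat_lit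 0) (XT.lf (nat_lit 0) (nat_lit 45712810744) (nat_lit 228) (nat_lit 577747713) (nat_lit 304) (nat_lit 55744882857) (nat_lit 52) (nat_lit 5) (nat_lit 55) (nat_lit 5) (nat_lit 56) (nat_lit 5) (nat_lit 378) (nat_lit 350) (nat_lit 172)) (XT.lf (nat_lit 0) (nat_lit 64716405482) (nat_lit 304) (nat_lit 4765786094) (nat_lit 76) (nat_lit 35789005014) (nat_lit 52) (nat_lit 5) (nat_lit 56) (nat_lit 5) (nat_lit 53) (nat_lit 5) (nat_lit 379) (nat_lit 350) (nat_lit 171))) (XT.nd (nat_lit 78) (nat_lit 228) (nat_lit 0) (XT.lf (nat_lit 0) (nat_lit 50990615465) (nat_lit 228) (nat_lit 33877909707) (nat_lit 304) (nat_lit 23759966051) (nat_lit 49) (nat_lit 5) (nat_lit 52) (nat_lit 5) (nat_lit 53) (nat_lit 5) (nat_lit 380) (nat_lit 350) (nat_lit 170)) (XT.nd (nat_lit 78) (nat_lit 228) (nat_lit 0) (XT.lf (nat_lit 0) (nat_lit 106164447111) (nat_lit 304) (nat_lit 2506235931) (nat_lit 76) (nat_lit 3476158316) (nat_lit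 49) (nat_lit 5) (nat_lit 53) (nat_lit 5) (nat_lit 50) (nat_lit 5) (nat_lit 381) (nat_lit 350) (nat_lit 169)) (XT.lf (nat_lit 0) (nat_lit 13740783726) (nat_lit 228) (nat_lit 59352185111) (nat_lit 76) (nat_lit 42665104179) (nat_lit 46) (nat_lit 5) (nat_lit 49) (nat_lit 5) (nat_lit 47) (nat_lit 5) (nat_lit 382) (nat_lit 350) (nat_lit 168))))) (XT.nd (nat_lit 234) (nat_lit 380) (nat_lit 0) (XT.nd (nat_lit 78) (nat_lit 228) (nat_lit 0) (XT.lf (nat_lit 0) (nat_lit 34291660303) (nat_lit 228) (nat_lit 1296693241) (nat_lit 76) (nat_lit 83954480244) (nat_lit 46) (nat_lit 5) (nat_lit 49) (nat_lit 5) (nat_lit 47) (nat_lit 5) (nat_lit 383) (nat_lit 350) (nat_lit 167)) (XT.nd (nat_lit 78) (nat_lit 0) (nat_lit 0) (XT.lf (nat_lit 0) (nat_lit 56906792208) (nat_lit 304) (nat_lit 61910255586) (nat_lit 76) (nat_lit 4647949710) (nat_lit 43) (nat_lit 5) (nat_lit 47) (nat_lit 5) (nat_lit 44) (nat_lit 5) (nat_lit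 384) (nat_lit 350) (nat_lit 166)) (XT.lf (nat_lit 0) (nat_lit 81257899419) (nat_lit 304) (nat_lit 572961333) (nat_lit 76) (nat_lit 45722148173) (nat_lit 43) (nat_lit 5) (nat_lit 47) (nat_lit 5) (nat_lit 44) (nat_lit 5) (nat_lit 385) (nat_lit 350) (nat_lit 165)))) (XT.nd (nat_lit 78) (nat_lit 228) (nat_lit 0) (XT.lf (nat_lit 0) (nat_lit 65940976502) (nat_lit 152) (nat_lit 41914616503) (nat_lit 228) (nat_lit 23938376797) (nat_lit 41) (nat_lit 5) (nat_lit 43) (nat_lit 5) (nat_lit 44) (nat_lit 5) (nat_lit 386) (nat_lit 350) (nat_lit 164)) (XT.nd (nat_lit 78) (nat_lit 228) (nat_lit 0) (XT.lf (nat_lit 0) (nat_lit 135792509408) (nat_lit 228) (nat_lit 446862192) (nat_lit 76) (nat_lit 7140629) (nat_lit 41) (nat_lit 5) (nat_lit 44) (nat_lit 5) (nat_lit 42) (nat_lit 5) (nat_lit 387) (nat_lit 350) (nat_lit 163)) (XT.lf (nat_lit 0) (nat_lit 25235053336) (nat_lit 228) (nat_lit 71464928332) (nat_lit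 76) (nat_lit 44112547335) (nat_lit 38) (nat_lit 5) (nat_lit 41) (nat_lit 5) (nat_lit 39) (nat_lit 5) (nat_lit 388) (nat_lit 350) (nat_lit 162)))))) (XT.nd (nat_lit 468) (nat_lit 456) (nat_lit 0) (XT.nd (nat_lit 234) (nat_lit 380) (nat_lit 0) (XT.nd (nat_lit 78) (nat_lit 152) (nat_lit 0) (XT.lf (nat_lit 0) (nat_lit 52200538649) (nat_lit 228) (nat_lit 2967455019) (nat_lit 76) (nat_lit 90438119479) (nat_lit 38) (nat_lit 5) (nat_lit 41) (nat_lit 5) (nat_lit 39) (nat_lit 5) (nat_lit 389) (nat_lit 350) (nat_lit 161)) (XT.nd (nat_lit 78) (nat_lit 0) (nat_lit 0) (XT.lf (nat_lit 0) (nat_lit 71234142933) (nat_lit 152) (nat_lit 10391883643) (nat_lit 228) (nat_lit 68957763847) (nat_lit 36) (nat_lit 5) (nat_lit 38) (nat_lit 5) (nat_lit 39) (nat_lit 5) (nat_lit 390) (nat_lit 350) (nat_lit 160)) (XT.lf (nat_lit 0) (nat_lit 113145226288) (nat_lit 228) (nat_lit 7132299823) (nat_lit 76) (nat_lit 35501703908)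 (nat_lit 36) (nat_lit 5) (nat_lit 39) (nat_lit 5) (nat_lit 37) (nat_lit 5) (nat_lit 391) (nat_lit 350) (nat_lit 159)))) (XT.nd (nat_lit 78) (nat_lit 228) (nat_lit 0) (XT.lf (nat_lit 0) (nat_lit 70790638902) (nat_lit 152) (nat_lit 76724936646) (nat_lit 228) (nat_lit 13655106876) (nat_lit 34) (nat_lit 5) (nat_lit 36) (nat_lit 5) (nat_lit 37) (nat_lit 5) (nat_lit 392) (nat_lit 350) (nat_lit 158)) (XT.nd (nat_lit 78) (nat_lit 152) (nat_lit 0) (XT.lf (nat_lit 0) (nat_lit 16358264720) (nat_lit 228) (nat_lit 14232838843) (nat_lit 76) (nat_lit 136221392588) (nat_lit 33) (nat_lit 5) (nat_lit 36) (nat_lit 5) (nat_lit 34) (nat_lit 5) (nat_lit 393) (nat_lit 350) (nat_lit 157)) (XT.lf (nat_lit 0) (nat_lit 48769086876) (nat_lit 228) (nat_lit 105309195922) (nat_lit 76) (nat_lit 18579141167) (nat_lit 31) (nat_lit 5) (nat_lit 34) (nat_lit 5) (nat_lit 32) (nat_lit 5) (nat_lit 394) (nat_lit 350) (nat_lit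 156))))) (XT.nd (nat_lit 234) (nat_lit 304) (nat_lit 0) (XT.nd (nat_lit 78) (nat_lit 152) (nat_lit 0) (XT.lf (nat_lit 0) (nat_lit 83546552536) (nat_lit 228) (nat_lit 25786147690) (nat_lit 76) (nat_lit 69424593078) (nat_lit 31) (nat_lit 5) (nat_lit 34) (nat_lit 5) (nat_lit 32) (nat_lit 5) (nat_lit 395) (nat_lit 350) (nat_lit 155)) (XT.nd (nat_lit 78) (nat_lit 0) (nat_lit 0) (XT.lf (nat_lit 0) (nat_lit 59620680551) (nat_lit 152) (nat_lit 61372692465) (nat_lit 228) (nat_lit 64122259260) (nat_lit 29) (nat_lit 5) (nat_lit 31) (nat_lit 5) (nat_lit 32) (nat_lit 5) (nat_lit 396) (nat_lit 350) (nat_lit 154)) (XT.lf (nat_lit 0) (nat_lit 150192490290) (nat_lit 152) (nat_lit 10556388780) (nat_lit 228) (nat_lit 31021192129) (nat_lit 29) (nat_lit 5) (nat_lit 31) (nat_lit 5) (nat_lit 32) (nat_lit 5) (nat_lit 397) (nat_lit 350) (nat_lit 153)))) (XT.nd (nat_lit 78) (nat_lit 152) (nat_lit 0) (XT.lf (nat_lit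 0) (nat_lit 5046147998) (nat_lit 152) (nat_lit 151384835621) (nat_lit 76) (nat_lit 42251794989) (nat_lit 27) (nat_lit 5) (nat_lit 29) (nat_lit 5) (nat_lit 28) (nat_lit 5) (nat_lit 398) (nat_lit 350) (nat_lit 152)) (XT.nd (nat_lit 78) (nat_lit 152) (nat_lit 0) (XT.lf (nat_lit 0) (nat_lit 42762733628) (nat_lit 152) (nat_lit 64538918698) (nat_lit 76) (nat_lit 98569622356) (nat_lit 27) (nat_lit 5) (nat_lit 29) (nat_lit 5) (nat_lit 28) (nat_lit 5) (nat_lit 399) (nat_lit 350) (nat_lit 151)) (XT.lf (nat_lit 0) (nat_lit 27529865474) (nat_lit 152) (nat_lit 55264776412) (nat_lit 228) (nat_lit 130603079197) (nat_lit 25) (nat_lit 5) (nat_lit 27) (nat_lit 5) (nat_lit 28) (nat_lit 5) (nat_lit 400) (nat_lit 350) (nat_lit 150))))))))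
noncomputable def xc217 : XT := (XT.nd (nat_lit 1794) (nat_lit 0) (nat_lit 0) (XT.nd (nat_lit 858) (nat_lit 456) (nat_lit 0) (XT.nd (nat_lit 390) (nat_lit 228) (nat_lit 0) (XT.nd (nat_lit 156) (nat_lit 304) (nat_lit 0) (XT.nd (nat_lit 78) (nat_lit 0) (nat_lit 0) (XT.lf (nat_lit 0) (nat_lit 125928965218) (nat_lit 228) (nat_lit 94811808783) (nat_lit 76) (nat_lit 504674998) (nat_lit 25) (nat_lit 5) (nat_lit 28) (nat_lit 5) (nat_lit 26) (nat_lit 4) (nat_lit 401) (nat_lit 350) (nat_lit 149)) (XT.lf (nat_lit 0) (nat_lit 172125678324) (nat_lit 228) (nat_lit 109472656) (nat_lit 76) (nat_lit 57205128824) (nat_lit 25) (nat_lit 5) (nat_lit 28) (nat_lit 5) (nat_lit 26) (nat_lit 4) (nat_lit 402) (nat_lit 350) (nat_lit 148))) (XT.nd (nat_lit 78) (nat_lit 228) (nat_lit 0) (XT.lf (nat_lit 0) (nat_lit 102611687382) (nat_lit 76) (nat_lit 119622303964) (nat_lit 152) (nat_lit 15730772754) (nat_lit 24) (nat_lit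 5) (nat_lit 25) (nat_lit 5) (nat_lit 26) (nat_lit 4) (nat_lit 403) (nat_lit 350) (nat_lit 147)) (XT.nd (nat_lit 78) (nat_lit 152) (nat_lit 0) (XT.lf (nat_lit 0) (nat_lit 27039834928) (nat_lit 152) (nat_lit 36879314178) (nat_lit 76) (nat_lit 182974438925) (nat_lit 23) (nat_lit 5) (nat_lit 25) (nat_lit 5) (nat_lit 24) (nat_lit 5) (nat_lit 404) (nat_lit 350) (nat_lit 146)) (XT.lf (nat_lit 0) (nat_lit 68450617173) (nat_lit 152) (nat_lit 4038128016) (nat_lit 228) (nat_lit 183713792571) (nat_lit 21) (nat_lit 5) (nat_lit 23) (nat_lit 5) (nat_lit 24) (nat_lit 5) (nat_lit 405) (nat_lit 350) (nat_lit 145))))) (XT.nd (nat_lit 234) (nat_lit 152) (nat_lit 0) (XT.nd (nat_lit 78) (nat_lit 76) (nat_lit 0) (XT.lf (nat_lit 0) (nat_lit 121763244268) (nat_lit 228) (nat_lit 86547631008) (nat_lit 76) (nat_lit 57588402669) (nat_lit 21) (nat_lit 5) (nat_lit 24) (nat_lit 5) (nat_lit 22) (nat_lit 4) (nat_lit 406)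 (nat_lit 350) (nat_lit 144)) (XT.nd (nat_lit 78) (nat_lit 0) (nat_lit 0) (XT.lf (nat_lit 0) (nat_lit 20299934467) (nat_lit 76) (nat_lit 153584410423) (nat_lit 152) (nat_lit 102177366547) (nat_lit 20) (nat_lit 5) (nat_lit 21) (nat_lit 5) (nat_lit 22) (nat_lit 4) (nat_lit 407) (nat_lit 350) (nat_lit 143)) (XT.lf (nat_lit 0) (nat_lit 135494159584) (nat_lit 76) (nat_lit 94582811171) (nat_lit 152) (nat_lit 56582022461) (nat_lit 20) (nat_lit 5) (nat_lit 21) (nat_lit 5) (nat_lit 22) (nat_lit 4) (nat_lit 408) (nat_lit 350) (nat_lit 142)))) (XT.nd (nat_lit 78) (nat_lit 152) (nat_lit 0) (XT.lf (nat_lit 0) (nat_lit 256447660766) (nat_lit 76) (nat_lit 32631323530) (nat_lit 152) (nat_lit 8707167085) (nat_lit 20) (nat_lit 5) (nat_lit 21) (nat_lit 5) (nat_lit 22) (nat_lit 4) (nat_lit 409) (nat_lit 350) (nat_lit 141)) (XT.nd (nat_lit 78) (nat_lit 0) (nat_lit 0) (XT.lf (nat_lit 0) (nat_lit 41949864966)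 (nat_lit 152) (nat_lit 234159780420) (nat_lit 76) (nat_lit 33241644690) (nat_lit 18) (nat_lit 5) (nat_lit 20) (nat_lit 5) (nat_lit 19) (nat_lit 4) (nat_lit 410) (nat_lit 350) (nat_lit 140)) (XT.lf (nat_lit 0) (nat_lit 96093400563) (nat_lit 152) (nat_lit 123166073705) (nat_lit 76) (nat_lit 102165761023) (nat_lit 18) (nat_lit 5) (nat_lit 20) (nat_lit 5) (nat_lit 19) (nat_lit 4) (nat_lit 411) (nat_lit 350) (nat_lit 139)))))) (XT.nd (nat_lit 468) (nat_lit 228) (nat_lit 0) (XT.nd (nat_lit 234) (nat_lit 152) (nat_lit 0) (XT.nd (nat_lit 78) (nat_lit 76) (nat_lit 0) (XT.lf (nat_lit 0) (nat_lit 152943890027) (nat_lit 152) (nat_lit 6623085791) (nat_lit 76) (nat_lit 174535913191) (nat_lit 18) (nat_lit 5) (nat_lit 20) (nat_lit 5) (nat_lit 19) (nat_lit 4) (nat_lit 412) (nat_lit 350) (nat_lit 138)) (XT.nd (nat_lit 78) (nat_lit 0) (nat_lit 0) (XT.lf (nat_lit 0) (nat_lit 119573774152) (nat_lit 76) (nat_lit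 94929799232) (nat_lit 152) (nat_lit 132817518649) (nat_lit 17) (nat_lit 5) (nat_lit 18) (nat_lit 5) (nat_lit 19) (nat_lit 4) (nat_lit 413) (nat_lit 350) (nat_lit 137)) (XT.lf (nat_lit 0) (nat_lit 252310036994) (nat_lit 76) (nat_lit 26943160977) (nat_lit 152) (nat_lit 81941409471) (nat_lit 17) (nat_lit 5) (nat_lit 18) (nat_lit 5) (nat_lit 19) (nat_lit 4) (nat_lit 414) (nat_lit 350) (nat_lit 136)))) (XT.nd (nat_lit 78) (nat_lit 76) (nat_lit 0) (XT.lf (nat_lit 0) (nat_lit 15730545129) (nat_lit 76) (nat_lit 332449032626) (nat_lit 76) (nat_lit 27535257250) (nat_lit 16) (nat_lit 4) (nat_lit 17) (nat_lit 5) (nat_lit 17) (nat_lit 4) (nat_lit 415) (nat_lit 350) (nat_lit 135)) (XT.nd (nat_lit 78) (nat_lit 0) (nat_lit 0) (XT.lf (nat_lit 0) (nat_lit 30959832939) (nat_lit 152) (nat_lit 241446521745) (nat_lit 76) (nat_lit 118415832575) (nat_lit 15) (nat_lit 5) (nat_lit 17) (nat_lit 5) (nat_lit 16) (nat_lit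 4) (nat_lit 416) (nat_lit 350) (nat_lit 134)) (XT.lf (nat_lit 0) (nat_lit 91454121839) (nat_lit 152) (nat_lit 117433614164) (nat_lit 76) (nat_lit 197774610842) (nat_lit 15) (nat_lit 5) (nat_lit 17) (nat_lit 5) (nat_lit 16) (nat_lit 4) (nat_lit 417) (nat_lit 350) (nat_lit 133))))) (XT.nd (nat_lit 234) (nat_lit 152) (nat_lit 0) (XT.nd (nat_lit 78) (nat_lit 0) (nat_lit 0) (XT.lf (nat_lit 0) (nat_lit 13202155657) (nat_lit 76) (nat_lit 141976910654) (nat_lit 152) (nat_lit 268105151111) (nat_lit 14) (nat_lit 5) (nat_lit 15) (nat_lit 5) (nat_lit 16) (nat_lit 4) (nat_lit 418) (nat_lit 350) (nat_lit 132)) (XT.nd (nat_lit 78) (nat_lit 0) (nat_lit 0) (XT.lf (nat_lit 0) (nat_lit 154446414709) (nat_lit 76) (nat_lit 69632460360) (nat_lit 152) (nat_lit 216558875670) (nat_lit 14) (nat_lit 5) (nat_lit 15) (nat_lit 5) (nat_lit 16) (nat_lit 4) (nat_lit 419) (nat_lit 350) (nat_lit 131)) (XT.lf (nat_lit 0)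 (nat_lit 296522319222) (nat_lit 152) (nat_lit 156205210541) (nat_lit 0) (nat_lit 6126498773) (nat_lit 14) (nat_lit 5) (nat_lit 16) (nat_lit 4) (nat_lit 14) (nat_lit 4) (nat_lit 420) (nat_lit 350) (nat_lit 130)))) (XT.nd (nat_lit 78) (nat_lit 152) (nat_lit 0) (XT.lf (nat_lit 0) (nat_lit 373729287718) (nat_lit 152) (nat_lit 20861599081) (nat_lit 0) (nat_lit 83333165876) (nat_lit 14) (nat_lit 5) (nat_lit 16) (nat_lit 4) (nat_lit 14) (nat_lit 4) (nat_lit 421) (nat_lit 350) (nat_lit 129)) (XT.nd (nat_lit 78) (nat_lit 76) (nat_lit 0) (XT.lf (nat_lit 0) (nat_lit 125257939199) (nat_lit 76) (nat_lit 331494137090) (nat_lit 76) (nat_lit 41097728205) (nat_lit 13) (nat_lit 4) (nat_lit 14) (nat_lit 5) (nat_lit 14) (nat_lit 4) (nat_lit 422) (nat_lit 350) (nat_lit 128)) (XT.lf (nat_lit 0) (nat_lit 24708007850) (nat_lit 152) (nat_lit 239745266164) (nat_lit 76) (nat_lit 254280986709) (nat_lit 12) (nat_lit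 5) (nat_lit 14) (nat_lit 5) (nat_lit 13) (nat_lit 4) (nat_lit 423) (nat_lit 350) (nat_lit 127))))))) (XT.nd (nat_lit 41964) (nat_lit 0) (nat_lit 4180) (XT.nd (nat_lit 41496) (nat_lit 0) (nat_lit 6004) (XT.nd (nat_lit 41262) (nat_lit 0) (nat_lit 5928) (XT.nd (nat_lit 41184) (nat_lit 0) (nat_lit 6688) (XT.lf (nat_lit 0) (nat_lit 92422729539) (nat_lit 152) (nat_lit 100930347058) (nat_lit 76) (nat_lit 347276183954) (nat_lit 12) (nat_lit 5) (nat_lit 14) (nat_lit 5) (nat_lit 13) (nat_lit 4) (nat_lit 424) (nat_lit 350) (nat_lit 126)) (XT.lf (nat_lit 0) (nat_lit 11988663863) (nat_lit 0) (nat_lit 11988663863) (nat_lit 684) (nat_lit 603456822) (nat_lit 100) (nat_lit 5) (nat_lit 100) (nat_lit 3) (nat_lit 109) (nat_lit 3) (nat_lit 351) (nat_lit 351) (nat_lit 198))) (XT.nd (nat_lit 78) (nat_lit 760) (nat_lit 0) (XT.lf (nat_lit 0) (nat_lit 48003939878) (nat_lit 0) (nat_lit 1175142042) (nat_lit 684)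 (nat_lit 1210209088) (nat_lit 100) (nat_lit 5) (nat_lit 100) (nat_lit 3) (nat_lit 109) (nat_lit 3) (nat_lit 352) (nat_lit 351) (nat_lit 197)) (XT.nd (nat_lit 78) (nat_lit 760) (nat_lit 0) (XT.lf (nat_lit 76) (nat_lit 21897981546) (nat_lit 0) (nat_lit 29262472694) (nat_lit 760) (nat_lit 483161062) (nat_lit 101) (nat_lit 5) (nat_lit 100) (nat_lit 5) (nat_lit 110) (nat_lit 5) (nat_lit 353) (nat_lit 351) (nat_lit 196)) (XT.lf (nat_lit 0) (nat_lit 330005859) (nat_lit 760) (nat_lit 5505598498) (nat_lit 836) (nat_lit 47121898177) (nat_lit 90) (nat_lit 5) (nat_lit 100) (nat_lit 5) (nat_lit 101) (nat_lit 5) (nat_lit 354) (nat_lit 351) (nat_lit 195))))) (XT.nd (nat_lit 234) (nat_lit 0) (nat_lit 76) (XT.nd (nat_lit 78) (nat_lit 0) (nat_lit 0) (XT.lf (nat_lit 0) (nat_lit 1786003502) (nat_lit 760) (nat_lit 34022199529) (nat_lit 836) (nat_lit 18497566747) (nat_lit 91) (nat_lit 5) (nat_lit 101) (nat_lit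 5) (nat_lit 102) (nat_lit 5) (nat_lit 355) (nat_lit 351) (nat_lit 194)) (XT.nd (nat_lit 78) (nat_lit 0) (nat_lit 76) (XT.lf (nat_lit 0) (nat_lit 3503789528) (nat_lit 760) (nat_lit 8261621745) (nat_lit 836) (nat_lit 43946591757) (nat_lit 91) (nat_lit 5) (nat_lit 101) (nat_lit 5) (nat_lit 102) (nat_lit 5) (nat_lit 356) (nat_lit 351) (nat_lit 193)) (XT.lf (nat_lit 0) (nat_lit 5824516165) (nat_lit 760) (nat_lit 37981691267) (nat_lit 836) (nat_lit 13356489920) (nat_lit 92) (nat_lit 5) (nat_lit 102) (nat_lit 5) (nat_lit 103) (nat_lit 5) (nat_lit 357) (nat_lit 351) (nat_lit 192)))) (XT.nd (nat_lit 78) (nat_lit 0) (nat_lit 76) (XT.lf (nat_lit 0) (nat_lit 8595043795) (nat_lit 760) (nat_lit 10592501254) (nat_lit 836) (nat_lit 39481694985) (nat_lit 92) (nat_lit 5) (nat_lit 102) (nat_lit 5) (nat_lit 103) (nat_lit 5) (nat_lit 358) (nat_lit 351) (nat_lit 191)) (XT.nd (nat_lit 78) (nat_lit 0) (nat_lit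 0) (XT.lf (nat_lit 0) (nat_lit 11904649828) (nat_lit 760) (nat_lit 41579518643) (nat_lit 836) (nat_lit 6746915567) (nat_lit 93) (nat_lit 5) (nat_lit 103) (nat_lit 5) (nat_lit 104) (nat_lit 5) (nat_lit 359) (nat_lit 351) (nat_lit 190)) (XT.lf (nat_lit 0) (nat_lit 15875409387) (nat_lit 760) (nat_lit 12454954098) (nat_lit 836) (nat_lit 33515874799) (nat_lit 93) (nat_lit 5) (nat_lit 103) (nat_lit 5) (nat_lit 104) (nat_lit 5) (nat_lit 360) (nat_lit 351) (nat_lit 189)))))) (XT.nd (nat_lit 468) (nat_lit 988) (nat_lit 0) (XT.nd (nat_lit 234) (nat_lit 380) (nat_lit 0) (XT.nd (nat_lit 78) (nat_lit 608) (nat_lit 0) (XT.lf (nat_lit 76) (nat_lit 18724181126) (nat_lit 0) (nat_lit 1611713564) (nat_lit 836) (nat_lit 43191697786) (nat_lit 94) (nat_lit 5) (nat_lit 93) (nat_lit 5) (nat_lit 104) (nat_lit 5) (nat_lit 361) (nat_lit 351) (nat_lit 188)) (XT.nd (nat_lit 78) (nat_lit 684) (nat_lit 0) (XT.lf (nat_lit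 0) (nat_lit 25645533832) (nat_lit 760) (nat_lit 13805084746) (nat_lit 76) (nat_lit 25811090866) (nat_lit 94) (nat_lit 5) (nat_lit 104) (nat_lit 5) (nat_lit 95) (nat_lit 5) (nat_lit 362) (nat_lit 351) (nat_lit 187)) (XT.lf (nat_lit 0) (nat_lit 19334619779) (nat_lit 684) (nat_lit 12213270694) (nat_lit 760) (nat_lit 35518281483) (nat_lit 85) (nat_lit 5) (nat_lit 94) (nat_lit 5) (nat_lit 95) (nat_lit 5) (nat_lit 363) (nat_lit 351) (nat_lit 186)))) (XT.nd (nat_lit 78) (nat_lit 380) (nat_lit 0) (XT.lf (nat_lit 0) (nat_lit 38237807398) (nat_lit 760) (nat_lit 14599224010) (nat_lit 76) (nat_lit 16099205464) (nat_lit 85) (nat_lit 5) (nat_lit 95) (nat_lit 5) (nat_lit 86) (nat_lit 5) (nat_lit 364) (nat_lit 351) (nat_lit 185)) (XT.nd (nat_lit 78) (nat_lit 0) (nat_lit 0) (XT.lf (nat_lit 0) (nat_lit 20649478253) (nat_lit 380) (nat_lit 25134387528) (nat_lit 456) (nat_lit 25089858305) (nat_lit 80) (nat_lit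 5) (nat_lit 85) (nat_lit 5) (nat_lit 86) (nat_lit 5) (nat_lit 365) (nat_lit 351) (nat_lit 184)) (XT.lf (nat_lit 0) (nat_lit 54019312449) (nat_lit 456) (nat_lit 14795002595) (nat_lit 76) (nat_lit 4078167622) (nat_lit 80) (nat_lit 5) (nat_lit 86) (nat_lit 5) (nat_lit 81) (nat_lit 5) (nat_lit 366) (nat_lit 351) (nat_lit 183))))) (XT.nd (nat_lit 234) (nat_lit 304) (nat_lit 0) (XT.nd (nat_lit 78) (nat_lit 380) (nat_lit 0) (XT.lf (nat_lit 0) (nat_lit 22719918931) (nat_lit 304) (nat_lit 40712481618) (nat_lit 380) (nat_lit 11541486379) (nat_lit 76) (nat_lit 5) (nat_lit 80) (nat_lit 5) (nat_lit 81) (nat_lit 5) (nat_lit 367) (nat_lit 351) (nat_lit 182)) (XT.nd (nat_lit 78) (nat_lit 380) (nat_lit 0) (XT.lf (nat_lit 0) (nat_lit 62623326491) (nat_lit 304) (nat_lit 10942513711) (nat_lit 380) (nat_lit 3581037498) (nat_lit 76) (nat_lit 5) (nat_lit 80) (nat_lit 5) (nat_lit 81) (nat_lit 5) (nat_lit 368)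 (nat_lit 351) (nat_lit 181)) (XT.lf (nat_lit 0) (nat_lit 5352229678) (nat_lit 380) (nat_lit 53884573944) (nat_lit 76) (nat_lit 20151600798) (nat_lit 71) (nat_lit 5) (nat_lit 76) (nat_lit 5) (nat_lit 72) (nat_lit 5) (nat_lit 369) (nat_lit 351) (nat_lit 180)))) (XT.nd (nat_lit 78) (nat_lit 304) (nat_lit 0) (XT.lf (nat_lit 0) (nat_lit 15040383110) (nat_lit 380) (nat_lit 13935946915) (nat_lit 76) (nat_lit 52741314712) (nat_lit 71) (nat_lit 5) (nat_lit 76) (nat_lit 5) (nat_lit 72) (nat_lit 5) (nat_lit 370) (nat_lit 351) (nat_lit 179)) (XT.nd (nat_lit 78) (nat_lit 0) (nat_lit 0) (XT.lf (nat_lit 0) (nat_lit 25715008867) (nat_lit 380) (nat_lit 55256527985) (nat_lit 76) (nat_lit 3166707930) (nat_lit 67) (nat_lit 5) (nat_lit 72) (nat_lit 5) (nat_lit 68) (nat_lit 5) (nat_lit 371) (nat_lit 351) (nat_lit 178)) (XT.lf (nat_lit 0) (nat_lit 37637517226) (nat_lit 380) (nat_lit 12823775999) (nat_lit 76)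 (nat_lit 36182874943) (nat_lit 67) (nat_lit 5) (nat_lit 72) (nat_lit 5) (nat_lit 68) (nat_lit 5) (nat_lit 372) (nat_lit 351) (nat_lit 177))))))))
noncomputable def xc218 : XT := (XT.nd (nat_lit 1794) (nat_lit 1216) (nat_lit 0) (XT.nd (nat_lit 858) (nat_lit 1140) (nat_lit 0) (XT.nd (nat_lit 390) (nat_lit 684) (nat_lit 0) (XT.nd (nat_lit 156) (nat_lit 608) (nat_lit 0) (XT.nd (nat_lit 78) (nat_lit 0) (nat_lit 0) (XT.lf (nat_lit 0) (nat_lit 32778886253) (nat_lit 304) (nat_lit 17888319271) (nat_lit 380) (nat_lit 38582630334) (nat_lit 63) (nat_lit 5) (nat_lit 67) (nat_lit 5) (nat_lit 68) (nat_lit 5) (nat_lit 373) (nat_lit 351) (nat_lit 176)) (XT.lf (nat_lit 0) (nat_lit 64823114615) (nat_lit 380) (nat_lit 11127166426) (nat_lit 76) (nat_lit 16011769890) (nat_lit 63) (nat_lit 5) (nat_lit 68) (nat_lit 5) (nat_lit 64) (nat_lit 5) (nat_lit 374) (nat_lit 351) (nat_lit 175))) (XT.nd (nat_lit 78) (nat_lit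 380) (nat_lit 0) (XT.lf (nat_lit 0) (nat_lit 37386316242) (nat_lit 228) (nat_lit 43176795289) (nat_lit 304) (nat_lit 14202951391) (nat_lit 60) (nat_lit 5) (nat_lit 63) (nat_lit 5) (nat_lit 64) (nat_lit 5) (nat_lit 375) (nat_lit 351) (nat_lit 174)) (XT.nd (nat_lit 78) (nat_lit 380) (nat_lit 0) (XT.lf (nat_lit 0) (nat_lit 88710962456) (nat_lit 228) (nat_lit 8566944650) (nat_lit 304) (nat_lit 422979209) (nat_lit 60) (nat_lit 5) (nat_lit 63) (nat_lit 5) (nat_lit 64) (nat_lit 5) (nat_lit 376) (nat_lit 351) (nat_lit 173)) (XT.lf (nat_lit 0) (nat_lit 14714975381) (nat_lit 380) (nat_lit 58211432005) (nat_lit 76) (nat_lit 27789152136) (nat_lit 55) (nat_lit 5) (nat_lit 60) (nat_lit 5) (nat_lit 56) (nat_lit 5) (nat_lit 377) (nat_lit 351) (nat_lit 172))))) (XT.nd (nat_lit 234) (nat_lit 456) (nat_lit 0) (XT.nd (nat_lit 78) (nat_lit 228) (nat_lit 0) (XT.lf (nat_lit 0) (nat_lit 30890188552) (nat_lit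 380) (nat_lit 7139052496) (nat_lit 76) (nat_lit 65836650495) (nat_lit 55) (nat_lit 5) (nat_lit 60) (nat_lit 5) (nat_lit 56) (nat_lit 5) (nat_lit 378) (nat_lit 351) (nat_lit 171)) (XT.nd (nat_lit 78) (nat_lit 0) (nat_lit 0) (XT.lf (nat_lit 0) (nat_lit 48023209382) (nat_lit 228) (nat_lit 600148377) (nat_lit 304) (nat_lit 58512923248) (nat_lit 52) (nat_lit 5) (nat_lit 55) (nat_lit 5) (nat_lit 56) (nat_lit 5) (nat_lit 379) (nat_lit 351) (nat_lit 170)) (XT.lf (nat_lit 0) (nat_lit 67969723522) (nat_lit 304) (nat_lit 4979704733) (nat_lit 76) (nat_lit 37584435366) (nat_lit 52) (nat_lit 5) (nat_lit 56) (nat_lit 5) (nat_lit 53) (nat_lit 5) (nat_lit 380) (nat_lit 351) (nat_lit 169)))) (XT.nd (nat_lit 78) (nat_lit 228) (nat_lit 0) (XT.lf (nat_lit 0) (nat_lit 53564123829) (nat_lit 228) (nat_lit 35564866499) (nat_lit 304) (nat_lit 24930056456) (nat_lit 49) (nat_lit 5) (nat_lit 52) (nat_lit 5) (nat_lit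 53) (nat_lit 5) (nat_lit 381) (nat_lit 351) (nat_lit 168)) (XT.nd (nat_lit 78) (nat_lit 228) (nat_lit 0) (XT.lf (nat_lit 0) (nat_lit 111489000162) (nat_lit 304) (nat_lit 2607987482) (nat_lit 76) (nat_lit 3656363005) (nat_lit 49) (nat_lit 5) (nat_lit 53) (nat_lit 5) (nat_lit 50) (nat_lit 5) (nat_lit 382) (nat_lit 351) (nat_lit 167)) (XT.lf (nat_lit 0) (nat_lit 14444013740) (nat_lit 228) (nat_lit 62296064048) (nat_lit 76) (nat_lit 44805074604) (nat_lit 46) (nat_lit 5) (nat_lit 49) (nat_lit 5) (nat_lit 47) (nat_lit 5) (nat_lit 383) (nat_lit 351) (nat_lit 166)))))) (XT.nd (nat_lit 468) (nat_lit 532) (nat_lit 0) (XT.nd (nat_lit 234) (nat_lit 380) (nat_lit 0) (XT.nd (nat_lit 78) (nat_lit 228) (nat_lit 0) (XT.lf (nat_lit 0) (nat_lit 36021663154) (nat_lit 228) (nat_lit 1338927600) (nat_lit 76) (nat_lit 88158599700) (nat_lit 46) (nat_lit 5) (nat_lit 49) (nat_lit 5) (nat_lit 47) (nat_lit 5) (nat_lit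 384) (nat_lit 351) (nat_lit 165)) (XT.nd (nat_lit 78) (nat_lit 0) (nat_lit 0) (XT.lf (nat_lit 0) (nat_lit 59767276999) (nat_lit 304) (nat_lit 64982880044) (nat_lit 76) (nat_lit 4887319713) (nat_lit 43) (nat_lit 5) (nat_lit 47) (nat_lit 5) (nat_lit 44) (nat_lit 5) (nat_lit 385) (nat_lit 351) (nat_lit 164)) (XT.lf (nat_lit 0) (nat_lit 85335218372) (nat_lit 304) (nat_lit 579810998) (nat_lit 76) (nat_lit 48014896075) (nat_lit 43) (nat_lit 5) (nat_lit 47) (nat_lit 5) (nat_lit 44) (nat_lit 5) (nat_lit 386) (nat_lit 351) (nat_lit 163)))) (XT.nd (nat_lit 78) (nat_lit 228) (nat_lit 0) (XT.lf (nat_lit 0) (nat_lit 69259472141) (nat_lit 152) (nat_lit 44002972484) (nat_lit 228) (nat_lit 25120507947) (nat_lit 41) (nat_lit 5) (nat_lit 43) (nat_lit 5) (nat_lit 44) (nat_lit 5) (nat_lit 387) (nat_lit 351) (nat_lit 162)) (XT.nd (nat_lit 78) (nat_lit 228) (nat_lit 0) (XT.lf (nat_lit 0) (nat_lit 142595646414)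 (nat_lit 228) (nat_lit 448207785) (nat_lit 76) (nat_lit 14296520) (nat_lit 41) (nat_lit 5) (nat_lit 44) (nat_lit 5) (nat_lit 42) (nat_lit 5) (nat_lit 388) (nat_lit 351) (nat_lit 161)) (XT.lf (nat_lit 0) (nat_lit 26510223557) (nat_lit 228) (nat_lit 75017061786) (nat_lit 76) (nat_lit 46325188762) (nat_lit 38) (nat_lit 5) (nat_lit 41) (nat_lit 5) (nat_lit 39) (nat_lit 5) (nat_lit 389) (nat_lit 351) (nat_lit 160))))) (XT.nd (nat_lit 234) (nat_lit 380) (nat_lit 0) (XT.nd (nat_lit 78) (nat_lit 152) (nat_lit 0) (XT.lf (nat_lit 0) (nat_lit 54823344205) (nat_lit 228) (nat_lit 3095720187) (nat_lit 76) (nat_lit 94966705510) (nat_lit 38) (nat_lit 5) (nat_lit 41) (nat_lit 5) (nat_lit 39) (nat_lit 5) (nat_lit 390) (nat_lit 351) (nat_lit 159)) (XT.nd (nat_lit 78) (nat_lit 0) (nat_lit 0) (XT.lf (nat_lit 0) (nat_lit 74815633348) (nat_lit 152) (nat_lit 10904173547) (nat_lit 228) (nat_lit 72392539603) (nat_lit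 36) (nat_lit 5) (nat_lit 38) (nat_lit 5) (nat_lit 39) (nat_lit 5) (nat_lit 391) (nat_lit 351) (nat_lit 158)) (XT.lf (nat_lit 0) (nat_lit 118814480964) (nat_lit 228) (nat_lit 7469578933) (nat_lit 76) (nat_lit 37283522909) (nat_lit 36) (nat_lit 5) (nat_lit 39) (nat_lit 5) (nat_lit 37) (nat_lit 5) (nat_lit 392) (nat_lit 351) (nat_lit 157)))) (XT.nd (nat_lit 78) (nat_lit 228) (nat_lit 0) (XT.lf (nat_lit 0) (nat_lit 74349194858) (nat_lit 152) (nat_lit 80553878734) (nat_lit 228) (nat_lit 14325548374) (nat_lit 34) (nat_lit 5) (nat_lit 36) (nat_lit 5) (nat_lit 37) (nat_lit 5) (nat_lit 393) (nat_lit 351) (nat_lit 156)) (XT.nd (nat_lit 78) (nat_lit 152) (nat_lit 0) (XT.lf (nat_lit 0) (nat_lit 17187530076) (nat_lit 228) (nat_lit 14925979513) (nat_lit 76) (nat_lit 143039035950) (nat_lit 33) (nat_lit 5) (nat_lit 36) (nat_lit 5) (nat_lit 34) (nat_lit 5) (nat_lit 394) (nat_lit 351) (nat_lit 155)) (XT.lf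 (nat_lit 0) (nat_lit 51218747922) (nat_lit 228) (nat_lit 110556001587) (nat_lit 76) (nat_lit 19514977878) (nat_lit 31) (nat_lit 5) (nat_lit 34) (nat_lit 5) (nat_lit 32) (nat_lit 5) (nat_lit 395) (nat_lit 351) (nat_lit 154))))))) (XT.nd (nat_lit 858) (nat_lit 456) (nat_lit 0) (XT.nd (nat_lit 390) (nat_lit 456) (nat_lit 0) (XT.nd (nat_lit 156) (nat_lit 152) (nat_lit 0) (XT.nd (nat_lit 78) (nat_lit 152) (nat_lit 0) (XT.lf (nat_lit 0) (nat_lit 87734553213) (nat_lit 228) (nat_lit 27057689236) (nat_lit 76) (nat_lit 72902374782) (nat_lit 31) (nat_lit 5) (nat_lit 34) (nat_lit 5) (nat_lit 32) (nat_lit 5) (nat_lit 396) (nat_lit 351) (nat_lit 153)) (XT.lf (nat_lit 0) (nat_lit 62619193871) (nat_lit 152) (nat_lit 64434285505) (nat_lit 228) (nat_lit 67317405878) (nat_lit 29) (nat_lit 5) (nat_lit 31) (nat_lit 5) (nat_lit 32) (nat_lit 5) (nat_lit 397) (nat_lit 351) (nat_lit 152))) (XT.nd (nat_lit 78)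 (nat_lit 152) (nat_lit 0) (XT.lf (nat_lit 0) (nat_lit 157718761750) (nat_lit 152) (nat_lit 11077501949) (nat_lit 228) (nat_lit 32561807597) (nat_lit 29) (nat_lit 5) (nat_lit 31) (nat_lit 5) (nat_lit 32) (nat_lit 5) (nat_lit 398) (nat_lit 351) (nat_lit 151)) (XT.nd (nat_lit 78) (nat_lit 0) (nat_lit 0) (XT.lf (nat_lit 0) (nat_lit 5308451320) (nat_lit 152) (nat_lit 158936970287) (nat_lit 76) (nat_lit 44370990304) (nat_lit 27) (nat_lit 5) (nat_lit 29) (nat_lit 5) (nat_lit 28) (nat_lit 5) (nat_lit 399) (nat_lit 351) (nat_lit 150)) (XT.lf (nat_lit 0) (nat_lit 44910390235) (nat_lit 152) (nat_lit 67749572143) (nat_lit 76) (nat_lit 103504394488) (nat_lit 27) (nat_lit 5) (nat_lit 29) (nat_lit 5) (nat_lit 28) (nat_lit 5) (nat_lit 400) (nat_lit 351) (nat_lit 149))))) (XT.nd (nat_lit 234) (nat_lit 304) (nat_lit 0) (XT.nd (nat_lit 78) (nat_lit 0) (nat_lit 0) (XT.lf (nat_lit 0) (nat_lit 28922388455)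 (nat_lit 152) (nat_lit 58021302389) (nat_lit 228) (nat_lit 137123445160) (nat_lit 25) (nat_lit 5) (nat_lit 27) (nat_lit 5) (nat_lit 28) (nat_lit 5) (nat_lit 401) (nat_lit 351) (nat_lit 148)) (XT.nd (nat_lit 78) (nat_lit 0) (nat_lit 0) (XT.lf (nat_lit 0) (nat_lit 132234386499) (nat_lit 228) (nat_lit 99536783953) (nat_lit 76) (nat_lit 536097309) (nat_lit 25) (nat_lit 5) (nat_lit 28) (nat_lit 5) (nat_lit 26) (nat_lit 4) (nat_lit 402) (nat_lit 351) (nat_lit 147)) (XT.lf (nat_lit 0) (nat_lit 180740507973) (nat_lit 228) (nat_lit 100074604) (nat_lit 76) (nat_lit 60071279134) (nat_lit 25) (nat_lit 5) (nat_lit 28) (nat_lit 5) (nat_lit 26) (nat_lit 4) (nat_lit 403) (nat_lit 351) (nat_lit 146)))) (XT.nd (nat_lit 78) (nat_lit 228) (nat_lit 0) (XT.lf (nat_lit 0) (nat_lit 107756903570) (nat_lit 76) (nat_lit 125597154580) (nat_lit 152) (nat_lit 16508521224) (nat_lit 24) (nat_lit 5) (nat_lit 25) (nat_lit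 5) (nat_lit 26) (nat_lit 4) (nat_lit 404) (nat_lit 351) (nat_lit 145)) (XT.nd (nat_lit 78) (nat_lit 152) (nat_lit 0) (XT.lf (nat_lit 0) (nat_lit 28399930319) (nat_lit 152) (nat_lit 38709072734) (nat_lit 76) (nat_lit 192128855053) (nat_lit 23) (nat_lit 5) (nat_lit 25) (nat_lit 5) (nat_lit 24) (nat_lit 5) (nat_lit 405) (nat_lit 351) (nat_lit 144)) (XT.lf (nat_lit 0) (nat_lit 71887126037) (nat_lit 152) (nat_lit 4233992405) (nat_lit 228) (nat_lit 192891145460) (nat_lit 21) (nat_lit 5) (nat_lit 23) (nat_lit 5) (nat_lit 24) (nat_lit 5) (nat_lit 406) (nat_lit 351) (nat_lit 143)))))) (XT.nd (nat_lit 468) (nat_lit 228) (nat_lit 0) (XT.nd (nat_lit 234) (nat_lit 152) (nat_lit 0) (XT.nd (nat_lit 78) (nat_lit 76) (nat_lit 0) (XT.lf (nat_lit 0) (nat_lit 127859054411) (nat_lit 228) (nat_lit 90861408350) (nat_lit 76) (nat_lit 60473392926) (nat_lit 21) (nat_lit 5) (nat_lit 24) (nat_lit 5) (nat_lit 22)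 (nat_lit 4) (nat_lit 407) (nat_lit 351) (nat_lit 142)) (XT.nd (nat_lit 78) (nat_lit 0) (nat_lit 0) (XT.lf (nat_lit 0) (nat_lit 21328315976) (nat_lit 76) (nat_lit 161257738875) (nat_lit 152) (nat_lit 107278363943) (nat_lit 20) (nat_lit 5) (nat_lit 21) (nat_lit 5) (nat_lit 22) (nat_lit 4) (nat_lit 408) (nat_lit 351) (nat_lit 141)) (XT.lf (nat_lit 0) (nat_lit 142281614978) (nat_lit 76) (nat_lit 99306340235) (nat_lit 152) (nat_lit 59403627459) (nat_lit 20) (nat_lit 5) (nat_lit 21) (nat_lit 5) (nat_lit 22) (nat_lit 4) (nat_lit 409) (nat_lit 351) (nat_lit 140)))) (XT.nd (nat_lit 78) (nat_lit 152) (nat_lit 0) (XT.lf (nat_lit 0) (nat_lit 269282184199) (nat_lit 76) (nat_lit 34257545426) (nat_lit 152) (nat_lit 9135386272) (nat_lit 20) (nat_lit 5) (nat_lit 21) (nat_lit 5) (nat_lit 22) (nat_lit 4) (nat_lit 410) (nat_lit 351) (nat_lit 139)) (XT.nd (nat_lit 78) (nat_lit 0) (nat_lit 0) (XT.lf (nat_lit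 0) (nat_lit 44054214171) (nat_lit 152) (nat_lit 245855339799) (nat_lit 76) (nat_lit 34908954867) (nat_lit 18) (nat_lit 5) (nat_lit 20) (nat_lit 5) (nat_lit 19) (nat_lit 4) (nat_lit 411) (nat_lit 351) (nat_lit 138)) (XT.lf (nat_lit 0) (nat_lit 100904600074) (nat_lit 152) (nat_lit 129312539636) (nat_lit 76) (nat_lit 107279028066) (nat_lit 18) (nat_lit 5) (nat_lit 20) (nat_lit 5) (nat_lit 19) (nat_lit 4) (nat_lit 412) (nat_lit 351) (nat_lit 137))))) (XT.nd (nat_lit 234) (nat_lit 152) (nat_lit 0) (XT.nd (nat_lit 78) (nat_lit 76) (nat_lit 0) (XT.lf (nat_lit 0) (nat_lit 160597303083) (nat_lit 152) (nat_lit 6942966029) (nat_lit 76) (nat_lit 183267450748) (nat_lit 18) (nat_lit 5) (nat_lit 20) (nat_lit 5) (nat_lit 19) (nat_lit 4) (nat_lit 413) (nat_lit 351) (nat_lit 136)) (XT.nd (nat_lit 78) (nat_lit 0) (nat_lit 0) (XT.lf (nat_lit 0) (nat_lit 125563555072) (nat_lit 76) (nat_lit 99671292595) (nat_lit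 152) (nat_lit 139451991643) (nat_lit 17) (nat_lit 5) (nat_lit 18) (nat_lit 5) (nat_lit 19) (nat_lit 4) (nat_lit 414) (nat_lit 351) (nat_lit 135)) (XT.lf (nat_lit 0) (nat_lit 264936102855) (nat_lit 76) (nat_lit 28285560361) (nat_lit 152) (nat_lit 86032381908) (nat_lit 17) (nat_lit 5) (nat_lit 18) (nat_lit 5) (nat_lit 19) (nat_lit 4) (nat_lit 415) (nat_lit 351) (nat_lit 134)))) (XT.nd (nat_lit 78) (nat_lit 76) (nat_lit 0) (XT.lf (nat_lit 0) (nat_lit 16527680881) (nat_lit 76) (nat_lit 349066641050) (nat_lit 76) (nat_lit 28905964253) (nat_lit 16) (nat_lit 4) (nat_lit 17) (nat_lit 5) (nat_lit 17) (nat_lit 4) (nat_lit 416) (nat_lit 351) (nat_lit 133)) (XT.nd (nat_lit 78) (nat_lit 0) (nat_lit 0) (XT.lf (nat_lit 0) (nat_lit 32513407476) (nat_lit 152) (nat_lit 253508557815) (nat_lit 76) (nat_lit 124341050094) (nat_lit 15) (nat_lit 5) (nat_lit 17) (nat_lit 5) (nat_lit 16) (nat_lit 4) (nat_lit 417)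 (nat_lit 351) (nat_lit 132)) (XT.lf (nat_lit 0) (nat_lit 96032144969) (nat_lit 152) (nat_lit 123295494855) (nat_lit 76) (nat_lit 207667556518) (nat_lit 15) (nat_lit 5) (nat_lit 17) (nat_lit 5) (nat_lit 16) (nat_lit 4) (nat_lit 418) (nat_lit 351) (nat_lit 131))))))))
noncomputable def xc219 : XT := (XT.nd (nat_lit 43056) (nat_lit 0) (nat_lit 1748) (XT.nd (nat_lit 42120) (nat_lit 0) (nat_lit 4788) (XT.nd (nat_lit 41652) (nat_lit 0) (nat_lit 5852) (XT.nd (nat_lit 156) (nat_lit 76) (nat_lit 0) (XT.nd (nat_lit 78) (nat_lit 0) (nat_lit 0) (XT.lf (nat_lit 0) (nat_lit 13871905392) (nat_lit 76) (nat_lit 149071328619) (nat_lit 152) (nat_lit 281504931665) (nat_lit 14) (nat_lit 5) (nat_lit 15) (nat_lit 5) (nat_lit 16) (nat_lit 4) (nat_lit 419) (nat_lit 351) (nat_lit 130)) (XT.lf (nat_lit 0) (nat_lit 162177918256) (nat_lit 76) (nat_lit 73109866646) (nat_lit 152) (nat_lit 227381603262) (nat_lit 14)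 (nat_lit 5) (nat_lit 15) (nat_lit 5) (nat_lit 16) (nat_lit 4) (nat_lit 420) (nat_lit 351) (nat_lit 129))) (XT.nd (nat_lit 78) (nat_lit 76) (nat_lit 0) (XT.lf (nat_lit 0) (nat_lit 311353227483) (nat_lit 152) (nat_lit 164006550031) (nat_lit 0) (nat_lit 6436711112) (nat_lit 14) (nat_lit 5) (nat_lit 16) (nat_lit 4) (nat_lit 14) (nat_lit 4) (nat_lit 421) (nat_lit 351) (nat_lit 128)) (XT.nd (nat_lit 78) (nat_lit 76) (nat_lit 0) (XT.lf (nat_lit 0) (nat_lit 392420316199) (nat_lit 152) (nat_lit 21896182810) (nat_lit 0) (nat_lit 87503526455) (nat_lit 14) (nat_lit 5) (nat_lit 16) (nat_lit 4) (nat_lit 14) (nat_lit 4) (nat_lit 422) (nat_lit 351) (nat_lit 127)) (XT.lf (nat_lit 0) (nat_lit 131529195348) (nat_lit 76) (nat_lit 348064962022) (nat_lit 76) (nat_lit 43147911923) (nat_lit 13) (nat_lit 4) (nat_lit 14) (nat_lit 5) (nat_lit 14) (nat_lit 4) (nat_lit 423) (nat_lit 351) (nat_lit 126))))) (XT.nd (nat_lit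 234) (nat_lit 760) (nat_lit 0) (XT.nd (nat_lit 78) (nat_lit 0) (nat_lit 0) (XT.lf (nat_lit 0) (nat_lit 12600677564) (nat_lit 0) (nat_lit 12600677564) (nat_lit 684) (nat_lit 607171897) (nat_lit 100) (nat_lit 5) (nat_lit 100) (nat_lit 3) (nat_lit 109) (nat_lit 3) (nat_lit 352) (nat_lit 352) (nat_lit 196)) (XT.nd (nat_lit 78) (nat_lit 0) (nat_lit 0) (XT.lf (nat_lit 0) (nat_lit 50428099744) (nat_lit 0) (nat_lit 1257862015) (nat_lit 684) (nat_lit 1220323797) (nat_lit 100) (nat_lit 5) (nat_lit 100) (nat_lit 3) (nat_lit 109) (nat_lit 3) (nat_lit 353) (nat_lit 352) (nat_lit 195)) (XT.lf (nat_lit 76) (nat_lit 23019255254) (nat_lit 0) (nat_lit 30744920733) (nat_lit 760) (nat_lit 459264924) (nat_lit 101) (nat_lit 5) (nat_lit 100) (nat_lit 5) (nat_lit 110) (nat_lit 5) (nat_lit 354) (nat_lit 352) (nat_lit 194)))) (XT.nd (nat_lit 78) (nat_lit 0) (nat_lit 76) (XT.lf (nat_lit 0) (nat_lit 390807254) (nat_lit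 760) (nat_lit 5754231254) (nat_lit 836) (nat_lit 49458060419) (nat_lit 90) (nat_lit 5) (nat_lit 100) (nat_lit 5) (nat_lit 101) (nat_lit 5) (nat_lit 355) (nat_lit 352) (nat_lit 193)) (XT.nd (nat_lit 78) (nat_lit 0) (nat_lit 0) (XT.lf (nat_lit 0) (nat_lit 1917648737) (nat_lit 760) (nat_lit 35694645650) (nat_lit 836) (nat_lit 19406585981) (nat_lit 91) (nat_lit 5) (nat_lit 101) (nat_lit 5) (nat_lit 102) (nat_lit 5) (nat_lit 356) (nat_lit 352) (nat_lit 192)) (XT.lf (nat_lit 0) (nat_lit 3719307634) (nat_lit 760) (nat_lit 8647403922) (nat_lit 836) (nat_lit 46128817437) (nat_lit 91) (nat_lit 5) (nat_lit 101) (nat_lit 5) (nat_lit 102) (nat_lit 5) (nat_lit 357) (nat_lit 352) (nat_lit 191)))))) (XT.nd (nat_lit 468) (nat_lit 1216) (nat_lit 0) (XT.nd (nat_lit 234) (nat_lit 0) (nat_lit 76) (XT.nd (nat_lit 78) (nat_lit 0) (nat_lit 0) (XT.lf (nat_lit 0) (nat_lit 6154382661) (nat_lit 760) (nat_lit 39851733971)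 (nat_lit 836) (nat_lit 14012728546) (nat_lit 92) (nat_lit 5) (nat_lit 102) (nat_lit 5) (nat_lit 103) (nat_lit 5) (nat_lit 358) (nat_lit 352) (nat_lit 190)) (XT.nd (nat_lit 78) (nat_lit 0) (nat_lit 76) (XT.lf (nat_lit 0) (nat_lit 9061596640) (nat_lit 760) (nat_lit 11094467403) (nat_lit 836) (nat_lit 41444745572) (nat_lit 92) (nat_lit 5) (nat_lit 102) (nat_lit 5) (nat_lit 103) (nat_lit 5) (nat_lit 359) (nat_lit 352) (nat_lit 189)) (XT.lf (nat_lit 0) (nat_lit 12535226464) (nat_lit 760) (nat_lit 43629329258) (nat_lit 836) (nat_lit 7076265418) (nat_lit 93) (nat_lit 5) (nat_lit 103) (nat_lit 5) (nat_lit 104) (nat_lit 5) (nat_lit 360) (nat_lit 352) (nat_lit 188)))) (XT.nd (nat_lit 78) (nat_lit 0) (nat_lit 0) (XT.lf (nat_lit 0) (nat_lit 16702840946) (nat_lit 760) (nat_lit 13049925310) (nat_lit 836) (nat_lit 35184053370) (nat_lit 93) (nat_lit 5) (nat_lit 103) (nat_lit 5) (nat_lit 104) (nat_lit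 5) (nat_lit 361) (nat_lit 352) (nat_lit 187)) (XT.nd (nat_lit 78) (nat_lit 0) (nat_lit 76) (XT.lf (nat_lit 76) (nat_lit 19687718667) (nat_lit 0) (nat_lit 1697455612) (nat_lit 836) (nat_lit 45317128323) (nat_lit 94) (nat_lit 5) (nat_lit 93) (nat_lit 5) (nat_lit 104) (nat_lit 5) (nat_lit 362) (nat_lit 352) (nat_lit 186)) (XT.lf (nat_lit 0) (nat_lit 26958671809) (nat_lit 760) (nat_lit 14467645186) (nat_lit 76) (nat_lit 27096891759) (nat_lit 94) (nat_lit 5) (nat_lit 104) (nat_lit 5) (nat_lit 95) (nat_lit 5) (nat_lit 363) (nat_lit 352) (nat_lit 185))))) (XT.nd (nat_lit 234) (nat_lit 304) (nat_lit 0) (XT.nd (nat_lit 78) (nat_lit 380) (nat_lit 0) (XT.lf (nat_lit 0) (nat_lit 20328597892) (nat_lit 684) (nat_lit 12826504209) (nat_lit 760) (nat_lit 37262846550) (nat_lit 85) (nat_lit 5) (nat_lit 94) (nat_lit 5) (nat_lit 95) (nat_lit 5) (nat_lit 364) (nat_lit 352) (nat_lit 184)) (XT.nd (nat_lit 78)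 (nat_lit 380) (nat_lit 0) (XT.lf (nat_lit 0) (nat_lit 40178056796) (nat_lit 760) (nat_lit 15301738399) (nat_lit 76) (nat_lit 16901796475) (nat_lit 85) (nat_lit 5) (nat_lit 95) (nat_lit 5) (nat_lit 86) (nat_lit 5) (nat_lit 365) (nat_lit 352) (nat_lit 183)) (XT.lf (nat_lit 0) (nat_lit 21708956286) (nat_lit 380) (nat_lit 26391532992) (nat_lit 456) (nat_lit 26315512271) (nat_lit 80) (nat_lit 5) (nat_lit 85) (nat_lit 5) (nat_lit 86) (nat_lit 5) (nat_lit 366) (nat_lit 352) (nat_lit 182)))) (XT.nd (nat_lit 78) (nat_lit 304) (nat_lit 0) (XT.lf (nat_lit 0) (nat_lit 56746395743) (nat_lit 456) (nat_lit 15507686520) (nat_lit 76) (nat_lit 4281683193) (nat_lit 80) (nat_lit 5) (nat_lit 86) (nat_lit 5) (nat_lit 81) (nat_lit 5) (nat_lit 367) (nat_lit 352) (nat_lit 181)) (XT.nd (nat_lit 78) (nat_lit 0) (nat_lit 0) (XT.lf (nat_lit 0) (nat_lit 23882544530) (nat_lit 304) (nat_lit 42746765784) (nat_lit 380)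 (nat_lit 12091972704) (nat_lit 76) (nat_lit 5) (nat_lit 80) (nat_lit 5) (nat_lit 81) (nat_lit 5) (nat_lit 368) (nat_lit 352) (nat_lit 180)) (XT.lf (nat_lit 0) (nat_lit 65779854390) (nat_lit 304) (nat_lit 11488363287) (nat_lit 380) (nat_lit 3734767474) (nat_lit 76) (nat_lit 5) (nat_lit 80) (nat_lit 5) (nat_lit 81) (nat_lit 5) (nat_lit 369) (nat_lit 352) (nat_lit 179))))))) (XT.nd (nat_lit 858) (nat_lit 1216) (nat_lit 0) (XT.nd (nat_lit 390) (nat_lit 836) (nat_lit 0) (XT.nd (nat_lit 156) (nat_lit 608) (nat_lit 0) (XT.nd (nat_lit 78) (nat_lit 0) (nat_lit 0) (XT.lf (nat_lit 0) (nat_lit 5643619635) (nat_lit 380) (nat_lit 56551837840) (nat_lit 76) (nat_lit 21161149072) (nat_lit 71) (nat_lit 5) (nat_lit 76) (nat_lit 5) (nat_lit 72) (nat_lit 5) (nat_lit 370) (nat_lit 352) (nat_lit 178)) (XT.lf (nat_lit 0) (nat_lit 15815048430) (nat_lit 380) (nat_lit 14607063497) (nat_lit 76) (nat_lit 55380254955)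 (nat_lit 71) (nat_lit 5) (nat_lit 76) (nat_lit 5) (nat_lit 72) (nat_lit 5) (nat_lit 371) (nat_lit 352) (nat_lit 177))) (XT.nd (nat_lit 78) (nat_lit 304) (nat_lit 0) (XT.lf (nat_lit 0) (nat_lit 27022773157) (nat_lit 380) (nat_lit 57993014843) (nat_lit 76) (nat_lit 3328241869) (nat_lit 67) (nat_lit 5) (nat_lit 72) (nat_lit 5) (nat_lit 68) (nat_lit 5) (nat_lit 372) (nat_lit 352) (nat_lit 176)) (XT.nd (nat_lit 78) (nat_lit 304) (nat_lit 0) (XT.lf (nat_lit 0) (nat_lit 39540358656) (nat_lit 380) (nat_lit 13439879522) (nat_lit 76) (nat_lit 37995064921) (nat_lit 67) (nat_lit 5) (nat_lit 72) (nat_lit 5) (nat_lit 68) (nat_lit 5) (nat_lit 373) (nat_lit 352) (nat_lit 175)) (XT.lf (nat_lit 0) (nat_lit 34442511241) (nat_lit 304) (nat_lit 18778407101) (nat_lit 380) (nat_lit 40490367681) (nat_lit 63) (nat_lit 5) (nat_lit 67) (nat_lit 5) (nat_lit 68) (nat_lit 5) (nat_lit 374) (nat_lit 352) (nat_lit 174)))))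 (XT.nd (nat_lit 234) (nat_lit 608) (nat_lit 0) (XT.nd (nat_lit 78) (nat_lit 228) (nat_lit 0) (XT.lf (nat_lit 0) (nat_lit 68083718077) (nat_lit 380) (nat_lit 11659091673) (nat_lit 76) (nat_lit 16816348485) (nat_lit 63) (nat_lit 5) (nat_lit 68) (nat_lit 5) (nat_lit 64) (nat_lit 5) (nat_lit 375) (nat_lit 352) (nat_lit 173)) (XT.nd (nat_lit 78) (nat_lit 0) (nat_lit 0) (XT.lf (nat_lit 0) (nat_lit 39279671046) (nat_lit 228) (nat_lit 45330493025) (nat_lit 304) (nat_lit 14893235380) (nat_lit 60) (nat_lit 5) (nat_lit 63) (nat_lit 5) (nat_lit 64) (nat_lit 5) (nat_lit 376) (nat_lit 352) (nat_lit 172)) (XT.lf (nat_lit 0) (nat_lit 93169404857) (nat_lit 228) (nat_lit 8990394712) (nat_lit 304) (nat_lit 425210473) (nat_lit 60) (nat_lit 5) (nat_lit 63) (nat_lit 5) (nat_lit 64) (nat_lit 5) (nat_lit 377) (nat_lit 352) (nat_lit 171)))) (XT.nd (nat_lit 78) (nat_lit 228) (nat_lit 0) (XT.lf (nat_lit 0) (nat_lit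 15468608986) (nat_lit 380) (nat_lit 61098037918) (nat_lit 76) (nat_lit 29183777549) (nat_lit 55) (nat_lit 5) (nat_lit 60) (nat_lit 5) (nat_lit 56) (nat_lit 5) (nat_lit 378) (nat_lit 352) (nat_lit 170)) (XT.nd (nat_lit 78) (nat_lit 228) (nat_lit 0) (XT.lf (nat_lit 0) (nat_lit 32451731157) (nat_lit 380) (nat_lit 7473180656) (nat_lit 76) (nat_lit 69133404740) (nat_lit 55) (nat_lit 5) (nat_lit 60) (nat_lit 5) (nat_lit 56) (nat_lit 5) (nat_lit 379) (nat_lit 352) (nat_lit 169)) (XT.lf (nat_lit 0) (nat_lit 50446826179) (nat_lit 228) (nat_lit 624272148) (nat_lit 304) (nat_lit 61421151041) (nat_lit 52) (nat_lit 5) (nat_lit 55) (nat_lit 5) (nat_lit 56) (nat_lit 5) (nat_lit 380) (nat_lit 352) (nat_lit 168)))))) (XT.nd (nat_lit 468) (nat_lit 532) (nat_lit 0) (XT.nd (nat_lit 234) (nat_lit 456) (nat_lit 0) (XT.nd (nat_lit 78) (nat_lit 228) (nat_lit 0) (XT.lf (nat_lit 0) (nat_lit 71384080689) (nat_lit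 304) (nat_lit 5206585058) (nat_lit 76) (nat_lit 39469081263) (nat_lit 52) (nat_lit 5) (nat_lit 56) (nat_lit 5) (nat_lit 53) (nat_lit 5) (nat_lit 381) (nat_lit 352) (nat_lit 167)) (XT.nd (nat_lit 78) (nat_lit 0) (nat_lit 0) (XT.lf (nat_lit 0) (nat_lit 56264078401) (nat_lit 228) (nat_lit 37336816225) (nat_lit 304) (nat_lit 26160316287) (nat_lit 49) (nat_lit 5) (nat_lit 52) (nat_lit 5) (nat_lit 53) (nat_lit 5) (nat_lit 382) (nat_lit 352) (nat_lit 166)) (XT.lf (nat_lit 0) (nat_lit 117078262591) (nat_lit 304) (nat_lit 2717017018) (nat_lit 76) (nat_lit 3844983217) (nat_lit 49) (nat_lit 5) (nat_lit 53) (nat_lit 5) (nat_lit 50) (nat_lit 5) (nat_lit 383) (nat_lit 352) (nat_lit 165)))) (XT.nd (nat_lit 78) (nat_lit 228) (nat_lit 0) (XT.lf (nat_lit 0) (nat_lit 15180899984) (nat_lit 228) (nat_lit 65389343153) (nat_lit 76) (nat_lit 47051419232) (nat_lit 46) (nat_lit 5) (nat_lit 49) (nat_lit 5) (nat_lit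 47) (nat_lit 5) (nat_lit 384) (nat_lit 352) (nat_lit 164)) (XT.nd (nat_lit 78) (nat_lit 228) (nat_lit 0) (XT.lf (nat_lit 0) (nat_lit 37836732557) (nat_lit 228) (nat_lit 1385374840) (nat_lit 76) (nat_lit 92572330540) (nat_lit 46) (nat_lit 5) (nat_lit 49) (nat_lit 5) (nat_lit 47) (nat_lit 5) (nat_lit 385) (nat_lit 352) (nat_lit 163)) (XT.lf (nat_lit 0) (nat_lit 62769377974) (nat_lit 304) (nat_lit 68211263664) (nat_lit 76) (nat_lit 5138009979) (nat_lit 43) (nat_lit 5) (nat_lit 47) (nat_lit 5) (nat_lit 44) (nat_lit 5) (nat_lit 386) (nat_lit 352) (nat_lit 162))))) (XT.nd (nat_lit 234) (nat_lit 380) (nat_lit 0) (XT.nd (nat_lit 78) (nat_lit 152) (nat_lit 0) (XT.lf (nat_lit 0) (nat_lit 89615062266) (nat_lit 304) (nat_lit 589029755) (nat_lit 76) (nat_lit 50421664003) (nat_lit 43) (nat_lit 5) (nat_lit 47) (nat_lit 5) (nat_lit 44) (nat_lit 5) (nat_lit 387) (nat_lit 352) (nat_lit 161)) (XT.nd (nat_lit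 78) (nat_lit 0) (nat_lit 0) (XT.lf (nat_lit 0) (nat_lit 72741898641) (nat_lit 152) (nat_lit 46196431907) (nat_lit 228) (nat_lit 26363120473) (nat_lit 41) (nat_lit 5) (nat_lit 43) (nat_lit 5) (nat_lit 44) (nat_lit 5) (nat_lit 388) (nat_lit 352) (nat_lit 160)) (XT.lf (nat_lit 0) (nat_lit 149737684095) (nat_lit 228) (nat_lit 451572808) (nat_lit 76) (nat_lit 21178113) (nat_lit 41) (nat_lit 5) (nat_lit 44) (nat_lit 5) (nat_lit 42) (nat_lit 5) (nat_lit 389) (nat_lit 352) (nat_lit 159)))) (XT.nd (nat_lit 78) (nat_lit 152) (nat_lit 0) (XT.lf (nat_lit 0) (nat_lit 27847904852) (nat_lit 228) (nat_lit 78748764795) (nat_lit 76) (nat_lit 48647810159) (nat_lit 38) (nat_lit 5) (nat_lit 41) (nat_lit 5) (nat_lit 39) (nat_lit 5) (nat_lit 390) (nat_lit 352) (nat_lit 158)) (XT.nd (nat_lit 78) (nat_lit 152) (nat_lit 0) (XT.lf (nat_lit 0) (nat_lit 57576102003) (nat_lit 228) (nat_lit 3232268025) (nat_lit 76)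 (nat_lit 99721099794) (nat_lit 38) (nat_lit 5) (nat_lit 41) (nat_lit 5) (nat_lit 39) (nat_lit 5) (nat_lit 391) (nat_lit 352) (nat_lit 157)) (XT.lf (nat_lit 0) (nat_lit 78574359022) (nat_lit 152) (nat_lit 11442757029) (nat_lit 228) (nat_lit 76000273217) (nat_lit 36) (nat_lit 5) (nat_lit 38) (nat_lit 5) (nat_lit 39) (nat_lit 5) (nat_lit 392) (nat_lit 352) (nat_lit 156))))))))
noncomputable def xc220 : XT := (XT.nd (nat_lit 1794) (nat_lit 228) (nat_lit 0) (XT.nd (nat_lit 858) (nat_lit 608) (nat_lit 0) (XT.nd (nat_lit 390) (nat_lit 456) (nat_lit 0) (XT.nd (nat_lit 156) (nat_lit 228) (nat_lit 0) (XT.nd (nat_lit 78) (nat_lit 152) (nat_lit 0) (XT.lf (nat_lit 0) (nat_lit 124766083345) (nat_lit 228) (nat_lit 7825519667) (nat_lit 76) (nat_lit 39153806814) (nat_lit 36) (nat_lit 5) (nat_lit 39) (nat_lit 5) (nat_lit 37) (nat_lit 5) (nat_lit 393) (nat_lit 352) (nat_lit 155)) (XT.lf (nat_lit 0) (nat_lit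 78083909940) (nat_lit 152) (nat_lit 84574947053) (nat_lit 228) (nat_lit 15030656772) (nat_lit 34) (nat_lit 5) (nat_lit 36) (nat_lit 5) (nat_lit 37) (nat_lit 5) (nat_lit 394) (nat_lit 352) (nat_lit 154))) (XT.nd (nat_lit 78) (nat_lit 152) (nat_lit 0) (XT.lf (nat_lit 0) (nat_lit 18057203286) (nat_lit 228) (nat_lit 15655497289) (nat_lit 76) (nat_lit 150196950317) (nat_lit 33) (nat_lit 5) (nat_lit 36) (nat_lit 5) (nat_lit 34) (nat_lit 5) (nat_lit 395) (nat_lit 352) (nat_lit 153)) (XT.nd (nat_lit 78) (nat_lit 0) (nat_lit 0) (XT.lf (nat_lit 0) (nat_lit 53789850127) (nat_lit 228) (nat_lit 116066881820) (nat_lit 76) (nat_lit 20496966819) (nat_lit 31) (nat_lit 5) (nat_lit 34) (nat_lit 5) (nat_lit 32) (nat_lit 5) (nat_lit 396) (nat_lit 352) (nat_lit 152)) (XT.lf (nat_lit 0) (nat_lit 92130961644) (nat_lit 228) (nat_lit 28394459558) (nat_lit 76) (nat_lit 76553436423) (nat_lit 31) (nat_lit 5) (nat_lit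 34) (nat_lit 5) (nat_lit 32) (nat_lit 5) (nat_lit 397) (nat_lit 352) (nat_lit 151))))) (XT.nd (nat_lit 234) (nat_lit 152) (nat_lit 0) (XT.nd (nat_lit 78) (nat_lit 152) (nat_lit 0) (XT.lf (nat_lit 0) (nat_lit 65766007799) (nat_lit 152) (nat_lit 67649612857) (nat_lit 228) (nat_lit 70673329373) (nat_lit 29) (nat_lit 5) (nat_lit 31) (nat_lit 5) (nat_lit 32) (nat_lit 5) (nat_lit 398) (nat_lit 352) (nat_lit 150)) (XT.nd (nat_lit 78) (nat_lit 152) (nat_lit 0) (XT.lf (nat_lit 0) (nat_lit 165619799108) (nat_lit 152) (nat_lit 11625294262) (nat_lit 228) (nat_lit 34180424836) (nat_lit 29) (nat_lit 5) (nat_lit 31) (nat_lit 5) (nat_lit 32) (nat_lit 5) (nat_lit 399) (nat_lit 352) (nat_lit 149)) (XT.lf (nat_lit 0) (nat_lit 5582940483) (nat_lit 152) (nat_lit 166868302145) (nat_lit 76) (nat_lit 46595531262) (nat_lit 27) (nat_lit 5) (nat_lit 29) (nat_lit 5) (nat_lit 28) (nat_lit 5) (nat_lit 400) (nat_lit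 352) (nat_lit 148)))) (XT.nd (nat_lit 78) (nat_lit 152) (nat_lit 0) (XT.lf (nat_lit 0) (nat_lit 47164544601) (nat_lit 152) (nat_lit 71122272982) (nat_lit 76) (nat_lit 108685320348) (nat_lit 27) (nat_lit 5) (nat_lit 29) (nat_lit 5) (nat_lit 28) (nat_lit 5) (nat_lit 401) (nat_lit 352) (nat_lit 147)) (XT.nd (nat_lit 78) (nat_lit 0) (nat_lit 0) (XT.lf (nat_lit 0) (nat_lit 30383047295) (nat_lit 152) (nat_lit 60916278762) (nat_lit 228) (nat_lit 143970739416) (nat_lit 25) (nat_lit 5) (nat_lit 27) (nat_lit 5) (nat_lit 28) (nat_lit 5) (nat_lit 402) (nat_lit 352) (nat_lit 146)) (XT.lf (nat_lit 0) (nat_lit 138854244618) (nat_lit 228) (nat_lit 104499459640) (nat_lit 76) (nat_lit 568515383) (nat_lit 25) (nat_lit 5) (nat_lit 28) (nat_lit 5) (nat_lit 26) (nat_lit 4) (nat_lit 403) (nat_lit 352) (nat_lit 145)))))) (XT.nd (nat_lit 468) (nat_lit 228) (nat_lit 0) (XT.nd (nat_lit 234) (nat_lit 228) (nat_lit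 0) (XT.nd (nat_lit 78) (nat_lit 152) (nat_lit 0) (XT.lf (nat_lit 0) (nat_lit 189785284604) (nat_lit 228) (nat_lit 91589277) (nat_lit 76) (nat_lit 63080189003) (nat_lit 25) (nat_lit 5) (nat_lit 28) (nat_lit 5) (nat_lit 26) (nat_lit 4) (nat_lit 404) (nat_lit 352) (nat_lit 144)) (XT.nd (nat_lit 78) (nat_lit 76) (nat_lit 0) (XT.lf (nat_lit 0) (nat_lit 113158020241) (nat_lit 76) (nat_lit 131871330148) (nat_lit 152) (nat_lit 17325974344) (nat_lit 24) (nat_lit 5) (nat_lit 25) (nat_lit 5) (nat_lit 26) (nat_lit 4) (nat_lit 405) (nat_lit 352) (nat_lit 143)) (XT.lf (nat_lit 0) (nat_lit 29827277081) (nat_lit 152) (nat_lit 40631640064) (nat_lit 76) (nat_lit 201740462597) (nat_lit 23) (nat_lit 5) (nat_lit 25) (nat_lit 5) (nat_lit 24) (nat_lit 5) (nat_lit 406) (nat_lit 352) (nat_lit 142)))) (XT.nd (nat_lit 78) (nat_lit 76) (nat_lit 0) (XT.lf (nat_lit 0) (nat_lit 75494160802) (nat_lit 152) (nat_lit 4440211742)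 (nat_lit 228) (nat_lit 202528141065) (nat_lit 21) (nat_lit 5) (nat_lit 23) (nat_lit 5) (nat_lit 24) (nat_lit 5) (nat_lit 407) (nat_lit 352) (nat_lit 141)) (XT.nd (nat_lit 78) (nat_lit 76) (nat_lit 0) (XT.lf (nat_lit 0) (nat_lit 134258944029) (nat_lit 228) (nat_lit 95392139349) (nat_lit 76) (nat_lit 63502114839) (nat_lit 21) (nat_lit 5) (nat_lit 24) (nat_lit 5) (nat_lit 22) (nat_lit 4) (nat_lit 408) (nat_lit 352) (nat_lit 140)) (XT.lf (nat_lit 0) (nat_lit 22406872170) (nat_lit 76) (nat_lit 169315281538) (nat_lit 152) (nat_lit 112635142973) (nat_lit 20) (nat_lit 5) (nat_lit 21) (nat_lit 5) (nat_lit 22) (nat_lit 4) (nat_lit 409) (nat_lit 352) (nat_lit 139))))) (XT.nd (nat_lit 234) (nat_lit 76) (nat_lit 0) (XT.nd (nat_lit 78) (nat_lit 152) (nat_lit 0) (XT.lf (nat_lit 0) (nat_lit 149407258008) (nat_lit 76) (nat_lit 104266567455) (nat_lit 152) (nat_lit 62367009625) (nat_lit 20) (nat_lit 5) (nat_lit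 21) (nat_lit 5) (nat_lit 22) (nat_lit 4) (nat_lit 410) (nat_lit 352) (nat_lit 138)) (XT.nd (nat_lit 78) (nat_lit 152) (nat_lit 0) (XT.lf (nat_lit 0) (nat_lit 282757305105) (nat_lit 76) (nat_lit 35965575277) (nat_lit 152) (nat_lit 9585680151) (nat_lit 20) (nat_lit 5) (nat_lit 21) (nat_lit 5) (nat_lit 22) (nat_lit 4) (nat_lit 411) (nat_lit 352) (nat_lit 137)) (XT.lf (nat_lit 0) (nat_lit 46263143435) (nat_lit 152) (nat_lit 258136832737) (nat_lit 76) (nat_lit 36659144508) (nat_lit 18) (nat_lit 5) (nat_lit 20) (nat_lit 5) (nat_lit 19) (nat_lit 4) (nat_lit 412) (nat_lit 352) (nat_lit 136)))) (XT.nd (nat_lit 78) (nat_lit 76) (nat_lit 0) (XT.lf (nat_lit 0) (nat_lit 105955752512) (nat_lit 152) (nat_lit 135767429426) (nat_lit 76) (nat_lit 112647495563) (nat_lit 18) (nat_lit 5) (nat_lit 20) (nat_lit 5) (nat_lit 19) (nat_lit 4) (nat_lit 413) (nat_lit 352) (nat_lit 135)) (XT.nd (nat_lit 78) (nat_lit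 76) (nat_lit 0) (XT.lf (nat_lit 0) (nat_lit 168632808651) (nat_lit 152) (nat_lit 7279888433) (nat_lit 76) (nat_lit 192435124327) (nat_lit 18) (nat_lit 5) (nat_lit 20) (nat_lit 5) (nat_lit 19) (nat_lit 4) (nat_lit 414) (nat_lit 352) (nat_lit 134)) (XT.lf (nat_lit 0) (nat_lit 131851793789) (nat_lit 76) (nat_lit 104650325164) (nat_lit 152) (nat_lit 146418783571) (nat_lit 17) (nat_lit 5) (nat_lit 18) (nat_lit 5) (nat_lit 19) (nat_lit 4) (nat_lit 415) (nat_lit 352) (nat_lit 133))))))) (XT.nd (nat_lit 42198) (nat_lit 0) (nat_lit 5016) (XT.nd (nat_lit 390) (nat_lit 0) (nat_lit 0) (XT.nd (nat_lit 156) (nat_lit 152) (nat_lit 0) (XT.nd (nat_lit 78) (nat_lit 76) (nat_lit 0) (XT.lf (nat_lit 0) (nat_lit 278192489868) (nat_lit 76) (nat_lit 29695522130) (nat_lit 152) (nat_lit 90328469904) (nat_lit 17) (nat_lit 5) (nat_lit 18) (nat_lit 5) (nat_lit 19) (nat_lit 4) (nat_lit 416) (nat_lit 352) (nat_lit 132))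 (XT.lf (nat_lit 0) (nat_lit 17363687144) (nat_lit 76) (nat_lit 366515580170) (nat_lit 76) (nat_lit 30345769622) (nat_lit 16) (nat_lit 4) (nat_lit 17) (nat_lit 5) (nat_lit 17) (nat_lit 4) (nat_lit 417) (nat_lit 352) (nat_lit 131))) (XT.nd (nat_lit 78) (nat_lit 76) (nat_lit 0) (XT.lf (nat_lit 0) (nat_lit 34144141696) (nat_lit 152) (nat_lit 266174652356) (nat_lit 76) (nat_lit 130562117012) (nat_lit 15) (nat_lit 5) (nat_lit 17) (nat_lit 5) (nat_lit 16) (nat_lit 4) (nat_lit 418) (nat_lit 352) (nat_lit 130)) (XT.nd (nat_lit 78) (nat_lit 76) (nat_lit 0) (XT.lf (nat_lit 0) (nat_lit 100838574928) (nat_lit 152) (nat_lit 129451380694) (nat_lit 76) (nat_lit 218054757594) (nat_lit 15) (nat_lit 5) (nat_lit 17) (nat_lit 5) (nat_lit 16) (nat_lit 4) (nat_lit 419) (nat_lit 352) (nat_lit 129)) (XT.lf (nat_lit 0) (nat_lit 14574246196) (nat_lit 76) (nat_lit 156520879115) (nat_lit 152) (nat_lit 295575210447)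 (nat_lit 14) (nat_lit 5) (nat_lit 15) (nat_lit 5) (nat_lit 16) (nat_lit 4) (nat_lit 420) (nat_lit 352) (nat_lit 128))))) (XT.nd (nat_lit 41574) (nat_lit 0) (nat_lit 6536) (XT.nd (nat_lit 78) (nat_lit 0) (nat_lit 0) (XT.lf (nat_lit 0) (nat_lit 170295143250) (nat_lit 76) (nat_lit 76761535279) (nat_lit 152) (nat_lit 238745952185) (nat_lit 14) (nat_lit 5) (nat_lit 15) (nat_lit 5) (nat_lit 16) (nat_lit 4) (nat_lit 421) (nat_lit 352) (nat_lit 127)) (XT.nd (nat_lit 78) (nat_lit 0) (nat_lit 0) (XT.lf (nat_lit 0) (nat_lit 326925235614) (nat_lit 152) (nat_lit 172198785890) (nat_lit 0) (nat_lit 6762072654) (nat_lit 14) (nat_lit 5) (nat_lit 16) (nat_lit 4) (nat_lit 14) (nat_lit 4) (nat_lit 422) (nat_lit 352) (nat_lit 126)) (XT.lf (nat_lit 0) (nat_lit 412045471778) (nat_lit 152) (nat_lit 22983285623) (nat_lit 0) (nat_lit 91882060860) (nat_lit 14) (nat_lit 5) (nat_lit 16) (nat_lit 4) (nat_lit 14) (nat_lit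 4) (nat_lit 423) (nat_lit 352) (nat_lit 125)))) (XT.nd (nat_lit 78) (nat_lit 0) (nat_lit 0) (XT.lf (nat_lit 0) (nat_lit 13242122333) (nat_lit 0) (nat_lit 13242122333) (nat_lit 684) (nat_lit 613532518) (nat_lit 100) (nat_lit 5) (nat_lit 100) (nat_lit 3) (nat_lit 109) (nat_lit 3) (nat_lit 353) (nat_lit 353) (nat_lit 194)) (XT.nd (nat_lit 78) (nat_lit 0) (nat_lit 0) (XT.lf (nat_lit 0) (nat_lit 52971239762) (nat_lit 0) (nat_lit 1342490147) (nat_lit 684) (nat_lit 1235629560) (nat_lit 100) (nat_lit 5) (nat_lit 100) (nat_lit 3) (nat_lit 109) (nat_lit 3) (nat_lit 354) (nat_lit 353) (nat_lit 193)) (XT.lf (nat_lit 76) (nat_lit 24194140584) (nat_lit 0) (nat_lit 32299694574) (nat_lit 760) (nat_lit 438641602) (nat_lit 101) (nat_lit 5) (nat_lit 100) (nat_lit 5) (nat_lit 110) (nat_lit 5) (nat_lit 355) (nat_lit 353) (nat_lit 192)))))) (XT.nd (nat_lit 468) (nat_lit 760) (nat_lit 0) (XT.nd (nat_lit 234)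 (nat_lit 0) (nat_lit 152) (XT.nd (nat_lit 78) (nat_lit 0) (nat_lit 76) (XT.lf (nat_lit 0) (nat_lit 450530022) (nat_lit 760) (nat_lit 6017773050) (nat_lit 836) (nat_lit 51912883923) (nat_lit 90) (nat_lit 5) (nat_lit 100) (nat_lit 5) (nat_lit 101) (nat_lit 5) (nat_lit 356) (nat_lit 353) (nat_lit 191)) (XT.nd (nat_lit 78) (nat_lit 0) (nat_lit 0) (XT.lf (nat_lit 0) (nat_lit 2051939392) (nat_lit 760) (nat_lit 37453378970) (nat_lit 836) (nat_lit 20362530606) (nat_lit 91) (nat_lit 5) (nat_lit 101) (nat_lit 5) (nat_lit 102) (nat_lit 5) (nat_lit 357) (nat_lit 353) (nat_lit 190)) (XT.lf (nat_lit 0) (nat_lit 3941852271) (nat_lit 760) (nat_lit 9055013202) (nat_lit 836) (nat_lit 48421558619) (nat_lit 91) (nat_lit 5) (nat_lit 101) (nat_lit 5) (nat_lit 102) (nat_lit 5) (nat_lit 358) (nat_lit 353) (nat_lit 189)))) (XT.nd (nat_lit 78) (nat_lit 0) (nat_lit 0) (XT.lf (nat_lit 0) (nat_lit 6497150036) (nat_lit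 760) (nat_lit 41817978847) (nat_lit 836) (nat_lit 14702856248) (nat_lit 92) (nat_lit 5) (nat_lit 102) (nat_lit 5) (nat_lit 103) (nat_lit 5) (nat_lit 359) (nat_lit 353) (nat_lit 188)) (XT.nd (nat_lit 78) (nat_lit 0) (nat_lit 76) (XT.lf (nat_lit 0) (nat_lit 9548055750) (nat_lit 760) (nat_lit 11624103324) (nat_lit 836) (nat_lit 43506974541) (nat_lit 92) (nat_lit 5) (nat_lit 102) (nat_lit 5) (nat_lit 103) (nat_lit 5) (nat_lit 360) (nat_lit 353) (nat_lit 187)) (XT.lf (nat_lit 0) (nat_lit 13194045967) (nat_lit 760) (nat_lit 45784341918) (nat_lit 836) (nat_lit 7422826147) (nat_lit 93) (nat_lit 5) (nat_lit 103) (nat_lit 5) (nat_lit 104) (nat_lit 5) (nat_lit 361) (nat_lit 353) (nat_lit 186))))) (XT.nd (nat_lit 234) (nat_lit 988) (nat_lit 0) (XT.nd (nat_lit 78) (nat_lit 0) (nat_lit 0) (XT.lf (nat_lit 0) (nat_lit 17568514594) (nat_lit 760) (nat_lit 13677227478) (nat_lit 836) (nat_lit 36936348856)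 (nat_lit 93) (nat_lit 5) (nat_lit 103) (nat_lit 5) (nat_lit 104) (nat_lit 5) (nat_lit 362) (nat_lit 353) (nat_lit 185)) (XT.nd (nat_lit 78) (nat_lit 0) (nat_lit 76) (XT.lf (nat_lit 76) (nat_lit 20696892342) (nat_lit 0) (nat_lit 1787005372) (nat_lit 836) (nat_lit 47552005735) (nat_lit 94) (nat_lit 5) (nat_lit 93) (nat_lit 5) (nat_lit 104) (nat_lit 5) (nat_lit 363) (nat_lit 353) (nat_lit 184)) (XT.lf (nat_lit 0) (nat_lit 28334597495) (nat_lit 760) (nat_lit 15165908354) (nat_lit 76) (nat_lit 28447424645) (nat_lit 94) (nat_lit 5) (nat_lit 104) (nat_lit 5) (nat_lit 95) (nat_lit 5) (nat_lit 364) (nat_lit 353) (nat_lit 183)))) (XT.nd (nat_lit 78) (nat_lit 380) (nat_lit 0) (XT.lf (nat_lit 0) (nat_lit 21369741732) (nat_lit 684) (nat_lit 13470160467) (nat_lit 760) (nat_lit 39097554405) (nat_lit 85) (nat_lit 5) (nat_lit 94) (nat_lit 5) (nat_lit 95) (nat_lit 5) (nat_lit 365) (nat_lit 353) (nat_lit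 182)) (XT.nd (nat_lit 78) (nat_lit 380) (nat_lit 0) (XT.lf (nat_lit 0) (nat_lit 42212682110) (nat_lit 760) (nat_lit 16041930253) (nat_lit 76) (nat_lit 17744737309) (nat_lit 85) (nat_lit 5) (nat_lit 95) (nat_lit 5) (nat_lit 86) (nat_lit 5) (nat_lit 366) (nat_lit 353) (nat_lit 181)) (XT.lf (nat_lit 0) (nat_lit 22818897634) (nat_lit 380) (nat_lit 27711496116) (nat_lit 456) (nat_lit 27605130107) (nat_lit 80) (nat_lit 5) (nat_lit 85) (nat_lit 5) (nat_lit 86) (nat_lit 5) (nat_lit 367) (nat_lit 353) (nat_lit 180))))))))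
noncomputable def xc221 : XT := (XT.nd (nat_lit 1794) (nat_lit 1748) (nat_lit 0) (XT.nd (nat_lit 858) (nat_lit 1444) (nat_lit 0) (XT.nd (nat_lit 390) (nat_lit 836) (nat_lit 0) (XT.nd (nat_lit 156) (nat_lit 380) (nat_lit 0) (XT.nd (nat_lit 78) (nat_lit 304) (nat_lit 0) (XT.lf (nat_lit 0) (nat_lit 59607405029) (nat_lit 456) (nat_lit 16258521002) (nat_lit 76) (nat_lit 4495411062) (nat_lit 80) (nat_lit 5) (nat_lit 86) (nat_lit 5) (nat_lit 81) (nat_lit 5) (nat_lit 368) (nat_lit 353) (nat_lit 179)) (XT.lf (nat_lit 0) (nat_lit 25100825636) (nat_lit 304) (nat_lit 44882888730) (nat_lit 380) (nat_lit 12672455245) (nat_lit 76) (nat_lit 5) (nat_lit 80) (nat_lit 5) (nat_lit 81) (nat_lit 5) (nat_lit 369) (nat_lit 353) (nat_lit 178))) (XT.nd (nat_lit 78) (nat_lit 380) (nat_lit 0) (XT.lf (nat_lit 0) (nat_lit 69091850804) (nat_lit 304) (nat_lit 12061623982) (nat_lit 380) (nat_lit 3898538139) (nat_lit 76)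 (nat_lit 5) (nat_lit 80) (nat_lit 5) (nat_lit 81) (nat_lit 5) (nat_lit 370) (nat_lit 353) (nat_lit 177)) (XT.nd (nat_lit 78) (nat_lit 0) (nat_lit 0) (XT.lf (nat_lit 0) (nat_lit 5947368393) (nat_lit 380) (nat_lit 59354971862) (nat_lit 76) (nat_lit 22220991771) (nat_lit 71) (nat_lit 5) (nat_lit 76) (nat_lit 5) (nat_lit 72) (nat_lit 5) (nat_lit 371) (nat_lit 353) (nat_lit 176)) (XT.lf (nat_lit 0) (nat_lit 16626341590) (nat_lit 380) (nat_lit 15314123463) (nat_lit 76) (nat_lit 58150967937) (nat_lit 71) (nat_lit 5) (nat_lit 76) (nat_lit 5) (nat_lit 72) (nat_lit 5) (nat_lit 372) (nat_lit 353) (nat_lit 175))))) (XT.nd (nat_lit 234) (nat_lit 228) (nat_lit 0) (XT.nd (nat_lit 78) (nat_lit 304) (nat_lit 0) (XT.lf (nat_lit 0) (nat_lit 28393879023) (nat_lit 380) (nat_lit 60868774846) (nat_lit 76) (nat_lit 3497555134) (nat_lit 67) (nat_lit 5) (nat_lit 72) (nat_lit 5) (nat_lit 68) (nat_lit 5) (nat_lit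 373) (nat_lit 353) (nat_lit 174)) (XT.nd (nat_lit 78) (nat_lit 304) (nat_lit 0) (XT.lf (nat_lit 0) (nat_lit 41536392977) (nat_lit 380) (nat_lit 14089120413) (nat_lit 76) (nat_lit 39897581188) (nat_lit 67) (nat_lit 5) (nat_lit 72) (nat_lit 5) (nat_lit 68) (nat_lit 5) (nat_lit 374) (nat_lit 353) (nat_lit 173)) (XT.lf (nat_lit 0) (nat_lit 36187022904) (nat_lit 304) (nat_lit 19713401712) (nat_lit 380) (nat_lit 42495480923) (nat_lit 63) (nat_lit 5) (nat_lit 67) (nat_lit 5) (nat_lit 68) (nat_lit 5) (nat_lit 375) (nat_lit 353) (nat_lit 172)))) (XT.nd (nat_lit 78) (nat_lit 228) (nat_lit 0) (XT.lf (nat_lit 0) (nat_lit 71505543645) (nat_lit 380) (nat_lit 12219884739) (nat_lit 76) (nat_lit 17660785049) (nat_lit 63) (nat_lit 5) (nat_lit 68) (nat_lit 5) (nat_lit 64) (nat_lit 5) (nat_lit 376) (nat_lit 353) (nat_lit 171)) (XT.nd (nat_lit 78) (nat_lit 0) (nat_lit 0) (XT.lf (nat_lit 0) (nat_lit 41265458673)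 (nat_lit 228) (nat_lit 47592353705) (nat_lit 304) (nat_lit 15619880296) (nat_lit 60) (nat_lit 5) (nat_lit 63) (nat_lit 5) (nat_lit 64) (nat_lit 5) (nat_lit 377) (nat_lit 353) (nat_lit 170)) (XT.lf (nat_lit 0) (nat_lit 97848640885) (nat_lit 228) (nat_lit 9435472570) (nat_lit 304) (nat_lit 429312089) (nat_lit 60) (nat_lit 5) (nat_lit 63) (nat_lit 5) (nat_lit 64) (nat_lit 5) (nat_lit 378) (nat_lit 353) (nat_lit 169)))))) (XT.nd (nat_lit 468) (nat_lit 608) (nat_lit 0) (XT.nd (nat_lit 234) (nat_lit 228) (nat_lit 0) (XT.nd (nat_lit 78) (nat_lit 228) (nat_lit 0) (XT.lf (nat_lit 0) (nat_lit 16258261508) (nat_lit 380) (nat_lit 64131202229) (nat_lit 76) (nat_lit 30647653778) (nat_lit 55) (nat_lit 5) (nat_lit 60) (nat_lit 5) (nat_lit 56) (nat_lit 5) (nat_lit 379) (nat_lit 353) (nat_lit 168)) (XT.nd (nat_lit 78) (nat_lit 228) (nat_lit 0) (XT.lf (nat_lit 0) (nat_lit 34089767308) (nat_lit 380) (nat_lit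 7826137227) (nat_lit 76) (nat_lit 72594539121) (nat_lit 55) (nat_lit 5) (nat_lit 60) (nat_lit 5) (nat_lit 56) (nat_lit 5) (nat_lit 380) (nat_lit 353) (nat_lit 167)) (XT.lf (nat_lit 0) (nat_lit 52989536039) (nat_lit 228) (nat_lit 650149113) (nat_lit 304) (nat_lit 64476409618) (nat_lit 52) (nat_lit 5) (nat_lit 55) (nat_lit 5) (nat_lit 56) (nat_lit 5) (nat_lit 381) (nat_lit 353) (nat_lit 166)))) (XT.nd (nat_lit 78) (nat_lit 228) (nat_lit 0) (XT.lf (nat_lit 0) (nat_lit 74967680179) (nat_lit 304) (nat_lit 5446864504) (nat_lit 76) (nat_lit 41447455170) (nat_lit 52) (nat_lit 5) (nat_lit 56) (nat_lit 5) (nat_lit 53) (nat_lit 5) (nat_lit 382) (nat_lit 353) (nat_lit 165)) (XT.nd (nat_lit 78) (nat_lit 0) (nat_lit 0) (XT.lf (nat_lit 0) (nat_lit 59097008744) (nat_lit 228) (nat_lit 39197948557) (nat_lit 304) (nat_lit 27453599230) (nat_lit 49) (nat_lit 5) (nat_lit 52) (nat_lit 5) (nat_lit 53) (nat_lit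 5) (nat_lit 383) (nat_lit 353) (nat_lit 164)) (XT.lf (nat_lit 0) (nat_lit 122945611024) (nat_lit 304) (nat_lit 2833484796) (nat_lit 76) (nat_lit 4042495018) (nat_lit 49) (nat_lit 5) (nat_lit 53) (nat_lit 5) (nat_lit 50) (nat_lit 5) (nat_lit 384) (nat_lit 353) (nat_lit 163))))) (XT.nd (nat_lit 234) (nat_lit 152) (nat_lit 0) (XT.nd (nat_lit 78) (nat_lit 228) (nat_lit 0) (XT.lf (nat_lit 0) (nat_lit 15953265217) (nat_lit 228) (nat_lit 68639287320) (nat_lit 76) (nat_lit 49409514818) (nat_lit 46) (nat_lit 5) (nat_lit 49) (nat_lit 5) (nat_lit 47) (nat_lit 5) (nat_lit 385) (nat_lit 353) (nat_lit 162)) (XT.nd (nat_lit 78) (nat_lit 228) (nat_lit 0) (XT.lf (nat_lit 0) (nat_lit 39741255122) (nat_lit 228) (nat_lit 1436050257) (nat_lit 76) (nat_lit 97206208615) (nat_lit 46) (nat_lit 5) (nat_lit 49) (nat_lit 5) (nat_lit 47) (nat_lit 5) (nat_lit 386) (nat_lit 353) (nat_lit 161)) (XT.lf (nat_lit 0) (nat_lit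 65920306850) (nat_lit 304) (nat_lit 71602996568) (nat_lit 76) (nat_lit 5400646786) (nat_lit 43) (nat_lit 5) (nat_lit 47) (nat_lit 5) (nat_lit 44) (nat_lit 5) (nat_lit 387) (nat_lit 353) (nat_lit 160)))) (XT.nd (nat_lit 78) (nat_lit 152) (nat_lit 0) (XT.lf (nat_lit 0) (nat_lit 94107682025) (nat_lit 304) (nat_lit 600547644) (nat_lit 76) (nat_lit 52948210353) (nat_lit 43) (nat_lit 5) (nat_lit 47) (nat_lit 5) (nat_lit 44) (nat_lit 5) (nat_lit 388) (nat_lit 353) (nat_lit 159)) (XT.nd (nat_lit 78) (nat_lit 0) (nat_lit 0) (XT.lf (nat_lit 0) (nat_lit 76396637920) (nat_lit 152) (nat_lit 48500186199) (nat_lit 228) (nat_lit 27669110628) (nat_lit 41) (nat_lit 5) (nat_lit 43) (nat_lit 5) (nat_lit 44) (nat_lit 5) (nat_lit 389) (nat_lit 353) (nat_lit 158)) (XT.lf (nat_lit 0) (nat_lit 157235684274) (nat_lit 228) (nat_lit 456876739) (nat_lit 76) (nat_lit 27830458) (nat_lit 41) (nat_lit 5) (nat_lit 44)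 (nat_lit 5) (nat_lit 42) (nat_lit 5) (nat_lit 390) (nat_lit 353) (nat_lit 157))))))) (XT.nd (nat_lit 858) (nat_lit 684) (nat_lit 0) (XT.nd (nat_lit 390) (nat_lit 532) (nat_lit 0) (XT.nd (nat_lit 156) (nat_lit 304) (nat_lit 0) (XT.nd (nat_lit 78) (nat_lit 0) (nat_lit 0) (XT.lf (nat_lit 0) (nat_lit 29251338750) (nat_lit 228) (nat_lit 82668833348) (nat_lit 76) (nat_lit 51085971151) (nat_lit 38) (nat_lit 5) (nat_lit 41) (nat_lit 5) (nat_lit 39) (nat_lit 5) (nat_lit 391) (nat_lit 353) (nat_lit 156)) (XT.lf (nat_lit 0) (nat_lit 60465420108) (nat_lit 228) (nat_lit 3377338867) (nat_lit 76) (nat_lit 104712650483) (nat_lit 38) (nat_lit 5) (nat_lit 41) (nat_lit 5) (nat_lit 39) (nat_lit 5) (nat_lit 392) (nat_lit 353) (nat_lit 155))) (XT.nd (nat_lit 78) (nat_lit 152) (nat_lit 0) (XT.lf (nat_lit 0) (nat_lit 82519352717) (nat_lit 152) (nat_lit 12008885633) (nat_lit 228) (nat_lit 79789499244) (nat_lit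 36) (nat_lit 5) (nat_lit 38) (nat_lit 5) (nat_lit 39) (nat_lit 5) (nat_lit 393) (nat_lit 353) (nat_lit 154)) (XT.nd (nat_lit 78) (nat_lit 152) (nat_lit 0) (XT.lf (nat_lit 0) (nat_lit 131014254480) (nat_lit 228) (nat_lit 8200887973) (nat_lit 76) (nat_lit 41117037073) (nat_lit 36) (nat_lit 5) (nat_lit 39) (nat_lit 5) (nat_lit 37) (nat_lit 5) (nat_lit 394) (nat_lit 353) (nat_lit 153)) (XT.lf (nat_lit 0) (nat_lit 82003756539) (nat_lit 152) (nat_lit 88797684774) (nat_lit 228) (nat_lit 15772058980) (nat_lit 34) (nat_lit 5) (nat_lit 36) (nat_lit 5) (nat_lit 37) (nat_lit 5) (nat_lit 395) (nat_lit 353) (nat_lit 152))))) (XT.nd (nat_lit 234) (nat_lit 304) (nat_lit 0) (XT.nd (nat_lit 78) (nat_lit 152) (nat_lit 0) (XT.lf (nat_lit 0) (nat_lit 18969402867) (nat_lit 228) (nat_lit 16423051112) (nat_lit 76) (nat_lit 157712206060) (nat_lit 33) (nat_lit 5) (nat_lit 36) (nat_lit 5) (nat_lit 34) (nat_lit 5)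 (nat_lit 396) (nat_lit 353) (nat_lit 151)) (XT.nd (nat_lit 78) (nat_lit 0) (nat_lit 0) (XT.lf (nat_lit 0) (nat_lit 56488562415) (nat_lit 228) (nat_lit 121854879112) (nat_lit 76) (nat_lit 21527475067) (nat_lit 31) (nat_lit 5) (nat_lit 34) (nat_lit 5) (nat_lit 32) (nat_lit 5) (nat_lit 397) (nat_lit 353) (nat_lit 150)) (XT.lf (nat_lit 0) (nat_lit 96746290470) (nat_lit 228) (nat_lit 29799566536) (nat_lit 76) (nat_lit 80386498632) (nat_lit 31) (nat_lit 5) (nat_lit 34) (nat_lit 5) (nat_lit 32) (nat_lit 5) (nat_lit 398) (nat_lit 353) (nat_lit 149)))) (XT.nd (nat_lit 78) (nat_lit 152) (nat_lit 0) (XT.lf (nat_lit 0) (nat_lit 69068688447) (nat_lit 152) (nat_lit 71026300372) (nat_lit 228) (nat_lit 74197973803) (nat_lit 29) (nat_lit 5) (nat_lit 31) (nat_lit 5) (nat_lit 32) (nat_lit 5) (nat_lit 399) (nat_lit 353) (nat_lit 148)) (XT.nd (nat_lit 78) (nat_lit 152) (nat_lit 0) (XT.lf (nat_lit 0) (nat_lit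 173914484547) (nat_lit 152) (nat_lit 12201041711) (nat_lit 228) (nat_lit 35880853659) (nat_lit 29) (nat_lit 5) (nat_lit 31) (nat_lit 5) (nat_lit 32) (nat_lit 5) (nat_lit 400) (nat_lit 353) (nat_lit 147)) (XT.lf (nat_lit 0) (nat_lit 5870311177) (nat_lit 152) (nat_lit 175197643186) (nat_lit 76) (nat_lit 48930742240) (nat_lit 27) (nat_lit 5) (nat_lit 29) (nat_lit 5) (nat_lit 28) (nat_lit 5) (nat_lit 401) (nat_lit 353) (nat_lit 146)))))) (XT.nd (nat_lit 468) (nat_lit 380) (nat_lit 0) (XT.nd (nat_lit 234) (nat_lit 152) (nat_lit 0) (XT.nd (nat_lit 78) (nat_lit 152) (nat_lit 0) (XT.lf (nat_lit 0) (nat_lit 49530603898) (nat_lit 152) (nat_lit 74664982759) (nat_lit 76) (nat_lit 114124761999) (nat_lit 27) (nat_lit 5) (nat_lit 29) (nat_lit 5) (nat_lit 28) (nat_lit 5) (nat_lit 402) (nat_lit 353) (nat_lit 145)) (XT.nd (nat_lit 78) (nat_lit 0) (nat_lit 0) (XT.lf (nat_lit 0) (nat_lit 31915387340) (nat_lit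 152) (nat_lit 63956570028) (nat_lit 228) (nat_lit 151161223778) (nat_lit 25) (nat_lit 5) (nat_lit 27) (nat_lit 5) (nat_lit 28) (nat_lit 5) (nat_lit 403) (nat_lit 353) (nat_lit 144)) (XT.lf (nat_lit 0) (nat_lit 145804338975) (nat_lit 228) (nat_lit 109711585901) (nat_lit 76) (nat_lit 602032497) (nat_lit 25) (nat_lit 5) (nat_lit 28) (nat_lit 5) (nat_lit 26) (nat_lit 4) (nat_lit 404) (nat_lit 353) (nat_lit 143)))) (XT.nd (nat_lit 78) (nat_lit 152) (nat_lit 0) (XT.lf (nat_lit 0) (nat_lit 199281579430) (nat_lit 228) (nat_lit 83933768) (nat_lit 76) (nat_lit 66239047353) (nat_lit 25) (nat_lit 5) (nat_lit 28) (nat_lit 5) (nat_lit 26) (nat_lit 4) (nat_lit 405) (nat_lit 353) (nat_lit 142)) (XT.nd (nat_lit 78) (nat_lit 76) (nat_lit 0) (XT.lf (nat_lit 0) (nat_lit 118827958887) (nat_lit 76) (nat_lit 138459742768) (nat_lit 152) (nat_lit 18185041369) (nat_lit 24) (nat_lit 5) (nat_lit 25) (nat_lit 5) (nat_lit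 26) (nat_lit 4) (nat_lit 406) (nat_lit 353) (nat_lit 141)) (XT.lf (nat_lit 0) (nat_lit 31325307824) (nat_lit 152) (nat_lit 42651533808) (nat_lit 76) (nat_lit 211832170344) (nat_lit 23) (nat_lit 5) (nat_lit 25) (nat_lit 5) (nat_lit 24) (nat_lit 5) (nat_lit 407) (nat_lit 353) (nat_lit 140))))) (XT.nd (nat_lit 234) (nat_lit 152) (nat_lit 0) (XT.nd (nat_lit 78) (nat_lit 76) (nat_lit 0) (XT.lf (nat_lit 0) (nat_lit 79280368582) (nat_lit 152) (nat_lit 4657251551) (nat_lit 228) (nat_lit 212647689462) (nat_lit 21) (nat_lit 5) (nat_lit 23) (nat_lit 5) (nat_lit 24) (nat_lit 5) (nat_lit 408) (nat_lit 353) (nat_lit 139)) (XT.nd (nat_lit 78) (nat_lit 76) (nat_lit 0) (XT.lf (nat_lit 0) (nat_lit 140978183201) (nat_lit 228) (nat_lit 100150554101) (nat_lit 76) (nat_lit 66681803136) (nat_lit 21) (nat_lit 5) (nat_lit 24) (nat_lit 5) (nat_lit 22) (nat_lit 4) (nat_lit 409) (nat_lit 353) (nat_lit 138)) (XT.lf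 (nat_lit 0) (nat_lit 23538227475) (nat_lit 76) (nat_lit 177776198195) (nat_lit 152) (nat_lit 118260424686) (nat_lit 20) (nat_lit 5) (nat_lit 21) (nat_lit 5) (nat_lit 22) (nat_lit 4) (nat_lit 410) (nat_lit 353) (nat_lit 137)))) (XT.nd (nat_lit 78) (nat_lit 152) (nat_lit 0) (XT.lf (nat_lit 0) (nat_lit 156888108238) (nat_lit 76) (nat_lit 109475279238) (nat_lit 152) (nat_lit 65479193025) (nat_lit 20) (nat_lit 5) (nat_lit 21) (nat_lit 5) (nat_lit 22) (nat_lit 4) (nat_lit 411) (nat_lit 353) (nat_lit 136)) (XT.nd (nat_lit 78) (nat_lit 152) (nat_lit 0) (XT.lf (nat_lit 0) (nat_lit 296905158294) (nat_lit 76) (nat_lit 37759457288) (nat_lit 152) (nat_lit 10059090748) (nat_lit 20) (nat_lit 5) (nat_lit 21) (nat_lit 5) (nat_lit 22) (nat_lit 4) (nat_lit 412) (nat_lit 353) (nat_lit 135)) (XT.lf (nat_lit 0) (nat_lit 48581941020) (nat_lit 152) (nat_lit 271033448477) (nat_lit 76) (nat_lit 38496402774) (nat_lit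 18) (nat_lit 5) (nat_lit 20) (nat_lit 5) (nat_lit 19) (nat_lit 4) (nat_lit 413) (nat_lit 353) (nat_lit 134))))))))
noncomputable def xc222 : XT := (XT.nd (nat_lit 43212) (nat_lit 0) (nat_lit 2204) (XT.nd (nat_lit 42276) (nat_lit 0) (nat_lit 5396) (XT.nd (nat_lit 390) (nat_lit 152) (nat_lit 0) (XT.nd (nat_lit 156) (nat_lit 152) (nat_lit 0) (XT.nd (nat_lit 78) (nat_lit 0) (nat_lit 0) (XT.lf (nat_lit 0) (nat_lit 111258911959) (nat_lit 152) (nat_lit 142546061948) (nat_lit 76) (nat_lit 118283966570) (nat_lit 18) (nat_lit 5) (nat_lit 20) (nat_lit 5) (nat_lit 19) (nat_lit 4) (nat_lit 414) (nat_lit 353) (nat_lit 133)) (XT.lf (nat_lit 0) (nat_lit 177069565104) (nat_lit 152) (nat_lit 7634607665) (nat_lit 76) (nat_lit 202060781714) (nat_lit 18) (nat_lit 5) (nat_lit 20) (nat_lit 5) (nat_lit 19) (nat_lit 4) (nat_lit 415) (nat_lit 353) (nat_lit 132))) (XT.nd (nat_lit 78) (nat_lit 76) (nat_lit 0) (XT.lf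 (nat_lit 0) (nat_lit 138453509069) (nat_lit 76) (nat_lit 109878730708) (nat_lit 152) (nat_lit 153734455036) (nat_lit 17) (nat_lit 5) (nat_lit 18) (nat_lit 5) (nat_lit 19) (nat_lit 4) (nat_lit 416) (nat_lit 353) (nat_lit 131)) (XT.nd (nat_lit 78) (nat_lit 76) (nat_lit 0) (XT.lf (nat_lit 0) (nat_lit 292110805400) (nat_lit 76) (nat_lit 31176383271) (nat_lit 152) (nat_lit 94839876529) (nat_lit 17) (nat_lit 5) (nat_lit 18) (nat_lit 5) (nat_lit 19) (nat_lit 4) (nat_lit 417) (nat_lit 353) (nat_lit 130)) (XT.lf (nat_lit 0) (nat_lit 18240599137) (nat_lit 76) (nat_lit 384837374660) (nat_lit 76) (nat_lit 31858075932) (nat_lit 16) (nat_lit 4) (nat_lit 17) (nat_lit 5) (nat_lit 17) (nat_lit 4) (nat_lit 418) (nat_lit 353) (nat_lit 129))))) (XT.nd (nat_lit 234) (nat_lit 0) (nat_lit 0) (XT.nd (nat_lit 78) (nat_lit 76) (nat_lit 0) (XT.lf (nat_lit 0) (nat_lit 35855941839) (nat_lit 152) (nat_lit 279474919351)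 (nat_lit 76) (nat_lit 137093864053) (nat_lit 15) (nat_lit 5) (nat_lit 17) (nat_lit 5) (nat_lit 16) (nat_lit 4) (nat_lit 419) (nat_lit 353) (nat_lit 128)) (XT.nd (nat_lit 78) (nat_lit 76) (nat_lit 0) (XT.lf (nat_lit 0) (nat_lit 105884878015) (nat_lit 152) (nat_lit 135915887231) (nat_lit 76) (nat_lit 228960963275) (nat_lit 15) (nat_lit 5) (nat_lit 17) (nat_lit 5) (nat_lit 16) (nat_lit 4) (nat_lit 420) (nat_lit 353) (nat_lit 127)) (XT.lf (nat_lit 0) (nat_lit 15310890964) (nat_lit 76) (nat_lit 164343280499) (nat_lit 152) (nat_lit 310349465027) (nat_lit 14) (nat_lit 5) (nat_lit 15) (nat_lit 5) (nat_lit 16) (nat_lit 4) (nat_lit 421) (nat_lit 353) (nat_lit 126)))) (XT.nd (nat_lit 78) (nat_lit 0) (nat_lit 0) (XT.lf (nat_lit 0) (nat_lit 178817455134) (nat_lit 76) (nat_lit 80596142927) (nat_lit 152) (nat_lit 250678958421) (nat_lit 14) (nat_lit 5) (nat_lit 15) (nat_lit 5) (nat_lit 16) (nat_lit 4)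 (nat_lit 422) (nat_lit 353) (nat_lit 125)) (XT.nd (nat_lit 41496) (nat_lit 0) (nat_lit 6536) (XT.lf (nat_lit 0) (nat_lit 343275440032) (nat_lit 152) (nat_lit 180801385826) (nat_lit 0) (nat_lit 7103374460) (nat_lit 14) (nat_lit 5) (nat_lit 16) (nat_lit 4) (nat_lit 14) (nat_lit 4) (nat_lit 423) (nat_lit 353) (nat_lit 124)) (XT.lf (nat_lit 0) (nat_lit 13914578465) (nat_lit 0) (nat_lit 13914578465) (nat_lit 684) (nat_lit 622442274) (nat_lit 100) (nat_lit 5) (nat_lit 100) (nat_lit 3) (nat_lit 109) (nat_lit 3) (nat_lit 354) (nat_lit 354) (nat_lit 192)))))) (XT.nd (nat_lit 468) (nat_lit 380) (nat_lit 0) (XT.nd (nat_lit 234) (nat_lit 0) (nat_lit 76) (XT.nd (nat_lit 78) (nat_lit 760) (nat_lit 0) (XT.lf (nat_lit 0) (nat_lit 55639516063) (nat_lit 0) (nat_lit 1429328968) (nat_lit 684) (nat_lit 1255950334) (nat_lit 100) (nat_lit 5) (nat_lit 100) (nat_lit 3) (nat_lit 109) (nat_lit 3) (nat_lit 355) (nat_lit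 354) (nat_lit 191)) (XT.nd (nat_lit 78) (nat_lit 760) (nat_lit 0) (XT.lf (nat_lit 76) (nat_lit 25425546087) (nat_lit 0) (nat_lit 33930577537) (nat_lit 760) (nat_lit 421039380) (nat_lit 101) (nat_lit 5) (nat_lit 100) (nat_lit 5) (nat_lit 110) (nat_lit 5) (nat_lit 356) (nat_lit 354) (nat_lit 190)) (XT.lf (nat_lit 0) (nat_lit 509503149) (nat_lit 760) (nat_lit 6296739011) (nat_lit 836) (nat_lit 54492129465) (nat_lit 90) (nat_lit 5) (nat_lit 100) (nat_lit 5) (nat_lit 101) (nat_lit 5) (nat_lit 357) (nat_lit 354) (nat_lit 189)))) (XT.nd (nat_lit 78) (nat_lit 0) (nat_lit 0) (XT.lf (nat_lit 0) (nat_lit 2189373748) (nat_lit 760) (nat_lit 39302466094) (nat_lit 836) (nat_lit 21367609812) (nat_lit 91) (nat_lit 5) (nat_lit 101) (nat_lit 5) (nat_lit 102) (nat_lit 5) (nat_lit 358) (nat_lit 354) (nat_lit 188)) (XT.nd (nat_lit 78) (nat_lit 0) (nat_lit 76) (XT.lf (nat_lit 0) (nat_lit 4172123347) (nat_lit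 760) (nat_lit 9485304981) (nat_lit 836) (nat_lit 50830210527) (nat_lit 91) (nat_lit 5) (nat_lit 101) (nat_lit 5) (nat_lit 102) (nat_lit 5) (nat_lit 359) (nat_lit 354) (nat_lit 187)) (XT.lf (nat_lit 0) (nat_lit 6853797327) (nat_lit 760) (nat_lit 43884984980) (nat_lit 836) (nat_lit 15428467336) (nat_lit 92) (nat_lit 5) (nat_lit 102) (nat_lit 5) (nat_lit 103) (nat_lit 5) (nat_lit 360) (nat_lit 354) (nat_lit 186))))) (XT.nd (nat_lit 234) (nat_lit 532) (nat_lit 0) (XT.nd (nat_lit 78) (nat_lit 0) (nat_lit 76) (XT.lf (nat_lit 0) (nat_lit 10055734527) (nat_lit 760) (nat_lit 12182553433) (nat_lit 836) (nat_lit 45673245436) (nat_lit 92) (nat_lit 5) (nat_lit 102) (nat_lit 5) (nat_lit 103) (nat_lit 5) (nat_lit 361) (nat_lit 354) (nat_lit 185)) (XT.nd (nat_lit 78) (nat_lit 0) (nat_lit 0) (XT.lf (nat_lit 0) (nat_lit 13882825980) (nat_lit 760) (nat_lit 48049564635) (nat_lit 836) (nat_lit 7787389186)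 (nat_lit 93) (nat_lit 5) (nat_lit 103) (nat_lit 5) (nat_lit 104) (nat_lit 5) (nat_lit 362) (nat_lit 354) (nat_lit 184)) (XT.lf (nat_lit 0) (nat_lit 18474633385) (nat_lit 760) (nat_lit 14338237062) (nat_lit 836) (nat_lit 38776901281) (nat_lit 93) (nat_lit 5) (nat_lit 103) (nat_lit 5) (nat_lit 104) (nat_lit 5) (nat_lit 363) (nat_lit 354) (nat_lit 183)))) (XT.nd (nat_lit 78) (nat_lit 608) (nat_lit 0) (XT.lf (nat_lit 76) (nat_lit 21754220172) (nat_lit 0) (nat_lit 1880597799) (nat_lit 836) (nat_lit 49901507152) (nat_lit 94) (nat_lit 5) (nat_lit 93) (nat_lit 5) (nat_lit 104) (nat_lit 5) (nat_lit 364) (nat_lit 354) (nat_lit 182)) (XT.nd (nat_lit 78) (nat_lit 684) (nat_lit 0) (XT.lf (nat_lit 0) (nat_lit 29776717025) (nat_lit 760) (nat_lit 15901420015) (nat_lit 76) (nat_lit 29865885037) (nat_lit 94) (nat_lit 5) (nat_lit 104) (nat_lit 5) (nat_lit 95) (nat_lit 5) (nat_lit 365) (nat_lit 354) (nat_lit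 181)) (XT.lf (nat_lit 0) (nat_lit 22460645095) (nat_lit 684) (nat_lit 14145782819) (nat_lit 760) (nat_lit 41026641220) (nat_lit 85) (nat_lit 5) (nat_lit 94) (nat_lit 5) (nat_lit 95) (nat_lit 5) (nat_lit 366) (nat_lit 354) (nat_lit 180))))))) (XT.nd (nat_lit 858) (nat_lit 1520) (nat_lit 0) (XT.nd (nat_lit 390) (nat_lit 988) (nat_lit 0) (XT.nd (nat_lit 156) (nat_lit 304) (nat_lit 0) (XT.nd (nat_lit 78) (nat_lit 380) (nat_lit 0) (XT.lf (nat_lit 0) (nat_lit 44346647258) (nat_lit 760) (nat_lit 16821446207) (nat_lit 76) (nat_lit 18630024977) (nat_lit 85) (nat_lit 5) (nat_lit 95) (nat_lit 5) (nat_lit 86) (nat_lit 5) (nat_lit 367) (nat_lit 354) (nat_lit 179)) (XT.lf (nat_lit 0) (nat_lit 23982058872) (nat_lit 380) (nat_lit 29097421466) (nat_lit 456) (nat_lit 28961660737) (nat_lit 80) (nat_lit 5) (nat_lit 85) (nat_lit 5) (nat_lit 86) (nat_lit 5) (nat_lit 368) (nat_lit 354) (nat_lit 178))) (XT.nd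 (nat_lit 78) (nat_lit 304) (nat_lit 0) (XT.lf (nat_lit 0) (nat_lit 62609262354) (nat_lit 456) (nat_lit 17049179618) (nat_lit 76) (nat_lit 4719858450) (nat_lit 80) (nat_lit 5) (nat_lit 86) (nat_lit 5) (nat_lit 81) (nat_lit 5) (nat_lit 369) (nat_lit 354) (nat_lit 177)) (XT.nd (nat_lit 78) (nat_lit 0) (nat_lit 0) (XT.lf (nat_lit 0) (nat_lit 26377775199) (nat_lit 304) (nat_lit 47125930815) (nat_lit 380) (nat_lit 13284204000) (nat_lit 76) (nat_lit 5) (nat_lit 80) (nat_lit 5) (nat_lit 81) (nat_lit 5) (nat_lit 370) (nat_lit 354) (nat_lit 176)) (XT.lf (nat_lit 0) (nat_lit 72567308374) (nat_lit 304) (nat_lit 12663655322) (nat_lit 380) (nat_lit 4072632657) (nat_lit 76) (nat_lit 5) (nat_lit 80) (nat_lit 5) (nat_lit 81) (nat_lit 5) (nat_lit 371) (nat_lit 354) (nat_lit 175))))) (XT.nd (nat_lit 234) (nat_lit 304) (nat_lit 0) (XT.nd (nat_lit 78) (nat_lit 304) (nat_lit 0) (XT.lf (nat_lit 0) (nat_lit 6264299421)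 (nat_lit 380) (nat_lit 62300536446) (nat_lit 76) (nat_lit 23333660631) (nat_lit 71) (nat_lit 5) (nat_lit 76) (nat_lit 5) (nat_lit 72) (nat_lit 5) (nat_lit 372) (nat_lit 354) (nat_lit 174)) (XT.nd (nat_lit 78) (nat_lit 304) (nat_lit 0) (XT.lf (nat_lit 0) (nat_lit 17476289725) (nat_lit 380) (nat_lit 16058702008) (nat_lit 76) (nat_lit 61060058497) (nat_lit 71) (nat_lit 5) (nat_lit 76) (nat_lit 5) (nat_lit 72) (nat_lit 5) (nat_lit 373) (nat_lit 354) (nat_lit 173)) (XT.lf (nat_lit 0) (nat_lit 29831683821) (nat_lit 380) (nat_lit 63890543983) (nat_lit 76) (nat_lit 3675064339) (nat_lit 67) (nat_lit 5) (nat_lit 72) (nat_lit 5) (nat_lit 68) (nat_lit 5) (nat_lit 374) (nat_lit 354) (nat_lit 172)))) (XT.nd (nat_lit 78) (nat_lit 304) (nat_lit 0) (XT.lf (nat_lit 0) (nat_lit 43630461051) (nat_lit 380) (nat_lit 14772938714) (nat_lit 76) (nat_lit 41894966388) (nat_lit 67) (nat_lit 5) (nat_lit 72) (nat_lit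 5) (nat_lit 68) (nat_lit 5) (nat_lit 375) (nat_lit 354) (nat_lit 171)) (XT.nd (nat_lit 78) (nat_lit 0) (nat_lit 0) (XT.lf (nat_lit 0) (nat_lit 38016678902) (nat_lit 304) (nat_lit 20695511032) (nat_lit 380) (nat_lit 44602653933) (nat_lit 63) (nat_lit 5) (nat_lit 67) (nat_lit 5) (nat_lit 68) (nat_lit 5) (nat_lit 376) (nat_lit 354) (nat_lit 170)) (XT.lf (nat_lit 0) (nat_lit 75096820523) (nat_lit 380) (nat_lit 12810777825) (nat_lit 76) (nat_lit 18547106967) (nat_lit 63) (nat_lit 5) (nat_lit 68) (nat_lit 5) (nat_lit 64) (nat_lit 5) (nat_lit 377) (nat_lit 354) (nat_lit 169)))))) (XT.nd (nat_lit 468) (nat_lit 684) (nat_lit 0) (XT.nd (nat_lit 234) (nat_lit 228) (nat_lit 0) (XT.nd (nat_lit 78) (nat_lit 380) (nat_lit 0) (XT.lf (nat_lit 0) (nat_lit 43348508545) (nat_lit 228) (nat_lit 49967741031) (nat_lit 304) (nat_lit 16384532494) (nat_lit 60) (nat_lit 5) (nat_lit 63) (nat_lit 5) (nat_lit 64) (nat_lit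 5) (nat_lit 378) (nat_lit 354) (nat_lit 168)) (XT.nd (nat_lit 78) (nat_lit 380) (nat_lit 0) (XT.lf (nat_lit 0) (nat_lit 102759908109) (nat_lit 228) (nat_lit 9903217285) (nat_lit 304) (nat_lit 435214059) (nat_lit 60) (nat_lit 5) (nat_lit 63) (nat_lit 5) (nat_lit 64) (nat_lit 5) (nat_lit 379) (nat_lit 354) (nat_lit 167)) (XT.lf (nat_lit 0) (nat_lit 17085888482) (nat_lit 380) (nat_lit 67318045710) (nat_lit 76) (nat_lit 32184288033) (nat_lit 55) (nat_lit 5) (nat_lit 60) (nat_lit 5) (nat_lit 56) (nat_lit 5) (nat_lit 380) (nat_lit 354) (nat_lit 166)))) (XT.nd (nat_lit 78) (nat_lit 228) (nat_lit 0) (XT.lf (nat_lit 0) (nat_lit 35808268910) (nat_lit 380) (nat_lit 8198666345) (nat_lit 76) (nat_lit 76228315188) (nat_lit 55) (nat_lit 5) (nat_lit 60) (nat_lit 5) (nat_lit 56) (nat_lit 5) (nat_lit 381) (nat_lit 354) (nat_lit 165)) (XT.nd (nat_lit 78) (nat_lit 0) (nat_lit 0) (XT.lf (nat_lit 0) (nat_lit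 55657487717) (nat_lit 228) (nat_lit 677816076) (nat_lit 304) (nat_lit 67685899963) (nat_lit 52) (nat_lit 5) (nat_lit 55) (nat_lit 5) (nat_lit 56) (nat_lit 5) (nat_lit 382) (nat_lit 354) (nat_lit 164)) (XT.lf (nat_lit 0) (nat_lit 78729121291) (nat_lit 304) (nat_lit 5701021964) (nat_lit 76) (nat_lit 43524290372) (nat_lit 52) (nat_lit 5) (nat_lit 56) (nat_lit 5) (nat_lit 53) (nat_lit 5) (nat_lit 383) (nat_lit 354) (nat_lit 163))))) (XT.nd (nat_lit 234) (nat_lit 228) (nat_lit 0) (XT.nd (nat_lit 78) (nat_lit 228) (nat_lit 0) (XT.lf (nat_lit 0) (nat_lit 62069751628) (nat_lit 228) (nat_lit 41152668225) (nat_lit 304) (nat_lit 28812916042) (nat_lit 49) (nat_lit 5) (nat_lit 52) (nat_lit 5) (nat_lit 53) (nat_lit 5) (nat_lit 384) (nat_lit 354) (nat_lit 162)) (XT.nd (nat_lit 78) (nat_lit 228) (nat_lit 0) (XT.lf (nat_lit 0) (nat_lit 129105077791) (nat_lit 304) (nat_lit 2957578017) (nat_lit 76) (nat_lit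 4249393140) (nat_lit 49) (nat_lit 5) (nat_lit 53) (nat_lit 5) (nat_lit 50) (nat_lit 5) (nat_lit 385) (nat_lit 354) (nat_lit 161)) (XT.lf (nat_lit 0) (nat_lit 16763010323) (nat_lit 228) (nat_lit 72053543757) (nat_lit 76) (nat_lit 51885001556) (nat_lit 46) (nat_lit 5) (nat_lit 49) (nat_lit 5) (nat_lit 47) (nat_lit 5) (nat_lit 386) (nat_lit 354) (nat_lit 160)))) (XT.nd (nat_lit 78) (nat_lit 228) (nat_lit 0) (XT.lf (nat_lit 0) (nat_lit 41739824396) (nat_lit 228) (nat_lit 1490988076) (nat_lit 76) (nat_lit 102071291424) (nat_lit 46) (nat_lit 5) (nat_lit 49) (nat_lit 5) (nat_lit 47) (nat_lit 5) (nat_lit 387) (nat_lit 354) (nat_lit 159)) (XT.nd (nat_lit 78) (nat_lit 0) (nat_lit 0) (XT.lf (nat_lit 0) (nat_lit 69227623759) (nat_lit 304) (nat_lit 75166066778) (nat_lit 76) (nat_lit 5675882125) (nat_lit 43) (nat_lit 5) (nat_lit 47) (nat_lit 5) (nat_lit 44) (nat_lit 5) (nat_lit 388) (nat_lit 354) (nat_lit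 158)) (XT.lf (nat_lit 0) (nat_lit 98823829523) (nat_lit 304) (nat_lit 614308723) (nat_lit 76) (nat_lit 55600576109) (nat_lit 43) (nat_lit 5) (nat_lit 47) (nat_lit 5) (nat_lit 44) (nat_lit 5) (nat_lit 389) (nat_lit 354) (nat_lit 157))))))))
noncomputable def xc223 : XT := (XT.nd (nat_lit 1794) (nat_lit 456) (nat_lit 0) (XT.nd (nat_lit 858) (nat_lit 684) (nat_lit 0) (XT.nd (nat_lit 390) (nat_lit 532) (nat_lit 0) (XT.nd (nat_lit 156) (nat_lit 380) (nat_lit 0) (XT.nd (nat_lit 78) (nat_lit 0) (nat_lit 0) (XT.lf (nat_lit 0) (nat_lit 80232473760) (nat_lit 152) (nat_lit 50919692287) (nat_lit 228) (nat_lit 29041531357) (nat_lit 41) (nat_lit 5) (nat_lit 43) (nat_lit 5) (nat_lit 44) (nat_lit 5) (nat_lit 390) (nat_lit 354) (nat_lit 156)) (XT.lf (nat_lit 0) (nat_lit 165107551003) (nat_lit 228) (nat_lit 464051906) (nat_lit 76) (nat_lit 34295395) (nat_lit 41) (nat_lit 5) (nat_lit 44) (nat_lit 5) (nat_lit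 42) (nat_lit 5) (nat_lit 391) (nat_lit 354) (nat_lit 155))) (XT.nd (nat_lit 78) (nat_lit 152) (nat_lit 0) (XT.lf (nat_lit 0) (nat_lit 30723918073) (nat_lit 228) (nat_lit 86786520198) (nat_lit 76) (nat_lit 53645503708) (nat_lit 38) (nat_lit 5) (nat_lit 41) (nat_lit 5) (nat_lit 39) (nat_lit 5) (nat_lit 392) (nat_lit 354) (nat_lit 154)) (XT.nd (nat_lit 78) (nat_lit 152) (nat_lit 0) (XT.lf (nat_lit 0) (nat_lit 63498226719) (nat_lit 228) (nat_lit 3531201222) (nat_lit 76) (nat_lit 109953267769) (nat_lit 38) (nat_lit 5) (nat_lit 41) (nat_lit 5) (nat_lit 39) (nat_lit 5) (nat_lit 393) (nat_lit 354) (nat_lit 153)) (XT.lf (nat_lit 0) (nat_lit 86660082932) (nat_lit 152) (nat_lit 12603879349) (nat_lit 228) (nat_lit 83769189504) (nat_lit 36) (nat_lit 5) (nat_lit 38) (nat_lit 5) (nat_lit 39) (nat_lit 5) (nat_lit 394) (nat_lit 354) (nat_lit 152))))) (XT.nd (nat_lit 234) (nat_lit 304) (nat_lit 0) (XT.nd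 (nat_lit 78) (nat_lit 228) (nat_lit 0) (XT.lf (nat_lit 0) (nat_lit 137573916836) (nat_lit 228) (nat_lit 8596503640) (nat_lit 76) (nat_lit 43177913796) (nat_lit 36) (nat_lit 5) (nat_lit 39) (nat_lit 5) (nat_lit 37) (nat_lit 5) (nat_lit 395) (nat_lit 354) (nat_lit 151)) (XT.nd (nat_lit 78) (nat_lit 76) (nat_lit 0) (XT.lf (nat_lit 0) (nat_lit 86118140376) (nat_lit 152) (nat_lit 93232118101) (nat_lit 228) (nat_lit 16551473148) (nat_lit 34) (nat_lit 5) (nat_lit 36) (nat_lit 5) (nat_lit 37) (nat_lit 5) (nat_lit 396) (nat_lit 354) (nat_lit 150)) (XT.lf (nat_lit 0) (nat_lit 19926344137) (nat_lit 228) (nat_lit 17230397733) (nat_lit 76) (nat_lit 165602721784) (nat_lit 33) (nat_lit 5) (nat_lit 36) (nat_lit 5) (nat_lit 34) (nat_lit 5) (nat_lit 397) (nat_lit 354) (nat_lit 149)))) (XT.nd (nat_lit 78) (nat_lit 152) (nat_lit 0) (XT.lf (nat_lit 0) (nat_lit 59321353149) (nat_lit 228) (nat_lit 127933703068)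 (nat_lit 76) (nat_lit 22608982522) (nat_lit 31) (nat_lit 5) (nat_lit 34) (nat_lit 5) (nat_lit 32) (nat_lit 5) (nat_lit 398) (nat_lit 354) (nat_lit 148)) (XT.nd (nat_lit 78) (nat_lit 152) (nat_lit 0) (XT.lf (nat_lit 0) (nat_lit 101591569388) (nat_lit 228) (nat_lit 31276287721) (nat_lit 76) (nat_lit 84410712803) (nat_lit 31) (nat_lit 5) (nat_lit 34) (nat_lit 5) (nat_lit 32) (nat_lit 5) (nat_lit 399) (nat_lit 354) (nat_lit 147)) (XT.lf (nat_lit 0) (nat_lit 72535166187) (nat_lit 152) (nat_lit 74572360853) (nat_lit 228) (nat_lit 77899689237) (nat_lit 29) (nat_lit 5) (nat_lit 31) (nat_lit 5) (nat_lit 32) (nat_lit 5) (nat_lit 400) (nat_lit 354) (nat_lit 146)))))) (XT.nd (nat_lit 468) (nat_lit 380) (nat_lit 0) (XT.nd (nat_lit 234) (nat_lit 152) (nat_lit 0) (XT.nd (nat_lit 78) (nat_lit 152) (nat_lit 0) (XT.lf (nat_lit 0) (nat_lit 182622630982) (nat_lit 152) (nat_lit 12806089475) (nat_lit 228) (nat_lit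 37667102765) (nat_lit 29) (nat_lit 5) (nat_lit 31) (nat_lit 5) (nat_lit 32) (nat_lit 5) (nat_lit 401) (nat_lit 354) (nat_lit 145)) (XT.nd (nat_lit 78) (nat_lit 0) (nat_lit 0) (XT.lf (nat_lit 0) (nat_lit 6171285847) (nat_lit 152) (nat_lit 183944759754) (nat_lit 76) (nat_lit 51382208526) (nat_lit 27) (nat_lit 5) (nat_lit 29) (nat_lit 5) (nat_lit 28) (nat_lit 5) (nat_lit 402) (nat_lit 354) (nat_lit 144)) (XT.lf (nat_lit 0) (nat_lit 52014238008) (nat_lit 152) (nat_lit 78386074190) (nat_lit 76) (nat_lit 119835694551) (nat_lit 27) (nat_lit 5) (nat_lit 29) (nat_lit 5) (nat_lit 28) (nat_lit 5) (nat_lit 403) (nat_lit 354) (nat_lit 143)))) (XT.nd (nat_lit 78) (nat_lit 0) (nat_lit 0) (XT.lf (nat_lit 0) (nat_lit 33523118322) (nat_lit 152) (nat_lit 67149389303) (nat_lit 228) (nat_lit 158711981013) (nat_lit 25) (nat_lit 5) (nat_lit 27) (nat_lit 5) (nat_lit 28) (nat_lit 5) (nat_lit 404) (nat_lit 354)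 (nat_lit 142)) (XT.nd (nat_lit 78) (nat_lit 0) (nat_lit 0) (XT.lf (nat_lit 0) (nat_lit 153101251729) (nat_lit 228) (nat_lit 115185512842) (nat_lit 76) (nat_lit 636752122) (nat_lit 25) (nat_lit 5) (nat_lit 28) (nat_lit 5) (nat_lit 26) (nat_lit 4) (nat_lit 405) (nat_lit 354) (nat_lit 141)) (XT.lf (nat_lit 0) (nat_lit 209252035360) (nat_lit 228) (nat_lit 77032976) (nat_lit 76) (nat_lit 69555397816) (nat_lit 25) (nat_lit 5) (nat_lit 28) (nat_lit 5) (nat_lit 26) (nat_lit 4) (nat_lit 406) (nat_lit 354) (nat_lit 140))))) (XT.nd (nat_lit 234) (nat_lit 76) (nat_lit 0) (XT.nd (nat_lit 78) (nat_lit 228) (nat_lit 0) (XT.lf (nat_lit 0) (nat_lit 124780275320) (nat_lit 76) (nat_lit 145378055179) (nat_lit 152) (nat_lit 19087734079) (nat_lit 24) (nat_lit 5) (nat_lit 25) (nat_lit 5) (nat_lit 26) (nat_lit 4) (nat_lit 407) (nat_lit 354) (nat_lit 139)) (XT.nd (nat_lit 78) (nat_lit 152) (nat_lit 0) (XT.lf (nat_lit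 0) (nat_lit 32897620280) (nat_lit 152) (nat_lit 44773508902) (nat_lit 76) (nat_lit 222428027948) (nat_lit 23) (nat_lit 5) (nat_lit 25) (nat_lit 5) (nat_lit 24) (nat_lit 5) (nat_lit 408) (nat_lit 354) (nat_lit 138)) (XT.lf (nat_lit 0) (nat_lit 83254817614) (nat_lit 152) (nat_lit 4885605486) (nat_lit 228) (nat_lit 223273852932) (nat_lit 21) (nat_lit 5) (nat_lit 23) (nat_lit 5) (nat_lit 24) (nat_lit 5) (nat_lit 409) (nat_lit 354) (nat_lit 137)))) (XT.nd (nat_lit 78) (nat_lit 76) (nat_lit 0) (XT.lf (nat_lit 0) (nat_lit 148032799364) (nat_lit 228) (nat_lit 105147930136) (nat_lit 76) (nat_lit 70020049805) (nat_lit 21) (nat_lit 5) (nat_lit 24) (nat_lit 5) (nat_lit 22) (nat_lit 4) (nat_lit 410) (nat_lit 354) (nat_lit 136)) (XT.nd (nat_lit 78) (nat_lit 0) (nat_lit 0) (XT.lf (nat_lit 0) (nat_lit 24725126782) (nat_lit 76) (nat_lit 186660611352) (nat_lit 152) (nat_lit 124167572510) (nat_lit 20) (nat_lit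 5) (nat_lit 21) (nat_lit 5) (nat_lit 22) (nat_lit 4) (nat_lit 411) (nat_lit 354) (nat_lit 135)) (XT.lf (nat_lit 0) (nat_lit 164742025968) (nat_lit 76) (nat_lit 114944855816) (nat_lit 152) (nat_lit 68747558952) (nat_lit 20) (nat_lit 5) (nat_lit 21) (nat_lit 5) (nat_lit 22) (nat_lit 4) (nat_lit 412) (nat_lit 354) (nat_lit 134))))))) (XT.nd (nat_lit 42432) (nat_lit 0) (nat_lit 5396) (XT.nd (nat_lit 390) (nat_lit 228) (nat_lit 0) (XT.nd (nat_lit 156) (nat_lit 76) (nat_lit 0) (XT.nd (nat_lit 78) (nat_lit 152) (nat_lit 0) (XT.lf (nat_lit 0) (nat_lit 311759475558) (nat_lit 76) (nat_lit 39643442168) (nat_lit 152) (nat_lit 10556717929) (nat_lit 20) (nat_lit 5) (nat_lit 21) (nat_lit 5) (nat_lit 22) (nat_lit 4) (nat_lit 413) (nat_lit 354) (nat_lit 133)) (XT.lf (nat_lit 0) (nat_lit 51016154091) (nat_lit 152) (nat_lit 284575845710) (nat_lit 76) (nat_lit 40425124084) (nat_lit 18) (nat_lit 5) (nat_lit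 20) (nat_lit 5) (nat_lit 19) (nat_lit 4) (nat_lit 414) (nat_lit 354) (nat_lit 132))) (XT.nd (nat_lit 78) (nat_lit 76) (nat_lit 0) (XT.lf (nat_lit 0) (nat_lit 116826729958) (nat_lit 152) (nat_lit 149664531531) (nat_lit 76) (nat_lit 124201880300) (nat_lit 18) (nat_lit 5) (nat_lit 20) (nat_lit 5) (nat_lit 19) (nat_lit 4) (nat_lit 415) (nat_lit 354) (nat_lit 131)) (XT.nd (nat_lit 78) (nat_lit 76) (nat_lit 0) (XT.lf (nat_lit 0) (nat_lit 185927683741) (nat_lit 152) (nat_lit 8007925177) (nat_lit 76) (nat_lit 212167359277) (nat_lit 18) (nat_lit 5) (nat_lit 20) (nat_lit 5) (nat_lit 19) (nat_lit 4) (nat_lit 416) (nat_lit 354) (nat_lit 130)) (XT.lf (nat_lit 0) (nat_lit 145384461702) (nat_lit 76) (nat_lit 115368938705) (nat_lit 152) (nat_lit 161416399816) (nat_lit 17) (nat_lit 5) (nat_lit 18) (nat_lit 5) (nat_lit 19) (nat_lit 4) (nat_lit 417) (nat_lit 354) (nat_lit 129))))) (XT.nd (nat_lit 234) (nat_lit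 76) (nat_lit 0) (XT.nd (nat_lit 78) (nat_lit 152) (nat_lit 0) (XT.lf (nat_lit 0) (nat_lit 306724228698) (nat_lit 76) (nat_lit 32731651446) (nat_lit 152) (nat_lit 99577319907) (nat_lit 17) (nat_lit 5) (nat_lit 18) (nat_lit 5) (nat_lit 19) (nat_lit 4) (nat_lit 418) (nat_lit 354) (nat_lit 128)) (XT.nd (nat_lit 78) (nat_lit 76) (nat_lit 0) (XT.lf (nat_lit 0) (nat_lit 19160545316) (nat_lit 76) (nat_lit 404075629317) (nat_lit 76) (nat_lit 33446460753) (nat_lit 16) (nat_lit 4) (nat_lit 17) (nat_lit 5) (nat_lit 17) (nat_lit 4) (nat_lit 419) (nat_lit 354) (nat_lit 127)) (XT.lf (nat_lit 0) (nat_lit 37652904969) (nat_lit 152) (nat_lit 293440986749) (nat_lit 76) (nat_lit 143951859924) (nat_lit 15) (nat_lit 5) (nat_lit 17) (nat_lit 5) (nat_lit 16) (nat_lit 4) (nat_lit 420) (nat_lit 354) (nat_lit 126)))) (XT.nd (nat_lit 78) (nat_lit 76) (nat_lit 0) (XT.lf (nat_lit 0) (nat_lit 111183089572) (nat_lit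 152) (nat_lit 142704368669) (nat_lit 76) (nat_lit 240412156836) (nat_lit 15) (nat_lit 5) (nat_lit 17) (nat_lit 5) (nat_lit 16) (nat_lit 4) (nat_lit 421) (nat_lit 354) (nat_lit 125)) (XT.nd (nat_lit 41652) (nat_lit 0) (nat_lit 6536) (XT.lf (nat_lit 0) (nat_lit 16083630485) (nat_lit 76) (nat_lit 172557140604) (nat_lit 152) (nat_lit 325862851255) (nat_lit 14) (nat_lit 5) (nat_lit 15) (nat_lit 5) (nat_lit 16) (nat_lit 4) (nat_lit 422) (nat_lit 354) (nat_lit 124)) (XT.lf (nat_lit 0) (nat_lit 14619695156) (nat_lit 0) (nat_lit 14619695156) (nat_lit 684) (nat_lit 633821195) (nat_lit 100) (nat_lit 5) (nat_lit 100) (nat_lit 3) (nat_lit 109) (nat_lit 3) (nat_lit 355) (nat_lit 355) (nat_lit 190)))))) (XT.nd (nat_lit 468) (nat_lit 380) (nat_lit 0) (XT.nd (nat_lit 234) (nat_lit 0) (nat_lit 76) (XT.nd (nat_lit 78) (nat_lit 760) (nat_lit 0) (XT.lf (nat_lit 0) (nat_lit 58439373330) (nat_lit 0) (nat_lit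 1518676880) (nat_lit 684) (nat_lit 1281141770) (nat_lit 100) (nat_lit 5) (nat_lit 100) (nat_lit 3) (nat_lit 109) (nat_lit 3) (nat_lit 356) (nat_lit 355) (nat_lit 189)) (XT.nd (nat_lit 78) (nat_lit 760) (nat_lit 0) (XT.lf (nat_lit 76) (nat_lit 26716504547) (nat_lit 0) (nat_lit 35641526582) (nat_lit 760) (nat_lit 406232572) (nat_lit 101) (nat_lit 5) (nat_lit 100) (nat_lit 5) (nat_lit 110) (nat_lit 5) (nat_lit 357) (nat_lit 355) (nat_lit 188)) (XT.lf (nat_lit 0) (nat_lit 568036471) (nat_lit 760) (nat_lit 6591691434) (nat_lit 836) (nat_lit 57201861875) (nat_lit 90) (nat_lit 5) (nat_lit 100) (nat_lit 5) (nat_lit 101) (nat_lit 5) (nat_lit 358) (nat_lit 355) (nat_lit 187)))) (XT.nd (nat_lit 78) (nat_lit 0) (nat_lit 0) (XT.lf (nat_lit 0) (nat_lit 2330440971) (nat_lit 760) (nat_lit 41246199988) (nat_lit 836) (nat_lit 22424155996) (nat_lit 91) (nat_lit 5) (nat_lit 101) (nat_lit 5) (nat_lit 102)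 (nat_lit 5) (nat_lit 359) (nat_lit 355) (nat_lit 186)) (XT.nd (nat_lit 78) (nat_lit 0) (nat_lit 76) (XT.lf (nat_lit 0) (nat_lit 4410823359) (nat_lit 760) (nat_lit 9939199363) (nat_lit 836) (nat_lit 53360450284) (nat_lit 91) (nat_lit 5) (nat_lit 101) (nat_lit 5) (nat_lit 102) (nat_lit 5) (nat_lit 360) (nat_lit 355) (nat_lit 185)) (XT.lf (nat_lit 0) (nat_lit 7225321470) (nat_lit 760) (nat_lit 46057562746) (nat_lit 836) (nat_lit 16191245149) (nat_lit 92) (nat_lit 5) (nat_lit 102) (nat_lit 5) (nat_lit 103) (nat_lit 5) (nat_lit 361) (nat_lit 355) (nat_lit 184))))) (XT.nd (nat_lit 234) (nat_lit 532) (nat_lit 0) (XT.nd (nat_lit 78) (nat_lit 0) (nat_lit 76) (XT.lf (nat_lit 0) (nat_lit 10585982469) (nat_lit 760) (nat_lit 12771041597) (nat_lit 836) (nat_lit 47948673846) (nat_lit 92) (nat_lit 5) (nat_lit 102) (nat_lit 5) (nat_lit 103) (nat_lit 5) (nat_lit 362) (nat_lit 355) (nat_lit 183)) (XT.nd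 (nat_lit 78) (nat_lit 0) (nat_lit 0) (XT.lf (nat_lit 0) (nat_lit 14603341624) (nat_lit 760) (nat_lit 50430279257) (nat_lit 836) (nat_lit 8170791962) (nat_lit 93) (nat_lit 5) (nat_lit 103) (nat_lit 5) (nat_lit 104) (nat_lit 5) (nat_lit 363) (nat_lit 355) (nat_lit 182)) (XT.lf (nat_lit 0) (nat_lit 19423483478) (nat_lit 760) (nat_lit 15034421668) (nat_lit 836) (nat_lit 40710063789) (nat_lit 93) (nat_lit 5) (nat_lit 103) (nat_lit 5) (nat_lit 104) (nat_lit 5) (nat_lit 364) (nat_lit 355) (nat_lit 181)))) (XT.nd (nat_lit 78) (nat_lit 608) (nat_lit 0) (XT.lf (nat_lit 76) (nat_lit 22862324117) (nat_lit 0) (nat_lit 1978475451) (nat_lit 836) (nat_lit 52371096006) (nat_lit 94) (nat_lit 5) (nat_lit 93) (nat_lit 5) (nat_lit 104) (nat_lit 5) (nat_lit 365) (nat_lit 355) (nat_lit 180)) (XT.nd (nat_lit 78) (nat_lit 684) (nat_lit 0) (XT.lf (nat_lit 0) (nat_lit 31288582043) (nat_lit 760) (nat_lit 16675825477)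 (nat_lit 76) (nat_lit 31355632041) (nat_lit 94) (nat_lit 5) (nat_lit 104) (nat_lit 5) (nat_lit 95) (nat_lit 5) (nat_lit 366) (nat_lit 355) (nat_lit 179)) (XT.lf (nat_lit 0) (nat_lit 23604009573) (nat_lit 684) (nat_lit 14854989719) (nat_lit 760) (nat_lit 43054580169) (nat_lit 85) (nat_lit 5) (nat_lit 94) (nat_lit 5) (nat_lit 95) (nat_lit 5) (nat_lit 367) (nat_lit 355) (nat_lit 178))))))))
noncomputable def xc224 : XT := (XT.nd (nat_lit 1716) (nat_lit 1748) (nat_lit 0) (XT.nd (nat_lit 858) (nat_lit 1520) (nat_lit 0) (XT.nd (nat_lit 390) (nat_lit 988) (nat_lit 0) (XT.nd (nat_lit 156) (nat_lit 304) (nat_lit 0) (XT.nd (nat_lit 78) (nat_lit 380) (nat_lit 0) (XT.lf (nat_lit 0) (nat_lit 46585141565) (nat_lit 760) (nat_lit 17642037284) (nat_lit 76) (nat_lit 19559758247) (nat_lit 85) (nat_lit 5) (nat_lit 95) (nat_lit 5) (nat_lit 86) (nat_lit 5) (nat_lit 368) (nat_lit 355) (nat_lit 177)) (XT.lf (nat_lit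 0) (nat_lit 25201312706) (nat_lit 380) (nat_lit 30552610492) (nat_lit 456) (nat_lit 30388223705) (nat_lit 80) (nat_lit 5) (nat_lit 85) (nat_lit 5) (nat_lit 86) (nat_lit 5) (nat_lit 369) (nat_lit 355) (nat_lit 176))) (XT.nd (nat_lit 78) (nat_lit 304) (nat_lit 0) (XT.lf (nat_lit 0) (nat_lit 65759214881) (nat_lit 456) (nat_lit 17881441381) (nat_lit 76) (nat_lit 4955558251) (nat_lit 80) (nat_lit 5) (nat_lit 86) (nat_lit 5) (nat_lit 81) (nat_lit 5) (nat_lit 370) (nat_lit 355) (nat_lit 175)) (XT.nd (nat_lit 78) (nat_lit 0) (nat_lit 0) (XT.lf (nat_lit 0) (nat_lit 27716535416) (nat_lit 304) (nat_lit 49481227490) (nat_lit 380) (nat_lit 13928573829) (nat_lit 76) (nat_lit 5) (nat_lit 80) (nat_lit 5) (nat_lit 81) (nat_lit 5) (nat_lit 371) (nat_lit 355) (nat_lit 174)) (XT.lf (nat_lit 0) (nat_lit 76214598990) (nat_lit 304) (nat_lit 13295885835) (nat_lit 380) (nat_lit 4257368699) (nat_lit 76) (nat_lit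 5) (nat_lit 80) (nat_lit 5) (nat_lit 81) (nat_lit 5) (nat_lit 372) (nat_lit 355) (nat_lit 173))))) (XT.nd (nat_lit 234) (nat_lit 304) (nat_lit 0) (XT.nd (nat_lit 78) (nat_lit 304) (nat_lit 0) (XT.lf (nat_lit 0) (nat_lit 6595258254) (nat_lit 380) (nat_lit 65395441718) (nat_lit 76) (nat_lit 24501812388) (nat_lit 71) (nat_lit 5) (nat_lit 76) (nat_lit 5) (nat_lit 72) (nat_lit 5) (nat_lit 373) (nat_lit 355) (nat_lit 172)) (XT.nd (nat_lit 78) (nat_lit 304) (nat_lit 0) (XT.lf (nat_lit 0) (nat_lit 18367003128) (nat_lit 380) (nat_lit 16842473727) (nat_lit 76) (nat_lit 64114460208) (nat_lit 71) (nat_lit 5) (nat_lit 76) (nat_lit 5) (nat_lit 72) (nat_lit 5) (nat_lit 374) (nat_lit 355) (nat_lit 171)) (XT.lf (nat_lit 0) (nat_lit 31339695083) (nat_lit 380) (nat_lit 67065416211) (nat_lit 76) (nat_lit 3861204357) (nat_lit 67) (nat_lit 5) (nat_lit 72) (nat_lit 5) (nat_lit 68) (nat_lit 5) (nat_lit 375) (nat_lit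 355) (nat_lit 170)))) (XT.nd (nat_lit 78) (nat_lit 304) (nat_lit 0) (XT.lf (nat_lit 0) (nat_lit 45827628934) (nat_lit 380) (nat_lit 15492866630) (nat_lit 76) (nat_lit 43991987852) (nat_lit 67) (nat_lit 5) (nat_lit 72) (nat_lit 5) (nat_lit 68) (nat_lit 5) (nat_lit 376) (nat_lit 355) (nat_lit 169)) (XT.nd (nat_lit 78) (nat_lit 0) (nat_lit 0) (XT.lf (nat_lit 0) (nat_lit 39935929947) (nat_lit 304) (nat_lit 21727056864) (nat_lit 380) (nat_lit 46816821971) (nat_lit 63) (nat_lit 5) (nat_lit 67) (nat_lit 5) (nat_lit 68) (nat_lit 5) (nat_lit 377) (nat_lit 355) (nat_lit 168)) (XT.lf (nat_lit 0) (nat_lit 78866173745) (nat_lit 380) (nat_lit 13433084380) (nat_lit 76) (nat_lit 19477439790) (nat_lit 63) (nat_lit 5) (nat_lit 68) (nat_lit 5) (nat_lit 64) (nat_lit 5) (nat_lit 378) (nat_lit 355) (nat_lit 167)))))) (XT.nd (nat_lit 390) (nat_lit 684) (nat_lit 0) (XT.nd (nat_lit 156) (nat_lit 608) (nat_lit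 0) (XT.nd (nat_lit 78) (nat_lit 0) (nat_lit 0) (XT.lf (nat_lit 0) (nat_lit 45533872239) (nat_lit 228) (nat_lit 52462291021) (nat_lit 304) (nat_lit 17188936609) (nat_lit 60) (nat_lit 5) (nat_lit 63) (nat_lit 5) (nat_lit 64) (nat_lit 5) (nat_lit 379) (nat_lit 355) (nat_lit 166)) (XT.lf (nat_lit 0) (nat_lit 107914987578) (nat_lit 228) (nat_lit 10394723806) (nat_lit 304) (nat_lit 442858086) (nat_lit 60) (nat_lit 5) (nat_lit 63) (nat_lit 5) (nat_lit 64) (nat_lit 5) (nat_lit 380) (nat_lit 355) (nat_lit 165))) (XT.nd (nat_lit 78) (nat_lit 228) (nat_lit 0) (XT.lf (nat_lit 0) (nat_lit 17953528846) (nat_lit 380) (nat_lit 70666064431) (nat_lit 76) (nat_lit 33797358731) (nat_lit 55) (nat_lit 5) (nat_lit 60) (nat_lit 5) (nat_lit 56) (nat_lit 5) (nat_lit 381) (nat_lit 355) (nat_lit 164)) (XT.nd (nat_lit 78) (nat_lit 228) (nat_lit 0) (XT.lf (nat_lit 0) (nat_lit 37611392775) (nat_lit 380) (nat_lit 8591567696)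 (nat_lit 76) (nat_lit 80043403611) (nat_lit 55) (nat_lit 5) (nat_lit 60) (nat_lit 5) (nat_lit 56) (nat_lit 5) (nat_lit 382) (nat_lit 355) (nat_lit 163)) (XT.lf (nat_lit 0) (nat_lit 58457119361) (nat_lit 228) (nat_lit 707316411) (nat_lit 304) (nat_lit 71057197106) (nat_lit 52) (nat_lit 5) (nat_lit 55) (nat_lit 5) (nat_lit 56) (nat_lit 5) (nat_lit 383) (nat_lit 355) (nat_lit 162))))) (XT.nd (nat_lit 234) (nat_lit 456) (nat_lit 0) (XT.nd (nat_lit 78) (nat_lit 228) (nat_lit 0) (XT.lf (nat_lit 0) (nat_lit 82677420533) (nat_lit 304) (nat_lit 5969578037) (nat_lit 76) (nat_lit 45704552459) (nat_lit 52) (nat_lit 5) (nat_lit 56) (nat_lit 5) (nat_lit 53) (nat_lit 5) (nat_lit 384) (nat_lit 355) (nat_lit 161)) (XT.nd (nat_lit 78) (nat_lit 0) (nat_lit 0) (XT.lf (nat_lit 0) (nat_lit 65189468187) (nat_lit 228) (nat_lit 43205605256) (nat_lit 304) (nat_lit 30241441074) (nat_lit 49) (nat_lit 5) (nat_lit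 52) (nat_lit 5) (nat_lit 53) (nat_lit 5) (nat_lit 385) (nat_lit 355) (nat_lit 160)) (XT.lf (nat_lit 0) (nat_lit 135571384938) (nat_lit 304) (nat_lit 3089510416) (nat_lit 76) (nat_lit 4466192384) (nat_lit 49) (nat_lit 5) (nat_lit 53) (nat_lit 5) (nat_lit 50) (nat_lit 5) (nat_lit 386) (nat_lit 355) (nat_lit 159)))) (XT.nd (nat_lit 78) (nat_lit 228) (nat_lit 0) (XT.lf (nat_lit 0) (nat_lit 17612119428) (nat_lit 228) (nat_lit 75640159332) (nat_lit 76) (nat_lit 54483796757) (nat_lit 46) (nat_lit 5) (nat_lit 49) (nat_lit 5) (nat_lit 47) (nat_lit 5) (nat_lit 387) (nat_lit 355) (nat_lit 158)) (XT.nd (nat_lit 78) (nat_lit 228) (nat_lit 0) (XT.lf (nat_lit 0) (nat_lit 43837252368) (nat_lit 228) (nat_lit 1550240705) (nat_lit 76) (nat_lit 107179184683) (nat_lit 46) (nat_lit 5) (nat_lit 49) (nat_lit 5) (nat_lit 47) (nat_lit 5) (nat_lit 388) (nat_lit 355) (nat_lit 157)) (XT.lf (nat_lit 0) (nat_lit 72699255802)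 (nat_lit 304) (nat_lit 78908878400) (nat_lit 76) (nat_lit 5964395507) (nat_lit 43) (nat_lit 5) (nat_lit 47) (nat_lit 5) (nat_lit 44) (nat_lit 5) (nat_lit 389) (nat_lit 355) (nat_lit 156))))))) (XT.nd (nat_lit 858) (nat_lit 836) (nat_lit 0) (XT.nd (nat_lit 390) (nat_lit 532) (nat_lit 0) (XT.nd (nat_lit 156) (nat_lit 228) (nat_lit 0) (XT.nd (nat_lit 78) (nat_lit 152) (nat_lit 0) (XT.lf (nat_lit 0) (nat_lit 103774783718) (nat_lit 304) (nat_lit 630270143) (nat_lit 76) (nat_lit 58385099462) (nat_lit 43) (nat_lit 5) (nat_lit 47) (nat_lit 5) (nat_lit 44) (nat_lit 5) (nat_lit 390) (nat_lit 355) (nat_lit 155)) (XT.lf (nat_lit 0) (nat_lit 84258613496) (nat_lit 152) (nat_lit 53460685316) (nat_lit 228) (nat_lit 30483599035) (nat_lit 41) (nat_lit 5) (nat_lit 43) (nat_lit 5) (nat_lit 44) (nat_lit 5) (nat_lit 391) (nat_lit 355) (nat_lit 154))) (XT.nd (nat_lit 78) (nat_lit 228) (nat_lit 0) (XT.lf (nat_lit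 0) (nat_lit 173372073692) (nat_lit 228) (nat_lit 473042556) (nat_lit 76) (nat_lit 40611901) (nat_lit 41) (nat_lit 5) (nat_lit 44) (nat_lit 5) (nat_lit 42) (nat_lit 5) (nat_lit 392) (nat_lit 355) (nat_lit 153)) (XT.nd (nat_lit 78) (nat_lit 0) (nat_lit 0) (XT.lf (nat_lit 0) (nat_lit 32269195506) (nat_lit 228) (nat_lit 91111556123) (nat_lit 76) (nat_lit 56332526285) (nat_lit 38) (nat_lit 5) (nat_lit 41) (nat_lit 5) (nat_lit 39) (nat_lit 5) (nat_lit 393) (nat_lit 355) (nat_lit 152)) (XT.lf (nat_lit 0) (nat_lit 66681787130) (nat_lit 228) (nat_lit 3694151679) (nat_lit 76) (nat_lit 115455452483) (nat_lit 38) (nat_lit 5) (nat_lit 41) (nat_lit 5) (nat_lit 39) (nat_lit 5) (nat_lit 394) (nat_lit 355) (nat_lit 151))))) (XT.nd (nat_lit 234) (nat_lit 228) (nat_lit 0) (XT.nd (nat_lit 78) (nat_lit 152) (nat_lit 0) (XT.lf (nat_lit 0) (nat_lit 91006477173) (nat_lit 152) (nat_lit 13229129494) (nat_lit 228)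 (nat_lit 87948773966) (nat_lit 36) (nat_lit 5) (nat_lit 38) (nat_lit 5) (nat_lit 39) (nat_lit 5) (nat_lit 395) (nat_lit 355) (nat_lit 150)) (XT.nd (nat_lit 78) (nat_lit 152) (nat_lit 0) (XT.lf (nat_lit 0) (nat_lit 144460730257) (nat_lit 228) (nat_lit 9013241537) (nat_lit 76) (nat_lit 45341367190) (nat_lit 36) (nat_lit 5) (nat_lit 39) (nat_lit 5) (nat_lit 37) (nat_lit 5) (nat_lit 396) (nat_lit 355) (nat_lit 149)) (XT.lf (nat_lit 0) (nat_lit 90436923594) (nat_lit 152) (nat_lit 97888779867) (nat_lit 228) (nat_lit 17370712310) (nat_lit 34) (nat_lit 5) (nat_lit 36) (nat_lit 5) (nat_lit 37) (nat_lit 5) (nat_lit 397) (nat_lit 355) (nat_lit 148)))) (XT.nd (nat_lit 78) (nat_lit 152) (nat_lit 0) (XT.lf (nat_lit 0) (nat_lit 20930344905) (nat_lit 228) (nat_lit 18079395231) (nat_lit 76) (nat_lit 173887307234) (nat_lit 33) (nat_lit 5) (nat_lit 36) (nat_lit 5) (nat_lit 34) (nat_lit 5) (nat_lit 398) (nat_lit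 355) (nat_lit 147)) (XT.nd (nat_lit 78) (nat_lit 0) (nat_lit 0) (XT.lf (nat_lit 0) (nat_lit 62295005944) (nat_lit 228) (nat_lit 134317762371) (nat_lit 76) (nat_lit 23744088068) (nat_lit 31) (nat_lit 5) (nat_lit 34) (nat_lit 5) (nat_lit 32) (nat_lit 5) (nat_lit 399) (nat_lit 355) (nat_lit 146)) (XT.lf (nat_lit 0) (nat_lit 106678371797) (nat_lit 228) (nat_lit 32828077488) (nat_lit 76) (nat_lit 88635683129) (nat_lit 31) (nat_lit 5) (nat_lit 34) (nat_lit 5) (nat_lit 32) (nat_lit 5) (nat_lit 400) (nat_lit 355) (nat_lit 145)))))) (XT.nd (nat_lit 468) (nat_lit 380) (nat_lit 0) (XT.nd (nat_lit 234) (nat_lit 152) (nat_lit 0) (XT.nd (nat_lit 78) (nat_lit 152) (nat_lit 0) (XT.lf (nat_lit 0) (nat_lit 76173755170) (nat_lit 152) (nat_lit 78296212875) (nat_lit 228) (nat_lit 81787251245) (nat_lit 29) (nat_lit 5) (nat_lit 31) (nat_lit 5) (nat_lit 32) (nat_lit 5) (nat_lit 401) (nat_lit 355) (nat_lit 144))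 (XT.nd (nat_lit 78) (nat_lit 152) (nat_lit 0) (XT.lf (nat_lit 0) (nat_lit 191765029839) (nat_lit 152) (nat_lit 13441854881) (nat_lit 228) (nat_lit 39543388900) (nat_lit 29) (nat_lit 5) (nat_lit 31) (nat_lit 5) (nat_lit 32) (nat_lit 5) (nat_lit 402) (nat_lit 355) (nat_lit 143)) (XT.lf (nat_lit 0) (nat_lit 6486615773) (nat_lit 152) (nat_lit 193130418973) (nat_lit 76) (nat_lit 53955789859) (nat_lit 27) (nat_lit 5) (nat_lit 29) (nat_lit 5) (nat_lit 28) (nat_lit 5) (nat_lit 403) (nat_lit 355) (nat_lit 142)))) (XT.nd (nat_lit 78) (nat_lit 152) (nat_lit 0) (XT.lf (nat_lit 0) (nat_lit 54621393369) (nat_lit 152) (nat_lit 82294350501) (nat_lit 76) (nat_lit 125831737285) (nat_lit 27) (nat_lit 5) (nat_lit 29) (nat_lit 5) (nat_lit 28) (nat_lit 5) (nat_lit 404) (nat_lit 355) (nat_lit 141)) (XT.nd (nat_lit 78) (nat_lit 0) (nat_lit 0) (XT.lf (nat_lit 0) (nat_lit 35210123775) (nat_lit 152) (nat_lit 70502315251)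 (nat_lit 228) (nat_lit 166640955163) (nat_lit 25) (nat_lit 5) (nat_lit 27) (nat_lit 5) (nat_lit 28) (nat_lit 5) (nat_lit 405) (nat_lit 355) (nat_lit 140)) (XT.lf (nat_lit 0) (nat_lit 160762387609) (nat_lit 228) (nat_lit 120934219454) (nat_lit 76) (nat_lit 672778391) (nat_lit 25) (nat_lit 5) (nat_lit 28) (nat_lit 5) (nat_lit 26) (nat_lit 4) (nat_lit 406) (nat_lit 355) (nat_lit 139))))) (XT.nd (nat_lit 234) (nat_lit 228) (nat_lit 0) (XT.nd (nat_lit 78) (nat_lit 152) (nat_lit 0) (XT.lf (nat_lit 0) (nat_lit 219720421217) (nat_lit 228) (nat_lit 70818882) (nat_lit 76) (nat_lit 73037156909) (nat_lit 25) (nat_lit 5) (nat_lit 28) (nat_lit 5) (nat_lit 26) (nat_lit 4) (nat_lit 407) (nat_lit 355) (nat_lit 138)) (XT.nd (nat_lit 78) (nat_lit 76) (nat_lit 0) (XT.lf (nat_lit 0) (nat_lit 131029192478) (nat_lit 76) (nat_lit 152642717822) (nat_lit 152) (nat_lit 20036171251) (nat_lit 24) (nat_lit 5) (nat_lit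 25) (nat_lit 5) (nat_lit 26) (nat_lit 4) (nat_lit 408) (nat_lit 355) (nat_lit 137)) (XT.lf (nat_lit 0) (nat_lit 34547986160) (nat_lit 152) (nat_lit 47002568386) (nat_lit 76) (nat_lit 233553283392) (nat_lit 23) (nat_lit 5) (nat_lit 25) (nat_lit 5) (nat_lit 24) (nat_lit 5) (nat_lit 409) (nat_lit 355) (nat_lit 136)))) (XT.nd (nat_lit 78) (nat_lit 76) (nat_lit 0) (XT.lf (nat_lit 0) (nat_lit 87427019359) (nat_lit 152) (nat_lit 5125796288) (nat_lit 228) (nat_lit 234431902945) (nat_lit 21) (nat_lit 5) (nat_lit 23) (nat_lit 5) (nat_lit 24) (nat_lit 5) (nat_lit 410) (nat_lit 355) (nat_lit 135)) (XT.nd (nat_lit 78) (nat_lit 76) (nat_lit 0) (XT.lf (nat_lit 0) (nat_lit 155439615752) (nat_lit 228) (nat_lit 110396118779) (nat_lit 76) (nat_lit 73524822374) (nat_lit 21) (nat_lit 5) (nat_lit 24) (nat_lit 5) (nat_lit 22) (nat_lit 4) (nat_lit 411) (nat_lit 355) (nat_lit 134)) (XT.lf (nat_lit 0) (nat_lit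 25970442471) (nat_lit 76) (nat_lit 195989653935) (nat_lit 152) (nat_lit 130370623779) (nat_lit 20) (nat_lit 5) (nat_lit 21) (nat_lit 5) (nat_lit 22) (nat_lit 4) (nat_lit 412) (nat_lit 355) (nat_lit 133))))))))
noncomputable def xc225 : XT := (XT.nd (nat_lit 43446) (nat_lit 0) (nat_lit 2128) (XT.nd (nat_lit 42510) (nat_lit 0) (nat_lit 5320) (XT.nd (nat_lit 390) (nat_lit 228) (nat_lit 0) (XT.nd (nat_lit 156) (nat_lit 152) (nat_lit 0) (XT.nd (nat_lit 78) (nat_lit 0) (nat_lit 0) (XT.lf (nat_lit 0) (nat_lit 172987755218) (nat_lit 76) (nat_lit 120688300527) (nat_lit 152) (nat_lit 72179863227) (nat_lit 20) (nat_lit 5) (nat_lit 21) (nat_lit 5) (nat_lit 22) (nat_lit 4) (nat_lit 413) (nat_lit 355) (nat_lit 132)) (XT.lf (nat_lit 0) (nat_lit 327355666434) (nat_lit 76) (nat_lit 41621997057) (nat_lit 152) (nat_lit 11079721756) (nat_lit 20) (nat_lit 5) (nat_lit 21) (nat_lit 5) (nat_lit 22) (nat_lit 4)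 (nat_lit 414) (nat_lit 355) (nat_lit 131))) (XT.nd (nat_lit 78) (nat_lit 0) (nat_lit 0) (XT.lf (nat_lit 0) (nat_lit 53571602178) (nat_lit 152) (nat_lit 298796225125) (nat_lit 76) (nat_lit 42449918765) (nat_lit 18) (nat_lit 5) (nat_lit 20) (nat_lit 5) (nat_lit 19) (nat_lit 4) (nat_lit 415) (nat_lit 355) (nat_lit 130)) (XT.nd (nat_lit 78) (nat_lit 0) (nat_lit 0) (XT.lf (nat_lit 0) (nat_lit 122672485867) (nat_lit 152) (nat_lit 157139745849) (nat_lit 76) (nat_lit 130415344293) (nat_lit 18) (nat_lit 5) (nat_lit 20) (nat_lit 5) (nat_lit 19) (nat_lit 4) (nat_lit 416) (nat_lit 355) (nat_lit 129)) (XT.lf (nat_lit 0) (nat_lit 195228276891) (nat_lit 152) (nat_lit 8400690714) (nat_lit 76) (nat_lit 222778936744) (nat_lit 18) (nat_lit 5) (nat_lit 20) (nat_lit 5) (nat_lit 19) (nat_lit 4) (nat_lit 417) (nat_lit 355) (nat_lit 128))))) (XT.nd (nat_lit 234) (nat_lit 76) (nat_lit 0) (XT.nd (nat_lit 78) (nat_lit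 76) (nat_lit 0) (XT.lf (nat_lit 0) (nat_lit 152661192433) (nat_lit 76) (nat_lit 121134003746) (nat_lit 152) (nat_lit 169482886046) (nat_lit 17) (nat_lit 5) (nat_lit 18) (nat_lit 5) (nat_lit 19) (nat_lit 4) (nat_lit 418) (nat_lit 355) (nat_lit 127)) (XT.nd (nat_lit 78) (nat_lit 76) (nat_lit 0) (XT.lf (nat_lit 0) (nat_lit 322067590271) (nat_lit 76) (nat_lit 34365013166) (nat_lit 152) (nat_lit 104552058511) (nat_lit 17) (nat_lit 5) (nat_lit 18) (nat_lit 5) (nat_lit 19) (nat_lit 4) (nat_lit 419) (nat_lit 355) (nat_lit 126)) (XT.lf (nat_lit 0) (nat_lit 20125752830) (nat_lit 76) (nat_lit 424276132709) (nat_lit 76) (nat_lit 35114684946) (nat_lit 16) (nat_lit 4) (nat_lit 17) (nat_lit 5) (nat_lit 17) (nat_lit 4) (nat_lit 420) (nat_lit 355) (nat_lit 125)))) (XT.nd (nat_lit 78) (nat_lit 0) (nat_lit 0) (XT.lf (nat_lit 0) (nat_lit 39539328937) (nat_lit 152) (nat_lit 308106071397) (nat_lit 76) (nat_lit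 151152448536) (nat_lit 15) (nat_lit 5) (nat_lit 17) (nat_lit 5) (nat_lit 16) (nat_lit 4) (nat_lit 421) (nat_lit 355) (nat_lit 124)) (XT.nd (nat_lit 41730) (nat_lit 0) (nat_lit 6460) (XT.lf (nat_lit 0) (nat_lit 116745842831) (nat_lit 152) (nat_lit 149832954065) (nat_lit 76) (nat_lit 252435617646) (nat_lit 15) (nat_lit 5) (nat_lit 17) (nat_lit 5) (nat_lit 16) (nat_lit 4) (nat_lit 422) (nat_lit 355) (nat_lit 123)) (XT.lf (nat_lit 0) (nat_lit 15359194897) (nat_lit 0) (nat_lit 15359194897) (nat_lit 684) (nat_lit 647604597) (nat_lit 100) (nat_lit 5) (nat_lit 100) (nat_lit 3) (nat_lit 109) (nat_lit 3) (nat_lit 356) (nat_lit 356) (nat_lit 188)))))) (XT.nd (nat_lit 468) (nat_lit 380) (nat_lit 0) (XT.nd (nat_lit 234) (nat_lit 0) (nat_lit 76) (XT.nd (nat_lit 78) (nat_lit 760) (nat_lit 0) (XT.lf (nat_lit 0) (nat_lit 61377561011) (nat_lit 0) (nat_lit 1610829738) (nat_lit 684) (nat_lit 1311089034) (nat_lit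 100) (nat_lit 5) (nat_lit 100) (nat_lit 3) (nat_lit 109) (nat_lit 3) (nat_lit 357) (nat_lit 356) (nat_lit 187)) (XT.nd (nat_lit 78) (nat_lit 760) (nat_lit 0) (XT.lf (nat_lit 76) (nat_lit 28070181163) (nat_lit 0) (nat_lit 37436682428) (nat_lit 760) (nat_lit 394019232) (nat_lit 101) (nat_lit 5) (nat_lit 100) (nat_lit 5) (nat_lit 110) (nat_lit 5) (nat_lit 358) (nat_lit 356) (nat_lit 186)) (XT.lf (nat_lit 0) (nat_lit 626423025) (nat_lit 760) (nat_lit 6903240154) (nat_lit 836) (nat_lit 60048463756) (nat_lit 90) (nat_lit 5) (nat_lit 100) (nat_lit 5) (nat_lit 101) (nat_lit 5) (nat_lit 359) (nat_lit 356) (nat_lit 185)))) (XT.nd (nat_lit 78) (nat_lit 0) (nat_lit 0) (XT.lf (nat_lit 0) (nat_lit 2475623824) (nat_lit 760) (nat_lit 43289109162) (nat_lit 836) (nat_lit 23534629730) (nat_lit 91) (nat_lit 5) (nat_lit 101) (nat_lit 5) (nat_lit 102) (nat_lit 5) (nat_lit 360) (nat_lit 356) (nat_lit 184)) (XT.nd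 (nat_lit 78) (nat_lit 0) (nat_lit 76) (XT.lf (nat_lit 0) (nat_lit 4658660530) (nat_lit 760) (nat_lit 10417682354) (nat_lit 836) (nat_lit 56018249879) (nat_lit 91) (nat_lit 5) (nat_lit 101) (nat_lit 5) (nat_lit 102) (nat_lit 5) (nat_lit 361) (nat_lit 356) (nat_lit 183)) (XT.lf (nat_lit 0) (nat_lit 7612741081) (nat_lit 760) (nat_lit 48340784210) (nat_lit 836) (nat_lit 16992965633) (nat_lit 92) (nat_lit 5) (nat_lit 102) (nat_lit 5) (nat_lit 103) (nat_lit 5) (nat_lit 362) (nat_lit 356) (nat_lit 182))))) (XT.nd (nat_lit 234) (nat_lit 532) (nat_lit 0) (XT.nd (nat_lit 78) (nat_lit 0) (nat_lit 76) (XT.lf (nat_lit 0) (nat_lit 11140189724) (nat_lit 760) (nat_lit 13390873036) (nat_lit 836) (nat_lit 50338639183) (nat_lit 92) (nat_lit 5) (nat_lit 102) (nat_lit 5) (nat_lit 103) (nat_lit 5) (nat_lit 363) (nat_lit 356) (nat_lit 181)) (XT.nd (nat_lit 78) (nat_lit 0) (nat_lit 0) (XT.lf (nat_lit 0) (nat_lit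 15357431013) (nat_lit 760) (nat_lit 52932052985) (nat_lit 836) (nat_lit 8573919602) (nat_lit 93) (nat_lit 5) (nat_lit 103) (nat_lit 5) (nat_lit 104) (nat_lit 5) (nat_lit 364) (nat_lit 356) (nat_lit 180)) (XT.lf (nat_lit 0) (nat_lit 20417440802) (nat_lit 760) (nat_lit 15767342528) (nat_lit 836) (nat_lit 42740412733) (nat_lit 93) (nat_lit 5) (nat_lit 103) (nat_lit 5) (nat_lit 104) (nat_lit 5) (nat_lit 365) (nat_lit 356) (nat_lit 179)))) (XT.nd (nat_lit 78) (nat_lit 608) (nat_lit 0) (XT.lf (nat_lit 76) (nat_lit 24023937317) (nat_lit 0) (nat_lit 2080889258) (nat_lit 836) (nat_lit 54966533796) (nat_lit 94) (nat_lit 5) (nat_lit 93) (nat_lit 5) (nat_lit 104) (nat_lit 5) (nat_lit 366) (nat_lit 356) (nat_lit 178)) (XT.nd (nat_lit 78) (nat_lit 684) (nat_lit 0) (XT.lf (nat_lit 0) (nat_lit 32873899277) (nat_lit 760) (nat_lit 17490872498) (nat_lit 76) (nat_lit 32920196185) (nat_lit 94) (nat_lit 5)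 (nat_lit 104) (nat_lit 5) (nat_lit 95) (nat_lit 5) (nat_lit 367) (nat_lit 356) (nat_lit 177)) (XT.lf (nat_lit 0) (nat_lit 24802651977) (nat_lit 684) (nat_lit 15599478668) (nat_lit 760) (nat_lit 45186090936) (nat_lit 85) (nat_lit 5) (nat_lit 94) (nat_lit 5) (nat_lit 95) (nat_lit 5) (nat_lit 368) (nat_lit 356) (nat_lit 176))))))) (XT.nd (nat_lit 858) (nat_lit 1520) (nat_lit 0) (XT.nd (nat_lit 390) (nat_lit 988) (nat_lit 0) (XT.nd (nat_lit 156) (nat_lit 304) (nat_lit 0) (XT.nd (nat_lit 78) (nat_lit 380) (nat_lit 0) (XT.lf (nat_lit 0) (nat_lit 48933593149) (nat_lit 760) (nat_lit 18505562066) (nat_lit 76) (nat_lit 20536142550) (nat_lit 85) (nat_lit 5) (nat_lit 95) (nat_lit 5) (nat_lit 86) (nat_lit 5) (nat_lit 369) (nat_lit 356) (nat_lit 175)) (XT.lf (nat_lit 0) (nat_lit 26479655793) (nat_lit 380) (nat_lit 32080529410) (nat_lit 456) (nat_lit 31888115554) (nat_lit 80) (nat_lit 5) (nat_lit 85)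 (nat_lit 5) (nat_lit 86) (nat_lit 5) (nat_lit 370) (nat_lit 356) (nat_lit 174))) (XT.nd (nat_lit 78) (nat_lit 304) (nat_lit 0) (XT.lf (nat_lit 0) (nat_lit 69064853093) (nat_lit 456) (nat_lit 18757193978) (nat_lit 76) (nat_lit 5203070295) (nat_lit 80) (nat_lit 5) (nat_lit 86) (nat_lit 5) (nat_lit 81) (nat_lit 5) (nat_lit 371) (nat_lit 356) (nat_lit 173)) (XT.nd (nat_lit 78) (nat_lit 0) (nat_lit 0) (XT.lf (nat_lit 0) (nat_lit 29120386184) (nat_lit 304) (nat_lit 51954381957) (nat_lit 380) (nat_lit 14607006720) (nat_lit 76) (nat_lit 5) (nat_lit 80) (nat_lit 5) (nat_lit 81) (nat_lit 5) (nat_lit 372) (nat_lit 356) (nat_lit 172)) (XT.lf (nat_lit 0) (nat_lit 80042494650) (nat_lit 304) (nat_lit 13959816406) (nat_lit 380) (nat_lit 4453098276) (nat_lit 76) (nat_lit 5) (nat_lit 80) (nat_lit 5) (nat_lit 81) (nat_lit 5) (nat_lit 373) (nat_lit 356) (nat_lit 171))))) (XT.nd (nat_lit 234) (nat_lit 304)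 (nat_lit 0) (XT.nd (nat_lit 78) (nat_lit 304) (nat_lit 0) (XT.lf (nat_lit 0) (nat_lit 6941115373) (nat_lit 380) (nat_lit 68646962965) (nat_lit 76) (nat_lit 25728235186) (nat_lit 71) (nat_lit 5) (nat_lit 76) (nat_lit 5) (nat_lit 72) (nat_lit 5) (nat_lit 374) (nat_lit 356) (nat_lit 170)) (XT.nd (nat_lit 78) (nat_lit 304) (nat_lit 0) (XT.lf (nat_lit 0) (nat_lit 19300681100) (nat_lit 380) (nat_lit 17667215662) (nat_lit 76) (nat_lit 67321451960) (nat_lit 71) (nat_lit 5) (nat_lit 76) (nat_lit 5) (nat_lit 72) (nat_lit 5) (nat_lit 375) (nat_lit 356) (nat_lit 169)) (XT.lf (nat_lit 0) (nat_lit 32921579675) (nat_lit 380) (nat_lit 70400859384) (nat_lit 76) (nat_lit 4056429474) (nat_lit 67) (nat_lit 5) (nat_lit 72) (nat_lit 5) (nat_lit 68) (nat_lit 5) (nat_lit 376) (nat_lit 356) (nat_lit 168)))) (XT.nd (nat_lit 78) (nat_lit 304) (nat_lit 0) (XT.lf (nat_lit 0) (nat_lit 48133200702) (nat_lit 380) (nat_lit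 16250531259) (nat_lit 76) (nat_lit 46193649053) (nat_lit 67) (nat_lit 5) (nat_lit 72) (nat_lit 5) (nat_lit 68) (nat_lit 5) (nat_lit 377) (nat_lit 356) (nat_lit 167)) (XT.nd (nat_lit 78) (nat_lit 0) (nat_lit 0) (XT.lf (nat_lit 0) (nat_lit 41949431297) (nat_lit 304) (nat_lit 22810480257) (nat_lit 380) (nat_lit 49143182654) (nat_lit 63) (nat_lit 5) (nat_lit 67) (nat_lit 5) (nat_lit 68) (nat_lit 5) (nat_lit 378) (nat_lit 356) (nat_lit 166)) (XT.lf (nat_lit 0) (nat_lit 82822645422) (nat_lit 380) (nat_lit 14088201332) (nat_lit 76) (nat_lit 20454012436) (nat_lit 63) (nat_lit 5) (nat_lit 68) (nat_lit 5) (nat_lit 64) (nat_lit 5) (nat_lit 379) (nat_lit 356) (nat_lit 165)))))) (XT.nd (nat_lit 468) (nat_lit 684) (nat_lit 0) (XT.nd (nat_lit 234) (nat_lit 228) (nat_lit 0) (XT.nd (nat_lit 78) (nat_lit 380) (nat_lit 0) (XT.lf (nat_lit 0) (nat_lit 47826836387) (nat_lit 228) (nat_lit 55081925245) (nat_lit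 304) (nat_lit 18034938987) (nat_lit 60) (nat_lit 5) (nat_lit 63) (nat_lit 5) (nat_lit 64) (nat_lit 5) (nat_lit 380) (nat_lit 356) (nat_lit 164)) (XT.nd (nat_lit 78) (nat_lit 380) (nat_lit 0) (XT.lf (nat_lit 0) (nat_lit 113326232706) (nat_lit 228) (nat_lit 10911145399) (nat_lit 304) (nat_lit 452196749) (nat_lit 60) (nat_lit 5) (nat_lit 63) (nat_lit 5) (nat_lit 64) (nat_lit 5) (nat_lit 381) (nat_lit 356) (nat_lit 163)) (XT.lf (nat_lit 0) (nat_lit 18863310449) (nat_lit 380) (nat_lit 74183146732) (nat_lit 76) (nat_lit 35490724442) (nat_lit 55) (nat_lit 5) (nat_lit 60) (nat_lit 5) (nat_lit 56) (nat_lit 5) (nat_lit 382) (nat_lit 356) (nat_lit 162)))) (XT.nd (nat_lit 78) (nat_lit 228) (nat_lit 0) (XT.lf (nat_lit 0) (nat_lit 39503491138) (nat_lit 380) (nat_lit 9005697585) (nat_lit 76) (nat_lit 84048905005) (nat_lit 55) (nat_lit 5) (nat_lit 60) (nat_lit 5) (nat_lit 56) (nat_lit 5) (nat_lit 383)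 (nat_lit 356) (nat_lit 161)) (XT.nd (nat_lit 78) (nat_lit 0) (nat_lit 0) (XT.lf (nat_lit 0) (nat_lit 61395174655) (nat_lit 228) (nat_lit 738699947) (nat_lit 304) (nat_lit 74598267523) (nat_lit 52) (nat_lit 5) (nat_lit 55) (nat_lit 5) (nat_lit 56) (nat_lit 5) (nat_lit 384) (nat_lit 356) (nat_lit 160)) (XT.lf (nat_lit 0) (nat_lit 86822033670) (nat_lit 304) (nat_lit 6253095464) (nat_lit 76) (nat_lit 47993451346) (nat_lit 52) (nat_lit 5) (nat_lit 56) (nat_lit 5) (nat_lit 53) (nat_lit 5) (nat_lit 385) (nat_lit 356) (nat_lit 159))))) (XT.nd (nat_lit 234) (nat_lit 228) (nat_lit 0) (XT.nd (nat_lit 78) (nat_lit 228) (nat_lit 0) (XT.lf (nat_lit 0) (nat_lit 68463661756) (nat_lit 228) (nat_lit 45361625763) (nat_lit 304) (nat_lit 31742519231) (nat_lit 49) (nat_lit 5) (nat_lit 52) (nat_lit 5) (nat_lit 53) (nat_lit 5) (nat_lit 386) (nat_lit 356) (nat_lit 158)) (XT.nd (nat_lit 78) (nat_lit 228) (nat_lit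 0) (XT.lf (nat_lit 0) (nat_lit 142359979815) (nat_lit 304) (nat_lit 3229521989) (nat_lit 76) (nat_lit 4693429067) (nat_lit 49) (nat_lit 5) (nat_lit 53) (nat_lit 5) (nat_lit 50) (nat_lit 5) (nat_lit 387) (nat_lit 356) (nat_lit 157)) (XT.lf (nat_lit 0) (nat_lit 18502665163) (nat_lit 228) (nat_lit 79407598942) (nat_lit 76) (nat_lit 57212109154) (nat_lit 46) (nat_lit 5) (nat_lit 49) (nat_lit 5) (nat_lit 47) (nat_lit 5) (nat_lit 388) (nat_lit 356) (nat_lit 156)))) (XT.nd (nat_lit 78) (nat_lit 228) (nat_lit 0) (XT.lf (nat_lit 0) (nat_lit 46038581428) (nat_lit 228) (nat_lit 1613878115) (nat_lit 76) (nat_lit 112542070164) (nat_lit 46) (nat_lit 5) (nat_lit 49) (nat_lit 5) (nat_lit 47) (nat_lit 5) (nat_lit 389) (nat_lit 356) (nat_lit 155)) (XT.nd (nat_lit 78) (nat_lit 0) (nat_lit 0) (XT.lf (nat_lit 0) (nat_lit 76343516419) (nat_lit 304) (nat_lit 82840270876) (nat_lit 76) (nat_lit 6266895803) (nat_lit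 43) (nat_lit 5) (nat_lit 47) (nat_lit 5) (nat_lit 44) (nat_lit 5) (nat_lit 390) (nat_lit 356) (nat_lit 154)) (XT.lf (nat_lit 0) (nat_lit 108972377977) (nat_lit 304) (nat_lit 648401323) (nat_lit 76) (nat_lit 61308431123) (nat_lit 43) (nat_lit 5) (nat_lit 47) (nat_lit 5) (nat_lit 44) (nat_lit 5) (nat_lit 391) (nat_lit 356) (nat_lit 153))))))))
noncomputable def xc226 : XT := (XT.nd (nat_lit 1794) (nat_lit 380) (nat_lit 0) (XT.nd (nat_lit 858) (nat_lit 684) (nat_lit 0) (XT.nd (nat_lit 390) (nat_lit 532) (nat_lit 0) (XT.nd (nat_lit 156) (nat_lit 380) (nat_lit 0) (XT.nd (nat_lit 78) (nat_lit 0) (nat_lit 0) (XT.lf (nat_lit 0) (nat_lit 88484710654) (nat_lit 152) (nat_lit 56129192067) (nat_lit 228) (nat_lit 31998700628) (nat_lit 41) (nat_lit 5) (nat_lit 43) (nat_lit 5) (nat_lit 44) (nat_lit 5) (nat_lit 392) (nat_lit 356) (nat_lit 152)) (XT.lf (nat_lit 0) (nat_lit 182048972287) (nat_lit 228) (nat_lit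 483804030) (nat_lit 76) (nat_lit 46816407) (nat_lit 41) (nat_lit 5) (nat_lit 44) (nat_lit 5) (nat_lit 42) (nat_lit 5) (nat_lit 393) (nat_lit 356) (nat_lit 151))) (XT.nd (nat_lit 78) (nat_lit 152) (nat_lit 0) (XT.lf (nat_lit 0) (nat_lit 33890892495) (nat_lit 228) (nat_lit 95654172402) (nat_lit 76) (nat_lit 59153458624) (nat_lit 38) (nat_lit 5) (nat_lit 41) (nat_lit 5) (nat_lit 39) (nat_lit 5) (nat_lit 394) (nat_lit 356) (nat_lit 150)) (XT.nd (nat_lit 78) (nat_lit 152) (nat_lit 0) (XT.lf (nat_lit 0) (nat_lit 70023721453) (nat_lit 228) (nat_lit 3866514951) (nat_lit 76) (nat_lit 121232326082) (nat_lit 38) (nat_lit 5) (nat_lit 41) (nat_lit 5) (nat_lit 39) (nat_lit 5) (nat_lit 395) (nat_lit 356) (nat_lit 149)) (XT.lf (nat_lit 0) (nat_lit 95568946242) (nat_lit 152) (nat_lit 13886101775) (nat_lit 228) (nat_lit 92338162766) (nat_lit 36) (nat_lit 5) (nat_lit 38) (nat_lit 5) (nat_lit 39) (nat_lit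 5) (nat_lit 396) (nat_lit 356) (nat_lit 148))))) (XT.nd (nat_lit 234) (nat_lit 304) (nat_lit 0) (XT.nd (nat_lit 78) (nat_lit 228) (nat_lit 0) (XT.lf (nat_lit 0) (nat_lit 151691129653) (nat_lit 228) (nat_lit 9452033061) (nat_lit 76) (nat_lit 47612569522) (nat_lit 36) (nat_lit 5) (nat_lit 39) (nat_lit 5) (nat_lit 37) (nat_lit 5) (nat_lit 397) (nat_lit 356) (nat_lit 147)) (XT.nd (nat_lit 78) (nat_lit 76) (nat_lit 0) (XT.lf (nat_lit 0) (nat_lit 94970448867) (nat_lit 152) (nat_lit 102778734382) (nat_lit 228) (nat_lit 18231688293) (nat_lit 34) (nat_lit 5) (nat_lit 36) (nat_lit 5) (nat_lit 37) (nat_lit 5) (nat_lit 398) (nat_lit 356) (nat_lit 146)) (XT.lf (nat_lit 0) (nat_lit 21983831367) (nat_lit 228) (nat_lit 18972006816) (nat_lit 76) (nat_lit 182585708298) (nat_lit 33) (nat_lit 5) (nat_lit 36) (nat_lit 5) (nat_lit 34) (nat_lit 5) (nat_lit 399) (nat_lit 356) (nat_lit 145)))) (XT.nd (nat_lit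 78) (nat_lit 152) (nat_lit 0) (XT.lf (nat_lit 0) (nat_lit 65416636184) (nat_lit 228) (nat_lit 141022198472) (nat_lit 76) (nat_lit 24935515981) (nat_lit 31) (nat_lit 5) (nat_lit 34) (nat_lit 5) (nat_lit 32) (nat_lit 5) (nat_lit 400) (nat_lit 356) (nat_lit 144)) (XT.nd (nat_lit 78) (nat_lit 152) (nat_lit 0) (XT.lf (nat_lit 0) (nat_lit 112018842714) (nat_lit 228) (nat_lit 34458574678) (nat_lit 76) (nat_lit 93071489675) (nat_lit 31) (nat_lit 5) (nat_lit 34) (nat_lit 5) (nat_lit 32) (nat_lit 5) (nat_lit 401) (nat_lit 356) (nat_lit 143)) (XT.lf (nat_lit 0) (nat_lit 79993173698) (nat_lit 152) (nat_lit 82206700598) (nat_lit 228) (nat_lit 85869881423) (nat_lit 29) (nat_lit 5) (nat_lit 31) (nat_lit 5) (nat_lit 32) (nat_lit 5) (nat_lit 402) (nat_lit 356) (nat_lit 142)))))) (XT.nd (nat_lit 468) (nat_lit 380) (nat_lit 0) (XT.nd (nat_lit 234) (nat_lit 152) (nat_lit 0) (XT.nd (nat_lit 78) (nat_lit 152)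 (nat_lit 0) (XT.lf (nat_lit 0) (nat_lit 201363501112) (nat_lit 152) (nat_lit 14109830558) (nat_lit 228) (nat_lit 41514146550) (nat_lit 29) (nat_lit 5) (nat_lit 31) (nat_lit 5) (nat_lit 32) (nat_lit 5) (nat_lit 403) (nat_lit 356) (nat_lit 141)) (XT.nd (nat_lit 78) (nat_lit 0) (nat_lit 0) (XT.lf (nat_lit 0) (nat_lit 6817083191) (nat_lit 152) (nat_lit 202776437637) (nat_lit 76) (nat_lit 56657634596) (nat_lit 27) (nat_lit 5) (nat_lit 29) (nat_lit 5) (nat_lit 28) (nat_lit 5) (nat_lit 404) (nat_lit 356) (nat_lit 140)) (XT.lf (nat_lit 0) (nat_lit 57358307446) (nat_lit 152) (nat_lit 86399065851) (nat_lit 76) (nat_lit 132127186286) (nat_lit 27) (nat_lit 5) (nat_lit 29) (nat_lit 5) (nat_lit 28) (nat_lit 5) (nat_lit 405) (nat_lit 356) (nat_lit 139)))) (XT.nd (nat_lit 78) (nat_lit 0) (nat_lit 0) (XT.lf (nat_lit 0) (nat_lit 36980470814) (nat_lit 152) (nat_lit 74023309911) (nat_lit 228) (nat_lit 174966993940)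 (nat_lit 25) (nat_lit 5) (nat_lit 27) (nat_lit 5) (nat_lit 28) (nat_lit 5) (nat_lit 406) (nat_lit 356) (nat_lit 138)) (XT.nd (nat_lit 78) (nat_lit 0) (nat_lit 0) (XT.lf (nat_lit 0) (nat_lit 168806015646) (nat_lit 228) (nat_lit 126971344006) (nat_lit 76) (nat_lit 710216551) (nat_lit 25) (nat_lit 5) (nat_lit 28) (nat_lit 5) (nat_lit 26) (nat_lit 4) (nat_lit 407) (nat_lit 356) (nat_lit 137)) (XT.lf (nat_lit 0) (nat_lit 230711688617) (nat_lit 228) (nat_lit 65229902) (nat_lit 76) (nat_lit 76692633079) (nat_lit 25) (nat_lit 5) (nat_lit 28) (nat_lit 5) (nat_lit 26) (nat_lit 4) (nat_lit 408) (nat_lit 356) (nat_lit 136))))) (XT.nd (nat_lit 234) (nat_lit 76) (nat_lit 0) (XT.nd (nat_lit 78) (nat_lit 228) (nat_lit 0) (XT.lf (nat_lit 0) (nat_lit 137589634770) (nat_lit 76) (nat_lit 160271007803) (nat_lit 152) (nat_lit 21032583413) (nat_lit 24) (nat_lit 5) (nat_lit 25) (nat_lit 5) (nat_lit 26) (nat_lit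 4) (nat_lit 409) (nat_lit 356) (nat_lit 135)) (XT.nd (nat_lit 78) (nat_lit 152) (nat_lit 0) (XT.lf (nat_lit 0) (nat_lit 36280360403) (nat_lit 152) (nat_lit 49343974846) (nat_lit 76) (nat_lit 245234443295) (nat_lit 23) (nat_lit 5) (nat_lit 25) (nat_lit 5) (nat_lit 24) (nat_lit 5) (nat_lit 410) (nat_lit 356) (nat_lit 134)) (XT.lf (nat_lit 0) (nat_lit 91806951609) (nat_lit 152) (nat_lit 5378376831) (nat_lit 228) (nat_lit 246148380058) (nat_lit 21) (nat_lit 5) (nat_lit 23) (nat_lit 5) (nat_lit 24) (nat_lit 5) (nat_lit 411) (nat_lit 356) (nat_lit 133)))) (XT.nd (nat_lit 78) (nat_lit 76) (nat_lit 0) (XT.lf (nat_lit 0) (nat_lit 163216291704) (nat_lit 228) (nat_lit 115907572914) (nat_lit 76) (nat_lit 77204483066) (nat_lit 21) (nat_lit 5) (nat_lit 24) (nat_lit 5) (nat_lit 22) (nat_lit 4) (nat_lit 412) (nat_lit 356) (nat_lit 132)) (XT.nd (nat_lit 78) (nat_lit 0) (nat_lit 0) (XT.lf (nat_lit 0) (nat_lit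 27277181691) (nat_lit 76) (nat_lit 205785519413) (nat_lit 152) (nat_lit 136884322899) (nat_lit 20) (nat_lit 5) (nat_lit 21) (nat_lit 5) (nat_lit 22) (nat_lit 4) (nat_lit 413) (nat_lit 356) (nat_lit 131)) (XT.lf (nat_lit 0) (nat_lit 181644968786) (nat_lit 76) (nat_lit 126719270582) (nat_lit 152) (nat_lit 75784254418) (nat_lit 20) (nat_lit 5) (nat_lit 21) (nat_lit 5) (nat_lit 22) (nat_lit 4) (nat_lit 414) (nat_lit 356) (nat_lit 130))))))) (XT.nd (nat_lit 42588) (nat_lit 0) (nat_lit 4940) (XT.nd (nat_lit 390) (nat_lit 152) (nat_lit 0) (XT.nd (nat_lit 156) (nat_lit 76) (nat_lit 0) (XT.nd (nat_lit 78) (nat_lit 152) (nat_lit 0) (XT.lf (nat_lit 0) (nat_lit 343730902905) (nat_lit 76) (nat_lit 43699815985) (nat_lit 152) (nat_lit 11629325015) (nat_lit 20) (nat_lit 5) (nat_lit 21) (nat_lit 5) (nat_lit 22) (nat_lit 4) (nat_lit 415) (nat_lit 356) (nat_lit 129)) (XT.lf (nat_lit 0) (nat_lit 56254391250)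 (nat_lit 152) (nat_lit 313728405659) (nat_lit 76) (nat_lit 44575624206) (nat_lit 18) (nat_lit 5) (nat_lit 20) (nat_lit 5) (nat_lit 19) (nat_lit 4) (nat_lit 416) (nat_lit 356) (nat_lit 128))) (XT.nd (nat_lit 78) (nat_lit 76) (nat_lit 0) (XT.lf (nat_lit 0) (nat_lit 128810118696) (nat_lit 152) (nat_lit 164989465787) (nat_lit 76) (nat_lit 136939168177) (nat_lit 18) (nat_lit 5) (nat_lit 20) (nat_lit 5) (nat_lit 19) (nat_lit 4) (nat_lit 417) (nat_lit 356) (nat_lit 127)) (XT.nd (nat_lit 78) (nat_lit 76) (nat_lit 0) (XT.lf (nat_lit 0) (nat_lit 204993508389) (nat_lit 152) (nat_lit 8813803960) (nat_lit 76) (nat_lit 233920794695) (nat_lit 18) (nat_lit 5) (nat_lit 20) (nat_lit 5) (nat_lit 19) (nat_lit 4) (nat_lit 418) (nat_lit 356) (nat_lit 126)) (XT.lf (nat_lit 0) (nat_lit 160301061711) (nat_lit 76) (nat_lit 127187636456) (nat_lit 152) (nat_lit 177953099499) (nat_lit 17) (nat_lit 5) (nat_lit 18)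 (nat_lit 5) (nat_lit 19) (nat_lit 4) (nat_lit 419) (nat_lit 356) (nat_lit 125))))) (XT.nd (nat_lit 41964) (nat_lit 0) (nat_lit 6460) (XT.nd (nat_lit 78) (nat_lit 152) (nat_lit 0) (XT.lf (nat_lit 0) (nat_lit 338177455172) (nat_lit 76) (nat_lit 36080342417) (nat_lit 152) (nat_lit 109775917771) (nat_lit 17) (nat_lit 5) (nat_lit 18) (nat_lit 5) (nat_lit 19) (nat_lit 4) (nat_lit 420) (nat_lit 356) (nat_lit 124)) (XT.nd (nat_lit 78) (nat_lit 76) (nat_lit 0) (XT.lf (nat_lit 0) (nat_lit 21138553168) (nat_lit 76) (nat_lit 445486966035) (nat_lit 76) (nat_lit 36866701421) (nat_lit 16) (nat_lit 4) (nat_lit 17) (nat_lit 5) (nat_lit 17) (nat_lit 4) (nat_lit 421) (nat_lit 356) (nat_lit 123)) (XT.lf (nat_lit 0) (nat_lit 41519722794) (nat_lit 152) (nat_lit 323505057789) (nat_lit 76) (nat_lit 158712788076) (nat_lit 15) (nat_lit 5) (nat_lit 17) (nat_lit 5) (nat_lit 16) (nat_lit 4) (nat_lit 422) (nat_lit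 356) (nat_lit 122)))) (XT.nd (nat_lit 78) (nat_lit 0) (nat_lit 0) (XT.lf (nat_lit 0) (nat_lit 16134877982) (nat_lit 0) (nat_lit 16134877982) (nat_lit 684) (nat_lit 663742054) (nat_lit 100) (nat_lit 5) (nat_lit 100) (nat_lit 3) (nat_lit 109) (nat_lit 3) (nat_lit 357) (nat_lit 357) (nat_lit 186)) (XT.nd (nat_lit 78) (nat_lit 0) (nat_lit 0) (XT.lf (nat_lit 0) (nat_lit 64461150186) (nat_lit 0) (nat_lit 1706082350) (nat_lit 684) (nat_lit 1345704870) (nat_lit 100) (nat_lit 5) (nat_lit 100) (nat_lit 3) (nat_lit 109) (nat_lit 3) (nat_lit 358) (nat_lit 357) (nat_lit 185)) (XT.lf (nat_lit 76) (nat_lit 29489881956) (nat_lit 0) (nat_lit 39320380058) (nat_lit 760) (nat_lit 384219089) (nat_lit 101) (nat_lit 5) (nat_lit 100) (nat_lit 5) (nat_lit 110) (nat_lit 5) (nat_lit 359) (nat_lit 357) (nat_lit 184)))))) (XT.nd (nat_lit 468) (nat_lit 760) (nat_lit 0) (XT.nd (nat_lit 234) (nat_lit 0) (nat_lit 152)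 (XT.nd (nat_lit 78) (nat_lit 0) (nat_lit 76) (XT.lf (nat_lit 0) (nat_lit 684941210) (nat_lit 760) (nat_lit 7232043111) (nat_lit 836) (nat_lit 63038650015) (nat_lit 90) (nat_lit 5) (nat_lit 100) (nat_lit 5) (nat_lit 101) (nat_lit 5) (nat_lit 360) (nat_lit 357) (nat_lit 183)) (XT.nd (nat_lit 78) (nat_lit 0) (nat_lit 0) (XT.lf (nat_lit 0) (nat_lit 2625401209) (nat_lit 760) (nat_lit 45435967499) (nat_lit 836) (nat_lit 24701625103) (nat_lit 91) (nat_lit 5) (nat_lit 101) (nat_lit 5) (nat_lit 102) (nat_lit 5) (nat_lit 361) (nat_lit 357) (nat_lit 182)) (XT.lf (nat_lit 0) (nat_lit 4916351837) (nat_lit 760) (nat_lit 10921807309) (nat_lit 836) (nat_lit 58809889884) (nat_lit 91) (nat_lit 5) (nat_lit 101) (nat_lit 5) (nat_lit 102) (nat_lit 5) (nat_lit 362) (nat_lit 357) (nat_lit 181)))) (XT.nd (nat_lit 78) (nat_lit 0) (nat_lit 0) (XT.lf (nat_lit 0) (nat_lit 8017100165) (nat_lit 760) (nat_lit 50739994238)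 (nat_lit 836) (nat_lit 17835501196) (nat_lit 92) (nat_lit 5) (nat_lit 102) (nat_lit 5) (nat_lit 103) (nat_lit 5) (nat_lit 363) (nat_lit 357) (nat_lit 180)) (XT.nd (nat_lit 78) (nat_lit 0) (nat_lit 76) (XT.lf (nat_lit 0) (nat_lit 11719791620) (nat_lit 760) (nat_lit 14043436514) (nat_lit 836) (nat_lit 52848797124) (nat_lit 92) (nat_lit 5) (nat_lit 102) (nat_lit 5) (nat_lit 103) (nat_lit 5) (nat_lit 364) (nat_lit 357) (nat_lit 179)) (XT.lf (nat_lit 0) (nat_lit 16147000802) (nat_lit 760) (nat_lit 55560750659) (nat_lit 836) (nat_lit 8997706776) (nat_lit 93) (nat_lit 5) (nat_lit 103) (nat_lit 5) (nat_lit 104) (nat_lit 5) (nat_lit 365) (nat_lit 357) (nat_lit 178))))) (XT.nd (nat_lit 234) (nat_lit 988) (nat_lit 0) (XT.nd (nat_lit 78) (nat_lit 0) (nat_lit 0) (XT.lf (nat_lit 0) (nat_lit 21458977831) (nat_lit 760) (nat_lit 16538657297) (nat_lit 836) (nat_lit 44872758317) (nat_lit 93) (nat_lit 5)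 (nat_lit 103) (nat_lit 5) (nat_lit 104) (nat_lit 5) (nat_lit 366) (nat_lit 357) (nat_lit 177)) (XT.nd (nat_lit 78) (nat_lit 0) (nat_lit 76) (XT.lf (nat_lit 76) (nat_lit 25241911502) (nat_lit 0) (nat_lit 2188099284) (nat_lit 836) (nat_lit 57693892676) (nat_lit 94) (nat_lit 5) (nat_lit 93) (nat_lit 5) (nat_lit 104) (nat_lit 5) (nat_lit 367) (nat_lit 357) (nat_lit 176)) (XT.lf (nat_lit 0) (nat_lit 34536540393) (nat_lit 760) (nat_lit 18348414534) (nat_lit 76) (nat_lit 34563287665) (nat_lit 94) (nat_lit 5) (nat_lit 104) (nat_lit 5) (nat_lit 95) (nat_lit 5) (nat_lit 368) (nat_lit 357) (nat_lit 175)))) (XT.nd (nat_lit 78) (nat_lit 380) (nat_lit 0) (XT.lf (nat_lit 0) (nat_lit 26059511947) (nat_lit 684) (nat_lit 16381030347) (nat_lit 760) (nat_lit 47426149912) (nat_lit 85) (nat_lit 5) (nat_lit 94) (nat_lit 5) (nat_lit 95) (nat_lit 5) (nat_lit 369) (nat_lit 357) (nat_lit 174)) (XT.nd (nat_lit 78)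 (nat_lit 380) (nat_lit 0) (XT.lf (nat_lit 0) (nat_lit 51397682790) (nat_lit 760) (nat_lit 19413990209) (nat_lit 76) (nat_lit 21561495156) (nat_lit 85) (nat_lit 5) (nat_lit 95) (nat_lit 5) (nat_lit 86) (nat_lit 5) (nat_lit 370) (nat_lit 357) (nat_lit 173)) (XT.lf (nat_lit 0) (nat_lit 27820216770) (nat_lit 380) (nat_lit 33684817462) (nat_lit 456) (nat_lit 33464816718) (nat_lit 80) (nat_lit 5) (nat_lit 85) (nat_lit 5) (nat_lit 86) (nat_lit 5) (nat_lit 371) (nat_lit 357) (nat_lit 172))))))))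
noncomputable def xc227 : XT := (XT.nd (nat_lit 1794) (nat_lit 1748) (nat_lit 0) (XT.nd (nat_lit 858) (nat_lit 1444) (nat_lit 0) (XT.nd (nat_lit 390) (nat_lit 836) (nat_lit 0) (XT.nd (nat_lit 156) (nat_lit 380) (nat_lit 0) (XT.nd (nat_lit 78) (nat_lit 304) (nat_lit 0) (XT.lf (nat_lit 0) (nat_lit 72534129733) (nat_lit 456) (nat_lit 19678437375) (nat_lit 76) (nat_lit 5462982658) (nat_lit 80) (nat_lit 5) (nat_lit 86) (nat_lit 5) (nat_lit 81) (nat_lit 5) (nat_lit 372) (nat_lit 357) (nat_lit 171)) (XT.lf (nat_lit 0) (nat_lit 30592753789) (nat_lit 304) (nat_lit 54551278463) (nat_lit 380) (nat_lit 15321034335) (nat_lit 76) (nat_lit 5) (nat_lit 80) (nat_lit 5) (nat_lit 81) (nat_lit 5) (nat_lit 373) (nat_lit 357) (nat_lit 170))) (XT.nd (nat_lit 78) (nat_lit 380) (nat_lit 0) (XT.lf (nat_lit 0) (nat_lit 84060189189) (nat_lit 304) (nat_lit 14657023805) (nat_lit 380) (nat_lit 4660207741) (nat_lit 76)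 (nat_lit 5) (nat_lit 80) (nat_lit 5) (nat_lit 81) (nat_lit 5) (nat_lit 374) (nat_lit 357) (nat_lit 169)) (XT.nd (nat_lit 78) (nat_lit 0) (nat_lit 0) (XT.lf (nat_lit 0) (nat_lit 7302769062) (nat_lit 380) (nat_lit 72062757064) (nat_lit 76) (nat_lit 27015855270) (nat_lit 71) (nat_lit 5) (nat_lit 76) (nat_lit 5) (nat_lit 72) (nat_lit 5) (nat_lit 375) (nat_lit 357) (nat_lit 168)) (XT.lf (nat_lit 0) (nat_lit 20279617936) (nat_lit 380) (nat_lit 18534810684) (nat_lit 76) (nat_lit 70688675343) (nat_lit 71) (nat_lit 5) (nat_lit 76) (nat_lit 5) (nat_lit 72) (nat_lit 5) (nat_lit 376) (nat_lit 357) (nat_lit 167))))) (XT.nd (nat_lit 234) (nat_lit 228) (nat_lit 0) (XT.nd (nat_lit 78) (nat_lit 304) (nat_lit 0) (XT.lf (nat_lit 0) (nat_lit 34581173252) (nat_lit 380) (nat_lit 73904732160) (nat_lit 76) (nat_lit 4261214575) (nat_lit 67) (nat_lit 5) (nat_lit 72) (nat_lit 5) (nat_lit 68) (nat_lit 5) (nat_lit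 377) (nat_lit 357) (nat_lit 166)) (XT.nd (nat_lit 78) (nat_lit 304) (nat_lit 0) (XT.lf (nat_lit 0) (nat_lit 50552731778) (nat_lit 380) (nat_lit 17047657638) (nat_lit 76) (nat_lit 48505201627) (nat_lit 67) (nat_lit 5) (nat_lit 72) (nat_lit 5) (nat_lit 68) (nat_lit 5) (nat_lit 378) (nat_lit 357) (nat_lit 165)) (XT.lf (nat_lit 0) (nat_lit 44062054656) (nat_lit 304) (nat_lit 23948347171) (nat_lit 380) (nat_lit 51587207622) (nat_lit 63) (nat_lit 5) (nat_lit 67) (nat_lit 5) (nat_lit 68) (nat_lit 5) (nat_lit 379) (nat_lit 357) (nat_lit 164)))) (XT.nd (nat_lit 78) (nat_lit 228) (nat_lit 0) (XT.lf (nat_lit 0) (nat_lit 86975716913) (nat_lit 380) (nat_lit 14777611611) (nat_lit 76) (nat_lit 21479162634) (nat_lit 63) (nat_lit 5) (nat_lit 68) (nat_lit 5) (nat_lit 64) (nat_lit 5) (nat_lit 380) (nat_lit 357) (nat_lit 163)) (XT.nd (nat_lit 78) (nat_lit 0) (nat_lit 0) (XT.lf (nat_lit 0) (nat_lit 50232936063)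 (nat_lit 228) (nat_lit 57832864748) (nat_lit 304) (nat_lit 18924491421) (nat_lit 60) (nat_lit 5) (nat_lit 63) (nat_lit 5) (nat_lit 64) (nat_lit 5) (nat_lit 381) (nat_lit 357) (nat_lit 162)) (XT.lf (nat_lit 0) (nat_lit 119006599442) (nat_lit 228) (nat_lit 11453696231) (nat_lit 304) (nat_lit 463192762) (nat_lit 60) (nat_lit 5) (nat_lit 63) (nat_lit 5) (nat_lit 64) (nat_lit 5) (nat_lit 382) (nat_lit 357) (nat_lit 161)))))) (XT.nd (nat_lit 468) (nat_lit 608) (nat_lit 0) (XT.nd (nat_lit 234) (nat_lit 228) (nat_lit 0) (XT.nd (nat_lit 78) (nat_lit 228) (nat_lit 0) (XT.lf (nat_lit 0) (nat_lit 19817455710) (nat_lit 380) (nat_lit 77877591216) (nat_lit 76) (nat_lit 37268433248) (nat_lit 55) (nat_lit 5) (nat_lit 60) (nat_lit 5) (nat_lit 56) (nat_lit 5) (nat_lit 383) (nat_lit 357) (nat_lit 160)) (XT.nd (nat_lit 78) (nat_lit 228) (nat_lit 0) (XT.lf (nat_lit 0) (nat_lit 41489122588) (nat_lit 380) (nat_lit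 9441970223) (nat_lit 76) (nat_lit 88254371764) (nat_lit 55) (nat_lit 5) (nat_lit 60) (nat_lit 5) (nat_lit 56) (nat_lit 5) (nat_lit 384) (nat_lit 357) (nat_lit 159)) (XT.lf (nat_lit 0) (nat_lit 64478719625) (nat_lit 228) (nat_lit 772022895) (nat_lit 304) (nat_lit 78317487532) (nat_lit 52) (nat_lit 5) (nat_lit 55) (nat_lit 5) (nat_lit 56) (nat_lit 5) (nat_lit 385) (nat_lit 357) (nat_lit 158)))) (XT.nd (nat_lit 78) (nat_lit 228) (nat_lit 0) (XT.lf (nat_lit 0) (nat_lit 91172878765) (nat_lit 304) (nat_lit 6552179739) (nat_lit 76) (nat_lit 50396453857) (nat_lit 52) (nat_lit 5) (nat_lit 56) (nat_lit 5) (nat_lit 53) (nat_lit 5) (nat_lit 386) (nat_lit 357) (nat_lit 157)) (XT.nd (nat_lit 78) (nat_lit 0) (nat_lit 0) (XT.lf (nat_lit 0) (nat_lit 71900196463) (nat_lit 228) (nat_lit 47625843327) (nat_lit 304) (nat_lit 33319673405) (nat_lit 49) (nat_lit 5) (nat_lit 52) (nat_lit 5) (nat_lit 53) (nat_lit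 5) (nat_lit 387) (nat_lit 357) (nat_lit 156)) (XT.lf (nat_lit 0) (nat_lit 149487072347) (nat_lit 304) (nat_lit 3377878862) (nat_lit 76) (nat_lit 4931662483) (nat_lit 49) (nat_lit 5) (nat_lit 53) (nat_lit 5) (nat_lit 50) (nat_lit 5) (nat_lit 388) (nat_lit 357) (nat_lit 155))))) (XT.nd (nat_lit 234) (nat_lit 152) (nat_lit 0) (XT.nd (nat_lit 78) (nat_lit 228) (nat_lit 0) (XT.lf (nat_lit 0) (nat_lit 19436814080) (nat_lit 228) (nat_lit 83364764960) (nat_lit 76) (nat_lit 60076453895) (nat_lit 46) (nat_lit 5) (nat_lit 49) (nat_lit 5) (nat_lit 47) (nat_lit 5) (nat_lit 389) (nat_lit 357) (nat_lit 154)) (XT.nd (nat_lit 78) (nat_lit 228) (nat_lit 0) (XT.lf (nat_lit 0) (nat_lit 48349096840) (nat_lit 228) (nat_lit 1681987327) (nat_lit 76) (nat_lit 118172734895) (nat_lit 46) (nat_lit 5) (nat_lit 49) (nat_lit 5) (nat_lit 47) (nat_lit 5) (nat_lit 390) (nat_lit 357) (nat_lit 153)) (XT.lf (nat_lit 0) (nat_lit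 80169125643) (nat_lit 304) (nat_lit 86969539346) (nat_lit 76) (nat_lit 6584123153) (nat_lit 43) (nat_lit 5) (nat_lit 47) (nat_lit 5) (nat_lit 44) (nat_lit 5) (nat_lit 391) (nat_lit 357) (nat_lit 152)))) (XT.nd (nat_lit 78) (nat_lit 152) (nat_lit 0) (XT.lf (nat_lit 0) (nat_lit 114429028688) (nat_lit 304) (nat_lit 668683223) (nat_lit 76) (nat_lit 64377550354) (nat_lit 43) (nat_lit 5) (nat_lit 47) (nat_lit 5) (nat_lit 44) (nat_lit 5) (nat_lit 392) (nat_lit 357) (nat_lit 151)) (XT.nd (nat_lit 78) (nat_lit 0) (nat_lit 0) (XT.lf (nat_lit 0) (nat_lit 92920888576) (nat_lit 152) (nat_lit 58931545081) (nat_lit 228) (nat_lit 33590401320) (nat_lit 41) (nat_lit 5) (nat_lit 43) (nat_lit 5) (nat_lit 44) (nat_lit 5) (nat_lit 393) (nat_lit 357) (nat_lit 150)) (XT.lf (nat_lit 0) (nat_lit 191158944630) (nat_lit 228) (nat_lit 496302028) (nat_lit 76) (nat_lit 52943087) (nat_lit 41) (nat_lit 5) (nat_lit 44)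 (nat_lit 5) (nat_lit 42) (nat_lit 5) (nat_lit 394) (nat_lit 357) (nat_lit 149))))))) (XT.nd (nat_lit 858) (nat_lit 684) (nat_lit 0) (XT.nd (nat_lit 390) (nat_lit 532) (nat_lit 0) (XT.nd (nat_lit 156) (nat_lit 304) (nat_lit 0) (XT.nd (nat_lit 78) (nat_lit 0) (nat_lit 0) (XT.lf (nat_lit 0) (nat_lit 35592908516) (nat_lit 228) (nat_lit 100425124534) (nat_lit 76) (nat_lit 62115037246) (nat_lit 38) (nat_lit 5) (nat_lit 41) (nat_lit 5) (nat_lit 39) (nat_lit 5) (nat_lit 395) (nat_lit 357) (nat_lit 148)) (XT.lf (nat_lit 0) (nat_lit 73532023141) (nat_lit 228) (nat_lit 4048644044) (nat_lit 76) (nat_lit 127297662092) (nat_lit 38) (nat_lit 5) (nat_lit 41) (nat_lit 5) (nat_lit 39) (nat_lit 5) (nat_lit 396) (nat_lit 357) (nat_lit 147))) (XT.nd (nat_lit 78) (nat_lit 152) (nat_lit 0) (XT.lf (nat_lit 0) (nat_lit 100358409617) (nat_lit 152) (nat_lit 14576339569) (nat_lit 228) (nat_lit 96947769409) (nat_lit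 36) (nat_lit 5) (nat_lit 38) (nat_lit 5) (nat_lit 39) (nat_lit 5) (nat_lit 397) (nat_lit 357) (nat_lit 146)) (XT.nd (nat_lit 78) (nat_lit 152) (nat_lit 0) (XT.lf (nat_lit 0) (nat_lit 159282364489) (nat_lit 228) (nat_lit 9913867772) (nat_lit 76) (nat_lit 49996947633) (nat_lit 36) (nat_lit 5) (nat_lit 39) (nat_lit 5) (nat_lit 37) (nat_lit 5) (nat_lit 398) (nat_lit 357) (nat_lit 145)) (XT.lf (nat_lit 0) (nat_lit 99729564592) (nat_lit 152) (nat_lit 107913603546) (nat_lit 228) (nat_lit 19136415898) (nat_lit 34) (nat_lit 5) (nat_lit 36) (nat_lit 5) (nat_lit 37) (nat_lit 5) (nat_lit 399) (nat_lit 357) (nat_lit 144))))) (XT.nd (nat_lit 234) (nat_lit 304) (nat_lit 0) (XT.nd (nat_lit 78) (nat_lit 152) (nat_lit 0) (XT.lf (nat_lit 0) (nat_lit 23089344220) (nat_lit 228) (nat_lit 19910304957) (nat_lit 76) (nat_lit 191718654213) (nat_lit 33) (nat_lit 5) (nat_lit 36) (nat_lit 5) (nat_lit 34) (nat_lit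 5) (nat_lit 400) (nat_lit 357) (nat_lit 143)) (XT.nd (nat_lit 78) (nat_lit 0) (nat_lit 0) (XT.lf (nat_lit 0) (nat_lit 68693708304) (nat_lit 228) (nat_lit 148062921077) (nat_lit 76) (nat_lit 26186122627) (nat_lit 31) (nat_lit 5) (nat_lit 34) (nat_lit 5) (nat_lit 32) (nat_lit 5) (nat_lit 401) (nat_lit 357) (nat_lit 142)) (XT.lf (nat_lit 0) (nat_lit 117625728003) (nat_lit 228) (nat_lit 36171610728) (nat_lit 76) (nat_lit 97728712585) (nat_lit 31) (nat_lit 5) (nat_lit 34) (nat_lit 5) (nat_lit 32) (nat_lit 5) (nat_lit 402) (nat_lit 357) (nat_lit 141)))) (XT.nd (nat_lit 78) (nat_lit 152) (nat_lit 0) (XT.lf (nat_lit 0) (nat_lit 84002565507) (nat_lit 152) (nat_lit 86313114611) (nat_lit 228) (nat_lit 90157269023) (nat_lit 29) (nat_lit 5) (nat_lit 31) (nat_lit 5) (nat_lit 32) (nat_lit 5) (nat_lit 403) (nat_lit 357) (nat_lit 140)) (XT.nd (nat_lit 78) (nat_lit 152) (nat_lit 0) (XT.lf (nat_lit 0) (nat_lit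 211440945810) (nat_lit 152) (nat_lit 14811587784) (nat_lit 228) (nat_lit 43584038191) (nat_lit 29) (nat_lit 5) (nat_lit 31) (nat_lit 5) (nat_lit 32) (nat_lit 5) (nat_lit 404) (nat_lit 357) (nat_lit 139)) (XT.lf (nat_lit 0) (nat_lit 7163503454) (nat_lit 152) (nat_lit 212905733638) (nat_lit 76) (nat_lit 59494194552) (nat_lit 27) (nat_lit 5) (nat_lit 29) (nat_lit 5) (nat_lit 28) (nat_lit 5) (nat_lit 405) (nat_lit 357) (nat_lit 138)))))) (XT.nd (nat_lit 468) (nat_lit 380) (nat_lit 0) (XT.nd (nat_lit 234) (nat_lit 152) (nat_lit 0) (XT.nd (nat_lit 78) (nat_lit 152) (nat_lit 0) (XT.lf (nat_lit 0) (nat_lit 60231523869) (nat_lit 152) (nat_lit 90709946875) (nat_lit 76) (nat_lit 138737048673) (nat_lit 27) (nat_lit 5) (nat_lit 29) (nat_lit 5) (nat_lit 28) (nat_lit 5) (nat_lit 406) (nat_lit 357) (nat_lit 137)) (XT.nd (nat_lit 78) (nat_lit 0) (nat_lit 0) (XT.lf (nat_lit 0) (nat_lit 38838420296) (nat_lit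 152) (nat_lit 77720737444) (nat_lit 228) (nat_lit 183709893314) (nat_lit 25) (nat_lit 5) (nat_lit 27) (nat_lit 5) (nat_lit 28) (nat_lit 5) (nat_lit 407) (nat_lit 357) (nat_lit 136)) (XT.lf (nat_lit 0) (nat_lit 177251312941) (nat_lit 228) (nat_lit 133311216040) (nat_lit 76) (nat_lit 749173401) (nat_lit 25) (nat_lit 5) (nat_lit 28) (nat_lit 5) (nat_lit 26) (nat_lit 4) (nat_lit 408) (nat_lit 357) (nat_lit 135)))) (XT.nd (nat_lit 78) (nat_lit 152) (nat_lit 0) (XT.lf (nat_lit 0) (nat_lit 242252031632) (nat_lit 228) (nat_lit 60210286) (nat_lit 76) (nat_lit 80530546659) (nat_lit 25) (nat_lit 5) (nat_lit 28) (nat_lit 5) (nat_lit 26) (nat_lit 4) (nat_lit 409) (nat_lit 357) (nat_lit 134)) (XT.nd (nat_lit 78) (nat_lit 76) (nat_lit 0) (XT.lf (nat_lit 0) (nat_lit 144477264053) (nat_lit 76) (nat_lit 168281069840) (nat_lit 152) (nat_lit 22079317889) (nat_lit 24) (nat_lit 5) (nat_lit 25) (nat_lit 5) (nat_lit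 26) (nat_lit 4) (nat_lit 410) (nat_lit 357) (nat_lit 133)) (XT.lf (nat_lit 0) (nat_lit 38098890836) (nat_lit 152) (nat_lit 51803262514) (nat_lit 76) (nat_lit 257499336193) (nat_lit 23) (nat_lit 5) (nat_lit 25) (nat_lit 5) (nat_lit 24) (nat_lit 5) (nat_lit 411) (nat_lit 357) (nat_lit 132))))) (XT.nd (nat_lit 234) (nat_lit 152) (nat_lit 0) (XT.nd (nat_lit 78) (nat_lit 76) (nat_lit 0) (XT.lf (nat_lit 0) (nat_lit 96405082666) (nat_lit 152) (nat_lit 5643931254) (nat_lit 228) (nat_lit 258451156852) (nat_lit 21) (nat_lit 5) (nat_lit 23) (nat_lit 5) (nat_lit 24) (nat_lit 5) (nat_lit 412) (nat_lit 357) (nat_lit 131)) (XT.nd (nat_lit 78) (nat_lit 76) (nat_lit 0) (XT.lf (nat_lit 0) (nat_lit 171381364943) (nat_lit 228) (nat_lit 121695376228) (nat_lit 76) (nat_lit 81067808873) (nat_lit 21) (nat_lit 5) (nat_lit 24) (nat_lit 5) (nat_lit 22) (nat_lit 4) (nat_lit 413) (nat_lit 357) (nat_lit 130)) (XT.lf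 (nat_lit 0) (nat_lit 28648493925) (nat_lit 76) (nat_lit 216071514459) (nat_lit 152) (nat_lit 143724156215) (nat_lit 20) (nat_lit 5) (nat_lit 21) (nat_lit 5) (nat_lit 22) (nat_lit 4) (nat_lit 414) (nat_lit 357) (nat_lit 129)))) (XT.nd (nat_lit 78) (nat_lit 152) (nat_lit 0) (XT.lf (nat_lit 0) (nat_lit 190734315463) (nat_lit 76) (nat_lit 133052109421) (nat_lit 152) (nat_lit 79569293015) (nat_lit 20) (nat_lit 5) (nat_lit 21) (nat_lit 5) (nat_lit 22) (nat_lit 4) (nat_lit 415) (nat_lit 357) (nat_lit 128)) (XT.nd (nat_lit 78) (nat_lit 152) (nat_lit 0) (XT.lf (nat_lit 0) (nat_lit 360924208276) (nat_lit 76) (nat_lit 45881830889) (nat_lit 152) (nat_lit 12206815910) (nat_lit 20) (nat_lit 5) (nat_lit 21) (nat_lit 5) (nat_lit 22) (nat_lit 4) (nat_lit 416) (nat_lit 357) (nat_lit 127)) (XT.lf (nat_lit 0) (nat_lit 59070928466) (nat_lit 152) (nat_lit 329407904652) (nat_lit 76) (nat_lit 46807316531) (nat_lit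 18) (nat_lit 5) (nat_lit 20) (nat_lit 5) (nat_lit 19) (nat_lit 4) (nat_lit 417) (nat_lit 357) (nat_lit 126))))))))
noncomputable def xc228 : XT := (XT.nd (nat_lit 43602) (nat_lit 0) (nat_lit 1444) (XT.nd (nat_lit 42744) (nat_lit 0) (nat_lit 4484) (XT.nd (nat_lit 42276) (nat_lit 0) (nat_lit 5548) (XT.nd (nat_lit 156) (nat_lit 76) (nat_lit 0) (XT.nd (nat_lit 78) (nat_lit 0) (nat_lit 0) (XT.lf (nat_lit 0) (nat_lit 135254260492) (nat_lit 152) (nat_lit 173232347372) (nat_lit 76) (nat_lit 143788899075) (nat_lit 18) (nat_lit 5) (nat_lit 20) (nat_lit 5) (nat_lit 19) (nat_lit 4) (nat_lit 418) (nat_lit 357) (nat_lit 125)) (XT.lf (nat_lit 0) (nat_lit 215246646533) (nat_lit 152) (nat_lit 9248216344) (nat_lit 76) (nat_lit 245619474895) (nat_lit 18) (nat_lit 5) (nat_lit 20) (nat_lit 5) (nat_lit 19) (nat_lit 4) (nat_lit 419) (nat_lit 357) (nat_lit 124))) (XT.nd (nat_lit 78) (nat_lit 0) (nat_lit 0) (XT.lf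 (nat_lit 0) (nat_lit 168322291355) (nat_lit 76) (nat_lit 133544235986) (nat_lit 152) (nat_lit 186847189079) (nat_lit 17) (nat_lit 5) (nat_lit 18) (nat_lit 5) (nat_lit 19) (nat_lit 4) (nat_lit 420) (nat_lit 357) (nat_lit 123)) (XT.nd (nat_lit 41964) (nat_lit 0) (nat_lit 6308) (XT.lf (nat_lit 0) (nat_lit 355092210367) (nat_lit 76) (nat_lit 37881709736) (nat_lit 152) (nat_lit 115261318044) (nat_lit 17) (nat_lit 5) (nat_lit 18) (nat_lit 5) (nat_lit 19) (nat_lit 4) (nat_lit 421) (nat_lit 357) (nat_lit 122)) (XT.lf (nat_lit 0) (nat_lit 16948627178) (nat_lit 0) (nat_lit 16948627178) (nat_lit 684) (nat_lit 682196482) (nat_lit 100) (nat_lit 5) (nat_lit 100) (nat_lit 3) (nat_lit 109) (nat_lit 3) (nat_lit 358) (nat_lit 358) (nat_lit 184))))) (XT.nd (nat_lit 234) (nat_lit 0) (nat_lit 76) (XT.nd (nat_lit 78) (nat_lit 760) (nat_lit 0) (XT.lf (nat_lit 0) (nat_lit 67697551119) (nat_lit 0) (nat_lit 1804729891)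 (nat_lit 684) (nat_lit 1384927876) (nat_lit 100) (nat_lit 5) (nat_lit 100) (nat_lit 3) (nat_lit 109) (nat_lit 3) (nat_lit 359) (nat_lit 358) (nat_lit 183)) (XT.nd (nat_lit 78) (nat_lit 760) (nat_lit 0) (XT.lf (nat_lit 76) (nat_lit 30979062435) (nat_lit 0) (nat_lit 41297159612) (nat_lit 760) (nat_lit 376671671) (nat_lit 101) (nat_lit 5) (nat_lit 100) (nat_lit 5) (nat_lit 110) (nat_lit 5) (nat_lit 360) (nat_lit 358) (nat_lit 182)) (XT.lf (nat_lit 0) (nat_lit 743856781) (nat_lit 760) (nat_lit 7578807127) (nat_lit 836) (nat_lit 66179483261) (nat_lit 90) (nat_lit 5) (nat_lit 100) (nat_lit 5) (nat_lit 101) (nat_lit 5) (nat_lit 361) (nat_lit 358) (nat_lit 181)))) (XT.nd (nat_lit 78) (nat_lit 0) (nat_lit 0) (XT.lf (nat_lit 0) (nat_lit 2780250583) (nat_lit 760) (nat_lit 47691804766) (nat_lit 836) (nat_lit 25927875415) (nat_lit 91) (nat_lit 5) (nat_lit 101) (nat_lit 5) (nat_lit 102) (nat_lit 5)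 (nat_lit 362) (nat_lit 358) (nat_lit 180)) (XT.nd (nat_lit 78) (nat_lit 0) (nat_lit 76) (XT.lf (nat_lit 0) (nat_lit 5184625918) (nat_lit 760) (nat_lit 11452696620) (nat_lit 836) (nat_lit 61741973957) (nat_lit 91) (nat_lit 5) (nat_lit 101) (nat_lit 5) (nat_lit 102) (nat_lit 5) (nat_lit 363) (nat_lit 358) (nat_lit 179)) (XT.lf (nat_lit 0) (nat_lit 8439471754) (nat_lit 760) (nat_lit 53260822356) (nat_lit 836) (nat_lit 18720824810) (nat_lit 92) (nat_lit 5) (nat_lit 102) (nat_lit 5) (nat_lit 103) (nat_lit 5) (nat_lit 364) (nat_lit 358) (nat_lit 178)))))) (XT.nd (nat_lit 390) (nat_lit 1216) (nat_lit 0) (XT.nd (nat_lit 156) (nat_lit 0) (nat_lit 76) (XT.nd (nat_lit 78) (nat_lit 0) (nat_lit 76) (XT.lf (nat_lit 0) (nat_lit 12326273182) (nat_lit 760) (nat_lit 14730206822) (nat_lit 836) (nat_lit 55485092747) (nat_lit 92) (nat_lit 5) (nat_lit 102) (nat_lit 5) (nat_lit 103) (nat_lit 5) (nat_lit 365)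 (nat_lit 358) (nat_lit 177)) (XT.lf (nat_lit 0) (nat_lit 16974031784) (nat_lit 760) (nat_lit 58322547852) (nat_lit 836) (nat_lit 9443139684) (nat_lit 93) (nat_lit 5) (nat_lit 103) (nat_lit 5) (nat_lit 104) (nat_lit 5) (nat_lit 366) (nat_lit 358) (nat_lit 176))) (XT.nd (nat_lit 78) (nat_lit 0) (nat_lit 0) (XT.lf (nat_lit 0) (nat_lit 22550670477) (nat_lit 760) (nat_lit 17350123171) (nat_lit 836) (nat_lit 47112155822) (nat_lit 93) (nat_lit 5) (nat_lit 103) (nat_lit 5) (nat_lit 104) (nat_lit 5) (nat_lit 367) (nat_lit 358) (nat_lit 175)) (XT.nd (nat_lit 78) (nat_lit 0) (nat_lit 76) (XT.lf (nat_lit 76) (nat_lit 26519224601) (nat_lit 0) (nat_lit 2300375508) (nat_lit 836) (nat_lit 60559568889) (nat_lit 94) (nat_lit 5) (nat_lit 93) (nat_lit 5) (nat_lit 104) (nat_lit 5) (nat_lit 368) (nat_lit 358) (nat_lit 174)) (XT.lf (nat_lit 0) (nat_lit 36280552131) (nat_lit 760) (nat_lit 19250414317) (nat_lit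 76) (nat_lit 36288805037) (nat_lit 94) (nat_lit 5) (nat_lit 104) (nat_lit 5) (nat_lit 95) (nat_lit 5) (nat_lit 369) (nat_lit 358) (nat_lit 173))))) (XT.nd (nat_lit 234) (nat_lit 304) (nat_lit 0) (XT.nd (nat_lit 78) (nat_lit 380) (nat_lit 0) (XT.lf (nat_lit 0) (nat_lit 27377659762) (nat_lit 684) (nat_lit 17201512925) (nat_lit 760) (nat_lit 49780001107) (nat_lit 85) (nat_lit 5) (nat_lit 94) (nat_lit 5) (nat_lit 95) (nat_lit 5) (nat_lit 370) (nat_lit 358) (nat_lit 172)) (XT.nd (nat_lit 78) (nat_lit 380) (nat_lit 0) (XT.lf (nat_lit 0) (nat_lit 53983358298) (nat_lit 760) (nat_lit 20369406308) (nat_lit 76) (nat_lit 22638250620) (nat_lit 85) (nat_lit 5) (nat_lit 95) (nat_lit 5) (nat_lit 86) (nat_lit 5) (nat_lit 371) (nat_lit 358) (nat_lit 171)) (XT.lf (nat_lit 0) (nat_lit 29226264513) (nat_lit 380) (nat_lit 35369295596) (nat_lit 456) (nat_lit 35121998948) (nat_lit 80) (nat_lit 5) (nat_lit 85)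 (nat_lit 5) (nat_lit 86) (nat_lit 5) (nat_lit 372) (nat_lit 358) (nat_lit 170)))) (XT.nd (nat_lit 78) (nat_lit 304) (nat_lit 0) (XT.lf (nat_lit 0) (nat_lit 76175379517) (nat_lit 456) (nat_lit 20647287769) (nat_lit 76) (nat_lit 5735913060) (nat_lit 80) (nat_lit 5) (nat_lit 86) (nat_lit 5) (nat_lit 81) (nat_lit 5) (nat_lit 373) (nat_lit 358) (nat_lit 169)) (XT.nd (nat_lit 78) (nat_lit 0) (nat_lit 0) (XT.lf (nat_lit 0) (nat_lit 32137219866) (nat_lit 304) (nat_lit 57278096271) (nat_lit 380) (nat_lit 16072280862) (nat_lit 76) (nat_lit 5) (nat_lit 80) (nat_lit 5) (nat_lit 81) (nat_lit 5) (nat_lit 374) (nat_lit 358) (nat_lit 168)) (XT.lf (nat_lit 0) (nat_lit 88277320922) (nat_lit 304) (nat_lit 15389164410) (nat_lit 380) (nat_lit 4879117947) (nat_lit 76) (nat_lit 5) (nat_lit 80) (nat_lit 5) (nat_lit 81) (nat_lit 5) (nat_lit 375) (nat_lit 358) (nat_lit 167))))))) (XT.nd (nat_lit 858) (nat_lit 1216)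 (nat_lit 0) (XT.nd (nat_lit 390) (nat_lit 836) (nat_lit 0) (XT.nd (nat_lit 156) (nat_lit 608) (nat_lit 0) (XT.nd (nat_lit 78) (nat_lit 0) (nat_lit 0) (XT.lf (nat_lit 0) (nat_lit 7681148258) (nat_lit 380) (nat_lit 75650879907) (nat_lit 76) (nat_lit 28367744019) (nat_lit 71) (nat_lit 5) (nat_lit 76) (nat_lit 5) (nat_lit 72) (nat_lit 5) (nat_lit 376) (nat_lit 358) (nat_lit 166)) (XT.lf (nat_lit 0) (nat_lit 21306209064) (nat_lit 380) (nat_lit 19447251209) (nat_lit 76) (nat_lit 74224152906) (nat_lit 71) (nat_lit 5) (nat_lit 76) (nat_lit 5) (nat_lit 72) (nat_lit 5) (nat_lit 377) (nat_lit 358) (nat_lit 165))) (XT.nd (nat_lit 78) (nat_lit 304) (nat_lit 0) (XT.lf (nat_lit 0) (nat_lit 36322490048) (nat_lit 380) (nat_lit 77585301926) (nat_lit 76) (nat_lit 4476056371) (nat_lit 67) (nat_lit 5) (nat_lit 72) (nat_lit 5) (nat_lit 68) (nat_lit 5) (nat_lit 378) (nat_lit 358) (nat_lit 164)) (XT.nd (nat_lit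 78) (nat_lit 304) (nat_lit 0) (XT.lf (nat_lit 0) (nat_lit 53092042780) (nat_lit 380) (nat_lit 17886072099) (nat_lit 76) (nat_lit 50932157963) (nat_lit 67) (nat_lit 5) (nat_lit 72) (nat_lit 5) (nat_lit 68) (nat_lit 5) (nat_lit 379) (nat_lit 358) (nat_lit 163)) (XT.lf (nat_lit 0) (nat_lit 46278900512) (nat_lit 304) (nat_lit 25143354464) (nat_lit 380) (nat_lit 54154654930) (nat_lit 63) (nat_lit 5) (nat_lit 67) (nat_lit 5) (nat_lit 68) (nat_lit 5) (nat_lit 380) (nat_lit 358) (nat_lit 162))))) (XT.nd (nat_lit 234) (nat_lit 608) (nat_lit 0) (XT.nd (nat_lit 78) (nat_lit 228) (nat_lit 0) (XT.lf (nat_lit 0) (nat_lit 91335331982) (nat_lit 380) (nat_lit 15502886941) (nat_lit 76) (nat_lit 22555342603) (nat_lit 63) (nat_lit 5) (nat_lit 68) (nat_lit 5) (nat_lit 64) (nat_lit 5) (nat_lit 381) (nat_lit 358) (nat_lit 161)) (XT.nd (nat_lit 78) (nat_lit 0) (nat_lit 0) (XT.lf (nat_lit 0) (nat_lit 52757968676)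 (nat_lit 228) (nat_lit 60721644712) (nat_lit 304) (nat_lit 19859655207) (nat_lit 60) (nat_lit 5) (nat_lit 63) (nat_lit 5) (nat_lit 64) (nat_lit 5) (nat_lit 382) (nat_lit 358) (nat_lit 160)) (XT.lf (nat_lit 0) (nat_lit 124969677805) (nat_lit 228) (nat_lit 12023654115) (nat_lit 304) (nat_lit 475818320) (nat_lit 60) (nat_lit 5) (nat_lit 63) (nat_lit 5) (nat_lit 64) (nat_lit 5) (nat_lit 383) (nat_lit 358) (nat_lit 159)))) (XT.nd (nat_lit 78) (nat_lit 228) (nat_lit 0) (XT.lf (nat_lit 0) (nat_lit 20818287441) (nat_lit 380) (nat_lit 81758125785) (nat_lit 76) (nat_lit 39134732538) (nat_lit 55) (nat_lit 5) (nat_lit 60) (nat_lit 5) (nat_lit 56) (nat_lit 5) (nat_lit 384) (nat_lit 358) (nat_lit 158)) (XT.nd (nat_lit 78) (nat_lit 228) (nat_lit 0) (XT.lf (nat_lit 0) (nat_lit 43573063428) (nat_lit 380) (nat_lit 9901359219) (nat_lit 76) (nat_lit 92669830950) (nat_lit 55) (nat_lit 5) (nat_lit 60) (nat_lit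 5) (nat_lit 56) (nat_lit 5) (nat_lit 385) (nat_lit 358) (nat_lit 157)) (XT.lf (nat_lit 0) (nat_lit 67715160130) (nat_lit 228) (nat_lit 807347804) (nat_lit 304) (nat_lit 82223662708) (nat_lit 52) (nat_lit 5) (nat_lit 55) (nat_lit 5) (nat_lit 56) (nat_lit 5) (nat_lit 386) (nat_lit 358) (nat_lit 156)))))) (XT.nd (nat_lit 468) (nat_lit 532) (nat_lit 0) (XT.nd (nat_lit 234) (nat_lit 456) (nat_lit 0) (XT.nd (nat_lit 78) (nat_lit 228) (nat_lit 0) (XT.lf (nat_lit 0) (nat_lit 95740360265) (nat_lit 304) (nat_lit 6867479884) (nat_lit 76) (nat_lit 52919296908) (nat_lit 52) (nat_lit 5) (nat_lit 56) (nat_lit 5) (nat_lit 53) (nat_lit 5) (nat_lit 387) (nat_lit 358) (nat_lit 155)) (XT.nd (nat_lit 78) (nat_lit 0) (nat_lit 0) (XT.lf (nat_lit 0) (nat_lit 75507316599) (nat_lit 228) (nat_lit 50003630982) (nat_lit 304) (nat_lit 34976612370) (nat_lit 49) (nat_lit 5) (nat_lit 52) (nat_lit 5) (nat_lit 53) (nat_lit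 5) (nat_lit 388) (nat_lit 358) (nat_lit 154)) (XT.lf (nat_lit 0) (nat_lit 156969674075) (nat_lit 304) (nat_lit 3534873280) (nat_lit 76) (nat_lit 5181476412) (nat_lit 49) (nat_lit 5) (nat_lit 53) (nat_lit 5) (nat_lit 50) (nat_lit 5) (nat_lit 389) (nat_lit 358) (nat_lit 153)))) (XT.nd (nat_lit 78) (nat_lit 228) (nat_lit 0) (XT.lf (nat_lit 0) (nat_lit 20416832252) (nat_lit 228) (nat_lit 87521017785) (nat_lit 76) (nat_lit 63083668230) (nat_lit 46) (nat_lit 5) (nat_lit 49) (nat_lit 5) (nat_lit 47) (nat_lit 5) (nat_lit 390) (nat_lit 358) (nat_lit 152)) (XT.nd (nat_lit 78) (nat_lit 228) (nat_lit 0) (XT.lf (nat_lit 0) (nat_lit 50774339747) (nat_lit 228) (nat_lit 1754672004) (nat_lit 76) (nat_lit 124084601773) (nat_lit 46) (nat_lit 5) (nat_lit 49) (nat_lit 5) (nat_lit 47) (nat_lit 5) (nat_lit 391) (nat_lit 358) (nat_lit 151)) (XT.lf (nat_lit 0) (nat_lit 84185231270) (nat_lit 304) (nat_lit 91306456156)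 (nat_lit 76) (nat_lit 6916850906) (nat_lit 43) (nat_lit 5) (nat_lit 47) (nat_lit 5) (nat_lit 44) (nat_lit 5) (nat_lit 392) (nat_lit 358) (nat_lit 150))))) (XT.nd (nat_lit 234) (nat_lit 380) (nat_lit 0) (XT.nd (nat_lit 78) (nat_lit 152) (nat_lit 0) (XT.lf (nat_lit 0) (nat_lit 120157765214) (nat_lit 304) (nat_lit 691107711) (nat_lit 76) (nat_lit 67599781772) (nat_lit 43) (nat_lit 5) (nat_lit 47) (nat_lit 5) (nat_lit 44) (nat_lit 5) (nat_lit 393) (nat_lit 358) (nat_lit 149)) (XT.nd (nat_lit 78) (nat_lit 0) (nat_lit 0) (XT.lf (nat_lit 0) (nat_lit 97577765103) (nat_lit 152) (nat_lit 61874397538) (nat_lit 228) (nat_lit 35262452598) (nat_lit 41) (nat_lit 5) (nat_lit 43) (nat_lit 5) (nat_lit 44) (nat_lit 5) (nat_lit 394) (nat_lit 358) (nat_lit 148)) (XT.lf (nat_lit 0) (nat_lit 200723716105) (nat_lit 228) (nat_lit 510511957) (nat_lit 76) (nat_lit 59024128) (nat_lit 41) (nat_lit 5) (nat_lit 44)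 (nat_lit 5) (nat_lit 42) (nat_lit 5) (nat_lit 395) (nat_lit 358) (nat_lit 147)))) (XT.nd (nat_lit 78) (nat_lit 152) (nat_lit 0) (XT.lf (nat_lit 0) (nat_lit 37379330719) (nat_lit 228) (nat_lit 105435717280) (nat_lit 76) (nat_lit 65224331685) (nat_lit 38) (nat_lit 5) (nat_lit 41) (nat_lit 5) (nat_lit 39) (nat_lit 5) (nat_lit 396) (nat_lit 358) (nat_lit 146)) (XT.nd (nat_lit 78) (nat_lit 152) (nat_lit 0) (XT.lf (nat_lit 0) (nat_lit 77215078372) (nat_lit 228) (nat_lit 4240920550) (nat_lit 76) (nat_lit 133665919080) (nat_lit 38) (nat_lit 5) (nat_lit 41) (nat_lit 5) (nat_lit 39) (nat_lit 5) (nat_lit 397) (nat_lit 358) (nat_lit 145)) (XT.lf (nat_lit 0) (nat_lit 105386321993) (nat_lit 152) (nat_lit 15301467391) (nat_lit 228) (nat_lit 101788535208) (nat_lit 36) (nat_lit 5) (nat_lit 38) (nat_lit 5) (nat_lit 39) (nat_lit 5) (nat_lit 398) (nat_lit 358) (nat_lit 144))))))))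
noncomputable def xc229 : XT := (XT.nd (nat_lit 43758) (nat_lit 0) (nat_lit 3496) (XT.nd (nat_lit 858) (nat_lit 608) (nat_lit 0) (XT.nd (nat_lit 390) (nat_lit 456) (nat_lit 0) (XT.nd (nat_lit 156) (nat_lit 228) (nat_lit 0) (XT.nd (nat_lit 78) (nat_lit 152) (nat_lit 0) (XT.lf (nat_lit 0) (nat_lit 167252540176) (nat_lit 228) (nat_lit 10399795227) (nat_lit 76) (nat_lit 52500196044) (nat_lit 36) (nat_lit 5) (nat_lit 39) (nat_lit 5) (nat_lit 37) (nat_lit 5) (nat_lit 399) (nat_lit 358) (nat_lit 143)) (XT.lf (nat_lit 0) (nat_lit 104725651240) (nat_lit 152) (nat_lit 113305594331) (nat_lit 228) (nat_lit 20087017364) (nat_lit 34) (nat_lit 5) (nat_lit 36) (nat_lit 5) (nat_lit 37) (nat_lit 5) (nat_lit 400) (nat_lit 358) (nat_lit 142))) (XT.nd (nat_lit 78) (nat_lit 152) (nat_lit 0) (XT.lf (nat_lit 0) (nat_lit 24249545023) (nat_lit 228) (nat_lit 20896475805) (nat_lit 76) (nat_lit 201307907106) (nat_lit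 33) (nat_lit 5) (nat_lit 36) (nat_lit 5) (nat_lit 34) (nat_lit 5) (nat_lit 401) (nat_lit 358) (nat_lit 141)) (XT.nd (nat_lit 78) (nat_lit 0) (nat_lit 0) (XT.lf (nat_lit 0) (nat_lit 72134053865) (nat_lit 228) (nat_lit 155456645528) (nat_lit 76) (nat_lit 27498903450) (nat_lit 31) (nat_lit 5) (nat_lit 34) (nat_lit 5) (nat_lit 32) (nat_lit 5) (nat_lit 402) (nat_lit 358) (nat_lit 140)) (XT.lf (nat_lit 0) (nat_lit 123512405019) (nat_lit 228) (nat_lit 37971218309) (nat_lit 76) (nat_lit 102618457445) (nat_lit 31) (nat_lit 5) (nat_lit 34) (nat_lit 5) (nat_lit 32) (nat_lit 5) (nat_lit 403) (nat_lit 358) (nat_lit 139))))) (XT.nd (nat_lit 234) (nat_lit 152) (nat_lit 0) (XT.nd (nat_lit 78) (nat_lit 152) (nat_lit 0) (XT.lf (nat_lit 0) (nat_lit 88211522013) (nat_lit 152) (nat_lit 90625213863) (nat_lit 228) (nat_lit 94659593724) (nat_lit 29) (nat_lit 5) (nat_lit 31) (nat_lit 5) (nat_lit 32) (nat_lit 5)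 (nat_lit 404) (nat_lit 358) (nat_lit 138)) (XT.nd (nat_lit 78) (nat_lit 152) (nat_lit 0) (XT.lf (nat_lit 0) (nat_lit 222021400939) (nat_lit 152) (nat_lit 15548780051) (nat_lit 228) (nat_lit 45757965101) (nat_lit 29) (nat_lit 5) (nat_lit 31) (nat_lit 5) (nat_lit 32) (nat_lit 5) (nat_lit 405) (nat_lit 358) (nat_lit 137)) (XT.lf (nat_lit 0) (nat_lit 7526727247) (nat_lit 152) (nat_lit 223542380065) (nat_lit 76) (nat_lit 62472240539) (nat_lit 27) (nat_lit 5) (nat_lit 29) (nat_lit 5) (nat_lit 28) (nat_lit 5) (nat_lit 406) (nat_lit 358) (nat_lit 136)))) (XT.nd (nat_lit 78) (nat_lit 152) (nat_lit 0) (XT.lf (nat_lit 0) (nat_lit 63247908272) (nat_lit 152) (nat_lit 95237215405) (nat_lit 76) (nat_lit 145677078497) (nat_lit 27) (nat_lit 5) (nat_lit 29) (nat_lit 5) (nat_lit 28) (nat_lit 5) (nat_lit 407) (nat_lit 358) (nat_lit 135)) (XT.nd (nat_lit 78) (nat_lit 0) (nat_lit 0) (XT.lf (nat_lit 0) (nat_lit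 40788437403) (nat_lit 152) (nat_lit 81603383875) (nat_lit 228) (nat_lit 192890444376) (nat_lit 25) (nat_lit 5) (nat_lit 27) (nat_lit 5) (nat_lit 28) (nat_lit 5) (nat_lit 408) (nat_lit 358) (nat_lit 134)) (XT.lf (nat_lit 0) (nat_lit 186118410573) (nat_lit 228) (nat_lit 139968890070) (nat_lit 76) (nat_lit 789757715) (nat_lit 25) (nat_lit 5) (nat_lit 28) (nat_lit 5) (nat_lit 26) (nat_lit 4) (nat_lit 409) (nat_lit 358) (nat_lit 133)))))) (XT.nd (nat_lit 468) (nat_lit 228) (nat_lit 0) (XT.nd (nat_lit 234) (nat_lit 228) (nat_lit 0) (XT.nd (nat_lit 78) (nat_lit 152) (nat_lit 0) (XT.lf (nat_lit 0) (nat_lit 254368949389) (nat_lit 228) (nat_lit 55709589) (nat_lit 76) (nat_lit 84560050796) (nat_lit 25) (nat_lit 5) (nat_lit 28) (nat_lit 5) (nat_lit 26) (nat_lit 4) (nat_lit 410) (nat_lit 358) (nat_lit 132)) (XT.nd (nat_lit 78) (nat_lit 76) (nat_lit 0) (XT.lf (nat_lit 0) (nat_lit 151708517319) (nat_lit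 76) (nat_lit 176691959292) (nat_lit 152) (nat_lit 23178844152) (nat_lit 24) (nat_lit 5) (nat_lit 25) (nat_lit 5) (nat_lit 26) (nat_lit 4) (nat_lit 411) (nat_lit 358) (nat_lit 131)) (XT.lf (nat_lit 0) (nat_lit 40007928269) (nat_lit 152) (nat_lit 54386250062) (nat_lit 76) (nat_lit 270377178952) (nat_lit 23) (nat_lit 5) (nat_lit 25) (nat_lit 5) (nat_lit 24) (nat_lit 5) (nat_lit 412) (nat_lit 358) (nat_lit 130)))) (XT.nd (nat_lit 78) (nat_lit 76) (nat_lit 0) (XT.lf (nat_lit 0) (nat_lit 101232396642) (nat_lit 152) (nat_lit 5923076190) (nat_lit 228) (nat_lit 271369504075) (nat_lit 21) (nat_lit 5) (nat_lit 23) (nat_lit 5) (nat_lit 24) (nat_lit 5) (nat_lit 413) (nat_lit 358) (nat_lit 129)) (XT.nd (nat_lit 78) (nat_lit 76) (nat_lit 0) (XT.lf (nat_lit 0) (nat_lit 179954295914) (nat_lit 228) (nat_lit 127773273990) (nat_lit 76) (nat_lit 85124012607) (nat_lit 21) (nat_lit 5) (nat_lit 24) (nat_lit 5)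 (nat_lit 22) (nat_lit 4) (nat_lit 414) (nat_lit 358) (nat_lit 128)) (XT.lf (nat_lit 0) (nat_lit 30087678848) (nat_lit 76) (nat_lit 226872114286) (nat_lit 152) (nat_lit 150906388670) (nat_lit 20) (nat_lit 5) (nat_lit 21) (nat_lit 5) (nat_lit 22) (nat_lit 4) (nat_lit 415) (nat_lit 358) (nat_lit 127))))) (XT.nd (nat_lit 234) (nat_lit 76) (nat_lit 0) (XT.nd (nat_lit 78) (nat_lit 152) (nat_lit 0) (XT.lf (nat_lit 0) (nat_lit 200277469547) (nat_lit 76) (nat_lit 139701880706) (nat_lit 152) (nat_lit 83543971614) (nat_lit 20) (nat_lit 5) (nat_lit 21) (nat_lit 5) (nat_lit 22) (nat_lit 4) (nat_lit 416) (nat_lit 358) (nat_lit 126)) (XT.nd (nat_lit 78) (nat_lit 152) (nat_lit 0) (XT.lf (nat_lit 0) (nat_lit 378976550415) (nat_lit 76) (nat_lit 48173223209) (nat_lit 152) (nat_lit 12813550941) (nat_lit 20) (nat_lit 5) (nat_lit 21) (nat_lit 5) (nat_lit 22) (nat_lit 4) (nat_lit 417) (nat_lit 358) (nat_lit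 125)) (XT.lf (nat_lit 0) (nat_lit 62027937613) (nat_lit 152) (nat_lit 345872022071) (nat_lit 76) (nat_lit 49150322823) (nat_lit 18) (nat_lit 5) (nat_lit 20) (nat_lit 5) (nat_lit 19) (nat_lit 4) (nat_lit 418) (nat_lit 358) (nat_lit 124)))) (XT.nd (nat_lit 78) (nat_lit 76) (nat_lit 0) (XT.lf (nat_lit 0) (nat_lit 142020271349) (nat_lit 152) (nat_lit 181887985870) (nat_lit 76) (nat_lit 150980858759) (nat_lit 18) (nat_lit 5) (nat_lit 20) (nat_lit 5) (nat_lit 19) (nat_lit 4) (nat_lit 419) (nat_lit 358) (nat_lit 123)) (XT.nd (nat_lit 78) (nat_lit 76) (nat_lit 0) (XT.lf (nat_lit 0) (nat_lit 226012119652) (nat_lit 152) (nat_lit 9704932999) (nat_lit 76) (nat_lit 257902843621) (nat_lit 18) (nat_lit 5) (nat_lit 20) (nat_lit 5) (nat_lit 19) (nat_lit 4) (nat_lit 420) (nat_lit 358) (nat_lit 122)) (XT.lf (nat_lit 0) (nat_lit 176744008244) (nat_lit 76) (nat_lit 140218924163) (nat_lit 152) (nat_lit 196186314613)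 (nat_lit 17) (nat_lit 5) (nat_lit 18) (nat_lit 5) (nat_lit 19) (nat_lit 4) (nat_lit 421) (nat_lit 358) (nat_lit 121))))))) (XT.nd (nat_lit 858) (nat_lit 2052) (nat_lit 0) (XT.nd (nat_lit 390) (nat_lit 0) (nat_lit 76) (XT.nd (nat_lit 156) (nat_lit 760) (nat_lit 0) (XT.nd (nat_lit 78) (nat_lit 0) (nat_lit 0) (XT.lf (nat_lit 0) (nat_lit 17802412549) (nat_lit 0) (nat_lit 17802412549) (nat_lit 684) (nat_lit 702943336) (nat_lit 100) (nat_lit 5) (nat_lit 100) (nat_lit 3) (nat_lit 109) (nat_lit 3) (nat_lit 359) (nat_lit 359) (nat_lit 182)) (XT.lf (nat_lit 0) (nat_lit 71094531553) (nat_lit 0) (nat_lit 1907069264) (nat_lit 684) (nat_lit 1428720994) (nat_lit 100) (nat_lit 5) (nat_lit 100) (nat_lit 3) (nat_lit 109) (nat_lit 3) (nat_lit 360) (nat_lit 359) (nat_lit 181))) (XT.nd (nat_lit 78) (nat_lit 760) (nat_lit 0) (XT.lf (nat_lit 76) (nat_lit 32541336537) (nat_lit 0) (nat_lit 43371777730) (nat_lit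 760) (nat_lit 371234623) (nat_lit 101) (nat_lit 5) (nat_lit 100) (nat_lit 5) (nat_lit 110) (nat_lit 5) (nat_lit 361) (nat_lit 359) (nat_lit 180)) (XT.nd (nat_lit 78) (nat_lit 0) (nat_lit 76) (XT.lf (nat_lit 0) (nat_lit 803424687) (nat_lit 760) (nat_lit 7944288852) (nat_lit 836) (nat_lit 69478390073) (nat_lit 90) (nat_lit 5) (nat_lit 100) (nat_lit 5) (nat_lit 101) (nat_lit 5) (nat_lit 362) (nat_lit 359) (nat_lit 179)) (XT.lf (nat_lit 0) (nat_lit 2940650246) (nat_lit 760) (nat_lit 50061917810) (nat_lit 836) (nat_lit 27216259261) (nat_lit 91) (nat_lit 5) (nat_lit 101) (nat_lit 5) (nat_lit 102) (nat_lit 5) (nat_lit 363) (nat_lit 359) (nat_lit 178))))) (XT.nd (nat_lit 234) (nat_lit 0) (nat_lit 152) (XT.nd (nat_lit 78) (nat_lit 0) (nat_lit 76) (XT.lf (nat_lit 0) (nat_lit 5464225912) (nat_lit 760) (nat_lit 12011543647) (nat_lit 836) (nat_lit 64821444154) (nat_lit 91) (nat_lit 5) (nat_lit 101)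 (nat_lit 5) (nat_lit 102) (nat_lit 5) (nat_lit 364) (nat_lit 359) (nat_lit 177)) (XT.nd (nat_lit 78) (nat_lit 0) (nat_lit 0) (XT.lf (nat_lit 0) (nat_lit 8880961515) (nat_lit 760) (nat_lit 55909195361) (nat_lit 836) (nat_lit 19651014399) (nat_lit 92) (nat_lit 5) (nat_lit 102) (nat_lit 5) (nat_lit 103) (nat_lit 5) (nat_lit 365) (nat_lit 359) (nat_lit 176)) (XT.lf (nat_lit 0) (nat_lit 12961173673) (nat_lit 760) (nat_lit 15452747532) (nat_lit 836) (nat_lit 58253774382) (nat_lit 92) (nat_lit 5) (nat_lit 102) (nat_lit 5) (nat_lit 103) (nat_lit 5) (nat_lit 366) (nat_lit 359) (nat_lit 175)))) (XT.nd (nat_lit 78) (nat_lit 0) (nat_lit 0) (XT.lf (nat_lit 0) (nat_lit 17840584568) (nat_lit 760) (nat_lit 61223944777) (nat_lit 836) (nat_lit 9911258181) (nat_lit 93) (nat_lit 5) (nat_lit 103) (nat_lit 5) (nat_lit 104) (nat_lit 5) (nat_lit 367) (nat_lit 359) (nat_lit 174)) (XT.nd (nat_lit 78) (nat_lit 0)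 (nat_lit 0) (XT.lf (nat_lit 0) (nat_lit 23695205139) (nat_lit 760) (nat_lit 18203600314) (nat_lit 836) (nat_lit 49463917435) (nat_lit 93) (nat_lit 5) (nat_lit 103) (nat_lit 5) (nat_lit 104) (nat_lit 5) (nat_lit 368) (nat_lit 359) (nat_lit 173)) (XT.lf (nat_lit 76) (nat_lit 27858988573) (nat_lit 0) (nat_lit 2417998601) (nat_lit 836) (nat_lit 63570297064) (nat_lit 94) (nat_lit 5) (nat_lit 93) (nat_lit 5) (nat_lit 104) (nat_lit 5) (nat_lit 369) (nat_lit 359) (nat_lit 172)))))) (XT.nd (nat_lit 468) (nat_lit 988) (nat_lit 0) (XT.nd (nat_lit 234) (nat_lit 684) (nat_lit 0) (XT.nd (nat_lit 78) (nat_lit 684) (nat_lit 0) (XT.lf (nat_lit 0) (nat_lit 38110166784) (nat_lit 760) (nat_lit 20198947783) (nat_lit 76) (nat_lit 38100844372) (nat_lit 94) (nat_lit 5) (nat_lit 104) (nat_lit 5) (nat_lit 95) (nat_lit 5) (nat_lit 370) (nat_lit 359) (nat_lit 171)) (XT.nd (nat_lit 78) (nat_lit 0) (nat_lit 0) (XT.lf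 (nat_lit 0) (nat_lit 28760304400) (nat_lit 684) (nat_lit 18062886586) (nat_lit 760) (nat_lit 52253167784) (nat_lit 85) (nat_lit 5) (nat_lit 94) (nat_lit 5) (nat_lit 95) (nat_lit 5) (nat_lit 371) (nat_lit 359) (nat_lit 170)) (XT.lf (nat_lit 0) (nat_lit 56696849449) (nat_lit 760) (nat_lit 21374014119) (nat_lit 76) (nat_lit 23768966513) (nat_lit 85) (nat_lit 5) (nat_lit 95) (nat_lit 5) (nat_lit 86) (nat_lit 5) (nat_lit 372) (nat_lit 359) (nat_lit 169)))) (XT.nd (nat_lit 78) (nat_lit 304) (nat_lit 0) (XT.lf (nat_lit 0) (nat_lit 30701216654) (nat_lit 380) (nat_lit 37137975580) (nat_lit 456) (nat_lit 36863533266) (nat_lit 80) (nat_lit 5) (nat_lit 85) (nat_lit 5) (nat_lit 86) (nat_lit 5) (nat_lit 373) (nat_lit 359) (nat_lit 168)) (XT.nd (nat_lit 78) (nat_lit 304) (nat_lit 0) (XT.lf (nat_lit 0) (nat_lit 79997339692) (nat_lit 456) (nat_lit 21665981885) (nat_lit 76) (nat_lit 6022510317) (nat_lit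 80) (nat_lit 5) (nat_lit 86) (nat_lit 5) (nat_lit 81) (nat_lit 5) (nat_lit 374) (nat_lit 359) (nat_lit 167)) (XT.lf (nat_lit 0) (nat_lit 33757530643) (nat_lit 304) (nat_lit 60141324337) (nat_lit 380) (nat_lit 16862466161) (nat_lit 76) (nat_lit 5) (nat_lit 80) (nat_lit 5) (nat_lit 81) (nat_lit 5) (nat_lit 375) (nat_lit 359) (nat_lit 166))))) (XT.nd (nat_lit 234) (nat_lit 608) (nat_lit 0) (XT.nd (nat_lit 78) (nat_lit 380) (nat_lit 0) (XT.lf (nat_lit 0) (nat_lit 92703996286) (nat_lit 304) (nat_lit 16157978108) (nat_lit 380) (nat_lit 5110284565) (nat_lit 76) (nat_lit 5) (nat_lit 80) (nat_lit 5) (nat_lit 81) (nat_lit 5) (nat_lit 376) (nat_lit 359) (nat_lit 165)) (XT.nd (nat_lit 78) (nat_lit 0) (nat_lit 0) (XT.lf (nat_lit 0) (nat_lit 8077215416) (nat_lit 380) (nat_lit 79419804845) (nat_lit 76) (nat_lit 29787125312) (nat_lit 71) (nat_lit 5) (nat_lit 76) (nat_lit 5) (nat_lit 72) (nat_lit 5) (nat_lit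 377) (nat_lit 359) (nat_lit 164)) (XT.lf (nat_lit 0) (nat_lit 22382957369) (nat_lit 380) (nat_lit 20406643238) (nat_lit 76) (nat_lit 77936307306) (nat_lit 71) (nat_lit 5) (nat_lit 76) (nat_lit 5) (nat_lit 72) (nat_lit 5) (nat_lit 378) (nat_lit 359) (nat_lit 163)))) (XT.nd (nat_lit 78) (nat_lit 304) (nat_lit 0) (XT.lf (nat_lit 0) (nat_lit 38149733039) (nat_lit 380) (nat_lit 81451263765) (nat_lit 76) (nat_lit 4701474671) (nat_lit 67) (nat_lit 5) (nat_lit 72) (nat_lit 5) (nat_lit 68) (nat_lit 5) (nat_lit 379) (nat_lit 359) (nat_lit 162)) (XT.nd (nat_lit 78) (nat_lit 304) (nat_lit 0) (XT.lf (nat_lit 0) (nat_lit 55757233955) (nat_lit 380) (nat_lit 18767705934) (nat_lit 76) (nat_lit 53480304415) (nat_lit 67) (nat_lit 5) (nat_lit 72) (nat_lit 5) (nat_lit 68) (nat_lit 5) (nat_lit 380) (nat_lit 359) (nat_lit 161)) (XT.lf (nat_lit 0) (nat_lit 48605310956) (nat_lit 304) (nat_lit 26398336186) (nat_lit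 380) (nat_lit 56851582167) (nat_lit 63) (nat_lit 5) (nat_lit 67) (nat_lit 5) (nat_lit 68) (nat_lit 5) (nat_lit 381) (nat_lit 359) (nat_lit 160))))))))
noncomputable def xc230 : XT := (XT.nd (nat_lit 1794) (nat_lit 988) (nat_lit 0) (XT.nd (nat_lit 858) (nat_lit 1140) (nat_lit 0) (XT.nd (nat_lit 390) (nat_lit 684) (nat_lit 0) (XT.nd (nat_lit 156) (nat_lit 380) (nat_lit 0) (XT.nd (nat_lit 78) (nat_lit 228) (nat_lit 0) (XT.lf (nat_lit 0) (nat_lit 95911921007) (nat_lit 380) (nat_lit 16265690926) (nat_lit 76) (nat_lit 23685125005) (nat_lit 63) (nat_lit 5) (nat_lit 68) (nat_lit 5) (nat_lit 64) (nat_lit 5) (nat_lit 382) (nat_lit 359) (nat_lit 159)) (XT.lf (nat_lit 0) (nat_lit 55408008435) (nat_lit 228) (nat_lit 63755129874) (nat_lit 304) (nat_lit 20842605509) (nat_lit 60) (nat_lit 5) (nat_lit 63) (nat_lit 5) (nat_lit 64) (nat_lit 5) (nat_lit 383) (nat_lit 359) (nat_lit 158))) (XT.nd (nat_lit 78)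 (nat_lit 380) (nat_lit 0) (XT.lf (nat_lit 0) (nat_lit 131229724862) (nat_lit 228) (nat_lit 12622363417) (nat_lit 304) (nat_lit 490054514) (nat_lit 60) (nat_lit 5) (nat_lit 63) (nat_lit 5) (nat_lit 64) (nat_lit 5) (nat_lit 384) (nat_lit 359) (nat_lit 157)) (XT.nd (nat_lit 78) (nat_lit 0) (nat_lit 0) (XT.lf (nat_lit 0) (nat_lit 21868234870) (nat_lit 380) (nat_lit 85833927774) (nat_lit 76) (nat_lit 41094079258) (nat_lit 55) (nat_lit 5) (nat_lit 60) (nat_lit 5) (nat_lit 56) (nat_lit 5) (nat_lit 385) (nat_lit 359) (nat_lit 156)) (XT.lf (nat_lit 0) (nat_lit 45760319511) (nat_lit 380) (nat_lit 10384899274) (nat_lit 76) (nat_lit 97305808300) (nat_lit 55) (nat_lit 5) (nat_lit 60) (nat_lit 5) (nat_lit 56) (nat_lit 5) (nat_lit 386) (nat_lit 359) (nat_lit 155))))) (XT.nd (nat_lit 234) (nat_lit 228) (nat_lit 0) (XT.nd (nat_lit 78) (nat_lit 228) (nat_lit 0) (XT.lf (nat_lit 0) (nat_lit 71112260108) (nat_lit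 228) (nat_lit 844743552) (nat_lit 304) (nat_lit 86326048384) (nat_lit 52) (nat_lit 5) (nat_lit 55) (nat_lit 5) (nat_lit 56) (nat_lit 5) (nat_lit 387) (nat_lit 359) (nat_lit 154)) (XT.nd (nat_lit 78) (nat_lit 228) (nat_lit 0) (XT.lf (nat_lit 0) (nat_lit 100535394206) (nat_lit 304) (nat_lit 7199689395) (nat_lit 76) (nat_lit 55568001306) (nat_lit 52) (nat_lit 5) (nat_lit 56) (nat_lit 5) (nat_lit 53) (nat_lit 5) (nat_lit 388) (nat_lit 359) (nat_lit 153)) (XT.lf (nat_lit 0) (nat_lit 79293666839) (nat_lit 228) (nat_lit 52500633836) (nat_lit 304) (nat_lit 36717239174) (nat_lit 49) (nat_lit 5) (nat_lit 52) (nat_lit 5) (nat_lit 53) (nat_lit 5) (nat_lit 389) (nat_lit 359) (nat_lit 152)))) (XT.nd (nat_lit 78) (nat_lit 228) (nat_lit 0) (XT.lf (nat_lit 0) (nat_lit 164825639059) (nat_lit 304) (nat_lit 3700823724) (nat_lit 76) (nat_lit 5443480668) (nat_lit 49) (nat_lit 5) (nat_lit 53) (nat_lit 5) (nat_lit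 50) (nat_lit 5) (nat_lit 390) (nat_lit 359) (nat_lit 151)) (XT.nd (nat_lit 78) (nat_lit 0) (nat_lit 0) (XT.lf (nat_lit 0) (nat_lit 21445091069) (nat_lit 228) (nat_lit 91886197542) (nat_lit 76) (nat_lit 66240927959) (nat_lit 46) (nat_lit 5) (nat_lit 49) (nat_lit 5) (nat_lit 47) (nat_lit 5) (nat_lit 391) (nat_lit 359) (nat_lit 150)) (XT.lf (nat_lit 0) (nat_lit 53320120739) (nat_lit 228) (nat_lit 1832052145) (nat_lit 76) (nat_lit 130291761688) (nat_lit 46) (nat_lit 5) (nat_lit 49) (nat_lit 5) (nat_lit 47) (nat_lit 5) (nat_lit 392) (nat_lit 359) (nat_lit 149)))))) (XT.nd (nat_lit 468) (nat_lit 532) (nat_lit 0) (XT.nd (nat_lit 234) (nat_lit 228) (nat_lit 0) (XT.nd (nat_lit 78) (nat_lit 152) (nat_lit 0) (XT.lf (nat_lit 0) (nat_lit 88401431015) (nat_lit 304) (nat_lit 95861293560) (nat_lit 76) (nat_lit 7265887642) (nat_lit 43) (nat_lit 5) (nat_lit 47) (nat_lit 5) (nat_lit 44) (nat_lit 5) (nat_lit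 393) (nat_lit 359) (nat_lit 148)) (XT.nd (nat_lit 78) (nat_lit 152) (nat_lit 0) (XT.lf (nat_lit 0) (nat_lit 126172261266) (nat_lit 304) (nat_lit 715676997) (nat_lit 76) (nat_lit 70982812948) (nat_lit 43) (nat_lit 5) (nat_lit 47) (nat_lit 5) (nat_lit 44) (nat_lit 5) (nat_lit 394) (nat_lit 359) (nat_lit 147)) (XT.lf (nat_lit 0) (nat_lit 102466478391) (nat_lit 152) (nat_lit 64964738914) (nat_lit 228) (nat_lit 37018800817) (nat_lit 41) (nat_lit 5) (nat_lit 43) (nat_lit 5) (nat_lit 44) (nat_lit 5) (nat_lit 395) (nat_lit 359) (nat_lit 146)))) (XT.nd (nat_lit 78) (nat_lit 228) (nat_lit 0) (XT.lf (nat_lit 0) (nat_lit 210766091700) (nat_lit 228) (nat_lit 526418351) (nat_lit 76) (nat_lit 65089971) (nat_lit 41) (nat_lit 5) (nat_lit 44) (nat_lit 5) (nat_lit 42) (nat_lit 5) (nat_lit 396) (nat_lit 359) (nat_lit 145)) (XT.nd (nat_lit 78) (nat_lit 0) (nat_lit 0) (XT.lf (nat_lit 0) (nat_lit 39254443991)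 (nat_lit 228) (nat_lit 110697831053) (nat_lit 76) (nat_lit 68488761491) (nat_lit 38) (nat_lit 5) (nat_lit 41) (nat_lit 5) (nat_lit 39) (nat_lit 5) (nat_lit 397) (nat_lit 359) (nat_lit 144)) (XT.lf (nat_lit 0) (nat_lit 81081686325) (nat_lit 228) (nat_lit 4443755062) (nat_lit 76) (nat_lit 140352275245) (nat_lit 38) (nat_lit 5) (nat_lit 41) (nat_lit 5) (nat_lit 39) (nat_lit 5) (nat_lit 398) (nat_lit 359) (nat_lit 143))))) (XT.nd (nat_lit 234) (nat_lit 228) (nat_lit 0) (XT.nd (nat_lit 78) (nat_lit 152) (nat_lit 0) (XT.lf (nat_lit 0) (nat_lit 110664701035) (nat_lit 152) (nat_lit 16063194586) (nat_lit 228) (nat_lit 106871955010) (nat_lit 36) (nat_lit 5) (nat_lit 38) (nat_lit 5) (nat_lit 39) (nat_lit 5) (nat_lit 399) (nat_lit 359) (nat_lit 142)) (XT.nd (nat_lit 78) (nat_lit 152) (nat_lit 0) (XT.lf (nat_lit 0) (nat_lit 175620661482) (nat_lit 228) (nat_lit 10910926999) (nat_lit 76) (nat_lit 55128290680)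 (nat_lit 36) (nat_lit 5) (nat_lit 39) (nat_lit 5) (nat_lit 37) (nat_lit 5) (nat_lit 400) (nat_lit 359) (nat_lit 141)) (XT.lf (nat_lit 0) (nat_lit 109970648921) (nat_lit 152) (nat_lit 118967527661) (nat_lit 228) (nat_lit 21085727118) (nat_lit 34) (nat_lit 5) (nat_lit 36) (nat_lit 5) (nat_lit 37) (nat_lit 5) (nat_lit 401) (nat_lit 359) (nat_lit 140)))) (XT.nd (nat_lit 78) (nat_lit 152) (nat_lit 0) (XT.lf (nat_lit 0) (nat_lit 25467222811) (nat_lit 228) (nat_lit 21932823949) (nat_lit 76) (nat_lit 211376313964) (nat_lit 33) (nat_lit 5) (nat_lit 36) (nat_lit 5) (nat_lit 34) (nat_lit 5) (nat_lit 402) (nat_lit 359) (nat_lit 139)) (XT.nd (nat_lit 78) (nat_lit 0) (nat_lit 0) (XT.lf (nat_lit 0) (nat_lit 75745890478) (nat_lit 228) (nat_lit 163220932132) (nat_lit 76) (nat_lit 28877000271) (nat_lit 31) (nat_lit 5) (nat_lit 34) (nat_lit 5) (nat_lit 32) (nat_lit 5) (nat_lit 403) (nat_lit 359) (nat_lit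 138)) (XT.lf (nat_lit 0) (nat_lit 129692914717) (nat_lit 228) (nat_lit 39861640489) (nat_lit 76) (nat_lit 107752381887) (nat_lit 31) (nat_lit 5) (nat_lit 34) (nat_lit 5) (nat_lit 32) (nat_lit 5) (nat_lit 404) (nat_lit 359) (nat_lit 137))))))) (XT.nd (nat_lit 858) (nat_lit 228) (nat_lit 0) (XT.nd (nat_lit 390) (nat_lit 304) (nat_lit 0) (XT.nd (nat_lit 156) (nat_lit 304) (nat_lit 0) (XT.nd (nat_lit 78) (nat_lit 0) (nat_lit 0) (XT.lf (nat_lit 0) (nat_lit 92630105579) (nat_lit 152) (nat_lit 95153248726) (nat_lit 228) (nat_lit 99387549602) (nat_lit 29) (nat_lit 5) (nat_lit 31) (nat_lit 5) (nat_lit 32) (nat_lit 5) (nat_lit 405) (nat_lit 359) (nat_lit 136)) (XT.lf (nat_lit 0) (nat_lit 233130097144) (nat_lit 152) (nat_lit 16323146834) (nat_lit 228) (nat_lit 48041078776) (nat_lit 29) (nat_lit 5) (nat_lit 31) (nat_lit 5) (nat_lit 32) (nat_lit 5) (nat_lit 406) (nat_lit 359) (nat_lit 135))) (XT.nd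 (nat_lit 78) (nat_lit 152) (nat_lit 0) (XT.lf (nat_lit 0) (nat_lit 7907642856) (nat_lit 152) (nat_lit 234711662102) (nat_lit 76) (nat_lit 65598878652) (nat_lit 27) (nat_lit 5) (nat_lit 29) (nat_lit 5) (nat_lit 28) (nat_lit 5) (nat_lit 407) (nat_lit 359) (nat_lit 134)) (XT.nd (nat_lit 78) (nat_lit 152) (nat_lit 0) (XT.lf (nat_lit 0) (nat_lit 66414664874) (nat_lit 152) (nat_lit 99991612398) (nat_lit 76) (nat_lit 152963814408) (nat_lit 27) (nat_lit 5) (nat_lit 29) (nat_lit 5) (nat_lit 28) (nat_lit 5) (nat_lit 408) (nat_lit 359) (nat_lit 133)) (XT.lf (nat_lit 0) (nat_lit 42835202667) (nat_lit 152) (nat_lit 85680477838) (nat_lit 228) (nat_lit 202530482601) (nat_lit 25) (nat_lit 5) (nat_lit 27) (nat_lit 5) (nat_lit 28) (nat_lit 5) (nat_lit 409) (nat_lit 359) (nat_lit 132))))) (XT.nd (nat_lit 234) (nat_lit 228) (nat_lit 0) (XT.nd (nat_lit 78) (nat_lit 76) (nat_lit 0) (XT.lf (nat_lit 0) (nat_lit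 195428441746) (nat_lit 228) (nat_lit 146960181038) (nat_lit 76) (nat_lit 832080653) (nat_lit 25) (nat_lit 5) (nat_lit 28) (nat_lit 5) (nat_lit 26) (nat_lit 4) (nat_lit 410) (nat_lit 359) (nat_lit 131)) (XT.nd (nat_lit 78) (nat_lit 76) (nat_lit 0) (XT.lf (nat_lit 0) (nat_lit 267091311758) (nat_lit 228) (nat_lit 51682177) (nat_lit 76) (nat_lit 88790753385) (nat_lit 25) (nat_lit 5) (nat_lit 28) (nat_lit 5) (nat_lit 26) (nat_lit 4) (nat_lit 411) (nat_lit 359) (nat_lit 130)) (XT.lf (nat_lit 0) (nat_lit 159300646190) (nat_lit 76) (nat_lit 185523687379) (nat_lit 152) (nat_lit 24333759482) (nat_lit 24) (nat_lit 5) (nat_lit 25) (nat_lit 5) (nat_lit 26) (nat_lit 4) (nat_lit 412) (nat_lit 359) (nat_lit 129)))) (XT.nd (nat_lit 78) (nat_lit 152) (nat_lit 0) (XT.lf (nat_lit 0) (nat_lit 42012037056) (nat_lit 152) (nat_lit 57099054104) (nat_lit 76) (nat_lit 283898646470) (nat_lit 23) (nat_lit 5) (nat_lit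 25) (nat_lit 5) (nat_lit 24) (nat_lit 5) (nat_lit 413) (nat_lit 359) (nat_lit 128)) (XT.nd (nat_lit 78) (nat_lit 0) (nat_lit 0) (XT.lf (nat_lit 0) (nat_lit 106300419960) (nat_lit 152) (nat_lit 6216462085) (nat_lit 228) (nat_lit 284934160123) (nat_lit 21) (nat_lit 5) (nat_lit 23) (nat_lit 5) (nat_lit 24) (nat_lit 5) (nat_lit 414) (nat_lit 359) (nat_lit 127)) (XT.lf (nat_lit 0) (nat_lit 188955514315) (nat_lit 228) (nat_lit 134155705445) (nat_lit 76) (nat_lit 89382764976) (nat_lit 21) (nat_lit 5) (nat_lit 24) (nat_lit 5) (nat_lit 22) (nat_lit 4) (nat_lit 415) (nat_lit 359) (nat_lit 126)))))) (XT.nd (nat_lit 42588) (nat_lit 0) (nat_lit 5472) (XT.nd (nat_lit 234) (nat_lit 152) (nat_lit 0) (XT.nd (nat_lit 78) (nat_lit 0) (nat_lit 0) (XT.lf (nat_lit 0) (nat_lit 31598194515) (nat_lit 76) (nat_lit 238213020776) (nat_lit 152) (nat_lit 158448102339) (nat_lit 20) (nat_lit 5) (nat_lit 21) (nat_lit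 5) (nat_lit 22) (nat_lit 4) (nat_lit 416) (nat_lit 359) (nat_lit 125)) (XT.nd (nat_lit 78) (nat_lit 0) (nat_lit 0) (XT.lf (nat_lit 0) (nat_lit 210297182762) (nat_lit 76) (nat_lit 146684404051) (nat_lit 152) (nat_lit 87717736133) (nat_lit 20) (nat_lit 5) (nat_lit 21) (nat_lit 5) (nat_lit 22) (nat_lit 4) (nat_lit 417) (nat_lit 359) (nat_lit 124)) (XT.lf (nat_lit 0) (nat_lit 397930939590) (nat_lit 76) (nat_lit 50579436093) (nat_lit 152) (nat_lit 13450957954) (nat_lit 20) (nat_lit 5) (nat_lit 21) (nat_lit 5) (nat_lit 22) (nat_lit 4) (nat_lit 418) (nat_lit 359) (nat_lit 123)))) (XT.nd (nat_lit 78) (nat_lit 0) (nat_lit 0) (XT.lf (nat_lit 0) (nat_lit 65132475287) (nat_lit 152) (nat_lit 363159929013) (nat_lit 76) (nat_lit 51610233945) (nat_lit 18) (nat_lit 5) (nat_lit 20) (nat_lit 5) (nat_lit 19) (nat_lit 4) (nat_lit 419) (nat_lit 359) (nat_lit 122)) (XT.nd (nat_lit 42198) (nat_lit 0) (nat_lit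 6232) (XT.lf (nat_lit 0) (nat_lit 149124276148) (nat_lit 152) (nat_lit 190976962152) (nat_lit 76) (nat_lit 158532182630) (nat_lit 18) (nat_lit 5) (nat_lit 20) (nat_lit 5) (nat_lit 19) (nat_lit 4) (nat_lit 420) (nat_lit 359) (nat_lit 121)) (XT.lf (nat_lit 0) (nat_lit 18698296451) (nat_lit 0) (nat_lit 18698296451) (nat_lit 684) (nat_lit 725969896) (nat_lit 100) (nat_lit 5) (nat_lit 100) (nat_lit 3) (nat_lit 109) (nat_lit 3) (nat_lit 360) (nat_lit 360) (nat_lit 180))))) (XT.nd (nat_lit 234) (nat_lit 0) (nat_lit 76) (XT.nd (nat_lit 78) (nat_lit 760) (nat_lit 0) (XT.lf (nat_lit 0) (nat_lit 74660235799) (nat_lit 0) (nat_lit 2013400394) (nat_lit 684) (nat_lit 1477070172) (nat_lit 100) (nat_lit 5) (nat_lit 100) (nat_lit 3) (nat_lit 109) (nat_lit 3) (nat_lit 361) (nat_lit 360) (nat_lit 179)) (XT.nd (nat_lit 78) (nat_lit 760) (nat_lit 0) (XT.lf (nat_lit 76) (nat_lit 34180485886) (nat_lit 0) (nat_lit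 45549219348) (nat_lit 760) (nat_lit 367782175) (nat_lit 101) (nat_lit 5) (nat_lit 100) (nat_lit 5) (nat_lit 110) (nat_lit 5) (nat_lit 362) (nat_lit 360) (nat_lit 178)) (XT.lf (nat_lit 0) (nat_lit 863890767) (nat_lit 760) (nat_lit 8329295920) (nat_lit 836) (nat_lit 72943178192) (nat_lit 90) (nat_lit 5) (nat_lit 100) (nat_lit 5) (nat_lit 101) (nat_lit 5) (nat_lit 363) (nat_lit 360) (nat_lit 177)))) (XT.nd (nat_lit 78) (nat_lit 0) (nat_lit 0) (XT.lf (nat_lit 0) (nat_lit 3107081518) (nat_lit 760) (nat_lit 52551882458) (nat_lit 836) (nat_lit 28569806986) (nat_lit 91) (nat_lit 5) (nat_lit 101) (nat_lit 5) (nat_lit 102) (nat_lit 5) (nat_lit 364) (nat_lit 360) (nat_lit 176)) (XT.nd (nat_lit 78) (nat_lit 0) (nat_lit 76) (XT.lf (nat_lit 0) (nat_lit 5755912217) (nat_lit 760) (nat_lit 12599614884) (nat_lit 836) (nat_lit 68055597088) (nat_lit 91) (nat_lit 5) (nat_lit 101) (nat_lit 5) (nat_lit 102)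 (nat_lit 5) (nat_lit 365) (nat_lit 360) (nat_lit 175)) (XT.lf (nat_lit 0) (nat_lit 9342711335) (nat_lit 760) (nat_lit 58691350719) (nat_lit 836) (nat_lit 20628257498) (nat_lit 92) (nat_lit 5) (nat_lit 102) (nat_lit 5) (nat_lit 103) (nat_lit 5) (nat_lit 366) (nat_lit 360) (nat_lit 174))))))))
noncomputable def xc231 : XT := (XT.nd (nat_lit 1794) (nat_lit 2052) (nat_lit 0) (XT.nd (nat_lit 858) (nat_lit 1824) (nat_lit 0) (XT.nd (nat_lit 390) (nat_lit 1216) (nat_lit 0) (XT.nd (nat_lit 156) (nat_lit 0) (nat_lit 76) (XT.nd (nat_lit 78) (nat_lit 0) (nat_lit 76) (XT.lf (nat_lit 0) (nat_lit 13626091160) (nat_lit 760) (nat_lit 16212714041) (nat_lit 836) (nat_lit 61161408225) (nat_lit 92) (nat_lit 5) (nat_lit 102) (nat_lit 5) (nat_lit 103) (nat_lit 5) (nat_lit 367) (nat_lit 360) (nat_lit 173)) (XT.lf (nat_lit 0) (nat_lit 18748805356) (nat_lit 760) (nat_lit 64271781048) (nat_lit 836) (nat_lit 10403158064)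 (nat_lit 93) (nat_lit 5) (nat_lit 103) (nat_lit 5) (nat_lit 104) (nat_lit 5) (nat_lit 368) (nat_lit 360) (nat_lit 172))) (XT.nd (nat_lit 78) (nat_lit 0) (nat_lit 0) (XT.lf (nat_lit 0) (nat_lit 24895385929) (nat_lit 760) (nat_lit 19101055598) (nat_lit 836) (nat_lit 51933624711) (nat_lit 93) (nat_lit 5) (nat_lit 103) (nat_lit 5) (nat_lit 104) (nat_lit 5) (nat_lit 369) (nat_lit 360) (nat_lit 171)) (XT.nd (nat_lit 78) (nat_lit 0) (nat_lit 76) (XT.lf (nat_lit 76) (nat_lit 29264457495) (nat_lit 0) (nat_lit 2541260723) (nat_lit 836) (nat_lit 66733165415) (nat_lit 94) (nat_lit 5) (nat_lit 93) (nat_lit 5) (nat_lit 104) (nat_lit 5) (nat_lit 370) (nat_lit 360) (nat_lit 170)) (XT.lf (nat_lit 0) (nat_lit 40029813033) (nat_lit 760) (nat_lit 21196208324) (nat_lit 76) (nat_lit 40003708889) (nat_lit 94) (nat_lit 5) (nat_lit 104) (nat_lit 5) (nat_lit 95) (nat_lit 5) (nat_lit 371) (nat_lit 360) (nat_lit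 169))))) (XT.nd (nat_lit 234) (nat_lit 304) (nat_lit 0) (XT.nd (nat_lit 78) (nat_lit 380) (nat_lit 0) (XT.lf (nat_lit 0) (nat_lit 30210801841) (nat_lit 684) (nat_lit 18967208253) (nat_lit 760) (nat_lit 54851464832) (nat_lit 85) (nat_lit 5) (nat_lit 94) (nat_lit 5) (nat_lit 95) (nat_lit 5) (nat_lit 372) (nat_lit 360) (nat_lit 168)) (XT.nd (nat_lit 78) (nat_lit 380) (nat_lit 0) (XT.lf (nat_lit 0) (nat_lit 59544683519) (nat_lit 760) (nat_lit 22430141125) (nat_lit 76) (nat_lit 24956329453) (nat_lit 85) (nat_lit 5) (nat_lit 95) (nat_lit 5) (nat_lit 86) (nat_lit 5) (nat_lit 373) (nat_lit 360) (nat_lit 167)) (XT.lf (nat_lit 0) (nat_lit 32248648385) (nat_lit 380) (nat_lit 38995069554) (nat_lit 456) (nat_lit 38693498474) (nat_lit 80) (nat_lit 5) (nat_lit 85) (nat_lit 5) (nat_lit 86) (nat_lit 5) (nat_lit 374) (nat_lit 360) (nat_lit 166)))) (XT.nd (nat_lit 78) (nat_lit 304) (nat_lit 0) (XT.lf (nat_lit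 0) (nat_lit 84009171483) (nat_lit 456) (nat_lit 22736881640) (nat_lit 76) (nat_lit 6323455882) (nat_lit 80) (nat_lit 5) (nat_lit 86) (nat_lit 5) (nat_lit 81) (nat_lit 5) (nat_lit 375) (nat_lit 360) (nat_lit 165)) (XT.nd (nat_lit 78) (nat_lit 0) (nat_lit 0) (XT.lf (nat_lit 0) (nat_lit 35457606526) (nat_lit 304) (nat_lit 63147776723) (nat_lit 380) (nat_lit 17693409203) (nat_lit 76) (nat_lit 5) (nat_lit 80) (nat_lit 5) (nat_lit 81) (nat_lit 5) (nat_lit 376) (nat_lit 360) (nat_lit 164)) (XT.lf (nat_lit 0) (nat_lit 97350814530) (nat_lit 304) (nat_lit 16965292413) (nat_lit 380) (nat_lit 5354198540) (nat_lit 76) (nat_lit 5) (nat_lit 80) (nat_lit 5) (nat_lit 81) (nat_lit 5) (nat_lit 377) (nat_lit 360) (nat_lit 163)))))) (XT.nd (nat_lit 468) (nat_lit 836) (nat_lit 0) (XT.nd (nat_lit 234) (nat_lit 304) (nat_lit 0) (XT.nd (nat_lit 78) (nat_lit 304) (nat_lit 0) (XT.lf (nat_lit 0) (nat_lit 8491969379)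 (nat_lit 380) (nat_lit 83378442201) (nat_lit 76) (nat_lit 31277383248) (nat_lit 71) (nat_lit 5) (nat_lit 76) (nat_lit 5) (nat_lit 72) (nat_lit 5) (nat_lit 378) (nat_lit 360) (nat_lit 162)) (XT.nd (nat_lit 78) (nat_lit 304) (nat_lit 0) (XT.lf (nat_lit 0) (nat_lit 23512479707) (nat_lit 380) (nat_lit 21415210747) (nat_lit 76) (nat_lit 81833981405) (nat_lit 71) (nat_lit 5) (nat_lit 76) (nat_lit 5) (nat_lit 72) (nat_lit 5) (nat_lit 379) (nat_lit 360) (nat_lit 161)) (XT.lf (nat_lit 0) (nat_lit 40067304488) (nat_lit 380) (nat_lit 85511760506) (nat_lit 76) (nat_lit 4938013693) (nat_lit 67) (nat_lit 5) (nat_lit 72) (nat_lit 5) (nat_lit 68) (nat_lit 5) (nat_lit 380) (nat_lit 360) (nat_lit 160)))) (XT.nd (nat_lit 78) (nat_lit 304) (nat_lit 0) (XT.lf (nat_lit 0) (nat_lit 58554700222) (nat_lit 380) (nat_lit 19694599377) (nat_lit 76) (nat_lit 56155715149) (nat_lit 67) (nat_lit 5) (nat_lit 72) (nat_lit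 5) (nat_lit 68) (nat_lit 5) (nat_lit 381) (nat_lit 360) (nat_lit 159)) (XT.nd (nat_lit 78) (nat_lit 0) (nat_lit 0) (XT.lf (nat_lit 0) (nat_lit 51046883006) (nat_lit 304) (nat_lit 27716270227) (nat_lit 380) (nat_lit 59684360360) (nat_lit 63) (nat_lit 5) (nat_lit 67) (nat_lit 5) (nat_lit 68) (nat_lit 5) (nat_lit 382) (nat_lit 360) (nat_lit 158)) (XT.lf (nat_lit 0) (nat_lit 100716426286) (nat_lit 380) (nat_lit 17067782399) (nat_lit 76) (nat_lit 24871209166) (nat_lit 63) (nat_lit 5) (nat_lit 68) (nat_lit 5) (nat_lit 64) (nat_lit 5) (nat_lit 383) (nat_lit 360) (nat_lit 157))))) (XT.nd (nat_lit 234) (nat_lit 228) (nat_lit 0) (XT.nd (nat_lit 78) (nat_lit 380) (nat_lit 0) (XT.lf (nat_lit 0) (nat_lit 58189421396) (nat_lit 228) (nat_lit 66940530745) (nat_lit 304) (nat_lit 21875636050) (nat_lit 60) (nat_lit 5) (nat_lit 63) (nat_lit 5) (nat_lit 64) (nat_lit 5) (nat_lit 384) (nat_lit 360) (nat_lit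 156)) (XT.nd (nat_lit 78) (nat_lit 380) (nat_lit 0) (XT.lf (nat_lit 0) (nat_lit 137801699237) (nat_lit 228) (nat_lit 13251238138) (nat_lit 304) (nat_lit 505890825) (nat_lit 60) (nat_lit 5) (nat_lit 63) (nat_lit 5) (nat_lit 64) (nat_lit 5) (nat_lit 385) (nat_lit 360) (nat_lit 155)) (XT.lf (nat_lit 0) (nat_lit 22969839863) (nat_lit 380) (nat_lit 90114645205) (nat_lit 76) (nat_lit 43151150652) (nat_lit 55) (nat_lit 5) (nat_lit 60) (nat_lit 5) (nat_lit 56) (nat_lit 5) (nat_lit 386) (nat_lit 360) (nat_lit 154)))) (XT.nd (nat_lit 78) (nat_lit 228) (nat_lit 0) (XT.lf (nat_lit 0) (nat_lit 48056138581) (nat_lit 380) (nat_lit 10893688088) (nat_lit 76) (nat_lit 102173353412) (nat_lit 55) (nat_lit 5) (nat_lit 60) (nat_lit 5) (nat_lit 56) (nat_lit 5) (nat_lit 387) (nat_lit 360) (nat_lit 153)) (XT.nd (nat_lit 78) (nat_lit 0) (nat_lit 0) (XT.lf (nat_lit 0) (nat_lit 74678160616) (nat_lit 228) (nat_lit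 884285363) (nat_lit 304) (nat_lit 90634371247) (nat_lit 52) (nat_lit 5) (nat_lit 55) (nat_lit 5) (nat_lit 56) (nat_lit 5) (nat_lit 388) (nat_lit 360) (nat_lit 152)) (XT.lf (nat_lit 0) (nat_lit 105569434600) (nat_lit 304) (nat_lit 7549547350) (nat_lit 76) (nat_lit 58348886227) (nat_lit 52) (nat_lit 5) (nat_lit 56) (nat_lit 5) (nat_lit 53) (nat_lit 5) (nat_lit 389) (nat_lit 360) (nat_lit 151))))))) (XT.nd (nat_lit 858) (nat_lit 836) (nat_lit 0) (XT.nd (nat_lit 390) (nat_lit 532) (nat_lit 0) (XT.nd (nat_lit 156) (nat_lit 456) (nat_lit 0) (XT.nd (nat_lit 78) (nat_lit 0) (nat_lit 0) (XT.lf (nat_lit 0) (nat_lit 83268313365) (nat_lit 228) (nat_lit 55122782357) (nat_lit 304) (nat_lit 38545660032) (nat_lit 49) (nat_lit 5) (nat_lit 52) (nat_lit 5) (nat_lit 53) (nat_lit 5) (nat_lit 390) (nat_lit 360) (nat_lit 150)) (XT.lf (nat_lit 0) (nat_lit 173073706753) (nat_lit 304) (nat_lit 3876075141) (nat_lit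 76) (nat_lit 5718312693) (nat_lit 49) (nat_lit 5) (nat_lit 53) (nat_lit 5) (nat_lit 50) (nat_lit 5) (nat_lit 391) (nat_lit 360) (nat_lit 149))) (XT.nd (nat_lit 78) (nat_lit 228) (nat_lit 0) (XT.lf (nat_lit 0) (nat_lit 22524073245) (nat_lit 228) (nat_lit 96470646982) (nat_lit 76) (nat_lit 69555764668) (nat_lit 46) (nat_lit 5) (nat_lit 49) (nat_lit 5) (nat_lit 47) (nat_lit 5) (nat_lit 392) (nat_lit 360) (nat_lit 148)) (XT.nd (nat_lit 78) (nat_lit 228) (nat_lit 0) (XT.lf (nat_lit 0) (nat_lit 55992534036) (nat_lit 228) (nat_lit 1914263860) (nat_lit 76) (nat_lit 136809007211) (nat_lit 46) (nat_lit 5) (nat_lit 49) (nat_lit 5) (nat_lit 47) (nat_lit 5) (nat_lit 393) (nat_lit 360) (nat_lit 147)) (XT.lf (nat_lit 0) (nat_lit 92827795701) (nat_lit 304) (nat_lit 100644847667) (nat_lit 76) (nat_lit 7632079250) (nat_lit 43) (nat_lit 5) (nat_lit 47) (nat_lit 5) (nat_lit 44) (nat_lit 5) (nat_lit 394) (nat_lit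 360) (nat_lit 146))))) (XT.nd (nat_lit 234) (nat_lit 380) (nat_lit 0) (XT.nd (nat_lit 78) (nat_lit 152) (nat_lit 0) (XT.lf (nat_lit 0) (nat_lit 132486867792) (nat_lit 304) (nat_lit 742403161) (nat_lit 76) (nat_lit 74534712857) (nat_lit 43) (nat_lit 5) (nat_lit 47) (nat_lit 5) (nat_lit 44) (nat_lit 5) (nat_lit 395) (nat_lit 360) (nat_lit 145)) (XT.nd (nat_lit 78) (nat_lit 0) (nat_lit 0) (XT.lf (nat_lit 0) (nat_lit 107598713905) (nat_lit 152) (nat_lit 68209911459) (nat_lit 228) (nat_lit 38863596267) (nat_lit 41) (nat_lit 5) (nat_lit 43) (nat_lit 5) (nat_lit 44) (nat_lit 5) (nat_lit 396) (nat_lit 360) (nat_lit 144)) (XT.lf (nat_lit 0) (nat_lit 221310010607) (nat_lit 228) (nat_lit 544014367) (nat_lit 76) (nat_lit 71169536) (nat_lit 41) (nat_lit 5) (nat_lit 44) (nat_lit 5) (nat_lit 42) (nat_lit 5) (nat_lit 397) (nat_lit 360) (nat_lit 143)))) (XT.nd (nat_lit 78) (nat_lit 152) (nat_lit 0) (XT.lf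 (nat_lit 0) (nat_lit 41222741462) (nat_lit 228) (nat_lit 116223949733) (nat_lit 76) (nat_lit 71916114052) (nat_lit 38) (nat_lit 5) (nat_lit 41) (nat_lit 5) (nat_lit 39) (nat_lit 5) (nat_lit 398) (nat_lit 360) (nat_lit 142)) (XT.nd (nat_lit 78) (nat_lit 152) (nat_lit 0) (XT.lf (nat_lit 0) (nat_lit 85141080423) (nat_lit 228) (nat_lit 4657587699) (nat_lit 76) (nat_lit 147372664708) (nat_lit 38) (nat_lit 5) (nat_lit 41) (nat_lit 5) (nat_lit 39) (nat_lit 5) (nat_lit 399) (nat_lit 360) (nat_lit 141)) (XT.lf (nat_lit 0) (nat_lit 116206156444) (nat_lit 152) (nat_lit 16863319237) (nat_lit 228) (nat_lit 112210104272) (nat_lit 36) (nat_lit 5) (nat_lit 38) (nat_lit 5) (nat_lit 39) (nat_lit 5) (nat_lit 400) (nat_lit 360) (nat_lit 140)))))) (XT.nd (nat_lit 468) (nat_lit 304) (nat_lit 0) (XT.nd (nat_lit 234) (nat_lit 304) (nat_lit 0) (XT.nd (nat_lit 78) (nat_lit 228) (nat_lit 0) (XT.lf (nat_lit 0) (nat_lit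 184406678046) (nat_lit 228) (nat_lit 11448438892) (nat_lit 76) (nat_lit 57887503250) (nat_lit 36) (nat_lit 5) (nat_lit 39) (nat_lit 5) (nat_lit 37) (nat_lit 5) (nat_lit 401) (nat_lit 360) (nat_lit 139)) (XT.nd (nat_lit 78) (nat_lit 76) (nat_lit 0) (XT.lf (nat_lit 0) (nat_lit 115477086236) (nat_lit 152) (nat_lit 124912868772) (nat_lit 228) (nat_lit 22134896817) (nat_lit 34) (nat_lit 5) (nat_lit 36) (nat_lit 5) (nat_lit 37) (nat_lit 5) (nat_lit 402) (nat_lit 360) (nat_lit 138)) (XT.lf (nat_lit 0) (nat_lit 26745300991) (nat_lit 228) (nat_lit 23021777486) (nat_lit 76) (nat_lit 221947861184) (nat_lit 33) (nat_lit 5) (nat_lit 36) (nat_lit 5) (nat_lit 34) (nat_lit 5) (nat_lit 403) (nat_lit 360) (nat_lit 137)))) (XT.nd (nat_lit 78) (nat_lit 152) (nat_lit 0) (XT.lf (nat_lit 0) (nat_lit 79537841618) (nat_lit 228) (nat_lit 171374227562) (nat_lit 76) (nat_lit 30323708922) (nat_lit 31) (nat_lit 5)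 (nat_lit 34) (nat_lit 5) (nat_lit 32) (nat_lit 5) (nat_lit 404) (nat_lit 360) (nat_lit 136)) (XT.nd (nat_lit 78) (nat_lit 152) (nat_lit 0) (XT.lf (nat_lit 0) (nat_lit 136181995325) (nat_lit 228) (nat_lit 41847340440) (nat_lit 76) (nat_lit 113142723493) (nat_lit 31) (nat_lit 5) (nat_lit 34) (nat_lit 5) (nat_lit 32) (nat_lit 5) (nat_lit 405) (nat_lit 360) (nat_lit 135)) (XT.lf (nat_lit 0) (nat_lit 97268873866) (nat_lit 152) (nat_lit 99907985239) (nat_lit 228) (nat_lit 104352370339) (nat_lit 29) (nat_lit 5) (nat_lit 31) (nat_lit 5) (nat_lit 32) (nat_lit 5) (nat_lit 406) (nat_lit 360) (nat_lit 134))))) (XT.nd (nat_lit 234) (nat_lit 152) (nat_lit 0) (XT.nd (nat_lit 78) (nat_lit 152) (nat_lit 0) (XT.lf (nat_lit 0) (nat_lit 244793519151) (nat_lit 152) (nat_lit 17136517582) (nat_lit 228) (nat_lit 50438792959) (nat_lit 29) (nat_lit 5) (nat_lit 31) (nat_lit 5) (nat_lit 32) (nat_lit 5) (nat_lit 407)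 (nat_lit 360) (nat_lit 133)) (XT.nd (nat_lit 78) (nat_lit 0) (nat_lit 0) (XT.lf (nat_lit 0) (nat_lit 8307178511) (nat_lit 152) (nat_lit 246440136847) (nat_lit 76) (nat_lit 68881567333) (nat_lit 27) (nat_lit 5) (nat_lit 29) (nat_lit 5) (nat_lit 28) (nat_lit 5) (nat_lit 408) (nat_lit 360) (nat_lit 132)) (XT.lf (nat_lit 0) (nat_lit 69739353843) (nat_lit 152) (nat_lit 104984423151) (nat_lit 76) (nat_lit 160614619175) (nat_lit 27) (nat_lit 5) (nat_lit 29) (nat_lit 5) (nat_lit 28) (nat_lit 5) (nat_lit 409) (nat_lit 360) (nat_lit 131)))) (XT.nd (nat_lit 78) (nat_lit 0) (nat_lit 0) (XT.lf (nat_lit 0) (nat_lit 44983623475) (nat_lit 152) (nat_lit 89961712405) (nat_lit 228) (nat_lit 212652939617) (nat_lit 25) (nat_lit 5) (nat_lit 27) (nat_lit 5) (nat_lit 28) (nat_lit 5) (nat_lit 410) (nat_lit 360) (nat_lit 130)) (XT.nd (nat_lit 78) (nat_lit 0) (nat_lit 0) (XT.lf (nat_lit 0) (nat_lit 205203592308)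 (nat_lit 228) (nat_lit 154301701623) (nat_lit 76) (nat_lit 876256161) (nat_lit 25) (nat_lit 5) (nat_lit 28) (nat_lit 5) (nat_lit 26) (nat_lit 4) (nat_lit 411) (nat_lit 360) (nat_lit 129)) (XT.lf (nat_lit 0) (nat_lit 280449428274) (nat_lit 228) (nat_lit 48086794) (nat_lit 76) (nat_lit 93232740079) (nat_lit 25) (nat_lit 5) (nat_lit 28) (nat_lit 5) (nat_lit 26) (nat_lit 4) (nat_lit 412) (nat_lit 360) (nat_lit 128))))))))
noncomputable def xc232 : XT := (XT.nd (nat_lit 43914) (nat_lit 0) (nat_lit 1748) (XT.nd (nat_lit 43056) (nat_lit 0) (nat_lit 5092) (XT.nd (nat_lit 390) (nat_lit 152) (nat_lit 0) (XT.nd (nat_lit 156) (nat_lit 228) (nat_lit 0) (XT.nd (nat_lit 78) (nat_lit 76) (nat_lit 0) (XT.lf (nat_lit 0) (nat_lit 167271758323) (nat_lit 76) (nat_lit 194797268685) (nat_lit 152) (nat_lit 25546794960) (nat_lit 24) (nat_lit 5) (nat_lit 25) (nat_lit 5) (nat_lit 26) (nat_lit 4) (nat_lit 413) (nat_lit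 360) (nat_lit 127)) (XT.lf (nat_lit 0) (nat_lit 44116006141) (nat_lit 152) (nat_lit 59948103444) (nat_lit 76) (nat_lit 298095944843) (nat_lit 23) (nat_lit 5) (nat_lit 25) (nat_lit 5) (nat_lit 24) (nat_lit 5) (nat_lit 414) (nat_lit 360) (nat_lit 126))) (XT.nd (nat_lit 78) (nat_lit 76) (nat_lit 0) (XT.lf (nat_lit 0) (nat_lit 111621249108) (nat_lit 152) (nat_lit 6524774608) (nat_lit 228) (nat_lit 299177404042) (nat_lit 21) (nat_lit 5) (nat_lit 23) (nat_lit 5) (nat_lit 24) (nat_lit 5) (nat_lit 415) (nat_lit 360) (nat_lit 125)) (XT.nd (nat_lit 78) (nat_lit 76) (nat_lit 0) (XT.lf (nat_lit 0) (nat_lit 198406467903) (nat_lit 228) (nat_lit 140857837887) (nat_lit 76) (nat_lit 93854217726) (nat_lit 21) (nat_lit 5) (nat_lit 24) (nat_lit 5) (nat_lit 22) (nat_lit 4) (nat_lit 416) (nat_lit 360) (nat_lit 124)) (XT.lf (nat_lit 0) (nat_lit 33183665896) (nat_lit 76) (nat_lit 250121223538) (nat_lit 152) (nat_lit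 166367236921) (nat_lit 20) (nat_lit 5) (nat_lit 21) (nat_lit 5) (nat_lit 22) (nat_lit 4) (nat_lit 417) (nat_lit 360) (nat_lit 123))))) (XT.nd (nat_lit 42432) (nat_lit 0) (nat_lit 6232) (XT.nd (nat_lit 78) (nat_lit 152) (nat_lit 0) (XT.lf (nat_lit 0) (nat_lit 220817338714) (nat_lit 76) (nat_lit 154016292562) (nat_lit 152) (nat_lit 92100508144) (nat_lit 20) (nat_lit 5) (nat_lit 21) (nat_lit 5) (nat_lit 22) (nat_lit 4) (nat_lit 418) (nat_lit 360) (nat_lit 122)) (XT.nd (nat_lit 78) (nat_lit 152) (nat_lit 0) (XT.lf (nat_lit 0) (nat_lit 417832531155) (nat_lit 76) (nat_lit 53106187239) (nat_lit 152) (nat_lit 14120539380) (nat_lit 20) (nat_lit 5) (nat_lit 21) (nat_lit 5) (nat_lit 22) (nat_lit 4) (nat_lit 419) (nat_lit 360) (nat_lit 121)) (XT.lf (nat_lit 0) (nat_lit 68391947843) (nat_lit 152) (nat_lit 381312760690) (nat_lit 76) (nat_lit 54192917960) (nat_lit 18) (nat_lit 5) (nat_lit 20) (nat_lit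 5) (nat_lit 19) (nat_lit 4) (nat_lit 420) (nat_lit 360) (nat_lit 120)))) (XT.nd (nat_lit 78) (nat_lit 0) (nat_lit 0) (XT.lf (nat_lit 0) (nat_lit 19638438735) (nat_lit 0) (nat_lit 19638438735) (nat_lit 684) (nat_lit 751274642) (nat_lit 100) (nat_lit 5) (nat_lit 100) (nat_lit 3) (nat_lit 109) (nat_lit 3) (nat_lit 361) (nat_lit 361) (nat_lit 178)) (XT.nd (nat_lit 78) (nat_lit 0) (nat_lit 0) (XT.lf (nat_lit 0) (nat_lit 78403204657) (nat_lit 0) (nat_lit 2124027482) (nat_lit 684) (nat_lit 1529983208) (nat_lit 100) (nat_lit 5) (nat_lit 100) (nat_lit 3) (nat_lit 109) (nat_lit 3) (nat_lit 362) (nat_lit 361) (nat_lit 177)) (XT.lf (nat_lit 76) (nat_lit 35900469384) (nat_lit 0) (nat_lit 47834710005) (nat_lit 760) (nat_lit 366203775) (nat_lit 101) (nat_lit 5) (nat_lit 100) (nat_lit 5) (nat_lit 110) (nat_lit 5) (nat_lit 363) (nat_lit 361) (nat_lit 176)))))) (XT.nd (nat_lit 390) (nat_lit 380) (nat_lit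 0) (XT.nd (nat_lit 156) (nat_lit 0) (nat_lit 76) (XT.nd (nat_lit 78) (nat_lit 0) (nat_lit 76) (XT.lf (nat_lit 0) (nat_lit 925493328) (nat_lit 760) (nat_lit 8734688267) (nat_lit 836) (nat_lit 76582054667) (nat_lit 90) (nat_lit 5) (nat_lit 100) (nat_lit 5) (nat_lit 101) (nat_lit 5) (nat_lit 364) (nat_lit 361) (nat_lit 175)) (XT.lf (nat_lit 0) (nat_lit 3280030841) (nat_lit 760) (nat_lit 55167566157) (nat_lit 836) (nat_lit 29991707551) (nat_lit 91) (nat_lit 5) (nat_lit 101) (nat_lit 5) (nat_lit 102) (nat_lit 5) (nat_lit 365) (nat_lit 361) (nat_lit 174))) (XT.nd (nat_lit 78) (nat_lit 0) (nat_lit 76) (XT.lf (nat_lit 0) (nat_lit 6060465207) (nat_lit 760) (nat_lit 13218252367) (nat_lit 836) (nat_lit 71452100956) (nat_lit 91) (nat_lit 5) (nat_lit 101) (nat_lit 5) (nat_lit 102) (nat_lit 5) (nat_lit 366) (nat_lit 361) (nat_lit 173)) (XT.nd (nat_lit 78) (nat_lit 0) (nat_lit 0) (XT.lf (nat_lit 0) (nat_lit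 9825902905) (nat_lit 760) (nat_lit 61613850763) (nat_lit 836) (nat_lit 21654856205) (nat_lit 92) (nat_lit 5) (nat_lit 102) (nat_lit 5) (nat_lit 103) (nat_lit 5) (nat_lit 367) (nat_lit 361) (nat_lit 172)) (XT.lf (nat_lit 0) (nat_lit 14322687150) (nat_lit 760) (nat_lit 17011856893) (nat_lit 836) (nat_lit 64214893714) (nat_lit 92) (nat_lit 5) (nat_lit 102) (nat_lit 5) (nat_lit 103) (nat_lit 5) (nat_lit 368) (nat_lit 361) (nat_lit 171))))) (XT.nd (nat_lit 234) (nat_lit 608) (nat_lit 0) (XT.nd (nat_lit 78) (nat_lit 0) (nat_lit 0) (XT.lf (nat_lit 0) (nat_lit 19700931846) (nat_lit 760) (nat_lit 67473251309) (nat_lit 836) (nat_lit 10919993495) (nat_lit 93) (nat_lit 5) (nat_lit 103) (nat_lit 5) (nat_lit 104) (nat_lit 5) (nat_lit 369) (nat_lit 361) (nat_lit 170)) (XT.nd (nat_lit 78) (nat_lit 0) (nat_lit 0) (XT.lf (nat_lit 0) (nat_lit 26154142103) (nat_lit 760) (nat_lit 20044566671) (nat_lit 836)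 (nat_lit 54527141686) (nat_lit 93) (nat_lit 5) (nat_lit 103) (nat_lit 5) (nat_lit 104) (nat_lit 5) (nat_lit 370) (nat_lit 361) (nat_lit 169)) (XT.lf (nat_lit 76) (nat_lit 30739035920) (nat_lit 0) (nat_lit 2670466337) (nat_lit 836) (nat_lit 70055631847) (nat_lit 94) (nat_lit 5) (nat_lit 93) (nat_lit 5) (nat_lit 104) (nat_lit 5) (nat_lit 371) (nat_lit 361) (nat_lit 168)))) (XT.nd (nat_lit 78) (nat_lit 684) (nat_lit 0) (XT.lf (nat_lit 0) (nat_lit 42044127187) (nat_lit 760) (nat_lit 22244511395) (nat_lit 76) (nat_lit 42001919093) (nat_lit 94) (nat_lit 5) (nat_lit 104) (nat_lit 5) (nat_lit 95) (nat_lit 5) (nat_lit 372) (nat_lit 361) (nat_lit 167)) (XT.nd (nat_lit 78) (nat_lit 0) (nat_lit 0) (XT.lf (nat_lit 0) (nat_lit 31732663676) (nat_lit 684) (nat_lit 19916636545) (nat_lit 760) (nat_lit 57581011914) (nat_lit 85) (nat_lit 5) (nat_lit 94) (nat_lit 5) (nat_lit 95) (nat_lit 5) (nat_lit 373) (nat_lit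 361) (nat_lit 166)) (XT.lf (nat_lit 0) (nat_lit 62533701457) (nat_lit 760) (nat_lit 23540243464) (nat_lit 76) (nat_lit 26203161448) (nat_lit 85) (nat_lit 5) (nat_lit 95) (nat_lit 5) (nat_lit 86) (nat_lit 5) (nat_lit 374) (nat_lit 361) (nat_lit 165))))))) (XT.nd (nat_lit 858) (nat_lit 1444) (nat_lit 0) (XT.nd (nat_lit 390) (nat_lit 836) (nat_lit 0) (XT.nd (nat_lit 156) (nat_lit 684) (nat_lit 0) (XT.nd (nat_lit 78) (nat_lit 0) (nat_lit 0) (XT.lf (nat_lit 0) (nat_lit 33872301574) (nat_lit 380) (nat_lit 40945000080) (nat_lit 456) (nat_lit 40616190218) (nat_lit 80) (nat_lit 5) (nat_lit 85) (nat_lit 5) (nat_lit 86) (nat_lit 5) (nat_lit 375) (nat_lit 361) (nat_lit 164)) (XT.lf (nat_lit 0) (nat_lit 88220482490) (nat_lit 456) (nat_lit 23862479155) (nat_lit 76) (nat_lit 6639465456) (nat_lit 80) (nat_lit 5) (nat_lit 86) (nat_lit 5) (nat_lit 81) (nat_lit 5) (nat_lit 376) (nat_lit 361) (nat_lit 163)))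 (XT.nd (nat_lit 78) (nat_lit 380) (nat_lit 0) (XT.lf (nat_lit 0) (nat_lit 37241552023) (nat_lit 304) (nat_lit 66304608796) (nat_lit 380) (nat_lit 18567031803) (nat_lit 76) (nat_lit 5) (nat_lit 80) (nat_lit 5) (nat_lit 81) (nat_lit 5) (nat_lit 377) (nat_lit 361) (nat_lit 162)) (XT.nd (nat_lit 78) (nat_lit 380) (nat_lit 0) (XT.lf (nat_lit 0) (nat_lit 102228893514) (nat_lit 304) (nat_lit 17813026783) (nat_lit 380) (nat_lit 5611386695) (nat_lit 76) (nat_lit 5) (nat_lit 80) (nat_lit 5) (nat_lit 81) (nat_lit 5) (nat_lit 378) (nat_lit 361) (nat_lit 161)) (XT.lf (nat_lit 0) (nat_lit 8926448294) (nat_lit 380) (nat_lit 87536159879) (nat_lit 76) (nat_lit 32842070252) (nat_lit 71) (nat_lit 5) (nat_lit 76) (nat_lit 5) (nat_lit 72) (nat_lit 5) (nat_lit 379) (nat_lit 361) (nat_lit 160))))) (XT.nd (nat_lit 234) (nat_lit 532) (nat_lit 0) (XT.nd (nat_lit 78) (nat_lit 304) (nat_lit 0) (XT.lf (nat_lit 0)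 (nat_lit 24697513641) (nat_lit 380) (nat_lit 22475300396) (nat_lit 76) (nat_lit 85926459372) (nat_lit 71) (nat_lit 5) (nat_lit 76) (nat_lit 5) (nat_lit 72) (nat_lit 5) (nat_lit 380) (nat_lit 361) (nat_lit 159)) (XT.nd (nat_lit 78) (nat_lit 0) (nat_lit 0) (XT.lf (nat_lit 0) (nat_lit 42079816920) (nat_lit 380) (nat_lit 89776403908) (nat_lit 76) (nat_lit 5186243438) (nat_lit 67) (nat_lit 5) (nat_lit 72) (nat_lit 5) (nat_lit 68) (nat_lit 5) (nat_lit 381) (nat_lit 361) (nat_lit 158)) (XT.lf (nat_lit 0) (nat_lit 61491146860) (nat_lit 380) (nat_lit 20668905895) (nat_lit 76) (nat_lit 58964766678) (nat_lit 67) (nat_lit 5) (nat_lit 72) (nat_lit 5) (nat_lit 68) (nat_lit 5) (nat_lit 382) (nat_lit 361) (nat_lit 157)))) (XT.nd (nat_lit 78) (nat_lit 228) (nat_lit 0) (XT.lf (nat_lit 0) (nat_lit 53609482487) (nat_lit 304) (nat_lit 29100285310) (nat_lit 380) (nat_lit 62659688658) (nat_lit 63) (nat_lit 5)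 (nat_lit 67) (nat_lit 5) (nat_lit 68) (nat_lit 5) (nat_lit 383) (nat_lit 361) (nat_lit 156)) (XT.nd (nat_lit 78) (nat_lit 228) (nat_lit 0) (XT.lf (nat_lit 0) (nat_lit 105760328534) (nat_lit 380) (nat_lit 17911019072) (nat_lit 76) (nat_lit 26116427594) (nat_lit 63) (nat_lit 5) (nat_lit 68) (nat_lit 5) (nat_lit 64) (nat_lit 5) (nat_lit 384) (nat_lit 361) (nat_lit 155)) (XT.lf (nat_lit 0) (nat_lit 61108881164) (nat_lit 228) (nat_lit 70285420663) (nat_lit 304) (nat_lit 22961164124) (nat_lit 60) (nat_lit 5) (nat_lit 63) (nat_lit 5) (nat_lit 64) (nat_lit 5) (nat_lit 385) (nat_lit 361) (nat_lit 154)))))) (XT.nd (nat_lit 468) (nat_lit 608) (nat_lit 0) (XT.nd (nat_lit 234) (nat_lit 456) (nat_lit 0) (XT.nd (nat_lit 78) (nat_lit 380) (nat_lit 0) (XT.lf (nat_lit 0) (nat_lit 144701297245) (nat_lit 228) (nat_lit 13911765170) (nat_lit 304) (nat_lit 523324673) (nat_lit 60) (nat_lit 5) (nat_lit 63) (nat_lit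 5) (nat_lit 64) (nat_lit 5) (nat_lit 386) (nat_lit 361) (nat_lit 153)) (XT.nd (nat_lit 78) (nat_lit 0) (nat_lit 0) (XT.lf (nat_lit 0) (nat_lit 24125763375) (nat_lit 380) (nat_lit 94610419227) (nat_lit 76) (nat_lit 45310855515) (nat_lit 55) (nat_lit 5) (nat_lit 60) (nat_lit 5) (nat_lit 56) (nat_lit 5) (nat_lit 387) (nat_lit 361) (nat_lit 152)) (XT.lf (nat_lit 0) (nat_lit 50466023147) (nat_lit 380) (nat_lit 11428888456) (nat_lit 76) (nat_lit 107284066158) (nat_lit 55) (nat_lit 5) (nat_lit 60) (nat_lit 5) (nat_lit 56) (nat_lit 5) (nat_lit 388) (nat_lit 361) (nat_lit 151)))) (XT.nd (nat_lit 78) (nat_lit 228) (nat_lit 0) (XT.lf (nat_lit 0) (nat_lit 78421399715) (nat_lit 228) (nat_lit 926054854) (nat_lit 304) (nat_lit 95158852117) (nat_lit 52) (nat_lit 5) (nat_lit 55) (nat_lit 5) (nat_lit 56) (nat_lit 5) (nat_lit 389) (nat_lit 361) (nat_lit 150)) (XT.nd (nat_lit 78) (nat_lit 228) (nat_lit 0)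 (XT.lf (nat_lit 0) (nat_lit 110854501054) (nat_lit 304) (nat_lit 7917839670) (nat_lit 76) (nat_lit 61268584376) (nat_lit 52) (nat_lit 5) (nat_lit 56) (nat_lit 5) (nat_lit 53) (nat_lit 5) (nat_lit 390) (nat_lit 361) (nat_lit 149)) (XT.lf (nat_lit 0) (nat_lit 87440765935) (nat_lit 228) (nat_lit 57876306355) (nat_lit 304) (nat_lit 40466193735) (nat_lit 49) (nat_lit 5) (nat_lit 52) (nat_lit 5) (nat_lit 53) (nat_lit 5) (nat_lit 391) (nat_lit 361) (nat_lit 148))))) (XT.nd (nat_lit 234) (nat_lit 380) (nat_lit 0) (XT.nd (nat_lit 78) (nat_lit 228) (nat_lit 0) (XT.lf (nat_lit 0) (nat_lit 181733546957) (nat_lit 304) (nat_lit 4060999289) (nat_lit 76) (nat_lit 6006639204) (nat_lit 49) (nat_lit 5) (nat_lit 53) (nat_lit 5) (nat_lit 50) (nat_lit 5) (nat_lit 392) (nat_lit 361) (nat_lit 147)) (XT.nd (nat_lit 78) (nat_lit 0) (nat_lit 0) (XT.lf (nat_lit 0) (nat_lit 23656379060) (nat_lit 228) (nat_lit 101285235624)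 (nat_lit 76) (nat_lit 73036083796) (nat_lit 46) (nat_lit 5) (nat_lit 49) (nat_lit 5) (nat_lit 47) (nat_lit 5) (nat_lit 393) (nat_lit 361) (nat_lit 146)) (XT.lf (nat_lit 0) (nat_lit 58797972312) (nat_lit 228) (nat_lit 2001459237) (nat_lit 76) (nat_lit 143651867947) (nat_lit 46) (nat_lit 5) (nat_lit 49) (nat_lit 5) (nat_lit 47) (nat_lit 5) (nat_lit 394) (nat_lit 361) (nat_lit 145)))) (XT.nd (nat_lit 78) (nat_lit 152) (nat_lit 0) (XT.lf (nat_lit 0) (nat_lit 97474893546) (nat_lit 304) (nat_lit 105668463683) (nat_lit 76) (nat_lit 8016311081) (nat_lit 43) (nat_lit 5) (nat_lit 47) (nat_lit 5) (nat_lit 44) (nat_lit 5) (nat_lit 395) (nat_lit 361) (nat_lit 144)) (XT.nd (nat_lit 78) (nat_lit 152) (nat_lit 0) (XT.lf (nat_lit 0) (nat_lit 139116647428) (nat_lit 304) (nat_lit 771307731) (nat_lit 76) (nat_lit 78263951232) (nat_lit 43) (nat_lit 5) (nat_lit 47) (nat_lit 5) (nat_lit 44) (nat_lit 5) (nat_lit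 396) (nat_lit 361) (nat_lit 143)) (XT.lf (nat_lit 0) (nat_lit 112986732679) (nat_lit 152) (nat_lit 71617627531) (nat_lit 228) (nat_lit 40801202755) (nat_lit 41) (nat_lit 5) (nat_lit 43) (nat_lit 5) (nat_lit 44) (nat_lit 5) (nat_lit 397) (nat_lit 361) (nat_lit 142))))))))
noncomputable def xc233 : XT := (XT.nd (nat_lit 44070) (nat_lit 0) (nat_lit 3268) (XT.nd (nat_lit 858) (nat_lit 684) (nat_lit 0) (XT.nd (nat_lit 390) (nat_lit 532) (nat_lit 0) (XT.nd (nat_lit 156) (nat_lit 152) (nat_lit 0) (XT.nd (nat_lit 78) (nat_lit 228) (nat_lit 0) (XT.lf (nat_lit 0) (nat_lit 232380603493) (nat_lit 228) (nat_lit 563301342) (nat_lit 76) (nat_lit 77290432) (nat_lit 41) (nat_lit 5) (nat_lit 44) (nat_lit 5) (nat_lit 42) (nat_lit 5) (nat_lit 398) (nat_lit 361) (nat_lit 141)) (XT.lf (nat_lit 0) (nat_lit 43288935470) (nat_lit 228) (nat_lit 122027189966) (nat_lit 76) (nat_lit 75514563280) (nat_lit 38) (nat_lit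 5) (nat_lit 41) (nat_lit 5) (nat_lit 39) (nat_lit 5) (nat_lit 399) (nat_lit 361) (nat_lit 140))) (XT.nd (nat_lit 78) (nat_lit 152) (nat_lit 0) (XT.lf (nat_lit 0) (nat_lit 89402950573) (nat_lit 228) (nat_lit 4882888747) (nat_lit 76) (nat_lit 154743815587) (nat_lit 38) (nat_lit 5) (nat_lit 41) (nat_lit 5) (nat_lit 39) (nat_lit 5) (nat_lit 400) (nat_lit 361) (nat_lit 139)) (XT.nd (nat_lit 78) (nat_lit 0) (nat_lit 0) (XT.lf (nat_lit 0) (nat_lit 122023920371) (nat_lit 152) (nat_lit 17703732293) (nat_lit 228) (nat_lit 117815667546) (nat_lit 36) (nat_lit 5) (nat_lit 38) (nat_lit 5) (nat_lit 39) (nat_lit 5) (nat_lit 401) (nat_lit 361) (nat_lit 138)) (XT.lf (nat_lit 0) (nat_lit 193631532120) (nat_lit 228) (nat_lit 12013573346) (nat_lit 76) (nat_lit 60784416313) (nat_lit 36) (nat_lit 5) (nat_lit 39) (nat_lit 5) (nat_lit 37) (nat_lit 5) (nat_lit 402) (nat_lit 361) (nat_lit 137))))) (XT.nd (nat_lit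 234) (nat_lit 152) (nat_lit 0) (XT.nd (nat_lit 78) (nat_lit 228) (nat_lit 0) (XT.lf (nat_lit 0) (nat_lit 121258110498) (nat_lit 152) (nat_lit 131155759129) (nat_lit 228) (nat_lit 23237000699) (nat_lit 34) (nat_lit 5) (nat_lit 36) (nat_lit 5) (nat_lit 37) (nat_lit 5) (nat_lit 403) (nat_lit 361) (nat_lit 136)) (XT.nd (nat_lit 78) (nat_lit 152) (nat_lit 0) (XT.lf (nat_lit 0) (nat_lit 28086844535) (nat_lit 228) (nat_lit 24165893426) (nat_lit 76) (nat_lit 233047731814) (nat_lit 33) (nat_lit 5) (nat_lit 36) (nat_lit 5) (nat_lit 34) (nat_lit 5) (nat_lit 404) (nat_lit 361) (nat_lit 135)) (XT.lf (nat_lit 0) (nat_lit 83518957387) (nat_lit 228) (nat_lit 179935908394) (nat_lit 76) (nat_lit 31842487237) (nat_lit 31) (nat_lit 5) (nat_lit 34) (nat_lit 5) (nat_lit 32) (nat_lit 5) (nat_lit 405) (nat_lit 361) (nat_lit 134)))) (XT.nd (nat_lit 78) (nat_lit 152) (nat_lit 0) (XT.lf (nat_lit 0) (nat_lit 142995117651)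 (nat_lit 228) (nat_lit 43933011705) (nat_lit 76) (nat_lit 118802329066) (nat_lit 31) (nat_lit 5) (nat_lit 34) (nat_lit 5) (nat_lit 32) (nat_lit 5) (nat_lit 406) (nat_lit 361) (nat_lit 133)) (XT.nd (nat_lit 78) (nat_lit 0) (nat_lit 0) (XT.lf (nat_lit 0) (nat_lit 102138905321) (nat_lit 152) (nat_lit 104900730603) (nat_lit 228) (nat_lit 109565855756) (nat_lit 29) (nat_lit 5) (nat_lit 31) (nat_lit 5) (nat_lit 32) (nat_lit 5) (nat_lit 407) (nat_lit 361) (nat_lit 132)) (XT.lf (nat_lit 0) (nat_lit 257039469167) (nat_lit 152) (nat_lit 17990815939) (nat_lit 228) (nat_lit 52956796322) (nat_lit 29) (nat_lit 5) (nat_lit 31) (nat_lit 5) (nat_lit 32) (nat_lit 5) (nat_lit 408) (nat_lit 361) (nat_lit 131)))))) (XT.nd (nat_lit 468) (nat_lit 304) (nat_lit 0) (XT.nd (nat_lit 234) (nat_lit 76) (nat_lit 0) (XT.nd (nat_lit 78) (nat_lit 152) (nat_lit 0) (XT.lf (nat_lit 0) (nat_lit 8726304795) (nat_lit 152) (nat_lit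 258755696198) (nat_lit 76) (nat_lit 72328135268) (nat_lit 27) (nat_lit 5) (nat_lit 29) (nat_lit 5) (nat_lit 28) (nat_lit 5) (nat_lit 409) (nat_lit 361) (nat_lit 130)) (XT.nd (nat_lit 78) (nat_lit 152) (nat_lit 0) (XT.lf (nat_lit 0) (nat_lit 73229909496) (nat_lit 152) (nat_lit 110227503841) (nat_lit 76) (nat_lit 168647721151) (nat_lit 27) (nat_lit 5) (nat_lit 29) (nat_lit 5) (nat_lit 28) (nat_lit 5) (nat_lit 410) (nat_lit 361) (nat_lit 129)) (XT.lf (nat_lit 0) (nat_lit 47238846077) (nat_lit 152) (nat_lit 94457268025) (nat_lit 228) (nat_lit 223281897604) (nat_lit 25) (nat_lit 5) (nat_lit 27) (nat_lit 5) (nat_lit 28) (nat_lit 5) (nat_lit 411) (nat_lit 361) (nat_lit 128)))) (XT.nd (nat_lit 78) (nat_lit 76) (nat_lit 0) (XT.lf (nat_lit 0) (nat_lit 215467153761) (nat_lit 228) (nat_lit 162010901473) (nat_lit 76) (nat_lit 922401373) (nat_lit 25) (nat_lit 5) (nat_lit 28) (nat_lit 5) (nat_lit 26)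 (nat_lit 4) (nat_lit 412) (nat_lit 361) (nat_lit 127)) (XT.nd (nat_lit 78) (nat_lit 76) (nat_lit 0) (XT.lf (nat_lit 0) (nat_lit 294475120485) (nat_lit 228) (nat_lit 44886152) (nat_lit 76) (nat_lit 97896598420) (nat_lit 25) (nat_lit 5) (nat_lit 28) (nat_lit 5) (nat_lit 26) (nat_lit 4) (nat_lit 413) (nat_lit 361) (nat_lit 126)) (XT.lf (nat_lit 0) (nat_lit 175640860818) (nat_lit 76) (nat_lit 204534771064) (nat_lit 152) (nat_lit 26820821786) (nat_lit 24) (nat_lit 5) (nat_lit 25) (nat_lit 5) (nat_lit 26) (nat_lit 4) (nat_lit 414) (nat_lit 361) (nat_lit 125))))) (XT.nd (nat_lit 234) (nat_lit 76) (nat_lit 0) (XT.nd (nat_lit 78) (nat_lit 152) (nat_lit 0) (XT.lf (nat_lit 0) (nat_lit 46324860627) (nat_lit 152) (nat_lit 62940154090) (nat_lit 76) (nat_lit 313002888163) (nat_lit 23) (nat_lit 5) (nat_lit 25) (nat_lit 5) (nat_lit 24) (nat_lit 5) (nat_lit 415) (nat_lit 361) (nat_lit 124)) (XT.nd (nat_lit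 78) (nat_lit 0) (nat_lit 0) (XT.lf (nat_lit 0) (nat_lit 117207579726) (nat_lit 152) (nat_lit 6848736167) (nat_lit 228) (nat_lit 314133132214) (nat_lit 21) (nat_lit 5) (nat_lit 23) (nat_lit 5) (nat_lit 24) (nat_lit 5) (nat_lit 416) (nat_lit 361) (nat_lit 123)) (XT.lf (nat_lit 0) (nat_lit 208329673722) (nat_lit 228) (nat_lit 147895602499) (nat_lit 76) (nat_lit 98549027934) (nat_lit 21) (nat_lit 5) (nat_lit 24) (nat_lit 5) (nat_lit 22) (nat_lit 4) (nat_lit 417) (nat_lit 361) (nat_lit 122)))) (XT.nd (nat_lit 78) (nat_lit 0) (nat_lit 0) (XT.lf (nat_lit 0) (nat_lit 34847893775) (nat_lit 76) (nat_lit 262625064056) (nat_lit 152) (nat_lit 174682632296) (nat_lit 20) (nat_lit 5) (nat_lit 21) (nat_lit 5) (nat_lit 22) (nat_lit 4) (nat_lit 418) (nat_lit 361) (nat_lit 121)) (XT.nd (nat_lit 78) (nat_lit 0) (nat_lit 0) (XT.lf (nat_lit 0) (nat_lit 231863010017) (nat_lit 76) (nat_lit 161714992277) (nat_lit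 152) (nat_lit 96702708341) (nat_lit 20) (nat_lit 5) (nat_lit 21) (nat_lit 5) (nat_lit 22) (nat_lit 4) (nat_lit 419) (nat_lit 361) (nat_lit 120)) (XT.lf (nat_lit 0) (nat_lit 438728733300) (nat_lit 76) (nat_lit 55759482398) (nat_lit 152) (nat_lit 14823875672) (nat_lit 20) (nat_lit 5) (nat_lit 21) (nat_lit 5) (nat_lit 22) (nat_lit 4) (nat_lit 420) (nat_lit 361) (nat_lit 119))))))) (XT.nd (nat_lit 858) (nat_lit 2052) (nat_lit 0) (XT.nd (nat_lit 390) (nat_lit 0) (nat_lit 76) (XT.nd (nat_lit 156) (nat_lit 760) (nat_lit 0) (XT.nd (nat_lit 78) (nat_lit 0) (nat_lit 0) (XT.lf (nat_lit 0) (nat_lit 20625102132) (nat_lit 0) (nat_lit 20625102132) (nat_lit 684) (nat_lit 778866720) (nat_lit 100) (nat_lit 5) (nat_lit 100) (nat_lit 3) (nat_lit 109) (nat_lit 3) (nat_lit 362) (nat_lit 362) (nat_lit 176)) (XT.lf (nat_lit 0) (nat_lit 82332396244) (nat_lit 0) (nat_lit 2239260211) (nat_lit 684) (nat_lit 1587488742)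 (nat_lit 100) (nat_lit 5) (nat_lit 100) (nat_lit 3) (nat_lit 109) (nat_lit 3) (nat_lit 363) (nat_lit 362) (nat_lit 175))) (XT.nd (nat_lit 78) (nat_lit 760) (nat_lit 0) (XT.lf (nat_lit 76) (nat_lit 37705433175) (nat_lit 0) (nat_lit 50233728670) (nat_lit 760) (nat_lit 366402844) (nat_lit 101) (nat_lit 5) (nat_lit 100) (nat_lit 5) (nat_lit 110) (nat_lit 5) (nat_lit 364) (nat_lit 362) (nat_lit 174)) (XT.nd (nat_lit 78) (nat_lit 0) (nat_lit 76) (XT.lf (nat_lit 0) (nat_lit 988464614) (nat_lit 760) (nat_lit 9161379643) (nat_lit 836) (nat_lit 80403644988) (nat_lit 90) (nat_lit 5) (nat_lit 100) (nat_lit 5) (nat_lit 101) (nat_lit 5) (nat_lit 365) (nat_lit 362) (nat_lit 173)) (XT.lf (nat_lit 0) (nat_lit 3459991791) (nat_lit 760) (nat_lit 57915141359) (nat_lit 836) (nat_lit 31485315799) (nat_lit 91) (nat_lit 5) (nat_lit 101) (nat_lit 5) (nat_lit 102) (nat_lit 5) (nat_lit 366) (nat_lit 362) (nat_lit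 172))))) (XT.nd (nat_lit 234) (nat_lit 0) (nat_lit 152) (XT.nd (nat_lit 78) (nat_lit 0) (nat_lit 76) (XT.lf (nat_lit 0) (nat_lit 6378687903) (nat_lit 760) (nat_lit 13868876313) (nat_lit 836) (nat_lit 75019013500) (nat_lit 91) (nat_lit 5) (nat_lit 101) (nat_lit 5) (nat_lit 102) (nat_lit 5) (nat_lit 367) (nat_lit 362) (nat_lit 171)) (XT.nd (nat_lit 78) (nat_lit 0) (nat_lit 0) (XT.lf (nat_lit 0) (nat_lit 10331761319) (nat_lit 760) (nat_lit 64683597729) (nat_lit 836) (nat_lit 22733232423) (nat_lit 92) (nat_lit 5) (nat_lit 102) (nat_lit 5) (nat_lit 103) (nat_lit 5) (nat_lit 368) (nat_lit 362) (nat_lit 170)) (XT.lf (nat_lit 0) (nat_lit 15052691287) (nat_lit 760) (nat_lit 17852025384) (nat_lit 836) (nat_lit 67421479740) (nat_lit 92) (nat_lit 5) (nat_lit 102) (nat_lit 5) (nat_lit 103) (nat_lit 5) (nat_lit 369) (nat_lit 362) (nat_lit 169)))) (XT.nd (nat_lit 78) (nat_lit 0) (nat_lit 0) (XT.lf (nat_lit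 0) (nat_lit 20699299274) (nat_lit 760) (nat_lit 70835921773) (nat_lit 836) (nat_lit 11462979589) (nat_lit 93) (nat_lit 5) (nat_lit 103) (nat_lit 5) (nat_lit 104) (nat_lit 5) (nat_lit 370) (nat_lit 362) (nat_lit 168)) (XT.nd (nat_lit 78) (nat_lit 0) (nat_lit 0) (XT.lf (nat_lit 0) (nat_lit 27474535719) (nat_lit 760) (nat_lit 21036326336) (nat_lit 836) (nat_lit 57250628694) (nat_lit 93) (nat_lit 5) (nat_lit 103) (nat_lit 5) (nat_lit 104) (nat_lit 5) (nat_lit 371) (nat_lit 362) (nat_lit 167)) (XT.lf (nat_lit 76) (nat_lit 32286287535) (nat_lit 0) (nat_lit 2805933036) (nat_lit 836) (nat_lit 73545541023) (nat_lit 94) (nat_lit 5) (nat_lit 93) (nat_lit 5) (nat_lit 104) (nat_lit 5) (nat_lit 372) (nat_lit 362) (nat_lit 166)))))) (XT.nd (nat_lit 468) (nat_lit 988) (nat_lit 0) (XT.nd (nat_lit 234) (nat_lit 684) (nat_lit 0) (XT.nd (nat_lit 78) (nat_lit 684) (nat_lit 0) (XT.lf (nat_lit 0) (nat_lit 44157964840)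 (nat_lit 760) (nat_lit 23346299464) (nat_lit 76) (nat_lit 44100223446) (nat_lit 94) (nat_lit 5) (nat_lit 104) (nat_lit 5) (nat_lit 95) (nat_lit 5) (nat_lit 373) (nat_lit 362) (nat_lit 165)) (XT.nd (nat_lit 78) (nat_lit 0) (nat_lit 0) (XT.lf (nat_lit 0) (nat_lit 33329566014) (nat_lit 684) (nat_lit 20913436971) (nat_lit 760) (nat_lit 60448247399) (nat_lit 85) (nat_lit 5) (nat_lit 94) (nat_lit 5) (nat_lit 95) (nat_lit 5) (nat_lit 374) (nat_lit 362) (nat_lit 164)) (XT.lf (nat_lit 0) (nat_lit 65671074749) (nat_lit 760) (nat_lit 24706911223) (nat_lit 76) (nat_lit 27512426571) (nat_lit 85) (nat_lit 5) (nat_lit 95) (nat_lit 5) (nat_lit 86) (nat_lit 5) (nat_lit 375) (nat_lit 362) (nat_lit 163)))) (XT.nd (nat_lit 78) (nat_lit 304) (nat_lit 0) (XT.lf (nat_lit 0) (nat_lit 35576094222) (nat_lit 380) (nat_lit 42992410673) (nat_lit 456) (nat_lit 42636130633) (nat_lit 80) (nat_lit 5) (nat_lit 85) (nat_lit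 5) (nat_lit 86) (nat_lit 5) (nat_lit 376) (nat_lit 362) (nat_lit 162)) (XT.nd (nat_lit 78) (nat_lit 304) (nat_lit 0) (XT.lf (nat_lit 0) (nat_lit 92641350090) (nat_lit 456) (nat_lit 25045402145) (nat_lit 76) (nat_lit 6971290683) (nat_lit 80) (nat_lit 5) (nat_lit 86) (nat_lit 5) (nat_lit 81) (nat_lit 5) (nat_lit 377) (nat_lit 362) (nat_lit 161)) (XT.lf (nat_lit 0) (nat_lit 39113666060) (nat_lit 304) (nat_lit 69619334236) (nat_lit 380) (nat_lit 19485362658) (nat_lit 76) (nat_lit 5) (nat_lit 80) (nat_lit 5) (nat_lit 81) (nat_lit 5) (nat_lit 378) (nat_lit 362) (nat_lit 160))))) (XT.nd (nat_lit 234) (nat_lit 608) (nat_lit 0) (XT.nd (nat_lit 78) (nat_lit 380) (nat_lit 0) (XT.lf (nat_lit 0) (nat_lit 107349896700) (nat_lit 304) (nat_lit 18703197170) (nat_lit 380) (nat_lit 5882412472) (nat_lit 76) (nat_lit 5) (nat_lit 80) (nat_lit 5) (nat_lit 81) (nat_lit 5) (nat_lit 379) (nat_lit 362) (nat_lit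 159)) (XT.nd (nat_lit 78) (nat_lit 0) (nat_lit 0) (XT.lf (nat_lit 0) (nat_lit 9381732566) (nat_lit 380) (nat_lit 91902805123) (nat_lit 76) (nat_lit 34484915571) (nat_lit 71) (nat_lit 5) (nat_lit 76) (nat_lit 5) (nat_lit 72) (nat_lit 5) (nat_lit 380) (nat_lit 362) (nat_lit 158)) (XT.lf (nat_lit 0) (nat_lit 25940924425) (nat_lit 380) (nat_lit 23589386607) (nat_lit 76) (nat_lit 90223488823) (nat_lit 71) (nat_lit 5) (nat_lit 76) (nat_lit 5) (nat_lit 72) (nat_lit 5) (nat_lit 381) (nat_lit 362) (nat_lit 157)))) (XT.nd (nat_lit 78) (nat_lit 304) (nat_lit 0) (XT.lf (nat_lit 0) (nat_lit 44192104554) (nat_lit 380) (nat_lit 94255297008) (nat_lit 76) (nat_lit 5446761107) (nat_lit 67) (nat_lit 5) (nat_lit 72) (nat_lit 5) (nat_lit 68) (nat_lit 5) (nat_lit 382) (nat_lit 362) (nat_lit 156)) (XT.nd (nat_lit 78) (nat_lit 304) (nat_lit 0) (XT.lf (nat_lit 0) (nat_lit 64573605905) (nat_lit 380) (nat_lit 21692896813)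 (nat_lit 76) (nat_lit 61914153104) (nat_lit 67) (nat_lit 5) (nat_lit 72) (nat_lit 5) (nat_lit 68) (nat_lit 5) (nat_lit 383) (nat_lit 362) (nat_lit 155)) (XT.lf (nat_lit 0) (nat_lit 56299258498) (nat_lit 304) (nat_lit 30553668348) (nat_lit 380) (nat_lit 65784609854) (nat_lit 63) (nat_lit 5) (nat_lit 67) (nat_lit 5) (nat_lit 68) (nat_lit 5) (nat_lit 384) (nat_lit 362) (nat_lit 154))))))))
noncomputable def xc234 : XT := (XT.nd (nat_lit 1794) (nat_lit 836) (nat_lit 0) (XT.nd (nat_lit 858) (nat_lit 1140) (nat_lit 0) (XT.nd (nat_lit 390) (nat_lit 684) (nat_lit 0) (XT.nd (nat_lit 156) (nat_lit 380) (nat_lit 0) (XT.nd (nat_lit 78) (nat_lit 228) (nat_lit 0) (XT.lf (nat_lit 0) (nat_lit 111055674606) (nat_lit 380) (nat_lit 18797361457) (nat_lit 76) (nat_lit 27423752801) (nat_lit 63) (nat_lit 5) (nat_lit 68) (nat_lit 5) (nat_lit 64) (nat_lit 5) (nat_lit 385) (nat_lit 362) (nat_lit 153)) (XT.lf (nat_lit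 0) (nat_lit 64173385266) (nat_lit 228) (nat_lit 73797753720) (nat_lit 304) (nat_lit 24101735956) (nat_lit 60) (nat_lit 5) (nat_lit 63) (nat_lit 5) (nat_lit 64) (nat_lit 5) (nat_lit 386) (nat_lit 362) (nat_lit 152))) (XT.nd (nat_lit 78) (nat_lit 380) (nat_lit 0) (XT.lf (nat_lit 0) (nat_lit 151944990720) (nat_lit 228) (nat_lit 14605507737) (nat_lit 304) (nat_lit 542361026) (nat_lit 60) (nat_lit 5) (nat_lit 63) (nat_lit 5) (nat_lit 64) (nat_lit 5) (nat_lit 387) (nat_lit 362) (nat_lit 151)) (XT.nd (nat_lit 78) (nat_lit 0) (nat_lit 0) (XT.lf (nat_lit 0) (nat_lit 25338792150) (nat_lit 380) (nat_lit 99331907773) (nat_lit 76) (nat_lit 47578345982) (nat_lit 55) (nat_lit 5) (nat_lit 60) (nat_lit 5) (nat_lit 56) (nat_lit 5) (nat_lit 388) (nat_lit 362) (nat_lit 150)) (XT.lf (nat_lit 0) (nat_lit 52995743929) (nat_lit 380) (nat_lit 11991730579) (nat_lit 76) (nat_lit 112650124411) (nat_lit 55) (nat_lit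 5) (nat_lit 60) (nat_lit 5) (nat_lit 56) (nat_lit 5) (nat_lit 389) (nat_lit 362) (nat_lit 149))))) (XT.nd (nat_lit 234) (nat_lit 228) (nat_lit 0) (XT.nd (nat_lit 78) (nat_lit 228) (nat_lit 0) (XT.lf (nat_lit 0) (nat_lit 82350933254) (nat_lit 228) (nat_lit 970140111) (nat_lit 304) (nat_lit 99910229923) (nat_lit 52) (nat_lit 5) (nat_lit 55) (nat_lit 5) (nat_lit 56) (nat_lit 5) (nat_lit 390) (nat_lit 362) (nat_lit 148)) (XT.nd (nat_lit 78) (nat_lit 228) (nat_lit 0) (XT.lf (nat_lit 0) (nat_lit 116403207716) (nat_lit 304) (nat_lit 8305400545) (nat_lit 76) (nat_lit 64334057892) (nat_lit 52) (nat_lit 5) (nat_lit 56) (nat_lit 5) (nat_lit 53) (nat_lit 5) (nat_lit 391) (nat_lit 362) (nat_lit 147)) (XT.lf (nat_lit 0) (nat_lit 91821000968) (nat_lit 228) (nat_lit 60767749681) (nat_lit 304) (nat_lit 42483381609) (nat_lit 49) (nat_lit 5) (nat_lit 52) (nat_lit 5) (nat_lit 53) (nat_lit 5) (nat_lit 392)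 (nat_lit 362) (nat_lit 146)))) (XT.nd (nat_lit 78) (nat_lit 228) (nat_lit 0) (XT.lf (nat_lit 0) (nat_lit 190825806951) (nat_lit 304) (nat_lit 4255995186) (nat_lit 76) (nat_lit 6309157900) (nat_lit 49) (nat_lit 5) (nat_lit 53) (nat_lit 5) (nat_lit 50) (nat_lit 5) (nat_lit 393) (nat_lit 362) (nat_lit 145)) (XT.nd (nat_lit 78) (nat_lit 0) (nat_lit 0) (XT.lf (nat_lit 0) (nat_lit 24844732845) (nat_lit 228) (nat_lit 106341385199) (nat_lit 76) (nat_lit 76690183581) (nat_lit 46) (nat_lit 5) (nat_lit 49) (nat_lit 5) (nat_lit 47) (nat_lit 5) (nat_lit 394) (nat_lit 362) (nat_lit 144)) (XT.lf (nat_lit 0) (nat_lit 61743142196) (nat_lit 228) (nat_lit 2093806288) (nat_lit 76) (nat_lit 150836647626) (nat_lit 46) (nat_lit 5) (nat_lit 49) (nat_lit 5) (nat_lit 47) (nat_lit 5) (nat_lit 395) (nat_lit 362) (nat_lit 143)))))) (XT.nd (nat_lit 468) (nat_lit 532) (nat_lit 0) (XT.nd (nat_lit 234) (nat_lit 228) (nat_lit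 0) (XT.nd (nat_lit 78) (nat_lit 152) (nat_lit 0) (XT.lf (nat_lit 0) (nat_lit 102353815601) (nat_lit 304) (nat_lit 110944062498) (nat_lit 76) (nat_lit 8419510189) (nat_lit 43) (nat_lit 5) (nat_lit 47) (nat_lit 5) (nat_lit 44) (nat_lit 5) (nat_lit 396) (nat_lit 362) (nat_lit 142)) (XT.nd (nat_lit 78) (nat_lit 152) (nat_lit 0) (XT.lf (nat_lit 0) (nat_lit 146077410636) (nat_lit 304) (nat_lit 802421337) (nat_lit 76) (nat_lit 82179418846) (nat_lit 43) (nat_lit 5) (nat_lit 47) (nat_lit 5) (nat_lit 44) (nat_lit 5) (nat_lit 397) (nat_lit 362) (nat_lit 141)) (XT.lf (nat_lit 0) (nat_lit 118643400904) (nat_lit 152) (nat_lit 75195987818) (nat_lit 228) (nat_lit 42836207723) (nat_lit 41) (nat_lit 5) (nat_lit 43) (nat_lit 5) (nat_lit 44) (nat_lit 5) (nat_lit 398) (nat_lit 362) (nat_lit 140)))) (XT.nd (nat_lit 78) (nat_lit 228) (nat_lit 0) (XT.lf (nat_lit 0) (nat_lit 244004252584) (nat_lit 228) (nat_lit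 584288411) (nat_lit 76) (nat_lit 83479143) (nat_lit 41) (nat_lit 5) (nat_lit 44) (nat_lit 5) (nat_lit 42) (nat_lit 5) (nat_lit 399) (nat_lit 362) (nat_lit 139)) (XT.nd (nat_lit 78) (nat_lit 0) (nat_lit 0) (XT.lf (nat_lit 0) (nat_lit 45457969033) (nat_lit 228) (nat_lit 128121332001) (nat_lit 76) (nat_lit 79292689199) (nat_lit 38) (nat_lit 5) (nat_lit 41) (nat_lit 5) (nat_lit 39) (nat_lit 5) (nat_lit 400) (nat_lit 362) (nat_lit 138)) (XT.lf (nat_lit 0) (nat_lit 93877466472) (nat_lit 228) (nat_lit 5120159409) (nat_lit 76) (nat_lit 162483289943) (nat_lit 38) (nat_lit 5) (nat_lit 41) (nat_lit 5) (nat_lit 39) (nat_lit 5) (nat_lit 401) (nat_lit 362) (nat_lit 137))))) (XT.nd (nat_lit 234) (nat_lit 228) (nat_lit 0) (XT.nd (nat_lit 78) (nat_lit 152) (nat_lit 0) (XT.lf (nat_lit 0) (nat_lit 128131879297) (nat_lit 152) (nat_lit 18586421941) (nat_lit 228) (nat_lit 123701968439) (nat_lit 36) (nat_lit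 5) (nat_lit 38) (nat_lit 5) (nat_lit 39) (nat_lit 5) (nat_lit 402) (nat_lit 362) (nat_lit 136)) (XT.nd (nat_lit 78) (nat_lit 152) (nat_lit 0) (XT.lf (nat_lit 0) (nat_lit 203317208655) (nat_lit 228) (nat_lit 12607642045) (nat_lit 76) (nat_lit 63825939079) (nat_lit 36) (nat_lit 5) (nat_lit 39) (nat_lit 5) (nat_lit 37) (nat_lit 5) (nat_lit 403) (nat_lit 362) (nat_lit 135)) (XT.lf (nat_lit 0) (nat_lit 127327519379) (nat_lit 152) (nat_lit 137711049960) (nat_lit 228) (nat_lit 24394641248) (nat_lit 34) (nat_lit 5) (nat_lit 36) (nat_lit 5) (nat_lit 37) (nat_lit 5) (nat_lit 404) (nat_lit 362) (nat_lit 134)))) (XT.nd (nat_lit 78) (nat_lit 152) (nat_lit 0) (XT.lf (nat_lit 0) (nat_lit 29495067483) (nat_lit 228) (nat_lit 25367863440) (nat_lit 76) (nat_lit 244702365635) (nat_lit 33) (nat_lit 5) (nat_lit 36) (nat_lit 5) (nat_lit 34) (nat_lit 5) (nat_lit 405) (nat_lit 362) (nat_lit 133)) (XT.nd (nat_lit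 78) (nat_lit 0) (nat_lit 0) (XT.lf (nat_lit 0) (nat_lit 87698736266) (nat_lit 228) (nat_lit 188926326902) (nat_lit 76) (nat_lit 33436963407) (nat_lit 31) (nat_lit 5) (nat_lit 34) (nat_lit 5) (nat_lit 32) (nat_lit 5) (nat_lit 406) (nat_lit 362) (nat_lit 132)) (XT.lf (nat_lit 0) (nat_lit 150148522115) (nat_lit 228) (nat_lit 46123589040) (nat_lit 76) (nat_lit 124744685337) (nat_lit 31) (nat_lit 5) (nat_lit 34) (nat_lit 5) (nat_lit 32) (nat_lit 5) (nat_lit 407) (nat_lit 362) (nat_lit 131))))))) (XT.nd (nat_lit 858) (nat_lit 76) (nat_lit 0) (XT.nd (nat_lit 390) (nat_lit 304) (nat_lit 0) (XT.nd (nat_lit 156) (nat_lit 304) (nat_lit 0) (XT.nd (nat_lit 78) (nat_lit 0) (nat_lit 0) (XT.lf (nat_lit 0) (nat_lit 107251825881) (nat_lit 152) (nat_lit 110143359968) (nat_lit 228) (nat_lit 115040399700) (nat_lit 29) (nat_lit 5) (nat_lit 31) (nat_lit 5) (nat_lit 32) (nat_lit 5) (nat_lit 408) (nat_lit 362)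 (nat_lit 130)) (XT.lf (nat_lit 0) (nat_lit 269897133382) (nat_lit 152) (nat_lit 18888064199) (nat_lit 228) (nat_lit 55601065810) (nat_lit 29) (nat_lit 5) (nat_lit 31) (nat_lit 5) (nat_lit 32) (nat_lit 5) (nat_lit 409) (nat_lit 362) (nat_lit 129))) (XT.nd (nat_lit 78) (nat_lit 152) (nat_lit 0) (XT.lf (nat_lit 0) (nat_lit 9166037139) (nat_lit 152) (nat_lit 271687632943) (nat_lit 76) (nat_lit 75946800143) (nat_lit 27) (nat_lit 5) (nat_lit 29) (nat_lit 5) (nat_lit 28) (nat_lit 5) (nat_lit 410) (nat_lit 362) (nat_lit 128)) (XT.nd (nat_lit 78) (nat_lit 152) (nat_lit 0) (XT.lf (nat_lit 0) (nat_lit 76894659356) (nat_lit 152) (nat_lit 115733309448) (nat_lit 76) (nat_lit 177082257791) (nat_lit 27) (nat_lit 5) (nat_lit 29) (nat_lit 5) (nat_lit 28) (nat_lit 5) (nat_lit 411) (nat_lit 362) (nat_lit 127)) (XT.lf (nat_lit 0) (nat_lit 49606268134) (nat_lit 152) (nat_lit 99177836642) (nat_lit 228) (nat_lit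 234442646459) (nat_lit 25) (nat_lit 5) (nat_lit 27) (nat_lit 5) (nat_lit 28) (nat_lit 5) (nat_lit 412) (nat_lit 362) (nat_lit 126))))) (XT.nd (nat_lit 234) (nat_lit 228) (nat_lit 0) (XT.nd (nat_lit 78) (nat_lit 76) (nat_lit 0) (XT.lf (nat_lit 0) (nat_lit 226243578875) (nat_lit 228) (nat_lit 170106108469) (nat_lit 76) (nat_lit 970637001) (nat_lit 25) (nat_lit 5) (nat_lit 28) (nat_lit 5) (nat_lit 26) (nat_lit 4) (nat_lit 413) (nat_lit 362) (nat_lit 125)) (XT.nd (nat_lit 78) (nat_lit 76) (nat_lit 0) (XT.lf (nat_lit 0) (nat_lit 309201797867) (nat_lit 228) (nat_lit 42046576) (nat_lit 76) (nat_lit 102793443159) (nat_lit 25) (nat_lit 5) (nat_lit 28) (nat_lit 5) (nat_lit 26) (nat_lit 4) (nat_lit 414) (nat_lit 362) (nat_lit 124)) (XT.lf (nat_lit 0) (nat_lit 184427905744) (nat_lit 76) (nat_lit 214759368071) (nat_lit 152) (nat_lit 28158857958) (nat_lit 24) (nat_lit 5) (nat_lit 25) (nat_lit 5) (nat_lit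 26) (nat_lit 4) (nat_lit 415) (nat_lit 362) (nat_lit 123)))) (XT.nd (nat_lit 78) (nat_lit 152) (nat_lit 0) (XT.lf (nat_lit 0) (nat_lit 48643873888) (nat_lit 152) (nat_lit 66082305081) (nat_lit 76) (nat_lit 328654979126) (nat_lit 23) (nat_lit 5) (nat_lit 25) (nat_lit 5) (nat_lit 24) (nat_lit 5) (nat_lit 416) (nat_lit 362) (nat_lit 122)) (XT.nd (nat_lit 78) (nat_lit 0) (nat_lit 0) (XT.lf (nat_lit 0) (nat_lit 123072737092) (nat_lit 152) (nat_lit 7189107515) (nat_lit 228) (nat_lit 329836938912) (nat_lit 21) (nat_lit 5) (nat_lit 23) (nat_lit 5) (nat_lit 24) (nat_lit 5) (nat_lit 417) (nat_lit 362) (nat_lit 121)) (XT.lf (nat_lit 0) (nat_lit 218748771852) (nat_lit 228) (nat_lit 155285732027) (nat_lit 76) (nat_lit 103478383476) (nat_lit 21) (nat_lit 5) (nat_lit 24) (nat_lit 5) (nat_lit 22) (nat_lit 4) (nat_lit 418) (nat_lit 362) (nat_lit 120)))))) (XT.nd (nat_lit 42900) (nat_lit 0) (nat_lit 5396)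 (XT.nd (nat_lit 42666) (nat_lit 0) (nat_lit 5320) (XT.nd (nat_lit 42510) (nat_lit 0) (nat_lit 6080) (XT.lf (nat_lit 0) (nat_lit 36594864052) (nat_lit 76) (nat_lit 275754303056) (nat_lit 152) (nat_lit 183414073234) (nat_lit 20) (nat_lit 5) (nat_lit 21) (nat_lit 5) (nat_lit 22) (nat_lit 4) (nat_lit 419) (nat_lit 362) (nat_lit 119)) (XT.nd (nat_lit 78) (nat_lit 0) (nat_lit 0) (XT.lf (nat_lit 0) (nat_lit 21660657884) (nat_lit 0) (nat_lit 21660657884) (nat_lit 684) (nat_lit 808765472) (nat_lit 100) (nat_lit 5) (nat_lit 100) (nat_lit 3) (nat_lit 109) (nat_lit 3) (nat_lit 363) (nat_lit 363) (nat_lit 174)) (XT.lf (nat_lit 0) (nat_lit 86457207760) (nat_lit 0) (nat_lit 2359414926) (nat_lit 684) (nat_lit 1649635400) (nat_lit 100) (nat_lit 5) (nat_lit 100) (nat_lit 3) (nat_lit 109) (nat_lit 3) (nat_lit 364) (nat_lit 363) (nat_lit 173)))) (XT.nd (nat_lit 78) (nat_lit 760) (nat_lit 0) (XT.lf (nat_lit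 76) (nat_lit 39599720997) (nat_lit 0) (nat_lit 52752021148) (nat_lit 760) (nat_lit 368295667) (nat_lit 101) (nat_lit 5) (nat_lit 100) (nat_lit 5) (nat_lit 110) (nat_lit 5) (nat_lit 365) (nat_lit 363) (nat_lit 172)) (XT.nd (nat_lit 78) (nat_lit 0) (nat_lit 76) (XT.lf (nat_lit 0) (nat_lit 1053032171) (nat_lit 760) (nat_lit 9610339294) (nat_lit 836) (nat_lit 84417013258) (nat_lit 90) (nat_lit 5) (nat_lit 100) (nat_lit 5) (nat_lit 101) (nat_lit 5) (nat_lit 366) (nat_lit 363) (nat_lit 171)) (XT.lf (nat_lit 0) (nat_lit 3647467034) (nat_lit 760) (nat_lit 60801099691) (nat_lit 836) (nat_lit 33054160156) (nat_lit 91) (nat_lit 5) (nat_lit 101) (nat_lit 5) (nat_lit 102) (nat_lit 5) (nat_lit 367) (nat_lit 363) (nat_lit 170))))) (XT.nd (nat_lit 234) (nat_lit 0) (nat_lit 152) (XT.nd (nat_lit 78) (nat_lit 0) (nat_lit 76) (XT.lf (nat_lit 0) (nat_lit 6711408635) (nat_lit 760) (nat_lit 14552988000) (nat_lit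 836) (nat_lit 78764800906) (nat_lit 91) (nat_lit 5) (nat_lit 101) (nat_lit 5) (nat_lit 102) (nat_lit 5) (nat_lit 368) (nat_lit 363) (nat_lit 169)) (XT.nd (nat_lit 78) (nat_lit 0) (nat_lit 0) (XT.lf (nat_lit 0) (nat_lit 10861558699) (nat_lit 760) (nat_lit 67907849660) (nat_lit 836) (nat_lit 23865933416) (nat_lit 92) (nat_lit 5) (nat_lit 102) (nat_lit 5) (nat_lit 103) (nat_lit 5) (nat_lit 369) (nat_lit 363) (nat_lit 168)) (XT.lf (nat_lit 0) (nat_lit 15817906151) (nat_lit 760) (nat_lit 18735171458) (nat_lit 836) (nat_lit 70788781701) (nat_lit 92) (nat_lit 5) (nat_lit 102) (nat_lit 5) (nat_lit 103) (nat_lit 5) (nat_lit 370) (nat_lit 363) (nat_lit 167)))) (XT.nd (nat_lit 78) (nat_lit 0) (nat_lit 0) (XT.lf (nat_lit 0) (nat_lit 21746346629) (nat_lit 760) (nat_lit 74367747701) (nat_lit 836) (nat_lit 12033395162) (nat_lit 93) (nat_lit 5) (nat_lit 103) (nat_lit 5) (nat_lit 104) (nat_lit 5) (nat_lit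 371) (nat_lit 363) (nat_lit 166)) (XT.nd (nat_lit 78) (nat_lit 0) (nat_lit 0) (XT.lf (nat_lit 0) (nat_lit 28859769544) (nat_lit 760) (nat_lit 22078647263) (nat_lit 836) (nat_lit 60110556884) (nat_lit 93) (nat_lit 5) (nat_lit 103) (nat_lit 5) (nat_lit 104) (nat_lit 5) (nat_lit 372) (nat_lit 363) (nat_lit 165)) (XT.lf (nat_lit 76) (nat_lit 33909944151) (nat_lit 0) (nat_lit 2947992392) (nat_lit 836) (nat_lit 77211142413) (nat_lit 94) (nat_lit 5) (nat_lit 93) (nat_lit 5) (nat_lit 104) (nat_lit 5) (nat_lit 373) (nat_lit 363) (nat_lit 164))))))))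
noncomputable def xc235 : XT := (XT.nd (nat_lit 1794) (nat_lit 1900) (nat_lit 0) (XT.nd (nat_lit 858) (nat_lit 1596) (nat_lit 0) (XT.nd (nat_lit 390) (nat_lit 988) (nat_lit 0) (XT.nd (nat_lit 156) (nat_lit 380) (nat_lit 0) (XT.nd (nat_lit 78) (nat_lit 684) (nat_lit 0) (XT.lf (nat_lit 0) (nat_lit 46376413008) (nat_lit 760) (nat_lit 24504147316) (nat_lit 76) (nat_lit 46303609584) (nat_lit 94) (nat_lit 5) (nat_lit 104) (nat_lit 5) (nat_lit 95) (nat_lit 5) (nat_lit 374) (nat_lit 363) (nat_lit 163)) (XT.lf (nat_lit 0) (nat_lit 35005358741) (nat_lit 684) (nat_lit 21959987367) (nat_lit 760) (nat_lit 63459943115) (nat_lit 85) (nat_lit 5) (nat_lit 94) (nat_lit 5) (nat_lit 95) (nat_lit 5) (nat_lit 375) (nat_lit 363) (nat_lit 162))) (XT.nd (nat_lit 78) (nat_lit 380) (nat_lit 0) (XT.lf (nat_lit 0) (nat_lit 68964323017) (nat_lit 760) (nat_lit 25932874096) (nat_lit 76) (nat_lit 28887237968) (nat_lit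 85) (nat_lit 5) (nat_lit 95) (nat_lit 5) (nat_lit 86) (nat_lit 5) (nat_lit 376) (nat_lit 363) (nat_lit 161)) (XT.nd (nat_lit 78) (nat_lit 0) (nat_lit 0) (XT.lf (nat_lit 0) (nat_lit 37364130288) (nat_lit 380) (nat_lit 45142176864) (nat_lit 456) (nat_lit 44758078573) (nat_lit 80) (nat_lit 5) (nat_lit 85) (nat_lit 5) (nat_lit 86) (nat_lit 5) (nat_lit 377) (nat_lit 363) (nat_lit 160)) (XT.lf (nat_lit 0) (nat_lit 97282345918) (nat_lit 456) (nat_lit 26288419674) (nat_lit 76) (nat_lit 7319720935) (nat_lit 80) (nat_lit 5) (nat_lit 86) (nat_lit 5) (nat_lit 81) (nat_lit 5) (nat_lit 378) (nat_lit 363) (nat_lit 159))))) (XT.nd (nat_lit 234) (nat_lit 304) (nat_lit 0) (XT.nd (nat_lit 78) (nat_lit 380) (nat_lit 0) (XT.lf (nat_lit 0) (nat_lit 41078452706) (nat_lit 304) (nat_lit 73099842898) (nat_lit 380) (nat_lit 20450541688) (nat_lit 76) (nat_lit 5) (nat_lit 80) (nat_lit 5) (nat_lit 81) (nat_lit 5) (nat_lit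 379) (nat_lit 363) (nat_lit 158)) (XT.nd (nat_lit 78) (nat_lit 380) (nat_lit 0) (XT.lf (nat_lit 0) (nat_lit 112726061386) (nat_lit 304) (nat_lit 19637920791) (nat_lit 380) (nat_lit 6167876808) (nat_lit 76) (nat_lit 5) (nat_lit 80) (nat_lit 5) (nat_lit 81) (nat_lit 5) (nat_lit 380) (nat_lit 363) (nat_lit 157)) (XT.lf (nat_lit 0) (nat_lit 9858947862) (nat_lit 380) (nat_lit 96488727466) (nat_lit 76) (nat_lit 36209834190) (nat_lit 71) (nat_lit 5) (nat_lit 76) (nat_lit 5) (nat_lit 72) (nat_lit 5) (nat_lit 381) (nat_lit 363) (nat_lit 156)))) (XT.nd (nat_lit 78) (nat_lit 304) (nat_lit 0) (XT.lf (nat_lit 0) (nat_lit 27245712234) (nat_lit 380) (nat_lit 24760076971) (nat_lit 76) (nat_lit 94735304065) (nat_lit 71) (nat_lit 5) (nat_lit 76) (nat_lit 5) (nat_lit 72) (nat_lit 5) (nat_lit 382) (nat_lit 363) (nat_lit 155)) (XT.nd (nat_lit 78) (nat_lit 0) (nat_lit 0) (XT.lf (nat_lit 0) (nat_lit 46409235212)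 (nat_lit 380) (nat_lit 98959057690) (nat_lit 76) (nat_lit 5720192583) (nat_lit 67) (nat_lit 5) (nat_lit 72) (nat_lit 5) (nat_lit 68) (nat_lit 5) (nat_lit 383) (nat_lit 363) (nat_lit 154)) (XT.lf (nat_lit 0) (nat_lit 67809453277) (nat_lit 380) (nat_lit 22768966255) (nat_lit 76) (nat_lit 65010902112) (nat_lit 67) (nat_lit 5) (nat_lit 72) (nat_lit 5) (nat_lit 68) (nat_lit 5) (nat_lit 384) (nat_lit 363) (nat_lit 153)))))) (XT.nd (nat_lit 468) (nat_lit 684) (nat_lit 0) (XT.nd (nat_lit 234) (nat_lit 380) (nat_lit 0) (XT.nd (nat_lit 78) (nat_lit 228) (nat_lit 0) (XT.lf (nat_lit 0) (nat_lit 59122658509) (nat_lit 304) (nat_lit 32079872194) (nat_lit 380) (nat_lit 69066526753) (nat_lit 63) (nat_lit 5) (nat_lit 67) (nat_lit 5) (nat_lit 68) (nat_lit 5) (nat_lit 385) (nat_lit 363) (nat_lit 152)) (XT.nd (nat_lit 78) (nat_lit 228) (nat_lit 0) (XT.lf (nat_lit 0) (nat_lit 116615106541) (nat_lit 380) (nat_lit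 19728877087) (nat_lit 76) (nat_lit 28796304456) (nat_lit 63) (nat_lit 5) (nat_lit 68) (nat_lit 5) (nat_lit 64) (nat_lit 5) (nat_lit 386) (nat_lit 363) (nat_lit 151)) (XT.lf (nat_lit 0) (nat_lit 67390272255) (nat_lit 228) (nat_lit 77485883604) (nat_lit 304) (nat_lit 25300032391) (nat_lit 60) (nat_lit 5) (nat_lit 63) (nat_lit 5) (nat_lit 64) (nat_lit 5) (nat_lit 387) (nat_lit 363) (nat_lit 150)))) (XT.nd (nat_lit 78) (nat_lit 380) (nat_lit 0) (XT.lf (nat_lit 0) (nat_lit 159550066662) (nat_lit 228) (nat_lit 15334109027) (nat_lit 304) (nat_lit 563012066) (nat_lit 60) (nat_lit 5) (nat_lit 63) (nat_lit 5) (nat_lit 64) (nat_lit 5) (nat_lit 388) (nat_lit 363) (nat_lit 149)) (XT.nd (nat_lit 78) (nat_lit 0) (nat_lit 0) (XT.lf (nat_lit 0) (nat_lit 26611845687) (nat_lit 380) (nat_lit 104290310494) (nat_lit 76) (nat_lit 49959029895) (nat_lit 55) (nat_lit 5) (nat_lit 60) (nat_lit 5) (nat_lit 56) (nat_lit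 5) (nat_lit 389) (nat_lit 363) (nat_lit 148)) (XT.lf (nat_lit 0) (nat_lit 55651353915) (nat_lit 380) (nat_lit 12583514568) (nat_lit 76) (nat_lit 118284313120) (nat_lit 55) (nat_lit 5) (nat_lit 60) (nat_lit 5) (nat_lit 56) (nat_lit 5) (nat_lit 390) (nat_lit 363) (nat_lit 147))))) (XT.nd (nat_lit 234) (nat_lit 228) (nat_lit 0) (XT.nd (nat_lit 78) (nat_lit 228) (nat_lit 0) (XT.lf (nat_lit 0) (nat_lit 86476156610) (nat_lit 228) (nat_lit 1016635793) (nat_lit 304) (nat_lit 104899786951) (nat_lit 52) (nat_lit 5) (nat_lit 55) (nat_lit 5) (nat_lit 56) (nat_lit 5) (nat_lit 391) (nat_lit 363) (nat_lit 146)) (XT.nd (nat_lit 78) (nat_lit 228) (nat_lit 0) (XT.lf (nat_lit 0) (nat_lit 122228793598) (nat_lit 304) (nat_lit 8713114011) (nat_lit 76) (nat_lit 67552615024) (nat_lit 52) (nat_lit 5) (nat_lit 56) (nat_lit 5) (nat_lit 53) (nat_lit 5) (nat_lit 392) (nat_lit 363) (nat_lit 145)) (XT.lf (nat_lit 0)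 (nat_lit 96419485698) (nat_lit 228) (nat_lit 63803985699) (nat_lit 304) (nat_lit 44601998025) (nat_lit 49) (nat_lit 5) (nat_lit 52) (nat_lit 5) (nat_lit 53) (nat_lit 5) (nat_lit 393) (nat_lit 363) (nat_lit 144)))) (XT.nd (nat_lit 78) (nat_lit 228) (nat_lit 0) (XT.lf (nat_lit 0) (nat_lit 200372160923) (nat_lit 304) (nat_lit 4461489669) (nat_lit 76) (nat_lit 6626599229) (nat_lit 49) (nat_lit 5) (nat_lit 53) (nat_lit 5) (nat_lit 50) (nat_lit 5) (nat_lit 394) (nat_lit 363) (nat_lit 143)) (XT.nd (nat_lit 78) (nat_lit 0) (nat_lit 0) (XT.lf (nat_lit 0) (nat_lit 26091989744) (nat_lit 228) (nat_lit 111651096449) (nat_lit 76) (nat_lit 80526774933) (nat_lit 46) (nat_lit 5) (nat_lit 49) (nat_lit 5) (nat_lit 47) (nat_lit 5) (nat_lit 395) (nat_lit 363) (nat_lit 142)) (XT.lf (nat_lit 0) (nat_lit 64835080502) (nat_lit 228) (nat_lit 2191488974) (nat_lit 76) (nat_lit 158380463029) (nat_lit 46) (nat_lit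 5) (nat_lit 49) (nat_lit 5) (nat_lit 47) (nat_lit 5) (nat_lit 396) (nat_lit 363) (nat_lit 141))))))) (XT.nd (nat_lit 858) (nat_lit 760) (nat_lit 0) (XT.nd (nat_lit 390) (nat_lit 532) (nat_lit 0) (XT.nd (nat_lit 156) (nat_lit 380) (nat_lit 0) (XT.nd (nat_lit 78) (nat_lit 0) (nat_lit 0) (XT.lf (nat_lit 0) (nat_lit 107476202416) (nat_lit 304) (nat_lit 116484168688) (nat_lit 76) (nat_lit 8842647653) (nat_lit 43) (nat_lit 5) (nat_lit 47) (nat_lit 5) (nat_lit 44) (nat_lit 5) (nat_lit 397) (nat_lit 363) (nat_lit 140)) (XT.lf (nat_lit 0) (nat_lit 153385753581) (nat_lit 304) (nat_lit 835783419) (nat_lit 76) (nat_lit 86290448792) (nat_lit 43) (nat_lit 5) (nat_lit 47) (nat_lit 5) (nat_lit 44) (nat_lit 5) (nat_lit 398) (nat_lit 363) (nat_lit 139))) (XT.nd (nat_lit 78) (nat_lit 228) (nat_lit 0) (XT.lf (nat_lit 0) (nat_lit 124582220918) (nat_lit 152) (nat_lit 78953500506) (nat_lit 228) (nat_lit 44973432921)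 (nat_lit 41) (nat_lit 5) (nat_lit 43) (nat_lit 5) (nat_lit 44) (nat_lit 5) (nat_lit 399) (nat_lit 363) (nat_lit 138)) (XT.nd (nat_lit 78) (nat_lit 228) (nat_lit 0) (XT.lf (nat_lit 0) (nat_lit 256208654707) (nat_lit 228) (nat_lit 606992175) (nat_lit 76) (nat_lit 89761209) (nat_lit 41) (nat_lit 5) (nat_lit 44) (nat_lit 5) (nat_lit 42) (nat_lit 5) (nat_lit 400) (nat_lit 363) (nat_lit 137)) (XT.lf (nat_lit 0) (nat_lit 47735027838) (nat_lit 228) (nat_lit 134520852149) (nat_lit 76) (nat_lit 83259498494) (nat_lit 38) (nat_lit 5) (nat_lit 41) (nat_lit 5) (nat_lit 39) (nat_lit 5) (nat_lit 401) (nat_lit 363) (nat_lit 136))))) (XT.nd (nat_lit 234) (nat_lit 380) (nat_lit 0) (XT.nd (nat_lit 78) (nat_lit 152) (nat_lit 0) (XT.lf (nat_lit 0) (nat_lit 98575302037) (nat_lit 228) (nat_lit 5369932663) (nat_lit 76) (nat_lit 170609525711) (nat_lit 38) (nat_lit 5) (nat_lit 41) (nat_lit 5) (nat_lit 39) (nat_lit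 5) (nat_lit 402) (nat_lit 363) (nat_lit 135)) (XT.nd (nat_lit 78) (nat_lit 0) (nat_lit 0) (XT.lf (nat_lit 0) (nat_lit 134544607419) (nat_lit 152) (nat_lit 19513478216) (nat_lit 228) (nat_lit 129883001115) (nat_lit 36) (nat_lit 5) (nat_lit 38) (nat_lit 5) (nat_lit 39) (nat_lit 5) (nat_lit 403) (nat_lit 363) (nat_lit 134)) (XT.lf (nat_lit 0) (nat_lit 213486787844) (nat_lit 228) (nat_lit 13232028712) (nat_lit 76) (nat_lit 67019323970) (nat_lit 36) (nat_lit 5) (nat_lit 39) (nat_lit 5) (nat_lit 37) (nat_lit 5) (nat_lit 404) (nat_lit 363) (nat_lit 133)))) (XT.nd (nat_lit 78) (nat_lit 228) (nat_lit 0) (XT.lf (nat_lit 0) (nat_lit 133699794083) (nat_lit 152) (nat_lit 144594337491) (nat_lit 228) (nat_lit 25610555182) (nat_lit 34) (nat_lit 5) (nat_lit 36) (nat_lit 5) (nat_lit 37) (nat_lit 5) (nat_lit 405) (nat_lit 363) (nat_lit 132)) (XT.nd (nat_lit 78) (nat_lit 152) (nat_lit 0) (XT.lf (nat_lit 0)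 (nat_lit 30973340785) (nat_lit 228) (nat_lit 26630519961) (nat_lit 76) (nat_lit 256939522220) (nat_lit 33) (nat_lit 5) (nat_lit 36) (nat_lit 5) (nat_lit 34) (nat_lit 5) (nat_lit 406) (nat_lit 363) (nat_lit 131)) (XT.lf (nat_lit 0) (nat_lit 92087147918) (nat_lit 228) (nat_lit 198366859200) (nat_lit 76) (nat_lit 35110944736) (nat_lit 31) (nat_lit 5) (nat_lit 34) (nat_lit 5) (nat_lit 32) (nat_lit 5) (nat_lit 407) (nat_lit 363) (nat_lit 130)))))) (XT.nd (nat_lit 468) (nat_lit 304) (nat_lit 0) (XT.nd (nat_lit 234) (nat_lit 304) (nat_lit 0) (XT.nd (nat_lit 78) (nat_lit 152) (nat_lit 0) (XT.lf (nat_lit 0) (nat_lit 157659257591) (nat_lit 228) (nat_lit 48424259876) (nat_lit 76) (nat_lit 130983951184) (nat_lit 31) (nat_lit 5) (nat_lit 34) (nat_lit 5) (nat_lit 32) (nat_lit 5) (nat_lit 408) (nat_lit 363) (nat_lit 129)) (XT.nd (nat_lit 78) (nat_lit 0) (nat_lit 0) (XT.lf (nat_lit 0) (nat_lit 112619836943)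 (nat_lit 152) (nat_lit 115648344598) (nat_lit 228) (nat_lit 120789019373) (nat_lit 29) (nat_lit 5) (nat_lit 31) (nat_lit 5) (nat_lit 32) (nat_lit 5) (nat_lit 409) (nat_lit 363) (nat_lit 128)) (XT.lf (nat_lit 0) (nat_lit 283397151734) (nat_lit 152) (nat_lit 19830388009) (nat_lit 228) (nat_lit 58377880709) (nat_lit 29) (nat_lit 5) (nat_lit 31) (nat_lit 5) (nat_lit 32) (nat_lit 5) (nat_lit 410) (nat_lit 363) (nat_lit 127)))) (XT.nd (nat_lit 78) (nat_lit 152) (nat_lit 0) (XT.lf (nat_lit 0) (nat_lit 9627438411) (nat_lit 152) (nat_lit 285266710223) (nat_lit 76) (nat_lit 79746188324) (nat_lit 27) (nat_lit 5) (nat_lit 29) (nat_lit 5) (nat_lit 28) (nat_lit 5) (nat_lit 411) (nat_lit 363) (nat_lit 126)) (XT.nd (nat_lit 78) (nat_lit 152) (nat_lit 0) (XT.lf (nat_lit 0) (nat_lit 80742344147) (nat_lit 152) (nat_lit 121514923142) (nat_lit 76) (nat_lit 185938321322) (nat_lit 27) (nat_lit 5) (nat_lit 29)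 (nat_lit 5) (nat_lit 28) (nat_lit 5) (nat_lit 412) (nat_lit 363) (nat_lit 125)) (XT.lf (nat_lit 0) (nat_lit 52091551839) (nat_lit 152) (nat_lit 104134647037) (nat_lit 228) (nat_lit 246161743839) (nat_lit 25) (nat_lit 5) (nat_lit 27) (nat_lit 5) (nat_lit 28) (nat_lit 5) (nat_lit 413) (nat_lit 363) (nat_lit 124))))) (XT.nd (nat_lit 234) (nat_lit 228) (nat_lit 0) (XT.nd (nat_lit 78) (nat_lit 76) (nat_lit 0) (XT.lf (nat_lit 0) (nat_lit 237558540064) (nat_lit 228) (nat_lit 178606572098) (nat_lit 76) (nat_lit 1021087725) (nat_lit 25) (nat_lit 5) (nat_lit 28) (nat_lit 5) (nat_lit 26) (nat_lit 4) (nat_lit 414) (nat_lit 363) (nat_lit 123)) (XT.nd (nat_lit 78) (nat_lit 76) (nat_lit 0) (XT.lf (nat_lit 0) (nat_lit 324664537518) (nat_lit 228) (nat_lit 39537672) (nat_lit 76) (nat_lit 107934942816) (nat_lit 25) (nat_lit 5) (nat_lit 28) (nat_lit 5) (nat_lit 26) (nat_lit 4) (nat_lit 415) (nat_lit 363)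 (nat_lit 122)) (XT.lf (nat_lit 0) (nat_lit 193653837889) (nat_lit 76) (nat_lit 225495394029) (nat_lit 152) (nat_lit 29564075307) (nat_lit 24) (nat_lit 5) (nat_lit 25) (nat_lit 5) (nat_lit 26) (nat_lit 4) (nat_lit 416) (nat_lit 363) (nat_lit 121)))) (XT.nd (nat_lit 78) (nat_lit 152) (nat_lit 0) (XT.lf (nat_lit 0) (nat_lit 51078580263) (nat_lit 152) (nat_lit 69382015152) (nat_lit 76) (nat_lit 345089493666) (nat_lit 23) (nat_lit 5) (nat_lit 25) (nat_lit 5) (nat_lit 24) (nat_lit 5) (nat_lit 417) (nat_lit 363) (nat_lit 120)) (XT.nd (nat_lit 78) (nat_lit 0) (nat_lit 0) (XT.lf (nat_lit 0) (nat_lit 129230708078) (nat_lit 152) (nat_lit 7546689456) (nat_lit 228) (nat_lit 346326200902) (nat_lit 21) (nat_lit 5) (nat_lit 23) (nat_lit 5) (nat_lit 24) (nat_lit 5) (nat_lit 418) (nat_lit 363) (nat_lit 119)) (XT.lf (nat_lit 0) (nat_lit 229688581822) (nat_lit 228) (nat_lit 163045800400) (nat_lit 76) (nat_lit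 108654029767) (nat_lit 21) (nat_lit 5) (nat_lit 24) (nat_lit 5) (nat_lit 22) (nat_lit 4) (nat_lit 419) (nat_lit 363) (nat_lit 118))))))))
noncomputable def xc236 : XT := (XT.nd (nat_lit 1794) (nat_lit 2432) (nat_lit 0) (XT.nd (nat_lit 858) (nat_lit 2052) (nat_lit 0) (XT.nd (nat_lit 390) (nat_lit 0) (nat_lit 76) (XT.nd (nat_lit 156) (nat_lit 760) (nat_lit 0) (XT.nd (nat_lit 78) (nat_lit 0) (nat_lit 0) (XT.lf (nat_lit 0) (nat_lit 22747591590) (nat_lit 0) (nat_lit 22747591590) (nat_lit 684) (nat_lit 841000042) (nat_lit 100) (nat_lit 5) (nat_lit 100) (nat_lit 3) (nat_lit 109) (nat_lit 3) (nat_lit 364) (nat_lit 364) (nat_lit 172)) (XT.lf (nat_lit 0) (nat_lit 90787498266) (nat_lit 0) (nat_lit 2484815789) (nat_lit 684) (nat_lit 1716491067) (nat_lit 100) (nat_lit 5) (nat_lit 100) (nat_lit 3) (nat_lit 109) (nat_lit 3) (nat_lit 365) (nat_lit 364) (nat_lit 171))) (XT.nd (nat_lit 78) (nat_lit 760)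 (nat_lit 0) (XT.lf (nat_lit 76) (nat_lit 41587884974) (nat_lit 0) (nat_lit 55395614083) (nat_lit 760) (nat_lit 371810388) (nat_lit 101) (nat_lit 5) (nat_lit 100) (nat_lit 5) (nat_lit 110) (nat_lit 5) (nat_lit 366) (nat_lit 364) (nat_lit 170)) (XT.nd (nat_lit 78) (nat_lit 0) (nat_lit 76) (XT.lf (nat_lit 0) (nat_lit 1119420130) (nat_lit 760) (nat_lit 10082593827) (nat_lit 836) (nat_lit 88631683440) (nat_lit 90) (nat_lit 5) (nat_lit 100) (nat_lit 5) (nat_lit 101) (nat_lit 5) (nat_lit 367) (nat_lit 364) (nat_lit 169)) (XT.lf (nat_lit 0) (nat_lit 3842970230) (nat_lit 760) (nat_lit 63832266934) (nat_lit 836) (nat_lit 34701950765) (nat_lit 91) (nat_lit 5) (nat_lit 101) (nat_lit 5) (nat_lit 102) (nat_lit 5) (nat_lit 368) (nat_lit 364) (nat_lit 168))))) (XT.nd (nat_lit 234) (nat_lit 0) (nat_lit 152) (XT.nd (nat_lit 78) (nat_lit 0) (nat_lit 76) (XT.lf (nat_lit 0) (nat_lit 7059483680) (nat_lit 760)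 (nat_lit 15272172884) (nat_lit 836) (nat_lit 82698357714) (nat_lit 91) (nat_lit 5) (nat_lit 101) (nat_lit 5) (nat_lit 102) (nat_lit 5) (nat_lit 369) (nat_lit 364) (nat_lit 167)) (XT.nd (nat_lit 78) (nat_lit 0) (nat_lit 0) (XT.lf (nat_lit 0) (nat_lit 11416617871) (nat_lit 760) (nat_lit 71294237194) (nat_lit 836) (nat_lit 25055637680) (nat_lit 92) (nat_lit 5) (nat_lit 102) (nat_lit 5) (nat_lit 103) (nat_lit 5) (nat_lit 370) (nat_lit 364) (nat_lit 166)) (XT.lf (nat_lit 0) (nat_lit 16620212160) (nat_lit 760) (nat_lit 19663353889) (nat_lit 836) (nat_lit 74324799446) (nat_lit 92) (nat_lit 5) (nat_lit 102) (nat_lit 5) (nat_lit 103) (nat_lit 5) (nat_lit 371) (nat_lit 364) (nat_lit 165)))) (XT.nd (nat_lit 78) (nat_lit 0) (nat_lit 0) (XT.lf (nat_lit 0) (nat_lit 22844623045) (nat_lit 760) (nat_lit 78077091857) (nat_lit 836) (nat_lit 12632585639) (nat_lit 93) (nat_lit 5) (nat_lit 103) (nat_lit 5)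 (nat_lit 104) (nat_lit 5) (nat_lit 372) (nat_lit 364) (nat_lit 164)) (XT.nd (nat_lit 78) (nat_lit 0) (nat_lit 0) (XT.lf (nat_lit 0) (nat_lit 30313195245) (nat_lit 760) (nat_lit 23173967027) (nat_lit 836) (nat_lit 63113723509) (nat_lit 93) (nat_lit 5) (nat_lit 103) (nat_lit 5) (nat_lit 104) (nat_lit 5) (nat_lit 373) (nat_lit 364) (nat_lit 163)) (XT.lf (nat_lit 76) (nat_lit 35613915044) (nat_lit 0) (nat_lit 3096990836) (nat_lit 836) (nat_lit 81061109366) (nat_lit 94) (nat_lit 5) (nat_lit 93) (nat_lit 5) (nat_lit 104) (nat_lit 5) (nat_lit 374) (nat_lit 364) (nat_lit 162)))))) (XT.nd (nat_lit 468) (nat_lit 988) (nat_lit 0) (XT.nd (nat_lit 234) (nat_lit 684) (nat_lit 0) (XT.nd (nat_lit 78) (nat_lit 684) (nat_lit 0) (XT.lf (nat_lit 0) (nat_lit 48704802753) (nat_lit 760) (nat_lit 25720767724) (nat_lit 76) (nat_lit 48617316108) (nat_lit 94) (nat_lit 5) (nat_lit 104) (nat_lit 5) (nat_lit 95) (nat_lit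 5) (nat_lit 375) (nat_lit 364) (nat_lit 161)) (XT.nd (nat_lit 78) (nat_lit 0) (nat_lit 0) (XT.lf (nat_lit 0) (nat_lit 36764075137) (nat_lit 684) (nat_lit 23058783604) (nat_lit 760) (nat_lit 66623219950) (nat_lit 85) (nat_lit 5) (nat_lit 94) (nat_lit 5) (nat_lit 95) (nat_lit 5) (nat_lit 376) (nat_lit 364) (nat_lit 160)) (XT.lf (nat_lit 0) (nat_lit 72421332392) (nat_lit 760) (nat_lit 27221007425) (nat_lit 76) (nat_lit 30330865234) (nat_lit 85) (nat_lit 5) (nat_lit 95) (nat_lit 5) (nat_lit 86) (nat_lit 5) (nat_lit 377) (nat_lit 364) (nat_lit 159)))) (XT.nd (nat_lit 78) (nat_lit 304) (nat_lit 0) (XT.lf (nat_lit 0) (nat_lit 39240709914) (nat_lit 380) (nat_lit 47399417824) (nat_lit 456) (nat_lit 46987040469) (nat_lit 80) (nat_lit 5) (nat_lit 85) (nat_lit 5) (nat_lit 86) (nat_lit 5) (nat_lit 378) (nat_lit 364) (nat_lit 158)) (XT.nd (nat_lit 78) (nat_lit 304) (nat_lit 0) (XT.lf (nat_lit 0) (nat_lit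 102154561465) (nat_lit 456) (nat_lit 27594448296) (nat_lit 76) (nat_lit 7685585184) (nat_lit 80) (nat_lit 5) (nat_lit 86) (nat_lit 5) (nat_lit 81) (nat_lit 5) (nat_lit 379) (nat_lit 364) (nat_lit 157)) (XT.lf (nat_lit 0) (nat_lit 43140632342) (nat_lit 304) (nat_lit 76754419578) (nat_lit 380) (nat_lit 21464824689) (nat_lit 76) (nat_lit 5) (nat_lit 80) (nat_lit 5) (nat_lit 81) (nat_lit 5) (nat_lit 380) (nat_lit 364) (nat_lit 156))))) (XT.nd (nat_lit 234) (nat_lit 608) (nat_lit 0) (XT.nd (nat_lit 78) (nat_lit 380) (nat_lit 0) (XT.lf (nat_lit 0) (nat_lit 118370228265) (nat_lit 304) (nat_lit 20619421149) (nat_lit 380) (nat_lit 6468419140) (nat_lit 76) (nat_lit 5) (nat_lit 80) (nat_lit 5) (nat_lit 81) (nat_lit 5) (nat_lit 381) (nat_lit 364) (nat_lit 155)) (XT.nd (nat_lit 78) (nat_lit 0) (nat_lit 0) (XT.lf (nat_lit 0) (nat_lit 10359268196) (nat_lit 380) (nat_lit 101304802919) (nat_lit 76) (nat_lit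 38020936186) (nat_lit 71) (nat_lit 5) (nat_lit 76) (nat_lit 5) (nat_lit 72) (nat_lit 5) (nat_lit 382) (nat_lit 364) (nat_lit 154)) (XT.lf (nat_lit 0) (nat_lit 28615019695) (nat_lit 380) (nat_lit 25990118039) (nat_lit 76) (nat_lit 99472650493) (nat_lit 71) (nat_lit 5) (nat_lit 76) (nat_lit 5) (nat_lit 72) (nat_lit 5) (nat_lit 383) (nat_lit 364) (nat_lit 153)))) (XT.nd (nat_lit 78) (nat_lit 304) (nat_lit 0) (XT.lf (nat_lit 0) (nat_lit 48736522760) (nat_lit 380) (nat_lit 103898843528) (nat_lit 76) (nat_lit 6007193978) (nat_lit 67) (nat_lit 5) (nat_lit 72) (nat_lit 5) (nat_lit 68) (nat_lit 5) (nat_lit 384) (nat_lit 364) (nat_lit 152)) (XT.nd (nat_lit 78) (nat_lit 304) (nat_lit 0) (XT.lf (nat_lit 0) (nat_lit 71206426691) (nat_lit 380) (nat_lit 23899636428) (nat_lit 76) (nat_lit 68262391756) (nat_lit 67) (nat_lit 5) (nat_lit 72) (nat_lit 5) (nat_lit 68) (nat_lit 5) (nat_lit 385) (nat_lit 364)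 (nat_lit 151)) (XT.lf (nat_lit 0) (nat_lit 62086444120) (nat_lit 304) (nat_lit 33682523788) (nat_lit 380) (nat_lit 72513219445) (nat_lit 63) (nat_lit 5) (nat_lit 67) (nat_lit 5) (nat_lit 68) (nat_lit 5) (nat_lit 386) (nat_lit 364) (nat_lit 150))))))) (XT.nd (nat_lit 858) (nat_lit 1140) (nat_lit 0) (XT.nd (nat_lit 390) (nat_lit 684) (nat_lit 0) (XT.nd (nat_lit 156) (nat_lit 380) (nat_lit 0) (XT.nd (nat_lit 78) (nat_lit 228) (nat_lit 0) (XT.lf (nat_lit 0) (nat_lit 122451891985) (nat_lit 380) (nat_lit 20707745029) (nat_lit 76) (nat_lit 30237356881) (nat_lit 63) (nat_lit 5) (nat_lit 68) (nat_lit 5) (nat_lit 64) (nat_lit 5) (nat_lit 387) (nat_lit 364) (nat_lit 149)) (XT.lf (nat_lit 0) (nat_lit 70767239588) (nat_lit 228) (nat_lit 81358583406) (nat_lit 304) (nat_lit 26558874952) (nat_lit 60) (nat_lit 5) (nat_lit 63) (nat_lit 5) (nat_lit 64) (nat_lit 5) (nat_lit 388) (nat_lit 364) (nat_lit 148)))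 (XT.nd (nat_lit 78) (nat_lit 380) (nat_lit 0) (XT.lf (nat_lit 0) (nat_lit 167534668776) (nat_lit 228) (nat_lit 16099296023) (nat_lit 304) (nat_lit 585296898) (nat_lit 60) (nat_lit 5) (nat_lit 63) (nat_lit 5) (nat_lit 64) (nat_lit 5) (nat_lit 389) (nat_lit 364) (nat_lit 147)) (XT.nd (nat_lit 78) (nat_lit 0) (nat_lit 0) (XT.lf (nat_lit 0) (nat_lit 27947983485) (nat_lit 380) (nat_lit 109497395028) (nat_lit 76) (nat_lit 52458583760) (nat_lit 55) (nat_lit 5) (nat_lit 60) (nat_lit 5) (nat_lit 56) (nat_lit 5) (nat_lit 390) (nat_lit 364) (nat_lit 146)) (XT.lf (nat_lit 0) (nat_lit 58439203053) (nat_lit 380) (nat_lit 13205613162) (nat_lit 76) (nat_lit 124200054844) (nat_lit 55) (nat_lit 5) (nat_lit 60) (nat_lit 5) (nat_lit 56) (nat_lit 5) (nat_lit 391) (nat_lit 364) (nat_lit 145))))) (XT.nd (nat_lit 234) (nat_lit 228) (nat_lit 0) (XT.nd (nat_lit 78) (nat_lit 228) (nat_lit 0) (XT.lf (nat_lit 0) (nat_lit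 90806927427) (nat_lit 228) (nat_lit 1065643252) (nat_lit 304) (nat_lit 110139375422) (nat_lit 52) (nat_lit 5) (nat_lit 55) (nat_lit 5) (nat_lit 56) (nat_lit 5) (nat_lit 392) (nat_lit 364) (nat_lit 144)) (XT.nd (nat_lit 78) (nat_lit 228) (nat_lit 0) (XT.lf (nat_lit 0) (nat_lit 128345154363) (nat_lit 304) (nat_lit 9141915688) (nat_lit 76) (nat_lit 70931927623) (nat_lit 52) (nat_lit 5) (nat_lit 56) (nat_lit 5) (nat_lit 53) (nat_lit 5) (nat_lit 393) (nat_lit 364) (nat_lit 143)) (XT.lf (nat_lit 0) (nat_lit 101247203457) (nat_lit 228) (nat_lit 66992233541) (nat_lit 304) (nat_lit 46827061496) (nat_lit 49) (nat_lit 5) (nat_lit 52) (nat_lit 5) (nat_lit 53) (nat_lit 5) (nat_lit 394) (nat_lit 364) (nat_lit 142)))) (XT.nd (nat_lit 78) (nat_lit 228) (nat_lit 0) (XT.lf (nat_lit 0) (nat_lit 210395361826) (nat_lit 304) (nat_lit 4677938052) (nat_lit 76) (nat_lit 6959728224) (nat_lit 49) (nat_lit 5) (nat_lit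 53) (nat_lit 5) (nat_lit 50) (nat_lit 5) (nat_lit 395) (nat_lit 364) (nat_lit 141)) (XT.nd (nat_lit 78) (nat_lit 0) (nat_lit 0) (XT.lf (nat_lit 0) (nat_lit 27401142751) (nat_lit 228) (nat_lit 117226977339) (nat_lit 76) (nat_lit 84555002272) (nat_lit 46) (nat_lit 5) (nat_lit 49) (nat_lit 5) (nat_lit 47) (nat_lit 5) (nat_lit 396) (nat_lit 364) (nat_lit 140)) (XT.lf (nat_lit 0) (nat_lit 68081171213) (nat_lit 228) (nat_lit 2294707297) (nat_lit 76) (nat_lit 166301284840) (nat_lit 46) (nat_lit 5) (nat_lit 49) (nat_lit 5) (nat_lit 47) (nat_lit 5) (nat_lit 397) (nat_lit 364) (nat_lit 139)))))) (XT.nd (nat_lit 468) (nat_lit 532) (nat_lit 0) (XT.nd (nat_lit 234) (nat_lit 228) (nat_lit 0) (XT.nd (nat_lit 78) (nat_lit 152) (nat_lit 0) (XT.lf (nat_lit 0) (nat_lit 112854271978) (nat_lit 304) (nat_lit 122301939994) (nat_lit 76) (nat_lit 9286740992) (nat_lit 43) (nat_lit 5) (nat_lit 47) (nat_lit 5) (nat_lit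 44) (nat_lit 5) (nat_lit 398) (nat_lit 364) (nat_lit 138)) (XT.nd (nat_lit 78) (nat_lit 152) (nat_lit 0) (XT.lf (nat_lit 0) (nat_lit 161059097872) (nat_lit 304) (nat_lit 871441991) (nat_lit 76) (nat_lit 90606838809) (nat_lit 43) (nat_lit 5) (nat_lit 47) (nat_lit 5) (nat_lit 44) (nat_lit 5) (nat_lit 399) (nat_lit 364) (nat_lit 137)) (XT.lf (nat_lit 0) (nat_lit 130817363682) (nat_lit 152) (nat_lit 82899101425) (nat_lit 228) (nat_lit 47217945667) (nat_lit 41) (nat_lit 5) (nat_lit 43) (nat_lit 5) (nat_lit 44) (nat_lit 5) (nat_lit 400) (nat_lit 364) (nat_lit 136)))) (XT.nd (nat_lit 78) (nat_lit 228) (nat_lit 0) (XT.lf (nat_lit 0) (nat_lit 269022887436) (nat_lit 228) (nat_lit 631436427) (nat_lit 76) (nat_lit 96161385) (nat_lit 41) (nat_lit 5) (nat_lit 44) (nat_lit 5) (nat_lit 42) (nat_lit 5) (nat_lit 401) (nat_lit 364) (nat_lit 135)) (XT.nd (nat_lit 78) (nat_lit 0) (nat_lit 0) (XT.lf (nat_lit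 0) (nat_lit 50125552792) (nat_lit 228) (nat_lit 141240956931) (nat_lit 76) (nat_lit 87424446058) (nat_lit 38) (nat_lit 5) (nat_lit 41) (nat_lit 5) (nat_lit 39) (nat_lit 5) (nat_lit 402) (nat_lit 364) (nat_lit 134)) (XT.lf (nat_lit 0) (nat_lit 103507661008) (nat_lit 228) (nat_lit 5632774225) (nat_lit 76) (nat_lit 179141880701) (nat_lit 38) (nat_lit 5) (nat_lit 41) (nat_lit 5) (nat_lit 39) (nat_lit 5) (nat_lit 403) (nat_lit 364) (nat_lit 133))))) (XT.nd (nat_lit 234) (nat_lit 228) (nat_lit 0) (XT.nd (nat_lit 78) (nat_lit 152) (nat_lit 0) (XT.lf (nat_lit 0) (nat_lit 141277401651) (nat_lit 152) (nat_lit 20487097867) (nat_lit 228) (nat_lit 136373463420) (nat_lit 36) (nat_lit 5) (nat_lit 38) (nat_lit 5) (nat_lit 39) (nat_lit 5) (nat_lit 404) (nat_lit 364) (nat_lit 132)) (XT.nd (nat_lit 78) (nat_lit 152) (nat_lit 0) (XT.lf (nat_lit 0) (nat_lit 224164500258) (nat_lit 228) (nat_lit 13888192110)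 (nat_lit 76) (nat_lit 70372183988) (nat_lit 36) (nat_lit 5) (nat_lit 39) (nat_lit 5) (nat_lit 37) (nat_lit 5) (nat_lit 405) (nat_lit 364) (nat_lit 131)) (XT.lf (nat_lit 0) (nat_lit 140390134114) (nat_lit 152) (nat_lit 151821999974) (nat_lit 228) (nat_lit 26887619786) (nat_lit 34) (nat_lit 5) (nat_lit 36) (nat_lit 5) (nat_lit 37) (nat_lit 5) (nat_lit 406) (nat_lit 364) (nat_lit 130)))) (XT.nd (nat_lit 78) (nat_lit 152) (nat_lit 0) (XT.lf (nat_lit 0) (nat_lit 32525200502) (nat_lit 228) (nat_lit 27956842647) (nat_lit 76) (nat_lit 269788347133) (nat_lit 33) (nat_lit 5) (nat_lit 36) (nat_lit 5) (nat_lit 34) (nat_lit 5) (nat_lit 407) (nat_lit 364) (nat_lit 129)) (XT.nd (nat_lit 78) (nat_lit 0) (nat_lit 0) (XT.lf (nat_lit 0) (nat_lit 96694657096) (nat_lit 228) (nat_lit 208279955858) (nat_lit 76) (nat_lit 36868426812) (nat_lit 31) (nat_lit 5) (nat_lit 34) (nat_lit 5) (nat_lit 32) (nat_lit 5) (nat_lit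 408) (nat_lit 364) (nat_lit 128)) (XT.lf (nat_lit 0) (nat_lit 165545222166) (nat_lit 228) (nat_lit 50840476392) (nat_lit 76) (nat_lit 137534991446) (nat_lit 31) (nat_lit 5) (nat_lit 34) (nat_lit 5) (nat_lit 32) (nat_lit 5) (nat_lit 409) (nat_lit 364) (nat_lit 127))))))))
noncomputable def xc237 : XT := (XT.nd (nat_lit 44460) (nat_lit 0) (nat_lit 1368) (XT.nd (nat_lit 43524) (nat_lit 0) (nat_lit 4712) (XT.nd (nat_lit 390) (nat_lit 152) (nat_lit 0) (XT.nd (nat_lit 156) (nat_lit 304) (nat_lit 0) (XT.nd (nat_lit 78) (nat_lit 0) (nat_lit 0) (XT.lf (nat_lit 0) (nat_lit 118255744679) (nat_lit 152) (nat_lit 121428781448) (nat_lit 228) (nat_lit 126825386159) (nat_lit 29) (nat_lit 5) (nat_lit 31) (nat_lit 5) (nat_lit 32) (nat_lit 5) (nat_lit 410) (nat_lit 364) (nat_lit 126)) (XT.lf (nat_lit 0) (nat_lit 297571691120) (nat_lit 152) (nat_lit 20820021334) (nat_lit 228) (nat_lit 61293837427) (nat_lit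 29) (nat_lit 5) (nat_lit 31) (nat_lit 5) (nat_lit 32) (nat_lit 5) (nat_lit 411) (nat_lit 364) (nat_lit 125))) (XT.nd (nat_lit 78) (nat_lit 152) (nat_lit 0) (XT.lf (nat_lit 0) (nat_lit 10111621592) (nat_lit 152) (nat_lit 299525234517) (nat_lit 76) (nat_lit 83735355494) (nat_lit 27) (nat_lit 5) (nat_lit 29) (nat_lit 5) (nat_lit 28) (nat_lit 5) (nat_lit 412) (nat_lit 364) (nat_lit 124)) (XT.nd (nat_lit 78) (nat_lit 152) (nat_lit 0) (XT.lf (nat_lit 0) (nat_lit 84782138746) (nat_lit 152) (nat_lit 127586087187) (nat_lit 76) (nat_lit 195237006678) (nat_lit 27) (nat_lit 5) (nat_lit 29) (nat_lit 5) (nat_lit 28) (nat_lit 5) (nat_lit 413) (nat_lit 364) (nat_lit 123)) (XT.lf (nat_lit 0) (nat_lit 54700637638) (nat_lit 152) (nat_lit 109339491464) (nat_lit 228) (nat_lit 258467078247) (nat_lit 25) (nat_lit 5) (nat_lit 27) (nat_lit 5) (nat_lit 28) (nat_lit 5) (nat_lit 414) (nat_lit 364) (nat_lit 122)))))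 (XT.nd (nat_lit 234) (nat_lit 76) (nat_lit 0) (XT.nd (nat_lit 78) (nat_lit 76) (nat_lit 0) (XT.lf (nat_lit 0) (nat_lit 249438990646) (nat_lit 228) (nat_lit 187532509053) (nat_lit 76) (nat_lit 1073882587) (nat_lit 25) (nat_lit 5) (nat_lit 28) (nat_lit 5) (nat_lit 26) (nat_lit 4) (nat_lit 415) (nat_lit 364) (nat_lit 121)) (XT.nd (nat_lit 78) (nat_lit 76) (nat_lit 0) (XT.lf (nat_lit 0) (nat_lit 340900167803) (nat_lit 228) (nat_lit 37332032) (nat_lit 76) (nat_lit 113333347553) (nat_lit 25) (nat_lit 5) (nat_lit 28) (nat_lit 5) (nat_lit 26) (nat_lit 4) (nat_lit 416) (nat_lit 364) (nat_lit 120)) (XT.lf (nat_lit 0) (nat_lit 203340644847) (nat_lit 76) (nat_lit 236768401874) (nat_lit 152) (nat_lit 31039806919) (nat_lit 24) (nat_lit 5) (nat_lit 25) (nat_lit 5) (nat_lit 26) (nat_lit 4) (nat_lit 417) (nat_lit 364) (nat_lit 119)))) (XT.nd (nat_lit 42744) (nat_lit 0) (nat_lit 5852) (XT.lf (nat_lit 0)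 (nat_lit 53634788351) (nat_lit 152) (nat_lit 72847120280) (nat_lit 76) (nat_lit 362345569785) (nat_lit 23) (nat_lit 5) (nat_lit 25) (nat_lit 5) (nat_lit 24) (nat_lit 5) (nat_lit 418) (nat_lit 364) (nat_lit 118)) (XT.nd (nat_lit 78) (nat_lit 0) (nat_lit 0) (XT.lf (nat_lit 0) (nat_lit 23888509321) (nat_lit 0) (nat_lit 23888509321) (nat_lit 684) (nat_lit 875609042) (nat_lit 100) (nat_lit 5) (nat_lit 100) (nat_lit 3) (nat_lit 109) (nat_lit 3) (nat_lit 365) (nat_lit 365) (nat_lit 170)) (XT.lf (nat_lit 0) (nat_lit 95333612515) (nat_lit 0) (nat_lit 2615795914) (nat_lit 684) (nat_lit 1788142284) (nat_lit 100) (nat_lit 5) (nat_lit 100) (nat_lit 3) (nat_lit 109) (nat_lit 3) (nat_lit 366) (nat_lit 365) (nat_lit 169)))))) (XT.nd (nat_lit 468) (nat_lit 380) (nat_lit 0) (XT.nd (nat_lit 234) (nat_lit 0) (nat_lit 76) (XT.nd (nat_lit 78) (nat_lit 760) (nat_lit 0) (XT.lf (nat_lit 76) (nat_lit 43674696843)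 (nat_lit 0) (nat_lit 58170829597) (nat_lit 760) (nat_lit 376886111) (nat_lit 101) (nat_lit 5) (nat_lit 100) (nat_lit 5) (nat_lit 110) (nat_lit 5) (nat_lit 367) (nat_lit 365) (nat_lit 168)) (XT.nd (nat_lit 78) (nat_lit 0) (nat_lit 76) (XT.lf (nat_lit 0) (nat_lit 1187850411) (nat_lit 760) (nat_lit 10579229249) (nat_lit 836) (nat_lit 93057661734) (nat_lit 90) (nat_lit 5) (nat_lit 100) (nat_lit 5) (nat_lit 101) (nat_lit 5) (nat_lit 368) (nat_lit 365) (nat_lit 167)) (XT.lf (nat_lit 0) (nat_lit 4047027898) (nat_lit 760) (nat_lit 67015818837) (nat_lit 836) (nat_lit 36432588077) (nat_lit 91) (nat_lit 5) (nat_lit 101) (nat_lit 5) (nat_lit 102) (nat_lit 5) (nat_lit 369) (nat_lit 365) (nat_lit 166)))) (XT.nd (nat_lit 78) (nat_lit 0) (nat_lit 76) (XT.lf (nat_lit 0) (nat_lit 7423799918) (nat_lit 760) (nat_lit 16028103962) (nat_lit 836) (nat_lit 86829027766) (nat_lit 91) (nat_lit 5) (nat_lit 101) (nat_lit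 5) (nat_lit 102) (nat_lit 5) (nat_lit 370) (nat_lit 365) (nat_lit 165)) (XT.nd (nat_lit 78) (nat_lit 0) (nat_lit 0) (XT.lf (nat_lit 0) (nat_lit 11998316100) (nat_lit 760) (nat_lit 74850781300) (nat_lit 836) (nat_lit 26305161146) (nat_lit 92) (nat_lit 5) (nat_lit 102) (nat_lit 5) (nat_lit 103) (nat_lit 5) (nat_lit 371) (nat_lit 365) (nat_lit 164)) (XT.lf (nat_lit 0) (nat_lit 17461572612) (nat_lit 760) (nat_lit 20638742770) (nat_lit 836) (nat_lit 78037936163) (nat_lit 92) (nat_lit 5) (nat_lit 102) (nat_lit 5) (nat_lit 103) (nat_lit 5) (nat_lit 372) (nat_lit 365) (nat_lit 163))))) (XT.nd (nat_lit 234) (nat_lit 608) (nat_lit 0) (XT.nd (nat_lit 78) (nat_lit 0) (nat_lit 0) (XT.lf (nat_lit 0) (nat_lit 23996794411) (nat_lit 760) (nat_lit 81972743975) (nat_lit 836) (nat_lit 13261966141) (nat_lit 93) (nat_lit 5) (nat_lit 103) (nat_lit 5) (nat_lit 104) (nat_lit 5) (nat_lit 373) (nat_lit 365) (nat_lit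 162)) (XT.nd (nat_lit 78) (nat_lit 0) (nat_lit 0) (XT.lf (nat_lit 0) (nat_lit 31838321877) (nat_lit 760) (nat_lit 24324853497) (nat_lit 836) (nat_lit 66267267989) (nat_lit 93) (nat_lit 5) (nat_lit 103) (nat_lit 5) (nat_lit 104) (nat_lit 5) (nat_lit 374) (nat_lit 365) (nat_lit 161)) (XT.lf (nat_lit 76) (nat_lit 37402296680) (nat_lit 0) (nat_lit 3253290559) (nat_lit 836) (nat_lit 85104559239) (nat_lit 94) (nat_lit 5) (nat_lit 93) (nat_lit 5) (nat_lit 104) (nat_lit 5) (nat_lit 375) (nat_lit 365) (nat_lit 160)))) (XT.nd (nat_lit 78) (nat_lit 684) (nat_lit 0) (XT.lf (nat_lit 0) (nat_lit 51148722341) (nat_lit 760) (nat_lit 26999017486) (nat_lit 76) (nat_lit 51046844993) (nat_lit 94) (nat_lit 5) (nat_lit 104) (nat_lit 5) (nat_lit 95) (nat_lit 5) (nat_lit 376) (nat_lit 365) (nat_lit 159)) (XT.nd (nat_lit 78) (nat_lit 0) (nat_lit 0) (XT.lf (nat_lit 0) (nat_lit 38609941895) (nat_lit 684) (nat_lit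 24212445567) (nat_lit 760) (nat_lit 69945564329) (nat_lit 85) (nat_lit 5) (nat_lit 94) (nat_lit 5) (nat_lit 95) (nat_lit 5) (nat_lit 377) (nat_lit 365) (nat_lit 158)) (XT.lf (nat_lit 0) (nat_lit 76050374726) (nat_lit 760) (nat_lit 28574338635) (nat_lit 76) (nat_lit 31846742163) (nat_lit 85) (nat_lit 5) (nat_lit 95) (nat_lit 5) (nat_lit 86) (nat_lit 5) (nat_lit 378) (nat_lit 365) (nat_lit 157))))))) (XT.nd (nat_lit 858) (nat_lit 1444) (nat_lit 0) (XT.nd (nat_lit 390) (nat_lit 836) (nat_lit 0) (XT.nd (nat_lit 156) (nat_lit 684) (nat_lit 0) (XT.nd (nat_lit 78) (nat_lit 0) (nat_lit 0) (XT.lf (nat_lit 0) (nat_lit 41210340068) (nat_lit 380) (nat_lit 49769508548) (nat_lit 456) (nat_lit 49328281805) (nat_lit 80) (nat_lit 5) (nat_lit 85) (nat_lit 5) (nat_lit 86) (nat_lit 5) (nat_lit 379) (nat_lit 365) (nat_lit 156)) (XT.lf (nat_lit 0) (nat_lit 107269634892) (nat_lit 456) (nat_lit 28966558592) (nat_lit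 76) (nat_lit 8069753969) (nat_lit 80) (nat_lit 5) (nat_lit 86) (nat_lit 5) (nat_lit 81) (nat_lit 5) (nat_lit 380) (nat_lit 365) (nat_lit 155))) (XT.nd (nat_lit 78) (nat_lit 380) (nat_lit 0) (XT.lf (nat_lit 0) (nat_lit 45305153302) (nat_lit 304) (nat_lit 80591763718) (nat_lit 380) (nat_lit 22530588297) (nat_lit 76) (nat_lit 5) (nat_lit 80) (nat_lit 5) (nat_lit 81) (nat_lit 5) (nat_lit 381) (nat_lit 365) (nat_lit 154)) (XT.nd (nat_lit 78) (nat_lit 380) (nat_lit 0) (XT.lf (nat_lit 0) (nat_lit 124295872386) (nat_lit 304) (nat_lit 21650033313) (nat_lit 380) (nat_lit 6784718548) (nat_lit 76) (nat_lit 5) (nat_lit 80) (nat_lit 5) (nat_lit 81) (nat_lit 5) (nat_lit 382) (nat_lit 365) (nat_lit 153)) (XT.lf (nat_lit 0) (nat_lit 10883919081) (nat_lit 380) (nat_lit 106362459465) (nat_lit 76) (nat_lit 39922536543) (nat_lit 71) (nat_lit 5) (nat_lit 76) (nat_lit 5) (nat_lit 72) (nat_lit 5) (nat_lit 383)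 (nat_lit 365) (nat_lit 152))))) (XT.nd (nat_lit 234) (nat_lit 532) (nat_lit 0) (XT.nd (nat_lit 78) (nat_lit 304) (nat_lit 0) (XT.lf (nat_lit 0) (nat_lit 30052139704) (nat_lit 380) (nat_lit 27282401464) (nat_lit 76) (nat_lit 104446810205) (nat_lit 71) (nat_lit 5) (nat_lit 76) (nat_lit 5) (nat_lit 72) (nat_lit 5) (nat_lit 384) (nat_lit 365) (nat_lit 151)) (XT.nd (nat_lit 78) (nat_lit 0) (nat_lit 0) (XT.lf (nat_lit 0) (nat_lit 51179540089) (nat_lit 380) (nat_lit 109086377952) (nat_lit 76) (nat_lit 6308453237) (nat_lit 67) (nat_lit 5) (nat_lit 72) (nat_lit 5) (nat_lit 68) (nat_lit 5) (nat_lit 385) (nat_lit 365) (nat_lit 150)) (XT.lf (nat_lit 0) (nat_lit 74772644397) (nat_lit 380) (nat_lit 25087563248) (nat_lit 76) (nat_lit 71676368068) (nat_lit 67) (nat_lit 5) (nat_lit 72) (nat_lit 5) (nat_lit 68) (nat_lit 5) (nat_lit 386) (nat_lit 365) (nat_lit 149)))) (XT.nd (nat_lit 78) (nat_lit 228) (nat_lit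 0) (XT.lf (nat_lit 0) (nat_lit 65197707537) (nat_lit 304) (nat_lit 35365432730) (nat_lit 380) (nat_lit 76132863505) (nat_lit 63) (nat_lit 5) (nat_lit 67) (nat_lit 5) (nat_lit 68) (nat_lit 5) (nat_lit 387) (nat_lit 365) (nat_lit 148)) (XT.nd (nat_lit 78) (nat_lit 228) (nat_lit 0) (XT.lf (nat_lit 0) (nat_lit 128579956078) (nat_lit 380) (nat_lit 21736260704) (nat_lit 76) (nat_lit 31750346904) (nat_lit 63) (nat_lit 5) (nat_lit 68) (nat_lit 5) (nat_lit 64) (nat_lit 5) (nat_lit 388) (nat_lit 365) (nat_lit 147)) (XT.lf (nat_lit 0) (nat_lit 74312362312) (nat_lit 228) (nat_lit 85425066429) (nat_lit 304) (nat_lit 27881232252) (nat_lit 60) (nat_lit 5) (nat_lit 63) (nat_lit 5) (nat_lit 64) (nat_lit 5) (nat_lit 389) (nat_lit 365) (nat_lit 146)))))) (XT.nd (nat_lit 468) (nat_lit 608) (nat_lit 0) (XT.nd (nat_lit 234) (nat_lit 456) (nat_lit 0) (XT.nd (nat_lit 78) (nat_lit 380) (nat_lit 0) (XT.lf (nat_lit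 0) (nat_lit 175917841019) (nat_lit 228) (nat_lit 16902883540) (nat_lit 304) (nat_lit 609241317) (nat_lit 60) (nat_lit 5) (nat_lit 63) (nat_lit 5) (nat_lit 64) (nat_lit 5) (nat_lit 390) (nat_lit 365) (nat_lit 145)) (XT.nd (nat_lit 78) (nat_lit 0) (nat_lit 0) (XT.lf (nat_lit 0) (nat_lit 29350412603) (nat_lit 380) (nat_lit 114965524652) (nat_lit 76) (nat_lit 55082966346) (nat_lit 55) (nat_lit 5) (nat_lit 60) (nat_lit 5) (nat_lit 56) (nat_lit 5) (nat_lit 391) (nat_lit 365) (nat_lit 144)) (XT.lf (nat_lit 0) (nat_lit 61365953628) (nat_lit 380) (nat_lit 13859474651) (nat_lit 76) (nat_lit 130411441774) (nat_lit 55) (nat_lit 5) (nat_lit 60) (nat_lit 5) (nat_lit 56) (nat_lit 5) (nat_lit 392) (nat_lit 365) (nat_lit 143)))) (XT.nd (nat_lit 78) (nat_lit 228) (nat_lit 0) (XT.lf (nat_lit 0) (nat_lit 95353589432) (nat_lit 228) (nat_lit 1117270693) (nat_lit 304) (nat_lit 115641445438) (nat_lit 52) (nat_lit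 5) (nat_lit 55) (nat_lit 5) (nat_lit 56) (nat_lit 5) (nat_lit 393) (nat_lit 365) (nat_lit 142)) (XT.nd (nat_lit 78) (nat_lit 228) (nat_lit 0) (XT.lf (nat_lit 0) (nat_lit 134766875650) (nat_lit 304) (nat_lit 9592794671) (nat_lit 76) (nat_lit 74480049490) (nat_lit 52) (nat_lit 5) (nat_lit 56) (nat_lit 5) (nat_lit 53) (nat_lit 5) (nat_lit 394) (nat_lit 365) (nat_lit 141)) (XT.lf (nat_lit 0) (nat_lit 106315680161) (nat_lit 228) (nat_lit 70340075202) (nat_lit 304) (nat_lit 49163846380) (nat_lit 49) (nat_lit 5) (nat_lit 52) (nat_lit 5) (nat_lit 53) (nat_lit 5) (nat_lit 395) (nat_lit 365) (nat_lit 140))))) (XT.nd (nat_lit 234) (nat_lit 380) (nat_lit 0) (XT.nd (nat_lit 78) (nat_lit 228) (nat_lit 0) (XT.lf (nat_lit 0) (nat_lit 220919295774) (nat_lit 304) (nat_lit 4905824886) (nat_lit 76) (nat_lit 7309346411) (nat_lit 49) (nat_lit 5) (nat_lit 53) (nat_lit 5) (nat_lit 50) (nat_lit 5) (nat_lit 396)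 (nat_lit 365) (nat_lit 139)) (XT.nd (nat_lit 78) (nat_lit 0) (nat_lit 0) (XT.lf (nat_lit 0) (nat_lit 28775330066) (nat_lit 228) (nat_lit 123082272753) (nat_lit 76) (nat_lit 88784465394) (nat_lit 46) (nat_lit 5) (nat_lit 49) (nat_lit 5) (nat_lit 47) (nat_lit 5) (nat_lit 397) (nat_lit 365) (nat_lit 138)) (XT.lf (nat_lit 0) (nat_lit 71489163276) (nat_lit 228) (nat_lit 2403677468) (nat_lit 76) (nat_lit 174617980519) (nat_lit 46) (nat_lit 5) (nat_lit 49) (nat_lit 5) (nat_lit 47) (nat_lit 5) (nat_lit 398) (nat_lit 365) (nat_lit 137)))) (XT.nd (nat_lit 78) (nat_lit 152) (nat_lit 0) (XT.lf (nat_lit 0) (nat_lit 118500849016) (nat_lit 304) (nat_lit 128411198329) (nat_lit 76) (nat_lit 9752856687) (nat_lit 43) (nat_lit 5) (nat_lit 47) (nat_lit 5) (nat_lit 44) (nat_lit 5) (nat_lit 399) (nat_lit 365) (nat_lit 136)) (XT.nd (nat_lit 78) (nat_lit 152) (nat_lit 0) (XT.lf (nat_lit 0) (nat_lit 169115732231)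 (nat_lit 304) (nat_lit 909453457) (nat_lit 76) (nat_lit 95138874697) (nat_lit 43) (nat_lit 5) (nat_lit 47) (nat_lit 5) (nat_lit 44) (nat_lit 5) (nat_lit 400) (nat_lit 365) (nat_lit 135)) (XT.lf (nat_lit 0) (nat_lit 137363702812) (nat_lit 152) (nat_lit 87042175220) (nat_lit 228) (nat_lit 49575070704) (nat_lit 41) (nat_lit 5) (nat_lit 43) (nat_lit 5) (nat_lit 44) (nat_lit 5) (nat_lit 401) (nat_lit 365) (nat_lit 134))))))))
noncomputable def xc238 : XT := (XT.nd (nat_lit 44538) (nat_lit 0) (nat_lit 2128) (XT.nd (nat_lit 858) (nat_lit 380) (nat_lit 0) (XT.nd (nat_lit 390) (nat_lit 532) (nat_lit 0) (XT.nd (nat_lit 156) (nat_lit 152) (nat_lit 0) (XT.nd (nat_lit 78) (nat_lit 228) (nat_lit 0) (XT.lf (nat_lit 0) (nat_lit 282477478515) (nat_lit 228) (nat_lit 657651915) (nat_lit 76) (nat_lit 102703801) (nat_lit 41) (nat_lit 5) (nat_lit 44) (nat_lit 5) (nat_lit 42) (nat_lit 5) (nat_lit 402) (nat_lit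 365) (nat_lit 133)) (XT.lf (nat_lit 0) (nat_lit 52635253165) (nat_lit 228) (nat_lit 148297618995) (nat_lit 76) (nat_lit 91797457603) (nat_lit 38) (nat_lit 5) (nat_lit 41) (nat_lit 5) (nat_lit 39) (nat_lit 5) (nat_lit 403) (nat_lit 365) (nat_lit 132))) (XT.nd (nat_lit 78) (nat_lit 152) (nat_lit 0) (XT.lf (nat_lit 0) (nat_lit 108686303804) (nat_lit 228) (nat_lit 5909283619) (nat_lit 76) (nat_lit 188100678776) (nat_lit 38) (nat_lit 5) (nat_lit 41) (nat_lit 5) (nat_lit 39) (nat_lit 5) (nat_lit 404) (nat_lit 365) (nat_lit 131)) (XT.nd (nat_lit 78) (nat_lit 0) (nat_lit 0) (XT.lf (nat_lit 0) (nat_lit 148346318319) (nat_lit 152) (nat_lit 21509589485) (nat_lit 228) (nat_lit 143188791691) (nat_lit 36) (nat_lit 5) (nat_lit 38) (nat_lit 5) (nat_lit 39) (nat_lit 5) (nat_lit 405) (nat_lit 365) (nat_lit 130)) (XT.lf (nat_lit 0) (nat_lit 235375784702) (nat_lit 228) (nat_lit 14577669255) (nat_lit 76) (nat_lit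 73892510939) (nat_lit 36) (nat_lit 5) (nat_lit 39) (nat_lit 5) (nat_lit 37) (nat_lit 5) (nat_lit 406) (nat_lit 365) (nat_lit 129))))) (XT.nd (nat_lit 234) (nat_lit 152) (nat_lit 0) (XT.nd (nat_lit 78) (nat_lit 228) (nat_lit 0) (XT.lf (nat_lit 0) (nat_lit 147414493724) (nat_lit 152) (nat_lit 159411236579) (nat_lit 228) (nat_lit 28228859592) (nat_lit 34) (nat_lit 5) (nat_lit 36) (nat_lit 5) (nat_lit 37) (nat_lit 5) (nat_lit 407) (nat_lit 365) (nat_lit 128)) (XT.nd (nat_lit 78) (nat_lit 152) (nat_lit 0) (XT.lf (nat_lit 0) (nat_lit 34154356381) (nat_lit 228) (nat_lit 29349965223) (nat_lit 76) (nat_lit 283279441407) (nat_lit 33) (nat_lit 5) (nat_lit 36) (nat_lit 5) (nat_lit 34) (nat_lit 5) (nat_lit 408) (nat_lit 365) (nat_lit 127)) (XT.lf (nat_lit 0) (nat_lit 101532248709) (nat_lit 228) (nat_lit 218689195101) (nat_lit 76) (nat_lit 38713603108) (nat_lit 31) (nat_lit 5) (nat_lit 34) (nat_lit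 5) (nat_lit 32) (nat_lit 5) (nat_lit 409) (nat_lit 365) (nat_lit 126)))) (XT.nd (nat_lit 78) (nat_lit 152) (nat_lit 0) (XT.lf (nat_lit 0) (nat_lit 173825205902) (nat_lit 228) (nat_lit 53377968259) (nat_lit 76) (nat_lit 144413412405) (nat_lit 31) (nat_lit 5) (nat_lit 34) (nat_lit 5) (nat_lit 32) (nat_lit 5) (nat_lit 410) (nat_lit 365) (nat_lit 125)) (XT.nd (nat_lit 78) (nat_lit 0) (nat_lit 0) (XT.lf (nat_lit 0) (nat_lit 124172990769) (nat_lit 152) (nat_lit 127498424257) (nat_lit 228) (nat_lit 133163858022) (nat_lit 29) (nat_lit 5) (nat_lit 31) (nat_lit 5) (nat_lit 32) (nat_lit 5) (nat_lit 411) (nat_lit 365) (nat_lit 124)) (XT.lf (nat_lit 0) (nat_lit 312454522206) (nat_lit 152) (nat_lit 21859311674) (nat_lit 228) (nat_lit 64355865065) (nat_lit 29) (nat_lit 5) (nat_lit 31) (nat_lit 5) (nat_lit 32) (nat_lit 5) (nat_lit 412) (nat_lit 365) (nat_lit 123)))))) (XT.nd (nat_lit 43212) (nat_lit 0)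 (nat_lit 5016) (XT.nd (nat_lit 234) (nat_lit 76) (nat_lit 0) (XT.nd (nat_lit 78) (nat_lit 152) (nat_lit 0) (XT.lf (nat_lit 0) (nat_lit 10619752568) (nat_lit 152) (nat_lit 314497132327) (nat_lit 76) (nat_lit 87923808307) (nat_lit 27) (nat_lit 5) (nat_lit 29) (nat_lit 5) (nat_lit 28) (nat_lit 5) (nat_lit 413) (nat_lit 365) (nat_lit 122)) (XT.nd (nat_lit 78) (nat_lit 152) (nat_lit 0) (XT.lf (nat_lit 0) (nat_lit 89023674156) (nat_lit 152) (nat_lit 133961235436) (nat_lit 76) (nat_lit 205000461810) (nat_lit 27) (nat_lit 5) (nat_lit 29) (nat_lit 5) (nat_lit 28) (nat_lit 5) (nat_lit 414) (nat_lit 365) (nat_lit 121)) (XT.lf (nat_lit 0) (nat_lit 57439758596) (nat_lit 152) (nat_lit 114804753633) (nat_lit 228) (nat_lit 271387935304) (nat_lit 25) (nat_lit 5) (nat_lit 27) (nat_lit 5) (nat_lit 28) (nat_lit 5) (nat_lit 415) (nat_lit 365) (nat_lit 120)))) (XT.nd (nat_lit 78) (nat_lit 76) (nat_lit 0) (XT.lf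 (nat_lit 0) (nat_lit 261913229139) (nat_lit 228) (nat_lit 196905151150) (nat_lit 76) (nat_lit 1129155379) (nat_lit 25) (nat_lit 5) (nat_lit 28) (nat_lit 5) (nat_lit 26) (nat_lit 4) (nat_lit 416) (nat_lit 365) (nat_lit 119)) (XT.nd (nat_lit 78) (nat_lit 76) (nat_lit 0) (XT.lf (nat_lit 0) (nat_lit 357947356155) (nat_lit 228) (nat_lit 35404961) (nat_lit 76) (nat_lit 119001518419) (nat_lit 25) (nat_lit 5) (nat_lit 28) (nat_lit 5) (nat_lit 26) (nat_lit 4) (nat_lit 417) (nat_lit 365) (nat_lit 118)) (XT.lf (nat_lit 0) (nat_lit 213511409574) (nat_lit 76) (nat_lit 248605223913) (nat_lit 152) (nat_lit 32589554949) (nat_lit 24) (nat_lit 5) (nat_lit 25) (nat_lit 5) (nat_lit 26) (nat_lit 4) (nat_lit 418) (nat_lit 365) (nat_lit 117))))) (XT.nd (nat_lit 234) (nat_lit 760) (nat_lit 0) (XT.nd (nat_lit 78) (nat_lit 0) (nat_lit 0) (XT.lf (nat_lit 0) (nat_lit 25086143994) (nat_lit 0) (nat_lit 25086143994)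 (nat_lit 684) (nat_lit 912640286) (nat_lit 100) (nat_lit 5) (nat_lit 100) (nat_lit 3) (nat_lit 109) (nat_lit 3) (nat_lit 366) (nat_lit 366) (nat_lit 168)) (XT.nd (nat_lit 78) (nat_lit 0) (nat_lit 0) (XT.lf (nat_lit 0) (nat_lit 100106405917) (nat_lit 0) (nat_lit 2752698486) (nat_lit 684) (nat_lit 1864693764) (nat_lit 100) (nat_lit 5) (nat_lit 100) (nat_lit 3) (nat_lit 109) (nat_lit 3) (nat_lit 367) (nat_lit 366) (nat_lit 167)) (XT.lf (nat_lit 76) (nat_lit 45865159686) (nat_lit 0) (nat_lit 61084300609) (nat_lit 760) (nat_lit 383472099) (nat_lit 101) (nat_lit 5) (nat_lit 100) (nat_lit 5) (nat_lit 110) (nat_lit 5) (nat_lit 368) (nat_lit 366) (nat_lit 166)))) (XT.nd (nat_lit 78) (nat_lit 0) (nat_lit 76) (XT.lf (nat_lit 0) (nat_lit 1258543860) (nat_lit 760) (nat_lit 11101393189) (nat_lit 836) (nat_lit 97705460125) (nat_lit 90) (nat_lit 5) (nat_lit 100) (nat_lit 5) (nat_lit 101) (nat_lit 5) (nat_lit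 369) (nat_lit 366) (nat_lit 165)) (XT.nd (nat_lit 78) (nat_lit 0) (nat_lit 0) (XT.lf (nat_lit 0) (nat_lit 4260181248) (nat_lit 760) (nat_lit 70359297812) (nat_lit 836) (nat_lit 38250171925) (nat_lit 91) (nat_lit 5) (nat_lit 101) (nat_lit 5) (nat_lit 102) (nat_lit 5) (nat_lit 370) (nat_lit 366) (nat_lit 164)) (XT.lf (nat_lit 0) (nat_lit 7805277490) (nat_lit 760) (nat_lit 16822545382) (nat_lit 836) (nat_lit 91166626243) (nat_lit 91) (nat_lit 5) (nat_lit 101) (nat_lit 5) (nat_lit 102) (nat_lit 5) (nat_lit 371) (nat_lit 366) (nat_lit 163))))))) (XT.nd (nat_lit 858) (nat_lit 1824) (nat_lit 0) (XT.nd (nat_lit 390) (nat_lit 1216) (nat_lit 0) (XT.nd (nat_lit 156) (nat_lit 0) (nat_lit 76) (XT.nd (nat_lit 78) (nat_lit 0) (nat_lit 0) (XT.lf (nat_lit 0) (nat_lit 12608088899) (nat_lit 760) (nat_lit 78585911972) (nat_lit 836) (nat_lit 27617463721) (nat_lit 92) (nat_lit 5) (nat_lit 102) (nat_lit 5) (nat_lit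 103) (nat_lit 5) (nat_lit 372) (nat_lit 366) (nat_lit 162)) (XT.lf (nat_lit 0) (nat_lit 18344038855) (nat_lit 760) (nat_lit 21663624296) (nat_lit 836) (nat_lit 81937018226) (nat_lit 92) (nat_lit 5) (nat_lit 102) (nat_lit 5) (nat_lit 103) (nat_lit 5) (nat_lit 373) (nat_lit 366) (nat_lit 161))) (XT.nd (nat_lit 78) (nat_lit 0) (nat_lit 0) (XT.lf (nat_lit 0) (nat_lit 25205650197) (nat_lit 760) (nat_lit 86063941286) (nat_lit 836) (nat_lit 13923024738) (nat_lit 93) (nat_lit 5) (nat_lit 103) (nat_lit 5) (nat_lit 104) (nat_lit 5) (nat_lit 374) (nat_lit 366) (nat_lit 160)) (XT.nd (nat_lit 78) (nat_lit 0) (nat_lit 0) (XT.lf (nat_lit 0) (nat_lit 33438824700) (nat_lit 760) (nat_lit 25534010565) (nat_lit 836) (nat_lit 69578688807) (nat_lit 93) (nat_lit 5) (nat_lit 103) (nat_lit 5) (nat_lit 104) (nat_lit 5) (nat_lit 375) (nat_lit 366) (nat_lit 159)) (XT.lf (nat_lit 76) (nat_lit 39279382837) (nat_lit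 0) (nat_lit 3417270444) (nat_lit 836) (nat_lit 89351074643) (nat_lit 94) (nat_lit 5) (nat_lit 93) (nat_lit 5) (nat_lit 104) (nat_lit 5) (nat_lit 376) (nat_lit 366) (nat_lit 158))))) (XT.nd (nat_lit 234) (nat_lit 684) (nat_lit 0) (XT.nd (nat_lit 78) (nat_lit 684) (nat_lit 0) (XT.lf (nat_lit 0) (nat_lit 53714030975) (nat_lit 760) (nat_lit 28341903848) (nat_lit 76) (nat_lit 53597974617) (nat_lit 94) (nat_lit 5) (nat_lit 104) (nat_lit 5) (nat_lit 95) (nat_lit 5) (nat_lit 377) (nat_lit 366) (nat_lit 157)) (XT.nd (nat_lit 78) (nat_lit 0) (nat_lit 0) (XT.lf (nat_lit 0) (nat_lit 40547389558) (nat_lit 684) (nat_lit 25423723431) (nat_lit 760) (nat_lit 73434845614) (nat_lit 85) (nat_lit 5) (nat_lit 94) (nat_lit 5) (nat_lit 95) (nat_lit 5) (nat_lit 378) (nat_lit 366) (nat_lit 156)) (XT.lf (nat_lit 0) (nat_lit 79860127669) (nat_lit 760) (nat_lit 29996054061) (nat_lit 76) (nat_lit 33438474888) (nat_lit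 85) (nat_lit 5) (nat_lit 95) (nat_lit 5) (nat_lit 86) (nat_lit 5) (nat_lit 379) (nat_lit 366) (nat_lit 155)))) (XT.nd (nat_lit 78) (nat_lit 304) (nat_lit 0) (XT.lf (nat_lit 0) (nat_lit 43277745651) (nat_lit 380) (nat_lit 52258092668) (nat_lit 456) (nat_lit 51787339262) (nat_lit 80) (nat_lit 5) (nat_lit 85) (nat_lit 5) (nat_lit 86) (nat_lit 5) (nat_lit 380) (nat_lit 366) (nat_lit 154)) (XT.nd (nat_lit 78) (nat_lit 304) (nat_lit 0) (XT.lf (nat_lit 0) (nat_lit 112639779089) (nat_lit 456) (nat_lit 30407982105) (nat_lit 76) (nat_lit 8473141464) (nat_lit 80) (nat_lit 5) (nat_lit 86) (nat_lit 5) (nat_lit 81) (nat_lit 5) (nat_lit 381) (nat_lit 366) (nat_lit 153)) (XT.lf (nat_lit 0) (nat_lit 47577204022) (nat_lit 304) (nat_lit 84621010100) (nat_lit 380) (nat_lit 23650335283) (nat_lit 76) (nat_lit 5) (nat_lit 80) (nat_lit 5) (nat_lit 81) (nat_lit 5) (nat_lit 382) (nat_lit 366) (nat_lit 152))))))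 (XT.nd (nat_lit 468) (nat_lit 836) (nat_lit 0) (XT.nd (nat_lit 234) (nat_lit 608) (nat_lit 0) (XT.nd (nat_lit 78) (nat_lit 380) (nat_lit 0) (XT.lf (nat_lit 0) (nat_lit 130517135582) (nat_lit 304) (nat_lit 22732209451) (nat_lit 380) (nat_lit 7117495020) (nat_lit 76) (nat_lit 5) (nat_lit 80) (nat_lit 5) (nat_lit 81) (nat_lit 5) (nat_lit 383) (nat_lit 366) (nat_lit 151)) (XT.nd (nat_lit 78) (nat_lit 0) (nat_lit 0) (XT.lf (nat_lit 0) (nat_lit 11434180772) (nat_lit 380) (nat_lit 111673703888) (nat_lit 76) (nat_lit 41919165454) (nat_lit 71) (nat_lit 5) (nat_lit 76) (nat_lit 5) (nat_lit 72) (nat_lit 5) (nat_lit 384) (nat_lit 366) (nat_lit 150)) (XT.lf (nat_lit 0) (nat_lit 31560523581) (nat_lit 380) (nat_lit 28639970538) (nat_lit 76) (nat_lit 109669628891) (nat_lit 71) (nat_lit 5) (nat_lit 76) (nat_lit 5) (nat_lit 72) (nat_lit 5) (nat_lit 385) (nat_lit 366) (nat_lit 149)))) (XT.nd (nat_lit 78)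 (nat_lit 304) (nat_lit 0) (XT.lf (nat_lit 0) (nat_lit 53744132686) (nat_lit 380) (nat_lit 114533977801) (nat_lit 76) (nat_lit 6624691827) (nat_lit 67) (nat_lit 5) (nat_lit 72) (nat_lit 5) (nat_lit 68) (nat_lit 5) (nat_lit 386) (nat_lit 366) (nat_lit 148)) (XT.nd (nat_lit 78) (nat_lit 304) (nat_lit 0) (XT.lf (nat_lit 0) (nat_lit 78516624800) (nat_lit 380) (nat_lit 26335542316) (nat_lit 76) (nat_lit 75260963545) (nat_lit 67) (nat_lit 5) (nat_lit 72) (nat_lit 5) (nat_lit 68) (nat_lit 5) (nat_lit 387) (nat_lit 366) (nat_lit 147)) (XT.lf (nat_lit 0) (nat_lit 68463888797) (nat_lit 304) (nat_lit 37132600288) (nat_lit 380) (nat_lit 79934049164) (nat_lit 63) (nat_lit 5) (nat_lit 67) (nat_lit 5) (nat_lit 68) (nat_lit 5) (nat_lit 388) (nat_lit 366) (nat_lit 146))))) (XT.nd (nat_lit 234) (nat_lit 608) (nat_lit 0) (XT.nd (nat_lit 78) (nat_lit 228) (nat_lit 0) (XT.lf (nat_lit 0) (nat_lit 135013914874)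 (nat_lit 380) (nat_lit 22816841018) (nat_lit 76) (nat_lit 33338882098) (nat_lit 63) (nat_lit 5) (nat_lit 68) (nat_lit 5) (nat_lit 64) (nat_lit 5) (nat_lit 389) (nat_lit 366) (nat_lit 145)) (XT.nd (nat_lit 78) (nat_lit 0) (nat_lit 0) (XT.lf (nat_lit 0) (nat_lit 78034112621) (nat_lit 228) (nat_lit 89695008051) (nat_lit 304) (nat_lit 29270226791) (nat_lit 60) (nat_lit 5) (nat_lit 63) (nat_lit 5) (nat_lit 64) (nat_lit 5) (nat_lit 390) (nat_lit 366) (nat_lit 144)) (XT.lf (nat_lit 0) (nat_lit 184719573255) (nat_lit 228) (nat_lit 17746778480) (nat_lit 304) (nat_lit 634877599) (nat_lit 60) (nat_lit 5) (nat_lit 63) (nat_lit 5) (nat_lit 64) (nat_lit 5) (nat_lit 391) (nat_lit 366) (nat_lit 143)))) (XT.nd (nat_lit 78) (nat_lit 228) (nat_lit 0) (XT.lf (nat_lit 0) (nat_lit 30822495541) (nat_lit 380) (nat_lit 120707687390) (nat_lit 76) (nat_lit 57838432938) (nat_lit 55) (nat_lit 5) (nat_lit 60) (nat_lit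 5) (nat_lit 56) (nat_lit 5) (nat_lit 392) (nat_lit 366) (nat_lit 142)) (XT.nd (nat_lit 78) (nat_lit 228) (nat_lit 0) (XT.lf (nat_lit 0) (nat_lit 64438596365) (nat_lit 380) (nat_lit 14546626008) (nat_lit 76) (nat_lit 136933269362) (nat_lit 55) (nat_lit 5) (nat_lit 60) (nat_lit 5) (nat_lit 56) (nat_lit 5) (nat_lit 393) (nat_lit 366) (nat_lit 141)) (XT.lf (nat_lit 0) (nat_lit 100126997370) (nat_lit 228) (nat_lit 1171633346) (nat_lit 304) (nat_lit 121419074394) (nat_lit 52) (nat_lit 5) (nat_lit 55) (nat_lit 5) (nat_lit 56) (nat_lit 5) (nat_lit 394) (nat_lit 366) (nat_lit 140))))))))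
noncomputable def xc239 : XT := (XT.nd (nat_lit 44694) (nat_lit 0) (nat_lit 2888) (XT.nd (nat_lit 858) (nat_lit 988) (nat_lit 0) (XT.nd (nat_lit 390) (nat_lit 608) (nat_lit 0) (XT.nd (nat_lit 156) (nat_lit 228) (nat_lit 0) (XT.nd (nat_lit 78) (nat_lit 228) (nat_lit 0) (XT.lf (nat_lit 0) (nat_lit 141509268021) (nat_lit 304) (nat_lit 10066795582) (nat_lit 76) (nat_lit 78205435626) (nat_lit 52) (nat_lit 5) (nat_lit 56) (nat_lit 5) (nat_lit 53) (nat_lit 5) (nat_lit 395) (nat_lit 366) (nat_lit 139)) (XT.lf (nat_lit 0) (nat_lit 111637012043) (nat_lit 228) (nat_lit 73855473505) (nat_lit 304) (nat_lit 51617895215) (nat_lit 49) (nat_lit 5) (nat_lit 52) (nat_lit 5) (nat_lit 53) (nat_lit 5) (nat_lit 396) (nat_lit 366) (nat_lit 138))) (XT.nd (nat_lit 78) (nat_lit 228) (nat_lit 0) (XT.lf (nat_lit 0) (nat_lit 231969039117) (nat_lit 304) (nat_lit 5145664820) (nat_lit 76) (nat_lit 7676293801) (nat_lit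 49) (nat_lit 5) (nat_lit 53) (nat_lit 5) (nat_lit 50) (nat_lit 5) (nat_lit 397) (nat_lit 366) (nat_lit 137)) (XT.nd (nat_lit 78) (nat_lit 0) (nat_lit 0) (XT.lf (nat_lit 0) (nat_lit 30217842761) (nat_lit 228) (nat_lit 129230895731) (nat_lit 76) (nat_lit 93225242413) (nat_lit 46) (nat_lit 5) (nat_lit 49) (nat_lit 5) (nat_lit 47) (nat_lit 5) (nat_lit 398) (nat_lit 366) (nat_lit 136)) (XT.lf (nat_lit 0) (nat_lit 75067189242) (nat_lit 228) (nat_lit 2518632141) (nat_lit 76) (nat_lit 183350359306) (nat_lit 46) (nat_lit 5) (nat_lit 49) (nat_lit 5) (nat_lit 47) (nat_lit 5) (nat_lit 399) (nat_lit 366) (nat_lit 135))))) (XT.nd (nat_lit 234) (nat_lit 228) (nat_lit 0) (XT.nd (nat_lit 78) (nat_lit 152) (nat_lit 0) (XT.lf (nat_lit 0) (nat_lit 124429395720) (nat_lit 304) (nat_lit 134826462404) (nat_lit 76) (nat_lit 10242112804) (nat_lit 43) (nat_lit 5) (nat_lit 47) (nat_lit 5) (nat_lit 44) (nat_lit 5)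 (nat_lit 400) (nat_lit 366) (nat_lit 134)) (XT.nd (nat_lit 78) (nat_lit 152) (nat_lit 0) (XT.lf (nat_lit 0) (nat_lit 177574856227) (nat_lit 304) (nat_lit 949882471) (nat_lit 76) (nat_lit 99897354893) (nat_lit 43) (nat_lit 5) (nat_lit 47) (nat_lit 5) (nat_lit 44) (nat_lit 5) (nat_lit 401) (nat_lit 366) (nat_lit 133)) (XT.lf (nat_lit 0) (nat_lit 144236850262) (nat_lit 152) (nat_lit 91392577608) (nat_lit 228) (nat_lit 52050402702) (nat_lit 41) (nat_lit 5) (nat_lit 43) (nat_lit 5) (nat_lit 44) (nat_lit 5) (nat_lit 402) (nat_lit 366) (nat_lit 132)))) (XT.nd (nat_lit 78) (nat_lit 228) (nat_lit 0) (XT.lf (nat_lit 0) (nat_lit 296604478705) (nat_lit 228) (nat_lit 685676159) (nat_lit 76) (nat_lit 109412094) (nat_lit 41) (nat_lit 5) (nat_lit 44) (nat_lit 5) (nat_lit 42) (nat_lit 5) (nat_lit 403) (nat_lit 366) (nat_lit 131)) (XT.nd (nat_lit 78) (nat_lit 0) (nat_lit 0) (XT.lf (nat_lit 0) (nat_lit 55270120342)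 (nat_lit 228) (nat_lit 155707614882) (nat_lit 76) (nat_lit 96388953379) (nat_lit 38) (nat_lit 5) (nat_lit 41) (nat_lit 5) (nat_lit 39) (nat_lit 5) (nat_lit 404) (nat_lit 366) (nat_lit 130)) (XT.lf (nat_lit 0) (nat_lit 114123575679) (nat_lit 228) (nat_lit 6200095359) (nat_lit 76) (nat_lit 197507258330) (nat_lit 38) (nat_lit 5) (nat_lit 41) (nat_lit 5) (nat_lit 39) (nat_lit 5) (nat_lit 405) (nat_lit 366) (nat_lit 129)))))) (XT.nd (nat_lit 468) (nat_lit 456) (nat_lit 0) (XT.nd (nat_lit 234) (nat_lit 228) (nat_lit 0) (XT.nd (nat_lit 78) (nat_lit 152) (nat_lit 0) (XT.lf (nat_lit 0) (nat_lit 155768211637) (nat_lit 152) (nat_lit 22583378914) (nat_lit 228) (nat_lit 150345197354) (nat_lit 36) (nat_lit 5) (nat_lit 38) (nat_lit 5) (nat_lit 39) (nat_lit 5) (nat_lit 406) (nat_lit 366) (nat_lit 128)) (XT.nd (nat_lit 78) (nat_lit 152) (nat_lit 0) (XT.lf (nat_lit 0) (nat_lit 247147348930) (nat_lit 228)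 (nat_lit 15302078832) (nat_lit 76) (nat_lit 77588694537) (nat_lit 36) (nat_lit 5) (nat_lit 39) (nat_lit 5) (nat_lit 37) (nat_lit 5) (nat_lit 407) (nat_lit 366) (nat_lit 127)) (XT.lf (nat_lit 0) (nat_lit 154789620138) (nat_lit 152) (nat_lit 167380108255) (nat_lit 228) (nat_lit 29637453425) (nat_lit 34) (nat_lit 5) (nat_lit 36) (nat_lit 5) (nat_lit 37) (nat_lit 5) (nat_lit 408) (nat_lit 366) (nat_lit 126)))) (XT.nd (nat_lit 78) (nat_lit 152) (nat_lit 0) (XT.lf (nat_lit 0) (nat_lit 35864700824) (nat_lit 228) (nat_lit 30813182707) (nat_lit 76) (nat_lit 297444934491) (nat_lit 33) (nat_lit 5) (nat_lit 36) (nat_lit 5) (nat_lit 34) (nat_lit 5) (nat_lit 409) (nat_lit 366) (nat_lit 125)) (XT.nd (nat_lit 78) (nat_lit 0) (nat_lit 0) (XT.lf (nat_lit 0) (nat_lit 106611454122) (nat_lit 228) (nat_lit 229619338711) (nat_lit 76) (nat_lit 40650875059) (nat_lit 31) (nat_lit 5) (nat_lit 34) (nat_lit 5) (nat_lit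 32) (nat_lit 5) (nat_lit 410) (nat_lit 366) (nat_lit 124)) (XT.lf (nat_lit 0) (nat_lit 182518935700) (nat_lit 228) (nat_lit 56042756058) (nat_lit 76) (nat_lit 151635599022) (nat_lit 31) (nat_lit 5) (nat_lit 34) (nat_lit 5) (nat_lit 32) (nat_lit 5) (nat_lit 411) (nat_lit 366) (nat_lit 123))))) (XT.nd (nat_lit 234) (nat_lit 152) (nat_lit 0) (XT.nd (nat_lit 78) (nat_lit 152) (nat_lit 0) (XT.lf (nat_lit 0) (nat_lit 130385684622) (nat_lit 152) (nat_lit 133871716207) (nat_lit 228) (nat_lit 139819513558) (nat_lit 29) (nat_lit 5) (nat_lit 31) (nat_lit 5) (nat_lit 32) (nat_lit 5) (nat_lit 412) (nat_lit 366) (nat_lit 122)) (XT.nd (nat_lit 78) (nat_lit 152) (nat_lit 0) (XT.lf (nat_lit 0) (nat_lit 328081100045) (nat_lit 152) (nat_lit 22950725578) (nat_lit 228) (nat_lit 67571241781) (nat_lit 29) (nat_lit 5) (nat_lit 31) (nat_lit 5) (nat_lit 32) (nat_lit 5) (nat_lit 413) (nat_lit 366) (nat_lit 121))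 (XT.lf (nat_lit 0) (nat_lit 11153053027) (nat_lit 152) (nat_lit 330218030743) (nat_lit 76) (nat_lit 92321527101) (nat_lit 27) (nat_lit 5) (nat_lit 29) (nat_lit 5) (nat_lit 28) (nat_lit 5) (nat_lit 414) (nat_lit 366) (nat_lit 120)))) (XT.nd (nat_lit 78) (nat_lit 152) (nat_lit 0) (XT.lf (nat_lit 0) (nat_lit 93477060560) (nat_lit 152) (nat_lit 140655527493) (nat_lit 76) (nat_lit 215251940499) (nat_lit 27) (nat_lit 5) (nat_lit 29) (nat_lit 5) (nat_lit 28) (nat_lit 5) (nat_lit 415) (nat_lit 366) (nat_lit 119)) (XT.nd (nat_lit 78) (nat_lit 0) (nat_lit 0) (XT.lf (nat_lit 0) (nat_lit 60315455439) (nat_lit 152) (nat_lit 120543438115) (nat_lit 228) (nat_lit 284955067347) (nat_lit 25) (nat_lit 5) (nat_lit 27) (nat_lit 5) (nat_lit 28) (nat_lit 5) (nat_lit 416) (nat_lit 366) (nat_lit 118)) (XT.lf (nat_lit 0) (nat_lit 275010966750) (nat_lit 228) (nat_lit 206746795686) (nat_lit 76) (nat_lit 1187045042)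 (nat_lit 25) (nat_lit 5) (nat_lit 28) (nat_lit 5) (nat_lit 26) (nat_lit 4) (nat_lit 417) (nat_lit 366) (nat_lit 117))))))) (XT.nd (nat_lit 858) (nat_lit 2052) (nat_lit 0) (XT.nd (nat_lit 390) (nat_lit 0) (nat_lit 76) (XT.nd (nat_lit 156) (nat_lit 760) (nat_lit 0) (XT.nd (nat_lit 78) (nat_lit 0) (nat_lit 0) (XT.lf (nat_lit 0) (nat_lit 26343362040) (nat_lit 0) (nat_lit 26343362040) (nat_lit 684) (nat_lit 952150570) (nat_lit 100) (nat_lit 5) (nat_lit 100) (nat_lit 3) (nat_lit 109) (nat_lit 3) (nat_lit 367) (nat_lit 367) (nat_lit 166)) (XT.lf (nat_lit 0) (nat_lit 105117270680) (nat_lit 0) (nat_lit 2895877879) (nat_lit 684) (nat_lit 1946268013) (nat_lit 100) (nat_lit 5) (nat_lit 100) (nat_lit 3) (nat_lit 109) (nat_lit 3) (nat_lit 368) (nat_lit 367) (nat_lit 165))) (XT.nd (nat_lit 78) (nat_lit 760) (nat_lit 0) (XT.lf (nat_lit 76) (nat_lit 48164520165) (nat_lit 0) (nat_lit 64142986871) (nat_lit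 760) (nat_lit 391527047) (nat_lit 101) (nat_lit 5) (nat_lit 100) (nat_lit 5) (nat_lit 110) (nat_lit 5) (nat_lit 369) (nat_lit 367) (nat_lit 164)) (XT.nd (nat_lit 78) (nat_lit 0) (nat_lit 76) (XT.lf (nat_lit 0) (nat_lit 1331721329) (nat_lit 760) (nat_lit 11650297295) (nat_lit 836) (nat_lit 102586121161) (nat_lit 90) (nat_lit 5) (nat_lit 100) (nat_lit 5) (nat_lit 101) (nat_lit 5) (nat_lit 370) (nat_lit 367) (nat_lit 163)) (XT.lf (nat_lit 0) (nat_lit 4482988003) (nat_lit 760) (nat_lit 73870630532) (nat_lit 836) (nat_lit 40159011082) (nat_lit 91) (nat_lit 5) (nat_lit 101) (nat_lit 5) (nat_lit 102) (nat_lit 5) (nat_lit 371) (nat_lit 367) (nat_lit 162))))) (XT.nd (nat_lit 234) (nat_lit 0) (nat_lit 152) (XT.nd (nat_lit 78) (nat_lit 0) (nat_lit 76) (XT.lf (nat_lit 0) (nat_lit 8204872500) (nat_lit 760) (nat_lit 17657356299) (nat_lit 836) (nat_lit 95721462852) (nat_lit 91) (nat_lit 5) (nat_lit 101)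 (nat_lit 5) (nat_lit 102) (nat_lit 5) (nat_lit 372) (nat_lit 367) (nat_lit 161)) (XT.nd (nat_lit 78) (nat_lit 0) (nat_lit 0) (XT.lf (nat_lit 0) (nat_lit 13247433927) (nat_lit 760) (nat_lit 82508487939) (nat_lit 836) (nat_lit 28995656199) (nat_lit 92) (nat_lit 5) (nat_lit 102) (nat_lit 5) (nat_lit 103) (nat_lit 5) (nat_lit 373) (nat_lit 367) (nat_lit 160)) (XT.lf (nat_lit 0) (nat_lit 19269755639) (nat_lit 760) (nat_lit 22740405862) (nat_lit 836) (nat_lit 86031316082) (nat_lit 92) (nat_lit 5) (nat_lit 102) (nat_lit 5) (nat_lit 103) (nat_lit 5) (nat_lit 374) (nat_lit 367) (nat_lit 159)))) (XT.nd (nat_lit 78) (nat_lit 0) (nat_lit 0) (XT.lf (nat_lit 0) (nat_lit 26474110545) (nat_lit 760) (nat_lit 90360390154) (nat_lit 836) (nat_lit 14617325898) (nat_lit 93) (nat_lit 5) (nat_lit 103) (nat_lit 5) (nat_lit 104) (nat_lit 5) (nat_lit 375) (nat_lit 367) (nat_lit 158)) (XT.nd (nat_lit 78) (nat_lit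 0) (nat_lit 0) (XT.lf (nat_lit 0) (nat_lit 35118554352) (nat_lit 760) (nat_lit 26804284239) (nat_lit 836) (nat_lit 73055861269) (nat_lit 93) (nat_lit 5) (nat_lit 103) (nat_lit 5) (nat_lit 104) (nat_lit 5) (nat_lit 376) (nat_lit 367) (nat_lit 157)) (XT.lf (nat_lit 76) (nat_lit 41249675174) (nat_lit 0) (nat_lit 3589327034) (nat_lit 836) (nat_lit 93810725828) (nat_lit 94) (nat_lit 5) (nat_lit 93) (nat_lit 5) (nat_lit 104) (nat_lit 5) (nat_lit 377) (nat_lit 367) (nat_lit 156)))))) (XT.nd (nat_lit 468) (nat_lit 988) (nat_lit 0) (XT.nd (nat_lit 234) (nat_lit 684) (nat_lit 0) (XT.nd (nat_lit 78) (nat_lit 684) (nat_lit 0) (XT.lf (nat_lit 0) (nat_lit 56406873130) (nat_lit 760) (nat_lit 29752591320) (nat_lit 76) (nat_lit 56276773460) (nat_lit 94) (nat_lit 5) (nat_lit 104) (nat_lit 5) (nat_lit 95) (nat_lit 5) (nat_lit 378) (nat_lit 367) (nat_lit 155)) (XT.nd (nat_lit 78) (nat_lit 0) (nat_lit 0) (XT.lf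 (nat_lit 0) (nat_lit 42581063405) (nat_lit 684) (nat_lit 26695504238) (nat_lit 760) (nat_lit 77099334441) (nat_lit 85) (nat_lit 5) (nat_lit 94) (nat_lit 5) (nat_lit 95) (nat_lit 5) (nat_lit 379) (nat_lit 367) (nat_lit 154)) (XT.lf (nat_lit 0) (nat_lit 83859695692) (nat_lit 760) (nat_lit 31489506191) (nat_lit 76) (nat_lit 35109850438) (nat_lit 85) (nat_lit 5) (nat_lit 95) (nat_lit 5) (nat_lit 86) (nat_lit 5) (nat_lit 380) (nat_lit 367) (nat_lit 153)))) (XT.nd (nat_lit 78) (nat_lit 304) (nat_lit 0) (XT.lf (nat_lit 0) (nat_lit 45447881078) (nat_lit 380) (nat_lit 54871095889) (nat_lit 456) (nat_lit 54370033543) (nat_lit 80) (nat_lit 5) (nat_lit 85) (nat_lit 5) (nat_lit 86) (nat_lit 5) (nat_lit 381) (nat_lit 367) (nat_lit 152)) (XT.nd (nat_lit 78) (nat_lit 304) (nat_lit 0) (XT.lf (nat_lit 0) (nat_lit 118277811083) (nat_lit 456) (nat_lit 31922118701) (nat_lit 76) (nat_lit 8896707650) (nat_lit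 80) (nat_lit 5) (nat_lit 86) (nat_lit 5) (nat_lit 81) (nat_lit 5) (nat_lit 382) (nat_lit 367) (nat_lit 151)) (XT.lf (nat_lit 0) (nat_lit 49962225725) (nat_lit 304) (nat_lit 88851750579) (nat_lit 380) (nat_lit 24826700185) (nat_lit 76) (nat_lit 5) (nat_lit 80) (nat_lit 5) (nat_lit 81) (nat_lit 5) (nat_lit 383) (nat_lit 367) (nat_lit 150))))) (XT.nd (nat_lit 234) (nat_lit 608) (nat_lit 0) (XT.nd (nat_lit 78) (nat_lit 380) (nat_lit 0) (XT.lf (nat_lit 0) (nat_lit 137048860457) (nat_lit 304) (nat_lit 23868524661) (nat_lit 380) (nat_lit 7467510855) (nat_lit 76) (nat_lit 5) (nat_lit 80) (nat_lit 5) (nat_lit 81) (nat_lit 5) (nat_lit 384) (nat_lit 367) (nat_lit 149)) (XT.nd (nat_lit 78) (nat_lit 0) (nat_lit 0) (XT.lf (nat_lit 0) (nat_lit 12011391613) (nat_lit 380) (nat_lit 117251150036) (nat_lit 76) (nat_lit 44015579131) (nat_lit 71) (nat_lit 5) (nat_lit 76) (nat_lit 5) (nat_lit 72) (nat_lit 5)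 (nat_lit 385) (nat_lit 367) (nat_lit 148)) (XT.lf (nat_lit 0) (nat_lit 33143789572) (nat_lit 380) (nat_lit 30066027116) (nat_lit 76) (nat_lit 115153544054) (nat_lit 71) (nat_lit 5) (nat_lit 76) (nat_lit 5) (nat_lit 72) (nat_lit 5) (nat_lit 386) (nat_lit 367) (nat_lit 147)))) (XT.nd (nat_lit 78) (nat_lit 304) (nat_lit 0) (XT.lf (nat_lit 0) (nat_lit 56436432828) (nat_lit 380) (nat_lit 120254582315) (nat_lit 76) (nat_lit 6956666488) (nat_lit 67) (nat_lit 5) (nat_lit 72) (nat_lit 5) (nat_lit 68) (nat_lit 5) (nat_lit 387) (nat_lit 367) (nat_lit 146)) (XT.nd (nat_lit 78) (nat_lit 304) (nat_lit 0) (XT.lf (nat_lit 0) (nat_lit 82447307000) (nat_lit 380) (nat_lit 27646515264) (nat_lit 76) (nat_lit 79024716552) (nat_lit 67) (nat_lit 5) (nat_lit 72) (nat_lit 5) (nat_lit 68) (nat_lit 5) (nat_lit 388) (nat_lit 367) (nat_lit 145)) (XT.lf (nat_lit 0) (nat_lit 71892793789) (nat_lit 304) (nat_lit 38988228870)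 (nat_lit 380) (nat_lit 83925801494) (nat_lit 63) (nat_lit 5) (nat_lit 67) (nat_lit 5) (nat_lit 68) (nat_lit 5) (nat_lit 389) (nat_lit 367) (nat_lit 144))))))))
noncomputable def xc240 : XT := (XT.nd (nat_lit 1716) (nat_lit 456) (nat_lit 0) (XT.nd (nat_lit 858) (nat_lit 1140) (nat_lit 0) (XT.nd (nat_lit 390) (nat_lit 684) (nat_lit 0) (XT.nd (nat_lit 156) (nat_lit 380) (nat_lit 0) (XT.nd (nat_lit 78) (nat_lit 228) (nat_lit 0) (XT.lf (nat_lit 0) (nat_lit 141769110384) (nat_lit 380) (nat_lit 23952029806) (nat_lit 76) (nat_lit 35006749423) (nat_lit 63) (nat_lit 5) (nat_lit 68) (nat_lit 5) (nat_lit 64) (nat_lit 5) (nat_lit 390) (nat_lit 367) (nat_lit 143)) (XT.lf (nat_lit 0) (nat_lit 81941380333) (nat_lit 228) (nat_lit 94178568705) (nat_lit 304) (nat_lit 30729142146) (nat_lit 60) (nat_lit 5) (nat_lit 63) (nat_lit 5) (nat_lit 64) (nat_lit 5) (nat_lit 391) (nat_lit 367) (nat_lit 142))) (XT.nd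 (nat_lit 78) (nat_lit 380) (nat_lit 0) (XT.lf (nat_lit 0) (nat_lit 193960849137) (nat_lit 228) (nat_lit 18632984310) (nat_lit 304) (nat_lit 662244351) (nat_lit 60) (nat_lit 5) (nat_lit 63) (nat_lit 5) (nat_lit 64) (nat_lit 5) (nat_lit 392) (nat_lit 367) (nat_lit 141)) (XT.nd (nat_lit 78) (nat_lit 0) (nat_lit 0) (XT.lf (nat_lit 0) (nat_lit 32367758466) (nat_lit 380) (nat_lit 126737526640) (nat_lit 76) (nat_lit 60731550298) (nat_lit 55) (nat_lit 5) (nat_lit 60) (nat_lit 5) (nat_lit 56) (nat_lit 5) (nat_lit 393) (nat_lit 367) (nat_lit 140)) (XT.lf (nat_lit 0) (nat_lit 67664467276) (nat_lit 380) (nat_lit 15268676242) (nat_lit 76) (nat_lit 143781071605) (nat_lit 55) (nat_lit 5) (nat_lit 60) (nat_lit 5) (nat_lit 56) (nat_lit 5) (nat_lit 394) (nat_lit 367) (nat_lit 139))))) (XT.nd (nat_lit 234) (nat_lit 228) (nat_lit 0) (XT.nd (nat_lit 78) (nat_lit 228) (nat_lit 0) (XT.lf (nat_lit 0) (nat_lit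 105138543127) (nat_lit 228) (nat_lit 1228853670) (nat_lit 304) (nat_lit 127485997896) (nat_lit 52) (nat_lit 5) (nat_lit 55) (nat_lit 5) (nat_lit 56) (nat_lit 5) (nat_lit 395) (nat_lit 367) (nat_lit 138)) (XT.nd (nat_lit 78) (nat_lit 228) (nat_lit 0) (XT.lf (nat_lit 0) (nat_lit 148588403612) (nat_lit 304) (nat_lit 10565020783) (nat_lit 76) (nat_lit 82116962428) (nat_lit 52) (nat_lit 5) (nat_lit 56) (nat_lit 5) (nat_lit 53) (nat_lit 5) (nat_lit 396) (nat_lit 367) (nat_lit 137)) (XT.lf (nat_lit 0) (nat_lit 117223894730) (nat_lit 228) (nat_lit 77546790983) (nat_lit 304) (nat_lit 54195031714) (nat_lit 49) (nat_lit 5) (nat_lit 52) (nat_lit 5) (nat_lit 53) (nat_lit 5) (nat_lit 397) (nat_lit 367) (nat_lit 136)))) (XT.nd (nat_lit 78) (nat_lit 228) (nat_lit 0) (XT.lf (nat_lit 0) (nat_lit 243570918333) (nat_lit 304) (nat_lit 5398003563) (nat_lit 76) (nat_lit 8061450957) (nat_lit 49) (nat_lit 5) (nat_lit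 53) (nat_lit 5) (nat_lit 50) (nat_lit 5) (nat_lit 398) (nat_lit 367) (nat_lit 135)) (XT.nd (nat_lit 78) (nat_lit 0) (nat_lit 0) (XT.lf (nat_lit 0) (nat_lit 31732132806) (nat_lit 228) (nat_lit 135687460326) (nat_lit 76) (nat_lit 97887913831) (nat_lit 46) (nat_lit 5) (nat_lit 49) (nat_lit 5) (nat_lit 47) (nat_lit 5) (nat_lit 399) (nat_lit 367) (nat_lit 134)) (XT.lf (nat_lit 0) (nat_lit 78823784805) (nat_lit 228) (nat_lit 2639820710) (nat_lit 76) (nat_lit 192519219458) (nat_lit 46) (nat_lit 5) (nat_lit 49) (nat_lit 5) (nat_lit 47) (nat_lit 5) (nat_lit 400) (nat_lit 367) (nat_lit 133)))))) (XT.nd (nat_lit 390) (nat_lit 532) (nat_lit 0) (XT.nd (nat_lit 156) (nat_lit 380) (nat_lit 0) (XT.nd (nat_lit 78) (nat_lit 0) (nat_lit 0) (XT.lf (nat_lit 0) (nat_lit 130654043967) (nat_lit 304) (nat_lit 141562982040) (nat_lit 76) (nat_lit 10755681740) (nat_lit 43) (nat_lit 5) (nat_lit 47) (nat_lit 5) (nat_lit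 44) (nat_lit 5) (nat_lit 401) (nat_lit 367) (nat_lit 132)) (XT.lf (nat_lit 0) (nat_lit 186456626144) (nat_lit 304) (nat_lit 992801848) (nat_lit 76) (nat_lit 104893616252) (nat_lit 43) (nat_lit 5) (nat_lit 47) (nat_lit 5) (nat_lit 44) (nat_lit 5) (nat_lit 402) (nat_lit 367) (nat_lit 131))) (XT.nd (nat_lit 78) (nat_lit 228) (nat_lit 0) (XT.lf (nat_lit 0) (nat_lit 151453193736) (nat_lit 152) (nat_lit 95960658759) (nat_lit 228) (nat_lit 54649819401) (nat_lit 41) (nat_lit 5) (nat_lit 43) (nat_lit 5) (nat_lit 44) (nat_lit 5) (nat_lit 403) (nat_lit 367) (nat_lit 130)) (XT.nd (nat_lit 78) (nat_lit 228) (nat_lit 0) (XT.lf (nat_lit 0) (nat_lit 311437538255) (nat_lit 228) (nat_lit 715553299) (nat_lit 76) (nat_lit 116309549) (nat_lit 41) (nat_lit 5) (nat_lit 44) (nat_lit 5) (nat_lit 42) (nat_lit 5) (nat_lit 404) (nat_lit 367) (nat_lit 129)) (XT.lf (nat_lit 0) (nat_lit 58036442250) (nat_lit 228) (nat_lit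 163488564729) (nat_lit 76) (nat_lit 101209873061) (nat_lit 38) (nat_lit 5) (nat_lit 41) (nat_lit 5) (nat_lit 39) (nat_lit 5) (nat_lit 405) (nat_lit 367) (nat_lit 128))))) (XT.nd (nat_lit 234) (nat_lit 380) (nat_lit 0) (XT.nd (nat_lit 78) (nat_lit 152) (nat_lit 0) (XT.lf (nat_lit 0) (nat_lit 119832436264) (nat_lit 228) (nat_lit 6505880226) (nat_lit 76) (nat_lit 207384023164) (nat_lit 38) (nat_lit 5) (nat_lit 41) (nat_lit 5) (nat_lit 39) (nat_lit 5) (nat_lit 406) (nat_lit 367) (nat_lit 127)) (XT.nd (nat_lit 78) (nat_lit 0) (nat_lit 0) (XT.lf (nat_lit 0) (nat_lit 163560774057) (nat_lit 152) (nat_lit 23711014939) (nat_lit 228) (nat_lit 157859705365) (nat_lit 36) (nat_lit 5) (nat_lit 38) (nat_lit 5) (nat_lit 39) (nat_lit 5) (nat_lit 407) (nat_lit 367) (nat_lit 126)) (XT.lf (nat_lit 0) (nat_lit 259507233378) (nat_lit 228) (nat_lit 16063124826) (nat_lit 76) (nat_lit 81469542461) (nat_lit 36)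 (nat_lit 5) (nat_lit 39) (nat_lit 5) (nat_lit 37) (nat_lit 5) (nat_lit 408) (nat_lit 367) (nat_lit 125)))) (XT.nd (nat_lit 78) (nat_lit 228) (nat_lit 0) (XT.lf (nat_lit 0) (nat_lit 162533093641) (nat_lit 152) (nat_lit 175747580649) (nat_lit 228) (nat_lit 31116741837) (nat_lit 34) (nat_lit 5) (nat_lit 36) (nat_lit 5) (nat_lit 37) (nat_lit 5) (nat_lit 409) (nat_lit 367) (nat_lit 124)) (XT.nd (nat_lit 78) (nat_lit 152) (nat_lit 0) (XT.lf (nat_lit 0) (nat_lit 37660318291) (nat_lit 228) (nat_lit 32349959052) (nat_lit 76) (nat_lit 312318560820) (nat_lit 33) (nat_lit 5) (nat_lit 36) (nat_lit 5) (nat_lit 34) (nat_lit 5) (nat_lit 410) (nat_lit 367) (nat_lit 123)) (XT.lf (nat_lit 0) (nat_lit 111944378736) (nat_lit 228) (nat_lit 241096390776) (nat_lit 76) (nat_lit 42684862619) (nat_lit 31) (nat_lit 5) (nat_lit 34) (nat_lit 5) (nat_lit 32) (nat_lit 5) (nat_lit 411) (nat_lit 367) (nat_lit 122)))))))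 (XT.nd (nat_lit 43914) (nat_lit 0) (nat_lit 3876) (XT.nd (nat_lit 43446) (nat_lit 0) (nat_lit 4940) (XT.nd (nat_lit 156) (nat_lit 304) (nat_lit 0) (XT.nd (nat_lit 78) (nat_lit 152) (nat_lit 0) (XT.lf (nat_lit 0) (nat_lit 191647122397) (nat_lit 228) (nat_lit 58841165412) (nat_lit 76) (nat_lit 159218754026) (nat_lit 31) (nat_lit 5) (nat_lit 34) (nat_lit 5) (nat_lit 32) (nat_lit 5) (nat_lit 412) (nat_lit 367) (nat_lit 121)) (XT.lf (nat_lit 0) (nat_lit 136908637166) (nat_lit 152) (nat_lit 140563824227) (nat_lit 228) (nat_lit 146808187771) (nat_lit 29) (nat_lit 5) (nat_lit 31) (nat_lit 5) (nat_lit 32) (nat_lit 5) (nat_lit 413) (nat_lit 367) (nat_lit 120))) (XT.nd (nat_lit 156) (nat_lit 304) (nat_lit 0) (XT.lf (nat_lit 0) (nat_lit 344488648678) (nat_lit 152) (nat_lit 24096854438) (nat_lit 228) (nat_lit 70947611998) (nat_lit 29) (nat_lit 5) (nat_lit 31) (nat_lit 5) (nat_lit 32) (nat_lit 5) (nat_lit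 414) (nat_lit 367) (nat_lit 119)) (XT.nd (nat_lit 78) (nat_lit 152) (nat_lit 0) (XT.lf (nat_lit 0) (nat_lit 98152911498) (nat_lit 152) (nat_lit 147684884625) (nat_lit 76) (nat_lit 226015857795) (nat_lit 27) (nat_lit 5) (nat_lit 29) (nat_lit 5) (nat_lit 28) (nat_lit 5) (nat_lit 416) (nat_lit 367) (nat_lit 117)) (XT.lf (nat_lit 0) (nat_lit 63334592304) (nat_lit 152) (nat_lit 126569201222) (nat_lit 228) (nat_lit 299200766545) (nat_lit 25) (nat_lit 5) (nat_lit 27) (nat_lit 5) (nat_lit 28) (nat_lit 5) (nat_lit 417) (nat_lit 367) (nat_lit 116))))) (XT.nd (nat_lit 234) (nat_lit 760) (nat_lit 0) (XT.nd (nat_lit 78) (nat_lit 0) (nat_lit 0) (XT.lf (nat_lit 0) (nat_lit 27663170364) (nat_lit 0) (nat_lit 27663170364) (nat_lit 684) (nat_lit 994205509) (nat_lit 100) (nat_lit 5) (nat_lit 100) (nat_lit 3) (nat_lit 109) (nat_lit 3) (nat_lit 368) (nat_lit 368) (nat_lit 164)) (XT.nd (nat_lit 78) (nat_lit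 0) (nat_lit 0) (XT.lf (nat_lit 0) (nat_lit 110378163210) (nat_lit 0) (nat_lit 3045700769) (nat_lit 684) (nat_lit 2033005052) (nat_lit 100) (nat_lit 5) (nat_lit 100) (nat_lit 3) (nat_lit 109) (nat_lit 3) (nat_lit 369) (nat_lit 368) (nat_lit 163)) (XT.lf (nat_lit 76) (nat_lit 50578281315) (nat_lit 0) (nat_lit 67354191753) (nat_lit 760) (nat_lit 401018451) (nat_lit 101) (nat_lit 5) (nat_lit 100) (nat_lit 5) (nat_lit 110) (nat_lit 5) (nat_lit 370) (nat_lit 368) (nat_lit 162)))) (XT.nd (nat_lit 78) (nat_lit 0) (nat_lit 76) (XT.lf (nat_lit 0) (nat_lit 1407604698) (nat_lit 760) (nat_lit 12227219820) (nat_lit 836) (nat_lit 107711244027) (nat_lit 90) (nat_lit 5) (nat_lit 100) (nat_lit 5) (nat_lit 101) (nat_lit 5) (nat_lit 371) (nat_lit 368) (nat_lit 161)) (XT.nd (nat_lit 78) (nat_lit 0) (nat_lit 0) (XT.lf (nat_lit 0) (nat_lit 4716024198) (nat_lit 760) (nat_lit 77558146486) (nat_lit 836) (nat_lit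 42163633347) (nat_lit 91) (nat_lit 5) (nat_lit 101) (nat_lit 5) (nat_lit 102) (nat_lit 5) (nat_lit 372) (nat_lit 368) (nat_lit 160)) (XT.lf (nat_lit 0) (nat_lit 8623579740) (nat_lit 760) (nat_lit 18534494997) (nat_lit 836) (nat_lit 100504366195) (nat_lit 91) (nat_lit 5) (nat_lit 101) (nat_lit 5) (nat_lit 102) (nat_lit 5) (nat_lit 373) (nat_lit 368) (nat_lit 159)))))) (XT.nd (nat_lit 468) (nat_lit 1216) (nat_lit 0) (XT.nd (nat_lit 234) (nat_lit 0) (nat_lit 76) (XT.nd (nat_lit 78) (nat_lit 0) (nat_lit 0) (XT.lf (nat_lit 0) (nat_lit 13917914996) (nat_lit 760) (nat_lit 86627817432) (nat_lit 836) (nat_lit 30443007526) (nat_lit 92) (nat_lit 5) (nat_lit 102) (nat_lit 5) (nat_lit 103) (nat_lit 5) (nat_lit 374) (nat_lit 368) (nat_lit 158)) (XT.nd (nat_lit 78) (nat_lit 0) (nat_lit 76) (XT.lf (nat_lit 0) (nat_lit 20240966634) (nat_lit 760) (nat_lit 23871621485) (nat_lit 836) (nat_lit 90330566188)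 (nat_lit 92) (nat_lit 5) (nat_lit 102) (nat_lit 5) (nat_lit 103) (nat_lit 5) (nat_lit 375) (nat_lit 368) (nat_lit 157)) (XT.lf (nat_lit 0) (nat_lit 27805233612) (nat_lit 760) (nat_lit 94872288848) (nat_lit 836) (nat_lit 15346514118) (nat_lit 93) (nat_lit 5) (nat_lit 103) (nat_lit 5) (nat_lit 104) (nat_lit 5) (nat_lit 376) (nat_lit 368) (nat_lit 156)))) (XT.nd (nat_lit 78) (nat_lit 0) (nat_lit 0) (XT.lf (nat_lit 0) (nat_lit 36881546394) (nat_lit 760) (nat_lit 28138669105) (nat_lit 836) (nat_lit 76707056167) (nat_lit 93) (nat_lit 5) (nat_lit 103) (nat_lit 5) (nat_lit 104) (nat_lit 5) (nat_lit 377) (nat_lit 368) (nat_lit 155)) (XT.nd (nat_lit 78) (nat_lit 0) (nat_lit 76) (XT.lf (nat_lit 76) (nat_lit 43317894257) (nat_lit 0) (nat_lit 3769875533) (nat_lit 836) (nat_lit 98494094276) (nat_lit 94) (nat_lit 5) (nat_lit 93) (nat_lit 5) (nat_lit 104) (nat_lit 5) (nat_lit 378) (nat_lit 368) (nat_lit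 154)) (XT.lf (nat_lit 0) (nat_lit 59233693526) (nat_lit 760) (nat_lit 31234408895) (nat_lit 76) (nat_lit 59089614503) (nat_lit 94) (nat_lit 5) (nat_lit 104) (nat_lit 5) (nat_lit 95) (nat_lit 5) (nat_lit 379) (nat_lit 368) (nat_lit 153))))) (XT.nd (nat_lit 234) (nat_lit 304) (nat_lit 0) (XT.nd (nat_lit 78) (nat_lit 380) (nat_lit 0) (XT.lf (nat_lit 0) (nat_lit 44715834825) (nat_lit 684) (nat_lit 28030818802) (nat_lit 760) (nat_lit 80947722068) (nat_lit 85) (nat_lit 5) (nat_lit 94) (nat_lit 5) (nat_lit 95) (nat_lit 5) (nat_lit 380) (nat_lit 368) (nat_lit 152)) (XT.nd (nat_lit 78) (nat_lit 380) (nat_lit 0) (XT.lf (nat_lit 0) (nat_lit 88058632078) (nat_lit 760) (nat_lit 33058221343) (nat_lit 76) (nat_lit 36864845733) (nat_lit 85) (nat_lit 5) (nat_lit 95) (nat_lit 5) (nat_lit 86) (nat_lit 5) (nat_lit 381) (nat_lit 368) (nat_lit 151)) (XT.lf (nat_lit 0) (nat_lit 47725942383) (nat_lit 380) (nat_lit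 57614740104) (nat_lit 456) (nat_lit 57082482900) (nat_lit 80) (nat_lit 5) (nat_lit 85) (nat_lit 5) (nat_lit 86) (nat_lit 5) (nat_lit 382) (nat_lit 368) (nat_lit 150)))) (XT.nd (nat_lit 78) (nat_lit 304) (nat_lit 0) (XT.lf (nat_lit 0) (nat_lit 124197182853) (nat_lit 456) (nat_lit 33512544355) (nat_lit 76) (nat_lit 9341460595) (nat_lit 80) (nat_lit 5) (nat_lit 86) (nat_lit 5) (nat_lit 81) (nat_lit 5) (nat_lit 383) (nat_lit 368) (nat_lit 149)) (XT.nd (nat_lit 78) (nat_lit 0) (nat_lit 0) (XT.lf (nat_lit 0) (nat_lit 52465925674) (nat_lit 304) (nat_lit 93294056905) (nat_lit 380) (nat_lit 26062455274) (nat_lit 76) (nat_lit 5) (nat_lit 80) (nat_lit 5) (nat_lit 81) (nat_lit 5) (nat_lit 384) (nat_lit 368) (nat_lit 148)) (XT.lf (nat_lit 0) (nat_lit 143906626016) (nat_lit 304) (nat_lit 25061683081) (nat_lit 380) (nat_lit 7835572188) (nat_lit 76) (nat_lit 5) (nat_lit 80) (nat_lit 5) (nat_lit 81) (nat_lit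 5) (nat_lit 385) (nat_lit 368) (nat_lit 147))))))))
noncomputable def xc241 : XT := (XT.nd (nat_lit 1794) (nat_lit 684) (nat_lit 0) (XT.nd (nat_lit 858) (nat_lit 1216) (nat_lit 0) (XT.nd (nat_lit 390) (nat_lit 836) (nat_lit 0) (XT.nd (nat_lit 156) (nat_lit 608) (nat_lit 0) (XT.nd (nat_lit 78) (nat_lit 0) (nat_lit 0) (XT.lf (nat_lit 0) (nat_lit 12616951491) (nat_lit 380) (nat_lit 123108048538) (nat_lit 76) (nat_lit 46216771153) (nat_lit 71) (nat_lit 5) (nat_lit 76) (nat_lit 5) (nat_lit 72) (nat_lit 5) (nat_lit 386) (nat_lit 368) (nat_lit 146)) (XT.lf (nat_lit 0) (nat_lit 34805731715) (nat_lit 380) (nat_lit 31563938948) (nat_lit 76) (nat_lit 120911614653) (nat_lit 71) (nat_lit 5) (nat_lit 76) (nat_lit 5) (nat_lit 72) (nat_lit 5) (nat_lit 387) (nat_lit 368) (nat_lit 145))) (XT.nd (nat_lit 78) (nat_lit 304) (nat_lit 0) (XT.lf (nat_lit 0) (nat_lit 59262874431) (nat_lit 380) (nat_lit 126261783653)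 (nat_lit 76) (nat_lit 7305171078) (nat_lit 67) (nat_lit 5) (nat_lit 72) (nat_lit 5) (nat_lit 68) (nat_lit 5) (nat_lit 388) (nat_lit 368) (nat_lit 144)) (XT.nd (nat_lit 78) (nat_lit 304) (nat_lit 0) (XT.lf (nat_lit 0) (nat_lit 86574072314) (nat_lit 380) (nat_lit 29023576477) (nat_lit 76) (nat_lit 82976591680) (nat_lit 67) (nat_lit 5) (nat_lit 72) (nat_lit 5) (nat_lit 68) (nat_lit 5) (nat_lit 389) (nat_lit 368) (nat_lit 143)) (XT.lf (nat_lit 0) (nat_lit 75492613117) (nat_lit 304) (nat_lit 40936731984) (nat_lit 380) (nat_lit 88117601656) (nat_lit 63) (nat_lit 5) (nat_lit 67) (nat_lit 5) (nat_lit 68) (nat_lit 5) (nat_lit 390) (nat_lit 368) (nat_lit 142))))) (XT.nd (nat_lit 234) (nat_lit 608) (nat_lit 0) (XT.nd (nat_lit 78) (nat_lit 228) (nat_lit 0) (XT.lf (nat_lit 0) (nat_lit 148861647324) (nat_lit 380) (nat_lit 25144503621) (nat_lit 76) (nat_lit 36757924281) (nat_lit 63) (nat_lit 5) (nat_lit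 68) (nat_lit 5) (nat_lit 64) (nat_lit 5) (nat_lit 391) (nat_lit 368) (nat_lit 141)) (XT.nd (nat_lit 78) (nat_lit 0) (nat_lit 0) (XT.lf (nat_lit 0) (nat_lit 86043494321) (nat_lit 228) (nat_lit 98886418002) (nat_lit 304) (nat_lit 32261430560) (nat_lit 60) (nat_lit 5) (nat_lit 63) (nat_lit 5) (nat_lit 64) (nat_lit 5) (nat_lit 392) (nat_lit 368) (nat_lit 140)) (XT.lf (nat_lit 0) (nat_lit 203663696329) (nat_lit 228) (nat_lit 19563605775) (nat_lit 304) (nat_lit 691386384) (nat_lit 60) (nat_lit 5) (nat_lit 63) (nat_lit 5) (nat_lit 64) (nat_lit 5) (nat_lit 393) (nat_lit 368) (nat_lit 139)))) (XT.nd (nat_lit 78) (nat_lit 228) (nat_lit 0) (XT.lf (nat_lit 0) (nat_lit 33989899811) (nat_lit 380) (nat_lit 133069373386) (nat_lit 76) (nat_lit 63769212361) (nat_lit 55) (nat_lit 5) (nat_lit 60) (nat_lit 5) (nat_lit 56) (nat_lit 5) (nat_lit 394) (nat_lit 368) (nat_lit 138)) (XT.nd (nat_lit 78) (nat_lit 228)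 (nat_lit 0) (XT.lf (nat_lit 0) (nat_lit 71051265328) (nat_lit 380) (nat_lit 16027319972) (nat_lit 76) (nat_lit 150971158088) (nat_lit 55) (nat_lit 5) (nat_lit 60) (nat_lit 5) (nat_lit 56) (nat_lit 5) (nat_lit 395) (nat_lit 368) (nat_lit 137)) (XT.lf (nat_lit 0) (nat_lit 110400183106) (nat_lit 228) (nat_lit 1289061575) (nat_lit 304) (nat_lit 133856642265) (nat_lit 52) (nat_lit 5) (nat_lit 55) (nat_lit 5) (nat_lit 56) (nat_lit 5) (nat_lit 396) (nat_lit 368) (nat_lit 136)))))) (XT.nd (nat_lit 468) (nat_lit 532) (nat_lit 0) (XT.nd (nat_lit 234) (nat_lit 456) (nat_lit 0) (XT.nd (nat_lit 78) (nat_lit 228) (nat_lit 0) (XT.lf (nat_lit 0) (nat_lit 156021154576) (nat_lit 304) (nat_lit 11088632749) (nat_lit 76) (nat_lit 86223948890) (nat_lit 52) (nat_lit 5) (nat_lit 56) (nat_lit 5) (nat_lit 53) (nat_lit 5) (nat_lit 397) (nat_lit 368) (nat_lit 135)) (XT.nd (nat_lit 78) (nat_lit 0) (nat_lit 0) (XT.lf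 (nat_lit 0) (nat_lit 123089653716) (nat_lit 228) (nat_lit 81422809719) (nat_lit 304) (nat_lit 56901374445) (nat_lit 49) (nat_lit 5) (nat_lit 52) (nat_lit 5) (nat_lit 53) (nat_lit 5) (nat_lit 398) (nat_lit 368) (nat_lit 134)) (XT.lf (nat_lit 0) (nat_lit 255752572876) (nat_lit 304) (nat_lit 5663418935) (nat_lit 76) (nat_lit 8465741161) (nat_lit 49) (nat_lit 5) (nat_lit 53) (nat_lit 5) (nat_lit 50) (nat_lit 5) (nat_lit 399) (nat_lit 368) (nat_lit 133)))) (XT.nd (nat_lit 78) (nat_lit 228) (nat_lit 0) (XT.lf (nat_lit 0) (nat_lit 33321821448) (nat_lit 228) (nat_lit 142467316163) (nat_lit 76) (nat_lit 102783587796) (nat_lit 46) (nat_lit 5) (nat_lit 49) (nat_lit 5) (nat_lit 47) (nat_lit 5) (nat_lit 400) (nat_lit 368) (nat_lit 132)) (XT.nd (nat_lit 78) (nat_lit 228) (nat_lit 0) (XT.lf (nat_lit 0) (nat_lit 82767909285) (nat_lit 228) (nat_lit 2767509669) (nat_lit 76) (nat_lit 202146397835) (nat_lit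 46) (nat_lit 5) (nat_lit 49) (nat_lit 5) (nat_lit 47) (nat_lit 5) (nat_lit 401) (nat_lit 368) (nat_lit 131)) (XT.lf (nat_lit 0) (nat_lit 137189629123) (nat_lit 304) (nat_lit 148636774240) (nat_lit 76) (nat_lit 11294793080) (nat_lit 43) (nat_lit 5) (nat_lit 47) (nat_lit 5) (nat_lit 44) (nat_lit 5) (nat_lit 402) (nat_lit 368) (nat_lit 130))))) (XT.nd (nat_lit 234) (nat_lit 380) (nat_lit 0) (XT.nd (nat_lit 78) (nat_lit 152) (nat_lit 0) (XT.lf (nat_lit 0) (nat_lit 195782203125) (nat_lit 304) (nat_lit 1038292510) (nat_lit 76) (nat_lit 110139561115) (nat_lit 43) (nat_lit 5) (nat_lit 47) (nat_lit 5) (nat_lit 44) (nat_lit 5) (nat_lit 403) (nat_lit 368) (nat_lit 129)) (XT.nd (nat_lit 78) (nat_lit 0) (nat_lit 0) (XT.lf (nat_lit 0) (nat_lit 159029935926) (nat_lit 152) (nat_lit 100757287859) (nat_lit 228) (nat_lit 57379495463) (nat_lit 41) (nat_lit 5) (nat_lit 43) (nat_lit 5) (nat_lit 44) (nat_lit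 5) (nat_lit 404) (nat_lit 368) (nat_lit 128)) (XT.lf (nat_lit 0) (nat_lit 327011987153) (nat_lit 228) (nat_lit 747333986) (nat_lit 76) (nat_lit 123419222) (nat_lit 41) (nat_lit 5) (nat_lit 44) (nat_lit 5) (nat_lit 42) (nat_lit 5) (nat_lit 405) (nat_lit 368) (nat_lit 127)))) (XT.nd (nat_lit 78) (nat_lit 152) (nat_lit 0) (XT.lf (nat_lit 0) (nat_lit 60940818459) (nat_lit 228) (nat_lit 171658974012) (nat_lit 76) (nat_lit 106271701874) (nat_lit 38) (nat_lit 5) (nat_lit 41) (nat_lit 5) (nat_lit 39) (nat_lit 5) (nat_lit 406) (nat_lit 368) (nat_lit 126)) (XT.nd (nat_lit 78) (nat_lit 152) (nat_lit 0) (XT.lf (nat_lit 0) (nat_lit 125826490550) (nat_lit 228) (nat_lit 6827346662) (nat_lit 76) (nat_lit 217754495903) (nat_lit 38) (nat_lit 5) (nat_lit 41) (nat_lit 5) (nat_lit 39) (nat_lit 5) (nat_lit 407) (nat_lit 368) (nat_lit 125)) (XT.lf (nat_lit 0) (nat_lit 171742578600) (nat_lit 152) (nat_lit 24895175282)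 (nat_lit 228) (nat_lit 165750194618) (nat_lit 36) (nat_lit 5) (nat_lit 38) (nat_lit 5) (nat_lit 39) (nat_lit 5) (nat_lit 408) (nat_lit 368) (nat_lit 124))))))) (XT.nd (nat_lit 44070) (nat_lit 0) (nat_lit 4028) (XT.nd (nat_lit 390) (nat_lit 304) (nat_lit 0) (XT.nd (nat_lit 156) (nat_lit 228) (nat_lit 0) (XT.nd (nat_lit 78) (nat_lit 152) (nat_lit 0) (XT.lf (nat_lit 0) (nat_lit 272484878041) (nat_lit 228) (nat_lit 16862600390) (nat_lit 76) (nat_lit 85544301397) (nat_lit 36) (nat_lit 5) (nat_lit 39) (nat_lit 5) (nat_lit 37) (nat_lit 5) (nat_lit 409) (nat_lit 368) (nat_lit 123)) (XT.lf (nat_lit 0) (nat_lit 170663369635) (nat_lit 152) (nat_lit 184533569189) (nat_lit 228) (nat_lit 32670234929) (nat_lit 34) (nat_lit 5) (nat_lit 36) (nat_lit 5) (nat_lit 37) (nat_lit 5) (nat_lit 410) (nat_lit 368) (nat_lit 122))) (XT.nd (nat_lit 78) (nat_lit 152) (nat_lit 0) (XT.lf (nat_lit 0) (nat_lit 39545495136)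 (nat_lit 228) (nat_lit 33963935198) (nat_lit 76) (nat_lit 327935740202) (nat_lit 33) (nat_lit 5) (nat_lit 36) (nat_lit 5) (nat_lit 34) (nat_lit 5) (nat_lit 411) (nat_lit 368) (nat_lit 121)) (XT.nd (nat_lit 78) (nat_lit 0) (nat_lit 0) (XT.lf (nat_lit 0) (nat_lit 117543730922) (nat_lit 228) (nat_lit 253147659411) (nat_lit 76) (nat_lit 44820415324) (nat_lit 31) (nat_lit 5) (nat_lit 34) (nat_lit 5) (nat_lit 32) (nat_lit 5) (nat_lit 412) (nat_lit 368) (nat_lit 120)) (XT.lf (nat_lit 0) (nat_lit 201231510183) (nat_lit 228) (nat_lit 61779841870) (nat_lit 76) (nat_lit 167180938942) (nat_lit 31) (nat_lit 5) (nat_lit 34) (nat_lit 5) (nat_lit 32) (nat_lit 5) (nat_lit 413) (nat_lit 368) (nat_lit 119))))) (XT.nd (nat_lit 43446) (nat_lit 0) (nat_lit 4788) (XT.nd (nat_lit 156) (nat_lit 152) (nat_lit 0) (XT.lf (nat_lit 0) (nat_lit 143757396291) (nat_lit 152) (nat_lit 147590675039) (nat_lit 228) (nat_lit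 154146509663) (nat_lit 29) (nat_lit 5) (nat_lit 31) (nat_lit 5) (nat_lit 32) (nat_lit 5) (nat_lit 414) (nat_lit 368) (nat_lit 118)) (XT.nd (nat_lit 43212) (nat_lit 0) (nat_lit 5548) (XT.lf (nat_lit 0) (nat_lit 12300346431) (nat_lit 152) (nat_lit 364058352758) (nat_lit 76) (nat_lit 101787196629) (nat_lit 27) (nat_lit 5) (nat_lit 29) (nat_lit 5) (nat_lit 28) (nat_lit 5) (nat_lit 416) (nat_lit 368) (nat_lit 116)) (XT.lf (nat_lit 0) (nat_lit 29048723643) (nat_lit 0) (nat_lit 29048723643) (nat_lit 684) (nat_lit 1038879421) (nat_lit 100) (nat_lit 5) (nat_lit 100) (nat_lit 3) (nat_lit 109) (nat_lit 3) (nat_lit 369) (nat_lit 369) (nat_lit 162)))) (XT.nd (nat_lit 78) (nat_lit 760) (nat_lit 0) (XT.lf (nat_lit 0) (nat_lit 115901632819) (nat_lit 0) (nat_lit 3202547255) (nat_lit 684) (nat_lit 2125062232) (nat_lit 100) (nat_lit 5) (nat_lit 100) (nat_lit 3) (nat_lit 109) (nat_lit 3) (nat_lit 370) (nat_lit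 369) (nat_lit 161)) (XT.nd (nat_lit 78) (nat_lit 760) (nat_lit 0) (XT.lf (nat_lit 76) (nat_lit 53112215919) (nat_lit 0) (nat_lit 70725579834) (nat_lit 760) (nat_lit 411922027) (nat_lit 101) (nat_lit 5) (nat_lit 100) (nat_lit 5) (nat_lit 110) (nat_lit 5) (nat_lit 371) (nat_lit 369) (nat_lit 160)) (XT.lf (nat_lit 0) (nat_lit 1486417861) (nat_lit 760) (nat_lit 12833508395) (nat_lit 836) (nat_lit 113093011949) (nat_lit 90) (nat_lit 5) (nat_lit 100) (nat_lit 5) (nat_lit 101) (nat_lit 5) (nat_lit 372) (nat_lit 369) (nat_lit 159)))))) (XT.nd (nat_lit 468) (nat_lit 836) (nat_lit 0) (XT.nd (nat_lit 234) (nat_lit 0) (nat_lit 76) (XT.nd (nat_lit 78) (nat_lit 0) (nat_lit 0) (XT.lf (nat_lit 0) (nat_lit 4959885994) (nat_lit 760) (nat_lit 81430597507) (nat_lit 836) (nat_lit 44268796158) (nat_lit 91) (nat_lit 5) (nat_lit 101) (nat_lit 5) (nat_lit 102) (nat_lit 5) (nat_lit 373) (nat_lit 369) (nat_lit 158))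 (XT.nd (nat_lit 78) (nat_lit 0) (nat_lit 76) (XT.lf (nat_lit 0) (nat_lit 9062435475) (nat_lit 760) (nat_lit 19456023268) (nat_lit 836) (nat_lit 105526709403) (nat_lit 91) (nat_lit 5) (nat_lit 101) (nat_lit 5) (nat_lit 102) (nat_lit 5) (nat_lit 374) (nat_lit 369) (nat_lit 157)) (XT.lf (nat_lit 0) (nat_lit 14621166187) (nat_lit 760) (nat_lit 90953680047) (nat_lit 836) (nat_lit 31962952477) (nat_lit 92) (nat_lit 5) (nat_lit 102) (nat_lit 5) (nat_lit 103) (nat_lit 5) (nat_lit 375) (nat_lit 369) (nat_lit 156)))) (XT.nd (nat_lit 78) (nat_lit 0) (nat_lit 76) (XT.lf (nat_lit 0) (nat_lit 21260020147) (nat_lit 760) (nat_lit 25059937552) (nat_lit 836) (nat_lit 94844994092) (nat_lit 92) (nat_lit 5) (nat_lit 102) (nat_lit 5) (nat_lit 103) (nat_lit 5) (nat_lit 376) (nat_lit 369) (nat_lit 155)) (XT.nd (nat_lit 78) (nat_lit 0) (nat_lit 0) (XT.lf (nat_lit 0) (nat_lit 29202223220) (nat_lit 760) (nat_lit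 99610351532) (nat_lit 836) (nat_lit 16112317761) (nat_lit 93) (nat_lit 5) (nat_lit 103) (nat_lit 5) (nat_lit 104) (nat_lit 5) (nat_lit 377) (nat_lit 369) (nat_lit 154)) (XT.lf (nat_lit 0) (nat_lit 38732031263) (nat_lit 760) (nat_lit 29540315172) (nat_lit 836) (nat_lit 80540959391) (nat_lit 93) (nat_lit 5) (nat_lit 103) (nat_lit 5) (nat_lit 104) (nat_lit 5) (nat_lit 378) (nat_lit 369) (nat_lit 153))))) (XT.nd (nat_lit 234) (nat_lit 380) (nat_lit 0) (XT.nd (nat_lit 78) (nat_lit 608) (nat_lit 0) (XT.lf (nat_lit 76) (nat_lit 45488991078) (nat_lit 0) (nat_lit 3959350850) (nat_lit 836) (nat_lit 103412297545) (nat_lit 94) (nat_lit 5) (nat_lit 93) (nat_lit 5) (nat_lit 104) (nat_lit 5) (nat_lit 379) (nat_lit 369) (nat_lit 152)) (XT.nd (nat_lit 78) (nat_lit 684) (nat_lit 0) (XT.lf (nat_lit 0) (nat_lit 62201252796) (nat_lit 760) (nat_lit 32790857692) (nat_lit 76) (nat_lit 62043190348) (nat_lit 94)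 (nat_lit 5) (nat_lit 104) (nat_lit 5) (nat_lit 95) (nat_lit 5) (nat_lit 380) (nat_lit 369) (nat_lit 151)) (XT.lf (nat_lit 0) (nat_lit 46956813187) (nat_lit 684) (nat_lit 29432848950) (nat_lit 760) (nat_lit 84989140737) (nat_lit 85) (nat_lit 5) (nat_lit 94) (nat_lit 5) (nat_lit 95) (nat_lit 5) (nat_lit 381) (nat_lit 369) (nat_lit 150)))) (XT.nd (nat_lit 78) (nat_lit 380) (nat_lit 0) (XT.lf (nat_lit 0) (nat_lit 92466961959) (nat_lit 760) (nat_lit 34705907778) (nat_lit 76) (nat_lit 38707637019) (nat_lit 85) (nat_lit 5) (nat_lit 95) (nat_lit 5) (nat_lit 86) (nat_lit 5) (nat_lit 382) (nat_lit 369) (nat_lit 149)) (XT.nd (nat_lit 78) (nat_lit 0) (nat_lit 0) (XT.lf (nat_lit 0) (nat_lit 50117379866) (nat_lit 380) (nat_lit 60495558218) (nat_lit 456) (nat_lit 59931117413) (nat_lit 80) (nat_lit 5) (nat_lit 85) (nat_lit 5) (nat_lit 86) (nat_lit 5) (nat_lit 383) (nat_lit 369) (nat_lit 148)) (XT.lf (nat_lit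 0) (nat_lit 130412013620) (nat_lit 456) (nat_lit 35183019391) (nat_lit 76) (nat_lit 9808458851) (nat_lit 80) (nat_lit 5) (nat_lit 86) (nat_lit 5) (nat_lit 81) (nat_lit 5) (nat_lit 384) (nat_lit 369) (nat_lit 147))))))))
noncomputable def xc242 : XT := (XT.nd (nat_lit 1794) (nat_lit 684) (nat_lit 0) (XT.nd (nat_lit 858) (nat_lit 1292) (nat_lit 0) (XT.nd (nat_lit 390) (nat_lit 912) (nat_lit 0) (XT.nd (nat_lit 156) (nat_lit 684) (nat_lit 0) (XT.nd (nat_lit 78) (nat_lit 0) (nat_lit 0) (XT.lf (nat_lit 0) (nat_lit 55094291040) (nat_lit 304) (nat_lit 97958504691) (nat_lit 380) (nat_lit 27360516886) (nat_lit 76) (nat_lit 5) (nat_lit 80) (nat_lit 5) (nat_lit 81) (nat_lit 5) (nat_lit 385) (nat_lit 369) (nat_lit 146)) (XT.lf (nat_lit 0) (nat_lit 151106785014) (nat_lit 304) (nat_lit 26314524322) (nat_lit 380) (nat_lit 8222530652) (nat_lit 76) (nat_lit 5) (nat_lit 80) (nat_lit 5) (nat_lit 81) (nat_lit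 5) (nat_lit 386) (nat_lit 369) (nat_lit 145))) (XT.nd (nat_lit 78) (nat_lit 304) (nat_lit 0) (XT.lf (nat_lit 0) (nat_lit 13252325412) (nat_lit 380) (nat_lit 129258318086) (nat_lit 76) (nat_lit 48527984374) (nat_lit 71) (nat_lit 5) (nat_lit 76) (nat_lit 5) (nat_lit 72) (nat_lit 5) (nat_lit 387) (nat_lit 369) (nat_lit 144)) (XT.nd (nat_lit 78) (nat_lit 304) (nat_lit 0) (XT.lf (nat_lit 0) (nat_lit 36550329107) (nat_lit 380) (nat_lit 33137247439) (nat_lit 76) (nat_lit 126957552207) (nat_lit 71) (nat_lit 5) (nat_lit 76) (nat_lit 5) (nat_lit 72) (nat_lit 5) (nat_lit 388) (nat_lit 369) (nat_lit 143)) (XT.lf (nat_lit 0) (nat_lit 62230208594) (nat_lit 380) (nat_lit 132569858977) (nat_lit 76) (nat_lit 7671038490) (nat_lit 67) (nat_lit 5) (nat_lit 72) (nat_lit 5) (nat_lit 68) (nat_lit 5) (nat_lit 389) (nat_lit 369) (nat_lit 142))))) (XT.nd (nat_lit 234) (nat_lit 608) (nat_lit 0) (XT.nd (nat_lit 78)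 (nat_lit 304) (nat_lit 0) (XT.lf (nat_lit 0) (nat_lit 90906766826) (nat_lit 380) (nat_lit 30469980198) (nat_lit 76) (nat_lit 87126001129) (nat_lit 67) (nat_lit 5) (nat_lit 72) (nat_lit 5) (nat_lit 68) (nat_lit 5) (nat_lit 390) (nat_lit 369) (nat_lit 141)) (XT.nd (nat_lit 78) (nat_lit 0) (nat_lit 0) (XT.lf (nat_lit 0) (nat_lit 79271941858) (nat_lit 304) (nat_lit 42982744703) (nat_lit 380) (nat_lit 92519409256) (nat_lit 63) (nat_lit 5) (nat_lit 67) (nat_lit 5) (nat_lit 68) (nat_lit 5) (nat_lit 391) (nat_lit 369) (nat_lit 140)) (XT.lf (nat_lit 0) (nat_lit 156308431659) (nat_lit 380) (nat_lit 26397077849) (nat_lit 76) (nat_lit 38596580030) (nat_lit 63) (nat_lit 5) (nat_lit 68) (nat_lit 5) (nat_lit 64) (nat_lit 5) (nat_lit 392) (nat_lit 369) (nat_lit 139)))) (XT.nd (nat_lit 78) (nat_lit 380) (nat_lit 0) (XT.lf (nat_lit 0) (nat_lit 90350244975) (nat_lit 228) (nat_lit 103829760092) (nat_lit 304)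 (nat_lit 33870720960) (nat_lit 60) (nat_lit 5) (nat_lit 63) (nat_lit 5) (nat_lit 64) (nat_lit 5) (nat_lit 393) (nat_lit 369) (nat_lit 138)) (XT.nd (nat_lit 78) (nat_lit 380) (nat_lit 0) (XT.lf (nat_lit 0) (nat_lit 213851239181) (nat_lit 228) (nat_lit 20540853864) (nat_lit 304) (nat_lit 722354629) (nat_lit 60) (nat_lit 5) (nat_lit 63) (nat_lit 5) (nat_lit 64) (nat_lit 5) (nat_lit 394) (nat_lit 369) (nat_lit 137)) (XT.lf (nat_lit 0) (nat_lit 35692799266) (nat_lit 380) (nat_lit 139718280071) (nat_lit 76) (nat_lit 66958656695) (nat_lit 55) (nat_lit 5) (nat_lit 60) (nat_lit 5) (nat_lit 56) (nat_lit 5) (nat_lit 395) (nat_lit 369) (nat_lit 136)))))) (XT.nd (nat_lit 468) (nat_lit 608) (nat_lit 0) (XT.nd (nat_lit 234) (nat_lit 456) (nat_lit 0) (XT.nd (nat_lit 78) (nat_lit 228) (nat_lit 0) (XT.lf (nat_lit 0) (nat_lit 74607070941) (nat_lit 380) (nat_lit 16824341224) (nat_lit 76) (nat_lit 158520652865)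 (nat_lit 55) (nat_lit 5) (nat_lit 60) (nat_lit 5) (nat_lit 56) (nat_lit 5) (nat_lit 396) (nat_lit 369) (nat_lit 135)) (XT.nd (nat_lit 78) (nat_lit 0) (nat_lit 0) (XT.lf (nat_lit 0) (nat_lit 115924466931) (nat_lit 228) (nat_lit 1352394673) (nat_lit 304) (nat_lit 140546158708) (nat_lit 52) (nat_lit 5) (nat_lit 55) (nat_lit 5) (nat_lit 56) (nat_lit 5) (nat_lit 397) (nat_lit 369) (nat_lit 134)) (XT.lf (nat_lit 0) (nat_lit 163825233424) (nat_lit 304) (nat_lit 11638856610) (nat_lit 76) (nat_lit 90536178844) (nat_lit 52) (nat_lit 5) (nat_lit 56) (nat_lit 5) (nat_lit 53) (nat_lit 5) (nat_lit 398) (nat_lit 369) (nat_lit 133)))) (XT.nd (nat_lit 78) (nat_lit 228) (nat_lit 0) (XT.lf (nat_lit 0) (nat_lit 129248276310) (nat_lit 228) (nat_lit 85492752188) (nat_lit 304) (nat_lit 59743351236) (nat_lit 49) (nat_lit 5) (nat_lit 52) (nat_lit 5) (nat_lit 53) (nat_lit 5) (nat_lit 399) (nat_lit 369) (nat_lit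 132)) (XT.nd (nat_lit 78) (nat_lit 228) (nat_lit 0) (XT.lf (nat_lit 0) (nat_lit 268543021135) (nat_lit 304) (nat_lit 5942522030) (nat_lit 76) (nat_lit 8890132669) (nat_lit 49) (nat_lit 5) (nat_lit 53) (nat_lit 5) (nat_lit 50) (nat_lit 5) (nat_lit 400) (nat_lit 369) (nat_lit 131)) (XT.lf (nat_lit 0) (nat_lit 34990707987) (nat_lit 228) (nat_lit 149586584756) (nat_lit 76) (nat_lit 107923926617) (nat_lit 46) (nat_lit 5) (nat_lit 49) (nat_lit 5) (nat_lit 47) (nat_lit 5) (nat_lit 401) (nat_lit 369) (nat_lit 130))))) (XT.nd (nat_lit 234) (nat_lit 380) (nat_lit 0) (XT.nd (nat_lit 78) (nat_lit 228) (nat_lit 0) (XT.lf (nat_lit 0) (nat_lit 86908967099) (nat_lit 228) (nat_lit 2901983043) (nat_lit 76) (nat_lit 212254821947) (nat_lit 46) (nat_lit 5) (nat_lit 49) (nat_lit 5) (nat_lit 47) (nat_lit 5) (nat_lit 402) (nat_lit 369) (nat_lit 129)) (XT.nd (nat_lit 78) (nat_lit 0) (nat_lit 0) (XT.lf (nat_lit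 0) (nat_lit 144051725507) (nat_lit 304) (nat_lit 156064661114) (nat_lit 76) (nat_lit 11860736591) (nat_lit 43) (nat_lit 5) (nat_lit 47) (nat_lit 5) (nat_lit 44) (nat_lit 5) (nat_lit 403) (nat_lit 369) (nat_lit 128)) (XT.lf (nat_lit 0) (nat_lit 205573803689) (nat_lit 304) (nat_lit 1086443480) (nat_lit 76) (nat_lit 115647685701) (nat_lit 43) (nat_lit 5) (nat_lit 47) (nat_lit 5) (nat_lit 44) (nat_lit 5) (nat_lit 404) (nat_lit 369) (nat_lit 127)))) (XT.nd (nat_lit 78) (nat_lit 228) (nat_lit 0) (XT.lf (nat_lit 0) (nat_lit 166985135674) (nat_lit 152) (nat_lit 105793878931) (nat_lit 228) (nat_lit 60245917032) (nat_lit 41) (nat_lit 5) (nat_lit 43) (nat_lit 5) (nat_lit 44) (nat_lit 5) (nat_lit 405) (nat_lit 369) (nat_lit 126)) (XT.nd (nat_lit 78) (nat_lit 228) (nat_lit 0) (XT.lf (nat_lit 0) (nat_lit 343364919377) (nat_lit 228) (nat_lit 781075308) (nat_lit 76) (nat_lit 130764057) (nat_lit 41) (nat_lit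 5) (nat_lit 44) (nat_lit 5) (nat_lit 42) (nat_lit 5) (nat_lit 406) (nat_lit 369) (nat_lit 125)) (XT.lf (nat_lit 0) (nat_lit 63990176022) (nat_lit 228) (nat_lit 180238277403) (nat_lit 76) (nat_lit 111586497997) (nat_lit 38) (nat_lit 5) (nat_lit 41) (nat_lit 5) (nat_lit 39) (nat_lit 5) (nat_lit 407) (nat_lit 369) (nat_lit 124))))))) (XT.nd (nat_lit 44226) (nat_lit 0) (nat_lit 3876) (XT.nd (nat_lit 390) (nat_lit 304) (nat_lit 0) (XT.nd (nat_lit 156) (nat_lit 228) (nat_lit 0) (XT.nd (nat_lit 78) (nat_lit 152) (nat_lit 0) (XT.lf (nat_lit 0) (nat_lit 132120021401) (nat_lit 228) (nat_lit 7165242271) (nat_lit 76) (nat_lit 228643374060) (nat_lit 38) (nat_lit 5) (nat_lit 41) (nat_lit 5) (nat_lit 39) (nat_lit 5) (nat_lit 408) (nat_lit 369) (nat_lit 123)) (XT.lf (nat_lit 0) (nat_lit 180333123258) (nat_lit 152) (nat_lit 26138672908) (nat_lit 228) (nat_lit 174035440389) (nat_lit 36) (nat_lit 5) (nat_lit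 38) (nat_lit 5) (nat_lit 39) (nat_lit 5) (nat_lit 409) (nat_lit 369) (nat_lit 122))) (XT.nd (nat_lit 78) (nat_lit 228) (nat_lit 0) (XT.lf (nat_lit 0) (nat_lit 286111192685) (nat_lit 228) (nat_lit 17702391926) (nat_lit 76) (nat_lit 89822679108) (nat_lit 36) (nat_lit 5) (nat_lit 39) (nat_lit 5) (nat_lit 37) (nat_lit 5) (nat_lit 410) (nat_lit 369) (nat_lit 121)) (XT.nd (nat_lit 78) (nat_lit 76) (nat_lit 0) (XT.lf (nat_lit 0) (nat_lit 179199822753) (nat_lit 152) (nat_lit 193758986430) (nat_lit 228) (nat_lit 34301620599) (nat_lit 34) (nat_lit 5) (nat_lit 36) (nat_lit 5) (nat_lit 37) (nat_lit 5) (nat_lit 411) (nat_lit 369) (nat_lit 120)) (XT.lf (nat_lit 0) (nat_lit 41524729921) (nat_lit 228) (nat_lit 35658937576) (nat_lit 76) (nat_lit 344333662216) (nat_lit 33) (nat_lit 5) (nat_lit 36) (nat_lit 5) (nat_lit 34) (nat_lit 5) (nat_lit 412) (nat_lit 369) (nat_lit 119))))) (XT.nd (nat_lit 43602) (nat_lit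 0) (nat_lit 4636) (XT.nd (nat_lit 234) (nat_lit 152) (nat_lit 0) (XT.lf (nat_lit 0) (nat_lit 123422852389) (nat_lit 228) (nat_lit 265801821608) (nat_lit 76) (nat_lit 47062623913) (nat_lit 31) (nat_lit 5) (nat_lit 34) (nat_lit 5) (nat_lit 32) (nat_lit 5) (nat_lit 413) (nat_lit 369) (nat_lit 118)) (XT.nd (nat_lit 43290) (nat_lit 0) (nat_lit 5396) (XT.lf (nat_lit 0) (nat_lit 379804936653) (nat_lit 152) (nat_lit 26564283731) (nat_lit 228) (nat_lit 78215851474) (nat_lit 29) (nat_lit 5) (nat_lit 31) (nat_lit 5) (nat_lit 32) (nat_lit 5) (nat_lit 416) (nat_lit 369) (nat_lit 115)) (XT.lf (nat_lit 0) (nat_lit 30503331943) (nat_lit 0) (nat_lit 30503331943) (nat_lit 684) (nat_lit 1086255263) (nat_lit 100) (nat_lit 5) (nat_lit 100) (nat_lit 3) (nat_lit 109) (nat_lit 3) (nat_lit 370) (nat_lit 370) (nat_lit 160)))) (XT.nd (nat_lit 78) (nat_lit 760) (nat_lit 0) (XT.lf (nat_lit 0) (nat_lit 121700851827)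 (nat_lit 0) (nat_lit 3366811985) (nat_lit 684) (nat_lit 2222614145) (nat_lit 100) (nat_lit 5) (nat_lit 100) (nat_lit 3) (nat_lit 109) (nat_lit 3) (nat_lit 371) (nat_lit 370) (nat_lit 159)) (XT.nd (nat_lit 78) (nat_lit 760) (nat_lit 0) (XT.lf (nat_lit 76) (nat_lit 55772380490) (nat_lit 0) (nat_lit 74265195327) (nat_lit 760) (nat_lit 424221216) (nat_lit 101) (nat_lit 5) (nat_lit 100) (nat_lit 5) (nat_lit 110) (nat_lit 5) (nat_lit 372) (nat_lit 370) (nat_lit 158)) (XT.lf (nat_lit 0) (nat_lit 1568387667) (nat_lit 760) (nat_lit 13470582983) (nat_lit 836) (nat_lit 118744221024) (nat_lit 90) (nat_lit 5) (nat_lit 100) (nat_lit 5) (nat_lit 101) (nat_lit 5) (nat_lit 373) (nat_lit 370) (nat_lit 157)))))) (XT.nd (nat_lit 468) (nat_lit 836) (nat_lit 0) (XT.nd (nat_lit 234) (nat_lit 0) (nat_lit 76) (XT.nd (nat_lit 78) (nat_lit 0) (nat_lit 0) (XT.lf (nat_lit 0) (nat_lit 5215191482) (nat_lit 760) (nat_lit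 85497178356) (nat_lit 836) (nat_lit 46479497774) (nat_lit 91) (nat_lit 5) (nat_lit 101) (nat_lit 5) (nat_lit 102) (nat_lit 5) (nat_lit 374) (nat_lit 370) (nat_lit 156)) (XT.nd (nat_lit 78) (nat_lit 0) (nat_lit 76) (XT.lf (nat_lit 0) (nat_lit 9522520285) (nat_lit 760) (nat_lit 20424111072) (nat_lit 836) (nat_lit 110800437072) (nat_lit 91) (nat_lit 5) (nat_lit 101) (nat_lit 5) (nat_lit 102) (nat_lit 5) (nat_lit 375) (nat_lit 370) (nat_lit 155)) (XT.lf (nat_lit 0) (nat_lit 15358896097) (nat_lit 760) (nat_lit 95496349757) (nat_lit 836) (nat_lit 33559099714) (nat_lit 92) (nat_lit 5) (nat_lit 102) (nat_lit 5) (nat_lit 103) (nat_lit 5) (nat_lit 376) (nat_lit 370) (nat_lit 154)))) (XT.nd (nat_lit 78) (nat_lit 0) (nat_lit 76) (XT.lf (nat_lit 0) (nat_lit 22329375060) (nat_lit 760) (nat_lit 26308158913) (nat_lit 836) (nat_lit 99585338667) (nat_lit 92) (nat_lit 5) (nat_lit 102) (nat_lit 5) (nat_lit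 103) (nat_lit 5) (nat_lit 377) (nat_lit 370) (nat_lit 153)) (XT.nd (nat_lit 78) (nat_lit 0) (nat_lit 0) (XT.lf (nat_lit 0) (nat_lit 30668436810) (nat_lit 760) (nat_lit 104585833501) (nat_lit 836) (nat_lit 16916553093) (nat_lit 93) (nat_lit 5) (nat_lit 103) (nat_lit 5) (nat_lit 104) (nat_lit 5) (nat_lit 378) (nat_lit 370) (nat_lit 152)) (XT.lf (nat_lit 0) (nat_lit 40674444663) (nat_lit 760) (nat_lit 31012535113) (nat_lit 836) (nat_lit 84566692545) (nat_lit 93) (nat_lit 5) (nat_lit 103) (nat_lit 5) (nat_lit 104) (nat_lit 5) (nat_lit 379) (nat_lit 370) (nat_lit 151))))) (XT.nd (nat_lit 234) (nat_lit 380) (nat_lit 0) (XT.nd (nat_lit 78) (nat_lit 608) (nat_lit 0) (XT.lf (nat_lit 76) (nat_lit 47768159097) (nat_lit 0) (nat_lit 4158208678) (nat_lit 836) (nat_lit 108577015420) (nat_lit 94) (nat_lit 5) (nat_lit 93) (nat_lit 5) (nat_lit 104) (nat_lit 5) (nat_lit 380) (nat_lit 370) (nat_lit 150))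 (XT.nd (nat_lit 78) (nat_lit 684) (nat_lit 0) (XT.lf (nat_lit 0) (nat_lit 65316643865) (nat_lit 760) (nat_lit 34425619037) (nat_lit 76) (nat_lit 65144529112) (nat_lit 94) (nat_lit 5) (nat_lit 104) (nat_lit 5) (nat_lit 95) (nat_lit 5) (nat_lit 381) (nat_lit 370) (nat_lit 149)) (XT.lf (nat_lit 0) (nat_lit 49309358265) (nat_lit 684) (nat_lit 30904935123) (nat_lit 760) (nat_lit 89233185136) (nat_lit 85) (nat_lit 5) (nat_lit 94) (nat_lit 5) (nat_lit 95) (nat_lit 5) (nat_lit 382) (nat_lit 370) (nat_lit 148)))) (XT.nd (nat_lit 78) (nat_lit 380) (nat_lit 0) (XT.lf (nat_lit 0) (nat_lit 97095206453) (nat_lit 760) (nat_lit 36436464272) (nat_lit 76) (nat_lit 40642609799) (nat_lit 85) (nat_lit 5) (nat_lit 95) (nat_lit 5) (nat_lit 86) (nat_lit 5) (nat_lit 383) (nat_lit 370) (nat_lit 147)) (XT.nd (nat_lit 78) (nat_lit 0) (nat_lit 0) (XT.lf (nat_lit 0) (nat_lit 52627911321) (nat_lit 380) (nat_lit 63520409696)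 (nat_lit 456) (nat_lit 62922694025) (nat_lit 80) (nat_lit 5) (nat_lit 85) (nat_lit 5) (nat_lit 86) (nat_lit 5) (nat_lit 384) (nat_lit 370) (nat_lit 146)) (XT.lf (nat_lit 0) (nat_lit 136937123711) (nat_lit 456) (nat_lit 36937497180) (nat_lit 76) (nat_lit 10298813972) (nat_lit 80) (nat_lit 5) (nat_lit 86) (nat_lit 5) (nat_lit 81) (nat_lit 5) (nat_lit 385) (nat_lit 370) (nat_lit 145))))))))
noncomputable def xc243 : XT := (XT.nd (nat_lit 1794) (nat_lit 380) (nat_lit 0) (XT.nd (nat_lit 858) (nat_lit 1292) (nat_lit 0) (XT.nd (nat_lit 390) (nat_lit 912) (nat_lit 0) (XT.nd (nat_lit 156) (nat_lit 684) (nat_lit 0) (XT.nd (nat_lit 78) (nat_lit 0) (nat_lit 0) (XT.lf (nat_lit 0) (nat_lit 57853603399) (nat_lit 304) (nat_lit 102856198579) (nat_lit 380) (nat_lit 28723952116) (nat_lit 76) (nat_lit 5) (nat_lit 80) (nat_lit 5) (nat_lit 81) (nat_lit 5) (nat_lit 386) (nat_lit 370) (nat_lit 144)) (XT.lf (nat_lit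 0) (nat_lit 158666503129) (nat_lit 304) (nat_lit 27630030208) (nat_lit 380) (nat_lit 8629285172) (nat_lit 76) (nat_lit 5) (nat_lit 80) (nat_lit 5) (nat_lit 81) (nat_lit 5) (nat_lit 387) (nat_lit 370) (nat_lit 143))) (XT.nd (nat_lit 78) (nat_lit 304) (nat_lit 0) (XT.lf (nat_lit 0) (nat_lit 13919047212) (nat_lit 380) (nat_lit 135716578317) (nat_lit 76) (nat_lit 50954723423) (nat_lit 71) (nat_lit 5) (nat_lit 76) (nat_lit 5) (nat_lit 72) (nat_lit 5) (nat_lit 388) (nat_lit 370) (nat_lit 142)) (XT.nd (nat_lit 78) (nat_lit 304) (nat_lit 0) (XT.lf (nat_lit 0) (nat_lit 38381755590) (nat_lit 380) (nat_lit 34789675837) (nat_lit 76) (nat_lit 133305753465) (nat_lit 71) (nat_lit 5) (nat_lit 76) (nat_lit 5) (nat_lit 72) (nat_lit 5) (nat_lit 389) (nat_lit 370) (nat_lit 141)) (XT.lf (nat_lit 0) (nat_lit 65345519877) (nat_lit 380) (nat_lit 139193804209) (nat_lit 76) (nat_lit 8055142667) (nat_lit 67) (nat_lit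 5) (nat_lit 72) (nat_lit 5) (nat_lit 68) (nat_lit 5) (nat_lit 390) (nat_lit 370) (nat_lit 140))))) (XT.nd (nat_lit 234) (nat_lit 608) (nat_lit 0) (XT.nd (nat_lit 78) (nat_lit 304) (nat_lit 0) (XT.lf (nat_lit 0) (nat_lit 95455725028) (nat_lit 380) (nat_lit 31989148049) (nat_lit 76) (nat_lit 91482827139) (nat_lit 67) (nat_lit 5) (nat_lit 72) (nat_lit 5) (nat_lit 68) (nat_lit 5) (nat_lit 391) (nat_lit 370) (nat_lit 139)) (XT.nd (nat_lit 78) (nat_lit 0) (nat_lit 0) (XT.lf (nat_lit 0) (nat_lit 83239800253) (nat_lit 304) (nat_lit 45131134654) (nat_lit 380) (nat_lit 97141685857) (nat_lit 63) (nat_lit 5) (nat_lit 67) (nat_lit 5) (nat_lit 68) (nat_lit 5) (nat_lit 392) (nat_lit 370) (nat_lit 138)) (XT.lf (nat_lit 0) (nat_lit 164127211037) (nat_lit 380) (nat_lit 27712713190) (nat_lit 76) (nat_lit 40527097952) (nat_lit 63) (nat_lit 5) (nat_lit 68) (nat_lit 5) (nat_lit 64) (nat_lit 5) (nat_lit 393)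 (nat_lit 370) (nat_lit 137)))) (XT.nd (nat_lit 78) (nat_lit 380) (nat_lit 0) (XT.lf (nat_lit 0) (nat_lit 94871907734) (nat_lit 228) (nat_lit 109020360288) (nat_lit 304) (nat_lit 35560827414) (nat_lit 60) (nat_lit 5) (nat_lit 63) (nat_lit 5) (nat_lit 64) (nat_lit 5) (nat_lit 394) (nat_lit 370) (nat_lit 136)) (XT.nd (nat_lit 78) (nat_lit 380) (nat_lit 0) (XT.lf (nat_lit 0) (nat_lit 224547754007) (nat_lit 228) (nat_lit 21567051024) (nat_lit 304) (nat_lit 755206080) (nat_lit 60) (nat_lit 5) (nat_lit 63) (nat_lit 5) (nat_lit 64) (nat_lit 5) (nat_lit 395) (nat_lit 370) (nat_lit 135)) (XT.lf (nat_lit 0) (nat_lit 37480527179) (nat_lit 380) (nat_lit 146700056221) (nat_lit 76) (nat_lit 70307481790) (nat_lit 55) (nat_lit 5) (nat_lit 60) (nat_lit 5) (nat_lit 56) (nat_lit 5) (nat_lit 396) (nat_lit 370) (nat_lit 134)))))) (XT.nd (nat_lit 468) (nat_lit 608) (nat_lit 0) (XT.nd (nat_lit 234) (nat_lit 456)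 (nat_lit 0) (XT.nd (nat_lit 78) (nat_lit 228) (nat_lit 0) (XT.lf (nat_lit 0) (nat_lit 78340365392) (nat_lit 380) (nat_lit 17661617472) (nat_lit 76) (nat_lit 166447535280) (nat_lit 55) (nat_lit 5) (nat_lit 60) (nat_lit 5) (nat_lit 56) (nat_lit 5) (nat_lit 397) (nat_lit 370) (nat_lit 133)) (XT.nd (nat_lit 78) (nat_lit 0) (nat_lit 0) (XT.lf (nat_lit 0) (nat_lit 121724567530) (nat_lit 228) (nat_lit 1418998551) (nat_lit 304) (nat_lit 147570459232) (nat_lit 52) (nat_lit 5) (nat_lit 55) (nat_lit 5) (nat_lit 56) (nat_lit 5) (nat_lit 398) (nat_lit 370) (nat_lit 132)) (XT.lf (nat_lit 0) (nat_lit 172019235339) (nat_lit 304) (nat_lit 12216982864) (nat_lit 76) (nat_lit 95063924302) (nat_lit 52) (nat_lit 5) (nat_lit 56) (nat_lit 5) (nat_lit 53) (nat_lit 5) (nat_lit 399) (nat_lit 370) (nat_lit 131)))) (XT.nd (nat_lit 78) (nat_lit 228) (nat_lit 0) (XT.lf (nat_lit 0) (nat_lit 135714445145) (nat_lit 228)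 (nat_lit 89766303161) (nat_lit 304) (nat_lit 62727714325) (nat_lit 49) (nat_lit 5) (nat_lit 52) (nat_lit 5) (nat_lit 53) (nat_lit 5) (nat_lit 400) (nat_lit 370) (nat_lit 130)) (XT.nd (nat_lit 78) (nat_lit 228) (nat_lit 0) (XT.lf (nat_lit 0) (nat_lit 281972729666) (nat_lit 304) (nat_lit 6235958471) (nat_lit 76) (nat_lit 9335641072) (nat_lit 49) (nat_lit 5) (nat_lit 53) (nat_lit 5) (nat_lit 50) (nat_lit 5) (nat_lit 401) (nat_lit 370) (nat_lit 129)) (XT.lf (nat_lit 0) (nat_lit 36742778957) (nat_lit 228) (nat_lit 157062197698) (nat_lit 76) (nat_lit 113321174587) (nat_lit 46) (nat_lit 5) (nat_lit 49) (nat_lit 5) (nat_lit 47) (nat_lit 5) (nat_lit 402) (nat_lit 370) (nat_lit 128))))) (XT.nd (nat_lit 234) (nat_lit 380) (nat_lit 0) (XT.nd (nat_lit 78) (nat_lit 228) (nat_lit 0) (XT.lf (nat_lit 0) (nat_lit 91256830283) (nat_lit 228) (nat_lit 3043542866) (nat_lit 76) (nat_lit 222868564605) (nat_lit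 46) (nat_lit 5) (nat_lit 49) (nat_lit 5) (nat_lit 47) (nat_lit 5) (nat_lit 403) (nat_lit 370) (nat_lit 127)) (XT.nd (nat_lit 78) (nat_lit 0) (nat_lit 0) (XT.lf (nat_lit 0) (nat_lit 151256683599) (nat_lit 304) (nat_lit 163864309735) (nat_lit 76) (nat_lit 12454865354) (nat_lit 43) (nat_lit 5) (nat_lit 47) (nat_lit 5) (nat_lit 44) (nat_lit 5) (nat_lit 404) (nat_lit 370) (nat_lit 126)) (XT.lf (nat_lit 0) (nat_lit 215854752746) (nat_lit 304) (nat_lit 1137351907) (nat_lit 76) (nat_lit 121431109923) (nat_lit 43) (nat_lit 5) (nat_lit 47) (nat_lit 5) (nat_lit 44) (nat_lit 5) (nat_lit 405) (nat_lit 370) (nat_lit 125)))) (XT.nd (nat_lit 78) (nat_lit 228) (nat_lit 0) (XT.lf (nat_lit 0) (nat_lit 175337751144) (nat_lit 152) (nat_lit 111082417937) (nat_lit 228) (nat_lit 63255897052) (nat_lit 41) (nat_lit 5) (nat_lit 43) (nat_lit 5) (nat_lit 44) (nat_lit 5) (nat_lit 406) (nat_lit 370) (nat_lit 124)) (XT.nd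 (nat_lit 78) (nat_lit 228) (nat_lit 0) (XT.lf (nat_lit 0) (nat_lit 360535281325) (nat_lit 228) (nat_lit 816840750) (nat_lit 76) (nat_lit 138366998) (nat_lit 41) (nat_lit 5) (nat_lit 44) (nat_lit 5) (nat_lit 42) (nat_lit 5) (nat_lit 407) (nat_lit 370) (nat_lit 123)) (XT.lf (nat_lit 0) (nat_lit 67191786084) (nat_lit 228) (nat_lit 189246884870) (nat_lit 76) (nat_lit 117166921337) (nat_lit 38) (nat_lit 5) (nat_lit 41) (nat_lit 5) (nat_lit 39) (nat_lit 5) (nat_lit 408) (nat_lit 370) (nat_lit 122))))))) (XT.nd (nat_lit 44382) (nat_lit 0) (nat_lit 3268) (XT.nd (nat_lit 43914) (nat_lit 0) (nat_lit 4332) (XT.nd (nat_lit 156) (nat_lit 228) (nat_lit 0) (XT.nd (nat_lit 78) (nat_lit 152) (nat_lit 0) (XT.lf (nat_lit 0) (nat_lit 138728023672) (nat_lit 228) (nat_lit 7520355430) (nat_lit 76) (nat_lit 240076588896) (nat_lit 38) (nat_lit 5) (nat_lit 41) (nat_lit 5) (nat_lit 39) (nat_lit 5) (nat_lit 409)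 (nat_lit 370) (nat_lit 121)) (XT.lf (nat_lit 0) (nat_lit 189352877587) (nat_lit 152) (nat_lit 27444462664) (nat_lit 228) (nat_lit 182735158931) (nat_lit 36) (nat_lit 5) (nat_lit 38) (nat_lit 5) (nat_lit 39) (nat_lit 5) (nat_lit 410) (nat_lit 370) (nat_lit 120))) (XT.nd (nat_lit 78) (nat_lit 228) (nat_lit 0) (XT.lf (nat_lit 0) (nat_lit 300418630545) (nat_lit 228) (nat_lit 18584483420) (nat_lit 76) (nat_lit 94314867613) (nat_lit 36) (nat_lit 5) (nat_lit 39) (nat_lit 5) (nat_lit 37) (nat_lit 5) (nat_lit 411) (nat_lit 370) (nat_lit 119)) (XT.nd (nat_lit 78) (nat_lit 76) (nat_lit 0) (XT.lf (nat_lit 0) (nat_lit 188162793153) (nat_lit 152) (nat_lit 203445791789) (nat_lit 228) (nat_lit 36014773215) (nat_lit 34) (nat_lit 5) (nat_lit 36) (nat_lit 5) (nat_lit 37) (nat_lit 5) (nat_lit 412) (nat_lit 370) (nat_lit 118)) (XT.lf (nat_lit 0) (nat_lit 43602744220) (nat_lit 228) (nat_lit 37438987057) (nat_lit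 76) (nat_lit 361551374809) (nat_lit 33) (nat_lit 5) (nat_lit 36) (nat_lit 5) (nat_lit 34) (nat_lit 5) (nat_lit 413) (nat_lit 370) (nat_lit 117))))) (XT.nd (nat_lit 234) (nat_lit 760) (nat_lit 0) (XT.nd (nat_lit 78) (nat_lit 0) (nat_lit 0) (XT.lf (nat_lit 0) (nat_lit 32030468715) (nat_lit 0) (nat_lit 32030468715) (nat_lit 684) (nat_lit 1136424598) (nat_lit 100) (nat_lit 5) (nat_lit 100) (nat_lit 3) (nat_lit 109) (nat_lit 3) (nat_lit 371) (nat_lit 371) (nat_lit 158)) (XT.nd (nat_lit 78) (nat_lit 0) (nat_lit 0) (XT.lf (nat_lit 0) (nat_lit 127789647133) (nat_lit 0) (nat_lit 3538905298) (nat_lit 684) (nat_lit 2325852608) (nat_lit 100) (nat_lit 5) (nat_lit 100) (nat_lit 3) (nat_lit 109) (nat_lit 3) (nat_lit 372) (nat_lit 371) (nat_lit 157)) (XT.lf (nat_lit 76) (nat_lit 58565129923) (nat_lit 0) (nat_lit 77981481399) (nat_lit 760) (nat_lit 437906733) (nat_lit 101) (nat_lit 5) (nat_lit 100) (nat_lit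 5) (nat_lit 110) (nat_lit 5) (nat_lit 373) (nat_lit 371) (nat_lit 156)))) (XT.nd (nat_lit 78) (nat_lit 0) (nat_lit 76) (XT.lf (nat_lit 0) (nat_lit 1653744841) (nat_lit 760) (nat_lit 14139939043) (nat_lit 836) (nat_lit 124678310513) (nat_lit 90) (nat_lit 5) (nat_lit 100) (nat_lit 5) (nat_lit 101) (nat_lit 5) (nat_lit 374) (nat_lit 371) (nat_lit 155)) (XT.nd (nat_lit 78) (nat_lit 0) (nat_lit 0) (XT.lf (nat_lit 0) (nat_lit 5482582520) (nat_lit 760) (nat_lit 89767548360) (nat_lit 836) (nat_lit 48800989042) (nat_lit 91) (nat_lit 5) (nat_lit 101) (nat_lit 5) (nat_lit 102) (nat_lit 5) (nat_lit 375) (nat_lit 371) (nat_lit 154)) (XT.lf (nat_lit 0) (nat_lit 10004961979) (nat_lit 760) (nat_lit 21441041470) (nat_lit 836) (nat_lit 116338093572) (nat_lit 91) (nat_lit 5) (nat_lit 101) (nat_lit 5) (nat_lit 102) (nat_lit 5) (nat_lit 376) (nat_lit 371) (nat_lit 153)))))) (XT.nd (nat_lit 468) (nat_lit 1216)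 (nat_lit 0) (XT.nd (nat_lit 234) (nat_lit 0) (nat_lit 76) (XT.nd (nat_lit 78) (nat_lit 0) (nat_lit 0) (XT.lf (nat_lit 0) (nat_lit 16132892241) (nat_lit 760) (nat_lit 100266619133) (nat_lit 836) (nat_lit 35235240291) (nat_lit 92) (nat_lit 5) (nat_lit 102) (nat_lit 5) (nat_lit 103) (nat_lit 5) (nat_lit 377) (nat_lit 371) (nat_lit 152)) (XT.nd (nat_lit 78) (nat_lit 0) (nat_lit 76) (XT.lf (nat_lit 0) (nat_lit 23451606993) (nat_lit 760) (nat_lit 27619235324) (nat_lit 836) (nat_lit 104562877591) (nat_lit 92) (nat_lit 5) (nat_lit 102) (nat_lit 5) (nat_lit 103) (nat_lit 5) (nat_lit 378) (nat_lit 371) (nat_lit 151)) (XT.lf (nat_lit 0) (nat_lit 32207393733) (nat_lit 760) (nat_lit 109810557730) (nat_lit 836) (nat_lit 17761128542) (nat_lit 93) (nat_lit 5) (nat_lit 103) (nat_lit 5) (nat_lit 104) (nat_lit 5) (nat_lit 379) (nat_lit 371) (nat_lit 150)))) (XT.nd (nat_lit 78) (nat_lit 0) (nat_lit 0) (XT.lf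 (nat_lit 0) (nat_lit 42713438404) (nat_lit 760) (nat_lit 32558811920) (nat_lit 836) (nat_lit 88793834597) (nat_lit 93) (nat_lit 5) (nat_lit 103) (nat_lit 5) (nat_lit 104) (nat_lit 5) (nat_lit 380) (nat_lit 371) (nat_lit 149)) (XT.nd (nat_lit 78) (nat_lit 0) (nat_lit 76) (XT.lf (nat_lit 76) (nat_lit 50160846840) (nat_lit 0) (nat_lit 4366926627) (nat_lit 836) (nat_lit 114000517437) (nat_lit 94) (nat_lit 5) (nat_lit 93) (nat_lit 5) (nat_lit 104) (nat_lit 5) (nat_lit 381) (nat_lit 371) (nat_lit 148)) (XT.lf (nat_lit 0) (nat_lit 68587309101) (nat_lit 760) (nat_lit 36142562992) (nat_lit 76) (nat_lit 68401011120) (nat_lit 94) (nat_lit 5) (nat_lit 104) (nat_lit 5) (nat_lit 95) (nat_lit 5) (nat_lit 382) (nat_lit 371) (nat_lit 147))))) (XT.nd (nat_lit 234) (nat_lit 304) (nat_lit 0) (XT.nd (nat_lit 78) (nat_lit 380) (nat_lit 0) (XT.lf (nat_lit 0) (nat_lit 51779093224) (nat_lit 684) (nat_lit 32450584352)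 (nat_lit 760) (nat_lit 93689934970) (nat_lit 85) (nat_lit 5) (nat_lit 94) (nat_lit 5) (nat_lit 95) (nat_lit 5) (nat_lit 383) (nat_lit 371) (nat_lit 146)) (XT.nd (nat_lit 78) (nat_lit 380) (nat_lit 0) (XT.lf (nat_lit 0) (nat_lit 101954407952) (nat_lit 760) (nat_lit 38253989167) (nat_lit 76) (nat_lit 42674369250) (nat_lit 85) (nat_lit 5) (nat_lit 95) (nat_lit 5) (nat_lit 86) (nat_lit 5) (nat_lit 384) (nat_lit 371) (nat_lit 145)) (XT.lf (nat_lit 0) (nat_lit 55263535877) (nat_lit 380) (nat_lit 66696496908) (nat_lit 456) (nat_lit 66064312392) (nat_lit 80) (nat_lit 5) (nat_lit 85) (nat_lit 5) (nat_lit 86) (nat_lit 5) (nat_lit 385) (nat_lit 371) (nat_lit 144)))) (XT.nd (nat_lit 78) (nat_lit 304) (nat_lit 0) (XT.lf (nat_lit 0) (nat_lit 143788070064) (nat_lit 456) (nat_lit 38780133326) (nat_lit 76) (nat_lit 10813693155) (nat_lit 80) (nat_lit 5) (nat_lit 86) (nat_lit 5) (nat_lit 81) (nat_lit 5)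 (nat_lit 386) (nat_lit 371) (nat_lit 143)) (XT.nd (nat_lit 78) (nat_lit 0) (nat_lit 0) (XT.lf (nat_lit 0) (nat_lit 60750453915) (nat_lit 304) (nat_lit 107998798670) (nat_lit 380) (nat_lit 30155985899) (nat_lit 76) (nat_lit 5) (nat_lit 80) (nat_lit 5) (nat_lit 81) (nat_lit 5) (nat_lit 387) (nat_lit 371) (nat_lit 142)) (XT.lf (nat_lit 0) (nat_lit 166603800044) (nat_lit 304) (nat_lit 29011331873) (nat_lit 380) (nat_lit 9056783885) (nat_lit 76) (nat_lit 5) (nat_lit 80) (nat_lit 5) (nat_lit 81) (nat_lit 5) (nat_lit 388) (nat_lit 371) (nat_lit 141))))))))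
noncomputable def xc244 : XT := (XT.nd (nat_lit 1716) (nat_lit 152) (nat_lit 0) (XT.nd (nat_lit 858) (nat_lit 1064) (nat_lit 0) (XT.nd (nat_lit 390) (nat_lit 836) (nat_lit 0) (XT.nd (nat_lit 156) (nat_lit 608) (nat_lit 0) (XT.nd (nat_lit 78) (nat_lit 0) (nat_lit 0) (XT.lf (nat_lit 0) (nat_lit 14618723409) (nat_lit 380) (nat_lit 142498184400) (nat_lit 76) (nat_lit 53502767830) (nat_lit 71) (nat_lit 5) (nat_lit 76) (nat_lit 5) (nat_lit 72) (nat_lit 5) (nat_lit 389) (nat_lit 371) (nat_lit 140)) (XT.lf (nat_lit 0) (nat_lit 40304389880) (nat_lit 380) (nat_lit 36525137883) (nat_lit 76) (nat_lit 139971334697) (nat_lit 71) (nat_lit 5) (nat_lit 76) (nat_lit 5) (nat_lit 72) (nat_lit 5) (nat_lit 390) (nat_lit 371) (nat_lit 139))) (XT.nd (nat_lit 78) (nat_lit 304) (nat_lit 0) (XT.lf (nat_lit 0) (nat_lit 68616243358) (nat_lit 380) (nat_lit 146149369506) (nat_lit 76) (nat_lit 8458400709) (nat_lit 67)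 (nat_lit 5) (nat_lit 72) (nat_lit 5) (nat_lit 68) (nat_lit 5) (nat_lit 391) (nat_lit 371) (nat_lit 138)) (XT.nd (nat_lit 78) (nat_lit 304) (nat_lit 0) (XT.lf (nat_lit 0) (nat_lit 100231794600) (nat_lit 380) (nat_lit 33584676962) (nat_lit 76) (nat_lit 96057445552) (nat_lit 67) (nat_lit 5) (nat_lit 72) (nat_lit 5) (nat_lit 68) (nat_lit 5) (nat_lit 392) (nat_lit 371) (nat_lit 137)) (XT.lf (nat_lit 0) (nat_lit 87405655392) (nat_lit 304) (nat_lit 47387013578) (nat_lit 380) (nat_lit 101995419709) (nat_lit 63) (nat_lit 5) (nat_lit 67) (nat_lit 5) (nat_lit 68) (nat_lit 5) (nat_lit 393) (nat_lit 371) (nat_lit 136))))) (XT.nd (nat_lit 234) (nat_lit 608) (nat_lit 0) (XT.nd (nat_lit 78) (nat_lit 228) (nat_lit 0) (XT.lf (nat_lit 0) (nat_lit 172336617208) (nat_lit 380) (nat_lit 29094522499) (nat_lit 76) (nat_lit 42554077721) (nat_lit 63) (nat_lit 5) (nat_lit 68) (nat_lit 5) (nat_lit 64) (nat_lit 5)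 (nat_lit 394) (nat_lit 371) (nat_lit 135)) (XT.nd (nat_lit 78) (nat_lit 0) (nat_lit 0) (XT.lf (nat_lit 0) (nat_lit 99619267756) (nat_lit 228) (nat_lit 114470573033) (nat_lit 304) (nat_lit 37335758041) (nat_lit 60) (nat_lit 5) (nat_lit 63) (nat_lit 5) (nat_lit 64) (nat_lit 5) (nat_lit 395) (nat_lit 371) (nat_lit 134)) (XT.lf (nat_lit 0) (nat_lit 235778727074) (nat_lit 228) (nat_lit 22644636653) (nat_lit 304) (nat_lit 790003771) (nat_lit 60) (nat_lit 5) (nat_lit 63) (nat_lit 5) (nat_lit 64) (nat_lit 5) (nat_lit 396) (nat_lit 371) (nat_lit 133)))) (XT.nd (nat_lit 78) (nat_lit 228) (nat_lit 0) (XT.lf (nat_lit 0) (nat_lit 39357354399) (nat_lit 380) (nat_lit 154031305877) (nat_lit 76) (nat_lit 73823665186) (nat_lit 55) (nat_lit 5) (nat_lit 60) (nat_lit 5) (nat_lit 56) (nat_lit 5) (nat_lit 397) (nat_lit 371) (nat_lit 132)) (XT.nd (nat_lit 78) (nat_lit 228) (nat_lit 0) (XT.lf (nat_lit 0) (nat_lit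 82260051149) (nat_lit 380) (nat_lit 18541123912) (nat_lit 76) (nat_lit 174770682812) (nat_lit 55) (nat_lit 5) (nat_lit 60) (nat_lit 5) (nat_lit 56) (nat_lit 5) (nat_lit 398) (nat_lit 371) (nat_lit 131)) (XT.lf (nat_lit 0) (nat_lit 127814312687) (nat_lit 228) (nat_lit 1489027068) (nat_lit 304) (nat_lit 154946254384) (nat_lit 52) (nat_lit 5) (nat_lit 55) (nat_lit 5) (nat_lit 56) (nat_lit 5) (nat_lit 399) (nat_lit 371) (nat_lit 130)))))) (XT.nd (nat_lit 390) (nat_lit 608) (nat_lit 0) (XT.nd (nat_lit 156) (nat_lit 228) (nat_lit 0) (XT.nd (nat_lit 78) (nat_lit 228) (nat_lit 0) (XT.lf (nat_lit 0) (nat_lit 180622682589) (nat_lit 304) (nat_lit 12824370259) (nat_lit 76) (nat_lit 99817969965) (nat_lit 52) (nat_lit 5) (nat_lit 56) (nat_lit 5) (nat_lit 53) (nat_lit 5) (nat_lit 400) (nat_lit 371) (nat_lit 129)) (XT.lf (nat_lit 0) (nat_lit 142503573315) (nat_lit 228) (nat_lit 94253632708) (nat_lit 304)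 (nat_lit 65861556302) (nat_lit 49) (nat_lit 5) (nat_lit 52) (nat_lit 5) (nat_lit 53) (nat_lit 5) (nat_lit 401) (nat_lit 371) (nat_lit 128))) (XT.nd (nat_lit 78) (nat_lit 228) (nat_lit 0) (XT.lf (nat_lit 0) (nat_lit 296073685854) (nat_lit 304) (nat_lit 6544409763) (nat_lit 76) (nat_lit 9803331760) (nat_lit 49) (nat_lit 5) (nat_lit 53) (nat_lit 5) (nat_lit 50) (nat_lit 5) (nat_lit 402) (nat_lit 371) (nat_lit 127)) (XT.nd (nat_lit 78) (nat_lit 0) (nat_lit 0) (XT.lf (nat_lit 0) (nat_lit 38582217742) (nat_lit 228) (nat_lit 164911936794) (nat_lit 76) (nat_lit 118988187184) (nat_lit 46) (nat_lit 5) (nat_lit 49) (nat_lit 5) (nat_lit 47) (nat_lit 5) (nat_lit 403) (nat_lit 371) (nat_lit 126)) (XT.lf (nat_lit 0) (nat_lit 95821862118) (nat_lit 228) (nat_lit 3192509734) (nat_lit 76) (nat_lit 234012901281) (nat_lit 46) (nat_lit 5) (nat_lit 49) (nat_lit 5) (nat_lit 47) (nat_lit 5) (nat_lit 404) (nat_lit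 371) (nat_lit 125))))) (XT.nd (nat_lit 234) (nat_lit 228) (nat_lit 0) (XT.nd (nat_lit 78) (nat_lit 152) (nat_lit 0) (XT.lf (nat_lit 0) (nat_lit 158821669087) (nat_lit 304) (nat_lit 172054274035) (nat_lit 76) (nat_lit 13078599038) (nat_lit 43) (nat_lit 5) (nat_lit 47) (nat_lit 5) (nat_lit 44) (nat_lit 5) (nat_lit 405) (nat_lit 371) (nat_lit 124)) (XT.nd (nat_lit 78) (nat_lit 152) (nat_lit 0) (XT.lf (nat_lit 0) (nat_lit 226649539248) (nat_lit 304) (nat_lit 1191123134) (nat_lit 76) (nat_lit 127503608673) (nat_lit 43) (nat_lit 5) (nat_lit 47) (nat_lit 5) (nat_lit 44) (nat_lit 5) (nat_lit 406) (nat_lit 371) (nat_lit 123)) (XT.lf (nat_lit 0) (nat_lit 184107685129) (nat_lit 152) (nat_lit 116635491269) (nat_lit 228) (nat_lit 66416591377) (nat_lit 41) (nat_lit 5) (nat_lit 43) (nat_lit 5) (nat_lit 44) (nat_lit 5) (nat_lit 407) (nat_lit 371) (nat_lit 122)))) (XT.nd (nat_lit 78) (nat_lit 228) (nat_lit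 0) (XT.lf (nat_lit 0) (nat_lit 378563964647) (nat_lit 228) (nat_lit 854700181) (nat_lit 76) (nat_lit 146251097) (nat_lit 41) (nat_lit 5) (nat_lit 44) (nat_lit 5) (nat_lit 42) (nat_lit 5) (nat_lit 408) (nat_lit 371) (nat_lit 121)) (XT.nd (nat_lit 78) (nat_lit 0) (nat_lit 0) (XT.lf (nat_lit 0) (nat_lit 70553281294) (nat_lit 228) (nat_lit 198706230108) (nat_lit 76) (nat_lit 123026263721) (nat_lit 38) (nat_lit 5) (nat_lit 41) (nat_lit 5) (nat_lit 39) (nat_lit 5) (nat_lit 409) (nat_lit 371) (nat_lit 120)) (XT.lf (nat_lit 0) (nat_lit 145666240004) (nat_lit 228) (nat_lit 7893517006) (nat_lit 76) (nat_lit 252081367214) (nat_lit 38) (nat_lit 5) (nat_lit 41) (nat_lit 5) (nat_lit 39) (nat_lit 5) (nat_lit 410) (nat_lit 371) (nat_lit 119))))))) (XT.nd (nat_lit 44538) (nat_lit 0) (nat_lit 2356) (XT.nd (nat_lit 44070) (nat_lit 0) (nat_lit 4104) (XT.nd (nat_lit 43836) (nat_lit 0) (nat_lit 4864) (XT.nd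 (nat_lit 78) (nat_lit 0) (nat_lit 0) (XT.lf (nat_lit 0) (nat_lit 198823331594) (nat_lit 152) (nat_lit 28815648256) (nat_lit 228) (nat_lit 191870054313) (nat_lit 36) (nat_lit 5) (nat_lit 38) (nat_lit 5) (nat_lit 39) (nat_lit 5) (nat_lit 411) (nat_lit 371) (nat_lit 118)) (XT.lf (nat_lit 0) (nat_lit 315441265677) (nat_lit 228) (nat_lit 19510961013) (nat_lit 76) (nat_lit 99031567502) (nat_lit 36) (nat_lit 5) (nat_lit 39) (nat_lit 5) (nat_lit 37) (nat_lit 5) (nat_lit 412) (nat_lit 371) (nat_lit 117))) (XT.nd (nat_lit 78) (nat_lit 0) (nat_lit 0) (XT.lf (nat_lit 0) (nat_lit 33633779157) (nat_lit 0) (nat_lit 33633779157) (nat_lit 684) (nat_lit 1189487616) (nat_lit 100) (nat_lit 5) (nat_lit 100) (nat_lit 3) (nat_lit 109) (nat_lit 3) (nat_lit 372) (nat_lit 372) (nat_lit 156)) (XT.nd (nat_lit 78) (nat_lit 0) (nat_lit 0) (XT.lf (nat_lit 0) (nat_lit 134182533312) (nat_lit 0) (nat_lit 3719254386) (nat_lit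 684) (nat_lit 2434986741) (nat_lit 100) (nat_lit 5) (nat_lit 100) (nat_lit 3) (nat_lit 109) (nat_lit 3) (nat_lit 373) (nat_lit 372) (nat_lit 155)) (XT.lf (nat_lit 76) (nat_lit 61497132822) (nat_lit 0) (nat_lit 81883300417) (nat_lit 760) (nat_lit 452976179) (nat_lit 101) (nat_lit 5) (nat_lit 100) (nat_lit 5) (nat_lit 110) (nat_lit 5) (nat_lit 374) (nat_lit 372) (nat_lit 154))))) (XT.nd (nat_lit 234) (nat_lit 0) (nat_lit 152) (XT.nd (nat_lit 78) (nat_lit 0) (nat_lit 76) (XT.lf (nat_lit 0) (nat_lit 1742724863) (nat_lit 760) (nat_lit 14843150880) (nat_lit 836) (nat_lit 130909394689) (nat_lit 90) (nat_lit 5) (nat_lit 100) (nat_lit 5) (nat_lit 101) (nat_lit 5) (nat_lit 375) (nat_lit 372) (nat_lit 153)) (XT.nd (nat_lit 78) (nat_lit 0) (nat_lit 0) (XT.lf (nat_lit 0) (nat_lit 5762726579) (nat_lit 760) (nat_lit 94251854201) (nat_lit 836) (nat_lit 51238785777) (nat_lit 91) (nat_lit 5) (nat_lit 101)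 (nat_lit 5) (nat_lit 102) (nat_lit 5) (nat_lit 376) (nat_lit 372) (nat_lit 152)) (XT.lf (nat_lit 0) (nat_lit 10510938586) (nat_lit 760) (nat_lit 22509215851) (nat_lit 836) (nat_lit 122152852806) (nat_lit 91) (nat_lit 5) (nat_lit 101) (nat_lit 5) (nat_lit 102) (nat_lit 5) (nat_lit 377) (nat_lit 372) (nat_lit 151)))) (XT.nd (nat_lit 78) (nat_lit 0) (nat_lit 0) (XT.lf (nat_lit 0) (nat_lit 16945025596) (nat_lit 760) (nat_lit 105275824819) (nat_lit 836) (nat_lit 36995356582) (nat_lit 92) (nat_lit 5) (nat_lit 102) (nat_lit 5) (nat_lit 103) (nat_lit 5) (nat_lit 378) (nat_lit 372) (nat_lit 150)) (XT.nd (nat_lit 78) (nat_lit 0) (nat_lit 76) (XT.lf (nat_lit 0) (nat_lit 24629414717) (nat_lit 760) (nat_lit 28996268261) (nat_lit 836) (nat_lit 109789454116) (nat_lit 92) (nat_lit 5) (nat_lit 102) (nat_lit 5) (nat_lit 103) (nat_lit 5) (nat_lit 379) (nat_lit 372) (nat_lit 149)) (XT.lf (nat_lit 0) (nat_lit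 33822783903) (nat_lit 760) (nat_lit 115296942810) (nat_lit 836) (nat_lit 18648049183) (nat_lit 93) (nat_lit 5) (nat_lit 103) (nat_lit 5) (nat_lit 104) (nat_lit 5) (nat_lit 380) (nat_lit 372) (nat_lit 148)))))) (XT.nd (nat_lit 468) (nat_lit 988) (nat_lit 0) (XT.nd (nat_lit 234) (nat_lit 988) (nat_lit 0) (XT.nd (nat_lit 78) (nat_lit 0) (nat_lit 0) (XT.lf (nat_lit 0) (nat_lit 44853891736) (nat_lit 760) (nat_lit 34182806986) (nat_lit 836) (nat_lit 93232444625) (nat_lit 93) (nat_lit 5) (nat_lit 103) (nat_lit 5) (nat_lit 104) (nat_lit 5) (nat_lit 381) (nat_lit 372) (nat_lit 147)) (XT.nd (nat_lit 78) (nat_lit 0) (nat_lit 76) (XT.lf (nat_lit 76) (nat_lit 52672771075) (nat_lit 0) (nat_lit 4586005398) (nat_lit 836) (nat_lit 119695691830) (nat_lit 94) (nat_lit 5) (nat_lit 93) (nat_lit 5) (nat_lit 104) (nat_lit 5) (nat_lit 382) (nat_lit 372) (nat_lit 146)) (XT.lf (nat_lit 0) (nat_lit 72021058269)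 (nat_lit 760) (nat_lit 37945757357) (nat_lit 76) (nat_lit 71820386441) (nat_lit 94) (nat_lit 5) (nat_lit 104) (nat_lit 5) (nat_lit 95) (nat_lit 5) (nat_lit 383) (nat_lit 372) (nat_lit 145)))) (XT.nd (nat_lit 78) (nat_lit 380) (nat_lit 0) (XT.lf (nat_lit 0) (nat_lit 54371918221) (nat_lit 684) (nat_lit 34073478624) (nat_lit 760) (nat_lit 98369978727) (nat_lit 85) (nat_lit 5) (nat_lit 94) (nat_lit 5) (nat_lit 95) (nat_lit 5) (nat_lit 384) (nat_lit 372) (nat_lit 144)) (XT.nd (nat_lit 78) (nat_lit 380) (nat_lit 0) (XT.lf (nat_lit 0) (nat_lit 107056156627) (nat_lit 760) (nat_lit 40162789925) (nat_lit 76) (nat_lit 44807751169) (nat_lit 85) (nat_lit 5) (nat_lit 95) (nat_lit 5) (nat_lit 86) (nat_lit 5) (nat_lit 385) (nat_lit 372) (nat_lit 143)) (XT.lf (nat_lit 0) (nat_lit 58030548490) (nat_lit 380) (nat_lit 70031382278) (nat_lit 456) (nat_lit 69363431563) (nat_lit 80) (nat_lit 5) (nat_lit 85) (nat_lit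 5) (nat_lit 86) (nat_lit 5) (nat_lit 386) (nat_lit 372) (nat_lit 142))))) (XT.nd (nat_lit 234) (nat_lit 684) (nat_lit 0) (XT.nd (nat_lit 78) (nat_lit 304) (nat_lit 0) (XT.lf (nat_lit 0) (nat_lit 150981183470) (nat_lit 456) (nat_lit 40715295355) (nat_lit 76) (nat_lit 11354322016) (nat_lit 80) (nat_lit 5) (nat_lit 86) (nat_lit 5) (nat_lit 81) (nat_lit 5) (nat_lit 387) (nat_lit 372) (nat_lit 141)) (XT.nd (nat_lit 78) (nat_lit 0) (nat_lit 0) (XT.lf (nat_lit 0) (nat_lit 63791759238) (nat_lit 304) (nat_lit 113398548275) (nat_lit 380) (nat_lit 31660008485) (nat_lit 76) (nat_lit 5) (nat_lit 80) (nat_lit 5) (nat_lit 81) (nat_lit 5) (nat_lit 388) (nat_lit 372) (nat_lit 140)) (XT.lf (nat_lit 0) (nat_lit 174937592548) (nat_lit 304) (nat_lit 30461717200) (nat_lit 380) (nat_lit 9506026213) (nat_lit 76) (nat_lit 5) (nat_lit 80) (nat_lit 5) (nat_lit 81) (nat_lit 5) (nat_lit 389) (nat_lit 372) (nat_lit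 139)))) (XT.nd (nat_lit 78) (nat_lit 304) (nat_lit 0) (XT.lf (nat_lit 0) (nat_lit 15353037209) (nat_lit 380) (nat_lit 149619263387) (nat_lit 76) (nat_lit 56178185800) (nat_lit 71) (nat_lit 5) (nat_lit 76) (nat_lit 5) (nat_lit 72) (nat_lit 5) (nat_lit 390) (nat_lit 372) (nat_lit 138)) (XT.nd (nat_lit 78) (nat_lit 304) (nat_lit 0) (XT.lf (nat_lit 0) (nat_lit 42322826164) (nat_lit 380) (nat_lit 38347746936) (nat_lit 76) (nat_lit 146970167697) (nat_lit 71) (nat_lit 5) (nat_lit 76) (nat_lit 5) (nat_lit 72) (nat_lit 5) (nat_lit 391) (nat_lit 372) (nat_lit 137)) (XT.lf (nat_lit 0) (nat_lit 72050182497) (nat_lit 380) (nat_lit 153453096564) (nat_lit 76) (nat_lit 8881775083) (nat_lit 67) (nat_lit 5) (nat_lit 72) (nat_lit 5) (nat_lit 68) (nat_lit 5) (nat_lit 392) (nat_lit 372) (nat_lit 136))))))))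
noncomputable def xc245 : XT := (XT.nd (nat_lit 45552) (nat_lit 0) (nat_lit 1824) (XT.nd (nat_lit 858) (nat_lit 988) (nat_lit 0) (XT.nd (nat_lit 390) (nat_lit 836) (nat_lit 0) (XT.nd (nat_lit 156) (nat_lit 228) (nat_lit 0) (XT.nd (nat_lit 78) (nat_lit 304) (nat_lit 0) (XT.lf (nat_lit 0) (nat_lit 105246362399) (nat_lit 380) (nat_lit 35260347555) (nat_lit 76) (nat_lit 100860750534) (nat_lit 67) (nat_lit 5) (nat_lit 72) (nat_lit 5) (nat_lit 68) (nat_lit 5) (nat_lit 393) (nat_lit 372) (nat_lit 135)) (XT.lf (nat_lit 0) (nat_lit 91779443945) (nat_lit 304) (nat_lit 49755749464) (nat_lit 380) (nat_lit 107092151745) (nat_lit 63) (nat_lit 5) (nat_lit 67) (nat_lit 5) (nat_lit 68) (nat_lit 5) (nat_lit 394) (nat_lit 372) (nat_lit 134))) (XT.nd (nat_lit 78) (nat_lit 228) (nat_lit 0) (XT.lf (nat_lit 0) (nat_lit 180956210534) (nat_lit 380) (nat_lit 30545778012) (nat_lit 76) (nat_lit 44682348383) (nat_lit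 63) (nat_lit 5) (nat_lit 68) (nat_lit 5) (nat_lit 64) (nat_lit 5) (nat_lit 395) (nat_lit 372) (nat_lit 133)) (XT.nd (nat_lit 78) (nat_lit 0) (nat_lit 0) (XT.lf (nat_lit 0) (nat_lit 104603645779) (nat_lit 228) (nat_lit 120193371282) (nat_lit 304) (nat_lit 39199724407) (nat_lit 60) (nat_lit 5) (nat_lit 63) (nat_lit 5) (nat_lit 64) (nat_lit 5) (nat_lit 396) (nat_lit 372) (nat_lit 132)) (XT.lf (nat_lit 0) (nat_lit 247570915461) (nat_lit 228) (nat_lit 23776172863) (nat_lit 304) (nat_lit 826816783) (nat_lit 60) (nat_lit 5) (nat_lit 63) (nat_lit 5) (nat_lit 64) (nat_lit 5) (nat_lit 397) (nat_lit 372) (nat_lit 131))))) (XT.nd (nat_lit 234) (nat_lit 228) (nat_lit 0) (XT.nd (nat_lit 78) (nat_lit 228) (nat_lit 0) (XT.lf (nat_lit 0) (nat_lit 41327762583) (nat_lit 380) (nat_lit 161729466948) (nat_lit 76) (nat_lit 77515582509) (nat_lit 55) (nat_lit 5) (nat_lit 60) (nat_lit 5) (nat_lit 56) (nat_lit 5)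 (nat_lit 398) (nat_lit 372) (nat_lit 130)) (XT.nd (nat_lit 78) (nat_lit 228) (nat_lit 0) (XT.lf (nat_lit 0) (nat_lit 86375473196) (nat_lit 380) (nat_lit 19464937991) (nat_lit 76) (nat_lit 183509916061) (nat_lit 55) (nat_lit 5) (nat_lit 60) (nat_lit 5) (nat_lit 56) (nat_lit 5) (nat_lit 399) (nat_lit 372) (nat_lit 129)) (XT.lf (nat_lit 0) (nat_lit 134208218146) (nat_lit 228) (nat_lit 1562642675) (nat_lit 304) (nat_lit 162691092899) (nat_lit 52) (nat_lit 5) (nat_lit 55) (nat_lit 5) (nat_lit 56) (nat_lit 5) (nat_lit 400) (nat_lit 372) (nat_lit 128)))) (XT.nd (nat_lit 78) (nat_lit 228) (nat_lit 0) (XT.lf (nat_lit 0) (nat_lit 189656071124) (nat_lit 304) (nat_lit 13462448865) (nat_lit 76) (nat_lit 104809638937) (nat_lit 52) (nat_lit 5) (nat_lit 56) (nat_lit 5) (nat_lit 53) (nat_lit 5) (nat_lit 401) (nat_lit 372) (nat_lit 127)) (XT.nd (nat_lit 78) (nat_lit 0) (nat_lit 0) (XT.lf (nat_lit 0) (nat_lit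 149631841245) (nat_lit 228) (nat_lit 98965420365) (nat_lit 304) (nat_lit 69152326870) (nat_lit 49) (nat_lit 5) (nat_lit 52) (nat_lit 5) (nat_lit 53) (nat_lit 5) (nat_lit 402) (nat_lit 372) (nat_lit 126)) (XT.lf (nat_lit 0) (nat_lit 310879474188) (nat_lit 304) (nat_lit 6868594758) (nat_lit 76) (nat_lit 10294322505) (nat_lit 49) (nat_lit 5) (nat_lit 53) (nat_lit 5) (nat_lit 50) (nat_lit 5) (nat_lit 403) (nat_lit 372) (nat_lit 125)))))) (XT.nd (nat_lit 468) (nat_lit 380) (nat_lit 0) (XT.nd (nat_lit 234) (nat_lit 152) (nat_lit 0) (XT.nd (nat_lit 78) (nat_lit 228) (nat_lit 0) (XT.lf (nat_lit 0) (nat_lit 40513414649) (nat_lit 228) (nat_lit 173154476229) (nat_lit 76) (nat_lit 124938461729) (nat_lit 46) (nat_lit 5) (nat_lit 49) (nat_lit 5) (nat_lit 47) (nat_lit 5) (nat_lit 404) (nat_lit 372) (nat_lit 124)) (XT.nd (nat_lit 78) (nat_lit 228) (nat_lit 0) (XT.lf (nat_lit 0) (nat_lit 100614941909)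 (nat_lit 228) (nat_lit 3349223406) (nat_lit 76) (nat_lit 245714370331) (nat_lit 46) (nat_lit 5) (nat_lit 49) (nat_lit 5) (nat_lit 47) (nat_lit 5) (nat_lit 405) (nat_lit 372) (nat_lit 123)) (XT.lf (nat_lit 0) (nat_lit 166764703840) (nat_lit 304) (nat_lit 180654038814) (nat_lit 76) (nat_lit 13733427326) (nat_lit 43) (nat_lit 5) (nat_lit 47) (nat_lit 5) (nat_lit 44) (nat_lit 5) (nat_lit 406) (nat_lit 372) (nat_lit 122)))) (XT.nd (nat_lit 78) (nat_lit 152) (nat_lit 0) (XT.lf (nat_lit 0) (nat_lit 237983874590) (nat_lit 304) (nat_lit 1247870793) (nat_lit 76) (nat_lit 133879644665) (nat_lit 43) (nat_lit 5) (nat_lit 47) (nat_lit 5) (nat_lit 44) (nat_lit 5) (nat_lit 407) (nat_lit 372) (nat_lit 121)) (XT.nd (nat_lit 78) (nat_lit 0) (nat_lit 0) (XT.lf (nat_lit 0) (nat_lit 193315832585) (nat_lit 152) (nat_lit 122466315661) (nat_lit 228) (nat_lit 69735515706) (nat_lit 41) (nat_lit 5) (nat_lit 43) (nat_lit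 5) (nat_lit 44) (nat_lit 5) (nat_lit 408) (nat_lit 372) (nat_lit 120)) (XT.lf (nat_lit 0) (nat_lit 397493903700) (nat_lit 228) (nat_lit 894729878) (nat_lit 76) (nat_lit 154439614) (nat_lit 41) (nat_lit 5) (nat_lit 44) (nat_lit 5) (nat_lit 42) (nat_lit 5) (nat_lit 409) (nat_lit 372) (nat_lit 119))))) (XT.nd (nat_lit 43992) (nat_lit 0) (nat_lit 4864) (XT.nd (nat_lit 78) (nat_lit 152) (nat_lit 0) (XT.lf (nat_lit 0) (nat_lit 74082674071) (nat_lit 228) (nat_lit 208638821427) (nat_lit 76) (nat_lit 129178480595) (nat_lit 38) (nat_lit 5) (nat_lit 41) (nat_lit 5) (nat_lit 39) (nat_lit 5) (nat_lit 410) (nat_lit 372) (nat_lit 118)) (XT.nd (nat_lit 78) (nat_lit 152) (nat_lit 0) (XT.lf (nat_lit 0) (nat_lit 152951198397) (nat_lit 228) (nat_lit 8285602203) (nat_lit 76) (nat_lit 264686296230) (nat_lit 38) (nat_lit 5) (nat_lit 41) (nat_lit 5) (nat_lit 39) (nat_lit 5) (nat_lit 411) (nat_lit 372) (nat_lit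 117)) (XT.lf (nat_lit 0) (nat_lit 208767047042) (nat_lit 152) (nat_lit 30255489589) (nat_lit 228) (nat_lit 201461867627) (nat_lit 36) (nat_lit 5) (nat_lit 38) (nat_lit 5) (nat_lit 39) (nat_lit 5) (nat_lit 412) (nat_lit 372) (nat_lit 116)))) (XT.nd (nat_lit 78) (nat_lit 0) (nat_lit 0) (XT.lf (nat_lit 0) (nat_lit 35317088983) (nat_lit 0) (nat_lit 35317088983) (nat_lit 684) (nat_lit 1245553189) (nat_lit 100) (nat_lit 5) (nat_lit 100) (nat_lit 3) (nat_lit 109) (nat_lit 3) (nat_lit 373) (nat_lit 373) (nat_lit 154)) (XT.nd (nat_lit 78) (nat_lit 0) (nat_lit 0) (XT.lf (nat_lit 0) (nat_lit 140894747345) (nat_lit 0) (nat_lit 3908304472) (nat_lit 684) (nat_lit 2550243109) (nat_lit 100) (nat_lit 5) (nat_lit 100) (nat_lit 3) (nat_lit 109) (nat_lit 3) (nat_lit 374) (nat_lit 373) (nat_lit 153)) (XT.lf (nat_lit 76) (nat_lit 64575387560) (nat_lit 0) (nat_lit 85979955187) (nat_lit 760) (nat_lit 469433704)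 (nat_lit 101) (nat_lit 5) (nat_lit 100) (nat_lit 5) (nat_lit 110) (nat_lit 5) (nat_lit 375) (nat_lit 373) (nat_lit 152))))))) (XT.nd (nat_lit 858) (nat_lit 1900) (nat_lit 0) (XT.nd (nat_lit 390) (nat_lit 380) (nat_lit 0) (XT.nd (nat_lit 156) (nat_lit 0) (nat_lit 76) (XT.nd (nat_lit 78) (nat_lit 0) (nat_lit 76) (XT.lf (nat_lit 0) (nat_lit 1835568844) (nat_lit 760) (nat_lit 15581875213) (nat_lit 836) (nat_lit 137452296306) (nat_lit 90) (nat_lit 5) (nat_lit 100) (nat_lit 5) (nat_lit 101) (nat_lit 5) (nat_lit 376) (nat_lit 373) (nat_lit 151)) (XT.lf (nat_lit 0) (nat_lit 6056318629) (nat_lit 760) (nat_lit 98960753871) (nat_lit 836) (nat_lit 53798681785) (nat_lit 91) (nat_lit 5) (nat_lit 101) (nat_lit 5) (nat_lit 102) (nat_lit 5) (nat_lit 377) (nat_lit 373) (nat_lit 150))) (XT.nd (nat_lit 78) (nat_lit 0) (nat_lit 76) (XT.lf (nat_lit 0) (nat_lit 11041681441) (nat_lit 760) (nat_lit 23631159462)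 (nat_lit 836) (nat_lit 128258549465) (nat_lit 91) (nat_lit 5) (nat_lit 101) (nat_lit 5) (nat_lit 102) (nat_lit 5) (nat_lit 378) (nat_lit 373) (nat_lit 149)) (XT.nd (nat_lit 78) (nat_lit 0) (nat_lit 0) (XT.lf (nat_lit 0) (nat_lit 17797255327) (nat_lit 760) (nat_lit 110535874318) (nat_lit 836) (nat_lit 38843631693) (nat_lit 92) (nat_lit 5) (nat_lit 102) (nat_lit 5) (nat_lit 103) (nat_lit 5) (nat_lit 379) (nat_lit 373) (nat_lit 148)) (XT.lf (nat_lit 0) (nat_lit 25865626835) (nat_lit 760) (nat_lit 30442518111) (nat_lit 836) (nat_lit 115277505185) (nat_lit 92) (nat_lit 5) (nat_lit 102) (nat_lit 5) (nat_lit 103) (nat_lit 5) (nat_lit 380) (nat_lit 373) (nat_lit 147))))) (XT.nd (nat_lit 234) (nat_lit 608) (nat_lit 0) (XT.nd (nat_lit 78) (nat_lit 0) (nat_lit 0) (XT.lf (nat_lit 0) (nat_lit 35518476824) (nat_lit 760) (nat_lit 121058032302) (nat_lit 836) (nat_lit 19579421450) (nat_lit 93) (nat_lit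 5) (nat_lit 103) (nat_lit 5) (nat_lit 104) (nat_lit 5) (nat_lit 381) (nat_lit 373) (nat_lit 146)) (XT.nd (nat_lit 78) (nat_lit 0) (nat_lit 0) (XT.lf (nat_lit 0) (nat_lit 47100923205) (nat_lit 760) (nat_lit 35888368622) (nat_lit 836) (nat_lit 97893085720) (nat_lit 93) (nat_lit 5) (nat_lit 103) (nat_lit 5) (nat_lit 104) (nat_lit 5) (nat_lit 382) (nat_lit 373) (nat_lit 145)) (XT.lf (nat_lit 76) (nat_lit 55309930620) (nat_lit 0) (nat_lit 4815970013) (nat_lit 836) (nat_lit 125676075988) (nat_lit 94) (nat_lit 5) (nat_lit 93) (nat_lit 5) (nat_lit 104) (nat_lit 5) (nat_lit 383) (nat_lit 373) (nat_lit 144)))) (XT.nd (nat_lit 78) (nat_lit 684) (nat_lit 0) (XT.lf (nat_lit 0) (nat_lit 75626087339) (nat_lit 760) (nat_lit 39839477167) (nat_lit 76) (nat_lit 75410793304) (nat_lit 94) (nat_lit 5) (nat_lit 104) (nat_lit 5) (nat_lit 95) (nat_lit 5) (nat_lit 384) (nat_lit 373) (nat_lit 143)) (XT.nd (nat_lit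 78) (nat_lit 0) (nat_lit 0) (XT.lf (nat_lit 0) (nat_lit 57094024642) (nat_lit 684) (nat_lit 35777483671) (nat_lit 760) (nat_lit 103284438669) (nat_lit 85) (nat_lit 5) (nat_lit 94) (nat_lit 5) (nat_lit 95) (nat_lit 5) (nat_lit 385) (nat_lit 373) (nat_lit 142)) (XT.lf (nat_lit 0) (nat_lit 112412618225) (nat_lit 760) (nat_lit 42167393185) (nat_lit 76) (nat_lit 47047833473) (nat_lit 85) (nat_lit 5) (nat_lit 95) (nat_lit 5) (nat_lit 86) (nat_lit 5) (nat_lit 386) (nat_lit 373) (nat_lit 141)))))) (XT.nd (nat_lit 468) (nat_lit 836) (nat_lit 0) (XT.nd (nat_lit 234) (nat_lit 380) (nat_lit 0) (XT.nd (nat_lit 78) (nat_lit 304) (nat_lit 0) (XT.lf (nat_lit 0) (nat_lit 60935555115) (nat_lit 380) (nat_lit 73533006289) (nat_lit 456) (nat_lit 72827887542) (nat_lit 80) (nat_lit 5) (nat_lit 85) (nat_lit 5) (nat_lit 86) (nat_lit 5) (nat_lit 387) (nat_lit 373) (nat_lit 140)) (XT.nd (nat_lit 78) (nat_lit 304)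 (nat_lit 0) (XT.lf (nat_lit 0) (nat_lit 158533607635) (nat_lit 456) (nat_lit 42747572924) (nat_lit 76) (nat_lit 11921987507) (nat_lit 80) (nat_lit 5) (nat_lit 86) (nat_lit 5) (nat_lit 81) (nat_lit 5) (nat_lit 388) (nat_lit 373) (nat_lit 139)) (XT.lf (nat_lit 0) (nat_lit 66984778154) (nat_lit 304) (nat_lit 119068303054) (nat_lit 380) (nat_lit 33239583322) (nat_lit 76) (nat_lit 5) (nat_lit 80) (nat_lit 5) (nat_lit 81) (nat_lit 5) (nat_lit 389) (nat_lit 373) (nat_lit 138)))) (XT.nd (nat_lit 78) (nat_lit 380) (nat_lit 0) (XT.lf (nat_lit 0) (nat_lit 183687739751) (nat_lit 304) (nat_lit 31984638647) (nat_lit 380) (nat_lit 9978065060) (nat_lit 76) (nat_lit 5) (nat_lit 80) (nat_lit 5) (nat_lit 81) (nat_lit 5) (nat_lit 390) (nat_lit 373) (nat_lit 137)) (XT.nd (nat_lit 78) (nat_lit 0) (nat_lit 0) (XT.lf (nat_lit 0) (nat_lit 16123752679) (nat_lit 380) (nat_lit 157096752421) (nat_lit 76) (nat_lit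 58987348677) (nat_lit 71) (nat_lit 5) (nat_lit 76) (nat_lit 5) (nat_lit 72) (nat_lit 5) (nat_lit 391) (nat_lit 373) (nat_lit 136)) (XT.lf (nat_lit 0) (nat_lit 44441885196) (nat_lit 380) (nat_lit 40261825583) (nat_lit 76) (nat_lit 154318917593) (nat_lit 71) (nat_lit 5) (nat_lit 76) (nat_lit 5) (nat_lit 72) (nat_lit 5) (nat_lit 392) (nat_lit 373) (nat_lit 135))))) (XT.nd (nat_lit 234) (nat_lit 228) (nat_lit 0) (XT.nd (nat_lit 78) (nat_lit 304) (nat_lit 0) (XT.lf (nat_lit 0) (nat_lit 75655527878) (nat_lit 380) (nat_lit 161122357815) (nat_lit 76) (nat_lit 9326275936) (nat_lit 67) (nat_lit 5) (nat_lit 72) (nat_lit 5) (nat_lit 68) (nat_lit 5) (nat_lit 393) (nat_lit 373) (nat_lit 134)) (XT.nd (nat_lit 78) (nat_lit 304) (nat_lit 0) (XT.lf (nat_lit 0) (nat_lit 110511381715) (nat_lit 380) (nat_lit 37020132955) (nat_lit 76) (nat_lit 105904180536) (nat_lit 67) (nat_lit 5) (nat_lit 72) (nat_lit 5)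 (nat_lit 68) (nat_lit 5) (nat_lit 394) (nat_lit 373) (nat_lit 133)) (XT.lf (nat_lit 0) (nat_lit 96371595991) (nat_lit 304) (nat_lit 52242979302) (nat_lit 380) (nat_lit 112444002915) (nat_lit 63) (nat_lit 5) (nat_lit 67) (nat_lit 5) (nat_lit 68) (nat_lit 5) (nat_lit 395) (nat_lit 373) (nat_lit 132)))) (XT.nd (nat_lit 78) (nat_lit 228) (nat_lit 0) (XT.lf (nat_lit 0) (nat_lit 190006526699) (nat_lit 380) (nat_lit 32069918964) (nat_lit 76) (nat_lit 46916979886) (nat_lit 63) (nat_lit 5) (nat_lit 68) (nat_lit 5) (nat_lit 64) (nat_lit 5) (nat_lit 396) (nat_lit 373) (nat_lit 131)) (XT.nd (nat_lit 78) (nat_lit 0) (nat_lit 0) (XT.lf (nat_lit 0) (nat_lit 109836925242) (nat_lit 228) (nat_lit 126202377349) (nat_lit 304) (nat_lit 41157151411) (nat_lit 60) (nat_lit 5) (nat_lit 63) (nat_lit 5) (nat_lit 64) (nat_lit 5) (nat_lit 397) (nat_lit 373) (nat_lit 130)) (XT.lf (nat_lit 0) (nat_lit 259952410924)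 (nat_lit 228) (nat_lit 24964350557) (nat_lit 304) (nat_lit 865720273) (nat_lit 60) (nat_lit 5) (nat_lit 63) (nat_lit 5) (nat_lit 64) (nat_lit 5) (nat_lit 398) (nat_lit 373) (nat_lit 129))))))))
noncomputable def xc246 : XT := (XT.nd (nat_lit 45708) (nat_lit 0) (nat_lit 608) (XT.nd (nat_lit 858) (nat_lit 228) (nat_lit 0) (XT.nd (nat_lit 390) (nat_lit 608) (nat_lit 0) (XT.nd (nat_lit 156) (nat_lit 456) (nat_lit 0) (XT.nd (nat_lit 78) (nat_lit 0) (nat_lit 0) (XT.lf (nat_lit 0) (nat_lit 43396454988) (nat_lit 380) (nat_lit 169812852566) (nat_lit 76) (nat_lit 81392027453) (nat_lit 55) (nat_lit 5) (nat_lit 60) (nat_lit 5) (nat_lit 56) (nat_lit 5) (nat_lit 399) (nat_lit 373) (nat_lit 128)) (XT.lf (nat_lit 0) (nat_lit 90696441403) (nat_lit 380) (nat_lit 20435244195) (nat_lit 76) (nat_lit 192686045977) (nat_lit 55) (nat_lit 5) (nat_lit 60) (nat_lit 5) (nat_lit 56) (nat_lit 5) (nat_lit 400) (nat_lit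 373) (nat_lit 127))) (XT.nd (nat_lit 78) (nat_lit 228) (nat_lit 0) (XT.lf (nat_lit 0) (nat_lit 140921522318) (nat_lit 228) (nat_lit 1640016761) (nat_lit 304) (nat_lit 170823403368) (nat_lit 52) (nat_lit 5) (nat_lit 55) (nat_lit 5) (nat_lit 56) (nat_lit 5) (nat_lit 401) (nat_lit 373) (nat_lit 126)) (XT.nd (nat_lit 78) (nat_lit 228) (nat_lit 0) (XT.lf (nat_lit 0) (nat_lit 199140919492) (nat_lit 304) (nat_lit 14132723320) (nat_lit 76) (nat_lit 110050819726) (nat_lit 52) (nat_lit 5) (nat_lit 56) (nat_lit 5) (nat_lit 53) (nat_lit 5) (nat_lit 402) (nat_lit 373) (nat_lit 125)) (XT.lf (nat_lit 0) (nat_lit 157116235360) (nat_lit 228) (nat_lit 103912880518) (nat_lit 304) (nat_lit 72607850473) (nat_lit 49) (nat_lit 5) (nat_lit 52) (nat_lit 5) (nat_lit 53) (nat_lit 5) (nat_lit 403) (nat_lit 373) (nat_lit 124))))) (XT.nd (nat_lit 234) (nat_lit 380) (nat_lit 0) (XT.nd (nat_lit 78) (nat_lit 228) (nat_lit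 0) (XT.lf (nat_lit 0) (nat_lit 326425356324) (nat_lit 304) (nat_lit 7209271214) (nat_lit 76) (nat_lit 10809786166) (nat_lit 49) (nat_lit 5) (nat_lit 53) (nat_lit 5) (nat_lit 50) (nat_lit 5) (nat_lit 404) (nat_lit 373) (nat_lit 123)) (XT.nd (nat_lit 78) (nat_lit 0) (nat_lit 0) (XT.lf (nat_lit 0) (nat_lit 42540977463) (nat_lit 228) (nat_lit 181809426884) (nat_lit 76) (nat_lit 131186169564) (nat_lit 46) (nat_lit 5) (nat_lit 49) (nat_lit 5) (nat_lit 47) (nat_lit 5) (nat_lit 405) (nat_lit 373) (nat_lit 122)) (XT.lf (nat_lit 0) (nat_lit 105647490987) (nat_lit 228) (nat_lit 3514043475) (nat_lit 76) (nat_lit 258000836228) (nat_lit 46) (nat_lit 5) (nat_lit 49) (nat_lit 5) (nat_lit 47) (nat_lit 5) (nat_lit 406) (nat_lit 373) (nat_lit 121)))) (XT.nd (nat_lit 78) (nat_lit 152) (nat_lit 0) (XT.lf (nat_lit 0) (nat_lit 175104708918) (nat_lit 304) (nat_lit 189684065995) (nat_lit 76) (nat_lit 14420913511)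 (nat_lit 43) (nat_lit 5) (nat_lit 47) (nat_lit 5) (nat_lit 44) (nat_lit 5) (nat_lit 407) (nat_lit 373) (nat_lit 120)) (XT.nd (nat_lit 78) (nat_lit 152) (nat_lit 0) (XT.lf (nat_lit 0) (nat_lit 249884753926) (nat_lit 304) (nat_lit 1307716942) (nat_lit 76) (nat_lit 140574402915) (nat_lit 43) (nat_lit 5) (nat_lit 47) (nat_lit 5) (nat_lit 44) (nat_lit 5) (nat_lit 408) (nat_lit 373) (nat_lit 119)) (XT.lf (nat_lit 0) (nat_lit 202984130517) (nat_lit 152) (nat_lit 128588769610) (nat_lit 228) (nat_lit 73220563382) (nat_lit 41) (nat_lit 5) (nat_lit 43) (nat_lit 5) (nat_lit 44) (nat_lit 5) (nat_lit 409) (nat_lit 373) (nat_lit 118)))))) (XT.nd (nat_lit 44382) (nat_lit 0) (nat_lit 4028) (XT.nd (nat_lit 44148) (nat_lit 0) (nat_lit 3952) (XT.nd (nat_lit 78) (nat_lit 228) (nat_lit 0) (XT.lf (nat_lit 0) (nat_lit 417370177861) (nat_lit 228) (nat_lit 937012574) (nat_lit 76) (nat_lit 162956119) (nat_lit 41)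 (nat_lit 5) (nat_lit 44) (nat_lit 5) (nat_lit 42) (nat_lit 5) (nat_lit 410) (nat_lit 373) (nat_lit 117)) (XT.nd (nat_lit 43992) (nat_lit 0) (nat_lit 4712) (XT.lf (nat_lit 0) (nat_lit 77788375768) (nat_lit 228) (nat_lit 219068295210) (nat_lit 76) (nat_lit 135638224298) (nat_lit 38) (nat_lit 5) (nat_lit 41) (nat_lit 5) (nat_lit 39) (nat_lit 5) (nat_lit 411) (nat_lit 373) (nat_lit 116)) (XT.lf (nat_lit 0) (nat_lit 37084413607) (nat_lit 0) (nat_lit 37084413607) (nat_lit 684) (nat_lit 1304738958) (nat_lit 100) (nat_lit 5) (nat_lit 100) (nat_lit 3) (nat_lit 109) (nat_lit 3) (nat_lit 374) (nat_lit 374) (nat_lit 152)))) (XT.nd (nat_lit 78) (nat_lit 760) (nat_lit 0) (XT.lf (nat_lit 0) (nat_lit 147942285045) (nat_lit 0) (nat_lit 4106520029) (nat_lit 684) (nat_lit 2671865950) (nat_lit 100) (nat_lit 5) (nat_lit 100) (nat_lit 3) (nat_lit 109) (nat_lit 3) (nat_lit 375) (nat_lit 374) (nat_lit 151)) (XT.nd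 (nat_lit 78) (nat_lit 760) (nat_lit 0) (XT.lf (nat_lit 76) (nat_lit 67807239113) (nat_lit 0) (nat_lit 90281211222) (nat_lit 760) (nat_lit 487289713) (nat_lit 101) (nat_lit 5) (nat_lit 100) (nat_lit 5) (nat_lit 110) (nat_lit 5) (nat_lit 376) (nat_lit 374) (nat_lit 150)) (XT.lf (nat_lit 0) (nat_lit 1932524372) (nat_lit 760) (nat_lit 16357854950) (nat_lit 836) (nat_lit 144322581764) (nat_lit 90) (nat_lit 5) (nat_lit 100) (nat_lit 5) (nat_lit 101) (nat_lit 5) (nat_lit 377) (nat_lit 374) (nat_lit 149))))) (XT.nd (nat_lit 234) (nat_lit 0) (nat_lit 76) (XT.nd (nat_lit 78) (nat_lit 0) (nat_lit 0) (XT.lf (nat_lit 0) (nat_lit 6364083061) (nat_lit 760) (nat_lit 103905441868) (nat_lit 836) (nat_lit 56486762558) (nat_lit 91) (nat_lit 5) (nat_lit 101) (nat_lit 5) (nat_lit 102) (nat_lit 5) (nat_lit 378) (nat_lit 374) (nat_lit 148)) (XT.nd (nat_lit 78) (nat_lit 0) (nat_lit 76) (XT.lf (nat_lit 0) (nat_lit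 11598478370) (nat_lit 760) (nat_lit 24809527248) (nat_lit 836) (nat_lit 134669711875) (nat_lit 91) (nat_lit 5) (nat_lit 101) (nat_lit 5) (nat_lit 102) (nat_lit 5) (nat_lit 379) (nat_lit 374) (nat_lit 147)) (XT.lf (nat_lit 0) (nat_lit 18691633696) (nat_lit 760) (nat_lit 116059274164) (nat_lit 836) (nat_lit 40784459337) (nat_lit 92) (nat_lit 5) (nat_lit 102) (nat_lit 5) (nat_lit 103) (nat_lit 5) (nat_lit 380) (nat_lit 374) (nat_lit 146)))) (XT.nd (nat_lit 78) (nat_lit 0) (nat_lit 76) (XT.lf (nat_lit 0) (nat_lit 27163208750) (nat_lit 760) (nat_lit 31961411759) (nat_lit 836) (nat_lit 121040090977) (nat_lit 92) (nat_lit 5) (nat_lit 102) (nat_lit 5) (nat_lit 103) (nat_lit 5) (nat_lit 381) (nat_lit 374) (nat_lit 145)) (XT.nd (nat_lit 78) (nat_lit 0) (nat_lit 0) (XT.lf (nat_lit 0) (nat_lit 37298531029) (nat_lit 760) (nat_lit 127107525619) (nat_lit 836) (nat_lit 20557458108) (nat_lit 93) (nat_lit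 5) (nat_lit 103) (nat_lit 5) (nat_lit 104) (nat_lit 5) (nat_lit 382) (nat_lit 374) (nat_lit 144)) (XT.lf (nat_lit 0) (nat_lit 49459903045) (nat_lit 760) (nat_lit 37679541055) (nat_lit 836) (nat_lit 102786850088) (nat_lit 93) (nat_lit 5) (nat_lit 103) (nat_lit 5) (nat_lit 104) (nat_lit 5) (nat_lit 383) (nat_lit 374) (nat_lit 143))))))) (XT.nd (nat_lit 858) (nat_lit 1596) (nat_lit 0) (XT.nd (nat_lit 390) (nat_lit 988) (nat_lit 0) (XT.nd (nat_lit 156) (nat_lit 988) (nat_lit 0) (XT.nd (nat_lit 78) (nat_lit 0) (nat_lit 76) (XT.lf (nat_lit 76) (nat_lit 58078620795) (nat_lit 0) (nat_lit 5057371094) (nat_lit 836) (nat_lit 131955888464) (nat_lit 94) (nat_lit 5) (nat_lit 93) (nat_lit 5) (nat_lit 104) (nat_lit 5) (nat_lit 384) (nat_lit 374) (nat_lit 142)) (XT.lf (nat_lit 0) (nat_lit 79410998196) (nat_lit 760) (nat_lit 41828214691) (nat_lit 76) (nat_lit 79180777451) (nat_lit 94) (nat_lit 5) (nat_lit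 104) (nat_lit 5) (nat_lit 95) (nat_lit 5) (nat_lit 385) (nat_lit 374) (nat_lit 141))) (XT.nd (nat_lit 78) (nat_lit 380) (nat_lit 0) (XT.lf (nat_lit 0) (nat_lit 59951910009) (nat_lit 684) (nat_lit 37566658186) (nat_lit 760) (nat_lit 108444997116) (nat_lit 85) (nat_lit 5) (nat_lit 94) (nat_lit 5) (nat_lit 95) (nat_lit 5) (nat_lit 386) (nat_lit 374) (nat_lit 140)) (XT.nd (nat_lit 78) (nat_lit 380) (nat_lit 0) (XT.lf (nat_lit 0) (nat_lit 118036563210) (nat_lit 760) (nat_lit 44272555373) (nat_lit 76) (nat_lit 49399948272) (nat_lit 85) (nat_lit 5) (nat_lit 95) (nat_lit 5) (nat_lit 86) (nat_lit 5) (nat_lit 387) (nat_lit 374) (nat_lit 139)) (XT.lf (nat_lit 0) (nat_lit 63985488608) (nat_lit 380) (nat_lit 77209706396) (nat_lit 456) (nat_lit 76465911761) (nat_lit 80) (nat_lit 5) (nat_lit 85) (nat_lit 5) (nat_lit 86) (nat_lit 5) (nat_lit 388) (nat_lit 374) (nat_lit 138))))) (XT.nd (nat_lit 234) (nat_lit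 684) (nat_lit 0) (XT.nd (nat_lit 78) (nat_lit 304) (nat_lit 0) (XT.lf (nat_lit 0) (nat_lit 166463340162) (nat_lit 456) (nat_lit 44881788577) (nat_lit 76) (nat_lit 12518040978) (nat_lit 80) (nat_lit 5) (nat_lit 86) (nat_lit 5) (nat_lit 81) (nat_lit 5) (nat_lit 389) (nat_lit 374) (nat_lit 137)) (XT.nd (nat_lit 78) (nat_lit 0) (nat_lit 0) (XT.lf (nat_lit 0) (nat_lit 70337129039) (nat_lit 304) (nat_lit 125021561623) (nat_lit 380) (nat_lit 34898455380) (nat_lit 76) (nat_lit 5) (nat_lit 80) (nat_lit 5) (nat_lit 81) (nat_lit 5) (nat_lit 390) (nat_lit 374) (nat_lit 136)) (XT.lf (nat_lit 0) (nat_lit 192875090526) (nat_lit 304) (nat_lit 33583721451) (nat_lit 380) (nat_lit 10474009162) (nat_lit 76) (nat_lit 5) (nat_lit 80) (nat_lit 5) (nat_lit 81) (nat_lit 5) (nat_lit 391) (nat_lit 374) (nat_lit 135)))) (XT.nd (nat_lit 78) (nat_lit 304) (nat_lit 0) (XT.lf (nat_lit 0) (nat_lit 16932719097) (nat_lit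 380) (nat_lit 164948438900) (nat_lit 76) (nat_lit 61936946121) (nat_lit 71) (nat_lit 5) (nat_lit 76) (nat_lit 5) (nat_lit 72) (nat_lit 5) (nat_lit 392) (nat_lit 374) (nat_lit 134)) (XT.nd (nat_lit 78) (nat_lit 304) (nat_lit 0) (XT.lf (nat_lit 0) (nat_lit 46666625917) (nat_lit 380) (nat_lit 42271915774) (nat_lit 76) (nat_lit 162035082530) (nat_lit 71) (nat_lit 5) (nat_lit 76) (nat_lit 5) (nat_lit 72) (nat_lit 5) (nat_lit 393) (nat_lit 374) (nat_lit 133)) (XT.lf (nat_lit 0) (nat_lit 79440876840) (nat_lit 380) (nat_lit 169175397632) (nat_lit 76) (nat_lit 9792963519) (nat_lit 67) (nat_lit 5) (nat_lit 72) (nat_lit 5) (nat_lit 68) (nat_lit 5) (nat_lit 394) (nat_lit 374) (nat_lit 132)))))) (XT.nd (nat_lit 468) (nat_lit 684) (nat_lit 0) (XT.nd (nat_lit 234) (nat_lit 608) (nat_lit 0) (XT.nd (nat_lit 78) (nat_lit 304) (nat_lit 0) (XT.lf (nat_lit 0) (nat_lit 116039400865) (nat_lit 380) (nat_lit 38868208104)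 (nat_lit 76) (nat_lit 111199745549) (nat_lit 67) (nat_lit 5) (nat_lit 72) (nat_lit 5) (nat_lit 68) (nat_lit 5) (nat_lit 395) (nat_lit 374) (nat_lit 131)) (XT.nd (nat_lit 78) (nat_lit 0) (nat_lit 0) (XT.lf (nat_lit 0) (nat_lit 101193060007) (nat_lit 304) (nat_lit 54854622476) (nat_lit 380) (nat_lit 118063702910) (nat_lit 63) (nat_lit 5) (nat_lit 67) (nat_lit 5) (nat_lit 68) (nat_lit 5) (nat_lit 396) (nat_lit 374) (nat_lit 130)) (XT.lf (nat_lit 0) (nat_lit 199509125722) (nat_lit 380) (nat_lit 33670559631) (nat_lit 76) (nat_lit 49263295168) (nat_lit 63) (nat_lit 5) (nat_lit 68) (nat_lit 5) (nat_lit 64) (nat_lit 5) (nat_lit 397) (nat_lit 374) (nat_lit 129)))) (XT.nd (nat_lit 78) (nat_lit 380) (nat_lit 0) (XT.lf (nat_lit 0) (nat_lit 115331580733) (nat_lit 228) (nat_lit 132511895312) (nat_lit 304) (nat_lit 43212687697) (nat_lit 60) (nat_lit 5) (nat_lit 63) (nat_lit 5) (nat_lit 64) (nat_lit 5)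 (nat_lit 398) (nat_lit 374) (nat_lit 128)) (XT.nd (nat_lit 78) (nat_lit 380) (nat_lit 0) (XT.lf (nat_lit 0) (nat_lit 272952706927) (nat_lit 228) (nat_lit 26211995795) (nat_lit 304) (nat_lit 906795540) (nat_lit 60) (nat_lit 5) (nat_lit 63) (nat_lit 5) (nat_lit 64) (nat_lit 5) (nat_lit 399) (nat_lit 374) (nat_lit 127)) (XT.lf (nat_lit 0) (nat_lit 45568367783) (nat_lit 380) (nat_lit 178300694532) (nat_lit 76) (nat_lit 85462232742) (nat_lit 55) (nat_lit 5) (nat_lit 60) (nat_lit 5) (nat_lit 56) (nat_lit 5) (nat_lit 400) (nat_lit 374) (nat_lit 126))))) (XT.nd (nat_lit 234) (nat_lit 456) (nat_lit 0) (XT.nd (nat_lit 78) (nat_lit 228) (nat_lit 0) (XT.lf (nat_lit 0) (nat_lit 95233253993) (nat_lit 380) (nat_lit 21454339108) (nat_lit 76) (nat_lit 202320923434) (nat_lit 55) (nat_lit 5) (nat_lit 60) (nat_lit 5) (nat_lit 56) (nat_lit 5) (nat_lit 401) (nat_lit 374) (nat_lit 125)) (XT.nd (nat_lit 78) (nat_lit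 0) (nat_lit 0) (XT.lf (nat_lit 0) (nat_lit 147970222711) (nat_lit 228) (nat_lit 1721330028) (nat_lit 304) (nat_lit 179362538002) (nat_lit 52) (nat_lit 5) (nat_lit 55) (nat_lit 5) (nat_lit 56) (nat_lit 5) (nat_lit 402) (nat_lit 374) (nat_lit 124)) (XT.lf (nat_lit 0) (nat_lit 209099820172) (nat_lit 304) (nat_lit 14836776277) (nat_lit 76) (nat_lit 115553994583) (nat_lit 52) (nat_lit 5) (nat_lit 56) (nat_lit 5) (nat_lit 53) (nat_lit 5) (nat_lit 403) (nat_lit 374) (nat_lit 123)))) (XT.nd (nat_lit 78) (nat_lit 228) (nat_lit 0) (XT.lf (nat_lit 0) (nat_lit 164974588673) (nat_lit 228) (nat_lit 109107789065) (nat_lit 304) (nat_lit 76236344819) (nat_lit 49) (nat_lit 5) (nat_lit 52) (nat_lit 5) (nat_lit 53) (nat_lit 5) (nat_lit 404) (nat_lit 374) (nat_lit 122)) (XT.nd (nat_lit 78) (nat_lit 228) (nat_lit 0) (XT.lf (nat_lit 0) (nat_lit 342748355139) (nat_lit 304) (nat_lit 7567237467) (nat_lit 76) (nat_lit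 11350953511) (nat_lit 49) (nat_lit 5) (nat_lit 53) (nat_lit 5) (nat_lit 50) (nat_lit 5) (nat_lit 405) (nat_lit 374) (nat_lit 121)) (XT.lf (nat_lit 0) (nat_lit 44669742510) (nat_lit 228) (nat_lit 190897382893) (nat_lit 76) (nat_lit 137746189833) (nat_lit 46) (nat_lit 5) (nat_lit 49) (nat_lit 5) (nat_lit 47) (nat_lit 5) (nat_lit 406) (nat_lit 374) (nat_lit 120))))))))
noncomputable def xc247 : XT := (XT.nd (nat_lit 45786) (nat_lit 0) (nat_lit 152) (XT.nd (nat_lit 44850) (nat_lit 0) (nat_lit 2660) (XT.nd (nat_lit 44382) (nat_lit 0) (nat_lit 3724) (XT.nd (nat_lit 156) (nat_lit 152) (nat_lit 0) (XT.nd (nat_lit 78) (nat_lit 228) (nat_lit 0) (XT.lf (nat_lit 0) (nat_lit 110931499988) (nat_lit 228) (nat_lit 3687350092) (nat_lit 76) (nat_lit 270901555935) (nat_lit 46) (nat_lit 5) (nat_lit 49) (nat_lit 5) (nat_lit 47) (nat_lit 5) (nat_lit 407) (nat_lit 374) (nat_lit 119)) (XT.lf (nat_lit 0) (nat_lit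 183861549703) (nat_lit 304) (nat_lit 199165843209) (nat_lit 76) (nat_lit 15142698250) (nat_lit 43) (nat_lit 5) (nat_lit 47) (nat_lit 5) (nat_lit 44) (nat_lit 5) (nat_lit 408) (nat_lit 374) (nat_lit 118))) (XT.nd (nat_lit 78) (nat_lit 152) (nat_lit 0) (XT.lf (nat_lit 0) (nat_lit 262380520516) (nat_lit 304) (nat_lit 1370792231) (nat_lit 76) (nat_lit 147603826931) (nat_lit 43) (nat_lit 5) (nat_lit 47) (nat_lit 5) (nat_lit 44) (nat_lit 5) (nat_lit 409) (nat_lit 374) (nat_lit 117)) (XT.nd (nat_lit 78) (nat_lit 0) (nat_lit 0) (XT.lf (nat_lit 0) (nat_lit 213135610334) (nat_lit 152) (nat_lit 135017426381) (nat_lit 228) (nat_lit 76880024105) (nat_lit 41) (nat_lit 5) (nat_lit 43) (nat_lit 5) (nat_lit 44) (nat_lit 5) (nat_lit 410) (nat_lit 374) (nat_lit 116)) (XT.lf (nat_lit 0) (nat_lit 438240118932) (nat_lit 228) (nat_lit 981637536) (nat_lit 76) (nat_lit 171824581) (nat_lit 41) (nat_lit 5) (nat_lit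 44) (nat_lit 5) (nat_lit 42) (nat_lit 5) (nat_lit 411) (nat_lit 374) (nat_lit 115))))) (XT.nd (nat_lit 234) (nat_lit 760) (nat_lit 0) (XT.nd (nat_lit 78) (nat_lit 0) (nat_lit 0) (XT.lf (nat_lit 0) (nat_lit 38939967779) (nat_lit 0) (nat_lit 38939967779) (nat_lit 684) (nat_lit 1367171471) (nat_lit 100) (nat_lit 5) (nat_lit 100) (nat_lit 3) (nat_lit 109) (nat_lit 3) (nat_lit 375) (nat_lit 375) (nat_lit 150)) (XT.nd (nat_lit 78) (nat_lit 0) (nat_lit 0) (XT.lf (nat_lit 0) (nat_lit 155341939282) (nat_lit 0) (nat_lit 4314386015) (nat_lit 684) (nat_lit 2800117466) (nat_lit 100) (nat_lit 5) (nat_lit 100) (nat_lit 3) (nat_lit 109) (nat_lit 3) (nat_lit 376) (nat_lit 375) (nat_lit 149)) (XT.lf (nat_lit 76) (nat_lit 71200396692) (nat_lit 0) (nat_lit 94797320106) (nat_lit 760) (nat_lit 506560614) (nat_lit 101) (nat_lit 5) (nat_lit 100) (nat_lit 5) (nat_lit 110) (nat_lit 5) (nat_lit 377) (nat_lit 375)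 (nat_lit 148)))) (XT.nd (nat_lit 78) (nat_lit 0) (nat_lit 76) (XT.lf (nat_lit 0) (nat_lit 2033846360) (nat_lit 760) (nat_lit 17172923186) (nat_lit 836) (nat_lit 151536598056) (nat_lit 90) (nat_lit 5) (nat_lit 100) (nat_lit 5) (nat_lit 101) (nat_lit 5) (nat_lit 378) (nat_lit 375) (nat_lit 147)) (XT.nd (nat_lit 78) (nat_lit 0) (nat_lit 0) (XT.lf (nat_lit 0) (nat_lit 6686775650) (nat_lit 760) (nat_lit 109097675688) (nat_lit 836) (nat_lit 59309419674) (nat_lit 91) (nat_lit 5) (nat_lit 101) (nat_lit 5) (nat_lit 102) (nat_lit 5) (nat_lit 379) (nat_lit 375) (nat_lit 146)) (XT.lf (nat_lit 0) (nat_lit 12182676989) (nat_lit 760) (nat_lit 26047110017) (nat_lit 836) (nat_lit 141401596505) (nat_lit 91) (nat_lit 5) (nat_lit 101) (nat_lit 5) (nat_lit 102) (nat_lit 5) (nat_lit 380) (nat_lit 375) (nat_lit 145)))))) (XT.nd (nat_lit 468) (nat_lit 1216) (nat_lit 0) (XT.nd (nat_lit 234) (nat_lit 0) (nat_lit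 76) (XT.nd (nat_lit 78) (nat_lit 0) (nat_lit 0) (XT.lf (nat_lit 0) (nat_lit 19630311165) (nat_lit 760) (nat_lit 121859159531) (nat_lit 836) (nat_lit 42822454240) (nat_lit 92) (nat_lit 5) (nat_lit 102) (nat_lit 5) (nat_lit 103) (nat_lit 5) (nat_lit 381) (nat_lit 375) (nat_lit 144)) (XT.nd (nat_lit 78) (nat_lit 0) (nat_lit 76) (XT.lf (nat_lit 0) (nat_lit 28525269935) (nat_lit 760) (nat_lit 33556550594) (nat_lit 836) (nat_lit 127090925941) (nat_lit 92) (nat_lit 5) (nat_lit 102) (nat_lit 5) (nat_lit 103) (nat_lit 5) (nat_lit 382) (nat_lit 375) (nat_lit 143)) (XT.lf (nat_lit 0) (nat_lit 39167203942) (nat_lit 760) (nat_lit 133459810473) (nat_lit 836) (nat_lit 21584483471) (nat_lit 93) (nat_lit 5) (nat_lit 103) (nat_lit 5) (nat_lit 104) (nat_lit 5) (nat_lit 383) (nat_lit 375) (nat_lit 142)))) (XT.nd (nat_lit 78) (nat_lit 0) (nat_lit 0) (XT.lf (nat_lit 0) (nat_lit 51936466161) (nat_lit 760) (nat_lit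 39560573892) (nat_lit 836) (nat_lit 107925385410) (nat_lit 93) (nat_lit 5) (nat_lit 103) (nat_lit 5) (nat_lit 104) (nat_lit 5) (nat_lit 384) (nat_lit 375) (nat_lit 141)) (XT.nd (nat_lit 78) (nat_lit 0) (nat_lit 76) (XT.lf (nat_lit 76) (nat_lit 60985448563) (nat_lit 0) (nat_lit 5310786207) (nat_lit 836) (nat_lit 138550062640) (nat_lit 94) (nat_lit 5) (nat_lit 93) (nat_lit 5) (nat_lit 104) (nat_lit 5) (nat_lit 385) (nat_lit 375) (nat_lit 140)) (XT.lf (nat_lit 0) (nat_lit 83384819300) (nat_lit 760) (nat_lit 43916689975) (nat_lit 76) (nat_lit 83139312453) (nat_lit 94) (nat_lit 5) (nat_lit 104) (nat_lit 5) (nat_lit 95) (nat_lit 5) (nat_lit 386) (nat_lit 375) (nat_lit 139))))) (XT.nd (nat_lit 234) (nat_lit 304) (nat_lit 0) (XT.nd (nat_lit 78) (nat_lit 380) (nat_lit 0) (XT.lf (nat_lit 0) (nat_lit 62952393614) (nat_lit 684) (nat_lit 39445263504) (nat_lit 760) (nat_lit 113863924081) (nat_lit 85)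 (nat_lit 5) (nat_lit 94) (nat_lit 5) (nat_lit 95) (nat_lit 5) (nat_lit 387) (nat_lit 375) (nat_lit 138)) (XT.nd (nat_lit 78) (nat_lit 380) (nat_lit 0) (XT.lf (nat_lit 0) (nat_lit 123941397333) (nat_lit 760) (nat_lit 46483273871) (nat_lit 76) (nat_lit 51869694551) (nat_lit 85) (nat_lit 5) (nat_lit 95) (nat_lit 5) (nat_lit 86) (nat_lit 5) (nat_lit 388) (nat_lit 375) (nat_lit 137)) (XT.lf (nat_lit 0) (nat_lit 67187625385) (nat_lit 380) (nat_lit 81070236880) (nat_lit 456) (nat_lit 80286150516) (nat_lit 80) (nat_lit 5) (nat_lit 85) (nat_lit 5) (nat_lit 86) (nat_lit 5) (nat_lit 389) (nat_lit 375) (nat_lit 136)))) (XT.nd (nat_lit 78) (nat_lit 304) (nat_lit 0) (XT.lf (nat_lit 0) (nat_lit 174789275557) (nat_lit 456) (nat_lit 47123009078) (nat_lit 76) (nat_lit 13143901390) (nat_lit 80) (nat_lit 5) (nat_lit 86) (nat_lit 5) (nat_lit 81) (nat_lit 5) (nat_lit 390) (nat_lit 375) (nat_lit 135)) (XT.nd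 (nat_lit 78) (nat_lit 0) (nat_lit 0) (XT.lf (nat_lit 0) (nat_lit 73856808146) (nat_lit 304) (nat_lit 131272497677) (nat_lit 380) (nat_lit 36640559910) (nat_lit 76) (nat_lit 5) (nat_lit 80) (nat_lit 5) (nat_lit 81) (nat_lit 5) (nat_lit 391) (nat_lit 375) (nat_lit 134)) (XT.lf (nat_lit 0) (nat_lit 202521533295) (nat_lit 304) (nat_lit 35262772261) (nat_lit 380) (nat_lit 10995025583) (nat_lit 76) (nat_lit 5) (nat_lit 80) (nat_lit 5) (nat_lit 81) (nat_lit 5) (nat_lit 392) (nat_lit 375) (nat_lit 133))))))) (XT.nd (nat_lit 858) (nat_lit 684) (nat_lit 0) (XT.nd (nat_lit 390) (nat_lit 836) (nat_lit 0) (XT.nd (nat_lit 156) (nat_lit 608) (nat_lit 0) (XT.nd (nat_lit 78) (nat_lit 0) (nat_lit 0) (XT.lf (nat_lit 0) (nat_lit 17781875491) (nat_lit 380) (nat_lit 173193002665) (nat_lit 76) (nat_lit 65034002053) (nat_lit 71) (nat_lit 5) (nat_lit 76) (nat_lit 5) (nat_lit 72) (nat_lit 5) (nat_lit 393) (nat_lit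 375) (nat_lit 132)) (XT.lf (nat_lit 0) (nat_lit 49002357631) (nat_lit 380) (nat_lit 44382789487) (nat_lit 76) (nat_lit 170137035348) (nat_lit 71) (nat_lit 5) (nat_lit 76) (nat_lit 5) (nat_lit 72) (nat_lit 5) (nat_lit 394) (nat_lit 375) (nat_lit 131))) (XT.nd (nat_lit 78) (nat_lit 304) (nat_lit 0) (XT.lf (nat_lit 0) (nat_lit 83415254076) (nat_lit 380) (nat_lit 177631375610) (nat_lit 76) (nat_lit 10282950730) (nat_lit 67) (nat_lit 5) (nat_lit 72) (nat_lit 5) (nat_lit 68) (nat_lit 5) (nat_lit 395) (nat_lit 375) (nat_lit 130)) (XT.nd (nat_lit 78) (nat_lit 304) (nat_lit 0) (XT.lf (nat_lit 0) (nat_lit 121843593188) (nat_lit 380) (nat_lit 40808959553) (nat_lit 76) (nat_lit 116760055717) (nat_lit 67) (nat_lit 5) (nat_lit 72) (nat_lit 5) (nat_lit 68) (nat_lit 5) (nat_lit 396) (nat_lit 375) (nat_lit 129)) (XT.lf (nat_lit 0) (nat_lit 106255329077) (nat_lit 304) (nat_lit 57596894832) (nat_lit 380)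 (nat_lit 123964620344) (nat_lit 63) (nat_lit 5) (nat_lit 67) (nat_lit 5) (nat_lit 68) (nat_lit 5) (nat_lit 397) (nat_lit 375) (nat_lit 128))))) (XT.nd (nat_lit 234) (nat_lit 608) (nat_lit 0) (XT.nd (nat_lit 78) (nat_lit 228) (nat_lit 0) (XT.lf (nat_lit 0) (nat_lit 209486643403) (nat_lit 380) (nat_lit 35351497788) (nat_lit 76) (nat_lit 51726882864) (nat_lit 63) (nat_lit 5) (nat_lit 68) (nat_lit 5) (nat_lit 64) (nat_lit 5) (nat_lit 398) (nat_lit 375) (nat_lit 127)) (XT.nd (nat_lit 78) (nat_lit 0) (nat_lit 0) (XT.lf (nat_lit 0) (nat_lit 121100707823) (nat_lit 228) (nat_lit 139136945040) (nat_lit 304) (nat_lit 45371216609) (nat_lit 60) (nat_lit 5) (nat_lit 63) (nat_lit 5) (nat_lit 64) (nat_lit 5) (nat_lit 399) (nat_lit 375) (nat_lit 126)) (XT.lf (nat_lit 0) (nat_lit 286602768990) (nat_lit 228) (nat_lit 27522076501) (nat_lit 304) (nat_lit 950130104) (nat_lit 60) (nat_lit 5) (nat_lit 63) (nat_lit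 5) (nat_lit 64) (nat_lit 5) (nat_lit 400) (nat_lit 375) (nat_lit 125)))) (XT.nd (nat_lit 78) (nat_lit 228) (nat_lit 0) (XT.lf (nat_lit 0) (nat_lit 47848681905) (nat_lit 380) (nat_lit 187213188975) (nat_lit 76) (nat_lit 89735892150) (nat_lit 55) (nat_lit 5) (nat_lit 60) (nat_lit 5) (nat_lit 56) (nat_lit 5) (nat_lit 401) (nat_lit 375) (nat_lit 124)) (XT.nd (nat_lit 78) (nat_lit 228) (nat_lit 0) (XT.lf (nat_lit 0) (nat_lit 99996722153) (nat_lit 380) (nat_lit 22524636746) (nat_lit 76) (nat_lit 212437491292) (nat_lit 55) (nat_lit 5) (nat_lit 60) (nat_lit 5) (nat_lit 56) (nat_lit 5) (nat_lit 402) (nat_lit 375) (nat_lit 123)) (XT.lf (nat_lit 0) (nat_lit 155371114142) (nat_lit 228) (nat_lit 1806772883) (nat_lit 304) (nat_lit 188328818613) (nat_lit 52) (nat_lit 5) (nat_lit 55) (nat_lit 5) (nat_lit 56) (nat_lit 5) (nat_lit 403) (nat_lit 375) (nat_lit 122)))))) (XT.nd (nat_lit 468) (nat_lit 0) (nat_lit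 0) (XT.nd (nat_lit 234) (nat_lit 456) (nat_lit 0) (XT.nd (nat_lit 78) (nat_lit 228) (nat_lit 0) (XT.lf (nat_lit 0) (nat_lit 219556493453) (nat_lit 304) (nat_lit 15576272043) (nat_lit 76) (nat_lit 121332269252) (nat_lit 52) (nat_lit 5) (nat_lit 56) (nat_lit 5) (nat_lit 53) (nat_lit 5) (nat_lit 404) (nat_lit 375) (nat_lit 121)) (XT.nd (nat_lit 78) (nat_lit 0) (nat_lit 0) (XT.lf (nat_lit 0) (nat_lit 173225623363) (nat_lit 228) (nat_lit 114562511418) (nat_lit 304) (nat_lit 80046440357) (nat_lit 49) (nat_lit 5) (nat_lit 52) (nat_lit 5) (nat_lit 53) (nat_lit 5) (nat_lit 405) (nat_lit 375) (nat_lit 120)) (XT.lf (nat_lit 0) (nat_lit 359887342964) (nat_lit 304) (nat_lit 7943334209) (nat_lit 76) (nat_lit 11919116186) (nat_lit 49) (nat_lit 5) (nat_lit 53) (nat_lit 5) (nat_lit 50) (nat_lit 5) (nat_lit 406) (nat_lit 375) (nat_lit 119)))) (XT.nd (nat_lit 78) (nat_lit 228) (nat_lit 0) (XT.lf (nat_lit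 0) (nat_lit 46904786256) (nat_lit 228) (nat_lit 200439970555) (nat_lit 76) (nat_lit 144634144940) (nat_lit 46) (nat_lit 5) (nat_lit 49) (nat_lit 5) (nat_lit 47) (nat_lit 5) (nat_lit 407) (nat_lit 375) (nat_lit 118)) (XT.nd (nat_lit 78) (nat_lit 228) (nat_lit 0) (XT.lf (nat_lit 0) (nat_lit 116479557483) (nat_lit 228) (nat_lit 3869544756) (nat_lit 76) (nat_lit 284447248603) (nat_lit 46) (nat_lit 5) (nat_lit 49) (nat_lit 5) (nat_lit 47) (nat_lit 5) (nat_lit 408) (nat_lit 375) (nat_lit 117)) (XT.lf (nat_lit 0) (nat_lit 193056083278) (nat_lit 304) (nat_lit 209121934838) (nat_lit 76) (nat_lit 15900503515) (nat_lit 43) (nat_lit 5) (nat_lit 47) (nat_lit 5) (nat_lit 44) (nat_lit 5) (nat_lit 409) (nat_lit 375) (nat_lit 116))))) (XT.nd (nat_lit 44382) (nat_lit 0) (nat_lit 3572) (XT.nd (nat_lit 44226) (nat_lit 0) (nat_lit 4332) (XT.lf (nat_lit 0) (nat_lit 275500933294) (nat_lit 304) (nat_lit 1437236099)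 (nat_lit 76) (nat_lit 154984656709) (nat_lit 43) (nat_lit 5) (nat_lit 47) (nat_lit 5) (nat_lit 44) (nat_lit 5) (nat_lit 410) (nat_lit 375) (nat_lit 115)) (XT.nd (nat_lit 78) (nat_lit 0) (nat_lit 0) (XT.lf (nat_lit 0) (nat_lit 40888175685) (nat_lit 0) (nat_lit 40888175685) (nat_lit 684) (nat_lit 1432986339) (nat_lit 100) (nat_lit 5) (nat_lit 100) (nat_lit 3) (nat_lit 109) (nat_lit 3) (nat_lit 376) (nat_lit 376) (nat_lit 148)) (XT.lf (nat_lit 0) (nat_lit 163111340087) (nat_lit 0) (nat_lit 4532409157) (nat_lit 684) (nat_lit 2935278186) (nat_lit 100) (nat_lit 5) (nat_lit 100) (nat_lit 3) (nat_lit 109) (nat_lit 3) (nat_lit 377) (nat_lit 376) (nat_lit 147)))) (XT.nd (nat_lit 78) (nat_lit 760) (nat_lit 0) (XT.lf (nat_lit 76) (nat_lit 74762952239) (nat_lit 0) (nat_lit 99539044000) (nat_lit 760) (nat_lit 527268613) (nat_lit 101) (nat_lit 5) (nat_lit 100) (nat_lit 5) (nat_lit 110) (nat_lit 5) (nat_lit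 378) (nat_lit 376) (nat_lit 146)) (XT.nd (nat_lit 78) (nat_lit 0) (nat_lit 76) (XT.lf (nat_lit 0) (nat_lit 2139797880) (nat_lit 760) (nat_lit 18029007431) (nat_lit 836) (nat_lit 159111511590) (nat_lit 90) (nat_lit 5) (nat_lit 100) (nat_lit 5) (nat_lit 101) (nat_lit 5) (nat_lit 379) (nat_lit 376) (nat_lit 145)) (XT.lf (nat_lit 0) (nat_lit 7025185576) (nat_lit 760) (nat_lit 114549803669) (nat_lit 836) (nat_lit 62273365930) (nat_lit 91) (nat_lit 5) (nat_lit 101) (nat_lit 5) (nat_lit 102) (nat_lit 5) (nat_lit 380) (nat_lit 376) (nat_lit 144))))))))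
noncomputable def xc248 : XT := (XT.nd (nat_lit 1716) (nat_lit 684) (nat_lit 0) (XT.nd (nat_lit 858) (nat_lit 1900) (nat_lit 0) (XT.nd (nat_lit 390) (nat_lit 836) (nat_lit 0) (XT.nd (nat_lit 156) (nat_lit 0) (nat_lit 76) (XT.nd (nat_lit 78) (nat_lit 0) (nat_lit 76) (XT.lf (nat_lit 0) (nat_lit 12795688118) (nat_lit 760) (nat_lit 27346840943) (nat_lit 836) (nat_lit 148470224208) (nat_lit 91) (nat_lit 5) (nat_lit 101) (nat_lit 5) (nat_lit 102) (nat_lit 5) (nat_lit 381) (nat_lit 376) (nat_lit 143)) (XT.lf (nat_lit 0) (nat_lit 20615541720) (nat_lit 760) (nat_lit 127949325362) (nat_lit 836) (nat_lit 44962463062) (nat_lit 92) (nat_lit 5) (nat_lit 102) (nat_lit 5) (nat_lit 103) (nat_lit 5) (nat_lit 382) (nat_lit 376) (nat_lit 142))) (XT.nd (nat_lit 78) (nat_lit 0) (nat_lit 76) (XT.lf (nat_lit 0) (nat_lit 29955071524) (nat_lit 760) (nat_lit 35231718937) (nat_lit 836) (nat_lit 133444411391) (nat_lit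 92) (nat_lit 5) (nat_lit 102) (nat_lit 5) (nat_lit 103) (nat_lit 5) (nat_lit 383) (nat_lit 376) (nat_lit 141)) (XT.nd (nat_lit 78) (nat_lit 0) (nat_lit 0) (XT.lf (nat_lit 0) (nat_lit 41128962200) (nat_lit 760) (nat_lit 140129996981) (nat_lit 836) (nat_lit 22662938900) (nat_lit 93) (nat_lit 5) (nat_lit 103) (nat_lit 5) (nat_lit 104) (nat_lit 5) (nat_lit 384) (nat_lit 376) (nat_lit 140)) (XT.lf (nat_lit 0) (nat_lit 54536525717) (nat_lit 760) (nat_lit 41535932096) (nat_lit 836) (nat_lit 113320922542) (nat_lit 93) (nat_lit 5) (nat_lit 103) (nat_lit 5) (nat_lit 104) (nat_lit 5) (nat_lit 385) (nat_lit 376) (nat_lit 139))))) (XT.nd (nat_lit 234) (nat_lit 380) (nat_lit 0) (XT.nd (nat_lit 78) (nat_lit 608) (nat_lit 0) (XT.lf (nat_lit 76) (nat_lit 64037348409) (nat_lit 0) (nat_lit 5576821261) (nat_lit 836) (nat_lit 145474282100) (nat_lit 94) (nat_lit 5) (nat_lit 93) (nat_lit 5) (nat_lit 104) (nat_lit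 5) (nat_lit 386) (nat_lit 376) (nat_lit 138)) (XT.nd (nat_lit 78) (nat_lit 684) (nat_lit 0) (XT.lf (nat_lit 0) (nat_lit 87557027334) (nat_lit 760) (nat_lit 46109861933) (nat_lit 76) (nat_lit 87295821049) (nat_lit 94) (nat_lit 5) (nat_lit 104) (nat_lit 5) (nat_lit 95) (nat_lit 5) (nat_lit 387) (nat_lit 376) (nat_lit 137)) (XT.lf (nat_lit 0) (nat_lit 66102632891) (nat_lit 684) (nat_lit 41417773763) (nat_lit 760) (nat_lit 119554106326) (nat_lit 85) (nat_lit 5) (nat_lit 94) (nat_lit 5) (nat_lit 95) (nat_lit 5) (nat_lit 388) (nat_lit 376) (nat_lit 136)))) (XT.nd (nat_lit 78) (nat_lit 380) (nat_lit 0) (XT.lf (nat_lit 0) (nat_lit 130141193696) (nat_lit 760) (nat_lit 48804798770) (nat_lit 76) (nat_lit 54462951493) (nat_lit 85) (nat_lit 5) (nat_lit 95) (nat_lit 5) (nat_lit 86) (nat_lit 5) (nat_lit 389) (nat_lit 376) (nat_lit 135)) (XT.nd (nat_lit 78) (nat_lit 0) (nat_lit 0) (XT.lf (nat_lit 0) (nat_lit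 70549602888) (nat_lit 380) (nat_lit 85123789689) (nat_lit 456) (nat_lit 84297685404) (nat_lit 80) (nat_lit 5) (nat_lit 85) (nat_lit 5) (nat_lit 86) (nat_lit 5) (nat_lit 390) (nat_lit 376) (nat_lit 134)) (XT.lf (nat_lit 0) (nat_lit 183531250343) (nat_lit 456) (nat_lit 49476557330) (nat_lit 76) (nat_lit 13801058694) (nat_lit 80) (nat_lit 5) (nat_lit 86) (nat_lit 5) (nat_lit 81) (nat_lit 5) (nat_lit 391) (nat_lit 376) (nat_lit 133)))))) (XT.nd (nat_lit 390) (nat_lit 912) (nat_lit 0) (XT.nd (nat_lit 156) (nat_lit 684) (nat_lit 0) (XT.nd (nat_lit 78) (nat_lit 0) (nat_lit 0) (XT.lf (nat_lit 0) (nat_lit 77552208784) (nat_lit 304) (nat_lit 137835993739) (nat_lit 380) (nat_lit 38470031680) (nat_lit 76) (nat_lit 5) (nat_lit 80) (nat_lit 5) (nat_lit 81) (nat_lit 5) (nat_lit 392) (nat_lit 376) (nat_lit 132)) (XT.lf (nat_lit 0) (nat_lit 212650048275) (nat_lit 304) (nat_lit 37025788186) (nat_lit 380)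 (nat_lit 11542342361) (nat_lit 76) (nat_lit 5) (nat_lit 80) (nat_lit 5) (nat_lit 81) (nat_lit 5) (nat_lit 393) (nat_lit 376) (nat_lit 131))) (XT.nd (nat_lit 78) (nat_lit 304) (nat_lit 0) (XT.lf (nat_lit 0) (nat_lit 18673255378) (nat_lit 380) (nat_lit 181850060346) (nat_lit 76) (nat_lit 68285891386) (nat_lit 71) (nat_lit 5) (nat_lit 76) (nat_lit 5) (nat_lit 72) (nat_lit 5) (nat_lit 394) (nat_lit 376) (nat_lit 130)) (XT.nd (nat_lit 78) (nat_lit 304) (nat_lit 0) (XT.lf (nat_lit 0) (nat_lit 51454652762) (nat_lit 380) (nat_lit 46599459958) (nat_lit 76) (nat_lit 178644067335) (nat_lit 71) (nat_lit 5) (nat_lit 76) (nat_lit 5) (nat_lit 72) (nat_lit 5) (nat_lit 395) (nat_lit 376) (nat_lit 129)) (XT.lf (nat_lit 0) (nat_lit 87588133238) (nat_lit 380) (nat_lit 186510412052) (nat_lit 76) (nat_lit 10797405781) (nat_lit 67) (nat_lit 5) (nat_lit 72) (nat_lit 5) (nat_lit 68) (nat_lit 5) (nat_lit 396) (nat_lit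 376) (nat_lit 128))))) (XT.nd (nat_lit 234) (nat_lit 608) (nat_lit 0) (XT.nd (nat_lit 78) (nat_lit 304) (nat_lit 0) (XT.lf (nat_lit 0) (nat_lit 127937788522) (nat_lit 380) (nat_lit 42846995780) (nat_lit 76) (nat_lit 122598351374) (nat_lit 67) (nat_lit 5) (nat_lit 72) (nat_lit 5) (nat_lit 68) (nat_lit 5) (nat_lit 397) (nat_lit 376) (nat_lit 127)) (XT.nd (nat_lit 78) (nat_lit 0) (nat_lit 0) (XT.lf (nat_lit 0) (nat_lit 111570468383) (nat_lit 304) (nat_lit 60476323458) (nat_lit 380) (nat_lit 130160794481) (nat_lit 63) (nat_lit 5) (nat_lit 67) (nat_lit 5) (nat_lit 68) (nat_lit 5) (nat_lit 398) (nat_lit 376) (nat_lit 126)) (XT.lf (nat_lit 0) (nat_lit 219962845319) (nat_lit 380) (nat_lit 37116723630) (nat_lit 76) (nat_lit 54313610624) (nat_lit 63) (nat_lit 5) (nat_lit 68) (nat_lit 5) (nat_lit 64) (nat_lit 5) (nat_lit 399) (nat_lit 376) (nat_lit 125)))) (XT.nd (nat_lit 78) (nat_lit 380) (nat_lit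 0) (XT.lf (nat_lit 0) (nat_lit 127158054374) (nat_lit 228) (nat_lit 146093297926) (nat_lit 304) (nat_lit 47637867713) (nat_lit 60) (nat_lit 5) (nat_lit 63) (nat_lit 5) (nat_lit 64) (nat_lit 5) (nat_lit 400) (nat_lit 376) (nat_lit 124)) (XT.nd (nat_lit 78) (nat_lit 380) (nat_lit 0) (XT.lf (nat_lit 0) (nat_lit 300935108544) (nat_lit 228) (nat_lit 28897709502) (nat_lit 304) (nat_lit 995817822) (nat_lit 60) (nat_lit 5) (nat_lit 63) (nat_lit 5) (nat_lit 64) (nat_lit 5) (nat_lit 401) (nat_lit 376) (nat_lit 123)) (XT.lf (nat_lit 0) (nat_lit 50242835486) (nat_lit 380) (nat_lit 196571544312) (nat_lit 76) (nat_lit 94223183601) (nat_lit 55) (nat_lit 5) (nat_lit 60) (nat_lit 5) (nat_lit 56) (nat_lit 5) (nat_lit 402) (nat_lit 376) (nat_lit 122))))))) (XT.nd (nat_lit 45162) (nat_lit 0) (nat_lit 2584) (XT.nd (nat_lit 390) (nat_lit 228) (nat_lit 0) (XT.nd (nat_lit 156) (nat_lit 228) (nat_lit 0) (XT.nd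 (nat_lit 78) (nat_lit 228) (nat_lit 0) (XT.lf (nat_lit 0) (nat_lit 104998195866) (nat_lit 380) (nat_lit 23648674191) (nat_lit 76) (nat_lit 223059839041) (nat_lit 55) (nat_lit 5) (nat_lit 60) (nat_lit 5) (nat_lit 56) (nat_lit 5) (nat_lit 403) (nat_lit 376) (nat_lit 121)) (XT.lf (nat_lit 0) (nat_lit 163141828848) (nat_lit 228) (nat_lit 1896545861) (nat_lit 304) (nat_lit 197743584905) (nat_lit 52) (nat_lit 5) (nat_lit 55) (nat_lit 5) (nat_lit 56) (nat_lit 5) (nat_lit 404) (nat_lit 376) (nat_lit 120))) (XT.nd (nat_lit 78) (nat_lit 228) (nat_lit 0) (XT.lf (nat_lit 0) (nat_lit 230535843996) (nat_lit 304) (nat_lit 16352960433) (nat_lit 76) (nat_lit 127399404202) (nat_lit 52) (nat_lit 5) (nat_lit 56) (nat_lit 5) (nat_lit 53) (nat_lit 5) (nat_lit 405) (nat_lit 376) (nat_lit 119)) (XT.nd (nat_lit 78) (nat_lit 0) (nat_lit 0) (XT.lf (nat_lit 0) (nat_lit 181888995466) (nat_lit 228) (nat_lit 120290031909)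 (nat_lit 304) (nat_lit 84047200739) (nat_lit 49) (nat_lit 5) (nat_lit 52) (nat_lit 5) (nat_lit 53) (nat_lit 5) (nat_lit 406) (nat_lit 376) (nat_lit 118)) (XT.lf (nat_lit 0) (nat_lit 377883134209) (nat_lit 304) (nat_lit 8338446378) (nat_lit 76) (nat_lit 12515629818) (nat_lit 49) (nat_lit 5) (nat_lit 53) (nat_lit 5) (nat_lit 50) (nat_lit 5) (nat_lit 407) (nat_lit 376) (nat_lit 117))))) (XT.nd (nat_lit 44538) (nat_lit 0) (nat_lit 3344) (XT.nd (nat_lit 78) (nat_lit 0) (nat_lit 0) (XT.lf (nat_lit 0) (nat_lit 49251437469) (nat_lit 228) (nat_lit 210459899711) (nat_lit 76) (nat_lit 151866437778) (nat_lit 46) (nat_lit 5) (nat_lit 49) (nat_lit 5) (nat_lit 47) (nat_lit 5) (nat_lit 408) (nat_lit 376) (nat_lit 116)) (XT.nd (nat_lit 44382) (nat_lit 0) (nat_lit 4104) (XT.lf (nat_lit 0) (nat_lit 122304880024) (nat_lit 228) (nat_lit 4061051163) (nat_lit 76) (nat_lit 298670168740) (nat_lit 46) (nat_lit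 5) (nat_lit 49) (nat_lit 5) (nat_lit 47) (nat_lit 5) (nat_lit 409) (nat_lit 376) (nat_lit 115)) (XT.lf (nat_lit 0) (nat_lit 42933681536) (nat_lit 0) (nat_lit 42933681536) (nat_lit 684) (nat_lit 1502328440) (nat_lit 100) (nat_lit 5) (nat_lit 100) (nat_lit 3) (nat_lit 109) (nat_lit 3) (nat_lit 377) (nat_lit 377) (nat_lit 146)))) (XT.nd (nat_lit 78) (nat_lit 760) (nat_lit 0) (XT.lf (nat_lit 0) (nat_lit 171268996743) (nat_lit 0) (nat_lit 4761119266) (nat_lit 684) (nat_lit 3077647399) (nat_lit 100) (nat_lit 5) (nat_lit 100) (nat_lit 3) (nat_lit 109) (nat_lit 3) (nat_lit 378) (nat_lit 377) (nat_lit 145)) (XT.nd (nat_lit 78) (nat_lit 760) (nat_lit 0) (XT.lf (nat_lit 76) (nat_lit 78503399817) (nat_lit 0) (nat_lit 104517681360) (nat_lit 760) (nat_lit 549441539) (nat_lit 101) (nat_lit 5) (nat_lit 100) (nat_lit 5) (nat_lit 110) (nat_lit 5) (nat_lit 379) (nat_lit 377) (nat_lit 144)) (XT.lf (nat_lit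 0) (nat_lit 2250650995) (nat_lit 760) (nat_lit 18928134070) (nat_lit 836) (nat_lit 167065348966) (nat_lit 90) (nat_lit 5) (nat_lit 100) (nat_lit 5) (nat_lit 101) (nat_lit 5) (nat_lit 380) (nat_lit 377) (nat_lit 143)))))) (XT.nd (nat_lit 468) (nat_lit 836) (nat_lit 0) (XT.nd (nat_lit 234) (nat_lit 0) (nat_lit 76) (XT.nd (nat_lit 78) (nat_lit 0) (nat_lit 0) (XT.lf (nat_lit 0) (nat_lit 7380137502) (nat_lit 760) (nat_lit 120274794257) (nat_lit 836) (nat_lit 65385651253) (nat_lit 91) (nat_lit 5) (nat_lit 101) (nat_lit 5) (nat_lit 102) (nat_lit 5) (nat_lit 381) (nat_lit 377) (nat_lit 142)) (XT.nd (nat_lit 78) (nat_lit 0) (nat_lit 76) (XT.lf (nat_lit 0) (nat_lit 13438989331) (nat_lit 760) (nat_lit 28711802424) (nat_lit 836) (nat_lit 155892418302) (nat_lit 91) (nat_lit 5) (nat_lit 101) (nat_lit 5) (nat_lit 102) (nat_lit 5) (nat_lit 382) (nat_lit 377) (nat_lit 141)) (XT.lf (nat_lit 0) (nat_lit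 21649688418) (nat_lit 760) (nat_lit 134344259072) (nat_lit 836) (nat_lit 47209575884) (nat_lit 92) (nat_lit 5) (nat_lit 102) (nat_lit 5) (nat_lit 103) (nat_lit 5) (nat_lit 383) (nat_lit 377) (nat_lit 140)))) (XT.nd (nat_lit 78) (nat_lit 0) (nat_lit 76) (XT.lf (nat_lit 0) (nat_lit 31456034255) (nat_lit 760) (nat_lit 36990892924) (nat_lit 836) (nat_lit 140115669741) (nat_lit 92) (nat_lit 5) (nat_lit 102) (nat_lit 5) (nat_lit 103) (nat_lit 5) (nat_lit 384) (nat_lit 377) (nat_lit 139)) (XT.nd (nat_lit 78) (nat_lit 0) (nat_lit 0) (XT.lf (nat_lit 0) (nat_lit 43188492451) (nat_lit 760) (nat_lit 147133953506) (nat_lit 836) (nat_lit 23795388570) (nat_lit 93) (nat_lit 5) (nat_lit 103) (nat_lit 5) (nat_lit 104) (nat_lit 5) (nat_lit 385) (nat_lit 377) (nat_lit 138)) (XT.lf (nat_lit 0) (nat_lit 57266287376) (nat_lit 760) (nat_lit 43610306487) (nat_lit 836) (nat_lit 118986304598) (nat_lit 93) (nat_lit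 5) (nat_lit 103) (nat_lit 5) (nat_lit 104) (nat_lit 5) (nat_lit 386) (nat_lit 377) (nat_lit 137))))) (XT.nd (nat_lit 234) (nat_lit 380) (nat_lit 0) (XT.nd (nat_lit 78) (nat_lit 608) (nat_lit 0) (XT.lf (nat_lit 76) (nat_lit 67241598976) (nat_lit 0) (nat_lit 5856111979) (nat_lit 836) (nat_lit 152745017818) (nat_lit 94) (nat_lit 5) (nat_lit 93) (nat_lit 5) (nat_lit 104) (nat_lit 5) (nat_lit 387) (nat_lit 377) (nat_lit 136)) (XT.nd (nat_lit 78) (nat_lit 684) (nat_lit 0) (XT.lf (nat_lit 0) (nat_lit 91937569920) (nat_lit 760) (nat_lit 48412940028) (nat_lit 76) (nat_lit 91660197566) (nat_lit 94) (nat_lit 5) (nat_lit 104) (nat_lit 5) (nat_lit 95) (nat_lit 5) (nat_lit 388) (nat_lit 377) (nat_lit 135)) (XT.lf (nat_lit 0) (nat_lit 69410140586) (nat_lit 684) (nat_lit 43488886563) (nat_lit 760) (nat_lit 125529077892) (nat_lit 85) (nat_lit 5) (nat_lit 94) (nat_lit 5) (nat_lit 95) (nat_lit 5) (nat_lit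 389) (nat_lit 377) (nat_lit 134)))) (XT.nd (nat_lit 78) (nat_lit 380) (nat_lit 0) (XT.lf (nat_lit 0) (nat_lit 136650726394) (nat_lit 760) (nat_lit 51242645244) (nat_lit 76) (nat_lit 57185892460) (nat_lit 85) (nat_lit 5) (nat_lit 95) (nat_lit 5) (nat_lit 86) (nat_lit 5) (nat_lit 390) (nat_lit 377) (nat_lit 133)) (XT.nd (nat_lit 78) (nat_lit 0) (nat_lit 0) (XT.lf (nat_lit 0) (nat_lit 74079437892) (nat_lit 380) (nat_lit 89380016330) (nat_lit 456) (nat_lit 88510054811) (nat_lit 80) (nat_lit 5) (nat_lit 85) (nat_lit 5) (nat_lit 86) (nat_lit 5) (nat_lit 391) (nat_lit 377) (nat_lit 132)) (XT.lf (nat_lit 0) (nat_lit 192710090418) (nat_lit 456) (nat_lit 51948024923) (nat_lit 76) (nat_lit 14491077375) (nat_lit 80) (nat_lit 5) (nat_lit 86) (nat_lit 5) (nat_lit 81) (nat_lit 5) (nat_lit 392) (nat_lit 377) (nat_lit 131))))))))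
noncomputable def xc249 : XT := (XT.nd (nat_lit 46176) (nat_lit 0) (nat_lit 456) (XT.nd (nat_lit 858) (nat_lit 684) (nat_lit 0) (XT.nd (nat_lit 390) (nat_lit 912) (nat_lit 0) (XT.nd (nat_lit 156) (nat_lit 684) (nat_lit 0) (XT.nd (nat_lit 78) (nat_lit 0) (nat_lit 0) (XT.lf (nat_lit 0) (nat_lit 81432141428) (nat_lit 304) (nat_lit 144727676580) (nat_lit 380) (nat_lit 40391214691) (nat_lit 76) (nat_lit 5) (nat_lit 80) (nat_lit 5) (nat_lit 81) (nat_lit 5) (nat_lit 393) (nat_lit 377) (nat_lit 130)) (XT.lf (nat_lit 0) (nat_lit 223284762312) (nat_lit 304) (nat_lit 38876966314) (nat_lit 380) (nat_lit 12117251315) (nat_lit 76) (nat_lit 5) (nat_lit 80) (nat_lit 5) (nat_lit 81) (nat_lit 5) (nat_lit 394) (nat_lit 377) (nat_lit 129))) (XT.nd (nat_lit 78) (nat_lit 304) (nat_lit 0) (XT.lf (nat_lit 0) (nat_lit 19608991718) (nat_lit 380) (nat_lit 190940211932) (nat_lit 76) (nat_lit 71700357593) (nat_lit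 71) (nat_lit 5) (nat_lit 76) (nat_lit 5) (nat_lit 72) (nat_lit 5) (nat_lit 395) (nat_lit 377) (nat_lit 128)) (XT.nd (nat_lit 78) (nat_lit 304) (nat_lit 0) (XT.lf (nat_lit 0) (nat_lit 54029360230) (nat_lit 380) (nat_lit 48927193498) (nat_lit 76) (nat_lit 187576434166) (nat_lit 71) (nat_lit 5) (nat_lit 76) (nat_lit 5) (nat_lit 72) (nat_lit 5) (nat_lit 396) (nat_lit 377) (nat_lit 127)) (XT.lf (nat_lit 0) (nat_lit 91969459589) (nat_lit 380) (nat_lit 195833635748) (nat_lit 76) (nat_lit 11337554995) (nat_lit 67) (nat_lit 5) (nat_lit 72) (nat_lit 5) (nat_lit 68) (nat_lit 5) (nat_lit 397) (nat_lit 377) (nat_lit 126))))) (XT.nd (nat_lit 234) (nat_lit 608) (nat_lit 0) (XT.nd (nat_lit 78) (nat_lit 304) (nat_lit 0) (XT.lf (nat_lit 0) (nat_lit 134336506224) (nat_lit 380) (nat_lit 44987158039) (nat_lit 76) (nat_lit 128728534585) (nat_lit 67) (nat_lit 5) (nat_lit 72) (nat_lit 5) (nat_lit 68) (nat_lit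 5) (nat_lit 398) (nat_lit 377) (nat_lit 125)) (XT.nd (nat_lit 78) (nat_lit 0) (nat_lit 0) (XT.lf (nat_lit 0) (nat_lit 117151144049) (nat_lit 304) (nat_lit 63499762201) (nat_lit 380) (nat_lit 136666968554) (nat_lit 63) (nat_lit 5) (nat_lit 67) (nat_lit 5) (nat_lit 68) (nat_lit 5) (nat_lit 399) (nat_lit 377) (nat_lit 124)) (XT.lf (nat_lit 0) (nat_lit 230962683499) (nat_lit 380) (nat_lit 38970429156) (nat_lit 76) (nat_lit 57029639107) (nat_lit 63) (nat_lit 5) (nat_lit 68) (nat_lit 5) (nat_lit 64) (nat_lit 5) (nat_lit 400) (nat_lit 377) (nat_lit 123)))) (XT.nd (nat_lit 78) (nat_lit 380) (nat_lit 0) (XT.lf (nat_lit 0) (nat_lit 133518053382) (nat_lit 228) (nat_lit 153397514418) (nat_lit 304) (nat_lit 50018028920) (nat_lit 60) (nat_lit 5) (nat_lit 63) (nat_lit 5) (nat_lit 64) (nat_lit 5) (nat_lit 401) (nat_lit 377) (nat_lit 122)) (XT.nd (nat_lit 78) (nat_lit 380) (nat_lit 0) (XT.lf (nat_lit 0)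 (nat_lit 315983860438) (nat_lit 228) (nat_lit 30342167926) (nat_lit 304) (nat_lit 1043959020) (nat_lit 60) (nat_lit 5) (nat_lit 63) (nat_lit 5) (nat_lit 64) (nat_lit 5) (nat_lit 402) (nat_lit 377) (nat_lit 121)) (XT.lf (nat_lit 0) (nat_lit 52756536885) (nat_lit 380) (nat_lit 206398031631) (nat_lit 76) (nat_lit 98934793433) (nat_lit 55) (nat_lit 5) (nat_lit 60) (nat_lit 5) (nat_lit 56) (nat_lit 5) (nat_lit 403) (nat_lit 377) (nat_lit 120)))))) (XT.nd (nat_lit 44850) (nat_lit 0) (nat_lit 3344) (XT.nd (nat_lit 234) (nat_lit 456) (nat_lit 0) (XT.nd (nat_lit 78) (nat_lit 228) (nat_lit 0) (XT.lf (nat_lit 0) (nat_lit 110249591016) (nat_lit 380) (nat_lit 24829117522) (nat_lit 76) (nat_lit 234213260185) (nat_lit 55) (nat_lit 5) (nat_lit 60) (nat_lit 5) (nat_lit 56) (nat_lit 5) (nat_lit 404) (nat_lit 377) (nat_lit 119)) (XT.nd (nat_lit 78) (nat_lit 0) (nat_lit 0) (XT.lf (nat_lit 0) (nat_lit 171300878566)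 (nat_lit 228) (nat_lit 1990860078) (nat_lit 304) (nat_lit 207629245204) (nat_lit 52) (nat_lit 5) (nat_lit 55) (nat_lit 5) (nat_lit 56) (nat_lit 5) (nat_lit 405) (nat_lit 377) (nat_lit 118)) (XT.lf (nat_lit 0) (nat_lit 242064020205) (nat_lit 304) (nat_lit 17168680824) (nat_lit 76) (nat_lit 133769847416) (nat_lit 52) (nat_lit 5) (nat_lit 56) (nat_lit 5) (nat_lit 53) (nat_lit 5) (nat_lit 406) (nat_lit 377) (nat_lit 117)))) (XT.nd (nat_lit 78) (nat_lit 228) (nat_lit 0) (XT.lf (nat_lit 0) (nat_lit 190985341780) (nat_lit 228) (nat_lit 126303984679) (nat_lit 304) (nat_lit 88248144327) (nat_lit 49) (nat_lit 5) (nat_lit 52) (nat_lit 5) (nat_lit 53) (nat_lit 5) (nat_lit 407) (nat_lit 377) (nat_lit 116)) (XT.nd (nat_lit 78) (nat_lit 228) (nat_lit 0) (XT.lf (nat_lit 0) (nat_lit 396778582618) (nat_lit 304) (nat_lit 8753505168) (nat_lit 76) (nat_lit 13141917270) (nat_lit 49) (nat_lit 5) (nat_lit 53)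 (nat_lit 5) (nat_lit 50) (nat_lit 5) (nat_lit 408) (nat_lit 377) (nat_lit 115)) (XT.lf (nat_lit 0) (nat_lit 51715289978) (nat_lit 228) (nat_lit 220981017715) (nat_lit 76) (nat_lit 159460290816) (nat_lit 46) (nat_lit 5) (nat_lit 49) (nat_lit 5) (nat_lit 47) (nat_lit 5) (nat_lit 409) (nat_lit 377) (nat_lit 114))))) (XT.nd (nat_lit 234) (nat_lit 760) (nat_lit 0) (XT.nd (nat_lit 78) (nat_lit 0) (nat_lit 0) (XT.lf (nat_lit 0) (nat_lit 45081360686) (nat_lit 0) (nat_lit 45081360686) (nat_lit 684) (nat_lit 1575352150) (nat_lit 100) (nat_lit 5) (nat_lit 100) (nat_lit 3) (nat_lit 109) (nat_lit 3) (nat_lit 378) (nat_lit 378) (nat_lit 144)) (XT.nd (nat_lit 78) (nat_lit 0) (nat_lit 0) (XT.lf (nat_lit 0) (nat_lit 179834341956) (nat_lit 0) (nat_lit 5001070605) (nat_lit 684) (nat_lit 3227543649) (nat_lit 100) (nat_lit 5) (nat_lit 100) (nat_lit 3) (nat_lit 109) (nat_lit 3) (nat_lit 379) (nat_lit 378) (nat_lit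 143)) (XT.lf (nat_lit 76) (nat_lit 82430655945) (nat_lit 0) (nat_lit 109745093918) (nat_lit 760) (nat_lit 573112705) (nat_lit 101) (nat_lit 5) (nat_lit 100) (nat_lit 5) (nat_lit 110) (nat_lit 5) (nat_lit 380) (nat_lit 378) (nat_lit 142)))) (XT.nd (nat_lit 78) (nat_lit 0) (nat_lit 76) (XT.lf (nat_lit 0) (nat_lit 2366687600) (nat_lit 760) (nat_lit 19872433080) (nat_lit 836) (nat_lit 175417039813) (nat_lit 90) (nat_lit 5) (nat_lit 100) (nat_lit 5) (nat_lit 101) (nat_lit 5) (nat_lit 381) (nat_lit 378) (nat_lit 141)) (XT.nd (nat_lit 78) (nat_lit 0) (nat_lit 0) (XT.lf (nat_lit 0) (nat_lit 7752493717) (nat_lit 760) (nat_lit 126286266764) (nat_lit 836) (nat_lit 68653679419) (nat_lit 91) (nat_lit 5) (nat_lit 101) (nat_lit 5) (nat_lit 102) (nat_lit 5) (nat_lit 382) (nat_lit 378) (nat_lit 140)) (XT.lf (nat_lit 0) (nat_lit 14114128645) (nat_lit 760) (nat_lit 30145233301) (nat_lit 836) (nat_lit 163685844553)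 (nat_lit 91) (nat_lit 5) (nat_lit 101) (nat_lit 5) (nat_lit 102) (nat_lit 5) (nat_lit 383) (nat_lit 378) (nat_lit 139))))))) (XT.nd (nat_lit 858) (nat_lit 1824) (nat_lit 0) (XT.nd (nat_lit 390) (nat_lit 1216) (nat_lit 0) (XT.nd (nat_lit 156) (nat_lit 0) (nat_lit 76) (XT.nd (nat_lit 78) (nat_lit 0) (nat_lit 0) (XT.lf (nat_lit 0) (nat_lit 22735229177) (nat_lit 760) (nat_lit 141059174921) (nat_lit 836) (nat_lit 49569138279) (nat_lit 92) (nat_lit 5) (nat_lit 102) (nat_lit 5) (nat_lit 103) (nat_lit 5) (nat_lit 384) (nat_lit 378) (nat_lit 138)) (XT.lf (nat_lit 0) (nat_lit 33031746765) (nat_lit 760) (nat_lit 38838249851) (nat_lit 836) (nat_lit 147120580466) (nat_lit 92) (nat_lit 5) (nat_lit 102) (nat_lit 5) (nat_lit 103) (nat_lit 5) (nat_lit 385) (nat_lit 378) (nat_lit 137))) (XT.nd (nat_lit 78) (nat_lit 0) (nat_lit 0) (XT.lf (nat_lit 0) (nat_lit 45350712667) (nat_lit 760) (nat_lit 154488344311)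 (nat_lit 836) (nat_lit 24984525550) (nat_lit 93) (nat_lit 5) (nat_lit 103) (nat_lit 5) (nat_lit 104) (nat_lit 5) (nat_lit 386) (nat_lit 378) (nat_lit 136)) (XT.nd (nat_lit 78) (nat_lit 0) (nat_lit 0) (XT.lf (nat_lit 0) (nat_lit 60132264214) (nat_lit 760) (nat_lit 45788624792) (nat_lit 836) (nat_lit 124935017496) (nat_lit 93) (nat_lit 5) (nat_lit 103) (nat_lit 5) (nat_lit 104) (nat_lit 5) (nat_lit 387) (nat_lit 378) (nat_lit 135)) (XT.lf (nat_lit 76) (nat_lit 70605840508) (nat_lit 0) (nat_lit 6149325428) (nat_lit 836) (nat_lit 160379567225) (nat_lit 94) (nat_lit 5) (nat_lit 93) (nat_lit 5) (nat_lit 104) (nat_lit 5) (nat_lit 388) (nat_lit 378) (nat_lit 134))))) (XT.nd (nat_lit 234) (nat_lit 684) (nat_lit 0) (XT.nd (nat_lit 78) (nat_lit 684) (nat_lit 0) (XT.lf (nat_lit 0) (nat_lit 96536889431) (nat_lit 760) (nat_lit 50831396551) (nat_lit 76) (nat_lit 96242831448) (nat_lit 94) (nat_lit 5)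 (nat_lit 104) (nat_lit 5) (nat_lit 95) (nat_lit 5) (nat_lit 389) (nat_lit 378) (nat_lit 133)) (XT.nd (nat_lit 78) (nat_lit 0) (nat_lit 0) (XT.lf (nat_lit 0) (nat_lit 72882802763) (nat_lit 684) (nat_lit 45663534167) (nat_lit 760) (nat_lit 131803052195) (nat_lit 85) (nat_lit 5) (nat_lit 94) (nat_lit 5) (nat_lit 95) (nat_lit 5) (nat_lit 390) (nat_lit 378) (nat_lit 132)) (XT.lf (nat_lit 0) (nat_lit 143485505810) (nat_lit 760) (nat_lit 53802606564) (nat_lit 76) (nat_lit 60044999683) (nat_lit 85) (nat_lit 5) (nat_lit 95) (nat_lit 5) (nat_lit 86) (nat_lit 5) (nat_lit 391) (nat_lit 378) (nat_lit 131)))) (XT.nd (nat_lit 78) (nat_lit 304) (nat_lit 0) (XT.lf (nat_lit 0) (nat_lit 77785545714) (nat_lit 380) (nat_lit 93849050848) (nat_lit 456) (nat_lit 92933276496) (nat_lit 80) (nat_lit 5) (nat_lit 85) (nat_lit 5) (nat_lit 86) (nat_lit 5) (nat_lit 392) (nat_lit 378) (nat_lit 130)) (XT.nd (nat_lit 78)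 (nat_lit 304) (nat_lit 0) (XT.lf (nat_lit 0) (nat_lit 202347660752) (nat_lit 456) (nat_lit 54543285331) (nat_lit 76) (nat_lit 15215600173) (nat_lit 80) (nat_lit 5) (nat_lit 86) (nat_lit 5) (nat_lit 81) (nat_lit 5) (nat_lit 393) (nat_lit 378) (nat_lit 129)) (XT.lf (nat_lit 0) (nat_lit 85505854808) (nat_lit 304) (nat_lit 151963954427) (nat_lit 380) (nat_lit 42408672413) (nat_lit 76) (nat_lit 5) (nat_lit 80) (nat_lit 5) (nat_lit 81) (nat_lit 5) (nat_lit 394) (nat_lit 378) (nat_lit 128)))))) (XT.nd (nat_lit 468) (nat_lit 836) (nat_lit 0) (XT.nd (nat_lit 234) (nat_lit 608) (nat_lit 0) (XT.nd (nat_lit 78) (nat_lit 380) (nat_lit 0) (XT.lf (nat_lit 0) (nat_lit 234451006436) (nat_lit 304) (nat_lit 40820713694) (nat_lit 380) (nat_lit 12721111011) (nat_lit 76) (nat_lit 5) (nat_lit 80) (nat_lit 5) (nat_lit 81) (nat_lit 5) (nat_lit 395) (nat_lit 378) (nat_lit 127)) (XT.nd (nat_lit 78) (nat_lit 0) (nat_lit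 0) (XT.lf (nat_lit 0) (nat_lit 20591322095) (nat_lit 380) (nat_lit 200485089711) (nat_lit 76) (nat_lit 75285531153) (nat_lit 71) (nat_lit 5) (nat_lit 76) (nat_lit 5) (nat_lit 72) (nat_lit 5) (nat_lit 396) (nat_lit 378) (nat_lit 126)) (XT.lf (nat_lit 0) (nat_lit 56732619471) (nat_lit 380) (nat_lit 51371521918) (nat_lit 76) (nat_lit 196955404141) (nat_lit 71) (nat_lit 5) (nat_lit 76) (nat_lit 5) (nat_lit 72) (nat_lit 5) (nat_lit 397) (nat_lit 378) (nat_lit 125)))) (XT.nd (nat_lit 78) (nat_lit 304) (nat_lit 0) (XT.lf (nat_lit 0) (nat_lit 96569673783) (nat_lit 380) (nat_lit 205623234174) (nat_lit 76) (nat_lit 11904685738) (nat_lit 67) (nat_lit 5) (nat_lit 72) (nat_lit 5) (nat_lit 68) (nat_lit 5) (nat_lit 398) (nat_lit 378) (nat_lit 124)) (XT.nd (nat_lit 78) (nat_lit 304) (nat_lit 0) (XT.lf (nat_lit 0) (nat_lit 141054989835) (nat_lit 380) (nat_lit 47234531787) (nat_lit 76) (nat_lit 135165202260)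 (nat_lit 67) (nat_lit 5) (nat_lit 72) (nat_lit 5) (nat_lit 68) (nat_lit 5) (nat_lit 399) (nat_lit 378) (nat_lit 123)) (XT.lf (nat_lit 0) (nat_lit 123010653403) (nat_lit 304) (nat_lit 66674407972) (nat_lit 380) (nat_lit 143498624781) (nat_lit 63) (nat_lit 5) (nat_lit 67) (nat_lit 5) (nat_lit 68) (nat_lit 5) (nat_lit 400) (nat_lit 378) (nat_lit 122))))) (XT.nd (nat_lit 234) (nat_lit 608) (nat_lit 0) (XT.nd (nat_lit 78) (nat_lit 228) (nat_lit 0) (XT.lf (nat_lit 0) (nat_lit 242512355919) (nat_lit 380) (nat_lit 40917018047) (nat_lit 76) (nat_lit 59881436665) (nat_lit 63) (nat_lit 5) (nat_lit 68) (nat_lit 5) (nat_lit 64) (nat_lit 5) (nat_lit 401) (nat_lit 378) (nat_lit 121)) (XT.nd (nat_lit 78) (nat_lit 0) (nat_lit 0) (XT.lf (nat_lit 0) (nat_lit 140195857448) (nat_lit 228) (nat_lit 161066983424) (nat_lit 304) (nat_lit 52517359230) (nat_lit 60) (nat_lit 5) (nat_lit 63) (nat_lit 5) (nat_lit 64)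 (nat_lit 5) (nat_lit 402) (nat_lit 378) (nat_lit 120)) (XT.lf (nat_lit 0) (nat_lit 331784864314) (nat_lit 228) (nat_lit 31858888974) (nat_lit 304) (nat_lit 1094660650) (nat_lit 60) (nat_lit 5) (nat_lit 63) (nat_lit 5) (nat_lit 64) (nat_lit 5) (nat_lit 403) (nat_lit 378) (nat_lit 119)))) (XT.nd (nat_lit 78) (nat_lit 228) (nat_lit 0) (XT.lf (nat_lit 0) (nat_lit 55395778355) (nat_lit 380) (nat_lit 216716037614) (nat_lit 76) (nat_lit 103881941859) (nat_lit 55) (nat_lit 5) (nat_lit 60) (nat_lit 5) (nat_lit 56) (nat_lit 5) (nat_lit 404) (nat_lit 378) (nat_lit 118)) (XT.nd (nat_lit 78) (nat_lit 228) (nat_lit 0) (XT.lf (nat_lit 0) (nat_lit 115763417829) (nat_lit 380) (nat_lit 26068768067) (nat_lit 76) (nat_lit 245924312485) (nat_lit 55) (nat_lit 5) (nat_lit 60) (nat_lit 5) (nat_lit 56) (nat_lit 5) (nat_lit 405) (nat_lit 378) (nat_lit 117)) (XT.lf (nat_lit 0) (nat_lit 179867698708) (nat_lit 228)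 (nat_lit 2089937706) (nat_lit 304) (nat_lit 218009329734) (nat_lit 52) (nat_lit 5) (nat_lit 55) (nat_lit 5) (nat_lit 56) (nat_lit 5) (nat_lit 406) (nat_lit 378) (nat_lit 116))))))))
noncomputable def xc250 : XT := (XT.nd (nat_lit 46332) (nat_lit 0) (nat_lit 228) (XT.nd (nat_lit 45396) (nat_lit 0) (nat_lit 1368) (XT.nd (nat_lit 44928) (nat_lit 0) (nat_lit 3116) (XT.nd (nat_lit 44694) (nat_lit 0) (nat_lit 3876) (XT.nd (nat_lit 78) (nat_lit 228) (nat_lit 0) (XT.lf (nat_lit 0) (nat_lit 254168476553) (nat_lit 304) (nat_lit 18025366447) (nat_lit 76) (nat_lit 140458768816) (nat_lit 52) (nat_lit 5) (nat_lit 56) (nat_lit 5) (nat_lit 53) (nat_lit 5) (nat_lit 407) (nat_lit 378) (nat_lit 115)) (XT.lf (nat_lit 0) (nat_lit 200536329086) (nat_lit 228) (nat_lit 132618686113) (nat_lit 304) (nat_lit 92659266782) (nat_lit 49) (nat_lit 5) (nat_lit 52) (nat_lit 5) (nat_lit 53) (nat_lit 5) (nat_lit 408) (nat_lit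 378) (nat_lit 114))) (XT.nd (nat_lit 78) (nat_lit 0) (nat_lit 0) (XT.lf (nat_lit 0) (nat_lit 47336331280) (nat_lit 0) (nat_lit 47336331280) (nat_lit 684) (nat_lit 1652221605) (nat_lit 100) (nat_lit 5) (nat_lit 100) (nat_lit 3) (nat_lit 109) (nat_lit 3) (nat_lit 379) (nat_lit 379) (nat_lit 142)) (XT.nd (nat_lit 78) (nat_lit 0) (nat_lit 0) (XT.lf (nat_lit 0) (nat_lit 188827778215) (nat_lit 0) (nat_lit 5252843297) (nat_lit 684) (nat_lit 3385305304) (nat_lit 100) (nat_lit 5) (nat_lit 100) (nat_lit 3) (nat_lit 109) (nat_lit 3) (nat_lit 380) (nat_lit 379) (nat_lit 141)) (XT.lf (nat_lit 76) (nat_lit 86554080930) (nat_lit 0) (nat_lit 115233734999) (nat_lit 760) (nat_lit 598320802) (nat_lit 101) (nat_lit 5) (nat_lit 100) (nat_lit 5) (nat_lit 110) (nat_lit 5) (nat_lit 381) (nat_lit 379) (nat_lit 140))))) (XT.nd (nat_lit 234) (nat_lit 0) (nat_lit 152) (XT.nd (nat_lit 78) (nat_lit 0) (nat_lit 76)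 (XT.lf (nat_lit 0) (nat_lit 2488200262) (nat_lit 760) (nat_lit 20864142993) (nat_lit 836) (nat_lit 184186461780) (nat_lit 90) (nat_lit 5) (nat_lit 100) (nat_lit 5) (nat_lit 101) (nat_lit 5) (nat_lit 382) (nat_lit 379) (nat_lit 139)) (XT.nd (nat_lit 78) (nat_lit 0) (nat_lit 0) (XT.lf (nat_lit 0) (nat_lit 8143156352) (nat_lit 760) (nat_lit 132598523679) (nat_lit 836) (nat_lit 72085225614) (nat_lit 91) (nat_lit 5) (nat_lit 101) (nat_lit 5) (nat_lit 102) (nat_lit 5) (nat_lit 383) (nat_lit 379) (nat_lit 138)) (XT.lf (nat_lit 0) (nat_lit 14822728363) (nat_lit 760) (nat_lit 31650536468) (nat_lit 836) (nat_lit 171869053185) (nat_lit 91) (nat_lit 5) (nat_lit 101) (nat_lit 5) (nat_lit 102) (nat_lit 5) (nat_lit 384) (nat_lit 379) (nat_lit 137)))) (XT.nd (nat_lit 78) (nat_lit 0) (nat_lit 0) (XT.lf (nat_lit 0) (nat_lit 23874762824) (nat_lit 760) (nat_lit 148110050125) (nat_lit 836) (nat_lit 52046763991)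 (nat_lit 92) (nat_lit 5) (nat_lit 102) (nat_lit 5) (nat_lit 103) (nat_lit 5) (nat_lit 385) (nat_lit 379) (nat_lit 136)) (XT.nd (nat_lit 78) (nat_lit 0) (nat_lit 76) (XT.lf (nat_lit 0) (nat_lit 34685974282) (nat_lit 760) (nat_lit 40778178017) (nat_lit 836) (nat_lit 154475817868) (nat_lit 92) (nat_lit 5) (nat_lit 102) (nat_lit 5) (nat_lit 103) (nat_lit 5) (nat_lit 386) (nat_lit 379) (nat_lit 135)) (XT.lf (nat_lit 0) (nat_lit 47620783985) (nat_lit 760) (nat_lit 162210669128) (nat_lit 836) (nat_lit 26233178178) (nat_lit 93) (nat_lit 5) (nat_lit 103) (nat_lit 5) (nat_lit 104) (nat_lit 5) (nat_lit 387) (nat_lit 379) (nat_lit 134)))))) (XT.nd (nat_lit 468) (nat_lit 988) (nat_lit 0) (XT.nd (nat_lit 234) (nat_lit 988) (nat_lit 0) (XT.nd (nat_lit 78) (nat_lit 0) (nat_lit 0) (XT.lf (nat_lit 0) (nat_lit 63141292363) (nat_lit 760) (nat_lit 48076063271) (nat_lit 836) (nat_lit 131181222037) (nat_lit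 93) (nat_lit 5) (nat_lit 103) (nat_lit 5) (nat_lit 104) (nat_lit 5) (nat_lit 388) (nat_lit 379) (nat_lit 133)) (XT.nd (nat_lit 78) (nat_lit 0) (nat_lit 76) (XT.lf (nat_lit 76) (nat_lit 74138093153) (nat_lit 0) (nat_lit 6457161631) (nat_lit 836) (nat_lit 168396095260) (nat_lit 94) (nat_lit 5) (nat_lit 93) (nat_lit 5) (nat_lit 104) (nat_lit 5) (nat_lit 389) (nat_lit 379) (nat_lit 132)) (XT.lf (nat_lit 0) (nat_lit 101365947975) (nat_lit 760) (nat_lit 53370979550) (nat_lit 76) (nat_lit 101054631980) (nat_lit 94) (nat_lit 5) (nat_lit 104) (nat_lit 5) (nat_lit 95) (nat_lit 5) (nat_lit 390) (nat_lit 379) (nat_lit 131)))) (XT.nd (nat_lit 78) (nat_lit 380) (nat_lit 0) (XT.lf (nat_lit 0) (nat_lit 76528897684) (nat_lit 684) (nat_lit 47946895253) (nat_lit 760) (nat_lit 138390955741) (nat_lit 85) (nat_lit 5) (nat_lit 94) (nat_lit 5) (nat_lit 95) (nat_lit 5) (nat_lit 391) (nat_lit 379) (nat_lit 130))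 (XT.nd (nat_lit 78) (nat_lit 380) (nat_lit 0) (XT.lf (nat_lit 0) (nat_lit 150661815654) (nat_lit 760) (nat_lit 56490767783) (nat_lit 76) (nat_lit 63047079689) (nat_lit 85) (nat_lit 5) (nat_lit 95) (nat_lit 5) (nat_lit 86) (nat_lit 5) (nat_lit 392) (nat_lit 379) (nat_lit 129)) (XT.lf (nat_lit 0) (nat_lit 81676760349) (nat_lit 380) (nat_lit 98541533960) (nat_lit 456) (nat_lit 97577871336) (nat_lit 80) (nat_lit 5) (nat_lit 85) (nat_lit 5) (nat_lit 86) (nat_lit 5) (nat_lit 393) (nat_lit 379) (nat_lit 128))))) (XT.nd (nat_lit 234) (nat_lit 684) (nat_lit 0) (XT.nd (nat_lit 78) (nat_lit 304) (nat_lit 0) (XT.lf (nat_lit 0) (nat_lit 212466917542) (nat_lit 456) (nat_lit 57268507795) (nat_lit 76) (nat_lit 15976352001) (nat_lit 80) (nat_lit 5) (nat_lit 86) (nat_lit 5) (nat_lit 81) (nat_lit 5) (nat_lit 394) (nat_lit 379) (nat_lit 127)) (XT.nd (nat_lit 78) (nat_lit 0) (nat_lit 0) (XT.lf (nat_lit 0)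 (nat_lit 89783058032) (nat_lit 304) (nat_lit 159562056019) (nat_lit 380) (nat_lit 44527198538) (nat_lit 76) (nat_lit 5) (nat_lit 80) (nat_lit 5) (nat_lit 81) (nat_lit 5) (nat_lit 395) (nat_lit 379) (nat_lit 126)) (XT.lf (nat_lit 0) (nat_lit 246175376266) (nat_lit 304) (nat_lit 42861657827) (nat_lit 380) (nat_lit 13355349900) (nat_lit 76) (nat_lit 5) (nat_lit 80) (nat_lit 5) (nat_lit 81) (nat_lit 5) (nat_lit 396) (nat_lit 379) (nat_lit 125)))) (XT.nd (nat_lit 78) (nat_lit 304) (nat_lit 0) (XT.lf (nat_lit 0) (nat_lit 21622594132) (nat_lit 380) (nat_lit 210507409668) (nat_lit 76) (nat_lit 79049948917) (nat_lit 71) (nat_lit 5) (nat_lit 76) (nat_lit 5) (nat_lit 72) (nat_lit 5) (nat_lit 397) (nat_lit 379) (nat_lit 124)) (XT.nd (nat_lit 78) (nat_lit 304) (nat_lit 0) (XT.lf (nat_lit 0) (nat_lit 59570875142) (nat_lit 380) (nat_lit 53938255606) (nat_lit 76) (nat_lit 206803308830) (nat_lit 71) (nat_lit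 5) (nat_lit 76) (nat_lit 5) (nat_lit 72) (nat_lit 5) (nat_lit 398) (nat_lit 379) (nat_lit 123)) (XT.lf (nat_lit 0) (nat_lit 101399736806) (nat_lit 380) (nat_lit 215902506212) (nat_lit 76) (nat_lit 12500149497) (nat_lit 67) (nat_lit 5) (nat_lit 72) (nat_lit 5) (nat_lit 68) (nat_lit 5) (nat_lit 399) (nat_lit 379) (nat_lit 122))))))) (XT.nd (nat_lit 45474) (nat_lit 0) (nat_lit 2508) (XT.nd (nat_lit 390) (nat_lit 608) (nat_lit 0) (XT.nd (nat_lit 156) (nat_lit 228) (nat_lit 0) (XT.nd (nat_lit 78) (nat_lit 304) (nat_lit 0) (XT.lf (nat_lit 0) (nat_lit 148109243454) (nat_lit 380) (nat_lit 49594458691) (nat_lit 76) (nat_lit 141923680918) (nat_lit 67) (nat_lit 5) (nat_lit 72) (nat_lit 5) (nat_lit 68) (nat_lit 5) (nat_lit 400) (nat_lit 379) (nat_lit 121)) (XT.lf (nat_lit 0) (nat_lit 129162956732) (nat_lit 304) (nat_lit 70007817859) (nat_lit 380) (nat_lit 150672021144) (nat_lit 63) (nat_lit 5) (nat_lit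 67) (nat_lit 5) (nat_lit 68) (nat_lit 5) (nat_lit 401) (nat_lit 379) (nat_lit 120))) (XT.nd (nat_lit 78) (nat_lit 228) (nat_lit 0) (XT.lf (nat_lit 0) (nat_lit 254639368948) (nat_lit 380) (nat_lit 42961116054) (nat_lit 76) (nat_lit 62875794759) (nat_lit 63) (nat_lit 5) (nat_lit 68) (nat_lit 5) (nat_lit 64) (nat_lit 5) (nat_lit 402) (nat_lit 379) (nat_lit 119)) (XT.nd (nat_lit 78) (nat_lit 0) (nat_lit 0) (XT.lf (nat_lit 0) (nat_lit 147207374943) (nat_lit 228) (nat_lit 169119963692) (nat_lit 304) (nat_lit 55141802124) (nat_lit 60) (nat_lit 5) (nat_lit 63) (nat_lit 5) (nat_lit 64) (nat_lit 5) (nat_lit 403) (nat_lit 379) (nat_lit 118)) (XT.lf (nat_lit 0) (nat_lit 348375750027) (nat_lit 228) (nat_lit 33451482086) (nat_lit 304) (nat_lit 1148036475) (nat_lit 60) (nat_lit 5) (nat_lit 63) (nat_lit 5) (nat_lit 64) (nat_lit 5) (nat_lit 404) (nat_lit 379) (nat_lit 117))))) (XT.nd (nat_lit 234) (nat_lit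 0) (nat_lit 0) (XT.nd (nat_lit 78) (nat_lit 228) (nat_lit 0) (XT.lf (nat_lit 0) (nat_lit 58166850379) (nat_lit 380) (nat_lit 227550120131) (nat_lit 76) (nat_lit 109076409704) (nat_lit 55) (nat_lit 5) (nat_lit 60) (nat_lit 5) (nat_lit 56) (nat_lit 5) (nat_lit 405) (nat_lit 379) (nat_lit 116)) (XT.nd (nat_lit 78) (nat_lit 228) (nat_lit 0) (XT.lf (nat_lit 0) (nat_lit 121552810727) (nat_lit 380) (nat_lit 27370568981) (nat_lit 76) (nat_lit 258220881207) (nat_lit 55) (nat_lit 5) (nat_lit 60) (nat_lit 5) (nat_lit 56) (nat_lit 5) (nat_lit 406) (nat_lit 379) (nat_lit 115)) (XT.lf (nat_lit 0) (nat_lit 188862694721) (nat_lit 228) (nat_lit 2194012483) (nat_lit 304) (nat_lit 228908546580) (nat_lit 52) (nat_lit 5) (nat_lit 55) (nat_lit 5) (nat_lit 56) (nat_lit 5) (nat_lit 407) (nat_lit 379) (nat_lit 114)))) (XT.nd (nat_lit 44694) (nat_lit 0) (nat_lit 3648) (XT.lf (nat_lit 0) (nat_lit 266878039009) (nat_lit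 304) (nat_lit 18925048903) (nat_lit 76) (nat_lit 147482096398) (nat_lit 52) (nat_lit 5) (nat_lit 56) (nat_lit 5) (nat_lit 53) (nat_lit 5) (nat_lit 408) (nat_lit 379) (nat_lit 113)) (XT.nd (nat_lit 78) (nat_lit 0) (nat_lit 0) (XT.lf (nat_lit 0) (nat_lit 49703966492) (nat_lit 0) (nat_lit 49703966492) (nat_lit 684) (nat_lit 1733111005) (nat_lit 100) (nat_lit 5) (nat_lit 100) (nat_lit 3) (nat_lit 109) (nat_lit 3) (nat_lit 380) (nat_lit 380) (nat_lit 140)) (XT.lf (nat_lit 0) (nat_lit 198270726456) (nat_lit 0) (nat_lit 5517044793) (nat_lit 684) (nat_lit 3551291179) (nat_lit 100) (nat_lit 5) (nat_lit 100) (nat_lit 3) (nat_lit 109) (nat_lit 3) (nat_lit 381) (nat_lit 380) (nat_lit 139)))))) (XT.nd (nat_lit 468) (nat_lit 380) (nat_lit 0) (XT.nd (nat_lit 234) (nat_lit 0) (nat_lit 76) (XT.nd (nat_lit 78) (nat_lit 760) (nat_lit 0) (XT.lf (nat_lit 76) (nat_lit 90883501247) (nat_lit 0) (nat_lit 120996679242)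 (nat_lit 760) (nat_lit 625109823) (nat_lit 101) (nat_lit 5) (nat_lit 100) (nat_lit 5) (nat_lit 110) (nat_lit 5) (nat_lit 382) (nat_lit 380) (nat_lit 138)) (XT.nd (nat_lit 78) (nat_lit 0) (nat_lit 76) (XT.lf (nat_lit 0) (nat_lit 2615493070) (nat_lit 760) (nat_lit 21905616138) (nat_lit 836) (nat_lit 193394487796) (nat_lit 90) (nat_lit 5) (nat_lit 100) (nat_lit 5) (nat_lit 101) (nat_lit 5) (nat_lit 383) (nat_lit 380) (nat_lit 137)) (XT.lf (nat_lit 0) (nat_lit 8553069680) (nat_lit 760) (nat_lit 139226584626) (nat_lit 836) (nat_lit 75688454899) (nat_lit 91) (nat_lit 5) (nat_lit 101) (nat_lit 5) (nat_lit 102) (nat_lit 5) (nat_lit 384) (nat_lit 380) (nat_lit 136)))) (XT.nd (nat_lit 78) (nat_lit 0) (nat_lit 76) (XT.lf (nat_lit 0) (nat_lit 15566489076) (nat_lit 760) (nat_lit 33231286876) (nat_lit 836) (nat_lit 180461522991) (nat_lit 91) (nat_lit 5) (nat_lit 101) (nat_lit 5) (nat_lit 102) (nat_lit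 5) (nat_lit 385) (nat_lit 380) (nat_lit 135)) (XT.nd (nat_lit 78) (nat_lit 0) (nat_lit 0) (XT.lf (nat_lit 0) (nat_lit 25071015421) (nat_lit 760) (nat_lit 155513662797) (nat_lit 836) (nat_lit 54648348266) (nat_lit 92) (nat_lit 5) (nat_lit 102) (nat_lit 5) (nat_lit 103) (nat_lit 5) (nat_lit 386) (nat_lit 380) (nat_lit 134)) (XT.lf (nat_lit 0) (nat_lit 36422667717) (nat_lit 760) (nat_lit 42815287076) (nat_lit 836) (nat_lit 162198890738) (nat_lit 92) (nat_lit 5) (nat_lit 102) (nat_lit 5) (nat_lit 103) (nat_lit 5) (nat_lit 387) (nat_lit 380) (nat_lit 133))))) (XT.nd (nat_lit 234) (nat_lit 608) (nat_lit 0) (XT.nd (nat_lit 78) (nat_lit 0) (nat_lit 0) (XT.lf (nat_lit 0) (nat_lit 50004123126) (nat_lit 760) (nat_lit 170319304716) (nat_lit 836) (nat_lit 27544316770) (nat_lit 93) (nat_lit 5) (nat_lit 103) (nat_lit 5) (nat_lit 104) (nat_lit 5) (nat_lit 388) (nat_lit 380) (nat_lit 132)) (XT.nd (nat_lit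 78) (nat_lit 0) (nat_lit 0) (XT.lf (nat_lit 0) (nat_lit 66300547401) (nat_lit 760) (nat_lit 50478058941) (nat_lit 836) (nat_lit 137739787599) (nat_lit 93) (nat_lit 5) (nat_lit 103) (nat_lit 5) (nat_lit 104) (nat_lit 5) (nat_lit 389) (nat_lit 380) (nat_lit 131)) (XT.lf (nat_lit 76) (nat_lit 77846776151) (nat_lit 0) (nat_lit 6780355252) (nat_lit 836) (nat_lit 176813677505) (nat_lit 94) (nat_lit 5) (nat_lit 93) (nat_lit 5) (nat_lit 104) (nat_lit 5) (nat_lit 390) (nat_lit 380) (nat_lit 130)))) (XT.nd (nat_lit 78) (nat_lit 684) (nat_lit 0) (XT.lf (nat_lit 0) (nat_lit 106436253603) (nat_lit 760) (nat_lit 56037726415) (nat_lit 76) (nat_lit 106107054246) (nat_lit 94) (nat_lit 5) (nat_lit 104) (nat_lit 5) (nat_lit 95) (nat_lit 5) (nat_lit 391) (nat_lit 380) (nat_lit 129)) (XT.nd (nat_lit 78) (nat_lit 0) (nat_lit 0) (XT.lf (nat_lit 0) (nat_lit 80357115614) (nat_lit 684) (nat_lit 50344407251) (nat_lit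 760) (nat_lit 145308463562) (nat_lit 85) (nat_lit 5) (nat_lit 94) (nat_lit 5) (nat_lit 95) (nat_lit 5) (nat_lit 392) (nat_lit 380) (nat_lit 128)) (XT.lf (nat_lit 0) (nat_lit 158196751837) (nat_lit 760) (nat_lit 59313520133) (nat_lit 76) (nat_lit 66199279500) (nat_lit 85) (nat_lit 5) (nat_lit 95) (nat_lit 5) (nat_lit 86) (nat_lit 5) (nat_lit 393) (nat_lit 380) (nat_lit 127))))))))
noncomputable def xc251 : XT := (XT.nd (nat_lit 46566) (nat_lit 0) (nat_lit 380) (XT.nd (nat_lit 858) (nat_lit 380) (nat_lit 0) (XT.nd (nat_lit 390) (nat_lit 836) (nat_lit 0) (XT.nd (nat_lit 156) (nat_lit 684) (nat_lit 0) (XT.nd (nat_lit 78) (nat_lit 0) (nat_lit 0) (XT.lf (nat_lit 0) (nat_lit 85762355599) (nat_lit 380) (nat_lit 103468638384) (nat_lit 456) (nat_lit 102454888272) (nat_lit 80) (nat_lit 5) (nat_lit 85) (nat_lit 5) (nat_lit 86) (nat_lit 5) (nat_lit 394) (nat_lit 380) (nat_lit 126)) (XT.lf (nat_lit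 0) (nat_lit 223091962969) (nat_lit 456) (nat_lit 60130171912) (nat_lit 76) (nat_lit 16775144040) (nat_lit 80) (nat_lit 5) (nat_lit 86) (nat_lit 5) (nat_lit 81) (nat_lit 5) (nat_lit 395) (nat_lit 380) (nat_lit 125))) (XT.nd (nat_lit 78) (nat_lit 380) (nat_lit 0) (XT.lf (nat_lit 0) (nat_lit 94273943799) (nat_lit 304) (nat_lit 167540071628) (nat_lit 380) (nat_lit 46751828311) (nat_lit 76) (nat_lit 5) (nat_lit 80) (nat_lit 5) (nat_lit 81) (nat_lit 5) (nat_lit 396) (nat_lit 380) (nat_lit 124)) (XT.nd (nat_lit 78) (nat_lit 380) (nat_lit 0) (XT.lf (nat_lit 0) (nat_lit 258485795427) (nat_lit 304) (nat_lit 45004657678) (nat_lit 380) (nat_lit 14021469629) (nat_lit 76) (nat_lit 5) (nat_lit 80) (nat_lit 5) (nat_lit 81) (nat_lit 5) (nat_lit 397) (nat_lit 380) (nat_lit 123)) (XT.lf (nat_lit 0) (nat_lit 22705271169) (nat_lit 380) (nat_lit 221031025478) (nat_lit 76) (nat_lit 83002574441) (nat_lit 71)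 (nat_lit 5) (nat_lit 76) (nat_lit 5) (nat_lit 72) (nat_lit 5) (nat_lit 398) (nat_lit 380) (nat_lit 122))))) (XT.nd (nat_lit 234) (nat_lit 532) (nat_lit 0) (XT.nd (nat_lit 78) (nat_lit 304) (nat_lit 0) (XT.lf (nat_lit 0) (nat_lit 62550892548) (nat_lit 380) (nat_lit 56633497268) (nat_lit 76) (nat_lit 217143596251) (nat_lit 71) (nat_lit 5) (nat_lit 76) (nat_lit 5) (nat_lit 72) (nat_lit 5) (nat_lit 399) (nat_lit 380) (nat_lit 121)) (XT.nd (nat_lit 78) (nat_lit 0) (nat_lit 0) (XT.lf (nat_lit 0) (nat_lit 106471156148) (nat_lit 380) (nat_lit 226695917536) (nat_lit 76) (nat_lit 13125365109) (nat_lit 67) (nat_lit 5) (nat_lit 72) (nat_lit 5) (nat_lit 68) (nat_lit 5) (nat_lit 400) (nat_lit 380) (nat_lit 120)) (XT.lf (nat_lit 0) (nat_lit 155516069914) (nat_lit 380) (nat_lit 52072549257) (nat_lit 76) (nat_lit 149020063190) (nat_lit 67) (nat_lit 5) (nat_lit 72) (nat_lit 5) (nat_lit 68) (nat_lit 5) (nat_lit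 401) (nat_lit 380) (nat_lit 119)))) (XT.nd (nat_lit 78) (nat_lit 228) (nat_lit 0) (XT.lf (nat_lit 0) (nat_lit 135622710608) (nat_lit 304) (nat_lit 73507927108) (nat_lit 380) (nat_lit 158204230024) (nat_lit 63) (nat_lit 5) (nat_lit 67) (nat_lit 5) (nat_lit 68) (nat_lit 5) (nat_lit 402) (nat_lit 380) (nat_lit 118)) (XT.nd (nat_lit 78) (nat_lit 228) (nat_lit 0) (XT.lf (nat_lit 0) (nat_lit 267372602913) (nat_lit 380) (nat_lit 45107581929) (nat_lit 76) (nat_lit 66019844144) (nat_lit 63) (nat_lit 5) (nat_lit 68) (nat_lit 5) (nat_lit 64) (nat_lit 5) (nat_lit 403) (nat_lit 380) (nat_lit 117)) (XT.lf (nat_lit 0) (nat_lit 154569307974) (nat_lit 228) (nat_lit 177575627270) (nat_lit 304) (nat_lit 57897599652) (nat_lit 60) (nat_lit 5) (nat_lit 63) (nat_lit 5) (nat_lit 64) (nat_lit 5) (nat_lit 404) (nat_lit 380) (nat_lit 116)))))) (XT.nd (nat_lit 45240) (nat_lit 0) (nat_lit 2660) (XT.nd (nat_lit 45006)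 (nat_lit 0) (nat_lit 3420) (XT.nd (nat_lit 78) (nat_lit 380) (nat_lit 0) (XT.lf (nat_lit 0) (nat_lit 365796027323) (nat_lit 228) (nat_lit 35123737518) (nat_lit 304) (nat_lit 1204207272) (nat_lit 60) (nat_lit 5) (nat_lit 63) (nat_lit 5) (nat_lit 64) (nat_lit 5) (nat_lit 405) (nat_lit 380) (nat_lit 115)) (XT.nd (nat_lit 78) (nat_lit 0) (nat_lit 0) (XT.lf (nat_lit 0) (nat_lit 61076356714) (nat_lit 380) (nat_lit 238926066624) (nat_lit 76) (nat_lit 114530566473) (nat_lit 55) (nat_lit 5) (nat_lit 60) (nat_lit 5) (nat_lit 56) (nat_lit 5) (nat_lit 406) (nat_lit 380) (nat_lit 114)) (XT.lf (nat_lit 0) (nat_lit 127631559660) (nat_lit 380) (nat_lit 28737612179) (nat_lit 76) (nat_lit 271132245537) (nat_lit 55) (nat_lit 5) (nat_lit 60) (nat_lit 5) (nat_lit 56) (nat_lit 5) (nat_lit 407) (nat_lit 380) (nat_lit 113)))) (XT.nd (nat_lit 78) (nat_lit 0) (nat_lit 0) (XT.lf (nat_lit 0) (nat_lit 52189907355)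 (nat_lit 0) (nat_lit 52189907355) (nat_lit 684) (nat_lit 1818204941) (nat_lit 100) (nat_lit 5) (nat_lit 100) (nat_lit 3) (nat_lit 109) (nat_lit 3) (nat_lit 381) (nat_lit 381) (nat_lit 138)) (XT.nd (nat_lit 78) (nat_lit 0) (nat_lit 0) (XT.lf (nat_lit 0) (nat_lit 208185677138) (nat_lit 0) (nat_lit 5794311391) (nat_lit 684) (nat_lit 3725881234) (nat_lit 100) (nat_lit 5) (nat_lit 100) (nat_lit 3) (nat_lit 109) (nat_lit 3) (nat_lit 382) (nat_lit 381) (nat_lit 137)) (XT.lf (nat_lit 76) (nat_lit 95429233017) (nat_lit 0) (nat_lit 127047653786) (nat_lit 760) (nat_lit 653529016) (nat_lit 101) (nat_lit 5) (nat_lit 100) (nat_lit 5) (nat_lit 110) (nat_lit 5) (nat_lit 383) (nat_lit 381) (nat_lit 136))))) (XT.nd (nat_lit 234) (nat_lit 0) (nat_lit 152) (XT.nd (nat_lit 78) (nat_lit 0) (nat_lit 76) (XT.lf (nat_lit 0) (nat_lit 2748882504) (nat_lit 760) (nat_lit 22999324152) (nat_lit 836) (nat_lit 203063035701)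 (nat_lit 90) (nat_lit 5) (nat_lit 100) (nat_lit 5) (nat_lit 101) (nat_lit 5) (nat_lit 384) (nat_lit 381) (nat_lit 135)) (XT.nd (nat_lit 78) (nat_lit 0) (nat_lit 0) (XT.lf (nat_lit 0) (nat_lit 8983222493) (nat_lit 760) (nat_lit 146186222033) (nat_lit 836) (nat_lit 79471941594) (nat_lit 91) (nat_lit 5) (nat_lit 101) (nat_lit 5) (nat_lit 102) (nat_lit 5) (nat_lit 385) (nat_lit 381) (nat_lit 134)) (XT.lf (nat_lit 0) (nat_lit 16347193843) (nat_lit 760) (nat_lit 34891239958) (nat_lit 836) (nat_lit 189483707664) (nat_lit 91) (nat_lit 5) (nat_lit 101) (nat_lit 5) (nat_lit 102) (nat_lit 5) (nat_lit 386) (nat_lit 381) (nat_lit 133)))) (XT.nd (nat_lit 78) (nat_lit 0) (nat_lit 0) (XT.lf (nat_lit 0) (nat_lit 26326846878) (nat_lit 760) (nat_lit 163287631802) (nat_lit 836) (nat_lit 57380081847) (nat_lit 92) (nat_lit 5) (nat_lit 102) (nat_lit 5) (nat_lit 103) (nat_lit 5) (nat_lit 387) (nat_lit 381) (nat_lit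 132)) (XT.nd (nat_lit 78) (nat_lit 0) (nat_lit 76) (XT.lf (nat_lit 0) (nat_lit 38245973184) (nat_lit 760) (nat_lit 44954418920) (nat_lit 836) (nat_lit 170308184007) (nat_lit 92) (nat_lit 5) (nat_lit 102) (nat_lit 5) (nat_lit 103) (nat_lit 5) (nat_lit 388) (nat_lit 381) (nat_lit 131)) (XT.lf (nat_lit 0) (nat_lit 52506415396) (nat_lit 760) (nat_lit 178833548530) (nat_lit 836) (nat_lit 28921060665) (nat_lit 93) (nat_lit 5) (nat_lit 103) (nat_lit 5) (nat_lit 104) (nat_lit 5) (nat_lit 389) (nat_lit 381) (nat_lit 130))))))) (XT.nd (nat_lit 858) (nat_lit 836) (nat_lit 0) (XT.nd (nat_lit 390) (nat_lit 1064) (nat_lit 0) (XT.nd (nat_lit 156) (nat_lit 608) (nat_lit 0) (XT.nd (nat_lit 78) (nat_lit 0) (nat_lit 0) (XT.lf (nat_lit 0) (nat_lit 69617561547) (nat_lit 760) (nat_lit 53000322439) (nat_lit 836) (nat_lit 144626327510) (nat_lit 93) (nat_lit 5) (nat_lit 103) (nat_lit 5) (nat_lit 104) (nat_lit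 5) (nat_lit 390) (nat_lit 381) (nat_lit 129)) (XT.lf (nat_lit 76) (nat_lit 81740727966) (nat_lit 0) (nat_lit 7119677359) (nat_lit 836) (nat_lit 185652345491) (nat_lit 94) (nat_lit 5) (nat_lit 93) (nat_lit 5) (nat_lit 104) (nat_lit 5) (nat_lit 391) (nat_lit 381) (nat_lit 128))) (XT.nd (nat_lit 78) (nat_lit 684) (nat_lit 0) (XT.lf (nat_lit 0) (nat_lit 111759887806) (nat_lit 760) (nat_lit 58837978167) (nat_lit 76) (nat_lit 111412126384) (nat_lit 94) (nat_lit 5) (nat_lit 104) (nat_lit 5) (nat_lit 95) (nat_lit 5) (nat_lit 392) (nat_lit 381) (nat_lit 127)) (XT.nd (nat_lit 78) (nat_lit 0) (nat_lit 0) (XT.lf (nat_lit 0) (nat_lit 84376579600) (nat_lit 684) (nat_lit 52861779302) (nat_lit 760) (nat_lit 152572036430) (nat_lit 85) (nat_lit 5) (nat_lit 94) (nat_lit 5) (nat_lit 95) (nat_lit 5) (nat_lit 393) (nat_lit 381) (nat_lit 126)) (XT.lf (nat_lit 0) (nat_lit 166108263261) (nat_lit 760) (nat_lit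 62277576149) (nat_lit 76) (nat_lit 69509103634) (nat_lit 85) (nat_lit 5) (nat_lit 95) (nat_lit 5) (nat_lit 86) (nat_lit 5) (nat_lit 394) (nat_lit 381) (nat_lit 125))))) (XT.nd (nat_lit 234) (nat_lit 380) (nat_lit 0) (XT.nd (nat_lit 78) (nat_lit 304) (nat_lit 0) (XT.lf (nat_lit 0) (nat_lit 90052067241) (nat_lit 380) (nat_lit 108642095452) (nat_lit 456) (nat_lit 107575930527) (nat_lit 80) (nat_lit 5) (nat_lit 85) (nat_lit 5) (nat_lit 86) (nat_lit 5) (nat_lit 395) (nat_lit 381) (nat_lit 124)) (XT.nd (nat_lit 78) (nat_lit 304) (nat_lit 0) (XT.lf (nat_lit 0) (nat_lit 234248102658) (nat_lit 456) (nat_lit 63135082981) (nat_lit 76) (nat_lit 17613878057) (nat_lit 80) (nat_lit 5) (nat_lit 86) (nat_lit 5) (nat_lit 81) (nat_lit 5) (nat_lit 396) (nat_lit 381) (nat_lit 123)) (XT.lf (nat_lit 0) (nat_lit 98989212748) (nat_lit 304) (nat_lit 175916996124) (nat_lit 380) (nat_lit 49087850426) (nat_lit 76)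 (nat_lit 5) (nat_lit 80) (nat_lit 5) (nat_lit 81) (nat_lit 5) (nat_lit 397) (nat_lit 381) (nat_lit 122)))) (XT.nd (nat_lit 78) (nat_lit 380) (nat_lit 0) (XT.lf (nat_lit 0) (nat_lit 271411582112) (nat_lit 304) (nat_lit 47254815242) (nat_lit 380) (nat_lit 14721048538) (nat_lit 76) (nat_lit 5) (nat_lit 80) (nat_lit 5) (nat_lit 81) (nat_lit 5) (nat_lit 398) (nat_lit 381) (nat_lit 121)) (XT.nd (nat_lit 78) (nat_lit 0) (nat_lit 0) (XT.lf (nat_lit 0) (nat_lit 23841938203) (nat_lit 380) (nat_lit 232080985210) (nat_lit 76) (nat_lit 87152819334) (nat_lit 71) (nat_lit 5) (nat_lit 76) (nat_lit 5) (nat_lit 72) (nat_lit 5) (nat_lit 399) (nat_lit 381) (nat_lit 120)) (XT.lf (nat_lit 0) (nat_lit 65679773818) (nat_lit 380) (nat_lit 59463656378) (nat_lit 76) (nat_lit 228000886703) (nat_lit 71) (nat_lit 5) (nat_lit 76) (nat_lit 5) (nat_lit 72) (nat_lit 5) (nat_lit 400) (nat_lit 381) (nat_lit 119)))))) (XT.nd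 (nat_lit 45396) (nat_lit 0) (nat_lit 2280) (XT.nd (nat_lit 234) (nat_lit 228) (nat_lit 0) (XT.nd (nat_lit 78) (nat_lit 304) (nat_lit 0) (XT.lf (nat_lit 0) (nat_lit 111796013277) (nat_lit 380) (nat_lit 238029158777) (nat_lit 76) (nat_lit 13781822152) (nat_lit 67) (nat_lit 5) (nat_lit 72) (nat_lit 5) (nat_lit 68) (nat_lit 5) (nat_lit 401) (nat_lit 381) (nat_lit 118)) (XT.nd (nat_lit 78) (nat_lit 304) (nat_lit 0) (XT.lf (nat_lit 0) (nat_lit 163293110858) (nat_lit 380) (nat_lit 54674696114) (nat_lit 76) (nat_lit 156471246147) (nat_lit 67) (nat_lit 5) (nat_lit 72) (nat_lit 5) (nat_lit 68) (nat_lit 5) (nat_lit 402) (nat_lit 381) (nat_lit 117)) (XT.lf (nat_lit 0) (nat_lit 142405302864) (nat_lit 304) (nat_lit 77183068004) (nat_lit 380) (nat_lit 166113178779) (nat_lit 63) (nat_lit 5) (nat_lit 67) (nat_lit 5) (nat_lit 68) (nat_lit 5) (nat_lit 403) (nat_lit 381) (nat_lit 116)))) (XT.nd (nat_lit 78)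 (nat_lit 228) (nat_lit 0) (XT.lf (nat_lit 0) (nat_lit 280742380920) (nat_lit 380) (nat_lit 47361518914) (nat_lit 76) (nat_lit 69321071858) (nat_lit 63) (nat_lit 5) (nat_lit 68) (nat_lit 5) (nat_lit 64) (nat_lit 5) (nat_lit 404) (nat_lit 381) (nat_lit 115)) (XT.nd (nat_lit 78) (nat_lit 0) (nat_lit 0) (XT.lf (nat_lit 0) (nat_lit 162299192224) (nat_lit 228) (nat_lit 186454105136) (nat_lit 304) (nat_lit 60791307228) (nat_lit 60) (nat_lit 5) (nat_lit 63) (nat_lit 5) (nat_lit 64) (nat_lit 5) (nat_lit 405) (nat_lit 381) (nat_lit 114)) (XT.lf (nat_lit 0) (nat_lit 384087179976) (nat_lit 228) (nat_lit 36879635349) (nat_lit 304) (nat_lit 1263301059) (nat_lit 60) (nat_lit 5) (nat_lit 63) (nat_lit 5) (nat_lit 64) (nat_lit 5) (nat_lit 406) (nat_lit 381) (nat_lit 113))))) (XT.nd (nat_lit 234) (nat_lit 760) (nat_lit 0) (XT.nd (nat_lit 78) (nat_lit 0) (nat_lit 0) (XT.lf (nat_lit 0) (nat_lit 54800076227)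 (nat_lit 0) (nat_lit 54800076227) (nat_lit 684) (nat_lit 1907698758) (nat_lit 100) (nat_lit 5) (nat_lit 100) (nat_lit 3) (nat_lit 109) (nat_lit 3) (nat_lit 382) (nat_lit 382) (nat_lit 136)) (XT.nd (nat_lit 78) (nat_lit 0) (nat_lit 0) (XT.lf (nat_lit 0) (nat_lit 218596243860) (nat_lit 0) (nat_lit 6085309825) (nat_lit 684) (nat_lit 3909477333) (nat_lit 100) (nat_lit 5) (nat_lit 100) (nat_lit 3) (nat_lit 109) (nat_lit 3) (nat_lit 383) (nat_lit 382) (nat_lit 135)) (XT.lf (nat_lit 76) (nat_lit 100202106647) (nat_lit 0) (nat_lit 133401071018) (nat_lit 760) (nat_lit 683632860) (nat_lit 101) (nat_lit 5) (nat_lit 100) (nat_lit 5) (nat_lit 110) (nat_lit 5) (nat_lit 384) (nat_lit 382) (nat_lit 134)))) (XT.nd (nat_lit 78) (nat_lit 0) (nat_lit 76) (XT.lf (nat_lit 0) (nat_lit 2888698312) (nat_lit 760) (nat_lit 24147863789) (nat_lit 836) (nat_lit 213215120381) (nat_lit 90) (nat_lit 5) (nat_lit 100) (nat_lit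 5) (nat_lit 101) (nat_lit 5) (nat_lit 385) (nat_lit 382) (nat_lit 133)) (XT.nd (nat_lit 78) (nat_lit 0) (nat_lit 0) (XT.lf (nat_lit 0) (nat_lit 9434650583) (nat_lit 760) (nat_lit 153493998601) (nat_lit 836) (nat_lit 83444689648) (nat_lit 91) (nat_lit 5) (nat_lit 101) (nat_lit 5) (nat_lit 102) (nat_lit 5) (nat_lit 386) (nat_lit 382) (nat_lit 132)) (XT.lf (nat_lit 0) (nat_lit 17166712550) (nat_lit 760) (nat_lit 36634340495) (nat_lit 836) (nat_lit 198957084452) (nat_lit 91) (nat_lit 5) (nat_lit 101) (nat_lit 5) (nat_lit 102) (nat_lit 5) (nat_lit 387) (nat_lit 382) (nat_lit 131))))))))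
noncomputable def xc252 : XT := (XT.nd (nat_lit 46800) (nat_lit 0) (nat_lit 228) (XT.nd (nat_lit 858) (nat_lit 1216) (nat_lit 0) (XT.nd (nat_lit 390) (nat_lit 1216) (nat_lit 0) (XT.nd (nat_lit 156) (nat_lit 0) (nat_lit 76) (XT.nd (nat_lit 78) (nat_lit 0) (nat_lit 0) (XT.lf (nat_lit 0) (nat_lit 27645257872) (nat_lit 760) (nat_lit 171450458621) (nat_lit 836) (nat_lit 60248465684) (nat_lit 92) (nat_lit 5) (nat_lit 102) (nat_lit 5) (nat_lit 103) (nat_lit 5) (nat_lit 388) (nat_lit 382) (nat_lit 130)) (XT.lf (nat_lit 0) (nat_lit 40160241986) (nat_lit 760) (nat_lit 47200659132) (nat_lit 836) (nat_lit 178823002487) (nat_lit 92) (nat_lit 5) (nat_lit 102) (nat_lit 5) (nat_lit 103) (nat_lit 5) (nat_lit 389) (nat_lit 382) (nat_lit 129))) (XT.nd (nat_lit 78) (nat_lit 0) (nat_lit 0) (XT.lf (nat_lit 0) (nat_lit 55133628333) (nat_lit 760) (nat_lit 187773664576) (nat_lit 836) (nat_lit 30366685632) (nat_lit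 93) (nat_lit 5) (nat_lit 103) (nat_lit 5) (nat_lit 104) (nat_lit 5) (nat_lit 390) (nat_lit 382) (nat_lit 128)) (XT.nd (nat_lit 78) (nat_lit 0) (nat_lit 0) (XT.lf (nat_lit 0) (nat_lit 73100241688) (nat_lit 760) (nat_lit 55648851531) (nat_lit 836) (nat_lit 151857236203) (nat_lit 93) (nat_lit 5) (nat_lit 103) (nat_lit 5) (nat_lit 104) (nat_lit 5) (nat_lit 391) (nat_lit 382) (nat_lit 127)) (XT.lf (nat_lit 76) (nat_lit 85829227409) (nat_lit 0) (nat_lit 7475937276) (nat_lit 836) (nat_lit 194933134294) (nat_lit 94) (nat_lit 5) (nat_lit 93) (nat_lit 5) (nat_lit 104) (nat_lit 5) (nat_lit 392) (nat_lit 382) (nat_lit 126))))) (XT.nd (nat_lit 234) (nat_lit 684) (nat_lit 0) (XT.nd (nat_lit 78) (nat_lit 684) (nat_lit 0) (XT.lf (nat_lit 0) (nat_lit 117349534371) (nat_lit 760) (nat_lit 61778394474) (nat_lit 76) (nat_lit 116982478214) (nat_lit 94) (nat_lit 5) (nat_lit 104) (nat_lit 5) (nat_lit 95) (nat_lit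 5) (nat_lit 393) (nat_lit 382) (nat_lit 125)) (XT.nd (nat_lit 78) (nat_lit 0) (nat_lit 0) (XT.lf (nat_lit 0) (nat_lit 88596867269) (nat_lit 684) (nat_lit 55505005852) (nat_lit 760) (nat_lit 160198959966) (nat_lit 85) (nat_lit 5) (nat_lit 94) (nat_lit 5) (nat_lit 95) (nat_lit 5) (nat_lit 394) (nat_lit 382) (nat_lit 124)) (XT.lf (nat_lit 0) (nat_lit 174415194640) (nat_lit 760) (nat_lit 65389985577) (nat_lit 76) (nat_lit 72984431976) (nat_lit 85) (nat_lit 5) (nat_lit 95) (nat_lit 5) (nat_lit 86) (nat_lit 5) (nat_lit 395) (nat_lit 382) (nat_lit 123)))) (XT.nd (nat_lit 78) (nat_lit 304) (nat_lit 0) (XT.lf (nat_lit 0) (nat_lit 94556116283) (nat_lit 380) (nat_lit 114074223036) (nat_lit 456) (nat_lit 112953183145) (nat_lit 80) (nat_lit 5) (nat_lit 85) (nat_lit 5) (nat_lit 86) (nat_lit 5) (nat_lit 396) (nat_lit 382) (nat_lit 122)) (XT.nd (nat_lit 78) (nat_lit 304) (nat_lit 0) (XT.lf (nat_lit 0)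 (nat_lit 245961906014) (nat_lit 456) (nat_lit 66290388127) (nat_lit 76) (nat_lit 18494550931) (nat_lit 80) (nat_lit 5) (nat_lit 86) (nat_lit 5) (nat_lit 81) (nat_lit 5) (nat_lit 397) (nat_lit 382) (nat_lit 121)) (XT.lf (nat_lit 0) (nat_lit 103940099018) (nat_lit 304) (nat_lit 184712774197) (nat_lit 380) (nat_lit 51540819545) (nat_lit 76) (nat_lit 5) (nat_lit 80) (nat_lit 5) (nat_lit 81) (nat_lit 5) (nat_lit 398) (nat_lit 382) (nat_lit 120)))))) (XT.nd (nat_lit 468) (nat_lit 228) (nat_lit 0) (XT.nd (nat_lit 234) (nat_lit 608) (nat_lit 0) (XT.nd (nat_lit 78) (nat_lit 380) (nat_lit 0) (XT.lf (nat_lit 0) (nat_lit 284983518963) (nat_lit 304) (nat_lit 49617487687) (nat_lit 380) (nat_lit 15455745344) (nat_lit 76) (nat_lit 5) (nat_lit 80) (nat_lit 5) (nat_lit 81) (nat_lit 5) (nat_lit 399) (nat_lit 382) (nat_lit 119)) (XT.nd (nat_lit 78) (nat_lit 0) (nat_lit 0) (XT.lf (nat_lit 0) (nat_lit 25035308106)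 (nat_lit 380) (nat_lit 243683590896) (nat_lit 76) (nat_lit 91510565671) (nat_lit 71) (nat_lit 5) (nat_lit 76) (nat_lit 5) (nat_lit 72) (nat_lit 5) (nat_lit 400) (nat_lit 382) (nat_lit 118)) (XT.lf (nat_lit 0) (nat_lit 68964974883) (nat_lit 380) (nat_lit 62435464364) (nat_lit 76) (nat_lit 239401031391) (nat_lit 71) (nat_lit 5) (nat_lit 76) (nat_lit 5) (nat_lit 72) (nat_lit 5) (nat_lit 401) (nat_lit 382) (nat_lit 117)))) (XT.nd (nat_lit 78) (nat_lit 304) (nat_lit 0) (XT.lf (nat_lit 0) (nat_lit 117386992464) (nat_lit 380) (nat_lit 249929206615) (nat_lit 76) (nat_lit 14471084495) (nat_lit 67) (nat_lit 5) (nat_lit 72) (nat_lit 5) (nat_lit 68) (nat_lit 5) (nat_lit 402) (nat_lit 382) (nat_lit 116)) (XT.nd (nat_lit 78) (nat_lit 304) (nat_lit 0) (XT.lf (nat_lit 0) (nat_lit 171458888804) (nat_lit 380) (nat_lit 57407087966) (nat_lit 76) (nat_lit 164294971536) (nat_lit 67) (nat_lit 5) (nat_lit 72)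 (nat_lit 5) (nat_lit 68) (nat_lit 5) (nat_lit 403) (nat_lit 382) (nat_lit 115)) (XT.lf (nat_lit 0) (nat_lit 149526889300) (nat_lit 304) (nat_lit 81041989696) (nat_lit 380) (nat_lit 174417692369) (nat_lit 63) (nat_lit 5) (nat_lit 67) (nat_lit 5) (nat_lit 68) (nat_lit 5) (nat_lit 404) (nat_lit 382) (nat_lit 114))))) (XT.nd (nat_lit 45240) (nat_lit 0) (nat_lit 2280) (XT.nd (nat_lit 78) (nat_lit 228) (nat_lit 0) (XT.lf (nat_lit 0) (nat_lit 294780541111) (nat_lit 380) (nat_lit 49728286823) (nat_lit 76) (nat_lit 72787339063) (nat_lit 63) (nat_lit 5) (nat_lit 68) (nat_lit 5) (nat_lit 64) (nat_lit 5) (nat_lit 405) (nat_lit 382) (nat_lit 113)) (XT.nd (nat_lit 45084) (nat_lit 0) (nat_lit 3040) (XT.lf (nat_lit 0) (nat_lit 170415438775) (nat_lit 228) (nat_lit 195776535112) (nat_lit 304) (nat_lit 63829809182) (nat_lit 60) (nat_lit 5) (nat_lit 63) (nat_lit 5) (nat_lit 64) (nat_lit 5) (nat_lit 406) (nat_lit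 382) (nat_lit 112)) (XT.lf (nat_lit 0) (nat_lit 57540690926) (nat_lit 0) (nat_lit 57540690926) (nat_lit 684) (nat_lit 2001798951) (nat_lit 100) (nat_lit 5) (nat_lit 100) (nat_lit 3) (nat_lit 109) (nat_lit 3) (nat_lit 383) (nat_lit 383) (nat_lit 134)))) (XT.nd (nat_lit 78) (nat_lit 760) (nat_lit 0) (XT.lf (nat_lit 0) (nat_lit 229527219649) (nat_lit 0) (nat_lit 6390738913) (nat_lit 684) (nat_lit 4102504068) (nat_lit 100) (nat_lit 5) (nat_lit 100) (nat_lit 3) (nat_lit 109) (nat_lit 3) (nat_lit 384) (nat_lit 383) (nat_lit 133)) (XT.nd (nat_lit 78) (nat_lit 760) (nat_lit 0) (XT.lf (nat_lit 76) (nat_lit 105213492687) (nat_lit 0) (nat_lit 140072062929) (nat_lit 760) (nat_lit 715481074) (nat_lit 101) (nat_lit 5) (nat_lit 100) (nat_lit 5) (nat_lit 110) (nat_lit 5) (nat_lit 385) (nat_lit 383) (nat_lit 132)) (XT.lf (nat_lit 0) (nat_lit 3035284413) (nat_lit 760) (nat_lit 25353963037) (nat_lit 836)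 (nat_lit 223874908503) (nat_lit 90) (nat_lit 5) (nat_lit 100) (nat_lit 5) (nat_lit 101) (nat_lit 5) (nat_lit 386) (nat_lit 383) (nat_lit 131))))))) (XT.nd (nat_lit 858) (nat_lit 1292) (nat_lit 0) (XT.nd (nat_lit 390) (nat_lit 836) (nat_lit 0) (XT.nd (nat_lit 156) (nat_lit 0) (nat_lit 76) (XT.nd (nat_lit 78) (nat_lit 0) (nat_lit 0) (XT.lf (nat_lit 0) (nat_lit 9908439316) (nat_lit 760) (nat_lit 161167306663) (nat_lit 836) (nat_lit 87616154040) (nat_lit 91) (nat_lit 5) (nat_lit 101) (nat_lit 5) (nat_lit 102) (nat_lit 5) (nat_lit 387) (nat_lit 383) (nat_lit 130)) (XT.lf (nat_lit 0) (nat_lit 18027006467) (nat_lit 760) (nat_lit 38464731931) (nat_lit 836) (nat_lit 208904205254) (nat_lit 91) (nat_lit 5) (nat_lit 101) (nat_lit 5) (nat_lit 102) (nat_lit 5) (nat_lit 388) (nat_lit 383) (nat_lit 129))) (XT.nd (nat_lit 78) (nat_lit 0) (nat_lit 0) (XT.lf (nat_lit 0) (nat_lit 29029397091) (nat_lit 760)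 (nat_lit 180021571328) (nat_lit 836) (nat_lit 63260326378) (nat_lit 92) (nat_lit 5) (nat_lit 102) (nat_lit 5) (nat_lit 103) (nat_lit 5) (nat_lit 389) (nat_lit 383) (nat_lit 128)) (XT.nd (nat_lit 78) (nat_lit 0) (nat_lit 76) (XT.lf (nat_lit 0) (nat_lit 42170041062) (nat_lit 760) (nat_lit 49559349019) (nat_lit 836) (nat_lit 187763616812) (nat_lit 92) (nat_lit 5) (nat_lit 102) (nat_lit 5) (nat_lit 103) (nat_lit 5) (nat_lit 390) (nat_lit 383) (nat_lit 127)) (XT.lf (nat_lit 0) (nat_lit 57892026002) (nat_lit 760) (nat_lit 197160931587) (nat_lit 836) (nat_lit 31884631645) (nat_lit 93) (nat_lit 5) (nat_lit 103) (nat_lit 5) (nat_lit 104) (nat_lit 5) (nat_lit 391) (nat_lit 383) (nat_lit 126))))) (XT.nd (nat_lit 234) (nat_lit 988) (nat_lit 0) (XT.nd (nat_lit 78) (nat_lit 0) (nat_lit 0) (XT.lf (nat_lit 0) (nat_lit 76756888298) (nat_lit 760) (nat_lit 58429945329) (nat_lit 836) (nat_lit 159449728234)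 (nat_lit 93) (nat_lit 5) (nat_lit 103) (nat_lit 5) (nat_lit 104) (nat_lit 5) (nat_lit 392) (nat_lit 383) (nat_lit 125)) (XT.nd (nat_lit 78) (nat_lit 0) (nat_lit 76) (XT.lf (nat_lit 76) (nat_lit 90122015804) (nat_lit 0) (nat_lit 7849984524) (nat_lit 836) (nat_lit 204678132531) (nat_lit 94) (nat_lit 5) (nat_lit 93) (nat_lit 5) (nat_lit 104) (nat_lit 5) (nat_lit 393) (nat_lit 383) (nat_lit 124)) (XT.lf (nat_lit 0) (nat_lit 123218509661) (nat_lit 760) (nat_lit 64865969434) (nat_lit 76) (nat_lit 122831371296) (nat_lit 94) (nat_lit 5) (nat_lit 104) (nat_lit 5) (nat_lit 95) (nat_lit 5) (nat_lit 394) (nat_lit 383) (nat_lit 123)))) (XT.nd (nat_lit 78) (nat_lit 380) (nat_lit 0) (XT.lf (nat_lit 0) (nat_lit 93028033706) (nat_lit 684) (nat_lit 58280380938) (nat_lit 760) (nat_lit 168207385710) (nat_lit 85) (nat_lit 5) (nat_lit 94) (nat_lit 5) (nat_lit 95) (nat_lit 5) (nat_lit 395) (nat_lit 383) (nat_lit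 122)) (XT.nd (nat_lit 78) (nat_lit 380) (nat_lit 0) (XT.lf (nat_lit 0) (nat_lit 183137331438) (nat_lit 760) (nat_lit 68658152085) (nat_lit 76) (nat_lit 76633538527) (nat_lit 85) (nat_lit 5) (nat_lit 95) (nat_lit 5) (nat_lit 86) (nat_lit 5) (nat_lit 396) (nat_lit 383) (nat_lit 121)) (XT.lf (nat_lit 0) (nat_lit 99285233371) (nat_lit 380) (nat_lit 119777954878) (nat_lit 456) (nat_lit 118599441932) (nat_lit 80) (nat_lit 5) (nat_lit 85) (nat_lit 5) (nat_lit 86) (nat_lit 5) (nat_lit 397) (nat_lit 383) (nat_lit 120)))))) (XT.nd (nat_lit 468) (nat_lit 304) (nat_lit 0) (XT.nd (nat_lit 234) (nat_lit 684) (nat_lit 0) (XT.nd (nat_lit 78) (nat_lit 304) (nat_lit 0) (XT.lf (nat_lit 0) (nat_lit 258261269545) (nat_lit 456) (nat_lit 69603593244) (nat_lit 76) (nat_lit 19419259403) (nat_lit 80) (nat_lit 5) (nat_lit 86) (nat_lit 5) (nat_lit 81) (nat_lit 5) (nat_lit 398) (nat_lit 383) (nat_lit 119)) (XT.nd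 (nat_lit 78) (nat_lit 0) (nat_lit 0) (XT.lf (nat_lit 0) (nat_lit 109138397060) (nat_lit 304) (nat_lit 193948347843) (nat_lit 380) (nat_lit 54116569454) (nat_lit 76) (nat_lit 5) (nat_lit 80) (nat_lit 5) (nat_lit 81) (nat_lit 5) (nat_lit 399) (nat_lit 383) (nat_lit 118)) (XT.lf (nat_lit 0) (nat_lit 299233926426) (nat_lit 304) (nat_lit 52098300106) (nat_lit 380) (nat_lit 16227303023) (nat_lit 76) (nat_lit 5) (nat_lit 80) (nat_lit 5) (nat_lit 81) (nat_lit 5) (nat_lit 400) (nat_lit 383) (nat_lit 117)))) (XT.nd (nat_lit 78) (nat_lit 304) (nat_lit 0) (XT.lf (nat_lit 0) (nat_lit 26288228153) (nat_lit 380) (nat_lit 255866461076) (nat_lit 76) (nat_lit 96086189529) (nat_lit 71) (nat_lit 5) (nat_lit 76) (nat_lit 5) (nat_lit 72) (nat_lit 5) (nat_lit 401) (nat_lit 383) (nat_lit 116)) (XT.nd (nat_lit 78) (nat_lit 304) (nat_lit 0) (XT.lf (nat_lit 0) (nat_lit 72414323286) (nat_lit 380) (nat_lit 65555990568)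 (nat_lit 76) (nat_lit 251371173983) (nat_lit 71) (nat_lit 5) (nat_lit 76) (nat_lit 5) (nat_lit 72) (nat_lit 5) (nat_lit 402) (nat_lit 383) (nat_lit 115)) (XT.lf (nat_lit 0) (nat_lit 123257411042) (nat_lit 380) (nat_lit 262424387942) (nat_lit 76) (nat_lit 15194794036) (nat_lit 67) (nat_lit 5) (nat_lit 72) (nat_lit 5) (nat_lit 68) (nat_lit 5) (nat_lit 403) (nat_lit 383) (nat_lit 114))))) (XT.nd (nat_lit 45396) (nat_lit 0) (nat_lit 2052) (XT.nd (nat_lit 78) (nat_lit 304) (nat_lit 0) (XT.lf (nat_lit 0) (nat_lit 180032851297) (nat_lit 380) (nat_lit 60276224266) (nat_lit 76) (nat_lit 172509868033) (nat_lit 67) (nat_lit 5) (nat_lit 72) (nat_lit 5) (nat_lit 68) (nat_lit 5) (nat_lit 404) (nat_lit 383) (nat_lit 113)) (XT.nd (nat_lit 45240) (nat_lit 0) (nat_lit 2812) (XT.lf (nat_lit 0) (nat_lit 157004432217) (nat_lit 304) (nat_lit 85093879014) (nat_lit 380) (nat_lit 183137538123) (nat_lit 63) (nat_lit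 5) (nat_lit 67) (nat_lit 5) (nat_lit 68) (nat_lit 5) (nat_lit 405) (nat_lit 383) (nat_lit 112)) (XT.lf (nat_lit 0) (nat_lit 60418279566) (nat_lit 0) (nat_lit 60418279566) (nat_lit 684) (nat_lit 2100723598) (nat_lit 100) (nat_lit 5) (nat_lit 100) (nat_lit 3) (nat_lit 109) (nat_lit 3) (nat_lit 384) (nat_lit 384) (nat_lit 132)))) (XT.nd (nat_lit 78) (nat_lit 760) (nat_lit 0) (XT.lf (nat_lit 0) (nat_lit 241004636047) (nat_lit 0) (nat_lit 6711331274) (nat_lit 684) (nat_lit 4305409651) (nat_lit 100) (nat_lit 5) (nat_lit 100) (nat_lit 3) (nat_lit 109) (nat_lit 3) (nat_lit 385) (nat_lit 384) (nat_lit 131)) (XT.nd (nat_lit 78) (nat_lit 760) (nat_lit 0) (XT.lf (nat_lit 76) (nat_lit 110475328960) (nat_lit 0) (nat_lit 147076517196) (nat_lit 760) (nat_lit 749138638) (nat_lit 101) (nat_lit 5) (nat_lit 100) (nat_lit 5) (nat_lit 110) (nat_lit 5) (nat_lit 386) (nat_lit 384) (nat_lit 130)) (XT.lf (nat_lit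 0) (nat_lit 3188999823) (nat_lit 760) (nat_lit 26620487546) (nat_lit 836) (nat_lit 235067776018) (nat_lit 90) (nat_lit 5) (nat_lit 100) (nat_lit 5) (nat_lit 101) (nat_lit 5) (nat_lit 387) (nat_lit 384) (nat_lit 129))))))))
noncomputable def xc253 : XT := (XT.nd (nat_lit 47112) (nat_lit 0) (nat_lit 304) (XT.nd (nat_lit 858) (nat_lit 988) (nat_lit 0) (XT.nd (nat_lit 390) (nat_lit 836) (nat_lit 0) (XT.nd (nat_lit 156) (nat_lit 0) (nat_lit 76) (XT.nd (nat_lit 78) (nat_lit 0) (nat_lit 0) (XT.lf (nat_lit 0) (nat_lit 10405726320) (nat_lit 760) (nat_lit 169224409530) (nat_lit 836) (nat_lit 91996263246) (nat_lit 91) (nat_lit 5) (nat_lit 101) (nat_lit 5) (nat_lit 102) (nat_lit 5) (nat_lit 388) (nat_lit 384) (nat_lit 128)) (XT.lf (nat_lit 0) (nat_lit 18930133017) (nat_lit 760) (nat_lit 40386766179) (nat_lit 836) (nat_lit 219348750283) (nat_lit 91) (nat_lit 5) (nat_lit 101) (nat_lit 5) (nat_lit 102)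 (nat_lit 5) (nat_lit 389) (nat_lit 384) (nat_lit 127))) (XT.nd (nat_lit 78) (nat_lit 0) (nat_lit 0) (XT.lf (nat_lit 0) (nat_lit 30482568829) (nat_lit 760) (nat_lit 189021370781) (nat_lit 836) (nat_lit 66422832411) (nat_lit 92) (nat_lit 5) (nat_lit 102) (nat_lit 5) (nat_lit 103) (nat_lit 5) (nat_lit 390) (nat_lit 384) (nat_lit 126)) (XT.nd (nat_lit 78) (nat_lit 0) (nat_lit 76) (XT.lf (nat_lit 0) (nat_lit 44280163957) (nat_lit 760) (nat_lit 52036098266) (nat_lit 836) (nat_lit 197151311666) (nat_lit 92) (nat_lit 5) (nat_lit 102) (nat_lit 5) (nat_lit 103) (nat_lit 5) (nat_lit 391) (nat_lit 384) (nat_lit 125)) (XT.lf (nat_lit 0) (nat_lit 60788183992) (nat_lit 760) (nat_lit 207017693614) (nat_lit 836) (nat_lit 33478511057) (nat_lit 93) (nat_lit 5) (nat_lit 103) (nat_lit 5) (nat_lit 104) (nat_lit 5) (nat_lit 392) (nat_lit 384) (nat_lit 124))))) (XT.nd (nat_lit 234) (nat_lit 988) (nat_lit 0) (XT.nd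 (nat_lit 78) (nat_lit 0) (nat_lit 0) (XT.lf (nat_lit 0) (nat_lit 80596215275) (nat_lit 760) (nat_lit 61350219213) (nat_lit 836) (nat_lit 167421879245) (nat_lit 93) (nat_lit 5) (nat_lit 103) (nat_lit 5) (nat_lit 104) (nat_lit 5) (nat_lit 393) (nat_lit 384) (nat_lit 123)) (XT.nd (nat_lit 78) (nat_lit 0) (nat_lit 76) (XT.lf (nat_lit 76) (nat_lit 94629320245) (nat_lit 0) (nat_lit 8242710856) (nat_lit 836) (nat_lit 214910534870) (nat_lit 94) (nat_lit 5) (nat_lit 93) (nat_lit 5) (nat_lit 104) (nat_lit 5) (nat_lit 394) (nat_lit 384) (nat_lit 122)) (XT.lf (nat_lit 0) (nat_lit 129380794393) (nat_lit 760) (nat_lit 68108048165) (nat_lit 76) (nat_lit 128972730492) (nat_lit 94) (nat_lit 5) (nat_lit 104) (nat_lit 5) (nat_lit 95) (nat_lit 5) (nat_lit 395) (nat_lit 384) (nat_lit 121)))) (XT.nd (nat_lit 78) (nat_lit 380) (nat_lit 0) (XT.lf (nat_lit 0) (nat_lit 97680635459) (nat_lit 684) (nat_lit 61194513177)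 (nat_lit 760) (nat_lit 176616374266) (nat_lit 85) (nat_lit 5) (nat_lit 94) (nat_lit 5) (nat_lit 95) (nat_lit 5) (nat_lit 396) (nat_lit 384) (nat_lit 120)) (XT.nd (nat_lit 78) (nat_lit 380) (nat_lit 0) (XT.lf (nat_lit 0) (nat_lit 192295447050) (nat_lit 760) (nat_lit 72089850827) (nat_lit 76) (nat_lit 80465111103) (nat_lit 85) (nat_lit 5) (nat_lit 95) (nat_lit 5) (nat_lit 86) (nat_lit 5) (nat_lit 397) (nat_lit 384) (nat_lit 119)) (XT.lf (nat_lit 0) (nat_lit 104250684404) (nat_lit 380) (nat_lit 125766871388) (nat_lit 456) (nat_lit 124528143852) (nat_lit 80) (nat_lit 5) (nat_lit 85) (nat_lit 5) (nat_lit 86) (nat_lit 5) (nat_lit 398) (nat_lit 384) (nat_lit 118)))))) (XT.nd (nat_lit 45786) (nat_lit 0) (nat_lit 1748) (XT.nd (nat_lit 234) (nat_lit 684) (nat_lit 0) (XT.nd (nat_lit 78) (nat_lit 304) (nat_lit 0) (XT.lf (nat_lit 0) (nat_lit 271175483344) (nat_lit 456) (nat_lit 73082580808) (nat_lit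 76) (nat_lit 20390205072) (nat_lit 80) (nat_lit 5) (nat_lit 86) (nat_lit 5) (nat_lit 81) (nat_lit 5) (nat_lit 399) (nat_lit 384) (nat_lit 117)) (XT.nd (nat_lit 78) (nat_lit 0) (nat_lit 0) (XT.lf (nat_lit 0) (nat_lit 114596489784) (nat_lit 304) (nat_lit 203645706220) (nat_lit 380) (nat_lit 56821226891) (nat_lit 76) (nat_lit 5) (nat_lit 80) (nat_lit 5) (nat_lit 81) (nat_lit 5) (nat_lit 400) (nat_lit 384) (nat_lit 116)) (XT.lf (nat_lit 0) (nat_lit 314196739768) (nat_lit 304) (nat_lit 54703158906) (nat_lit 380) (nat_lit 17037552901) (nat_lit 76) (nat_lit 5) (nat_lit 80) (nat_lit 5) (nat_lit 81) (nat_lit 5) (nat_lit 401) (nat_lit 384) (nat_lit 115)))) (XT.nd (nat_lit 78) (nat_lit 304) (nat_lit 0) (XT.lf (nat_lit 0) (nat_lit 27603686856) (nat_lit 380) (nat_lit 268658596497) (nat_lit 76) (nat_lit 100890585694) (nat_lit 71) (nat_lit 5) (nat_lit 76) (nat_lit 5) (nat_lit 72) (nat_lit 5) (nat_lit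 402) (nat_lit 384) (nat_lit 114)) (XT.nd (nat_lit 78) (nat_lit 304) (nat_lit 0) (XT.lf (nat_lit 0) (nat_lit 76036036874) (nat_lit 380) (nat_lit 68832659018) (nat_lit 76) (nat_lit 263939815243) (nat_lit 71) (nat_lit 5) (nat_lit 76) (nat_lit 5) (nat_lit 72) (nat_lit 5) (nat_lit 403) (nat_lit 384) (nat_lit 113)) (XT.lf (nat_lit 0) (nat_lit 129421251168) (nat_lit 380) (nat_lit 275544447246) (nat_lit 76) (nat_lit 15954674614) (nat_lit 67) (nat_lit 5) (nat_lit 72) (nat_lit 5) (nat_lit 68) (nat_lit 5) (nat_lit 404) (nat_lit 384) (nat_lit 112))))) (XT.nd (nat_lit 234) (nat_lit 760) (nat_lit 0) (XT.nd (nat_lit 78) (nat_lit 0) (nat_lit 0) (XT.lf (nat_lit 0) (nat_lit 63439696123) (nat_lit 0) (nat_lit 63439696123) (nat_lit 684) (nat_lit 2204702816) (nat_lit 100) (nat_lit 5) (nat_lit 100) (nat_lit 3) (nat_lit 109) (nat_lit 3) (nat_lit 385) (nat_lit 385) (nat_lit 130)) (XT.nd (nat_lit 78) (nat_lit 0)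 (nat_lit 0) (XT.lf (nat_lit 0) (nat_lit 253055825143) (nat_lit 0) (nat_lit 7047855132) (nat_lit 684) (nat_lit 4518666872) (nat_lit 100) (nat_lit 5) (nat_lit 100) (nat_lit 3) (nat_lit 109) (nat_lit 3) (nat_lit 386) (nat_lit 385) (nat_lit 129)) (XT.lf (nat_lit 76) (nat_lit 116000149049) (nat_lit 0) (nat_lit 154431115047) (nat_lit 760) (nat_lit 784675851) (nat_lit 101) (nat_lit 5) (nat_lit 100) (nat_lit 5) (nat_lit 110) (nat_lit 5) (nat_lit 387) (nat_lit 385) (nat_lit 128)))) (XT.nd (nat_lit 78) (nat_lit 0) (nat_lit 76) (XT.lf (nat_lit 0) (nat_lit 3350219601) (nat_lit 760) (nat_lit 27950447395) (nat_lit 836) (nat_lit 246820368528) (nat_lit 90) (nat_lit 5) (nat_lit 100) (nat_lit 5) (nat_lit 101) (nat_lit 5) (nat_lit 388) (nat_lit 385) (nat_lit 127)) (XT.nd (nat_lit 78) (nat_lit 0) (nat_lit 0) (XT.lf (nat_lit 0) (nat_lit 10927704280) (nat_lit 760) (nat_lit 177684484914) (nat_lit 836) (nat_lit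 96595442853) (nat_lit 91) (nat_lit 5) (nat_lit 101) (nat_lit 5) (nat_lit 102) (nat_lit 5) (nat_lit 389) (nat_lit 385) (nat_lit 126)) (XT.lf (nat_lit 0) (nat_lit 19878250757) (nat_lit 760) (nat_lit 42405013923) (nat_lit 836) (nat_lit 230315584411) (nat_lit 91) (nat_lit 5) (nat_lit 101) (nat_lit 5) (nat_lit 102) (nat_lit 5) (nat_lit 390) (nat_lit 385) (nat_lit 125))))))) (XT.nd (nat_lit 858) (nat_lit 380) (nat_lit 0) (XT.nd (nat_lit 390) (nat_lit 1216) (nat_lit 0) (XT.nd (nat_lit 156) (nat_lit 0) (nat_lit 76) (XT.nd (nat_lit 78) (nat_lit 0) (nat_lit 0) (XT.lf (nat_lit 0) (nat_lit 32008240928) (nat_lit 760) (nat_lit 198471279126) (nat_lit 836) (nat_lit 69743511187) (nat_lit 92) (nat_lit 5) (nat_lit 102) (nat_lit 5) (nat_lit 103) (nat_lit 5) (nat_lit 391) (nat_lit 385) (nat_lit 124)) (XT.lf (nat_lit 0) (nat_lit 46495642305) (nat_lit 760) (nat_lit 54636798232) (nat_lit 836) (nat_lit 207008436445)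 (nat_lit 92) (nat_lit 5) (nat_lit 102) (nat_lit 5) (nat_lit 103) (nat_lit 5) (nat_lit 392) (nat_lit 385) (nat_lit 123))) (XT.nd (nat_lit 78) (nat_lit 0) (nat_lit 0) (XT.lf (nat_lit 0) (nat_lit 63829005156) (nat_lit 760) (nat_lit 217367413169) (nat_lit 836) (nat_lit 35152117180) (nat_lit 93) (nat_lit 5) (nat_lit 103) (nat_lit 5) (nat_lit 104) (nat_lit 5) (nat_lit 393) (nat_lit 385) (nat_lit 122)) (XT.nd (nat_lit 78) (nat_lit 0) (nat_lit 0) (XT.lf (nat_lit 0) (nat_lit 84627370767) (nat_lit 760) (nat_lit 64416620529) (nat_lit 836) (nat_lit 175792668988) (nat_lit 93) (nat_lit 5) (nat_lit 103) (nat_lit 5) (nat_lit 104) (nat_lit 5) (nat_lit 394) (nat_lit 385) (nat_lit 121)) (XT.lf (nat_lit 76) (nat_lit 99361878003) (nat_lit 0) (nat_lit 8655052391) (nat_lit 836) (nat_lit 225654697181) (nat_lit 94) (nat_lit 5) (nat_lit 93) (nat_lit 5) (nat_lit 104) (nat_lit 5) (nat_lit 395) (nat_lit 385) (nat_lit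 120))))) (XT.nd (nat_lit 234) (nat_lit 684) (nat_lit 0) (XT.nd (nat_lit 78) (nat_lit 684) (nat_lit 0) (XT.lf (nat_lit 0) (nat_lit 135851066991) (nat_lit 760) (nat_lit 71512344233) (nat_lit 76) (nat_lit 135421177112) (nat_lit 94) (nat_lit 5) (nat_lit 104) (nat_lit 5) (nat_lit 95) (nat_lit 5) (nat_lit 396) (nat_lit 385) (nat_lit 119)) (XT.nd (nat_lit 78) (nat_lit 0) (nat_lit 0) (XT.lf (nat_lit 0) (nat_lit 102565755728) (nat_lit 684) (nat_lit 64254341504) (nat_lit 760) (nat_lit 185445940617) (nat_lit 85) (nat_lit 5) (nat_lit 94) (nat_lit 5) (nat_lit 95) (nat_lit 5) (nat_lit 397) (nat_lit 385) (nat_lit 118)) (XT.lf (nat_lit 0) (nat_lit 201911352318) (nat_lit 760) (nat_lit 75693246895) (nat_lit 76) (nat_lit 84488272008) (nat_lit 85) (nat_lit 5) (nat_lit 95) (nat_lit 5) (nat_lit 86) (nat_lit 5) (nat_lit 398) (nat_lit 385) (nat_lit 117)))) (XT.nd (nat_lit 78) (nat_lit 304) (nat_lit 0) (XT.lf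 (nat_lit 0) (nat_lit 109464297413) (nat_lit 380) (nat_lit 132055231980) (nat_lit 456) (nat_lit 130753398956) (nat_lit 80) (nat_lit 5) (nat_lit 85) (nat_lit 5) (nat_lit 86) (nat_lit 5) (nat_lit 399) (nat_lit 385) (nat_lit 116)) (XT.nd (nat_lit 78) (nat_lit 304) (nat_lit 0) (XT.lf (nat_lit 0) (nat_lit 284735300887) (nat_lit 456) (nat_lit 76735628579) (nat_lit 76) (nat_lit 21409699634) (nat_lit 80) (nat_lit 5) (nat_lit 86) (nat_lit 5) (nat_lit 81) (nat_lit 5) (nat_lit 400) (nat_lit 385) (nat_lit 115)) (XT.lf (nat_lit 0) (nat_lit 120327378102) (nat_lit 304) (nat_lit 213827938002) (nat_lit 380) (nat_lit 59661226071) (nat_lit 76) (nat_lit 5) (nat_lit 80) (nat_lit 5) (nat_lit 81) (nat_lit 5) (nat_lit 401) (nat_lit 385) (nat_lit 114)))))) (XT.nd (nat_lit 45864) (nat_lit 0) (nat_lit 1444) (XT.nd (nat_lit 45630) (nat_lit 0) (nat_lit 2204) (XT.nd (nat_lit 78) (nat_lit 380) (nat_lit 0) (XT.lf (nat_lit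 0) (nat_lit 329907589927) (nat_lit 304) (nat_lit 57438265872) (nat_lit 380) (nat_lit 17888418961) (nat_lit 76) (nat_lit 5) (nat_lit 80) (nat_lit 5) (nat_lit 81) (nat_lit 5) (nat_lit 402) (nat_lit 385) (nat_lit 113)) (XT.nd (nat_lit 78) (nat_lit 0) (nat_lit 0) (XT.lf (nat_lit 0) (nat_lit 28984821125) (nat_lit 380) (nat_lit 282090449105) (nat_lit 76) (nat_lit 105935193607) (nat_lit 71) (nat_lit 5) (nat_lit 76) (nat_lit 5) (nat_lit 72) (nat_lit 5) (nat_lit 403) (nat_lit 385) (nat_lit 112)) (XT.lf (nat_lit 0) (nat_lit 79838743410) (nat_lit 380) (nat_lit 72273266047) (nat_lit 76) (nat_lit 277136880890) (nat_lit 71) (nat_lit 5) (nat_lit 76) (nat_lit 5) (nat_lit 72) (nat_lit 5) (nat_lit 404) (nat_lit 385) (nat_lit 111)))) (XT.nd (nat_lit 78) (nat_lit 0) (nat_lit 0) (XT.lf (nat_lit 0) (nat_lit 66612136784) (nat_lit 0) (nat_lit 66612136784) (nat_lit 684) (nat_lit 2313979261) (nat_lit 100) (nat_lit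 5) (nat_lit 100) (nat_lit 3) (nat_lit 109) (nat_lit 3) (nat_lit 386) (nat_lit 386) (nat_lit 128)) (XT.nd (nat_lit 78) (nat_lit 0) (nat_lit 0) (XT.lf (nat_lit 0) (nat_lit 265709484694) (nat_lit 0) (nat_lit 7401116182) (nat_lit 684) (nat_lit 4742774129) (nat_lit 100) (nat_lit 5) (nat_lit 100) (nat_lit 3) (nat_lit 109) (nat_lit 3) (nat_lit 387) (nat_lit 386) (nat_lit 127)) (XT.lf (nat_lit 76) (nat_lit 121801112185) (nat_lit 0) (nat_lit 162153371018) (nat_lit 760) (nat_lit 822168403) (nat_lit 101) (nat_lit 5) (nat_lit 100) (nat_lit 5) (nat_lit 110) (nat_lit 5) (nat_lit 388) (nat_lit 386) (nat_lit 126))))) (XT.nd (nat_lit 234) (nat_lit 0) (nat_lit 152) (XT.nd (nat_lit 78) (nat_lit 0) (nat_lit 76) (XT.lf (nat_lit 0) (nat_lit 3519335829) (nat_lit 760) (nat_lit 29347004206) (nat_lit 836) (nat_lit 259160664696) (nat_lit 90) (nat_lit 5) (nat_lit 100) (nat_lit 5) (nat_lit 101) (nat_lit 5) (nat_lit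 389) (nat_lit 386) (nat_lit 125)) (XT.nd (nat_lit 78) (nat_lit 0) (nat_lit 0) (XT.lf (nat_lit 0) (nat_lit 11475623865) (nat_lit 760) (nat_lit 186567670526) (nat_lit 836) (nat_lit 101424640342) (nat_lit 91) (nat_lit 5) (nat_lit 101) (nat_lit 5) (nat_lit 102) (nat_lit 5) (nat_lit 390) (nat_lit 386) (nat_lit 124)) (XT.lf (nat_lit 0) (nat_lit 20873624601) (nat_lit 760) (nat_lit 44524275445) (nat_lit 836) (nat_lit 241830816342) (nat_lit 91) (nat_lit 5) (nat_lit 101) (nat_lit 5) (nat_lit 102) (nat_lit 5) (nat_lit 391) (nat_lit 386) (nat_lit 123)))) (XT.nd (nat_lit 78) (nat_lit 0) (nat_lit 0) (XT.lf (nat_lit 0) (nat_lit 33610053118) (nat_lit 760) (nat_lit 208393790752) (nat_lit 836) (nat_lit 73230266933) (nat_lit 92) (nat_lit 5) (nat_lit 102) (nat_lit 5) (nat_lit 103) (nat_lit 5) (nat_lit 392) (nat_lit 386) (nat_lit 122)) (XT.nd (nat_lit 78) (nat_lit 0) (nat_lit 76) (XT.lf (nat_lit 0) (nat_lit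 48821757890) (nat_lit 760) (nat_lit 57367635925) (nat_lit 836) (nat_lit 217358458445) (nat_lit 92) (nat_lit 5) (nat_lit 102) (nat_lit 5) (nat_lit 103) (nat_lit 5) (nat_lit 393) (nat_lit 386) (nat_lit 121)) (XT.lf (nat_lit 0) (nat_lit 67021736107) (nat_lit 760) (nat_lit 228234727023) (nat_lit 836) (nat_lit 36909433307) (nat_lit 93) (nat_lit 5) (nat_lit 103) (nat_lit 5) (nat_lit 104) (nat_lit 5) (nat_lit 394) (nat_lit 386) (nat_lit 120))))))))
noncomputable def xc254 : XT := (XT.nd (nat_lit 47346) (nat_lit 0) (nat_lit 304) (XT.nd (nat_lit 46410) (nat_lit 0) (nat_lit 684) (XT.nd (nat_lit 390) (nat_lit 684) (nat_lit 0) (XT.nd (nat_lit 156) (nat_lit 608) (nat_lit 0) (XT.nd (nat_lit 78) (nat_lit 0) (nat_lit 0) (XT.lf (nat_lit 0) (nat_lit 88859959013) (nat_lit 760) (nat_lit 67636445076) (nat_lit 836) (nat_lit 184582026502) (nat_lit 93) (nat_lit 5) (nat_lit 103) (nat_lit 5) (nat_lit 104) (nat_lit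 5) (nat_lit 395) (nat_lit 386) (nat_lit 119)) (XT.lf (nat_lit 76) (nat_lit 104330962150) (nat_lit 0) (nat_lit 9087991852) (nat_lit 836) (nat_lit 236936194458) (nat_lit 94) (nat_lit 5) (nat_lit 93) (nat_lit 5) (nat_lit 104) (nat_lit 5) (nat_lit 396) (nat_lit 386) (nat_lit 118))) (XT.nd (nat_lit 78) (nat_lit 684) (nat_lit 0) (XT.lf (nat_lit 0) (nat_lit 142644738598) (nat_lit 760) (nat_lit 75086957961) (nat_lit 76) (nat_lit 142192063720) (nat_lit 94) (nat_lit 5) (nat_lit 104) (nat_lit 5) (nat_lit 95) (nat_lit 5) (nat_lit 397) (nat_lit 386) (nat_lit 117)) (XT.nd (nat_lit 78) (nat_lit 0) (nat_lit 0) (XT.lf (nat_lit 0) (nat_lit 107695030812) (nat_lit 684) (nat_lit 67467151703) (nat_lit 760) (nat_lit 194717101718) (nat_lit 85) (nat_lit 5) (nat_lit 94) (nat_lit 5) (nat_lit 95) (nat_lit 5) (nat_lit 398) (nat_lit 386) (nat_lit 116)) (XT.lf (nat_lit 0) (nat_lit 212007947522) (nat_lit 760) (nat_lit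 79476914706) (nat_lit 76) (nat_lit 88712599758) (nat_lit 85) (nat_lit 5) (nat_lit 95) (nat_lit 5) (nat_lit 86) (nat_lit 5) (nat_lit 399) (nat_lit 386) (nat_lit 115))))) (XT.nd (nat_lit 234) (nat_lit 0) (nat_lit 0) (XT.nd (nat_lit 78) (nat_lit 304) (nat_lit 0) (XT.lf (nat_lit 0) (nat_lit 114938490776) (nat_lit 380) (nat_lit 138658009018) (nat_lit 456) (nat_lit 137290023926) (nat_lit 80) (nat_lit 5) (nat_lit 85) (nat_lit 5) (nat_lit 86) (nat_lit 5) (nat_lit 400) (nat_lit 386) (nat_lit 114)) (XT.nd (nat_lit 78) (nat_lit 304) (nat_lit 0) (XT.lf (nat_lit 0) (nat_lit 298973012304) (nat_lit 456) (nat_lit 80571429266) (nat_lit 76) (nat_lit 22480170382) (nat_lit 80) (nat_lit 5) (nat_lit 86) (nat_lit 5) (nat_lit 81) (nat_lit 5) (nat_lit 401) (nat_lit 386) (nat_lit 113)) (XT.lf (nat_lit 0) (nat_lit 126344711931) (nat_lit 304) (nat_lit 224519286351) (nat_lit 380) (nat_lit 62643323960) (nat_lit 76)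 (nat_lit 5) (nat_lit 80) (nat_lit 5) (nat_lit 81) (nat_lit 5) (nat_lit 402) (nat_lit 386) (nat_lit 112)))) (XT.nd (nat_lit 45630) (nat_lit 0) (nat_lit 1824) (XT.lf (nat_lit 0) (nat_lit 346403888398) (nat_lit 304) (nat_lit 60310132926) (nat_lit 380) (nat_lit 18781922372) (nat_lit 76) (nat_lit 5) (nat_lit 80) (nat_lit 5) (nat_lit 81) (nat_lit 5) (nat_lit 403) (nat_lit 386) (nat_lit 111)) (XT.nd (nat_lit 78) (nat_lit 0) (nat_lit 0) (XT.lf (nat_lit 0) (nat_lit 69943157096) (nat_lit 0) (nat_lit 69943157096) (nat_lit 684) (nat_lit 2428808659) (nat_lit 100) (nat_lit 5) (nat_lit 100) (nat_lit 3) (nat_lit 109) (nat_lit 3) (nat_lit 387) (nat_lit 387) (nat_lit 126)) (XT.lf (nat_lit 0) (nat_lit 278995746496) (nat_lit 0) (nat_lit 7771959559) (nat_lit 684) (nat_lit 4978256520) (nat_lit 100) (nat_lit 5) (nat_lit 100) (nat_lit 3) (nat_lit 109) (nat_lit 3) (nat_lit 388) (nat_lit 387) (nat_lit 125))))))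 (XT.nd (nat_lit 468) (nat_lit 380) (nat_lit 0) (XT.nd (nat_lit 234) (nat_lit 0) (nat_lit 76) (XT.nd (nat_lit 78) (nat_lit 760) (nat_lit 0) (XT.lf (nat_lit 76) (nat_lit 127892034627) (nat_lit 0) (nat_lit 170261674688) (nat_lit 760) (nat_lit 861697466) (nat_lit 101) (nat_lit 5) (nat_lit 100) (nat_lit 5) (nat_lit 110) (nat_lit 5) (nat_lit 389) (nat_lit 387) (nat_lit 124)) (XT.nd (nat_lit 78) (nat_lit 0) (nat_lit 76) (XT.lf (nat_lit 0) (nat_lit 3696758628) (nat_lit 760) (nat_lit 30813478626) (nat_lit 836) (nat_lit 272118042820) (nat_lit 90) (nat_lit 5) (nat_lit 100) (nat_lit 5) (nat_lit 101) (nat_lit 5) (nat_lit 390) (nat_lit 387) (nat_lit 123)) (XT.lf (nat_lit 0) (nat_lit 12050796778) (nat_lit 760) (nat_lit 195895111981) (nat_lit 836) (nat_lit 106495351131) (nat_lit 91) (nat_lit 5) (nat_lit 101) (nat_lit 5) (nat_lit 102) (nat_lit 5) (nat_lit 391) (nat_lit 387) (nat_lit 122)))) (XT.nd (nat_lit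 78) (nat_lit 0) (nat_lit 76) (XT.lf (nat_lit 0) (nat_lit 21918631278) (nat_lit 760) (nat_lit 46749592007) (nat_lit 836) (nat_lit 253921860752) (nat_lit 91) (nat_lit 5) (nat_lit 101) (nat_lit 5) (nat_lit 102) (nat_lit 5) (nat_lit 392) (nat_lit 387) (nat_lit 121)) (XT.nd (nat_lit 78) (nat_lit 0) (nat_lit 0) (XT.lf (nat_lit 0) (nat_lit 35291825746) (nat_lit 760) (nat_lit 218812525795) (nat_lit 836) (nat_lit 76891399497) (nat_lit 92) (nat_lit 5) (nat_lit 102) (nat_lit 5) (nat_lit 103) (nat_lit 5) (nat_lit 393) (nat_lit 387) (nat_lit 120)) (XT.lf (nat_lit 0) (nat_lit 51264055281) (nat_lit 760) (nat_lit 60235108679) (nat_lit 836) (nat_lit 228226018717) (nat_lit 92) (nat_lit 5) (nat_lit 102) (nat_lit 5) (nat_lit 103) (nat_lit 5) (nat_lit 394) (nat_lit 387) (nat_lit 119))))) (XT.nd (nat_lit 234) (nat_lit 608) (nat_lit 0) (XT.nd (nat_lit 78) (nat_lit 0) (nat_lit 0) (XT.lf (nat_lit 0) (nat_lit 70373984539)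 (nat_lit 760) (nat_lit 239645504822) (nat_lit 836) (nat_lit 38754642177) (nat_lit 93) (nat_lit 5) (nat_lit 103) (nat_lit 5) (nat_lit 104) (nat_lit 5) (nat_lit 395) (nat_lit 387) (nat_lit 118)) (XT.nd (nat_lit 78) (nat_lit 0) (nat_lit 0) (XT.lf (nat_lit 0) (nat_lit 93304063275) (nat_lit 760) (nat_lit 71017354423) (nat_lit 836) (nat_lit 193810877546) (nat_lit 93) (nat_lit 5) (nat_lit 103) (nat_lit 5) (nat_lit 104) (nat_lit 5) (nat_lit 396) (nat_lit 387) (nat_lit 117)) (XT.lf (nat_lit 76) (nat_lit 109548408440) (nat_lit 0) (nat_lit 9542560914) (nat_lit 836) (nat_lit 248781881659) (nat_lit 94) (nat_lit 5) (nat_lit 93) (nat_lit 5) (nat_lit 104) (nat_lit 5) (nat_lit 397) (nat_lit 387) (nat_lit 116)))) (XT.nd (nat_lit 78) (nat_lit 684) (nat_lit 0) (XT.lf (nat_lit 0) (nat_lit 149777989820) (nat_lit 760) (nat_lit 78840395670) (nat_lit 76) (nat_lit 149301510672) (nat_lit 94) (nat_lit 5) (nat_lit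 104) (nat_lit 5) (nat_lit 95) (nat_lit 5) (nat_lit 398) (nat_lit 387) (nat_lit 115)) (XT.nd (nat_lit 78) (nat_lit 0) (nat_lit 0) (XT.lf (nat_lit 0) (nat_lit 113080677862) (nat_lit 684) (nat_lit 70840593753) (nat_lit 760) (nat_lit 204451926482) (nat_lit 85) (nat_lit 5) (nat_lit 94) (nat_lit 5) (nat_lit 95) (nat_lit 5) (nat_lit 399) (nat_lit 387) (nat_lit 114)) (XT.lf (nat_lit 0) (nat_lit 222609276950) (nat_lit 760) (nat_lit 83449858370) (nat_lit 76) (nat_lit 93148151878) (nat_lit 85) (nat_lit 5) (nat_lit 95) (nat_lit 5) (nat_lit 86) (nat_lit 5) (nat_lit 400) (nat_lit 387) (nat_lit 113))))))) (XT.nd (nat_lit 46566) (nat_lit 0) (nat_lit 0) (XT.nd (nat_lit 46098) (nat_lit 0) (nat_lit 760) (XT.nd (nat_lit 45864) (nat_lit 0) (nat_lit 1520) (XT.nd (nat_lit 78) (nat_lit 0) (nat_lit 0) (XT.lf (nat_lit 0) (nat_lit 120686302837) (nat_lit 380) (nat_lit 145590923473) (nat_lit 456) (nat_lit 144153577297)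 (nat_lit 80) (nat_lit 5) (nat_lit 85) (nat_lit 5) (nat_lit 86) (nat_lit 5) (nat_lit 401) (nat_lit 387) (nat_lit 112)) (XT.lf (nat_lit 0) (nat_lit 313922521307) (nat_lit 456) (nat_lit 84599111167) (nat_lit 76) (nat_lit 23604165991) (nat_lit 80) (nat_lit 5) (nat_lit 86) (nat_lit 5) (nat_lit 81) (nat_lit 5) (nat_lit 402) (nat_lit 387) (nat_lit 111))) (XT.nd (nat_lit 78) (nat_lit 0) (nat_lit 0) (XT.lf (nat_lit 0) (nat_lit 73440689983) (nat_lit 0) (nat_lit 73440689983) (nat_lit 684) (nat_lit 2549460370) (nat_lit 100) (nat_lit 5) (nat_lit 100) (nat_lit 3) (nat_lit 109) (nat_lit 3) (nat_lit 388) (nat_lit 388) (nat_lit 124)) (XT.nd (nat_lit 78) (nat_lit 0) (nat_lit 0) (XT.lf (nat_lit 0) (nat_lit 292946248168) (nat_lit 0) (nat_lit 8161271884) (nat_lit 684) (nat_lit 5225667020) (nat_lit 100) (nat_lit 5) (nat_lit 100) (nat_lit 3) (nat_lit 109) (nat_lit 3) (nat_lit 389) (nat_lit 388) (nat_lit 123))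 (XT.lf (nat_lit 76) (nat_lit 134287422602) (nat_lit 0) (nat_lit 178775334494) (nat_lit 760) (nat_lit 903349816) (nat_lit 101) (nat_lit 5) (nat_lit 100) (nat_lit 5) (nat_lit 110) (nat_lit 5) (nat_lit 390) (nat_lit 388) (nat_lit 122))))) (XT.nd (nat_lit 234) (nat_lit 0) (nat_lit 152) (XT.nd (nat_lit 78) (nat_lit 0) (nat_lit 76) (XT.lf (nat_lit 0) (nat_lit 3882917201) (nat_lit 760) (nat_lit 32353358190) (nat_lit 836) (nat_lit 285723350757) (nat_lit 90) (nat_lit 5) (nat_lit 100) (nat_lit 5) (nat_lit 101) (nat_lit 5) (nat_lit 391) (nat_lit 388) (nat_lit 121)) (XT.nd (nat_lit 78) (nat_lit 0) (nat_lit 0) (XT.lf (nat_lit 0) (nat_lit 12654598948) (nat_lit 760) (nat_lit 205689013094) (nat_lit 836) (nat_lit 111819645918) (nat_lit 91) (nat_lit 5) (nat_lit 101) (nat_lit 5) (nat_lit 102) (nat_lit 5) (nat_lit 392) (nat_lit 388) (nat_lit 120)) (XT.lf (nat_lit 0) (nat_lit 23015765062) (nat_lit 760) (nat_lit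 49086257810) (nat_lit 836) (nat_lit 266617503533) (nat_lit 91) (nat_lit 5) (nat_lit 101) (nat_lit 5) (nat_lit 102) (nat_lit 5) (nat_lit 393) (nat_lit 388) (nat_lit 119)))) (XT.nd (nat_lit 78) (nat_lit 0) (nat_lit 0) (XT.lf (nat_lit 0) (nat_lit 37057568934) (nat_lit 760) (nat_lit 229752286330) (nat_lit 836) (nat_lit 80735624090) (nat_lit 92) (nat_lit 5) (nat_lit 102) (nat_lit 5) (nat_lit 103) (nat_lit 5) (nat_lit 394) (nat_lit 388) (nat_lit 118)) (XT.nd (nat_lit 78) (nat_lit 0) (nat_lit 76) (XT.lf (nat_lit 0) (nat_lit 53828355094) (nat_lit 760) (nat_lit 63246039584) (nat_lit 836) (nat_lit 239636990718) (nat_lit 92) (nat_lit 5) (nat_lit 102) (nat_lit 5) (nat_lit 103) (nat_lit 5) (nat_lit 395) (nat_lit 388) (nat_lit 117)) (XT.lf (nat_lit 0) (nat_lit 73893737396) (nat_lit 760) (nat_lit 251626910628) (nat_lit 836) (nat_lit 40692135922) (nat_lit 93) (nat_lit 5) (nat_lit 103) (nat_lit 5) (nat_lit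 104) (nat_lit 5) (nat_lit 396) (nat_lit 388) (nat_lit 116)))))) (XT.nd (nat_lit 46254) (nat_lit 0) (nat_lit 760) (XT.nd (nat_lit 234) (nat_lit 988) (nat_lit 0) (XT.nd (nat_lit 78) (nat_lit 0) (nat_lit 0) (XT.lf (nat_lit 0) (nat_lit 97970269895) (nat_lit 760) (nat_lit 74567394111) (nat_lit 836) (nat_lit 203501194411) (nat_lit 93) (nat_lit 5) (nat_lit 103) (nat_lit 5) (nat_lit 104) (nat_lit 5) (nat_lit 397) (nat_lit 388) (nat_lit 115)) (XT.nd (nat_lit 78) (nat_lit 0) (nat_lit 76) (XT.lf (nat_lit 76) (nat_lit 115026643540) (nat_lit 0) (nat_lit 10019842674) (nat_lit 836) (nat_lit 261219957580) (nat_lit 94) (nat_lit 5) (nat_lit 93) (nat_lit 5) (nat_lit 104) (nat_lit 5) (nat_lit 398) (nat_lit 388) (nat_lit 114)) (XT.lf (nat_lit 0) (nat_lit 157267809304) (nat_lit 760) (nat_lit 82781589886) (nat_lit 76) (nat_lit 156766444496) (nat_lit 94) (nat_lit 5) (nat_lit 104) (nat_lit 5) (nat_lit 95) (nat_lit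 5) (nat_lit 399) (nat_lit 388) (nat_lit 113)))) (XT.nd (nat_lit 78) (nat_lit 380) (nat_lit 0) (XT.lf (nat_lit 0) (nat_lit 118735524007) (nat_lit 684) (nat_lit 74382700053) (nat_lit 760) (nat_lit 214673588274) (nat_lit 85) (nat_lit 5) (nat_lit 94) (nat_lit 5) (nat_lit 95) (nat_lit 5) (nat_lit 400) (nat_lit 388) (nat_lit 112)) (XT.nd (nat_lit 78) (nat_lit 380) (nat_lit 0) (XT.lf (nat_lit 0) (nat_lit 233740586197) (nat_lit 760) (nat_lit 87621533083) (nat_lit 76) (nat_lit 97805488843) (nat_lit 85) (nat_lit 5) (nat_lit 95) (nat_lit 5) (nat_lit 86) (nat_lit 5) (nat_lit 401) (nat_lit 388) (nat_lit 111)) (XT.lf (nat_lit 0) (nat_lit 126721422987) (nat_lit 380) (nat_lit 152870482348) (nat_lit 456) (nat_lit 151360396456) (nat_lit 80) (nat_lit 5) (nat_lit 85) (nat_lit 5) (nat_lit 86) (nat_lit 5) (nat_lit 402) (nat_lit 388) (nat_lit 110))))) (XT.nd (nat_lit 234) (nat_lit 760) (nat_lit 0) (XT.nd (nat_lit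 78) (nat_lit 0) (nat_lit 0) (XT.lf (nat_lit 0) (nat_lit 77113064647) (nat_lit 0) (nat_lit 77113064647) (nat_lit 684) (nat_lit 2676217995) (nat_lit 100) (nat_lit 5) (nat_lit 100) (nat_lit 3) (nat_lit 109) (nat_lit 3) (nat_lit 389) (nat_lit 389) (nat_lit 122)) (XT.nd (nat_lit 78) (nat_lit 0) (nat_lit 0) (XT.lf (nat_lit 0) (nat_lit 307594208511) (nat_lit 0) (nat_lit 8569983412) (nat_lit 684) (nat_lit 5485587716) (nat_lit 100) (nat_lit 5) (nat_lit 100) (nat_lit 3) (nat_lit 109) (nat_lit 3) (nat_lit 390) (nat_lit 389) (nat_lit 121)) (XT.lf (nat_lit 76) (nat_lit 141002506878) (nat_lit 0) (nat_lit 187714623733) (nat_lit 760) (nat_lit 947217965) (nat_lit 101) (nat_lit 5) (nat_lit 100) (nat_lit 5) (nat_lit 110) (nat_lit 5) (nat_lit 391) (nat_lit 389) (nat_lit 120)))) (XT.nd (nat_lit 78) (nat_lit 0) (nat_lit 76) (XT.lf (nat_lit 0) (nat_lit 4078260922) (nat_lit 760) (nat_lit 33970305585) (nat_lit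 836) (nat_lit 300008979334) (nat_lit 90) (nat_lit 5) (nat_lit 100) (nat_lit 5) (nat_lit 101) (nat_lit 5) (nat_lit 392) (nat_lit 389) (nat_lit 119)) (XT.nd (nat_lit 78) (nat_lit 0) (nat_lit 0) (XT.lf (nat_lit 0) (nat_lit 13288473867) (nat_lit 760) (nat_lit 215972688705) (nat_lit 836) (nat_lit 117410199399) (nat_lit 91) (nat_lit 5) (nat_lit 101) (nat_lit 5) (nat_lit 102) (nat_lit 5) (nat_lit 393) (nat_lit 389) (nat_lit 118)) (XT.lf (nat_lit 0) (nat_lit 24167643764) (nat_lit 760) (nat_lit 51539832564) (nat_lit 836) (nat_lit 279947970314) (nat_lit 91) (nat_lit 5) (nat_lit 101) (nat_lit 5) (nat_lit 102) (nat_lit 5) (nat_lit 394) (nat_lit 389) (nat_lit 117))))))))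
noncomputable def xc255 : XT := (XT.nd (nat_lit 93834) (nat_lit 0) (nat_lit 380) (XT.nd (nat_lit 46800) (nat_lit 0) (nat_lit 380) (XT.nd (nat_lit 390) (nat_lit 532) (nat_lit 0) (XT.nd (nat_lit 156) (nat_lit 0) (nat_lit 76) (XT.nd (nat_lit 78) (nat_lit 0) (nat_lit 0) (XT.lf (nat_lit 0) (nat_lit 38911492190) (nat_lit 760) (nat_lit 241239115381) (nat_lit 836) (nat_lit 84772092024) (nat_lit 92) (nat_lit 5) (nat_lit 102) (nat_lit 5) (nat_lit 103) (nat_lit 5) (nat_lit 395) (nat_lit 389) (nat_lit 116)) (XT.lf (nat_lit 0) (nat_lit 56520767905) (nat_lit 760) (nat_lit 66407593692) (nat_lit 836) (nat_lit 251618541900) (nat_lit 92) (nat_lit 5) (nat_lit 102) (nat_lit 5) (nat_lit 103) (nat_lit 5) (nat_lit 396) (nat_lit 389) (nat_lit 115))) (XT.nd (nat_lit 78) (nat_lit 0) (nat_lit 0) (XT.lf (nat_lit 0) (nat_lit 77589379939) (nat_lit 760) (nat_lit 264207467557) (nat_lit 836) (nat_lit 42726526516) (nat_lit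 93) (nat_lit 5) (nat_lit 103) (nat_lit 5) (nat_lit 104) (nat_lit 5) (nat_lit 397) (nat_lit 389) (nat_lit 114)) (XT.nd (nat_lit 78) (nat_lit 0) (nat_lit 0) (XT.lf (nat_lit 0) (nat_lit 102869693555) (nat_lit 760) (nat_lit 78295012766) (nat_lit 836) (nat_lit 213676048224) (nat_lit 93) (nat_lit 5) (nat_lit 103) (nat_lit 5) (nat_lit 104) (nat_lit 5) (nat_lit 398) (nat_lit 389) (nat_lit 113)) (XT.lf (nat_lit 76) (nat_lit 120778714654) (nat_lit 0) (nat_lit 10520974232) (nat_lit 836) (nat_lit 274280031957) (nat_lit 94) (nat_lit 5) (nat_lit 93) (nat_lit 5) (nat_lit 104) (nat_lit 5) (nat_lit 399) (nat_lit 389) (nat_lit 112))))) (XT.nd (nat_lit 46176) (nat_lit 0) (nat_lit 380) (XT.nd (nat_lit 78) (nat_lit 684) (nat_lit 0) (XT.lf (nat_lit 0) (nat_lit 165132034230) (nat_lit 760) (nat_lit 86919920565) (nat_lit 76) (nat_lit 164604638186) (nat_lit 94) (nat_lit 5) (nat_lit 104) (nat_lit 5) (nat_lit 95)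 (nat_lit 5) (nat_lit 400) (nat_lit 389) (nat_lit 111)) (XT.nd (nat_lit 46020) (nat_lit 0) (nat_lit 1140) (XT.lf (nat_lit 0) (nat_lit 124673036945) (nat_lit 684) (nat_lit 78101904546) (nat_lit 760) (nat_lit 225406420040) (nat_lit 85) (nat_lit 5) (nat_lit 94) (nat_lit 5) (nat_lit 95) (nat_lit 5) (nat_lit 401) (nat_lit 389) (nat_lit 110)) (XT.lf (nat_lit 0) (nat_lit 80969026420) (nat_lit 0) (nat_lit 80969026420) (nat_lit 684) (nat_lit 2809380012) (nat_lit 100) (nat_lit 5) (nat_lit 100) (nat_lit 3) (nat_lit 109) (nat_lit 3) (nat_lit 390) (nat_lit 390) (nat_lit 120)))) (XT.nd (nat_lit 78) (nat_lit 760) (nat_lit 0) (XT.lf (nat_lit 0) (nat_lit 322974506632) (nat_lit 0) (nat_lit 8999070278) (nat_lit 684) (nat_lit 5758631134) (nat_lit 100) (nat_lit 5) (nat_lit 100) (nat_lit 3) (nat_lit 109) (nat_lit 3) (nat_lit 391) (nat_lit 390) (nat_lit 119)) (XT.nd (nat_lit 78) (nat_lit 760) (nat_lit 0) (XT.lf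 (nat_lit 76) (nat_lit 148053279066) (nat_lit 0) (nat_lit 197100828855) (nat_lit 760) (nat_lit 993400323) (nat_lit 101) (nat_lit 5) (nat_lit 100) (nat_lit 5) (nat_lit 110) (nat_lit 5) (nat_lit 392) (nat_lit 390) (nat_lit 118)) (XT.lf (nat_lit 0) (nat_lit 4283260463) (nat_lit 760) (nat_lit 35668167336) (nat_lit 836) (nat_lit 315008939447) (nat_lit 90) (nat_lit 5) (nat_lit 100) (nat_lit 5) (nat_lit 101) (nat_lit 5) (nat_lit 393) (nat_lit 390) (nat_lit 117)))))) (XT.nd (nat_lit 468) (nat_lit 76) (nat_lit 0) (XT.nd (nat_lit 234) (nat_lit 0) (nat_lit 76) (XT.nd (nat_lit 78) (nat_lit 0) (nat_lit 0) (XT.lf (nat_lit 0) (nat_lit 13953936083) (nat_lit 760) (nat_lit 226770620152) (nat_lit 836) (nat_lit 123280320420) (nat_lit 91) (nat_lit 5) (nat_lit 101) (nat_lit 5) (nat_lit 102) (nat_lit 5) (nat_lit 394) (nat_lit 390) (nat_lit 116)) (XT.nd (nat_lit 78) (nat_lit 0) (nat_lit 76) (XT.lf (nat_lit 0)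 (nat_lit 25377015022) (nat_lit 760) (nat_lit 54116154680) (nat_lit 836) (nat_lit 293944998403) (nat_lit 91) (nat_lit 5) (nat_lit 101) (nat_lit 5) (nat_lit 102) (nat_lit 5) (nat_lit 395) (nat_lit 390) (nat_lit 115)) (XT.lf (nat_lit 0) (nat_lit 40858014471) (nat_lit 760) (nat_lit 253300358891) (nat_lit 836) (nat_lit 89010412479) (nat_lit 92) (nat_lit 5) (nat_lit 102) (nat_lit 5) (nat_lit 103) (nat_lit 5) (nat_lit 396) (nat_lit 390) (nat_lit 114)))) (XT.nd (nat_lit 78) (nat_lit 0) (nat_lit 76) (XT.lf (nat_lit 0) (nat_lit 59347708845) (nat_lit 760) (nat_lit 69727295035) (nat_lit 836) (nat_lit 264199198380) (nat_lit 92) (nat_lit 5) (nat_lit 102) (nat_lit 5) (nat_lit 103) (nat_lit 5) (nat_lit 397) (nat_lit 390) (nat_lit 113)) (XT.nd (nat_lit 78) (nat_lit 0) (nat_lit 0) (XT.lf (nat_lit 0) (nat_lit 81469715759) (nat_lit 760) (nat_lit 277417125648) (nat_lit 836) (nat_lit 44862656740) (nat_lit 93)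 (nat_lit 5) (nat_lit 103) (nat_lit 5) (nat_lit 104) (nat_lit 5) (nat_lit 398) (nat_lit 390) (nat_lit 112)) (XT.lf (nat_lit 0) (nat_lit 108014003779) (nat_lit 760) (nat_lit 82209082179) (nat_lit 836) (nat_lit 224359663872) (nat_lit 93) (nat_lit 5) (nat_lit 103) (nat_lit 5) (nat_lit 104) (nat_lit 5) (nat_lit 399) (nat_lit 390) (nat_lit 111))))) (XT.nd (nat_lit 46332) (nat_lit 228) (nat_lit 0) (XT.nd (nat_lit 46176) (nat_lit 0) (nat_lit 532) (XT.lf (nat_lit 76) (nat_lit 126818320624) (nat_lit 0) (nat_lit 11047149404) (nat_lit 836) (nat_lit 287993195912) (nat_lit 94) (nat_lit 5) (nat_lit 93) (nat_lit 5) (nat_lit 104) (nat_lit 5) (nat_lit 400) (nat_lit 390) (nat_lit 110)) (XT.nd (nat_lit 78) (nat_lit 0) (nat_lit 0) (XT.lf (nat_lit 0) (nat_lit 85017757596) (nat_lit 0) (nat_lit 85017757596) (nat_lit 684) (nat_lit 2949260457) (nat_lit 100) (nat_lit 5) (nat_lit 100) (nat_lit 3) (nat_lit 109) (nat_lit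 3) (nat_lit 391) (nat_lit 391) (nat_lit 118)) (XT.lf (nat_lit 0) (nat_lit 339123765020) (nat_lit 0) (nat_lit 9449556848) (nat_lit 684) (nat_lit 6045441632) (nat_lit 100) (nat_lit 5) (nat_lit 100) (nat_lit 3) (nat_lit 109) (nat_lit 3) (nat_lit 392) (nat_lit 391) (nat_lit 117)))) (XT.nd (nat_lit 78) (nat_lit 760) (nat_lit 0) (XT.lf (nat_lit 76) (nat_lit 155456529726) (nat_lit 0) (nat_lit 206956300171) (nat_lit 760) (nat_lit 1042001368) (nat_lit 101) (nat_lit 5) (nat_lit 100) (nat_lit 5) (nat_lit 110) (nat_lit 5) (nat_lit 393) (nat_lit 391) (nat_lit 116)) (XT.nd (nat_lit 78) (nat_lit 0) (nat_lit 76) (XT.lf (nat_lit 0) (nat_lit 4498408969) (nat_lit 760) (nat_lit 37450982933) (nat_lit 836) (nat_lit 330758943015) (nat_lit 90) (nat_lit 5) (nat_lit 100) (nat_lit 5) (nat_lit 101) (nat_lit 5) (nat_lit 394) (nat_lit 391) (nat_lit 115)) (XT.lf (nat_lit 0) (nat_lit 14652574858) (nat_lit 760) (nat_lit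 238108513529) (nat_lit 836) (nat_lit 129443983654) (nat_lit 91) (nat_lit 5) (nat_lit 101) (nat_lit 5) (nat_lit 102) (nat_lit 5) (nat_lit 395) (nat_lit 391) (nat_lit 114))))))) (XT.nd (nat_lit 47112) (nat_lit 0) (nat_lit 0) (XT.nd (nat_lit 46644) (nat_lit 76) (nat_lit 0) (XT.nd (nat_lit 156) (nat_lit 0) (nat_lit 76) (XT.nd (nat_lit 78) (nat_lit 0) (nat_lit 76) (XT.lf (nat_lit 0) (nat_lit 26646762888) (nat_lit 760) (nat_lit 56821355146) (nat_lit 836) (nat_lit 308641912335) (nat_lit 91) (nat_lit 5) (nat_lit 101) (nat_lit 5) (nat_lit 102) (nat_lit 5) (nat_lit 396) (nat_lit 391) (nat_lit 113)) (XT.lf (nat_lit 0) (nat_lit 42901774761) (nat_lit 760) (nat_lit 265964730797) (nat_lit 836) (nat_lit 93460675374) (nat_lit 92) (nat_lit 5) (nat_lit 102) (nat_lit 5) (nat_lit 103) (nat_lit 5) (nat_lit 397) (nat_lit 391) (nat_lit 112))) (XT.nd (nat_lit 78) (nat_lit 0) (nat_lit 76) (XT.lf (nat_lit 0) (nat_lit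 62315912922) (nat_lit 760) (nat_lit 73213044511) (nat_lit 836) (nat_lit 277408912843) (nat_lit 92) (nat_lit 5) (nat_lit 102) (nat_lit 5) (nat_lit 103) (nat_lit 5) (nat_lit 398) (nat_lit 391) (nat_lit 111)) (XT.nd (nat_lit 46332) (nat_lit 0) (nat_lit 532) (XT.lf (nat_lit 0) (nat_lit 85543987782) (nat_lit 760) (nat_lit 291287333145) (nat_lit 836) (nat_lit 47105611707) (nat_lit 93) (nat_lit 5) (nat_lit 103) (nat_lit 5) (nat_lit 104) (nat_lit 5) (nat_lit 399) (nat_lit 391) (nat_lit 110)) (XT.lf (nat_lit 0) (nat_lit 89268899312) (nat_lit 0) (nat_lit 89268899312) (nat_lit 684) (nat_lit 3096189642) (nat_lit 100) (nat_lit 5) (nat_lit 100) (nat_lit 3) (nat_lit 109) (nat_lit 3) (nat_lit 392) (nat_lit 392) (nat_lit 116))))) (XT.nd (nat_lit 234) (nat_lit 0) (nat_lit 76) (XT.nd (nat_lit 78) (nat_lit 760) (nat_lit 0) (XT.lf (nat_lit 0) (nat_lit 356080436769) (nat_lit 0) (nat_lit 9922518189) (nat_lit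 684) (nat_lit 6346696880) (nat_lit 100) (nat_lit 5) (nat_lit 100) (nat_lit 3) (nat_lit 109) (nat_lit 3) (nat_lit 393) (nat_lit 392) (nat_lit 115)) (XT.nd (nat_lit 78) (nat_lit 760) (nat_lit 0) (XT.lf (nat_lit 76) (nat_lit 163229888372) (nat_lit 0) (nat_lit 217304505088) (nat_lit 760) (nat_lit 1093131848) (nat_lit 101) (nat_lit 5) (nat_lit 100) (nat_lit 5) (nat_lit 110) (nat_lit 5) (nat_lit 394) (nat_lit 392) (nat_lit 114)) (XT.lf (nat_lit 0) (nat_lit 4724223280) (nat_lit 760) (nat_lit 39322994421) (nat_lit 836) (nat_lit 347296487984) (nat_lit 90) (nat_lit 5) (nat_lit 100) (nat_lit 5) (nat_lit 101) (nat_lit 5) (nat_lit 395) (nat_lit 392) (nat_lit 113)))) (XT.nd (nat_lit 78) (nat_lit 0) (nat_lit 0) (XT.lf (nat_lit 0) (nat_lit 15386057996) (nat_lit 760) (nat_lit 250013360855) (nat_lit 836) (nat_lit 135915862848) (nat_lit 91) (nat_lit 5) (nat_lit 101) (nat_lit 5) (nat_lit 102) (nat_lit 5)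 (nat_lit 396) (nat_lit 392) (nat_lit 112)) (XT.nd (nat_lit 78) (nat_lit 0) (nat_lit 76) (XT.lf (nat_lit 0) (nat_lit 27979914742) (nat_lit 760) (nat_lit 59661872094) (nat_lit 836) (nat_lit 324073703200) (nat_lit 91) (nat_lit 5) (nat_lit 101) (nat_lit 5) (nat_lit 102) (nat_lit 5) (nat_lit 397) (nat_lit 392) (nat_lit 111)) (XT.lf (nat_lit 0) (nat_lit 45047643152) (nat_lit 760) (nat_lit 279262381359) (nat_lit 836) (nat_lit 98133475374) (nat_lit 92) (nat_lit 5) (nat_lit 102) (nat_lit 5) (nat_lit 103) (nat_lit 5) (nat_lit 398) (nat_lit 392) (nat_lit 110)))))) (XT.nd (nat_lit 46800) (nat_lit 0) (nat_lit 0) (XT.nd (nat_lit 46566) (nat_lit 152) (nat_lit 0) (XT.nd (nat_lit 46410) (nat_lit 0) (nat_lit 608) (XT.lf (nat_lit 0) (nat_lit 65432451094) (nat_lit 760) (nat_lit 76873138663) (nat_lit 836) (nat_lit 291279135849) (nat_lit 92) (nat_lit 5) (nat_lit 102) (nat_lit 5) (nat_lit 103) (nat_lit 5) (nat_lit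 399) (nat_lit 392) (nat_lit 109)) (XT.nd (nat_lit 78) (nat_lit 0) (nat_lit 0) (XT.lf (nat_lit 0) (nat_lit 93732574515) (nat_lit 0) (nat_lit 93732574515) (nat_lit 684) (nat_lit 3250514917) (nat_lit 100) (nat_lit 5) (nat_lit 100) (nat_lit 3) (nat_lit 109) (nat_lit 3) (nat_lit 393) (nat_lit 393) (nat_lit 114)) (XT.lf (nat_lit 0) (nat_lit 373884897155) (nat_lit 0) (nat_lit 10419082646) (nat_lit 684) (nat_lit 6663109425) (nat_lit 100) (nat_lit 5) (nat_lit 100) (nat_lit 3) (nat_lit 109) (nat_lit 3) (nat_lit 394) (nat_lit 393) (nat_lit 113)))) (XT.nd (nat_lit 78) (nat_lit 760) (nat_lit 0) (XT.lf (nat_lit 76) (nat_lit 171391865476) (nat_lit 0) (nat_lit 228170084001) (nat_lit 760) (nat_lit 1146908996) (nat_lit 101) (nat_lit 5) (nat_lit 100) (nat_lit 5) (nat_lit 110) (nat_lit 5) (nat_lit 395) (nat_lit 393) (nat_lit 112)) (XT.nd (nat_lit 78) (nat_lit 0) (nat_lit 76) (XT.lf (nat_lit 0) (nat_lit 4961245204)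 (nat_lit 760) (nat_lit 41288656469) (nat_lit 836) (nat_lit 364660947594) (nat_lit 90) (nat_lit 5) (nat_lit 100) (nat_lit 5) (nat_lit 101) (nat_lit 5) (nat_lit 396) (nat_lit 393) (nat_lit 111)) (XT.lf (nat_lit 0) (nat_lit 16156135857) (nat_lit 760) (nat_lit 262513504318) (nat_lit 836) (nat_lit 142711365751) (nat_lit 91) (nat_lit 5) (nat_lit 101) (nat_lit 5) (nat_lit 102) (nat_lit 5) (nat_lit 397) (nat_lit 393) (nat_lit 110))))) (XT.nd (nat_lit 46722) (nat_lit 76) (nat_lit 0) (XT.nd (nat_lit 46566) (nat_lit 0) (nat_lit 684) (XT.lf (nat_lit 0) (nat_lit 29379648538) (nat_lit 760) (nat_lit 62644466098) (nat_lit 836) (nat_lit 340277111942) (nat_lit 91) (nat_lit 5) (nat_lit 101) (nat_lit 5) (nat_lit 102) (nat_lit 5) (nat_lit 398) (nat_lit 393) (nat_lit 109)) (XT.nd (nat_lit 78) (nat_lit 0) (nat_lit 0) (XT.lf (nat_lit 0) (nat_lit 98419412073) (nat_lit 0) (nat_lit 98419412073) (nat_lit 684) (nat_lit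 3412601473) (nat_lit 100) (nat_lit 5) (nat_lit 100) (nat_lit 3) (nat_lit 109) (nat_lit 3) (nat_lit 394) (nat_lit 394) (nat_lit 112)) (XT.lf (nat_lit 0) (nat_lit 392579539788) (nat_lit 0) (nat_lit 10940434553) (nat_lit 684) (nat_lit 6995428345) (nat_lit 100) (nat_lit 5) (nat_lit 100) (nat_lit 3) (nat_lit 109) (nat_lit 3) (nat_lit 395) (nat_lit 394) (nat_lit 111)))) (XT.nd (nat_lit 78) (nat_lit 760) (nat_lit 0) (XT.lf (nat_lit 76) (nat_lit 179961896560) (nat_lit 0) (nat_lit 239578908979) (nat_lit 760) (nat_lit 1203456763) (nat_lit 101) (nat_lit 5) (nat_lit 100) (nat_lit 5) (nat_lit 110) (nat_lit 5) (nat_lit 396) (nat_lit 394) (nat_lit 110)) (XT.nd (nat_lit 46800) (nat_lit 0) (nat_lit 760) (XT.lf (nat_lit 0) (nat_lit 5210042846) (nat_lit 760) (nat_lit 43352646959) (nat_lit 836) (nat_lit 382893664098) (nat_lit 90) (nat_lit 5) (nat_lit 100) (nat_lit 5) (nat_lit 101) (nat_lit 5) (nat_lit 397)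 (nat_lit 394) (nat_lit 109)) (XT.lf (nat_lit 0) (nat_lit 412208877571) (nat_lit 0) (nat_lit 11487817075) (nat_lit 684) (nat_lit 7344440985) (nat_lit 100) (nat_lit 5) (nat_lit 100) (nat_lit 3) (nat_lit 109) (nat_lit 3) (nat_lit 396) (nat_lit 395) (nat_lit 109))))))))

set_option maxRecDepth 10000000 in
noncomputable def Tp : PT := (PT.nd (nat_lit 7184892) (PT.nd (nat_lit 6715488) (PT.nd (nat_lit 6246864) (PT.nd (nat_lit 5778630) pc0 pc1) (PT.nd (nat_lit 281034) pc2 pc3)) (PT.nd (nat_lit 281112) (PT.nd (nat_lit 140946) pc4 pc5) (PT.nd (nat_lit 94302) pc6 pc7))) (PT.nd (nat_lit 326196) (PT.nd (nat_lit 186108) (PT.nd (nat_lit 93288) pc8 pc9) (PT.nd (nat_lit 48126) pc10 pc11)) (PT.nd (nat_lit 186732) (PT.nd (nat_lit 48906) pc12 pc13) (PT.nd (nat_lit 186654) pc14 pc15))))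

set_option maxRecDepth 10000000 in
noncomputable def Tx : XT := (XT.nd (nat_lit 10909704) (nat_lit 0) (nat_lit 76) XT.nil (XT.nd (nat_lit 7638072) (nat_lit 0) (nat_lit 0) (XT.nd (nat_lit 3607578) (nat_lit 0) (nat_lit 76) (XT.nd (nat_lit 2524158) (nat_lit 0) (nat_lit 76) (XT.nd (nat_lit 1776138) (nat_lit 0) (nat_lit 0) (XT.nd (nat_lit 1218204) (nat_lit 0) (nat_lit 0) (XT.nd (nat_lit 843258) (nat_lit 0) (nat_lit 0) (XT.nd (nat_lit 607464) (nat_lit 0) (nat_lit 0) (XT.nd (nat_lit 420576) (nat_lit 0) (nat_lit 0) (XT.nd (nat_lit 280566) (nat_lit 0) (nat_lit 0) xc0 xc1) (XT.nd (nat_lit 93756) (nat_lit 0) (nat_lit 0) xc2 xc3)) (XT.nd (nat_lit 140478) (nat_lit 0) (nat_lit 0) (XT.nd (nat_lit 48126) (nat_lit 0) (nat_lit 0) xc4 xc5) (XT.nd (nat_lit 47736) (nat_lit 0) (nat_lit 0) xc6 xc7))) (XT.nd (nat_lit 231894) (nat_lit 0) (nat_lit 0) (XT.nd (nat_lit 138138) (nat_lit 0) (nat_lit 0) (XT.nd (nat_lit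 47346) (nat_lit 0) (nat_lit 0) xc8 xc9) (XT.nd (nat_lit 46956) (nat_lit 0) (nat_lit 0) xc10 xc11)) (XT.nd (nat_lit 93132) (nat_lit 0) (nat_lit 0) (XT.nd (nat_lit 46644) (nat_lit 0) (nat_lit 0) xc12 xc13) (XT.nd (nat_lit 3588) (nat_lit 0) (nat_lit 0) xc14 xc15)))) (XT.nd (nat_lit 281736) (nat_lit 0) (nat_lit 0) (XT.nd (nat_lit 183690) (nat_lit 0) (nat_lit 0) (XT.nd (nat_lit 92118) (nat_lit 0) (nat_lit 0) (XT.nd (nat_lit 46098) (nat_lit 0) (nat_lit 0) xc16 xc17) (XT.nd (nat_lit 45864) (nat_lit 0) (nat_lit 0) xc18 xc19)) (XT.nd (nat_lit 49062) (nat_lit 0) (nat_lit 0) (XT.nd (nat_lit 3510) (nat_lit 0) (nat_lit 0) xc20 xc21) (XT.nd (nat_lit 45396) (nat_lit 0) (nat_lit 0) xc22 xc23))) (XT.nd (nat_lit 138762) (nat_lit 0) (nat_lit 0) (XT.nd (nat_lit 90246) (nat_lit 0) (nat_lit 0) (XT.nd (nat_lit 45162) (nat_lit 0) (nat_lit 0) xc24 xc25) (XT.nd (nat_lit 3588) (nat_lit 0) (nat_lit 0) xc26 xc27))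 (XT.nd (nat_lit 48360) (nat_lit 0) (nat_lit 0) (XT.nd (nat_lit 44772) (nat_lit 0) (nat_lit 0) xc28 xc29) (XT.nd (nat_lit 44616) (nat_lit 0) (nat_lit 0) xc30 xc31))))) (XT.nd (nat_lit 378846) (nat_lit 0) (nat_lit 76) (XT.nd (nat_lit 190476) (nat_lit 0) (nat_lit 0) (XT.nd (nat_lit 95550) (nat_lit 0) (nat_lit 0) (XT.nd (nat_lit 47814) (nat_lit 0) (nat_lit 0) (XT.nd (nat_lit 3510) (nat_lit 76) (nat_lit 0) xc32 xc33) (XT.nd (nat_lit 3588) (nat_lit 76) (nat_lit 0) xc34 xc35)) (XT.nd (nat_lit 47502) (nat_lit 0) (nat_lit 0) (XT.nd (nat_lit 43914) (nat_lit 0) (nat_lit 76) xc36 xc37) (XT.nd (nat_lit 43836) (nat_lit 0) (nat_lit 76) xc38 xc39))) (XT.nd (nat_lit 94458) (nat_lit 0) (nat_lit 0) (XT.nd (nat_lit 47268) (nat_lit 0) (nat_lit 0) (XT.nd (nat_lit 43680) (nat_lit 0) (nat_lit 76) xc40 xc41) (XT.nd (nat_lit 43602) (nat_lit 0) (nat_lit 76) xc42 xc43)) (XT.nd (nat_lit 47034) (nat_lit 0) (nat_lit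 0) (XT.nd (nat_lit 43446) (nat_lit 0) (nat_lit 76) xc44 xc45) (XT.nd (nat_lit 43290) (nat_lit 0) (nat_lit 76) xc46 xc47)))) (XT.nd (nat_lit 185796) (nat_lit 0) (nat_lit 0) (XT.nd (nat_lit 93210) (nat_lit 0) (nat_lit 0) (XT.nd (nat_lit 46644) (nat_lit 0) (nat_lit 0) (XT.nd (nat_lit 43056) (nat_lit 0) (nat_lit 0) xc48 xc49) (XT.nd (nat_lit 42978) (nat_lit 0) (nat_lit 0) xc50 xc51)) (XT.nd (nat_lit 46332) (nat_lit 0) (nat_lit 0) (XT.nd (nat_lit 42744) (nat_lit 0) (nat_lit 0) xc52 xc53) (XT.nd (nat_lit 42666) (nat_lit 0) (nat_lit 152) xc54 xc55))) (XT.nd (nat_lit 91962) (nat_lit 0) (nat_lit 0) (XT.nd (nat_lit 46020) (nat_lit 0) (nat_lit 0) (XT.nd (nat_lit 42432) (nat_lit 0) (nat_lit 228) xc56 xc57) (XT.nd (nat_lit 3588) (nat_lit 0) (nat_lit 0) xc58 xc59)) (XT.nd (nat_lit 45786) (nat_lit 0) (nat_lit 0) (XT.nd (nat_lit 3588) (nat_lit 0) (nat_lit 0) xc60 xc61) (XT.nd (nat_lit 3588) (nat_lit 0)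 (nat_lit 0) xc62 xc63)))))) (XT.nd (nat_lit 564408) (nat_lit 0) (nat_lit 0) (XT.nd (nat_lit 284934) (nat_lit 0) (nat_lit 0) (XT.nd (nat_lit 143052) (nat_lit 0) (nat_lit 0) (XT.nd (nat_lit 52572) (nat_lit 0) (nat_lit 0) (XT.nd (nat_lit 7098) (nat_lit 0) (nat_lit 0) (XT.nd (nat_lit 3510) (nat_lit 228) (nat_lit 0) xc64 xc65) (XT.nd (nat_lit 41886) (nat_lit 0) (nat_lit 0) xc66 xc67)) (XT.nd (nat_lit 45240) (nat_lit 0) (nat_lit 0) (XT.nd (nat_lit 41652) (nat_lit 0) (nat_lit 152) xc68 xc69) (XT.nd (nat_lit 41652) (nat_lit 0) (nat_lit 532) xc70 xc71))) (XT.nd (nat_lit 89934) (nat_lit 0) (nat_lit 0) (XT.nd (nat_lit 45006) (nat_lit 0) (nat_lit 0) (XT.nd (nat_lit 3510) (nat_lit 0) (nat_lit 0) xc72 xc73) (XT.nd (nat_lit 3588) (nat_lit 152) (nat_lit 0) xc74 xc75)) (XT.nd (nat_lit 7176) (nat_lit 0) (nat_lit 0) (XT.nd (nat_lit 3588) (nat_lit 684) (nat_lit 0) xc76 xc77) (XT.nd (nat_lit 41184) (nat_lit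 0) (nat_lit 228) xc78 xc79)))) (XT.nd (nat_lit 140400) (nat_lit 0) (nat_lit 0) (XT.nd (nat_lit 88998) (nat_lit 0) (nat_lit 0) (XT.nd (nat_lit 44538) (nat_lit 0) (nat_lit 0) (XT.nd (nat_lit 40950) (nat_lit 0) (nat_lit 1140) xc80 xc81) (XT.nd (nat_lit 3588) (nat_lit 152) (nat_lit 0) xc82 xc83)) (XT.nd (nat_lit 7098) (nat_lit 0) (nat_lit 0) (XT.nd (nat_lit 3510) (nat_lit 684) (nat_lit 0) xc84 xc85) (XT.nd (nat_lit 40716) (nat_lit 0) (nat_lit 380) xc86 xc87))) (XT.nd (nat_lit 88062) (nat_lit 0) (nat_lit 0) (XT.nd (nat_lit 44070) (nat_lit 0) (nat_lit 0) (XT.nd (nat_lit 3510) (nat_lit 0) (nat_lit 0) xc88 xc89) (XT.nd (nat_lit 3588) (nat_lit 228) (nat_lit 0) xc90 xc91)) (XT.nd (nat_lit 7176) (nat_lit 152) (nat_lit 0) (XT.nd (nat_lit 3588) (nat_lit 1064) (nat_lit 0) xc92 xc93) (XT.nd (nat_lit 40248) (nat_lit 0) (nat_lit 988) xc94 xc95))))) (XT.nd (nat_lit 276666) (nat_lit 0) (nat_lit 0) (XT.nd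 (nat_lit 138060) (nat_lit 0) (nat_lit 0) (XT.nd (nat_lit 50856) (nat_lit 0) (nat_lit 0) (XT.nd (nat_lit 43680) (nat_lit 0) (nat_lit 0) (XT.nd (nat_lit 3510) (nat_lit 152) (nat_lit 0) xc96 xc97) (XT.nd (nat_lit 3588) (nat_lit 836) (nat_lit 0) xc98 xc99)) (XT.nd (nat_lit 43524) (nat_lit 0) (nat_lit 0) (XT.nd (nat_lit 39936) (nat_lit 0) (nat_lit 760) xc100 xc101) (XT.nd (nat_lit 3588) (nat_lit 0) (nat_lit 0) xc102 xc103))) (XT.nd (nat_lit 50856) (nat_lit 0) (nat_lit 0) (XT.nd (nat_lit 7098) (nat_lit 0) (nat_lit 0) (XT.nd (nat_lit 3510) (nat_lit 684) (nat_lit 0) xc104 xc105) (XT.nd (nat_lit 40170) (nat_lit 0) (nat_lit 532) xc106 xc107)) (XT.nd (nat_lit 43836) (nat_lit 0) (nat_lit 0) (XT.nd (nat_lit 3588) (nat_lit 0) (nat_lit 0) xc108 xc109) (XT.nd (nat_lit 3588) (nat_lit 456) (nat_lit 0) xc110 xc111)))) (XT.nd (nat_lit 102336) (nat_lit 0) (nat_lit 0) (XT.nd (nat_lit 51090) (nat_lit 0) (nat_lit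 0) (XT.nd (nat_lit 7098) (nat_lit 304) (nat_lit 0) (XT.nd (nat_lit 3510) (nat_lit 1748) (nat_lit 0) xc112 xc113) (XT.nd (nat_lit 40404) (nat_lit 0) (nat_lit 1444) xc114 xc115)) (XT.nd (nat_lit 44070) (nat_lit 0) (nat_lit 152) (XT.nd (nat_lit 3510) (nat_lit 228) (nat_lit 0) xc116 xc117) (XT.nd (nat_lit 3588) (nat_lit 988) (nat_lit 0) xc118 xc119))) (XT.nd (nat_lit 88452) (nat_lit 0) (nat_lit 0) (XT.nd (nat_lit 44148) (nat_lit 0) (nat_lit 0) (XT.nd (nat_lit 40560) (nat_lit 0) (nat_lit 684) xc120 xc121) (XT.nd (nat_lit 3588) (nat_lit 0) (nat_lit 0) xc122 xc123)) (XT.nd (nat_lit 44382) (nat_lit 0) (nat_lit 228) (XT.nd (nat_lit 3588) (nat_lit 456) (nat_lit 0) xc124 xc125) (XT.nd (nat_lit 3588) (nat_lit 1368) (nat_lit 0) xc126 xc127))))))) (XT.nd (nat_lit 1266876) (nat_lit 0) (nat_lit 380) (XT.nd (nat_lit 605982) (nat_lit 0) (nat_lit 152) (XT.nd (nat_lit 282204) (nat_lit 0) (nat_lit 76) (XT.nd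 (nat_lit 140634) (nat_lit 0) (nat_lit 0) (XT.nd (nat_lit 88920) (nat_lit 0) (nat_lit 0) (XT.nd (nat_lit 44382) (nat_lit 0) (nat_lit 0) (XT.nd (nat_lit 40794) (nat_lit 0) (nat_lit 988) xc128 xc129) (XT.nd (nat_lit 3588) (nat_lit 152) (nat_lit 0) xc130 xc131)) (XT.nd (nat_lit 44538) (nat_lit 0) (nat_lit 228) (XT.nd (nat_lit 3510) (nat_lit 608) (nat_lit 0) xc132 xc133) (XT.nd (nat_lit 3588) (nat_lit 1520) (nat_lit 0) xc134 xc135))) (XT.nd (nat_lit 89466) (nat_lit 0) (nat_lit 0) (XT.nd (nat_lit 44616) (nat_lit 0) (nat_lit 0) (XT.nd (nat_lit 41028) (nat_lit 0) (nat_lit 988) xc136 xc137) (XT.nd (nat_lit 3588) (nat_lit 152) (nat_lit 0) xc138 xc139)) (XT.nd (nat_lit 44928) (nat_lit 0) (nat_lit 152) (XT.nd (nat_lit 3588) (nat_lit 456) (nat_lit 0) xc140 xc141) (XT.nd (nat_lit 3588) (nat_lit 1064) (nat_lit 0) xc142 xc143)))) (XT.nd (nat_lit 180336) (nat_lit 0) (nat_lit 76) (XT.nd (nat_lit 90012)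 (nat_lit 0) (nat_lit 76) (XT.nd (nat_lit 44928) (nat_lit 0) (nat_lit 76) (XT.nd (nat_lit 41340) (nat_lit 0) (nat_lit 532) xc144 xc145) (XT.nd (nat_lit 41496) (nat_lit 0) (nat_lit 1292) xc146 xc147)) (XT.nd (nat_lit 45084) (nat_lit 0) (nat_lit 0) (XT.nd (nat_lit 3510) (nat_lit 76) (nat_lit 0) xc148 xc149) (XT.nd (nat_lit 3588) (nat_lit 532) (nat_lit 0) xc150 xc151))) (XT.nd (nat_lit 52416) (nat_lit 0) (nat_lit 0) (XT.nd (nat_lit 7098) (nat_lit 76) (nat_lit 0) (XT.nd (nat_lit 3510) (nat_lit 1216) (nat_lit 0) xc152 xc153) (XT.nd (nat_lit 41730) (nat_lit 0) (nat_lit 456) xc154 xc155)) (XT.nd (nat_lit 45474) (nat_lit 0) (nat_lit 0) (XT.nd (nat_lit 41886) (nat_lit 0) (nat_lit 1064) xc156 xc157) (XT.nd (nat_lit 3588) (nat_lit 0) (nat_lit 0) xc158 xc159))))) (XT.nd (nat_lit 328224) (nat_lit 0) (nat_lit 76) (XT.nd (nat_lit 144144) (nat_lit 0) (nat_lit 0) (XT.nd (nat_lit 91260) (nat_lit 0) (nat_lit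 0) (XT.nd (nat_lit 45552) (nat_lit 0) (nat_lit 0) (XT.nd (nat_lit 3510) (nat_lit 304) (nat_lit 0) xc160 xc161) (XT.nd (nat_lit 3588) (nat_lit 760) (nat_lit 0) xc162 xc163)) (XT.nd (nat_lit 7098) (nat_lit 76) (nat_lit 0) (XT.nd (nat_lit 3510) (nat_lit 1368) (nat_lit 0) xc164 xc165) (XT.nd (nat_lit 42198) (nat_lit 0) (nat_lit 304) xc166 xc167))) (XT.nd (nat_lit 91806) (nat_lit 0) (nat_lit 76) (XT.nd (nat_lit 45786) (nat_lit 0) (nat_lit 76) (XT.nd (nat_lit 42198) (nat_lit 0) (nat_lit 760) xc168 xc169) (XT.nd (nat_lit 42432) (nat_lit 0) (nat_lit 1140) xc170 xc171)) (XT.nd (nat_lit 46098) (nat_lit 0) (nat_lit 0) (XT.nd (nat_lit 42510) (nat_lit 0) (nat_lit 1824) xc172 xc173) (XT.nd (nat_lit 3588) (nat_lit 152) (nat_lit 0) xc174 xc175)))) (XT.nd (nat_lit 185406) (nat_lit 0) (nat_lit 0) (XT.nd (nat_lit 92508) (nat_lit 0) (nat_lit 0) (XT.nd (nat_lit 46176) (nat_lit 0) (nat_lit 0) (XT.nd (nat_lit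 3510) (nat_lit 304) (nat_lit 0) xc176 xc177) (XT.nd (nat_lit 3588) (nat_lit 532) (nat_lit 0) xc178 xc179)) (XT.nd (nat_lit 46332) (nat_lit 0) (nat_lit 0) (XT.nd (nat_lit 3510) (nat_lit 912) (nat_lit 0) xc180 xc181) (XT.nd (nat_lit 3588) (nat_lit 1140) (nat_lit 0) xc182 xc183))) (XT.nd (nat_lit 53742) (nat_lit 0) (nat_lit 76) (XT.nd (nat_lit 46566) (nat_lit 0) (nat_lit 152) (XT.nd (nat_lit 3510) (nat_lit 1520) (nat_lit 0) xc184 xc185) (XT.nd (nat_lit 3588) (nat_lit 1672) (nat_lit 0) xc186 xc187)) (XT.nd (nat_lit 46722) (nat_lit 0) (nat_lit 76) (XT.nd (nat_lit 43134) (nat_lit 0) (nat_lit 76) xc188 xc189) (XT.nd (nat_lit 43212) (nat_lit 0) (nat_lit 76) xc190 xc191)))))) (XT.nd (nat_lit 886236) (nat_lit 0) (nat_lit 608) (XT.nd (nat_lit 418236) (nat_lit 0) (nat_lit 228) (XT.nd (nat_lit 228150) (nat_lit 0) (nat_lit 76) (XT.nd (nat_lit 93834) (nat_lit 0) (nat_lit 0) (XT.nd (nat_lit 46800) (nat_lit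 0) (nat_lit 0) (XT.nd (nat_lit 43212) (nat_lit 0) (nat_lit 76) xc192 xc193) (XT.nd (nat_lit 43446) (nat_lit 0) (nat_lit 76) xc194 xc195)) (XT.nd (nat_lit 87048) (nat_lit 0) (nat_lit 76) (XT.nd (nat_lit 43446) (nat_lit 0) (nat_lit 76) xc196 xc197) (XT.nd (nat_lit 3588) (nat_lit 1748) (nat_lit 0) xc198 xc199))) (XT.nd (nat_lit 94848) (nat_lit 0) (nat_lit 76) (XT.nd (nat_lit 47346) (nat_lit 0) (nat_lit 0) (XT.nd (nat_lit 3510) (nat_lit 1444) (nat_lit 0) xc200 xc201) (XT.nd (nat_lit 3588) (nat_lit 1140) (nat_lit 0) xc202 xc203)) (XT.nd (nat_lit 47580) (nat_lit 0) (nat_lit 0) (XT.nd (nat_lit 3588) (nat_lit 684) (nat_lit 0) xc204 xc205) (XT.nd (nat_lit 3588) (nat_lit 380) (nat_lit 0) xc206 xc207)))) (XT.nd (nat_lit 232674) (nat_lit 0) (nat_lit 152) (XT.nd (nat_lit 95628) (nat_lit 0) (nat_lit 76) (XT.nd (nat_lit 47736) (nat_lit 0) (nat_lit 0) (XT.nd (nat_lit 3510) (nat_lit 76) (nat_lit 0) xc208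 xc209) (XT.nd (nat_lit 44304) (nat_lit 0) (nat_lit 988) xc210 xc211)) (XT.nd (nat_lit 47892) (nat_lit 0) (nat_lit 0) (XT.nd (nat_lit 44304) (nat_lit 0) (nat_lit 304) xc212 xc213) (XT.nd (nat_lit 44538) (nat_lit 0) (nat_lit 0) xc214 xc215))) (XT.nd (nat_lit 96642) (nat_lit 0) (nat_lit 152) (XT.nd (nat_lit 48204) (nat_lit 0) (nat_lit 76) (XT.nd (nat_lit 3510) (nat_lit 988) (nat_lit 0) xc216 xc217) (XT.nd (nat_lit 3588) (nat_lit 152) (nat_lit 0) xc218 xc219)) (XT.nd (nat_lit 48516) (nat_lit 0) (nat_lit 0) (XT.nd (nat_lit 44928) (nat_lit 0) (nat_lit 304) xc220 xc221) (XT.nd (nat_lit 45006) (nat_lit 0) (nat_lit 0) xc222 xc223))))) (XT.nd (nat_lit 564252) (nat_lit 0) (nat_lit 760) (XT.nd (nat_lit 237900) (nat_lit 0) (nat_lit 228) (XT.nd (nat_lit 97656) (nat_lit 0) (nat_lit 152) (XT.nd (nat_lit 48750) (nat_lit 0) (nat_lit 0) (XT.nd (nat_lit 3510) (nat_lit 380) (nat_lit 0) xc224 xc225) (XT.nd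 (nat_lit 45318) (nat_lit 0) (nat_lit 228) xc226 xc227)) (XT.nd (nat_lit 90948) (nat_lit 0) (nat_lit 76) (XT.nd (nat_lit 45396) (nat_lit 0) (nat_lit 0) xc228 xc229) (XT.nd (nat_lit 45708) (nat_lit 0) (nat_lit 532) xc230 xc231))) (XT.nd (nat_lit 183690) (nat_lit 0) (nat_lit 380) (XT.nd (nat_lit 91572) (nat_lit 0) (nat_lit 152) (XT.nd (nat_lit 45708) (nat_lit 0) (nat_lit 152) xc232 xc233) (XT.nd (nat_lit 46020) (nat_lit 0) (nat_lit 76) xc234 xc235)) (XT.nd (nat_lit 49842) (nat_lit 0) (nat_lit 76) (XT.nd (nat_lit 3588) (nat_lit 608) (nat_lit 0) xc236 xc237) (XT.nd (nat_lit 46332) (nat_lit 0) (nat_lit 76) xc238 xc239)))) (XT.nd (nat_lit 421200) (nat_lit 0) (nat_lit 1596) (XT.nd (nat_lit 187434) (nat_lit 0) (nat_lit 836) (XT.nd (nat_lit 93366) (nat_lit 0) (nat_lit 304) (XT.nd (nat_lit 46566) (nat_lit 0) (nat_lit 152) xc240 xc241) (XT.nd (nat_lit 46956) (nat_lit 0) (nat_lit 304) xc242 xc243))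 (XT.nd (nat_lit 94536) (nat_lit 0) (nat_lit 152) (XT.nd (nat_lit 47190) (nat_lit 0) (nat_lit 0) xc244 xc245) (XT.nd (nat_lit 47502) (nat_lit 0) (nat_lit 228) xc246 xc247))) (XT.nd (nat_lit 281814) (nat_lit 0) (nat_lit 1064) (XT.nd (nat_lit 95784) (nat_lit 0) (nat_lit 228) (XT.nd (nat_lit 47814) (nat_lit 0) (nat_lit 0) xc248 xc249) (XT.nd (nat_lit 92742) (nat_lit 0) (nat_lit 456) xc250 xc251)) (XT.nd (nat_lit 188058) (nat_lit 0) (nat_lit 1216) (XT.nd (nat_lit 93756) (nat_lit 0) (nat_lit 532) xc252 xc253) (XT.nd (nat_lit 140634) (nat_lit 0) (nat_lit 684) xc254 xc255)))))))) XT.nil))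

set_option maxRecDepth 10000000 in
noncomputable def Te : XT := XT.nil

set_option maxRecDepth 10000000 in
noncomputable def Tz : ZL := (ZL.cons (nat_lit 76) (nat_lit 3) (nat_lit 115274518822777759196) (ZL.cons (nat_lit 152) (nat_lit 6) (nat_lit 225348413414559165306) (ZL.cons (nat_lit 228) (nat_lit 6) (nat_lit 220414525345779691406) (ZL.cons (nat_lit 304) (nat_lit 3) (nat_lit 110078782825629675741) (ZL.cons (nat_lit 380) (nat_lit 6) (nat_lit 215233942873561243812) (ZL.cons (nat_lit 456) (nat_lit 6) (nat_lit 210565822170089370610) (ZL.cons (nat_lit 532) (nat_lit 3) (nat_lit 105160549325749285341) (ZL.cons (nat_lit 608) (nat_lit 6) (nat_lit 205664295431443903746) (ZL.cons (nat_lit 684) (nat_lit 6) (nat_lit 201252445586682827128) (ZL.cons (nat_lit 760) (nat_lit 3) (nat_lit 100509687784488651695) (ZL.cons (nat_lit 836) (nat_lit 6) (nat_lit 196620003249683696682) (ZL.cons (nat_lit 912) (nat_lit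 6) (nat_lit 192455703777564765512) (ZL.cons (nat_lit 988) (nat_lit 3) (nat_lit 96116866166065466689) (ZL.cons (nat_lit 1064) (nat_lit 6) (nat_lit 188083189331839887782) (ZL.cons (nat_lit 1140) (nat_lit 6) (nat_lit 184158492003571771692) (ZL.cons (nat_lit 1216) (nat_lit 3) (nat_lit 91973545313484061020) (ZL.cons (nat_lit 1292) (nat_lit 6) (nat_lit 180037559808890249798) (ZL.cons (nat_lit 1368) (nat_lit 6) (nat_lit 176345288470896561830) (ZL.cons (nat_lit 1444) (nat_lit 3) (nat_lit 88071976913256066796) (ZL.cons (nat_lit 1520) (nat_lit 6) (nat_lit 172468403566003189466) (ZL.cons (nat_lit 1596) (nat_lit 6) (nat_lit 169002157717219348504) (ZL.cons (nat_lit 1672) (nat_lit 3) (nat_lit 84405205218426613186) (ZL.cons (nat_lit 1748) (nat_lit 6) (nat_lit 165736963313853982514) (ZL.cons (nat_lit 1824) (nat_lit 6) (nat_lit 165362599575996315494) (ZL.cons (nat_lit 1900) (nat_lit 6) (nat_lit 162116761909954226092)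 (ZL.cons (nat_lit 1976) (nat_lit 3) (nat_lit 80967072726231340602) (ZL.cons (nat_lit 2052) (nat_lit 6) (nat_lit 159065169253807810334) (ZL.cons (nat_lit 2128) (nat_lit 6) (nat_lit 158708632360610032220) (ZL.cons (nat_lit 2204) (nat_lit 6) (nat_lit 155678380507362528902) (ZL.cons (nat_lit 2280) (nat_lit 3) (nat_lit 77752230035828147838) (ZL.cons (nat_lit 2356) (nat_lit 6) (nat_lit 152836175007355296240) (ZL.cons (nat_lit 2432) (nat_lit 6) (nat_lit 152496616061452650416) (ZL.cons (nat_lit 2508) (nat_lit 6) (nat_lit 150175248704635936062) (ZL.cons (nat_lit 2584) (nat_lit 6) (nat_lit 149677938796641468720) (ZL.cons (nat_lit 2660) (nat_lit 3) (nat_lit 74756150143222528061) (ZL.cons (nat_lit 2736) (nat_lit 6) (nat_lit 147041717140877962052) (ZL.cons (nat_lit 2812) (nat_lit 6) (nat_lit 146718327668589727936) (ZL.cons (nat_lit 2888) (nat_lit 6) (nat_lit 144581674375934122070) (ZL.cons (nat_lit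 2964) (nat_lit 6) (nat_lit 144108045892129867456) (ZL.cons (nat_lit 3040) (nat_lit 3) (nat_lit 71975147465019022969) (ZL.cons (nat_lit 3116) (nat_lit 6) (nat_lit 141675240000454855970) (ZL.cons (nat_lit 3192) (nat_lit 6) (nat_lit 141367250026847013954) (ZL.cons (nat_lit 3268) (nat_lit 6) (nat_lit 139414117598584514880) (ZL.cons (nat_lit 3344) (nat_lit 6) (nat_lit 138963042852104272392) (ZL.cons (nat_lit 3420) (nat_lit 3) (nat_lit 69406401920294125947) (ZL.cons (nat_lit 3496) (nat_lit 6) (nat_lit 137319295061752486226) (ZL.cons (nat_lit 3572) (nat_lit 6) (nat_lit 136731949103012814718) (ZL.cons (nat_lit 3648) (nat_lit 6) (nat_lit 136438625318624393748) (ZL.cons (nat_lit 3724) (nat_lit 6) (nat_lit 134668656651598613652) (ZL.cons (nat_lit 3800) (nat_lit 6) (nat_lit 134239061654950763662) (ZL.cons (nat_lit 3876) (nat_lit 3) (nat_lit 67047988441039181595) (ZL.cons (nat_lit 3952) (nat_lit 6)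 (nat_lit 132768252896786873480) (ZL.cons (nat_lit 4028) (nat_lit 6) (nat_lit 132208875793225281564) (ZL.cons (nat_lit 4104) (nat_lit 6) (nat_lit 131929519808093452072) (ZL.cons (nat_lit 4180) (nat_lit 6) (nat_lit 131026213067732804344) (ZL.cons (nat_lit 4256) (nat_lit 6) (nat_lit 130343233957586696308) (ZL.cons (nat_lit 4332) (nat_lit 6) (nat_lit 129934095865541124890) (ZL.cons (nat_lit 4408) (nat_lit 3) (nat_lit 64898912326640847935) (ZL.cons (nat_lit 4484) (nat_lit 6) (nat_lit 129438389450557706076) (ZL.cons (nat_lit 4560) (nat_lit 6) (nat_lit 128637694143664439834) (ZL.cons (nat_lit 4636) (nat_lit 6) (nat_lit 128104954045034352296) (ZL.cons (nat_lit 4712) (nat_lit 6) (nat_lit 127838900725861181350) (ZL.cons (nat_lit 4788) (nat_lit 6) (nat_lit 127088195542377744862) (ZL.cons (nat_lit 4864) (nat_lit 6) (nat_lit 126437739247000499118) (ZL.cons (nat_lit 4940) (nat_lit 6) (nat_lit 126048083921242812052)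 (ZL.cons (nat_lit 5016) (nat_lit 3) (nat_lit 62959150907164535063) (ZL.cons (nat_lit 5092) (nat_lit 6) (nat_lit 125691048871342595454) (ZL.cons (nat_lit 5168) (nat_lit 6) (nat_lit 124928481912396627606) (ZL.cons (nat_lit 5244) (nat_lit 6) (nat_lit 124421110389891782334) (ZL.cons (nat_lit 5320) (nat_lit 6) (nat_lit 124167726276393524288) (ZL.cons (nat_lit 5396) (nat_lit 6) (nat_lit 124442927590866050780) (ZL.cons (nat_lit 5472) (nat_lit 6) (nat_lit 123573588571378442832) (ZL.cons (nat_lit 5548) (nat_lit 6) (nat_lit 122954106385304875456) (ZL.cons (nat_lit 5624) (nat_lit 6) (nat_lit 122583006075059459204) (ZL.cons (nat_lit 5700) (nat_lit 3) (nat_lit 61229702034237471542) (ZL.cons (nat_lit 5776) (nat_lit 6) (nat_lit 122369833287419711020) (ZL.cons (nat_lit 5852) (nat_lit 6) (nat_lit 121643579040804503544) (ZL.cons (nat_lit 5928) (nat_lit 6) (nat_lit 121160368066990365188) (ZL.cons (nat_lit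 6004) (nat_lit 6) (nat_lit 120919049863658690862) (ZL.cons (nat_lit 6080) (nat_lit 6) (nat_lit 121314349976511006620) (ZL.cons (nat_lit 6156) (nat_lit 6) (nat_lit 120486408053189475242) (ZL.cons (nat_lit 6232) (nat_lit 6) (nat_lit 119896425018833696786) (ZL.cons (nat_lit 6308) (nat_lit 6) (nat_lit 119542996151933300356) (ZL.cons (nat_lit 6384) (nat_lit 3) (nat_lit 59712639977593071075) (ZL.cons (nat_lit 6460) (nat_lit 6) (nat_lit 120404625583150166048) (ZL.cons (nat_lit 6536) (nat_lit 6) (nat_lit 119479838253441659524) (ZL.cons (nat_lit 6612) (nat_lit 6) (nat_lit 118788167542379557166) (ZL.cons (nat_lit 6688) (nat_lit 6) (nat_lit 118327966614937520636) (ZL.cons (nat_lit 6764) (nat_lit 6) (nat_lit 118098139754621640326) (ZL.cons (nat_lit 6840) (nat_lit 6) (nat_lit 117978457500229926972) (ZL.cons (nat_lit 6916) (nat_lit 6) (nat_lit 118185100038871875900) (ZL.cons (nat_lit 6992) (nat_lit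 6) (nat_lit 118530050899972071678) (ZL.cons (nat_lit 7068) (nat_lit 6) (nat_lit 119014131395104562392) (ZL.cons (nat_lit 7144) (nat_lit 6) (nat_lit 119638494096876806356) (ZL.cons (nat_lit 7220) (nat_lit 6) (nat_lit 118621473046799752072) (ZL.cons (nat_lit 7296) (nat_lit 6) (nat_lit 117832956929350674568) (ZL.cons (nat_lit 7372) (nat_lit 6) (nat_lit 117271068325202314136) (ZL.cons (nat_lit 7448) (nat_lit 6) (nat_lit 116934469404344793726) (ZL.cons (nat_lit 7524) (nat_lit 3) (nat_lit 58411179370388035811) (ZL.cons (nat_lit 7600) (nat_lit 6) (nat_lit 116493286487343670884) (ZL.cons (nat_lit 7676) (nat_lit 6) (nat_lit 116634380242911250604) (ZL.cons (nat_lit 7752) (nat_lit 6) (nat_lit 116916903691559666186) (ZL.cons (nat_lit 7828) (nat_lit 6) (nat_lit 117341529508166651950) (ZL.cons (nat_lit 7904) (nat_lit 6) (nat_lit 117909268706581272150) (ZL.cons (nat_lit 7980) (nat_lit 6) (nat_lit 117028518868763646886)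 (ZL.cons (nat_lit 8056) (nat_lit 6) (nat_lit 116369784858228311308) (ZL.cons (nat_lit 8132) (nat_lit 6) (nat_lit 115931498260664466996) (ZL.cons (nat_lit 8208) (nat_lit 6) (nat_lit 115712615536554104792) (ZL.cons (nat_lit 8284) (nat_lit 3) (nat_lit 57606606454472465742) (ZL.cons (nat_lit 8360) (nat_lit 6) (nat_lit 115285480442284423536) (ZL.cons (nat_lit 8436) (nat_lit 6) (nat_lit 115502455107858469910) (ZL.cons (nat_lit 8512) (nat_lit 6) (nat_lit 115864653512013675478) (ZL.cons (nat_lit 8588) (nat_lit 6) (nat_lit 116372938031902790728) (ZL.cons (nat_lit 8664) (nat_lit 6) (nat_lit 115621970300998907390) (ZL.cons (nat_lit 8740) (nat_lit 6) (nat_lit 115086838297048087932) (ZL.cons (nat_lit 8816) (nat_lit 6) (nat_lit 114766267896231401826) (ZL.cons (nat_lit 8892) (nat_lit 3) (nat_lit 57329747917844880863) (ZL.cons (nat_lit 8968) (nat_lit 6) (nat_lit 114135188970799426062) (ZL.cons (nat_lit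 9044) (nat_lit 6) (nat_lit 114283337414145384768) (ZL.cons (nat_lit 9120) (nat_lit 6) (nat_lit 114579987035226221128) (ZL.cons (nat_lit 9196) (nat_lit 6) (nat_lit 115025844142663556182) (ZL.cons (nat_lit 9272) (nat_lit 6) (nat_lit 114398478418344188964) (ZL.cons (nat_lit 9348) (nat_lit 6) (nat_lit 113981062611140527712) (ZL.cons (nat_lit 9424) (nat_lit 6) (nat_lit 113772602873892563710) (ZL.cons (nat_lit 9500) (nat_lit 3) (nat_lit 56590383519619218380) (ZL.cons (nat_lit 9576) (nat_lit 6) (nat_lit 113256647949244903414) (ZL.cons (nat_lit 9652) (nat_lit 6) (nat_lit 113484471348097652106) (ZL.cons (nat_lit 9728) (nat_lit 6) (nat_lit 113864779672460617952) (ZL.cons (nat_lit 9804) (nat_lit 6) (nat_lit 113355130144888408940) (ZL.cons (nat_lit 9880) (nat_lit 6) (nat_lit 113049825001253469792) (ZL.cons (nat_lit 9956) (nat_lit 3) (nat_lit 56474068662273572945) (ZL.cons (nat_lit 10032) (nat_lit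 6) (nat_lit 112419942214431072318) (ZL.cons (nat_lit 10108) (nat_lit 6) (nat_lit 112575498079944328958) (ZL.cons (nat_lit 10184) (nat_lit 6) (nat_lit 112886980182079207136) (ZL.cons (nat_lit 10260) (nat_lit 6) (nat_lit 112489441318075720228) (ZL.cons (nat_lit 10336) (nat_lit 6) (nat_lit 112290908234982421180) (ZL.cons (nat_lit 10412) (nat_lit 3) (nat_lit 55885614026596214990) (ZL.cons (nat_lit 10488) (nat_lit 6) (nat_lit 111850903008699219966) (ZL.cons (nat_lit 10564) (nat_lit 6) (nat_lit 112090117577494606092) (ZL.cons (nat_lit 10640) (nat_lit 6) (nat_lit 111799350774032759284) (ZL.cons (nat_lit 10716) (nat_lit 3) (nat_lit 55851252683822892069) (ZL.cons (nat_lit 10792) (nat_lit 6) (nat_lit 111308960908002217728) (ZL.cons (nat_lit 10868) (nat_lit 6) (nat_lit 111472294566791137200) (ZL.cons (nat_lit 10944) (nat_lit 6) (nat_lit 111283215440035614294) (ZL.cons (nat_lit 11020) (nat_lit 3)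 (nat_lit 55474190719759164689) (ZL.cons (nat_lit 11096) (nat_lit 6) (nat_lit 111032040142800458864) (ZL.cons (nat_lit 11172) (nat_lit 3) (nat_lit 55469903211215955552) (ZL.cons (nat_lit 11248) (nat_lit 6) (nat_lit 110768306080703545660) (ZL.cons (nat_lit 11324) (nat_lit 1) (nat_lit 18446744073709551617) ZL.nil)))))))))))))))))))))))))))))))))))))))))))))))))))))))))))))))))))))))))))))))))))))))))))))))))))))))))))))))))))))))))))))))))))))))))))))))))))))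

noncomputable def vl : XL := ⟨(nat_lit 0), (nat_lit 76), (nat_lit 90553326), (nat_lit 152), (nat_lit 217363992), (nat_lit 152), (nat_lit 217363992), (nat_lit 1), (nat_lit 4), (nat_lit 2), (nat_lit 5), (nat_lit 2), (nat_lit 4), (nat_lit 0), (nat_lit 0), (nat_lit 0)⟩

noncomputable def cp0 : Nat := (nat_lit 2852673019085835490627024856106508764311484811346008661370122992145923953273509499143716368775621419358092374137125691776137062075290232435758997380766738442710426849028353577575854043108021798042157594388105236725003498659699878842077602054050936312420484639441414137700689730836621304910627950689798632363777391858521043090124713872780169058877653183746977984189985403347857844034119596641704932124789592891869600970141655034365096911037396233199190386670035619133081261463016887708641816689041670351291410318765269417279189369227936978119141707528766897466370379728864001505654001542728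6854561562036999693257498178548261947104369345371378389527161949259602604234529696141191206306358994449794336268332362749134138572717687063470401554547953797910206587354387999167472446298718402086827311490351347903916590975450022128020430353641637222564554815157778483713776009130030953438573875179514775822218383062296935694767861344236204794951716678580566361805521477971684564491665240849193250071582524573794853621197029585012971814387188974459046958581984367945794396302255390735684283546146904370118987070324197751186468672592183595255485723689148189643259445663011441148900258294328207095772077331993079153398042973679645487431372662266464692271038890583672888754909844417423585692015109467193347852928270144014423217171114594113461911428126753472850137454619265838757490853549399986734703326170593158832204016380949978572534932120465363049710376793020267680559327384097859789740453632609443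6075446050583263867362187695863348583089866473600833636306282897942119234278080555199877101412894411384824265486107641162939546371630348066404141391183486087515150665967245372386448196755437442983280804099638470418394171078636968807707223438209048892497239952387213540554801119755367634724889421460494000376807122417626151343003830444738901248531905786590720083690236275178448720725581776902879772816330505900956904462580168241993766952557292210875678631455641078715718695002042315705188504623162862471598286699121378978578607779128669897719436674988659757684086117959033421043384030039259429441691754967427629306371988535657836582548701655603024508043194873359602032222509345631448083615256609410969927696208241972535791291842162152193056274928269374449257769408084520623772522406359065536323082802532555586268156068637972369648267463465634935885468862266008807609045174852189140791922620762490027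08123539608911443432772811858626153898022917442315830736413037726377890480828899500367301722710739500804654840539301963875002307302802074359579650100358524472012887012880570340452421566134059381968769413290606302518209324624909205037908314539859256629819338434070822294774632451672645736709831450400589618376976459112214166925793902502349734687831008964523897200132551163057235965879094944106643473519037850793788391907973033347101721961008087185202514179830663403560113168855744355850785848909993106183439563195922210783093689024216572570971494982324453436202765551476813913048075730410199666208250385657649611477135072961461766781028490179905512428604481002744118889496982338531877889523254620450343493492516567801172291919186055968908000206959661379527873834656665213389707570602637892044726430303616241315274086829136935047019480297560816638136277304330389977975878058766045205400605631623903584373244713823884768529631203432715261688713741054826696477051627991426739015937302938079070576860849988047705284851196098355616658483621761384448)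

noncomputable def cp1 : Nat := (nat_lit 3511963069819448397225201378070262407366878608968672536838007885885146862343491031639678003597871170741811384442555010125189330599945617433167499713592352346146055566693151423707042284499847394556348255539443521912409076368923089777241302295695806457444569344408438505094013935428406784505448815973843298711783844319626416943273865912553038778331641745172762246110766243610179834529294379299372144885207988527484705898988278637546439617677246385313059668168355746267078387511136260800826885938416502397923631436885171286896830120757573756104096229140509482159337271644670947464573095804541362809758381933107409154277407504097905220116296229626657708779700996585077952536672005038790188995805049243399865228755826794755358291895110778721532633567275352126261585914113152955988725204255528153877456351680504305450928881085750088026429317846496552714908439496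0063852974615581009408675820538250893599474873210333048014521744609050094370130359784303418657068332376271565533435186378879975985293538220655751416208244820593482316193465360162486451734069461288375915347535367813781034273042056767559242934257898167868802471732504776912179683519166016682373001501508175597333044452978837378838962656971943122721990416059239054789842376415874032240996628560384878073539318282809895994770588910006624050574157229452485889503051972372505872173476227333305737733591288774961823698666962582442129004890609961226957289233728542305959714662601025462699713899818811652886178695241450705624355286982193104569585510449969485224464708556306298144631135054523061903954384615504572898585265877251993562854159164083896422450660077347723155309421638043914490884368886177872241888752788709351604582968104794533485784388456280429078385442037512868136218424449949523276981940827224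9023913196908079922210891882402434732150255556765522329976705590688818208503438270637163206383495183503293314633224011722873859250080805363440749744424899272558571831914344745275786150126900903944189151914910694954837039376462881219532637214570625648739040349104479438597564914592710439075770914579096831192195499094662231473478610208613970362791603050821761504168083831961230175748273612782418132374567887896921738410462701875649379530927415364495702373089008990220332042732781891608512306389785702378071543805379462177328193650139964299866771647482325748448330206647573640676667808172948749217452138376196320206771782168984576837447563953458936967011259761306912448363636574159632067738134707636577872074323387065138050460135310659363185540205946137196786066310262102137167661888263737152395295400902007462430298991443994222377940142182343146637486642649983117686681259736592397494485796910244746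65088277446740676531982790749513097941974824541354727905569775517363939850265691550270345297470728353854104170552478968103329736098191501043034600270298281561107665138840646404937139558058434304550424911691164617639672911268900194308817343887312351088174289235179495223959553319033250597613277442578834085169352572698877924833135412527207739562066743264358416838002212280137659425549657067778014510091438417589748363623748117198820066406201262934658138076231366269741539917559125495196766840390565626949193379638474064898254882411658706275581695873110996259043460459842869884886395515632341431195685675701699949619131686431689810520834601370730565987233104598571758931163954322924893420848832678439169129477854620327212177310629140027812840047299091419112352990886358807478272)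

noncomputable def rc0 : Nat := (nat_lit 2905398038063760158729647160342157294471084404541421880629378241236043627559915419843824963300183519158981144364129749747700289472205561676613089789937104515840441667875838678358790745098617539888617935671222688666685702769163307281976705094408852849796523675104321917013246046257055365396925348877077621737775468057464715949253122436680978466751016172695891649252267944744838603144739815579150822758259533494907941527530177246511551321630212106989468068947157866006909015527357638750114231961638611026879691640994953588719540032968253760067387562724671941035047423445319091316938699744254900908360530621832519947680140351629838516579654680384833569914529563637300529237767210611129043599264449155614987635571858783320237281424505407698259191450685125181614370715941808113599676451654206511168644559770275175546969658284055411464734501246632310443837679570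9587365596150490655752576471912422339861056659759963495195092954259944778282241191661476986029676082924941848858674151604359274040880093594337093969347857525568322071997747473363829407750083678374622786335019880149360515013471968657854815004756881191834721951872178252038481204789826600329180745613156881162825366591290584186646099773168494739685820697973139289673946021301829169336941355334567436029974777263572581985624144841826751600705916489772612686547655020088829030436484769418714993247661792409942359205930997286089862796852690639014386946614447043490987474899693462012681044024767691391856598653749418911654298811085529156914100759508533040346462030761974200087067702097827432384223556761169898331446468078439202202384412115333890746445549722217867250922156520899375586076165531264710921104744142023687238275333634518900103246399629393936450529815872264679775536360622648647137358384711388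2209900672565656397506955104156789210425829551590277975823161607401148960339522672644818967760924301917165000249194741331151272872822841064761510721758293295376532748919884257493167615273559830710693720161539977454014371069622115065083918798539882496430278576579665348622057263484236653232691885112478264132569805357409341552265857228885156452488123052456232902903591900233492268520137848667430740742303695686519742333563691297130328558912340145876676572335508916458952882740820992292380729911825808255671875732967919692350689267169669843411011727619834207369400614700935459487673531746219090360610162869012548402644480632163500095513521930574855515082565215730846713382902498393914780403991355956660819545418391143767039859763099680942658061101585885826364891490839411876154138884064118137638839066970481705462234872592626151881983171457795383650213011122078799470974187570929268553968771825139826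06611479268048300073448789506458792875143442972922924139587228017521870650364850723514664320706046816713902384474173483324123781471746346676678667277952067125694756630951148612474330277218427284157505288912903940137902277573903918825906696261955360414539104538868418643046295621193711152046370688801374893175567475654017449624173357778407717032895001482845838119335125670835513244476754851267175936653883169779887669944077982979604755525463134503545582932084335675686419591968746625299531575301570123517294177709865333106444373339170431600723332147344580354028963789160377951296837309957066774394480250147405948283490627986876164495873748900362986945864107400842441290243676217714770780485198129683911791699570944821422064641256606912254065610030520883202263929666339860381696)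

noncomputable def rc1 : Nat := (nat_lit 3055453368270557592239654861865776489360186484394969071229777136013940076739148950788407936966926015788719197071440452091131861357199138116128216285656475612921228952488687129528437749501751651699021882441492849397242962685322807226072122447654762589504908931645385888820209883525372888675411214346167469635800649632507714228731970405094022863479016515471721739067413700921677467976769728140615832677850067403061750930471754996711189435253209931592825404630701228616876997038299197053016672424160787030436017249868603083255867376536469918529444671910476413819113055809961442820279722117592403745504705989438348308595116949985016009685076703410996207074135587273913073874821931577931460818993227094494000432423619322363573336291872927197931462861028449750006393848124948519598602971453199641123234388736388649748866288777969072101696094744873871690282064715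1387977758088716518891498707493849861183409176487891342049833320460119688860504146134191699528238199691288038973990048704926041789114002372891996258877063730000003805749329091282180420799292904133920811462468737112032577002348805728732960100600030555720704560620100621779500806743981241181670701415797741337703967028932815536513169061160566783313099255742963315252776483300997404218942662737571012659010704078421095515290630135489395176668642999401233734972146675315769159276673563637459824503813741267185184211622348795711744962569421411712416027445166059607791039727906975434088984980501761038771640926620276809912625450435222578542327052806238797986821752253659276009558932918648328232722062882431371885981452577496539355026667020784298476886319587816243876934849794116598405559065610286710709909047971492184242880576232540191211680367211222839617522294398522540641885768140906642646177668135025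6719419526438134791710683428794303333916344074686923663943652810822899617645088760323566102110859595019869292005740646244509054764323704264147939335553210381397739723667419369026542284796567025586509560261216226725585069733020289760412419618458335968161927699220532652656384292265937632540527374191782482977270365411580432516664588795791721009395307028347222763269378999494376158847214543958800872066980247198441227250849224708841898225184163716642933595898698402469728634143431770671706533361580893382445615552870135028123852164554727439170261674972607704185065421245029639942379894264336384300924265149273769886503423728663989798871235360434133188053687733790543504324761026684264819180867287718123448506222169673453126046911686353272136829721222848797800730281298973357601393613784733910752017349930840910581610506518794954544337992661183080960502902715210591202698408298877683188868945191782298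50868462755965240922342426825562474992014636854025451463839310768196990240582603678363291394135628682647552376622257795041169909568425579762507202039182676897887916925751066513393709790332226502923834047288914674541679114259611075972854675030857280312184570273665591686840622899437158082209866597093419753803093449826329596350838053755138446638906107985194072201920072411430674864314375658997771103069221749168879536537616419687742280316279765860378632136228187238578254617063057253666670384145326322541528070595985048233393817269850299599953985795976054570566235422822147925697592086793997732151315620240551198679240953980018793594550265195275950657268196045928733563908668143028670996609226996959655290341645914804022306337253232770975485147206360835582738556248943012872192)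

noncomputable def rc2 : Nat := (nat_lit 3218846836236877572940760255554494284156554726635868087658892845887904561278731878771591902303710012171559335928249965602221428961342213278641193959613290943195605433208716312554492064854280174766322704229771995388954543475494160722555367379556792279006492137774238945930382371304897875327526898855020007247649933190086480442761353359761273282854517314267879741778215544405901461024882466834809294425897651254939953328723685106558452482980665728844055291861302966920427937595546354726635649479470548581150848332533871231843060014743677726580207954248466803512086974614573902413905725847373573611918622382881181720447615334643728424089976616497209919918804422325300358208736454644079154981712299457810121658755915626692401270638157597878326972991731176639649715671605294350819336153580450682375953966591148026074224685766630047875311631238017264434559157359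3513731618116945737290585559287393855290900598194160145869281516870504658828674509833486184441077298206609535828645259828135774460017799875337911344878063244029794373458571999237959190960875931728875964242414891152526885850455321858966538145765600416692880709588185785315013280422231404994222127737555392169052590733553227465847348960707566019391433784982664261300599847070617825681085150415966057822162351395240795721650259943762409739864512790378366506265786055440990666334688306075422927223358156673969435900773619989666360997915759448968781407295320632312156406715094542139143380912036012310484254846137593312009114512728662965307009178391472473406576409883107143205084415113114407291354625579129081136109492063897445364219023690454505404522757722663876144154379260008943034897488913230523985505161868199101007165934996676967340003432180396137554030228428443118008476949997258848818066732321777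0939705846172093654124153754712537326097369133970372495617810599132496898777029622257004207774732888751463510417744265907779177443318367727409316948785302854756719318192262619069037331631559321201497768055717831910736107979624742440113386193082829810643120059061512947002498772438116787438283237573075295675982555003080820273220286478898371772745167996411997197822783317389978567940819356775214644399416564987820776536363481141300226447055034049644311492975159279656716566863835207334178602236754554314460477119122514313029843957238843981598486850414704208415818470406938848758872388539004648741754205191042102339085377520036562122979037274342492714406007608130413767461197485532812640311540269593163801927423564335144423073209276903956179911033153422680707330041596086322672418779934313625713945468196530225263959459237692028017764864280825492671243946481936117455232723274365256797902998589438009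07724566421264629956188418758291360220039411991949919979975961954251397375136405985869579402932933154039507199356882340069753239444311323002495043960199682264979169920719778218308512180831594815949875136740636809439488463555727241916582369812548911087027790014682233776956377541129747017686183988265197251014278125767244527670922404328061309386613079504653875819690117241767519024604387750225022163320930759937333260756872041912028706712516361655723535025023951687412925573030360739040554635196383440141078284045092644611277732845159519506728025584898643178106007639930554617980529768917287119555149953603763991081844371888136749029171782593219230827365527334586680915053677726198932586460883286721411153827955427927062916657362390636577689577250903336745518301886380429541376)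

noncomputable def rc3 : Nat := (nat_lit 3392298543001760757461487313452743533312648272351157088883893777874475449723765043504416984903003515685929064378901847505672493327339057884150592452047464065092451077296183820428466933793350444940655785947266458402094404637250617224709813918226899169705554497639084534884150248593327461949050302950198357690780753782000818712027444180871052324628911585091977493796896571571931087390308739293052291523737205613313849523872217627101871317112552895146618617738696478733980001076072073186383820019648127110770902132905595861624450989989292595722712384007670910264939813331976693978314864123017981246212017479058915176834914793866032018814142924082602379782780677091625938397060459900601626344120063970071984752676804845037801643462850552796236273579679352903502644373415646387383857377775250215791547877116011100638372364237037970016185238236023043784955913864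8988626277894983329473888850920881112859409871641745648077750737912546982003562541986069799607607990661629243141189439336213674235758256295147114807013549019898904291826358569171174751666549759474681121501898448132647671377841484002905957351850334881178145234635442972687049182453984250500587034806410714973770101132484928683118039467281486149607009696234902784650629130557565806684527290066508239521223735419908084008936825654215613232735435150824638847733106028090271505936665422939920876535097599450138337373079733301938040435624427958420922166594485741214209162881197325917290666041688737749660552085254703492388565716020188799316237342488159056101999657840340491137442489472985302026616685224585726897200769875619253191685171953735995701398607529550459856230211366351477433629378657032607767621831593526244929422995191879272003275160195321656977785503461123451486329242222911663451142645798647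7585531755525132811488311055402119067153634865375723693695446719769285021171072399700294640669593556534762263163445303056670485740472606826986739285863032735606437456303576129815656014666140894663967392500947678784097579078663315344700345094435024663436379304184539479137703904661300817854848500881076488524365237759764732968056894114460109328338330544785842555976724169579972031489693222440962148423864454495961380584394018894637138406906762250350706323148953350781743384869552833068244721584533566605686009230868988605171285150301457397095785388288759916320614786013157884469438277342677512134910528428518977166486967772957273069104309348957210368124077126533120223099577226438572045418075124502537137183116547153680221063164308530361210256847615866026982387839574833484305814480689270955155182418671115684261169528337311466788025354066350394302963801851545976087091255289504022966970014067263687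52499921573299676742357087181676824233584627331123122897914901129612775144726327369030570183521694398335566699284715943724528960842771252976216284588060348994266476149597685589149922192514221952598362489177652115815578596427641765450329002267102629842567502888816365990973204763894694839184931015062066858115470085344106209161197829258380540334462069607718644159967435484925894313567321472741829826444191097275022604210285182989204970093556371222204108845754943534997319419728840773400071325206578284245683579264801662621869302699602237088486931073775770297316997913242305819172638006458139619471475796234687049523962829132543064586932359921117240188402494355339881832629301261095611256155199742516561961000892832681160769762735976540339183468699111014482120084478777867894784)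

noncomputable def rc4 : Nat := (nat_lit 3511963069819448397225201378070262407366878608968672536838007885885146862343491031639678003597871170741811384442555010125189330599945617433167499713592352346146055566693151423707042284499847394556348255539443521912409076368923089777241302295695806457444569344408438505094013935428406784505448815973843298711783844319626416943273865912553038778331641745172762246110766243610179834529294379299372144885207988527484705898988278637546439617677246385313059668168355746267078387511136260800826885938416502397923631436885171286896830120757573756104096229140509482159337271644670947464573095804541362809758381933107409154277407504097905220116296229626657708779700996585077952536672005038790188995805049243399865228755826794755358291895110778721532633567275352126261585914113152955988725204255528153877456351680504305450928881085750088026429317846496552714908439496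0063852974615581009408675820538250893599474873210333048014521744609050094370130359784303418657068332376271565533435186378879975985293538220655751416208244820593482316193465360162486451734069461288375915347535367813781034273042056767559242934257898167868802471732504776912179683519166016682373001501508175597333044452978837378838962656971943122721990416059239054789842376415874032240996628560384878073539318282809895994770588910006624050574157229452485889503051972372505872173476227333305737733591288774961823698666962582442129004890609961226957289233728542305959714662601025462699713899818811652886178695241450705624355286982193104569585510449969485224464708556306298144631135054523061903954384615504572898585265877251993562854159164083896422450660077347723155309421638043914490884368886177872241888752788709351604582968104794533485784388456280429078385442037512868136218424449949523276981940827224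9023913196908079922210891882402434732150255556765522329976705590688818208503438270637163206383495183503293314633224011722873859250080805363440749744424899272558571831914344745275786150126900903944189151914910694954837039376462881219532637214570625648739040349104479438597564914592710439075770914579096831192195499094662231473478610208613970362791603050821761504168083831961230175748273612782418132374567887896921738410462701875649379530927415364495702373089008990220332042732781891608512306389785702378071543805379462177328193650139964299866771647482325748448330206647573640676667808172948749217452138376196320206771782168984576837447563953458936967011259761306912448363636574159632067738134707636577872074323387065138050460135310659363185540205946137196786066310262102137167661888263737152395295400902007462430298991443994222377940142182343146637486642649983117686681259736592397494485796910244746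65088277446740676531982790749513097941974824541354727905569775517363939850265691550270345297470728353854104170552478968103329736098191501043034600270298281561107665138840646404937139558058434304550424911691164617639672911268900194308817343887312351088174289235179495223959553319033250597613277442578834085169352572698877924833135412527207739562066743264358416838002212280137659425549657067778014510091438417589748363623748117198820066406201262934658138076231366269741539917559125495196766840390565626949193379638474064898254882411658706275581695873110996259043460459842869884886395515632341431195685675701699949619131686431689810520834601370730565987233104598571758931163954322924893420848832678439169129477854620327212177310629140027812840047299091419112352990886358807478272)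

end Vale.Agent.Lib.P154.PChain.BK.S4
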