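import Vale.Agent.Lib.P154.PChain.BK.R4_0

set_option linter.all false

namespace Vale.Agent.Lib.P154.PChain.BK.S5

open Vale.Agent.Lib.P154.Chain

noncomputable def pc0 : PT := (PT.nd (nat_lit 5357274) (PT.nd (nat_lit 5123040) (PT.nd (nat_lit 5029284) (PT.nd (nat_lit 4982406) (PT.nd (nat_lit 4935606) (PT.nd (nat_lit 4888806) PT.nil (PT.lf (nat_lit 76) (nat_lit 3) (nat_lit 1) (nat_lit 1) (nat_lit 173) (nat_lit 104) (nat_lit 173))) (PT.nd (nat_lit 78) (PT.lf (nat_lit 152) (nat_lit 6) (nat_lit 2) (nat_lit 3) (nat_lit 172) (nat_lit 105) (nat_lit 173)) (PT.lf (nat_lit 152) (nat_lit 6) (nat_lit 2) (nat_lit 1) (nat_lit 173) (nat_lit 105) (nat_lit 172)))) (PT.nd (nat_lit 78) (PT.lf (nat_lit 228) (nat_lit 6) (nat_lit 3) (nat_lit 3) (nat_lit 171) (nat_lit 106) (nat_lit 173)) (PT.nd (nat_lit 78) (PT.lf (nat_lit 304) (nat_lit 3) (nat_lit 4) (nat_lit 1) (nat_lit 172) (nat_lit 106) (nat_lit 172)) (PT.lf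 (nat_lit 228) (nat_lit 6) (nat_lit 3) (nat_lit 1) (nat_lit 173) (nat_lit 106) (nat_lit 171))))) (PT.nd (nat_lit 46878) (PT.nd (nat_lit 78) (PT.lf (nat_lit 380) (nat_lit 6) (nat_lit 5) (nat_lit 3) (nat_lit 171) (nat_lit 107) (nat_lit 172)) (PT.nd (nat_lit 46722) (PT.lf (nat_lit 380) (nat_lit 6) (nat_lit 5) (nat_lit 1) (nat_lit 172) (nat_lit 107) (nat_lit 171)) (PT.lf (nat_lit 456) (nat_lit 6) (nat_lit 6) (nat_lit 3) (nat_lit 170) (nat_lit 108) (nat_lit 172)))) (PT.nd (nat_lit 78) (PT.lf (nat_lit 532) (nat_lit 3) (nat_lit 7) (nat_lit 1) (nat_lit 171) (nat_lit 108) (nat_lit 171)) (PT.nd (nat_lit 46722) (PT.lf (nat_lit 456) (nat_lit 6) (nat_lit 6) (nat_lit 1) (nat_lit 172) (nat_lit 108) (nat_lit 170)) (PT.lf (nat_lit 608) (nat_lit 6) (nat_lit 8) (nat_lit 3) (nat_lit 170) (nat_lit 109) (nat_lit 171)))))) (PT.nd (nat_lit 140400) (PT.nd (nat_lit 46878) (PT.nd (nat_lit 46722) (PT.lf (nat_lit 608) (nat_lit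 6) (nat_lit 8) (nat_lit 1) (nat_lit 171) (nat_lit 109) (nat_lit 170)) (PT.nd (nat_lit 78) (PT.lf (nat_lit 684) (nat_lit 6) (nat_lit 9) (nat_lit 3) (nat_lit 169) (nat_lit 110) (nat_lit 171)) (PT.lf (nat_lit 760) (nat_lit 3) (nat_lit 10) (nat_lit 1) (nat_lit 170) (nat_lit 110) (nat_lit 170)))) (PT.nd (nat_lit 46722) (PT.lf (nat_lit 684) (nat_lit 6) (nat_lit 9) (nat_lit 1) (nat_lit 171) (nat_lit 110) (nat_lit 169)) (PT.nd (nat_lit 78) (PT.lf (nat_lit 836) (nat_lit 6) (nat_lit 11) (nat_lit 3) (nat_lit 169) (nat_lit 111) (nat_lit 170)) (PT.lf (nat_lit 836) (nat_lit 6) (nat_lit 11) (nat_lit 1) (nat_lit 170) (nat_lit 111) (nat_lit 169))))) (PT.nd (nat_lit 46878) (PT.nd (nat_lit 78) (PT.lf (nat_lit 912) (nat_lit 6) (nat_lit 12) (nat_lit 3) (nat_lit 168) (nat_lit 112) (nat_lit 170)) (PT.nd (nat_lit 78) (PT.lf (nat_lit 988) (nat_lit 3) (nat_lit 13) (nat_lit 1) (nat_lit 169) (nat_lit 112) (nat_lit 169))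 (PT.lf (nat_lit 912) (nat_lit 6) (nat_lit 12) (nat_lit 1) (nat_lit 170) (nat_lit 112) (nat_lit 168)))) (PT.nd (nat_lit 46800) (PT.nd (nat_lit 78) (PT.lf (nat_lit 1064) (nat_lit 6) (nat_lit 14) (nat_lit 3) (nat_lit 168) (nat_lit 113) (nat_lit 169)) (PT.lf (nat_lit 1064) (nat_lit 6) (nat_lit 14) (nat_lit 1) (nat_lit 169) (nat_lit 113) (nat_lit 168))) (PT.nd (nat_lit 78) (PT.lf (nat_lit 1140) (nat_lit 6) (nat_lit 15) (nat_lit 3) (nat_lit 167) (nat_lit 114) (nat_lit 169)) (PT.lf (nat_lit 1216) (nat_lit 3) (nat_lit 16) (nat_lit 1) (nat_lit 168) (nat_lit 114) (nat_lit 168))))))) (PT.nd (nat_lit 234078) (PT.nd (nat_lit 140400) (PT.nd (nat_lit 93522) (PT.nd (nat_lit 46722) (PT.lf (nat_lit 1140) (nat_lit 6) (nat_lit 15) (nat_lit 1) (nat_lit 169) (nat_lit 114) (nat_lit 167)) (PT.nd (nat_lit 78) (PT.lf (nat_lit 1292) (nat_lit 6) (nat_lit 17) (nat_lit 3) (nat_lit 167) (nat_lit 115) (nat_lit 168)) (PT.lf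 (nat_lit 1292) (nat_lit 6) (nat_lit 17) (nat_lit 1) (nat_lit 168) (nat_lit 115) (nat_lit 167)))) (PT.nd (nat_lit 78) (PT.lf (nat_lit 1368) (nat_lit 6) (nat_lit 18) (nat_lit 3) (nat_lit 166) (nat_lit 116) (nat_lit 168)) (PT.nd (nat_lit 78) (PT.lf (nat_lit 1444) (nat_lit 3) (nat_lit 19) (nat_lit 1) (nat_lit 167) (nat_lit 116) (nat_lit 167)) (PT.lf (nat_lit 1368) (nat_lit 6) (nat_lit 18) (nat_lit 1) (nat_lit 168) (nat_lit 116) (nat_lit 166))))) (PT.nd (nat_lit 46878) (PT.nd (nat_lit 78) (PT.lf (nat_lit 1520) (nat_lit 6) (nat_lit 20) (nat_lit 3) (nat_lit 166) (nat_lit 117) (nat_lit 167)) (PT.nd (nat_lit 46722) (PT.lf (nat_lit 1520) (nat_lit 6) (nat_lit 20) (nat_lit 1) (nat_lit 167) (nat_lit 117) (nat_lit 166)) (PT.lf (nat_lit 1596) (nat_lit 6) (nat_lit 21) (nat_lit 3) (nat_lit 165) (nat_lit 118) (nat_lit 167)))) (PT.nd (nat_lit 78) (PT.lf (nat_lit 1672) (nat_lit 3) (nat_lit 22) (nat_lit 1) (nat_lit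 166) (nat_lit 118) (nat_lit 166)) (PT.nd (nat_lit 46644) (PT.lf (nat_lit 1596) (nat_lit 6) (nat_lit 21) (nat_lit 1) (nat_lit 167) (nat_lit 118) (nat_lit 165)) (PT.lf (nat_lit 1748) (nat_lit 6) (nat_lit 23) (nat_lit 3) (nat_lit 164) (nat_lit 119) (nat_lit 167)))))) (PT.nd (nat_lit 93600) (PT.nd (nat_lit 46800) (PT.nd (nat_lit 78) (PT.lf (nat_lit 1824) (nat_lit 6) (nat_lit 24) (nat_lit 3) (nat_lit 165) (nat_lit 119) (nat_lit 166)) (PT.nd (nat_lit 78) (PT.lf (nat_lit 1824) (nat_lit 6) (nat_lit 24) (nat_lit 1) (nat_lit 166) (nat_lit 119) (nat_lit 165)) (PT.lf (nat_lit 1748) (nat_lit 6) (nat_lit 23) (nat_lit 1) (nat_lit 167) (nat_lit 119) (nat_lit 164)))) (PT.nd (nat_lit 78) (PT.lf (nat_lit 1900) (nat_lit 6) (nat_lit 25) (nat_lit 3) (nat_lit 164) (nat_lit 120) (nat_lit 166)) (PT.nd (nat_lit 78) (PT.lf (nat_lit 1976) (nat_lit 3) (nat_lit 26) (nat_lit 1) (nat_lit 165) (nat_lit 120) (nat_lit 165))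 (PT.lf (nat_lit 1900) (nat_lit 6) (nat_lit 25) (nat_lit 1) (nat_lit 166) (nat_lit 120) (nat_lit 164))))) (PT.nd (nat_lit 234) (PT.nd (nat_lit 78) (PT.lf (nat_lit 2052) (nat_lit 6) (nat_lit 27) (nat_lit 3) (nat_lit 163) (nat_lit 121) (nat_lit 166)) (PT.nd (nat_lit 78) (PT.lf (nat_lit 2128) (nat_lit 6) (nat_lit 28) (nat_lit 3) (nat_lit 164) (nat_lit 121) (nat_lit 165)) (PT.lf (nat_lit 2128) (nat_lit 6) (nat_lit 28) (nat_lit 1) (nat_lit 165) (nat_lit 121) (nat_lit 164)))) (PT.nd (nat_lit 46722) (PT.nd (nat_lit 46644) (PT.lf (nat_lit 2052) (nat_lit 6) (nat_lit 27) (nat_lit 1) (nat_lit 166) (nat_lit 121) (nat_lit 163)) (PT.lf (nat_lit 2204) (nat_lit 6) (nat_lit 29) (nat_lit 3) (nat_lit 163) (nat_lit 122) (nat_lit 165))) (PT.nd (nat_lit 78) (PT.lf (nat_lit 2280) (nat_lit 3) (nat_lit 30) (nat_lit 1) (nat_lit 164) (nat_lit 122) (nat_lit 164)) (PT.lf (nat_lit 2204) (nat_lit 6) (nat_lit 29) (nat_lit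 1) (nat_lit 165) (nat_lit 122) (nat_lit 163))))))))
noncomputable def pc1 : PT := (PT.nd (nat_lit 234390) (PT.nd (nat_lit 93912) (PT.nd (nat_lit 46956) (PT.nd (nat_lit 234) (PT.nd (nat_lit 78) (PT.lf (nat_lit 2356) (nat_lit 6) (nat_lit 31) (nat_lit 3) (nat_lit 162) (nat_lit 123) (nat_lit 165)) (PT.nd (nat_lit 78) (PT.lf (nat_lit 2432) (nat_lit 6) (nat_lit 32) (nat_lit 3) (nat_lit 163) (nat_lit 123) (nat_lit 164)) (PT.lf (nat_lit 2432) (nat_lit 6) (nat_lit 32) (nat_lit 1) (nat_lit 164) (nat_lit 123) (nat_lit 163)))) (PT.nd (nat_lit 46566) (PT.lf (nat_lit 2356) (nat_lit 6) (nat_lit 31) (nat_lit 1) (nat_lit 165) (nat_lit 123) (nat_lit 162)) (PT.nd (nat_lit 78) (PT.lf (nat_lit 2508) (nat_lit 6) (nat_lit 33) (nat_lit 3) (nat_lit 161) (nat_lit 124) (nat_lit 165)) (PT.lf (nat_lit 2584) (nat_lit 6) (nat_lit 34) (nat_lit 3) (nat_lit 162) (nat_lit 124) (nat_lit 164))))) (PT.nd (nat_lit 46722) (PT.nd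 (nat_lit 78) (PT.lf (nat_lit 2660) (nat_lit 3) (nat_lit 35) (nat_lit 1) (nat_lit 163) (nat_lit 124) (nat_lit 163)) (PT.nd (nat_lit 78) (PT.lf (nat_lit 2584) (nat_lit 6) (nat_lit 34) (nat_lit 1) (nat_lit 164) (nat_lit 124) (nat_lit 162)) (PT.lf (nat_lit 2508) (nat_lit 6) (nat_lit 33) (nat_lit 1) (nat_lit 165) (nat_lit 124) (nat_lit 161)))) (PT.nd (nat_lit 78) (PT.lf (nat_lit 2736) (nat_lit 6) (nat_lit 36) (nat_lit 3) (nat_lit 161) (nat_lit 125) (nat_lit 164)) (PT.nd (nat_lit 78) (PT.lf (nat_lit 2812) (nat_lit 6) (nat_lit 37) (nat_lit 3) (nat_lit 162) (nat_lit 125) (nat_lit 163)) (PT.lf (nat_lit 2812) (nat_lit 6) (nat_lit 37) (nat_lit 1) (nat_lit 163) (nat_lit 125) (nat_lit 162)))))) (PT.nd (nat_lit 93444) (PT.nd (nat_lit 46722) (PT.nd (nat_lit 46566) (PT.lf (nat_lit 2736) (nat_lit 6) (nat_lit 36) (nat_lit 1) (nat_lit 164) (nat_lit 125) (nat_lit 161)) (PT.nd (nat_lit 78) (PT.lf (nat_lit 2888)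 (nat_lit 6) (nat_lit 38) (nat_lit 3) (nat_lit 160) (nat_lit 126) (nat_lit 164)) (PT.lf (nat_lit 2964) (nat_lit 6) (nat_lit 39) (nat_lit 3) (nat_lit 161) (nat_lit 126) (nat_lit 163)))) (PT.nd (nat_lit 78) (PT.lf (nat_lit 3040) (nat_lit 3) (nat_lit 40) (nat_lit 1) (nat_lit 162) (nat_lit 126) (nat_lit 162)) (PT.nd (nat_lit 78) (PT.lf (nat_lit 2964) (nat_lit 6) (nat_lit 39) (nat_lit 1) (nat_lit 163) (nat_lit 126) (nat_lit 161)) (PT.lf (nat_lit 2888) (nat_lit 6) (nat_lit 38) (nat_lit 1) (nat_lit 164) (nat_lit 126) (nat_lit 160))))) (PT.nd (nat_lit 234) (PT.nd (nat_lit 78) (PT.lf (nat_lit 3116) (nat_lit 6) (nat_lit 41) (nat_lit 3) (nat_lit 160) (nat_lit 127) (nat_lit 163)) (PT.nd (nat_lit 78) (PT.lf (nat_lit 3192) (nat_lit 6) (nat_lit 42) (nat_lit 3) (nat_lit 161) (nat_lit 127) (nat_lit 162)) (PT.lf (nat_lit 3192) (nat_lit 6) (nat_lit 42) (nat_lit 1) (nat_lit 162) (nat_lit 127) (nat_lit 161)))) (PT.nd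 (nat_lit 46644) (PT.nd (nat_lit 46566) (PT.lf (nat_lit 3116) (nat_lit 6) (nat_lit 41) (nat_lit 1) (nat_lit 163) (nat_lit 127) (nat_lit 160)) (PT.lf (nat_lit 3268) (nat_lit 6) (nat_lit 43) (nat_lit 3) (nat_lit 159) (nat_lit 128) (nat_lit 163))) (PT.nd (nat_lit 78) (PT.lf (nat_lit 3344) (nat_lit 6) (nat_lit 44) (nat_lit 3) (nat_lit 160) (nat_lit 128) (nat_lit 162)) (PT.lf (nat_lit 3420) (nat_lit 3) (nat_lit 45) (nat_lit 1) (nat_lit 161) (nat_lit 128) (nat_lit 161))))))) (PT.nd (nat_lit 93756) (PT.nd (nat_lit 46878) (PT.nd (nat_lit 46644) (PT.nd (nat_lit 78) (PT.lf (nat_lit 3344) (nat_lit 6) (nat_lit 44) (nat_lit 1) (nat_lit 162) (nat_lit 128) (nat_lit 160)) (PT.nd (nat_lit 46488) (PT.lf (nat_lit 3268) (nat_lit 6) (nat_lit 43) (nat_lit 1) (nat_lit 163) (nat_lit 128) (nat_lit 159)) (PT.lf (nat_lit 3496) (nat_lit 6) (nat_lit 46) (nat_lit 3) (nat_lit 158) (nat_lit 129) (nat_lit 163)))) (PT.nd (nat_lit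 78) (PT.lf (nat_lit 3572) (nat_lit 6) (nat_lit 47) (nat_lit 3) (nat_lit 159) (nat_lit 129) (nat_lit 162)) (PT.nd (nat_lit 78) (PT.lf (nat_lit 3648) (nat_lit 6) (nat_lit 48) (nat_lit 3) (nat_lit 160) (nat_lit 129) (nat_lit 161)) (PT.lf (nat_lit 3648) (nat_lit 6) (nat_lit 48) (nat_lit 1) (nat_lit 161) (nat_lit 129) (nat_lit 160))))) (PT.nd (nat_lit 46644) (PT.nd (nat_lit 78) (PT.lf (nat_lit 3572) (nat_lit 6) (nat_lit 47) (nat_lit 1) (nat_lit 162) (nat_lit 129) (nat_lit 159)) (PT.nd (nat_lit 46488) (PT.lf (nat_lit 3496) (nat_lit 6) (nat_lit 46) (nat_lit 1) (nat_lit 163) (nat_lit 129) (nat_lit 158)) (PT.lf (nat_lit 3724) (nat_lit 6) (nat_lit 49) (nat_lit 3) (nat_lit 158) (nat_lit 130) (nat_lit 162)))) (PT.nd (nat_lit 78) (PT.lf (nat_lit 3800) (nat_lit 6) (nat_lit 50) (nat_lit 3) (nat_lit 159) (nat_lit 130) (nat_lit 161)) (PT.nd (nat_lit 78) (PT.lf (nat_lit 3876) (nat_lit 3) (nat_lit 51) (nat_lit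 1) (nat_lit 160) (nat_lit 130) (nat_lit 160)) (PT.lf (nat_lit 3800) (nat_lit 6) (nat_lit 50) (nat_lit 1) (nat_lit 161) (nat_lit 130) (nat_lit 159)))))) (PT.nd (nat_lit 46878) (PT.nd (nat_lit 46644) (PT.nd (nat_lit 46488) (PT.lf (nat_lit 3724) (nat_lit 6) (nat_lit 49) (nat_lit 1) (nat_lit 162) (nat_lit 130) (nat_lit 158)) (PT.nd (nat_lit 78) (PT.lf (nat_lit 3952) (nat_lit 6) (nat_lit 52) (nat_lit 3) (nat_lit 157) (nat_lit 131) (nat_lit 162)) (PT.lf (nat_lit 4028) (nat_lit 6) (nat_lit 53) (nat_lit 3) (nat_lit 158) (nat_lit 131) (nat_lit 161)))) (PT.nd (nat_lit 78) (PT.lf (nat_lit 4104) (nat_lit 6) (nat_lit 54) (nat_lit 3) (nat_lit 159) (nat_lit 131) (nat_lit 160)) (PT.nd (nat_lit 78) (PT.lf (nat_lit 4104) (nat_lit 6) (nat_lit 54) (nat_lit 1) (nat_lit 160) (nat_lit 131) (nat_lit 159)) (PT.lf (nat_lit 4028) (nat_lit 6) (nat_lit 53) (nat_lit 1) (nat_lit 161) (nat_lit 131) (nat_lit 158))))) (PT.nd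 (nat_lit 46566) (PT.nd (nat_lit 46410) (PT.lf (nat_lit 3952) (nat_lit 6) (nat_lit 52) (nat_lit 1) (nat_lit 162) (nat_lit 131) (nat_lit 157)) (PT.nd (nat_lit 78) (PT.lf (nat_lit 4180) (nat_lit 6) (nat_lit 55) (nat_lit 3) (nat_lit 156) (nat_lit 132) (nat_lit 162)) (PT.lf (nat_lit 4256) (nat_lit 6) (nat_lit 56) (nat_lit 3) (nat_lit 157) (nat_lit 132) (nat_lit 161)))) (PT.nd (nat_lit 156) (PT.nd (nat_lit 78) (PT.lf (nat_lit 4332) (nat_lit 6) (nat_lit 57) (nat_lit 3) (nat_lit 158) (nat_lit 132) (nat_lit 160)) (PT.lf (nat_lit 4408) (nat_lit 3) (nat_lit 58) (nat_lit 1) (nat_lit 159) (nat_lit 132) (nat_lit 159))) (PT.nd (nat_lit 78) (PT.lf (nat_lit 4332) (nat_lit 6) (nat_lit 57) (nat_lit 1) (nat_lit 160) (nat_lit 132) (nat_lit 158)) (PT.lf (nat_lit 4256) (nat_lit 6) (nat_lit 56) (nat_lit 1) (nat_lit 161) (nat_lit 132) (nat_lit 157))))))))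
noncomputable def pc2 : PT := (PT.nd (nat_lit 187044) (PT.nd (nat_lit 93600) (PT.nd (nat_lit 46800) (PT.nd (nat_lit 46566) (PT.nd (nat_lit 46410) (PT.lf (nat_lit 4180) (nat_lit 6) (nat_lit 55) (nat_lit 1) (nat_lit 162) (nat_lit 132) (nat_lit 156)) (PT.nd (nat_lit 78) (PT.lf (nat_lit 4560) (nat_lit 6) (nat_lit 60) (nat_lit 3) (nat_lit 156) (nat_lit 133) (nat_lit 161)) (PT.lf (nat_lit 4636) (nat_lit 6) (nat_lit 61) (nat_lit 3) (nat_lit 157) (nat_lit 133) (nat_lit 160)))) (PT.nd (nat_lit 78) (PT.lf (nat_lit 4712) (nat_lit 6) (nat_lit 62) (nat_lit 3) (nat_lit 158) (nat_lit 133) (nat_lit 159)) (PT.nd (nat_lit 78) (PT.lf (nat_lit 4712) (nat_lit 6) (nat_lit 62) (nat_lit 1) (nat_lit 159) (nat_lit 133) (nat_lit 158)) (PT.lf (nat_lit 4636) (nat_lit 6) (nat_lit 61) (nat_lit 1) (nat_lit 160) (nat_lit 133) (nat_lit 157))))) (PT.nd (nat_lit 46566) (PT.nd (nat_lit 46410) (PT.lf (nat_lit 4560) (nat_lit 6)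 (nat_lit 60) (nat_lit 1) (nat_lit 161) (nat_lit 133) (nat_lit 156)) (PT.nd (nat_lit 78) (PT.lf (nat_lit 4788) (nat_lit 6) (nat_lit 63) (nat_lit 3) (nat_lit 155) (nat_lit 134) (nat_lit 161)) (PT.lf (nat_lit 4864) (nat_lit 6) (nat_lit 64) (nat_lit 3) (nat_lit 156) (nat_lit 134) (nat_lit 160)))) (PT.nd (nat_lit 78) (PT.lf (nat_lit 4940) (nat_lit 6) (nat_lit 65) (nat_lit 3) (nat_lit 157) (nat_lit 134) (nat_lit 159)) (PT.nd (nat_lit 78) (PT.lf (nat_lit 5016) (nat_lit 3) (nat_lit 66) (nat_lit 1) (nat_lit 158) (nat_lit 134) (nat_lit 158)) (PT.lf (nat_lit 4940) (nat_lit 6) (nat_lit 65) (nat_lit 1) (nat_lit 159) (nat_lit 134) (nat_lit 157)))))) (PT.nd (nat_lit 46722) (PT.nd (nat_lit 46488) (PT.nd (nat_lit 78) (PT.lf (nat_lit 4864) (nat_lit 6) (nat_lit 64) (nat_lit 1) (nat_lit 160) (nat_lit 134) (nat_lit 156)) (PT.nd (nat_lit 46332) (PT.lf (nat_lit 4788) (nat_lit 6) (nat_lit 63) (nat_lit 1) (nat_lit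 161) (nat_lit 134) (nat_lit 155)) (PT.lf (nat_lit 5092) (nat_lit 6) (nat_lit 67) (nat_lit 3) (nat_lit 154) (nat_lit 135) (nat_lit 161)))) (PT.nd (nat_lit 78) (PT.lf (nat_lit 5168) (nat_lit 6) (nat_lit 68) (nat_lit 3) (nat_lit 155) (nat_lit 135) (nat_lit 160)) (PT.nd (nat_lit 78) (PT.lf (nat_lit 5244) (nat_lit 6) (nat_lit 69) (nat_lit 3) (nat_lit 156) (nat_lit 135) (nat_lit 159)) (PT.lf (nat_lit 5320) (nat_lit 6) (nat_lit 70) (nat_lit 3) (nat_lit 157) (nat_lit 135) (nat_lit 158))))) (PT.nd (nat_lit 234) (PT.nd (nat_lit 78) (PT.lf (nat_lit 5320) (nat_lit 6) (nat_lit 70) (nat_lit 1) (nat_lit 158) (nat_lit 135) (nat_lit 157)) (PT.nd (nat_lit 78) (PT.lf (nat_lit 5244) (nat_lit 6) (nat_lit 69) (nat_lit 1) (nat_lit 159) (nat_lit 135) (nat_lit 156)) (PT.lf (nat_lit 5168) (nat_lit 6) (nat_lit 68) (nat_lit 1) (nat_lit 160) (nat_lit 135) (nat_lit 155)))) (PT.nd (nat_lit 46332) (PT.nd (nat_lit 46254) (PT.lf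 (nat_lit 5092) (nat_lit 6) (nat_lit 67) (nat_lit 1) (nat_lit 161) (nat_lit 135) (nat_lit 154)) (PT.lf (nat_lit 5396) (nat_lit 6) (nat_lit 71) (nat_lit 3) (nat_lit 153) (nat_lit 136) (nat_lit 161))) (PT.nd (nat_lit 78) (PT.lf (nat_lit 5472) (nat_lit 6) (nat_lit 72) (nat_lit 3) (nat_lit 154) (nat_lit 136) (nat_lit 160)) (PT.lf (nat_lit 5548) (nat_lit 6) (nat_lit 73) (nat_lit 3) (nat_lit 155) (nat_lit 136) (nat_lit 159))))))) (PT.nd (nat_lit 47112) (PT.nd (nat_lit 46644) (PT.nd (nat_lit 234) (PT.nd (nat_lit 78) (PT.lf (nat_lit 5624) (nat_lit 6) (nat_lit 74) (nat_lit 3) (nat_lit 156) (nat_lit 136) (nat_lit 158)) (PT.nd (nat_lit 78) (PT.lf (nat_lit 5700) (nat_lit 3) (nat_lit 75) (nat_lit 1) (nat_lit 157) (nat_lit 136) (nat_lit 157)) (PT.lf (nat_lit 5624) (nat_lit 6) (nat_lit 74) (nat_lit 1) (nat_lit 158) (nat_lit 136) (nat_lit 156)))) (PT.nd (nat_lit 78) (PT.lf (nat_lit 5548) (nat_lit 6) (nat_lit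 73) (nat_lit 1) (nat_lit 159) (nat_lit 136) (nat_lit 155)) (PT.nd (nat_lit 78) (PT.lf (nat_lit 5472) (nat_lit 6) (nat_lit 72) (nat_lit 1) (nat_lit 160) (nat_lit 136) (nat_lit 154)) (PT.lf (nat_lit 5396) (nat_lit 6) (nat_lit 71) (nat_lit 1) (nat_lit 161) (nat_lit 136) (nat_lit 153))))) (PT.nd (nat_lit 234) (PT.nd (nat_lit 78) (PT.lf (nat_lit 5776) (nat_lit 6) (nat_lit 76) (nat_lit 3) (nat_lit 153) (nat_lit 137) (nat_lit 160)) (PT.nd (nat_lit 78) (PT.lf (nat_lit 5852) (nat_lit 6) (nat_lit 77) (nat_lit 3) (nat_lit 154) (nat_lit 137) (nat_lit 159)) (PT.lf (nat_lit 5928) (nat_lit 6) (nat_lit 78) (nat_lit 3) (nat_lit 155) (nat_lit 137) (nat_lit 158)))) (PT.nd (nat_lit 78) (PT.lf (nat_lit 6004) (nat_lit 6) (nat_lit 79) (nat_lit 3) (nat_lit 156) (nat_lit 137) (nat_lit 157)) (PT.nd (nat_lit 78) (PT.lf (nat_lit 6004) (nat_lit 6) (nat_lit 79) (nat_lit 1) (nat_lit 157) (nat_lit 137) (nat_lit 156)) (PT.lf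 (nat_lit 5928) (nat_lit 6) (nat_lit 78) (nat_lit 1) (nat_lit 158) (nat_lit 137) (nat_lit 155)))))) (PT.nd (nat_lit 46644) (PT.nd (nat_lit 46410) (PT.nd (nat_lit 78) (PT.lf (nat_lit 5852) (nat_lit 6) (nat_lit 77) (nat_lit 1) (nat_lit 159) (nat_lit 137) (nat_lit 154)) (PT.nd (nat_lit 46254) (PT.lf (nat_lit 5776) (nat_lit 6) (nat_lit 76) (nat_lit 1) (nat_lit 160) (nat_lit 137) (nat_lit 153)) (PT.lf (nat_lit 6080) (nat_lit 6) (nat_lit 80) (nat_lit 3) (nat_lit 152) (nat_lit 138) (nat_lit 160)))) (PT.nd (nat_lit 78) (PT.lf (nat_lit 6156) (nat_lit 6) (nat_lit 81) (nat_lit 3) (nat_lit 153) (nat_lit 138) (nat_lit 159)) (PT.nd (nat_lit 78) (PT.lf (nat_lit 6232) (nat_lit 6) (nat_lit 82) (nat_lit 3) (nat_lit 154) (nat_lit 138) (nat_lit 158)) (PT.lf (nat_lit 6308) (nat_lit 6) (nat_lit 83) (nat_lit 3) (nat_lit 155) (nat_lit 138) (nat_lit 157))))) (PT.nd (nat_lit 234) (PT.nd (nat_lit 78) (PT.lf (nat_lit 6384)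 (nat_lit 3) (nat_lit 84) (nat_lit 1) (nat_lit 156) (nat_lit 138) (nat_lit 156)) (PT.nd (nat_lit 78) (PT.lf (nat_lit 6308) (nat_lit 6) (nat_lit 83) (nat_lit 1) (nat_lit 157) (nat_lit 138) (nat_lit 155)) (PT.lf (nat_lit 6232) (nat_lit 6) (nat_lit 82) (nat_lit 1) (nat_lit 158) (nat_lit 138) (nat_lit 154)))) (PT.nd (nat_lit 46254) (PT.nd (nat_lit 78) (PT.lf (nat_lit 6156) (nat_lit 6) (nat_lit 81) (nat_lit 1) (nat_lit 159) (nat_lit 138) (nat_lit 153)) (PT.lf (nat_lit 6080) (nat_lit 6) (nat_lit 80) (nat_lit 1) (nat_lit 160) (nat_lit 138) (nat_lit 152))) (PT.nd (nat_lit 78) (PT.lf (nat_lit 6460) (nat_lit 6) (nat_lit 85) (nat_lit 3) (nat_lit 151) (nat_lit 139) (nat_lit 160)) (PT.lf (nat_lit 6536) (nat_lit 6) (nat_lit 86) (nat_lit 3) (nat_lit 152) (nat_lit 139) (nat_lit 159))))))))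
noncomputable def pc3 : PT := (PT.nd (nat_lit 93912) (PT.nd (nat_lit 46956) (PT.nd (nat_lit 468) (PT.nd (nat_lit 234) (PT.nd (nat_lit 78) (PT.lf (nat_lit 6612) (nat_lit 6) (nat_lit 87) (nat_lit 3) (nat_lit 153) (nat_lit 139) (nat_lit 158)) (PT.nd (nat_lit 78) (PT.lf (nat_lit 6688) (nat_lit 6) (nat_lit 88) (nat_lit 3) (nat_lit 154) (nat_lit 139) (nat_lit 157)) (PT.lf (nat_lit 6764) (nat_lit 6) (nat_lit 89) (nat_lit 3) (nat_lit 155) (nat_lit 139) (nat_lit 156)))) (PT.nd (nat_lit 78) (PT.lf (nat_lit 6764) (nat_lit 6) (nat_lit 89) (nat_lit 1) (nat_lit 156) (nat_lit 139) (nat_lit 155)) (PT.nd (nat_lit 78) (PT.lf (nat_lit 6688) (nat_lit 6) (nat_lit 88) (nat_lit 1) (nat_lit 157) (nat_lit 139) (nat_lit 154)) (PT.lf (nat_lit 6612) (nat_lit 6) (nat_lit 87) (nat_lit 1) (nat_lit 158) (nat_lit 139) (nat_lit 153))))) (PT.nd (nat_lit 46254) (PT.nd (nat_lit 78) (PT.lf (nat_lit 6536) (nat_lit 6) (nat_lit 86)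 (nat_lit 1) (nat_lit 159) (nat_lit 139) (nat_lit 152)) (PT.nd (nat_lit 46098) (PT.lf (nat_lit 6460) (nat_lit 6) (nat_lit 85) (nat_lit 1) (nat_lit 160) (nat_lit 139) (nat_lit 151)) (PT.lf (nat_lit 7144) (nat_lit 6) (nat_lit 94) (nat_lit 3) (nat_lit 150) (nat_lit 140) (nat_lit 160)))) (PT.nd (nat_lit 78) (PT.lf (nat_lit 7220) (nat_lit 6) (nat_lit 95) (nat_lit 3) (nat_lit 151) (nat_lit 140) (nat_lit 159)) (PT.nd (nat_lit 78) (PT.lf (nat_lit 7296) (nat_lit 6) (nat_lit 96) (nat_lit 3) (nat_lit 152) (nat_lit 140) (nat_lit 158)) (PT.lf (nat_lit 7372) (nat_lit 6) (nat_lit 97) (nat_lit 3) (nat_lit 153) (nat_lit 140) (nat_lit 157)))))) (PT.nd (nat_lit 468) (PT.nd (nat_lit 234) (PT.nd (nat_lit 78) (PT.lf (nat_lit 7448) (nat_lit 6) (nat_lit 98) (nat_lit 3) (nat_lit 154) (nat_lit 140) (nat_lit 156)) (PT.nd (nat_lit 78) (PT.lf (nat_lit 7524) (nat_lit 3) (nat_lit 99) (nat_lit 1) (nat_lit 155) (nat_lit 140)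 (nat_lit 155)) (PT.lf (nat_lit 7448) (nat_lit 6) (nat_lit 98) (nat_lit 1) (nat_lit 156) (nat_lit 140) (nat_lit 154)))) (PT.nd (nat_lit 78) (PT.lf (nat_lit 7372) (nat_lit 6) (nat_lit 97) (nat_lit 1) (nat_lit 157) (nat_lit 140) (nat_lit 153)) (PT.nd (nat_lit 78) (PT.lf (nat_lit 7296) (nat_lit 6) (nat_lit 96) (nat_lit 1) (nat_lit 158) (nat_lit 140) (nat_lit 152)) (PT.lf (nat_lit 7220) (nat_lit 6) (nat_lit 95) (nat_lit 1) (nat_lit 159) (nat_lit 140) (nat_lit 151))))) (PT.nd (nat_lit 46176) (PT.nd (nat_lit 46020) (PT.lf (nat_lit 7144) (nat_lit 6) (nat_lit 94) (nat_lit 1) (nat_lit 160) (nat_lit 140) (nat_lit 150)) (PT.nd (nat_lit 78) (PT.lf (nat_lit 7068) (nat_lit 6) (nat_lit 93) (nat_lit 3) (nat_lit 149) (nat_lit 141) (nat_lit 160)) (PT.lf (nat_lit 7904) (nat_lit 6) (nat_lit 104) (nat_lit 3) (nat_lit 150) (nat_lit 141) (nat_lit 159)))) (PT.nd (nat_lit 156) (PT.nd (nat_lit 78) (PT.lf (nat_lit 7980)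 (nat_lit 6) (nat_lit 105) (nat_lit 3) (nat_lit 151) (nat_lit 141) (nat_lit 158)) (PT.lf (nat_lit 8056) (nat_lit 6) (nat_lit 106) (nat_lit 3) (nat_lit 152) (nat_lit 141) (nat_lit 157))) (PT.nd (nat_lit 78) (PT.lf (nat_lit 8132) (nat_lit 6) (nat_lit 107) (nat_lit 3) (nat_lit 153) (nat_lit 141) (nat_lit 156)) (PT.lf (nat_lit 8208) (nat_lit 6) (nat_lit 108) (nat_lit 3) (nat_lit 154) (nat_lit 141) (nat_lit 155))))))) (PT.nd (nat_lit 46800) (PT.nd (nat_lit 46332) (PT.nd (nat_lit 234) (PT.nd (nat_lit 78) (PT.lf (nat_lit 8208) (nat_lit 6) (nat_lit 108) (nat_lit 1) (nat_lit 155) (nat_lit 141) (nat_lit 154)) (PT.nd (nat_lit 78) (PT.lf (nat_lit 8132) (nat_lit 6) (nat_lit 107) (nat_lit 1) (nat_lit 156) (nat_lit 141) (nat_lit 153)) (PT.lf (nat_lit 8056) (nat_lit 6) (nat_lit 106) (nat_lit 1) (nat_lit 157) (nat_lit 141) (nat_lit 152)))) (PT.nd (nat_lit 78) (PT.lf (nat_lit 7980) (nat_lit 6) (nat_lit 105) (nat_lit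 1) (nat_lit 158) (nat_lit 141) (nat_lit 151)) (PT.nd (nat_lit 78) (PT.lf (nat_lit 7904) (nat_lit 6) (nat_lit 104) (nat_lit 1) (nat_lit 159) (nat_lit 141) (nat_lit 150)) (PT.lf (nat_lit 7068) (nat_lit 6) (nat_lit 93) (nat_lit 1) (nat_lit 160) (nat_lit 141) (nat_lit 149))))) (PT.nd (nat_lit 234) (PT.nd (nat_lit 78) (PT.lf (nat_lit 6992) (nat_lit 6) (nat_lit 92) (nat_lit 3) (nat_lit 148) (nat_lit 142) (nat_lit 160)) (PT.nd (nat_lit 78) (PT.lf (nat_lit 7828) (nat_lit 6) (nat_lit 103) (nat_lit 3) (nat_lit 149) (nat_lit 142) (nat_lit 159)) (PT.lf (nat_lit 8588) (nat_lit 6) (nat_lit 113) (nat_lit 3) (nat_lit 150) (nat_lit 142) (nat_lit 158)))) (PT.nd (nat_lit 78) (PT.lf (nat_lit 8664) (nat_lit 6) (nat_lit 114) (nat_lit 3) (nat_lit 151) (nat_lit 142) (nat_lit 157)) (PT.nd (nat_lit 78) (PT.lf (nat_lit 8740) (nat_lit 6) (nat_lit 115) (nat_lit 3) (nat_lit 152) (nat_lit 142) (nat_lit 156)) (PT.lf (nat_lit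 8816) (nat_lit 6) (nat_lit 116) (nat_lit 3) (nat_lit 153) (nat_lit 142) (nat_lit 155)))))) (PT.nd (nat_lit 468) (PT.nd (nat_lit 234) (PT.nd (nat_lit 78) (PT.lf (nat_lit 8892) (nat_lit 3) (nat_lit 117) (nat_lit 1) (nat_lit 154) (nat_lit 142) (nat_lit 154)) (PT.nd (nat_lit 78) (PT.lf (nat_lit 8816) (nat_lit 6) (nat_lit 116) (nat_lit 1) (nat_lit 155) (nat_lit 142) (nat_lit 153)) (PT.lf (nat_lit 8740) (nat_lit 6) (nat_lit 115) (nat_lit 1) (nat_lit 156) (nat_lit 142) (nat_lit 152)))) (PT.nd (nat_lit 78) (PT.lf (nat_lit 8664) (nat_lit 6) (nat_lit 114) (nat_lit 1) (nat_lit 157) (nat_lit 142) (nat_lit 151)) (PT.nd (nat_lit 78) (PT.lf (nat_lit 8588) (nat_lit 6) (nat_lit 113) (nat_lit 1) (nat_lit 158) (nat_lit 142) (nat_lit 150)) (PT.lf (nat_lit 7828) (nat_lit 6) (nat_lit 103) (nat_lit 1) (nat_lit 159) (nat_lit 142) (nat_lit 149))))) (PT.nd (nat_lit 46020) (PT.nd (nat_lit 45864) (PT.lf (nat_lit 6992)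 (nat_lit 6) (nat_lit 92) (nat_lit 1) (nat_lit 160) (nat_lit 142) (nat_lit 148)) (PT.nd (nat_lit 78) (PT.lf (nat_lit 6916) (nat_lit 6) (nat_lit 91) (nat_lit 3) (nat_lit 147) (nat_lit 143) (nat_lit 160)) (PT.lf (nat_lit 7752) (nat_lit 6) (nat_lit 102) (nat_lit 3) (nat_lit 148) (nat_lit 143) (nat_lit 159)))) (PT.nd (nat_lit 156) (PT.nd (nat_lit 78) (PT.lf (nat_lit 8512) (nat_lit 6) (nat_lit 112) (nat_lit 3) (nat_lit 149) (nat_lit 143) (nat_lit 158)) (PT.lf (nat_lit 9196) (nat_lit 6) (nat_lit 121) (nat_lit 3) (nat_lit 150) (nat_lit 143) (nat_lit 157))) (PT.nd (nat_lit 78) (PT.lf (nat_lit 9272) (nat_lit 6) (nat_lit 122) (nat_lit 3) (nat_lit 151) (nat_lit 143) (nat_lit 156)) (PT.lf (nat_lit 9348) (nat_lit 6) (nat_lit 123) (nat_lit 3) (nat_lit 152) (nat_lit 143) (nat_lit 155))))))))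
noncomputable def pc4 : PT := (PT.nd (nat_lit 93366) (PT.nd (nat_lit 46644) (PT.nd (nat_lit 468) (PT.nd (nat_lit 234) (PT.nd (nat_lit 78) (PT.lf (nat_lit 9424) (nat_lit 6) (nat_lit 124) (nat_lit 3) (nat_lit 153) (nat_lit 143) (nat_lit 154)) (PT.nd (nat_lit 78) (PT.lf (nat_lit 9424) (nat_lit 6) (nat_lit 124) (nat_lit 1) (nat_lit 154) (nat_lit 143) (nat_lit 153)) (PT.lf (nat_lit 9348) (nat_lit 6) (nat_lit 123) (nat_lit 1) (nat_lit 155) (nat_lit 143) (nat_lit 152)))) (PT.nd (nat_lit 78) (PT.lf (nat_lit 9272) (nat_lit 6) (nat_lit 122) (nat_lit 1) (nat_lit 156) (nat_lit 143) (nat_lit 151)) (PT.nd (nat_lit 78) (PT.lf (nat_lit 9196) (nat_lit 6) (nat_lit 121) (nat_lit 1) (nat_lit 157) (nat_lit 143) (nat_lit 150)) (PT.lf (nat_lit 8512) (nat_lit 6) (nat_lit 112) (nat_lit 1) (nat_lit 158) (nat_lit 143) (nat_lit 149))))) (PT.nd (nat_lit 45942) (PT.nd (nat_lit 78) (PT.lf (nat_lit 7752) (nat_lit 6) (nat_lit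 102) (nat_lit 1) (nat_lit 159) (nat_lit 143) (nat_lit 148)) (PT.nd (nat_lit 45786) (PT.lf (nat_lit 6916) (nat_lit 6) (nat_lit 91) (nat_lit 1) (nat_lit 160) (nat_lit 143) (nat_lit 147)) (PT.lf (nat_lit 6840) (nat_lit 6) (nat_lit 90) (nat_lit 3) (nat_lit 146) (nat_lit 144) (nat_lit 160)))) (PT.nd (nat_lit 78) (PT.lf (nat_lit 7676) (nat_lit 6) (nat_lit 101) (nat_lit 3) (nat_lit 147) (nat_lit 144) (nat_lit 159)) (PT.nd (nat_lit 78) (PT.lf (nat_lit 8436) (nat_lit 6) (nat_lit 111) (nat_lit 3) (nat_lit 148) (nat_lit 144) (nat_lit 158)) (PT.lf (nat_lit 9120) (nat_lit 6) (nat_lit 120) (nat_lit 3) (nat_lit 149) (nat_lit 144) (nat_lit 157)))))) (PT.nd (nat_lit 468) (PT.nd (nat_lit 234) (PT.nd (nat_lit 78) (PT.lf (nat_lit 9728) (nat_lit 6) (nat_lit 128) (nat_lit 3) (nat_lit 150) (nat_lit 144) (nat_lit 156)) (PT.nd (nat_lit 78) (PT.lf (nat_lit 9804) (nat_lit 6) (nat_lit 129) (nat_lit 3) (nat_lit 151) (nat_lit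 144) (nat_lit 155)) (PT.lf (nat_lit 9880) (nat_lit 6) (nat_lit 130) (nat_lit 3) (nat_lit 152) (nat_lit 144) (nat_lit 154)))) (PT.nd (nat_lit 78) (PT.lf (nat_lit 9956) (nat_lit 3) (nat_lit 131) (nat_lit 1) (nat_lit 153) (nat_lit 144) (nat_lit 153)) (PT.nd (nat_lit 78) (PT.lf (nat_lit 9880) (nat_lit 6) (nat_lit 130) (nat_lit 1) (nat_lit 154) (nat_lit 144) (nat_lit 152)) (PT.lf (nat_lit 9804) (nat_lit 6) (nat_lit 129) (nat_lit 1) (nat_lit 155) (nat_lit 144) (nat_lit 151))))) (PT.nd (nat_lit 234) (PT.nd (nat_lit 78) (PT.lf (nat_lit 9728) (nat_lit 6) (nat_lit 128) (nat_lit 1) (nat_lit 156) (nat_lit 144) (nat_lit 150)) (PT.nd (nat_lit 78) (PT.lf (nat_lit 9120) (nat_lit 6) (nat_lit 120) (nat_lit 1) (nat_lit 157) (nat_lit 144) (nat_lit 149)) (PT.lf (nat_lit 8436) (nat_lit 6) (nat_lit 111) (nat_lit 1) (nat_lit 158) (nat_lit 144) (nat_lit 148)))) (PT.nd (nat_lit 45864) (PT.nd (nat_lit 78) (PT.lf (nat_lit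 7676) (nat_lit 6) (nat_lit 101) (nat_lit 1) (nat_lit 159) (nat_lit 144) (nat_lit 147)) (PT.lf (nat_lit 6840) (nat_lit 6) (nat_lit 90) (nat_lit 1) (nat_lit 160) (nat_lit 144) (nat_lit 146))) (PT.nd (nat_lit 78) (PT.lf (nat_lit 7600) (nat_lit 6) (nat_lit 100) (nat_lit 3) (nat_lit 146) (nat_lit 145) (nat_lit 159)) (PT.lf (nat_lit 8360) (nat_lit 6) (nat_lit 110) (nat_lit 3) (nat_lit 147) (nat_lit 145) (nat_lit 158))))))) (PT.nd (nat_lit 46566) (PT.nd (nat_lit 468) (PT.nd (nat_lit 234) (PT.nd (nat_lit 78) (PT.lf (nat_lit 9044) (nat_lit 6) (nat_lit 119) (nat_lit 3) (nat_lit 148) (nat_lit 145) (nat_lit 157)) (PT.nd (nat_lit 78) (PT.lf (nat_lit 9652) (nat_lit 6) (nat_lit 127) (nat_lit 3) (nat_lit 149) (nat_lit 145) (nat_lit 156)) (PT.lf (nat_lit 10184) (nat_lit 6) (nat_lit 134) (nat_lit 3) (nat_lit 150) (nat_lit 145) (nat_lit 155)))) (PT.nd (nat_lit 78) (PT.lf (nat_lit 10260) (nat_lit 6) (nat_lit 135)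 (nat_lit 3) (nat_lit 151) (nat_lit 145) (nat_lit 154)) (PT.nd (nat_lit 78) (PT.lf (nat_lit 10336) (nat_lit 6) (nat_lit 136) (nat_lit 3) (nat_lit 152) (nat_lit 145) (nat_lit 153)) (PT.lf (nat_lit 10336) (nat_lit 6) (nat_lit 136) (nat_lit 1) (nat_lit 153) (nat_lit 145) (nat_lit 152))))) (PT.nd (nat_lit 234) (PT.nd (nat_lit 78) (PT.lf (nat_lit 10260) (nat_lit 6) (nat_lit 135) (nat_lit 1) (nat_lit 154) (nat_lit 145) (nat_lit 151)) (PT.nd (nat_lit 78) (PT.lf (nat_lit 10184) (nat_lit 6) (nat_lit 134) (nat_lit 1) (nat_lit 155) (nat_lit 145) (nat_lit 150)) (PT.lf (nat_lit 9652) (nat_lit 6) (nat_lit 127) (nat_lit 1) (nat_lit 156) (nat_lit 145) (nat_lit 149)))) (PT.nd (nat_lit 78) (PT.lf (nat_lit 9044) (nat_lit 6) (nat_lit 119) (nat_lit 1) (nat_lit 157) (nat_lit 145) (nat_lit 148)) (PT.nd (nat_lit 78) (PT.lf (nat_lit 8360) (nat_lit 6) (nat_lit 110) (nat_lit 1) (nat_lit 158) (nat_lit 145) (nat_lit 147))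 (PT.lf (nat_lit 7600) (nat_lit 6) (nat_lit 100) (nat_lit 1) (nat_lit 159) (nat_lit 145) (nat_lit 146)))))) (PT.nd (nat_lit 468) (PT.nd (nat_lit 234) (PT.nd (nat_lit 78) (PT.lf (nat_lit 6840) (nat_lit 6) (nat_lit 90) (nat_lit 5) (nat_lit 144) (nat_lit 146) (nat_lit 160)) (PT.nd (nat_lit 78) (PT.lf (nat_lit 7600) (nat_lit 6) (nat_lit 100) (nat_lit 5) (nat_lit 145) (nat_lit 146) (nat_lit 159)) (PT.lf (nat_lit 8284) (nat_lit 3) (nat_lit 109) (nat_lit 3) (nat_lit 146) (nat_lit 146) (nat_lit 158)))) (PT.nd (nat_lit 78) (PT.lf (nat_lit 8968) (nat_lit 6) (nat_lit 118) (nat_lit 3) (nat_lit 147) (nat_lit 146) (nat_lit 157)) (PT.nd (nat_lit 78) (PT.lf (nat_lit 9576) (nat_lit 6) (nat_lit 126) (nat_lit 3) (nat_lit 148) (nat_lit 146) (nat_lit 156)) (PT.lf (nat_lit 10108) (nat_lit 6) (nat_lit 133) (nat_lit 3) (nat_lit 149) (nat_lit 146) (nat_lit 155))))) (PT.nd (nat_lit 234) (PT.nd (nat_lit 78) (PT.lf (nat_lit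 10564) (nat_lit 6) (nat_lit 139) (nat_lit 3) (nat_lit 150) (nat_lit 146) (nat_lit 154)) (PT.nd (nat_lit 78) (PT.lf (nat_lit 10640) (nat_lit 6) (nat_lit 140) (nat_lit 3) (nat_lit 151) (nat_lit 146) (nat_lit 153)) (PT.lf (nat_lit 10716) (nat_lit 3) (nat_lit 141) (nat_lit 1) (nat_lit 152) (nat_lit 146) (nat_lit 152)))) (PT.nd (nat_lit 156) (PT.nd (nat_lit 78) (PT.lf (nat_lit 10640) (nat_lit 6) (nat_lit 140) (nat_lit 1) (nat_lit 153) (nat_lit 146) (nat_lit 151)) (PT.lf (nat_lit 10564) (nat_lit 6) (nat_lit 139) (nat_lit 1) (nat_lit 154) (nat_lit 146) (nat_lit 150))) (PT.nd (nat_lit 78) (PT.lf (nat_lit 10108) (nat_lit 6) (nat_lit 133) (nat_lit 1) (nat_lit 155) (nat_lit 146) (nat_lit 149)) (PT.lf (nat_lit 9576) (nat_lit 6) (nat_lit 126) (nat_lit 1) (nat_lit 156) (nat_lit 146) (nat_lit 148))))))))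
noncomputable def pc5 : PT := (PT.nd (nat_lit 92820) (PT.nd (nat_lit 46410) (PT.nd (nat_lit 45942) (PT.nd (nat_lit 234) (PT.nd (nat_lit 78) (PT.lf (nat_lit 8968) (nat_lit 6) (nat_lit 118) (nat_lit 1) (nat_lit 157) (nat_lit 146) (nat_lit 147)) (PT.nd (nat_lit 78) (PT.lf (nat_lit 8284) (nat_lit 3) (nat_lit 109) (nat_lit 0) (nat_lit 158) (nat_lit 146) (nat_lit 146)) (PT.lf (nat_lit 7600) (nat_lit 6) (nat_lit 100) (nat_lit 0) (nat_lit 159) (nat_lit 146) (nat_lit 145)))) (PT.nd (nat_lit 45552) (PT.lf (nat_lit 6840) (nat_lit 6) (nat_lit 90) (nat_lit 0) (nat_lit 160) (nat_lit 146) (nat_lit 144)) (PT.nd (nat_lit 78) (PT.lf (nat_lit 6916) (nat_lit 6) (nat_lit 91) (nat_lit 5) (nat_lit 143) (nat_lit 147) (nat_lit 160)) (PT.lf (nat_lit 7676) (nat_lit 6) (nat_lit 101) (nat_lit 5) (nat_lit 144) (nat_lit 147) (nat_lit 159))))) (PT.nd (nat_lit 234) (PT.nd (nat_lit 78) (PT.lf (nat_lit 8360) (nat_lit 6) (nat_lit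 110) (nat_lit 5) (nat_lit 145) (nat_lit 147) (nat_lit 158)) (PT.nd (nat_lit 78) (PT.lf (nat_lit 8968) (nat_lit 6) (nat_lit 118) (nat_lit 5) (nat_lit 146) (nat_lit 147) (nat_lit 157)) (PT.lf (nat_lit 9500) (nat_lit 3) (nat_lit 125) (nat_lit 3) (nat_lit 147) (nat_lit 147) (nat_lit 156)))) (PT.nd (nat_lit 78) (PT.lf (nat_lit 10032) (nat_lit 6) (nat_lit 132) (nat_lit 3) (nat_lit 148) (nat_lit 147) (nat_lit 155)) (PT.nd (nat_lit 78) (PT.lf (nat_lit 10488) (nat_lit 6) (nat_lit 138) (nat_lit 3) (nat_lit 149) (nat_lit 147) (nat_lit 154)) (PT.lf (nat_lit 10868) (nat_lit 6) (nat_lit 143) (nat_lit 3) (nat_lit 150) (nat_lit 147) (nat_lit 153)))))) (PT.nd (nat_lit 468) (PT.nd (nat_lit 234) (PT.nd (nat_lit 78) (PT.lf (nat_lit 10944) (nat_lit 6) (nat_lit 144) (nat_lit 3) (nat_lit 151) (nat_lit 147) (nat_lit 152)) (PT.nd (nat_lit 78) (PT.lf (nat_lit 10944) (nat_lit 6) (nat_lit 144) (nat_lit 1) (nat_lit 152)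 (nat_lit 147) (nat_lit 151)) (PT.lf (nat_lit 10868) (nat_lit 6) (nat_lit 143) (nat_lit 1) (nat_lit 153) (nat_lit 147) (nat_lit 150)))) (PT.nd (nat_lit 78) (PT.lf (nat_lit 10488) (nat_lit 6) (nat_lit 138) (nat_lit 1) (nat_lit 154) (nat_lit 147) (nat_lit 149)) (PT.nd (nat_lit 78) (PT.lf (nat_lit 10032) (nat_lit 6) (nat_lit 132) (nat_lit 1) (nat_lit 155) (nat_lit 147) (nat_lit 148)) (PT.lf (nat_lit 9500) (nat_lit 3) (nat_lit 125) (nat_lit 0) (nat_lit 156) (nat_lit 147) (nat_lit 147))))) (PT.nd (nat_lit 234) (PT.nd (nat_lit 78) (PT.lf (nat_lit 8968) (nat_lit 6) (nat_lit 118) (nat_lit 0) (nat_lit 157) (nat_lit 147) (nat_lit 146)) (PT.nd (nat_lit 78) (PT.lf (nat_lit 8360) (nat_lit 6) (nat_lit 110) (nat_lit 0) (nat_lit 158) (nat_lit 147) (nat_lit 145)) (PT.lf (nat_lit 7676) (nat_lit 6) (nat_lit 101) (nat_lit 0) (nat_lit 159) (nat_lit 147) (nat_lit 144)))) (PT.nd (nat_lit 45552) (PT.nd (nat_lit 45474)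 (PT.lf (nat_lit 6916) (nat_lit 6) (nat_lit 91) (nat_lit 0) (nat_lit 160) (nat_lit 147) (nat_lit 143)) (PT.lf (nat_lit 6992) (nat_lit 6) (nat_lit 92) (nat_lit 5) (nat_lit 142) (nat_lit 148) (nat_lit 160))) (PT.nd (nat_lit 78) (PT.lf (nat_lit 7752) (nat_lit 6) (nat_lit 102) (nat_lit 5) (nat_lit 143) (nat_lit 148) (nat_lit 159)) (PT.lf (nat_lit 8436) (nat_lit 6) (nat_lit 111) (nat_lit 5) (nat_lit 144) (nat_lit 148) (nat_lit 158))))))) (PT.nd (nat_lit 936) (PT.nd (nat_lit 468) (PT.nd (nat_lit 234) (PT.nd (nat_lit 78) (PT.lf (nat_lit 9044) (nat_lit 6) (nat_lit 119) (nat_lit 5) (nat_lit 145) (nat_lit 148) (nat_lit 157)) (PT.nd (nat_lit 78) (PT.lf (nat_lit 9576) (nat_lit 6) (nat_lit 126) (nat_lit 5) (nat_lit 146) (nat_lit 148) (nat_lit 156)) (PT.lf (nat_lit 10032) (nat_lit 6) (nat_lit 132) (nat_lit 5) (nat_lit 147) (nat_lit 148) (nat_lit 155)))) (PT.nd (nat_lit 78) (PT.lf (nat_lit 10412) (nat_lit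 3) (nat_lit 137) (nat_lit 3) (nat_lit 148) (nat_lit 148) (nat_lit 154)) (PT.nd (nat_lit 78) (PT.lf (nat_lit 10792) (nat_lit 6) (nat_lit 142) (nat_lit 3) (nat_lit 149) (nat_lit 148) (nat_lit 153)) (PT.lf (nat_lit 11096) (nat_lit 6) (nat_lit 146) (nat_lit 3) (nat_lit 150) (nat_lit 148) (nat_lit 152))))) (PT.nd (nat_lit 234) (PT.nd (nat_lit 78) (PT.lf (nat_lit 11172) (nat_lit 3) (nat_lit 147) (nat_lit 1) (nat_lit 151) (nat_lit 148) (nat_lit 151)) (PT.nd (nat_lit 78) (PT.lf (nat_lit 11096) (nat_lit 6) (nat_lit 146) (nat_lit 1) (nat_lit 152) (nat_lit 148) (nat_lit 150)) (PT.lf (nat_lit 10792) (nat_lit 6) (nat_lit 142) (nat_lit 1) (nat_lit 153) (nat_lit 148) (nat_lit 149)))) (PT.nd (nat_lit 78) (PT.lf (nat_lit 10412) (nat_lit 3) (nat_lit 137) (nat_lit 0) (nat_lit 154) (nat_lit 148) (nat_lit 148)) (PT.nd (nat_lit 78) (PT.lf (nat_lit 10032) (nat_lit 6) (nat_lit 132) (nat_lit 0) (nat_lit 155) (nat_lit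 148) (nat_lit 147)) (PT.lf (nat_lit 9576) (nat_lit 6) (nat_lit 126) (nat_lit 0) (nat_lit 156) (nat_lit 148) (nat_lit 146)))))) (PT.nd (nat_lit 45786) (PT.nd (nat_lit 234) (PT.nd (nat_lit 78) (PT.lf (nat_lit 9044) (nat_lit 6) (nat_lit 119) (nat_lit 0) (nat_lit 157) (nat_lit 148) (nat_lit 145)) (PT.nd (nat_lit 78) (PT.lf (nat_lit 8436) (nat_lit 6) (nat_lit 111) (nat_lit 0) (nat_lit 158) (nat_lit 148) (nat_lit 144)) (PT.lf (nat_lit 7752) (nat_lit 6) (nat_lit 102) (nat_lit 0) (nat_lit 159) (nat_lit 148) (nat_lit 143)))) (PT.nd (nat_lit 45396) (PT.lf (nat_lit 6992) (nat_lit 6) (nat_lit 92) (nat_lit 0) (nat_lit 160) (nat_lit 148) (nat_lit 142)) (PT.nd (nat_lit 78) (PT.lf (nat_lit 7068) (nat_lit 6) (nat_lit 93) (nat_lit 5) (nat_lit 141) (nat_lit 149) (nat_lit 160)) (PT.lf (nat_lit 7828) (nat_lit 6) (nat_lit 103) (nat_lit 5) (nat_lit 142) (nat_lit 149) (nat_lit 159))))) (PT.nd (nat_lit 234) (PT.nd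 (nat_lit 78) (PT.lf (nat_lit 8512) (nat_lit 6) (nat_lit 112) (nat_lit 5) (nat_lit 143) (nat_lit 149) (nat_lit 158)) (PT.nd (nat_lit 78) (PT.lf (nat_lit 9120) (nat_lit 6) (nat_lit 120) (nat_lit 5) (nat_lit 144) (nat_lit 149) (nat_lit 157)) (PT.lf (nat_lit 9652) (nat_lit 6) (nat_lit 127) (nat_lit 5) (nat_lit 145) (nat_lit 149) (nat_lit 156)))) (PT.nd (nat_lit 156) (PT.nd (nat_lit 78) (PT.lf (nat_lit 10108) (nat_lit 6) (nat_lit 133) (nat_lit 5) (nat_lit 146) (nat_lit 149) (nat_lit 155)) (PT.lf (nat_lit 10488) (nat_lit 6) (nat_lit 138) (nat_lit 5) (nat_lit 147) (nat_lit 149) (nat_lit 154))) (PT.nd (nat_lit 78) (PT.lf (nat_lit 10792) (nat_lit 6) (nat_lit 142) (nat_lit 5) (nat_lit 148) (nat_lit 149) (nat_lit 153)) (PT.lf (nat_lit 11020) (nat_lit 3) (nat_lit 145) (nat_lit 3) (nat_lit 149) (nat_lit 149) (nat_lit 152))))))))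
noncomputable def pc6 : PT := (PT.nd (nat_lit 47190) (PT.nd (nat_lit 46176) (PT.nd (nat_lit 468) (PT.nd (nat_lit 234) (PT.nd (nat_lit 78) (PT.lf (nat_lit 11248) (nat_lit 6) (nat_lit 148) (nat_lit 3) (nat_lit 150) (nat_lit 149) (nat_lit 151)) (PT.nd (nat_lit 78) (PT.lf (nat_lit 11248) (nat_lit 6) (nat_lit 148) (nat_lit 1) (nat_lit 151) (nat_lit 149) (nat_lit 150)) (PT.lf (nat_lit 11020) (nat_lit 3) (nat_lit 145) (nat_lit 0) (nat_lit 152) (nat_lit 149) (nat_lit 149)))) (PT.nd (nat_lit 78) (PT.lf (nat_lit 10792) (nat_lit 6) (nat_lit 142) (nat_lit 0) (nat_lit 153) (nat_lit 149) (nat_lit 148)) (PT.nd (nat_lit 78) (PT.lf (nat_lit 10488) (nat_lit 6) (nat_lit 138) (nat_lit 0) (nat_lit 154) (nat_lit 149) (nat_lit 147)) (PT.lf (nat_lit 10108) (nat_lit 6) (nat_lit 133) (nat_lit 0) (nat_lit 155) (nat_lit 149) (nat_lit 146))))) (PT.nd (nat_lit 234) (PT.nd (nat_lit 78) (PT.lf (nat_lit 9652) (nat_lit 6) (nat_lit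 127) (nat_lit 0) (nat_lit 156) (nat_lit 149) (nat_lit 145)) (PT.nd (nat_lit 78) (PT.lf (nat_lit 9120) (nat_lit 6) (nat_lit 120) (nat_lit 0) (nat_lit 157) (nat_lit 149) (nat_lit 144)) (PT.lf (nat_lit 8512) (nat_lit 6) (nat_lit 112) (nat_lit 0) (nat_lit 158) (nat_lit 149) (nat_lit 143)))) (PT.nd (nat_lit 78) (PT.lf (nat_lit 7828) (nat_lit 6) (nat_lit 103) (nat_lit 0) (nat_lit 159) (nat_lit 149) (nat_lit 142)) (PT.nd (nat_lit 45318) (PT.lf (nat_lit 7068) (nat_lit 6) (nat_lit 93) (nat_lit 0) (nat_lit 160) (nat_lit 149) (nat_lit 141)) (PT.lf (nat_lit 7144) (nat_lit 6) (nat_lit 94) (nat_lit 5) (nat_lit 140) (nat_lit 150) (nat_lit 160)))))) (PT.nd (nat_lit 468) (PT.nd (nat_lit 234) (PT.nd (nat_lit 78) (PT.lf (nat_lit 7904) (nat_lit 6) (nat_lit 104) (nat_lit 5) (nat_lit 141) (nat_lit 150) (nat_lit 159)) (PT.nd (nat_lit 78) (PT.lf (nat_lit 8588) (nat_lit 6) (nat_lit 113) (nat_lit 5) (nat_lit 142) (nat_lit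 150) (nat_lit 158)) (PT.lf (nat_lit 9196) (nat_lit 6) (nat_lit 121) (nat_lit 5) (nat_lit 143) (nat_lit 150) (nat_lit 157)))) (PT.nd (nat_lit 78) (PT.lf (nat_lit 9728) (nat_lit 6) (nat_lit 128) (nat_lit 5) (nat_lit 144) (nat_lit 150) (nat_lit 156)) (PT.nd (nat_lit 78) (PT.lf (nat_lit 10184) (nat_lit 6) (nat_lit 134) (nat_lit 5) (nat_lit 145) (nat_lit 150) (nat_lit 155)) (PT.lf (nat_lit 10564) (nat_lit 6) (nat_lit 139) (nat_lit 5) (nat_lit 146) (nat_lit 150) (nat_lit 154))))) (PT.nd (nat_lit 234) (PT.nd (nat_lit 78) (PT.lf (nat_lit 10868) (nat_lit 6) (nat_lit 143) (nat_lit 5) (nat_lit 147) (nat_lit 150) (nat_lit 153)) (PT.nd (nat_lit 78) (PT.lf (nat_lit 11096) (nat_lit 6) (nat_lit 146) (nat_lit 5) (nat_lit 148) (nat_lit 150) (nat_lit 152)) (PT.lf (nat_lit 11248) (nat_lit 6) (nat_lit 148) (nat_lit 5) (nat_lit 149) (nat_lit 150) (nat_lit 151)))) (PT.nd (nat_lit 156) (PT.nd (nat_lit 78) (PT.lf (nat_lit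 11324) (nat_lit 1) (nat_lit 149) (nat_lit 0) (nat_lit 150) (nat_lit 150) (nat_lit 150)) (PT.lf (nat_lit 11248) (nat_lit 6) (nat_lit 148) (nat_lit 0) (nat_lit 151) (nat_lit 150) (nat_lit 149))) (PT.nd (nat_lit 78) (PT.lf (nat_lit 11096) (nat_lit 6) (nat_lit 146) (nat_lit 0) (nat_lit 152) (nat_lit 150) (nat_lit 148)) (PT.lf (nat_lit 10868) (nat_lit 6) (nat_lit 143) (nat_lit 0) (nat_lit 153) (nat_lit 150) (nat_lit 147))))))) (PT.nd (nat_lit 46098) (PT.nd (nat_lit 468) (PT.nd (nat_lit 234) (PT.nd (nat_lit 78) (PT.lf (nat_lit 10564) (nat_lit 6) (nat_lit 139) (nat_lit 0) (nat_lit 154) (nat_lit 150) (nat_lit 146)) (PT.nd (nat_lit 78) (PT.lf (nat_lit 10184) (nat_lit 6) (nat_lit 134) (nat_lit 0) (nat_lit 155) (nat_lit 150) (nat_lit 145)) (PT.lf (nat_lit 9728) (nat_lit 6) (nat_lit 128) (nat_lit 0) (nat_lit 156) (nat_lit 150) (nat_lit 144)))) (PT.nd (nat_lit 78) (PT.lf (nat_lit 9196) (nat_lit 6) (nat_lit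 121) (nat_lit 0) (nat_lit 157) (nat_lit 150) (nat_lit 143)) (PT.nd (nat_lit 78) (PT.lf (nat_lit 8588) (nat_lit 6) (nat_lit 113) (nat_lit 0) (nat_lit 158) (nat_lit 150) (nat_lit 142)) (PT.lf (nat_lit 7904) (nat_lit 6) (nat_lit 104) (nat_lit 0) (nat_lit 159) (nat_lit 150) (nat_lit 141))))) (PT.nd (nat_lit 45396) (PT.nd (nat_lit 45240) (PT.lf (nat_lit 7144) (nat_lit 6) (nat_lit 94) (nat_lit 0) (nat_lit 160) (nat_lit 150) (nat_lit 140)) (PT.nd (nat_lit 78) (PT.lf (nat_lit 6460) (nat_lit 6) (nat_lit 85) (nat_lit 5) (nat_lit 139) (nat_lit 151) (nat_lit 160)) (PT.lf (nat_lit 7220) (nat_lit 6) (nat_lit 95) (nat_lit 5) (nat_lit 140) (nat_lit 151) (nat_lit 159)))) (PT.nd (nat_lit 78) (PT.lf (nat_lit 7980) (nat_lit 6) (nat_lit 105) (nat_lit 5) (nat_lit 141) (nat_lit 151) (nat_lit 158)) (PT.nd (nat_lit 78) (PT.lf (nat_lit 8664) (nat_lit 6) (nat_lit 114) (nat_lit 5) (nat_lit 142) (nat_lit 151) (nat_lit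 157)) (PT.lf (nat_lit 9272) (nat_lit 6) (nat_lit 122) (nat_lit 5) (nat_lit 143) (nat_lit 151) (nat_lit 156)))))) (PT.nd (nat_lit 468) (PT.nd (nat_lit 234) (PT.nd (nat_lit 78) (PT.lf (nat_lit 9804) (nat_lit 6) (nat_lit 129) (nat_lit 5) (nat_lit 144) (nat_lit 151) (nat_lit 155)) (PT.nd (nat_lit 78) (PT.lf (nat_lit 10260) (nat_lit 6) (nat_lit 135) (nat_lit 5) (nat_lit 145) (nat_lit 151) (nat_lit 154)) (PT.lf (nat_lit 10640) (nat_lit 6) (nat_lit 140) (nat_lit 5) (nat_lit 146) (nat_lit 151) (nat_lit 153)))) (PT.nd (nat_lit 78) (PT.lf (nat_lit 10944) (nat_lit 6) (nat_lit 144) (nat_lit 5) (nat_lit 147) (nat_lit 151) (nat_lit 152)) (PT.nd (nat_lit 78) (PT.lf (nat_lit 11172) (nat_lit 3) (nat_lit 147) (nat_lit 4) (nat_lit 148) (nat_lit 151) (nat_lit 151)) (PT.lf (nat_lit 11248) (nat_lit 6) (nat_lit 148) (nat_lit 4) (nat_lit 149) (nat_lit 151) (nat_lit 150))))) (PT.nd (nat_lit 234) (PT.nd (nat_lit 78)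 (PT.lf (nat_lit 11248) (nat_lit 6) (nat_lit 148) (nat_lit 2) (nat_lit 150) (nat_lit 151) (nat_lit 149)) (PT.nd (nat_lit 78) (PT.lf (nat_lit 11172) (nat_lit 3) (nat_lit 147) (nat_lit 0) (nat_lit 151) (nat_lit 151) (nat_lit 148)) (PT.lf (nat_lit 10944) (nat_lit 6) (nat_lit 144) (nat_lit 0) (nat_lit 152) (nat_lit 151) (nat_lit 147)))) (PT.nd (nat_lit 156) (PT.nd (nat_lit 78) (PT.lf (nat_lit 10640) (nat_lit 6) (nat_lit 140) (nat_lit 0) (nat_lit 153) (nat_lit 151) (nat_lit 146)) (PT.lf (nat_lit 10260) (nat_lit 6) (nat_lit 135) (nat_lit 0) (nat_lit 154) (nat_lit 151) (nat_lit 145))) (PT.nd (nat_lit 78) (PT.lf (nat_lit 9804) (nat_lit 6) (nat_lit 129) (nat_lit 0) (nat_lit 155) (nat_lit 151) (nat_lit 144)) (PT.lf (nat_lit 9272) (nat_lit 6) (nat_lit 122) (nat_lit 0) (nat_lit 156) (nat_lit 151) (nat_lit 143))))))))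
noncomputable def pc7 : PT := (PT.nd (nat_lit 47034) (PT.nd (nat_lit 46020) (PT.nd (nat_lit 45552) (PT.nd (nat_lit 234) (PT.nd (nat_lit 78) (PT.lf (nat_lit 8664) (nat_lit 6) (nat_lit 114) (nat_lit 0) (nat_lit 157) (nat_lit 151) (nat_lit 142)) (PT.nd (nat_lit 78) (PT.lf (nat_lit 7980) (nat_lit 6) (nat_lit 105) (nat_lit 0) (nat_lit 158) (nat_lit 151) (nat_lit 141)) (PT.lf (nat_lit 7220) (nat_lit 6) (nat_lit 95) (nat_lit 0) (nat_lit 159) (nat_lit 151) (nat_lit 140)))) (PT.nd (nat_lit 45162) (PT.lf (nat_lit 6460) (nat_lit 6) (nat_lit 85) (nat_lit 0) (nat_lit 160) (nat_lit 151) (nat_lit 139)) (PT.nd (nat_lit 78) (PT.lf (nat_lit 6080) (nat_lit 6) (nat_lit 80) (nat_lit 5) (nat_lit 138) (nat_lit 152) (nat_lit 160)) (PT.lf (nat_lit 6536) (nat_lit 6) (nat_lit 86) (nat_lit 5) (nat_lit 139) (nat_lit 152) (nat_lit 159))))) (PT.nd (nat_lit 234) (PT.nd (nat_lit 78) (PT.lf (nat_lit 7296) (nat_lit 6) (nat_lit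 96) (nat_lit 5) (nat_lit 140) (nat_lit 152) (nat_lit 158)) (PT.nd (nat_lit 78) (PT.lf (nat_lit 8056) (nat_lit 6) (nat_lit 106) (nat_lit 5) (nat_lit 141) (nat_lit 152) (nat_lit 157)) (PT.lf (nat_lit 8740) (nat_lit 6) (nat_lit 115) (nat_lit 5) (nat_lit 142) (nat_lit 152) (nat_lit 156)))) (PT.nd (nat_lit 78) (PT.lf (nat_lit 9348) (nat_lit 6) (nat_lit 123) (nat_lit 5) (nat_lit 143) (nat_lit 152) (nat_lit 155)) (PT.nd (nat_lit 78) (PT.lf (nat_lit 9880) (nat_lit 6) (nat_lit 130) (nat_lit 5) (nat_lit 144) (nat_lit 152) (nat_lit 154)) (PT.lf (nat_lit 10336) (nat_lit 6) (nat_lit 136) (nat_lit 5) (nat_lit 145) (nat_lit 152) (nat_lit 153)))))) (PT.nd (nat_lit 468) (PT.nd (nat_lit 234) (PT.nd (nat_lit 78) (PT.lf (nat_lit 10716) (nat_lit 3) (nat_lit 141) (nat_lit 4) (nat_lit 146) (nat_lit 152) (nat_lit 152)) (PT.nd (nat_lit 78) (PT.lf (nat_lit 10944) (nat_lit 6) (nat_lit 144) (nat_lit 4) (nat_lit 147) (nat_lit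 152) (nat_lit 151)) (PT.lf (nat_lit 11096) (nat_lit 6) (nat_lit 146) (nat_lit 4) (nat_lit 148) (nat_lit 152) (nat_lit 150)))) (PT.nd (nat_lit 78) (PT.lf (nat_lit 11020) (nat_lit 3) (nat_lit 145) (nat_lit 2) (nat_lit 149) (nat_lit 152) (nat_lit 149)) (PT.nd (nat_lit 78) (PT.lf (nat_lit 11096) (nat_lit 6) (nat_lit 146) (nat_lit 2) (nat_lit 150) (nat_lit 152) (nat_lit 148)) (PT.lf (nat_lit 10944) (nat_lit 6) (nat_lit 144) (nat_lit 2) (nat_lit 151) (nat_lit 152) (nat_lit 147))))) (PT.nd (nat_lit 234) (PT.nd (nat_lit 78) (PT.lf (nat_lit 10716) (nat_lit 3) (nat_lit 141) (nat_lit 0) (nat_lit 152) (nat_lit 152) (nat_lit 146)) (PT.nd (nat_lit 78) (PT.lf (nat_lit 10336) (nat_lit 6) (nat_lit 136) (nat_lit 0) (nat_lit 153) (nat_lit 152) (nat_lit 145)) (PT.lf (nat_lit 9880) (nat_lit 6) (nat_lit 130) (nat_lit 0) (nat_lit 154) (nat_lit 152) (nat_lit 144)))) (PT.nd (nat_lit 156) (PT.nd (nat_lit 78) (PT.lf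 (nat_lit 9348) (nat_lit 6) (nat_lit 123) (nat_lit 0) (nat_lit 155) (nat_lit 152) (nat_lit 143)) (PT.lf (nat_lit 8740) (nat_lit 6) (nat_lit 115) (nat_lit 0) (nat_lit 156) (nat_lit 152) (nat_lit 142))) (PT.nd (nat_lit 78) (PT.lf (nat_lit 8056) (nat_lit 6) (nat_lit 106) (nat_lit 0) (nat_lit 157) (nat_lit 152) (nat_lit 141)) (PT.lf (nat_lit 7296) (nat_lit 6) (nat_lit 96) (nat_lit 0) (nat_lit 158) (nat_lit 152) (nat_lit 140))))))) (PT.nd (nat_lit 45942) (PT.nd (nat_lit 45396) (PT.nd (nat_lit 45162) (PT.nd (nat_lit 78) (PT.lf (nat_lit 6536) (nat_lit 6) (nat_lit 86) (nat_lit 0) (nat_lit 159) (nat_lit 152) (nat_lit 139)) (PT.nd (nat_lit 45006) (PT.lf (nat_lit 6080) (nat_lit 6) (nat_lit 80) (nat_lit 0) (nat_lit 160) (nat_lit 152) (nat_lit 138)) (PT.lf (nat_lit 5396) (nat_lit 6) (nat_lit 71) (nat_lit 5) (nat_lit 136) (nat_lit 153) (nat_lit 161)))) (PT.nd (nat_lit 78) (PT.lf (nat_lit 5776) (nat_lit 6)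 (nat_lit 76) (nat_lit 5) (nat_lit 137) (nat_lit 153) (nat_lit 160)) (PT.nd (nat_lit 78) (PT.lf (nat_lit 6156) (nat_lit 6) (nat_lit 81) (nat_lit 5) (nat_lit 138) (nat_lit 153) (nat_lit 159)) (PT.lf (nat_lit 6612) (nat_lit 6) (nat_lit 87) (nat_lit 5) (nat_lit 139) (nat_lit 153) (nat_lit 158))))) (PT.nd (nat_lit 234) (PT.nd (nat_lit 78) (PT.lf (nat_lit 7372) (nat_lit 6) (nat_lit 97) (nat_lit 5) (nat_lit 140) (nat_lit 153) (nat_lit 157)) (PT.nd (nat_lit 78) (PT.lf (nat_lit 8132) (nat_lit 6) (nat_lit 107) (nat_lit 5) (nat_lit 141) (nat_lit 153) (nat_lit 156)) (PT.lf (nat_lit 8816) (nat_lit 6) (nat_lit 116) (nat_lit 5) (nat_lit 142) (nat_lit 153) (nat_lit 155)))) (PT.nd (nat_lit 156) (PT.nd (nat_lit 78) (PT.lf (nat_lit 9424) (nat_lit 6) (nat_lit 124) (nat_lit 5) (nat_lit 143) (nat_lit 153) (nat_lit 154)) (PT.lf (nat_lit 9956) (nat_lit 3) (nat_lit 131) (nat_lit 4) (nat_lit 144) (nat_lit 153) (nat_lit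 153))) (PT.nd (nat_lit 78) (PT.lf (nat_lit 10336) (nat_lit 6) (nat_lit 136) (nat_lit 4) (nat_lit 145) (nat_lit 153) (nat_lit 152)) (PT.lf (nat_lit 10640) (nat_lit 6) (nat_lit 140) (nat_lit 4) (nat_lit 146) (nat_lit 153) (nat_lit 151)))))) (PT.nd (nat_lit 468) (PT.nd (nat_lit 234) (PT.nd (nat_lit 78) (PT.lf (nat_lit 10868) (nat_lit 6) (nat_lit 143) (nat_lit 4) (nat_lit 147) (nat_lit 153) (nat_lit 150)) (PT.nd (nat_lit 78) (PT.lf (nat_lit 10792) (nat_lit 6) (nat_lit 142) (nat_lit 4) (nat_lit 148) (nat_lit 153) (nat_lit 149)) (PT.lf (nat_lit 10792) (nat_lit 6) (nat_lit 142) (nat_lit 2) (nat_lit 149) (nat_lit 153) (nat_lit 148)))) (PT.nd (nat_lit 78) (PT.lf (nat_lit 10868) (nat_lit 6) (nat_lit 143) (nat_lit 2) (nat_lit 150) (nat_lit 153) (nat_lit 147)) (PT.nd (nat_lit 78) (PT.lf (nat_lit 10640) (nat_lit 6) (nat_lit 140) (nat_lit 2) (nat_lit 151) (nat_lit 153) (nat_lit 146)) (PT.lf (nat_lit 10336)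 (nat_lit 6) (nat_lit 136) (nat_lit 2) (nat_lit 152) (nat_lit 153) (nat_lit 145))))) (PT.nd (nat_lit 234) (PT.nd (nat_lit 78) (PT.lf (nat_lit 9956) (nat_lit 3) (nat_lit 131) (nat_lit 0) (nat_lit 153) (nat_lit 153) (nat_lit 144)) (PT.nd (nat_lit 78) (PT.lf (nat_lit 9424) (nat_lit 6) (nat_lit 124) (nat_lit 0) (nat_lit 154) (nat_lit 153) (nat_lit 143)) (PT.lf (nat_lit 8816) (nat_lit 6) (nat_lit 116) (nat_lit 0) (nat_lit 155) (nat_lit 153) (nat_lit 142)))) (PT.nd (nat_lit 156) (PT.nd (nat_lit 78) (PT.lf (nat_lit 8132) (nat_lit 6) (nat_lit 107) (nat_lit 0) (nat_lit 156) (nat_lit 153) (nat_lit 141)) (PT.lf (nat_lit 7372) (nat_lit 6) (nat_lit 97) (nat_lit 0) (nat_lit 157) (nat_lit 153) (nat_lit 140))) (PT.nd (nat_lit 78) (PT.lf (nat_lit 6612) (nat_lit 6) (nat_lit 87) (nat_lit 0) (nat_lit 158) (nat_lit 153) (nat_lit 139)) (PT.lf (nat_lit 6156) (nat_lit 6) (nat_lit 81) (nat_lit 0) (nat_lit 159) (nat_lit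 153) (nat_lit 138))))))))
noncomputable def pc8 : PT := (PT.nd (nat_lit 46722) (PT.nd (nat_lit 45708) (PT.nd (nat_lit 45240) (PT.nd (nat_lit 45006) (PT.nd (nat_lit 78) (PT.lf (nat_lit 5776) (nat_lit 6) (nat_lit 76) (nat_lit 0) (nat_lit 160) (nat_lit 153) (nat_lit 137)) (PT.nd (nat_lit 44850) (PT.lf (nat_lit 5396) (nat_lit 6) (nat_lit 71) (nat_lit 0) (nat_lit 161) (nat_lit 153) (nat_lit 136)) (PT.lf (nat_lit 5092) (nat_lit 6) (nat_lit 67) (nat_lit 5) (nat_lit 135) (nat_lit 154) (nat_lit 161)))) (PT.nd (nat_lit 78) (PT.lf (nat_lit 5472) (nat_lit 6) (nat_lit 72) (nat_lit 5) (nat_lit 136) (nat_lit 154) (nat_lit 160)) (PT.nd (nat_lit 78) (PT.lf (nat_lit 5852) (nat_lit 6) (nat_lit 77) (nat_lit 5) (nat_lit 137) (nat_lit 154) (nat_lit 159)) (PT.lf (nat_lit 6232) (nat_lit 6) (nat_lit 82) (nat_lit 5) (nat_lit 138) (nat_lit 154) (nat_lit 158))))) (PT.nd (nat_lit 234) (PT.nd (nat_lit 78) (PT.lf (nat_lit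 6688) (nat_lit 6) (nat_lit 88) (nat_lit 5) (nat_lit 139) (nat_lit 154) (nat_lit 157)) (PT.nd (nat_lit 78) (PT.lf (nat_lit 7448) (nat_lit 6) (nat_lit 98) (nat_lit 5) (nat_lit 140) (nat_lit 154) (nat_lit 156)) (PT.lf (nat_lit 8208) (nat_lit 6) (nat_lit 108) (nat_lit 5) (nat_lit 141) (nat_lit 154) (nat_lit 155)))) (PT.nd (nat_lit 78) (PT.lf (nat_lit 8892) (nat_lit 3) (nat_lit 117) (nat_lit 4) (nat_lit 142) (nat_lit 154) (nat_lit 154)) (PT.nd (nat_lit 78) (PT.lf (nat_lit 9424) (nat_lit 6) (nat_lit 124) (nat_lit 4) (nat_lit 143) (nat_lit 154) (nat_lit 153)) (PT.lf (nat_lit 9880) (nat_lit 6) (nat_lit 130) (nat_lit 4) (nat_lit 144) (nat_lit 154) (nat_lit 152)))))) (PT.nd (nat_lit 468) (PT.nd (nat_lit 234) (PT.nd (nat_lit 78) (PT.lf (nat_lit 10260) (nat_lit 6) (nat_lit 135) (nat_lit 4) (nat_lit 145) (nat_lit 154) (nat_lit 151)) (PT.nd (nat_lit 78) (PT.lf (nat_lit 10564) (nat_lit 6) (nat_lit 139) (nat_lit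 4) (nat_lit 146) (nat_lit 154) (nat_lit 150)) (PT.lf (nat_lit 10488) (nat_lit 6) (nat_lit 138) (nat_lit 4) (nat_lit 147) (nat_lit 154) (nat_lit 149)))) (PT.nd (nat_lit 78) (PT.lf (nat_lit 10412) (nat_lit 3) (nat_lit 137) (nat_lit 2) (nat_lit 148) (nat_lit 154) (nat_lit 148)) (PT.nd (nat_lit 78) (PT.lf (nat_lit 10488) (nat_lit 6) (nat_lit 138) (nat_lit 2) (nat_lit 149) (nat_lit 154) (nat_lit 147)) (PT.lf (nat_lit 10564) (nat_lit 6) (nat_lit 139) (nat_lit 2) (nat_lit 150) (nat_lit 154) (nat_lit 146))))) (PT.nd (nat_lit 234) (PT.nd (nat_lit 78) (PT.lf (nat_lit 10260) (nat_lit 6) (nat_lit 135) (nat_lit 2) (nat_lit 151) (nat_lit 154) (nat_lit 145)) (PT.nd (nat_lit 78) (PT.lf (nat_lit 9880) (nat_lit 6) (nat_lit 130) (nat_lit 2) (nat_lit 152) (nat_lit 154) (nat_lit 144)) (PT.lf (nat_lit 9424) (nat_lit 6) (nat_lit 124) (nat_lit 2) (nat_lit 153) (nat_lit 154) (nat_lit 143)))) (PT.nd (nat_lit 156) (PT.nd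 (nat_lit 78) (PT.lf (nat_lit 8892) (nat_lit 3) (nat_lit 117) (nat_lit 0) (nat_lit 154) (nat_lit 154) (nat_lit 142)) (PT.lf (nat_lit 8208) (nat_lit 6) (nat_lit 108) (nat_lit 0) (nat_lit 155) (nat_lit 154) (nat_lit 141))) (PT.nd (nat_lit 78) (PT.lf (nat_lit 7448) (nat_lit 6) (nat_lit 98) (nat_lit 0) (nat_lit 156) (nat_lit 154) (nat_lit 140)) (PT.lf (nat_lit 6688) (nat_lit 6) (nat_lit 88) (nat_lit 0) (nat_lit 157) (nat_lit 154) (nat_lit 139))))))) (PT.nd (nat_lit 45630) (PT.nd (nat_lit 45162) (PT.nd (nat_lit 234) (PT.nd (nat_lit 78) (PT.lf (nat_lit 6232) (nat_lit 6) (nat_lit 82) (nat_lit 0) (nat_lit 158) (nat_lit 154) (nat_lit 138)) (PT.nd (nat_lit 78) (PT.lf (nat_lit 5852) (nat_lit 6) (nat_lit 77) (nat_lit 0) (nat_lit 159) (nat_lit 154) (nat_lit 137)) (PT.lf (nat_lit 5472) (nat_lit 6) (nat_lit 72) (nat_lit 0) (nat_lit 160) (nat_lit 154) (nat_lit 136)))) (PT.nd (nat_lit 44772) (PT.lf (nat_lit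 5092) (nat_lit 6) (nat_lit 67) (nat_lit 0) (nat_lit 161) (nat_lit 154) (nat_lit 135)) (PT.nd (nat_lit 78) (PT.lf (nat_lit 4788) (nat_lit 6) (nat_lit 63) (nat_lit 5) (nat_lit 134) (nat_lit 155) (nat_lit 161)) (PT.lf (nat_lit 5168) (nat_lit 6) (nat_lit 68) (nat_lit 5) (nat_lit 135) (nat_lit 155) (nat_lit 160))))) (PT.nd (nat_lit 234) (PT.nd (nat_lit 78) (PT.lf (nat_lit 5548) (nat_lit 6) (nat_lit 73) (nat_lit 5) (nat_lit 136) (nat_lit 155) (nat_lit 159)) (PT.nd (nat_lit 78) (PT.lf (nat_lit 5928) (nat_lit 6) (nat_lit 78) (nat_lit 5) (nat_lit 137) (nat_lit 155) (nat_lit 158)) (PT.lf (nat_lit 6308) (nat_lit 6) (nat_lit 83) (nat_lit 5) (nat_lit 138) (nat_lit 155) (nat_lit 157)))) (PT.nd (nat_lit 78) (PT.lf (nat_lit 6764) (nat_lit 6) (nat_lit 89) (nat_lit 5) (nat_lit 139) (nat_lit 155) (nat_lit 156)) (PT.nd (nat_lit 78) (PT.lf (nat_lit 7524) (nat_lit 3) (nat_lit 99) (nat_lit 4) (nat_lit 140) (nat_lit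 155) (nat_lit 155)) (PT.lf (nat_lit 8208) (nat_lit 6) (nat_lit 108) (nat_lit 4) (nat_lit 141) (nat_lit 155) (nat_lit 154)))))) (PT.nd (nat_lit 468) (PT.nd (nat_lit 234) (PT.nd (nat_lit 78) (PT.lf (nat_lit 8816) (nat_lit 6) (nat_lit 116) (nat_lit 4) (nat_lit 142) (nat_lit 155) (nat_lit 153)) (PT.nd (nat_lit 78) (PT.lf (nat_lit 9348) (nat_lit 6) (nat_lit 123) (nat_lit 4) (nat_lit 143) (nat_lit 155) (nat_lit 152)) (PT.lf (nat_lit 9804) (nat_lit 6) (nat_lit 129) (nat_lit 4) (nat_lit 144) (nat_lit 155) (nat_lit 151)))) (PT.nd (nat_lit 78) (PT.lf (nat_lit 10184) (nat_lit 6) (nat_lit 134) (nat_lit 4) (nat_lit 145) (nat_lit 155) (nat_lit 150)) (PT.nd (nat_lit 78) (PT.lf (nat_lit 10108) (nat_lit 6) (nat_lit 133) (nat_lit 4) (nat_lit 146) (nat_lit 155) (nat_lit 149)) (PT.lf (nat_lit 10032) (nat_lit 6) (nat_lit 132) (nat_lit 4) (nat_lit 147) (nat_lit 155) (nat_lit 148))))) (PT.nd (nat_lit 234) (PT.nd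 (nat_lit 78) (PT.lf (nat_lit 10032) (nat_lit 6) (nat_lit 132) (nat_lit 2) (nat_lit 148) (nat_lit 155) (nat_lit 147)) (PT.nd (nat_lit 78) (PT.lf (nat_lit 10108) (nat_lit 6) (nat_lit 133) (nat_lit 2) (nat_lit 149) (nat_lit 155) (nat_lit 146)) (PT.lf (nat_lit 10184) (nat_lit 6) (nat_lit 134) (nat_lit 2) (nat_lit 150) (nat_lit 155) (nat_lit 145)))) (PT.nd (nat_lit 156) (PT.nd (nat_lit 78) (PT.lf (nat_lit 9804) (nat_lit 6) (nat_lit 129) (nat_lit 2) (nat_lit 151) (nat_lit 155) (nat_lit 144)) (PT.lf (nat_lit 9348) (nat_lit 6) (nat_lit 123) (nat_lit 2) (nat_lit 152) (nat_lit 155) (nat_lit 143))) (PT.nd (nat_lit 78) (PT.lf (nat_lit 8816) (nat_lit 6) (nat_lit 116) (nat_lit 2) (nat_lit 153) (nat_lit 155) (nat_lit 142)) (PT.lf (nat_lit 8208) (nat_lit 6) (nat_lit 108) (nat_lit 2) (nat_lit 154) (nat_lit 155) (nat_lit 141))))))))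
noncomputable def pc9 : PT := (PT.nd (nat_lit 46488) (PT.nd (nat_lit 45474) (PT.nd (nat_lit 468) (PT.nd (nat_lit 234) (PT.nd (nat_lit 78) (PT.lf (nat_lit 7524) (nat_lit 3) (nat_lit 99) (nat_lit 0) (nat_lit 155) (nat_lit 155) (nat_lit 140)) (PT.nd (nat_lit 78) (PT.lf (nat_lit 6764) (nat_lit 6) (nat_lit 89) (nat_lit 0) (nat_lit 156) (nat_lit 155) (nat_lit 139)) (PT.lf (nat_lit 6308) (nat_lit 6) (nat_lit 83) (nat_lit 0) (nat_lit 157) (nat_lit 155) (nat_lit 138)))) (PT.nd (nat_lit 78) (PT.lf (nat_lit 5928) (nat_lit 6) (nat_lit 78) (nat_lit 0) (nat_lit 158) (nat_lit 155) (nat_lit 137)) (PT.nd (nat_lit 78) (PT.lf (nat_lit 5548) (nat_lit 6) (nat_lit 73) (nat_lit 0) (nat_lit 159) (nat_lit 155) (nat_lit 136)) (PT.lf (nat_lit 5168) (nat_lit 6) (nat_lit 68) (nat_lit 0) (nat_lit 160) (nat_lit 155) (nat_lit 135))))) (PT.nd (nat_lit 44772) (PT.nd (nat_lit 44616) (PT.lf (nat_lit 4788) (nat_lit 6) (nat_lit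 63) (nat_lit 0) (nat_lit 161) (nat_lit 155) (nat_lit 134)) (PT.nd (nat_lit 78) (PT.lf (nat_lit 4180) (nat_lit 6) (nat_lit 55) (nat_lit 5) (nat_lit 132) (nat_lit 156) (nat_lit 162)) (PT.lf (nat_lit 4560) (nat_lit 6) (nat_lit 60) (nat_lit 5) (nat_lit 133) (nat_lit 156) (nat_lit 161)))) (PT.nd (nat_lit 78) (PT.lf (nat_lit 4864) (nat_lit 6) (nat_lit 64) (nat_lit 5) (nat_lit 134) (nat_lit 156) (nat_lit 160)) (PT.nd (nat_lit 78) (PT.lf (nat_lit 5244) (nat_lit 6) (nat_lit 69) (nat_lit 5) (nat_lit 135) (nat_lit 156) (nat_lit 159)) (PT.lf (nat_lit 5624) (nat_lit 6) (nat_lit 74) (nat_lit 5) (nat_lit 136) (nat_lit 156) (nat_lit 158)))))) (PT.nd (nat_lit 468) (PT.nd (nat_lit 234) (PT.nd (nat_lit 78) (PT.lf (nat_lit 6004) (nat_lit 6) (nat_lit 79) (nat_lit 5) (nat_lit 137) (nat_lit 156) (nat_lit 157)) (PT.nd (nat_lit 78) (PT.lf (nat_lit 6384) (nat_lit 3) (nat_lit 84) (nat_lit 4) (nat_lit 138) (nat_lit 156)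 (nat_lit 156)) (PT.lf (nat_lit 6764) (nat_lit 6) (nat_lit 89) (nat_lit 4) (nat_lit 139) (nat_lit 156) (nat_lit 155)))) (PT.nd (nat_lit 78) (PT.lf (nat_lit 7448) (nat_lit 6) (nat_lit 98) (nat_lit 4) (nat_lit 140) (nat_lit 156) (nat_lit 154)) (PT.nd (nat_lit 78) (PT.lf (nat_lit 8132) (nat_lit 6) (nat_lit 107) (nat_lit 4) (nat_lit 141) (nat_lit 156) (nat_lit 153)) (PT.lf (nat_lit 8740) (nat_lit 6) (nat_lit 115) (nat_lit 4) (nat_lit 142) (nat_lit 156) (nat_lit 152))))) (PT.nd (nat_lit 234) (PT.nd (nat_lit 78) (PT.lf (nat_lit 9272) (nat_lit 6) (nat_lit 122) (nat_lit 4) (nat_lit 143) (nat_lit 156) (nat_lit 151)) (PT.nd (nat_lit 78) (PT.lf (nat_lit 9728) (nat_lit 6) (nat_lit 128) (nat_lit 4) (nat_lit 144) (nat_lit 156) (nat_lit 150)) (PT.lf (nat_lit 9652) (nat_lit 6) (nat_lit 127) (nat_lit 4) (nat_lit 145) (nat_lit 156) (nat_lit 149)))) (PT.nd (nat_lit 156) (PT.nd (nat_lit 78) (PT.lf (nat_lit 9576)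 (nat_lit 6) (nat_lit 126) (nat_lit 4) (nat_lit 146) (nat_lit 156) (nat_lit 148)) (PT.lf (nat_lit 9500) (nat_lit 3) (nat_lit 125) (nat_lit 2) (nat_lit 147) (nat_lit 156) (nat_lit 147))) (PT.nd (nat_lit 78) (PT.lf (nat_lit 9576) (nat_lit 6) (nat_lit 126) (nat_lit 2) (nat_lit 148) (nat_lit 156) (nat_lit 146)) (PT.lf (nat_lit 9652) (nat_lit 6) (nat_lit 127) (nat_lit 2) (nat_lit 149) (nat_lit 156) (nat_lit 145))))))) (PT.nd (nat_lit 936) (PT.nd (nat_lit 468) (PT.nd (nat_lit 234) (PT.nd (nat_lit 78) (PT.lf (nat_lit 9728) (nat_lit 6) (nat_lit 128) (nat_lit 2) (nat_lit 150) (nat_lit 156) (nat_lit 144)) (PT.nd (nat_lit 78) (PT.lf (nat_lit 9272) (nat_lit 6) (nat_lit 122) (nat_lit 2) (nat_lit 151) (nat_lit 156) (nat_lit 143)) (PT.lf (nat_lit 8740) (nat_lit 6) (nat_lit 115) (nat_lit 2) (nat_lit 152) (nat_lit 156) (nat_lit 142)))) (PT.nd (nat_lit 78) (PT.lf (nat_lit 8132) (nat_lit 6) (nat_lit 107) (nat_lit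 2) (nat_lit 153) (nat_lit 156) (nat_lit 141)) (PT.nd (nat_lit 78) (PT.lf (nat_lit 7448) (nat_lit 6) (nat_lit 98) (nat_lit 2) (nat_lit 154) (nat_lit 156) (nat_lit 140)) (PT.lf (nat_lit 6764) (nat_lit 6) (nat_lit 89) (nat_lit 2) (nat_lit 155) (nat_lit 156) (nat_lit 139))))) (PT.nd (nat_lit 234) (PT.nd (nat_lit 78) (PT.lf (nat_lit 6384) (nat_lit 3) (nat_lit 84) (nat_lit 0) (nat_lit 156) (nat_lit 156) (nat_lit 138)) (PT.nd (nat_lit 78) (PT.lf (nat_lit 6004) (nat_lit 6) (nat_lit 79) (nat_lit 0) (nat_lit 157) (nat_lit 156) (nat_lit 137)) (PT.lf (nat_lit 5624) (nat_lit 6) (nat_lit 74) (nat_lit 0) (nat_lit 158) (nat_lit 156) (nat_lit 136)))) (PT.nd (nat_lit 78) (PT.lf (nat_lit 5244) (nat_lit 6) (nat_lit 69) (nat_lit 0) (nat_lit 159) (nat_lit 156) (nat_lit 135)) (PT.nd (nat_lit 78) (PT.lf (nat_lit 4864) (nat_lit 6) (nat_lit 64) (nat_lit 0) (nat_lit 160) (nat_lit 156) (nat_lit 134)) (PT.lf (nat_lit 4560)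 (nat_lit 6) (nat_lit 60) (nat_lit 0) (nat_lit 161) (nat_lit 156) (nat_lit 133)))))) (PT.nd (nat_lit 44850) (PT.nd (nat_lit 44616) (PT.nd (nat_lit 44460) (PT.lf (nat_lit 4180) (nat_lit 6) (nat_lit 55) (nat_lit 0) (nat_lit 162) (nat_lit 156) (nat_lit 132)) (PT.nd (nat_lit 78) (PT.lf (nat_lit 3952) (nat_lit 6) (nat_lit 52) (nat_lit 5) (nat_lit 131) (nat_lit 157) (nat_lit 162)) (PT.lf (nat_lit 4256) (nat_lit 6) (nat_lit 56) (nat_lit 5) (nat_lit 132) (nat_lit 157) (nat_lit 161)))) (PT.nd (nat_lit 78) (PT.lf (nat_lit 4636) (nat_lit 6) (nat_lit 61) (nat_lit 5) (nat_lit 133) (nat_lit 157) (nat_lit 160)) (PT.nd (nat_lit 78) (PT.lf (nat_lit 4940) (nat_lit 6) (nat_lit 65) (nat_lit 5) (nat_lit 134) (nat_lit 157) (nat_lit 159)) (PT.lf (nat_lit 5320) (nat_lit 6) (nat_lit 70) (nat_lit 5) (nat_lit 135) (nat_lit 157) (nat_lit 158))))) (PT.nd (nat_lit 234) (PT.nd (nat_lit 78) (PT.lf (nat_lit 5700) (nat_lit 3)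 (nat_lit 75) (nat_lit 4) (nat_lit 136) (nat_lit 157) (nat_lit 157)) (PT.nd (nat_lit 78) (PT.lf (nat_lit 6004) (nat_lit 6) (nat_lit 79) (nat_lit 4) (nat_lit 137) (nat_lit 157) (nat_lit 156)) (PT.lf (nat_lit 6308) (nat_lit 6) (nat_lit 83) (nat_lit 4) (nat_lit 138) (nat_lit 157) (nat_lit 155)))) (PT.nd (nat_lit 156) (PT.nd (nat_lit 78) (PT.lf (nat_lit 6688) (nat_lit 6) (nat_lit 88) (nat_lit 4) (nat_lit 139) (nat_lit 157) (nat_lit 154)) (PT.lf (nat_lit 7372) (nat_lit 6) (nat_lit 97) (nat_lit 4) (nat_lit 140) (nat_lit 157) (nat_lit 153))) (PT.nd (nat_lit 78) (PT.lf (nat_lit 8056) (nat_lit 6) (nat_lit 106) (nat_lit 4) (nat_lit 141) (nat_lit 157) (nat_lit 152)) (PT.lf (nat_lit 8664) (nat_lit 6) (nat_lit 114) (nat_lit 4) (nat_lit 142) (nat_lit 157) (nat_lit 151))))))))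
noncomputable def pc10 : PT := (PT.nd (nat_lit 46176) (PT.nd (nat_lit 936) (PT.nd (nat_lit 468) (PT.nd (nat_lit 234) (PT.nd (nat_lit 78) (PT.lf (nat_lit 9196) (nat_lit 6) (nat_lit 121) (nat_lit 4) (nat_lit 143) (nat_lit 157) (nat_lit 150)) (PT.nd (nat_lit 78) (PT.lf (nat_lit 9120) (nat_lit 6) (nat_lit 120) (nat_lit 4) (nat_lit 144) (nat_lit 157) (nat_lit 149)) (PT.lf (nat_lit 9044) (nat_lit 6) (nat_lit 119) (nat_lit 4) (nat_lit 145) (nat_lit 157) (nat_lit 148)))) (PT.nd (nat_lit 78) (PT.lf (nat_lit 8968) (nat_lit 6) (nat_lit 118) (nat_lit 4) (nat_lit 146) (nat_lit 157) (nat_lit 147)) (PT.nd (nat_lit 78) (PT.lf (nat_lit 8968) (nat_lit 6) (nat_lit 118) (nat_lit 2) (nat_lit 147) (nat_lit 157) (nat_lit 146)) (PT.lf (nat_lit 9044) (nat_lit 6) (nat_lit 119) (nat_lit 2) (nat_lit 148) (nat_lit 157) (nat_lit 145))))) (PT.nd (nat_lit 234) (PT.nd (nat_lit 78) (PT.lf (nat_lit 9120) (nat_lit 6) (nat_lit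 120) (nat_lit 2) (nat_lit 149) (nat_lit 157) (nat_lit 144)) (PT.nd (nat_lit 78) (PT.lf (nat_lit 9196) (nat_lit 6) (nat_lit 121) (nat_lit 2) (nat_lit 150) (nat_lit 157) (nat_lit 143)) (PT.lf (nat_lit 8664) (nat_lit 6) (nat_lit 114) (nat_lit 2) (nat_lit 151) (nat_lit 157) (nat_lit 142)))) (PT.nd (nat_lit 78) (PT.lf (nat_lit 8056) (nat_lit 6) (nat_lit 106) (nat_lit 2) (nat_lit 152) (nat_lit 157) (nat_lit 141)) (PT.nd (nat_lit 78) (PT.lf (nat_lit 7372) (nat_lit 6) (nat_lit 97) (nat_lit 2) (nat_lit 153) (nat_lit 157) (nat_lit 140)) (PT.lf (nat_lit 6688) (nat_lit 6) (nat_lit 88) (nat_lit 2) (nat_lit 154) (nat_lit 157) (nat_lit 139)))))) (PT.nd (nat_lit 468) (PT.nd (nat_lit 234) (PT.nd (nat_lit 78) (PT.lf (nat_lit 6308) (nat_lit 6) (nat_lit 83) (nat_lit 2) (nat_lit 155) (nat_lit 157) (nat_lit 138)) (PT.nd (nat_lit 78) (PT.lf (nat_lit 6004) (nat_lit 6) (nat_lit 79) (nat_lit 2) (nat_lit 156) (nat_lit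 157) (nat_lit 137)) (PT.lf (nat_lit 5700) (nat_lit 3) (nat_lit 75) (nat_lit 0) (nat_lit 157) (nat_lit 157) (nat_lit 136)))) (PT.nd (nat_lit 78) (PT.lf (nat_lit 5320) (nat_lit 6) (nat_lit 70) (nat_lit 0) (nat_lit 158) (nat_lit 157) (nat_lit 135)) (PT.nd (nat_lit 78) (PT.lf (nat_lit 4940) (nat_lit 6) (nat_lit 65) (nat_lit 0) (nat_lit 159) (nat_lit 157) (nat_lit 134)) (PT.lf (nat_lit 4636) (nat_lit 6) (nat_lit 61) (nat_lit 0) (nat_lit 160) (nat_lit 157) (nat_lit 133))))) (PT.nd (nat_lit 44460) (PT.nd (nat_lit 78) (PT.lf (nat_lit 4256) (nat_lit 6) (nat_lit 56) (nat_lit 0) (nat_lit 161) (nat_lit 157) (nat_lit 132)) (PT.nd (nat_lit 44304) (PT.lf (nat_lit 3952) (nat_lit 6) (nat_lit 52) (nat_lit 0) (nat_lit 162) (nat_lit 157) (nat_lit 131)) (PT.lf (nat_lit 3496) (nat_lit 6) (nat_lit 46) (nat_lit 5) (nat_lit 129) (nat_lit 158) (nat_lit 163)))) (PT.nd (nat_lit 156) (PT.nd (nat_lit 78) (PT.lf (nat_lit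 3724) (nat_lit 6) (nat_lit 49) (nat_lit 5) (nat_lit 130) (nat_lit 158) (nat_lit 162)) (PT.lf (nat_lit 4028) (nat_lit 6) (nat_lit 53) (nat_lit 5) (nat_lit 131) (nat_lit 158) (nat_lit 161))) (PT.nd (nat_lit 78) (PT.lf (nat_lit 4332) (nat_lit 6) (nat_lit 57) (nat_lit 5) (nat_lit 132) (nat_lit 158) (nat_lit 160)) (PT.lf (nat_lit 4712) (nat_lit 6) (nat_lit 62) (nat_lit 5) (nat_lit 133) (nat_lit 158) (nat_lit 159))))))) (PT.nd (nat_lit 936) (PT.nd (nat_lit 468) (PT.nd (nat_lit 234) (PT.nd (nat_lit 78) (PT.lf (nat_lit 5016) (nat_lit 3) (nat_lit 66) (nat_lit 4) (nat_lit 134) (nat_lit 158) (nat_lit 158)) (PT.nd (nat_lit 78) (PT.lf (nat_lit 5320) (nat_lit 6) (nat_lit 70) (nat_lit 4) (nat_lit 135) (nat_lit 158) (nat_lit 157)) (PT.lf (nat_lit 5624) (nat_lit 6) (nat_lit 74) (nat_lit 4) (nat_lit 136) (nat_lit 158) (nat_lit 156)))) (PT.nd (nat_lit 78) (PT.lf (nat_lit 5928) (nat_lit 6) (nat_lit 78) (nat_lit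 4) (nat_lit 137) (nat_lit 158) (nat_lit 155)) (PT.nd (nat_lit 78) (PT.lf (nat_lit 6232) (nat_lit 6) (nat_lit 82) (nat_lit 4) (nat_lit 138) (nat_lit 158) (nat_lit 154)) (PT.lf (nat_lit 6612) (nat_lit 6) (nat_lit 87) (nat_lit 4) (nat_lit 139) (nat_lit 158) (nat_lit 153))))) (PT.nd (nat_lit 234) (PT.nd (nat_lit 78) (PT.lf (nat_lit 7296) (nat_lit 6) (nat_lit 96) (nat_lit 4) (nat_lit 140) (nat_lit 158) (nat_lit 152)) (PT.nd (nat_lit 78) (PT.lf (nat_lit 7980) (nat_lit 6) (nat_lit 105) (nat_lit 4) (nat_lit 141) (nat_lit 158) (nat_lit 151)) (PT.lf (nat_lit 8588) (nat_lit 6) (nat_lit 113) (nat_lit 4) (nat_lit 142) (nat_lit 158) (nat_lit 150)))) (PT.nd (nat_lit 78) (PT.lf (nat_lit 8512) (nat_lit 6) (nat_lit 112) (nat_lit 4) (nat_lit 143) (nat_lit 158) (nat_lit 149)) (PT.nd (nat_lit 78) (PT.lf (nat_lit 8436) (nat_lit 6) (nat_lit 111) (nat_lit 4) (nat_lit 144) (nat_lit 158) (nat_lit 148)) (PT.lf (nat_lit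 8360) (nat_lit 6) (nat_lit 110) (nat_lit 4) (nat_lit 145) (nat_lit 158) (nat_lit 147)))))) (PT.nd (nat_lit 468) (PT.nd (nat_lit 234) (PT.nd (nat_lit 78) (PT.lf (nat_lit 8284) (nat_lit 3) (nat_lit 109) (nat_lit 2) (nat_lit 146) (nat_lit 158) (nat_lit 146)) (PT.nd (nat_lit 78) (PT.lf (nat_lit 8360) (nat_lit 6) (nat_lit 110) (nat_lit 2) (nat_lit 147) (nat_lit 158) (nat_lit 145)) (PT.lf (nat_lit 8436) (nat_lit 6) (nat_lit 111) (nat_lit 2) (nat_lit 148) (nat_lit 158) (nat_lit 144)))) (PT.nd (nat_lit 78) (PT.lf (nat_lit 8512) (nat_lit 6) (nat_lit 112) (nat_lit 2) (nat_lit 149) (nat_lit 158) (nat_lit 143)) (PT.nd (nat_lit 78) (PT.lf (nat_lit 8588) (nat_lit 6) (nat_lit 113) (nat_lit 2) (nat_lit 150) (nat_lit 158) (nat_lit 142)) (PT.lf (nat_lit 7980) (nat_lit 6) (nat_lit 105) (nat_lit 2) (nat_lit 151) (nat_lit 158) (nat_lit 141))))) (PT.nd (nat_lit 234) (PT.nd (nat_lit 78) (PT.lf (nat_lit 7296) (nat_lit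 6) (nat_lit 96) (nat_lit 2) (nat_lit 152) (nat_lit 158) (nat_lit 140)) (PT.nd (nat_lit 78) (PT.lf (nat_lit 6612) (nat_lit 6) (nat_lit 87) (nat_lit 2) (nat_lit 153) (nat_lit 158) (nat_lit 139)) (PT.lf (nat_lit 6232) (nat_lit 6) (nat_lit 82) (nat_lit 2) (nat_lit 154) (nat_lit 158) (nat_lit 138)))) (PT.nd (nat_lit 156) (PT.nd (nat_lit 78) (PT.lf (nat_lit 5928) (nat_lit 6) (nat_lit 78) (nat_lit 2) (nat_lit 155) (nat_lit 158) (nat_lit 137)) (PT.lf (nat_lit 5624) (nat_lit 6) (nat_lit 74) (nat_lit 2) (nat_lit 156) (nat_lit 158) (nat_lit 136))) (PT.nd (nat_lit 78) (PT.lf (nat_lit 5320) (nat_lit 6) (nat_lit 70) (nat_lit 2) (nat_lit 157) (nat_lit 158) (nat_lit 135)) (PT.lf (nat_lit 5016) (nat_lit 3) (nat_lit 66) (nat_lit 0) (nat_lit 158) (nat_lit 158) (nat_lit 134))))))))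
noncomputable def pc11 : PT := (PT.nd (nat_lit 46020) (PT.nd (nat_lit 45006) (PT.nd (nat_lit 44538) (PT.nd (nat_lit 234) (PT.nd (nat_lit 78) (PT.lf (nat_lit 4712) (nat_lit 6) (nat_lit 62) (nat_lit 0) (nat_lit 159) (nat_lit 158) (nat_lit 133)) (PT.nd (nat_lit 78) (PT.lf (nat_lit 4332) (nat_lit 6) (nat_lit 57) (nat_lit 0) (nat_lit 160) (nat_lit 158) (nat_lit 132)) (PT.lf (nat_lit 4028) (nat_lit 6) (nat_lit 53) (nat_lit 0) (nat_lit 161) (nat_lit 158) (nat_lit 131)))) (PT.nd (nat_lit 78) (PT.lf (nat_lit 3724) (nat_lit 6) (nat_lit 49) (nat_lit 0) (nat_lit 162) (nat_lit 158) (nat_lit 130)) (PT.nd (nat_lit 44148) (PT.lf (nat_lit 3496) (nat_lit 6) (nat_lit 46) (nat_lit 0) (nat_lit 163) (nat_lit 158) (nat_lit 129)) (PT.lf (nat_lit 3268) (nat_lit 6) (nat_lit 43) (nat_lit 5) (nat_lit 128) (nat_lit 159) (nat_lit 163))))) (PT.nd (nat_lit 234) (PT.nd (nat_lit 78) (PT.lf (nat_lit 3572) (nat_lit 6) (nat_lit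 47) (nat_lit 5) (nat_lit 129) (nat_lit 159) (nat_lit 162)) (PT.nd (nat_lit 78) (PT.lf (nat_lit 3800) (nat_lit 6) (nat_lit 50) (nat_lit 5) (nat_lit 130) (nat_lit 159) (nat_lit 161)) (PT.lf (nat_lit 4104) (nat_lit 6) (nat_lit 54) (nat_lit 5) (nat_lit 131) (nat_lit 159) (nat_lit 160)))) (PT.nd (nat_lit 78) (PT.lf (nat_lit 4408) (nat_lit 3) (nat_lit 58) (nat_lit 4) (nat_lit 132) (nat_lit 159) (nat_lit 159)) (PT.nd (nat_lit 78) (PT.lf (nat_lit 4712) (nat_lit 6) (nat_lit 62) (nat_lit 4) (nat_lit 133) (nat_lit 159) (nat_lit 158)) (PT.lf (nat_lit 4940) (nat_lit 6) (nat_lit 65) (nat_lit 4) (nat_lit 134) (nat_lit 159) (nat_lit 157)))))) (PT.nd (nat_lit 468) (PT.nd (nat_lit 234) (PT.nd (nat_lit 78) (PT.lf (nat_lit 5244) (nat_lit 6) (nat_lit 69) (nat_lit 4) (nat_lit 135) (nat_lit 159) (nat_lit 156)) (PT.nd (nat_lit 78) (PT.lf (nat_lit 5548) (nat_lit 6) (nat_lit 73) (nat_lit 4) (nat_lit 136) (nat_lit 159)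 (nat_lit 155)) (PT.lf (nat_lit 5852) (nat_lit 6) (nat_lit 77) (nat_lit 4) (nat_lit 137) (nat_lit 159) (nat_lit 154)))) (PT.nd (nat_lit 78) (PT.lf (nat_lit 6156) (nat_lit 6) (nat_lit 81) (nat_lit 4) (nat_lit 138) (nat_lit 159) (nat_lit 153)) (PT.nd (nat_lit 78) (PT.lf (nat_lit 6536) (nat_lit 6) (nat_lit 86) (nat_lit 4) (nat_lit 139) (nat_lit 159) (nat_lit 152)) (PT.lf (nat_lit 7220) (nat_lit 6) (nat_lit 95) (nat_lit 4) (nat_lit 140) (nat_lit 159) (nat_lit 151))))) (PT.nd (nat_lit 234) (PT.nd (nat_lit 78) (PT.lf (nat_lit 7904) (nat_lit 6) (nat_lit 104) (nat_lit 4) (nat_lit 141) (nat_lit 159) (nat_lit 150)) (PT.nd (nat_lit 78) (PT.lf (nat_lit 7828) (nat_lit 6) (nat_lit 103) (nat_lit 4) (nat_lit 142) (nat_lit 159) (nat_lit 149)) (PT.lf (nat_lit 7752) (nat_lit 6) (nat_lit 102) (nat_lit 4) (nat_lit 143) (nat_lit 159) (nat_lit 148)))) (PT.nd (nat_lit 156) (PT.nd (nat_lit 78) (PT.lf (nat_lit 7676)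 (nat_lit 6) (nat_lit 101) (nat_lit 4) (nat_lit 144) (nat_lit 159) (nat_lit 147)) (PT.lf (nat_lit 7600) (nat_lit 6) (nat_lit 100) (nat_lit 4) (nat_lit 145) (nat_lit 159) (nat_lit 146))) (PT.nd (nat_lit 78) (PT.lf (nat_lit 7600) (nat_lit 6) (nat_lit 100) (nat_lit 2) (nat_lit 146) (nat_lit 159) (nat_lit 145)) (PT.lf (nat_lit 7676) (nat_lit 6) (nat_lit 101) (nat_lit 2) (nat_lit 147) (nat_lit 159) (nat_lit 144))))))) (PT.nd (nat_lit 936) (PT.nd (nat_lit 468) (PT.nd (nat_lit 234) (PT.nd (nat_lit 78) (PT.lf (nat_lit 7752) (nat_lit 6) (nat_lit 102) (nat_lit 2) (nat_lit 148) (nat_lit 159) (nat_lit 143)) (PT.nd (nat_lit 78) (PT.lf (nat_lit 7828) (nat_lit 6) (nat_lit 103) (nat_lit 2) (nat_lit 149) (nat_lit 159) (nat_lit 142)) (PT.lf (nat_lit 7904) (nat_lit 6) (nat_lit 104) (nat_lit 2) (nat_lit 150) (nat_lit 159) (nat_lit 141)))) (PT.nd (nat_lit 78) (PT.lf (nat_lit 7220) (nat_lit 6) (nat_lit 95) (nat_lit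 2) (nat_lit 151) (nat_lit 159) (nat_lit 140)) (PT.nd (nat_lit 78) (PT.lf (nat_lit 6536) (nat_lit 6) (nat_lit 86) (nat_lit 2) (nat_lit 152) (nat_lit 159) (nat_lit 139)) (PT.lf (nat_lit 6156) (nat_lit 6) (nat_lit 81) (nat_lit 2) (nat_lit 153) (nat_lit 159) (nat_lit 138))))) (PT.nd (nat_lit 234) (PT.nd (nat_lit 78) (PT.lf (nat_lit 5852) (nat_lit 6) (nat_lit 77) (nat_lit 2) (nat_lit 154) (nat_lit 159) (nat_lit 137)) (PT.nd (nat_lit 78) (PT.lf (nat_lit 5548) (nat_lit 6) (nat_lit 73) (nat_lit 2) (nat_lit 155) (nat_lit 159) (nat_lit 136)) (PT.lf (nat_lit 5244) (nat_lit 6) (nat_lit 69) (nat_lit 2) (nat_lit 156) (nat_lit 159) (nat_lit 135)))) (PT.nd (nat_lit 78) (PT.lf (nat_lit 4940) (nat_lit 6) (nat_lit 65) (nat_lit 2) (nat_lit 157) (nat_lit 159) (nat_lit 134)) (PT.nd (nat_lit 78) (PT.lf (nat_lit 4712) (nat_lit 6) (nat_lit 62) (nat_lit 2) (nat_lit 158) (nat_lit 159) (nat_lit 133)) (PT.lf (nat_lit 4408)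 (nat_lit 3) (nat_lit 58) (nat_lit 0) (nat_lit 159) (nat_lit 159) (nat_lit 132)))))) (PT.nd (nat_lit 44382) (PT.nd (nat_lit 234) (PT.nd (nat_lit 78) (PT.lf (nat_lit 4104) (nat_lit 6) (nat_lit 54) (nat_lit 0) (nat_lit 160) (nat_lit 159) (nat_lit 131)) (PT.nd (nat_lit 78) (PT.lf (nat_lit 3800) (nat_lit 6) (nat_lit 50) (nat_lit 0) (nat_lit 161) (nat_lit 159) (nat_lit 130)) (PT.lf (nat_lit 3572) (nat_lit 6) (nat_lit 47) (nat_lit 0) (nat_lit 162) (nat_lit 159) (nat_lit 129)))) (PT.nd (nat_lit 43992) (PT.lf (nat_lit 3268) (nat_lit 6) (nat_lit 43) (nat_lit 0) (nat_lit 163) (nat_lit 159) (nat_lit 128)) (PT.nd (nat_lit 78) (PT.lf (nat_lit 2888) (nat_lit 6) (nat_lit 38) (nat_lit 5) (nat_lit 126) (nat_lit 160) (nat_lit 164)) (PT.lf (nat_lit 3116) (nat_lit 6) (nat_lit 41) (nat_lit 5) (nat_lit 127) (nat_lit 160) (nat_lit 163))))) (PT.nd (nat_lit 234) (PT.nd (nat_lit 78) (PT.lf (nat_lit 3344) (nat_lit 6)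 (nat_lit 44) (nat_lit 5) (nat_lit 128) (nat_lit 160) (nat_lit 162)) (PT.nd (nat_lit 78) (PT.lf (nat_lit 3648) (nat_lit 6) (nat_lit 48) (nat_lit 5) (nat_lit 129) (nat_lit 160) (nat_lit 161)) (PT.lf (nat_lit 3876) (nat_lit 3) (nat_lit 51) (nat_lit 4) (nat_lit 130) (nat_lit 160) (nat_lit 160)))) (PT.nd (nat_lit 156) (PT.nd (nat_lit 78) (PT.lf (nat_lit 4104) (nat_lit 6) (nat_lit 54) (nat_lit 4) (nat_lit 131) (nat_lit 160) (nat_lit 159)) (PT.lf (nat_lit 4332) (nat_lit 6) (nat_lit 57) (nat_lit 4) (nat_lit 132) (nat_lit 160) (nat_lit 158))) (PT.nd (nat_lit 78) (PT.lf (nat_lit 4636) (nat_lit 6) (nat_lit 61) (nat_lit 4) (nat_lit 133) (nat_lit 160) (nat_lit 157)) (PT.lf (nat_lit 4864) (nat_lit 6) (nat_lit 64) (nat_lit 4) (nat_lit 134) (nat_lit 160) (nat_lit 156))))))))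
noncomputable def pc12 : PT := (PT.nd (nat_lit 2028) (PT.nd (nat_lit 1014) (PT.nd (nat_lit 468) (PT.nd (nat_lit 234) (PT.nd (nat_lit 78) (PT.lf (nat_lit 5168) (nat_lit 6) (nat_lit 68) (nat_lit 4) (nat_lit 135) (nat_lit 160) (nat_lit 155)) (PT.nd (nat_lit 78) (PT.lf (nat_lit 5472) (nat_lit 6) (nat_lit 72) (nat_lit 4) (nat_lit 136) (nat_lit 160) (nat_lit 154)) (PT.lf (nat_lit 5776) (nat_lit 6) (nat_lit 76) (nat_lit 4) (nat_lit 137) (nat_lit 160) (nat_lit 153)))) (PT.nd (nat_lit 78) (PT.lf (nat_lit 6080) (nat_lit 6) (nat_lit 80) (nat_lit 4) (nat_lit 138) (nat_lit 160) (nat_lit 152)) (PT.nd (nat_lit 78) (PT.lf (nat_lit 6460) (nat_lit 6) (nat_lit 85) (nat_lit 4) (nat_lit 139) (nat_lit 160) (nat_lit 151)) (PT.lf (nat_lit 7144) (nat_lit 6) (nat_lit 94) (nat_lit 4) (nat_lit 140) (nat_lit 160) (nat_lit 150))))) (PT.nd (nat_lit 234) (PT.nd (nat_lit 78) (PT.lf (nat_lit 7068) (nat_lit 6) (nat_lit 93) (nat_lit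 4) (nat_lit 141) (nat_lit 160) (nat_lit 149)) (PT.nd (nat_lit 78) (PT.lf (nat_lit 6992) (nat_lit 6) (nat_lit 92) (nat_lit 4) (nat_lit 142) (nat_lit 160) (nat_lit 148)) (PT.lf (nat_lit 6916) (nat_lit 6) (nat_lit 91) (nat_lit 4) (nat_lit 143) (nat_lit 160) (nat_lit 147)))) (PT.nd (nat_lit 156) (PT.lf (nat_lit 6840) (nat_lit 6) (nat_lit 90) (nat_lit 4) (nat_lit 144) (nat_lit 160) (nat_lit 146)) (PT.nd (nat_lit 78) (PT.lf (nat_lit 6840) (nat_lit 6) (nat_lit 90) (nat_lit 2) (nat_lit 146) (nat_lit 160) (nat_lit 144)) (PT.lf (nat_lit 6916) (nat_lit 6) (nat_lit 91) (nat_lit 2) (nat_lit 147) (nat_lit 160) (nat_lit 143)))))) (PT.nd (nat_lit 468) (PT.nd (nat_lit 234) (PT.nd (nat_lit 78) (PT.lf (nat_lit 6992) (nat_lit 6) (nat_lit 92) (nat_lit 2) (nat_lit 148) (nat_lit 160) (nat_lit 142)) (PT.nd (nat_lit 78) (PT.lf (nat_lit 7068) (nat_lit 6) (nat_lit 93) (nat_lit 2) (nat_lit 149) (nat_lit 160) (nat_lit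 141)) (PT.lf (nat_lit 7144) (nat_lit 6) (nat_lit 94) (nat_lit 2) (nat_lit 150) (nat_lit 160) (nat_lit 140)))) (PT.nd (nat_lit 78) (PT.lf (nat_lit 6460) (nat_lit 6) (nat_lit 85) (nat_lit 2) (nat_lit 151) (nat_lit 160) (nat_lit 139)) (PT.nd (nat_lit 78) (PT.lf (nat_lit 6080) (nat_lit 6) (nat_lit 80) (nat_lit 2) (nat_lit 152) (nat_lit 160) (nat_lit 138)) (PT.lf (nat_lit 5776) (nat_lit 6) (nat_lit 76) (nat_lit 2) (nat_lit 153) (nat_lit 160) (nat_lit 137))))) (PT.nd (nat_lit 234) (PT.nd (nat_lit 78) (PT.lf (nat_lit 5472) (nat_lit 6) (nat_lit 72) (nat_lit 2) (nat_lit 154) (nat_lit 160) (nat_lit 136)) (PT.nd (nat_lit 78) (PT.lf (nat_lit 5168) (nat_lit 6) (nat_lit 68) (nat_lit 2) (nat_lit 155) (nat_lit 160) (nat_lit 135)) (PT.lf (nat_lit 4864) (nat_lit 6) (nat_lit 64) (nat_lit 2) (nat_lit 156) (nat_lit 160) (nat_lit 134)))) (PT.nd (nat_lit 156) (PT.nd (nat_lit 78) (PT.lf (nat_lit 4636) (nat_lit 6)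 (nat_lit 61) (nat_lit 2) (nat_lit 157) (nat_lit 160) (nat_lit 133)) (PT.lf (nat_lit 4332) (nat_lit 6) (nat_lit 57) (nat_lit 2) (nat_lit 158) (nat_lit 160) (nat_lit 132))) (PT.nd (nat_lit 78) (PT.lf (nat_lit 4104) (nat_lit 6) (nat_lit 54) (nat_lit 2) (nat_lit 159) (nat_lit 160) (nat_lit 131)) (PT.lf (nat_lit 3876) (nat_lit 3) (nat_lit 51) (nat_lit 0) (nat_lit 160) (nat_lit 160) (nat_lit 130))))))) (PT.nd (nat_lit 44616) (PT.nd (nat_lit 44148) (PT.nd (nat_lit 234) (PT.nd (nat_lit 78) (PT.lf (nat_lit 3648) (nat_lit 6) (nat_lit 48) (nat_lit 0) (nat_lit 161) (nat_lit 160) (nat_lit 129)) (PT.nd (nat_lit 78) (PT.lf (nat_lit 3344) (nat_lit 6) (nat_lit 44) (nat_lit 0) (nat_lit 162) (nat_lit 160) (nat_lit 128)) (PT.lf (nat_lit 3116) (nat_lit 6) (nat_lit 41) (nat_lit 0) (nat_lit 163) (nat_lit 160) (nat_lit 127)))) (PT.nd (nat_lit 43758) (PT.lf (nat_lit 2888) (nat_lit 6) (nat_lit 38) (nat_lit 0) (nat_lit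 164) (nat_lit 160) (nat_lit 126)) (PT.nd (nat_lit 78) (PT.lf (nat_lit 2508) (nat_lit 6) (nat_lit 33) (nat_lit 5) (nat_lit 124) (nat_lit 161) (nat_lit 165)) (PT.lf (nat_lit 2736) (nat_lit 6) (nat_lit 36) (nat_lit 5) (nat_lit 125) (nat_lit 161) (nat_lit 164))))) (PT.nd (nat_lit 234) (PT.nd (nat_lit 78) (PT.lf (nat_lit 2964) (nat_lit 6) (nat_lit 39) (nat_lit 5) (nat_lit 126) (nat_lit 161) (nat_lit 163)) (PT.nd (nat_lit 78) (PT.lf (nat_lit 3192) (nat_lit 6) (nat_lit 42) (nat_lit 5) (nat_lit 127) (nat_lit 161) (nat_lit 162)) (PT.lf (nat_lit 3420) (nat_lit 3) (nat_lit 45) (nat_lit 4) (nat_lit 128) (nat_lit 161) (nat_lit 161)))) (PT.nd (nat_lit 78) (PT.lf (nat_lit 3648) (nat_lit 6) (nat_lit 48) (nat_lit 4) (nat_lit 129) (nat_lit 161) (nat_lit 160)) (PT.nd (nat_lit 78) (PT.lf (nat_lit 3800) (nat_lit 6) (nat_lit 50) (nat_lit 4) (nat_lit 130) (nat_lit 161) (nat_lit 159)) (PT.lf (nat_lit 4028) (nat_lit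 6) (nat_lit 53) (nat_lit 4) (nat_lit 131) (nat_lit 161) (nat_lit 158)))))) (PT.nd (nat_lit 1716) (PT.nd (nat_lit 234) (PT.nd (nat_lit 78) (PT.lf (nat_lit 4256) (nat_lit 6) (nat_lit 56) (nat_lit 4) (nat_lit 132) (nat_lit 161) (nat_lit 157)) (PT.nd (nat_lit 78) (PT.lf (nat_lit 4560) (nat_lit 6) (nat_lit 60) (nat_lit 4) (nat_lit 133) (nat_lit 161) (nat_lit 156)) (PT.lf (nat_lit 4788) (nat_lit 6) (nat_lit 63) (nat_lit 4) (nat_lit 134) (nat_lit 161) (nat_lit 155)))) (PT.nd (nat_lit 78) (PT.lf (nat_lit 5092) (nat_lit 6) (nat_lit 67) (nat_lit 4) (nat_lit 135) (nat_lit 161) (nat_lit 154)) (PT.nd (nat_lit 1326) (PT.lf (nat_lit 5396) (nat_lit 6) (nat_lit 71) (nat_lit 4) (nat_lit 136) (nat_lit 161) (nat_lit 153)) (PT.lf (nat_lit 5396) (nat_lit 6) (nat_lit 71) (nat_lit 2) (nat_lit 153) (nat_lit 161) (nat_lit 136))))) (PT.nd (nat_lit 234) (PT.nd (nat_lit 78) (PT.lf (nat_lit 5092) (nat_lit 6) (nat_lit 67)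 (nat_lit 2) (nat_lit 154) (nat_lit 161) (nat_lit 135)) (PT.nd (nat_lit 78) (PT.lf (nat_lit 4788) (nat_lit 6) (nat_lit 63) (nat_lit 2) (nat_lit 155) (nat_lit 161) (nat_lit 134)) (PT.lf (nat_lit 4560) (nat_lit 6) (nat_lit 60) (nat_lit 2) (nat_lit 156) (nat_lit 161) (nat_lit 133)))) (PT.nd (nat_lit 156) (PT.nd (nat_lit 78) (PT.lf (nat_lit 4256) (nat_lit 6) (nat_lit 56) (nat_lit 2) (nat_lit 157) (nat_lit 161) (nat_lit 132)) (PT.lf (nat_lit 4028) (nat_lit 6) (nat_lit 53) (nat_lit 2) (nat_lit 158) (nat_lit 161) (nat_lit 131))) (PT.nd (nat_lit 78) (PT.lf (nat_lit 3800) (nat_lit 6) (nat_lit 50) (nat_lit 2) (nat_lit 159) (nat_lit 161) (nat_lit 130)) (PT.lf (nat_lit 3648) (nat_lit 6) (nat_lit 48) (nat_lit 2) (nat_lit 160) (nat_lit 161) (nat_lit 129))))))))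
noncomputable def pc13 : PT := (PT.nd (nat_lit 90636) (PT.nd (nat_lit 44460) (PT.nd (nat_lit 43992) (PT.nd (nat_lit 234) (PT.nd (nat_lit 78) (PT.lf (nat_lit 3420) (nat_lit 3) (nat_lit 45) (nat_lit 0) (nat_lit 161) (nat_lit 161) (nat_lit 128)) (PT.nd (nat_lit 78) (PT.lf (nat_lit 3192) (nat_lit 6) (nat_lit 42) (nat_lit 0) (nat_lit 162) (nat_lit 161) (nat_lit 127)) (PT.lf (nat_lit 2964) (nat_lit 6) (nat_lit 39) (nat_lit 0) (nat_lit 163) (nat_lit 161) (nat_lit 126)))) (PT.nd (nat_lit 78) (PT.lf (nat_lit 2736) (nat_lit 6) (nat_lit 36) (nat_lit 0) (nat_lit 164) (nat_lit 161) (nat_lit 125)) (PT.nd (nat_lit 43602) (PT.lf (nat_lit 2508) (nat_lit 6) (nat_lit 33) (nat_lit 0) (nat_lit 165) (nat_lit 161) (nat_lit 124)) (PT.lf (nat_lit 2356) (nat_lit 6) (nat_lit 31) (nat_lit 5) (nat_lit 123) (nat_lit 162) (nat_lit 165))))) (PT.nd (nat_lit 234) (PT.nd (nat_lit 78) (PT.lf (nat_lit 2584) (nat_lit 6) (nat_lit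 34) (nat_lit 5) (nat_lit 124) (nat_lit 162) (nat_lit 164)) (PT.nd (nat_lit 78) (PT.lf (nat_lit 2812) (nat_lit 6) (nat_lit 37) (nat_lit 5) (nat_lit 125) (nat_lit 162) (nat_lit 163)) (PT.lf (nat_lit 3040) (nat_lit 3) (nat_lit 40) (nat_lit 4) (nat_lit 126) (nat_lit 162) (nat_lit 162)))) (PT.nd (nat_lit 78) (PT.lf (nat_lit 3192) (nat_lit 6) (nat_lit 42) (nat_lit 4) (nat_lit 127) (nat_lit 162) (nat_lit 161)) (PT.nd (nat_lit 78) (PT.lf (nat_lit 3344) (nat_lit 6) (nat_lit 44) (nat_lit 4) (nat_lit 128) (nat_lit 162) (nat_lit 160)) (PT.lf (nat_lit 3572) (nat_lit 6) (nat_lit 47) (nat_lit 4) (nat_lit 129) (nat_lit 162) (nat_lit 159)))))) (PT.nd (nat_lit 2262) (PT.nd (nat_lit 2028) (PT.nd (nat_lit 78) (PT.lf (nat_lit 3724) (nat_lit 6) (nat_lit 49) (nat_lit 4) (nat_lit 130) (nat_lit 162) (nat_lit 158)) (PT.nd (nat_lit 78) (PT.lf (nat_lit 3952) (nat_lit 6) (nat_lit 52) (nat_lit 4) (nat_lit 131) (nat_lit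 162) (nat_lit 157)) (PT.lf (nat_lit 4180) (nat_lit 6) (nat_lit 55) (nat_lit 4) (nat_lit 132) (nat_lit 162) (nat_lit 156)))) (PT.nd (nat_lit 78) (PT.lf (nat_lit 4180) (nat_lit 6) (nat_lit 55) (nat_lit 2) (nat_lit 156) (nat_lit 162) (nat_lit 132)) (PT.nd (nat_lit 78) (PT.lf (nat_lit 3952) (nat_lit 6) (nat_lit 52) (nat_lit 2) (nat_lit 157) (nat_lit 162) (nat_lit 131)) (PT.lf (nat_lit 3724) (nat_lit 6) (nat_lit 49) (nat_lit 2) (nat_lit 158) (nat_lit 162) (nat_lit 130))))) (PT.nd (nat_lit 234) (PT.nd (nat_lit 78) (PT.lf (nat_lit 3572) (nat_lit 6) (nat_lit 47) (nat_lit 2) (nat_lit 159) (nat_lit 162) (nat_lit 129)) (PT.nd (nat_lit 78) (PT.lf (nat_lit 3344) (nat_lit 6) (nat_lit 44) (nat_lit 2) (nat_lit 160) (nat_lit 162) (nat_lit 128)) (PT.lf (nat_lit 3192) (nat_lit 6) (nat_lit 42) (nat_lit 2) (nat_lit 161) (nat_lit 162) (nat_lit 127)))) (PT.nd (nat_lit 156) (PT.nd (nat_lit 78) (PT.lf (nat_lit 3040)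 (nat_lit 3) (nat_lit 40) (nat_lit 0) (nat_lit 162) (nat_lit 162) (nat_lit 126)) (PT.lf (nat_lit 2812) (nat_lit 6) (nat_lit 37) (nat_lit 0) (nat_lit 163) (nat_lit 162) (nat_lit 125))) (PT.nd (nat_lit 78) (PT.lf (nat_lit 2584) (nat_lit 6) (nat_lit 34) (nat_lit 0) (nat_lit 164) (nat_lit 162) (nat_lit 124)) (PT.lf (nat_lit 2356) (nat_lit 6) (nat_lit 31) (nat_lit 0) (nat_lit 165) (nat_lit 162) (nat_lit 123))))))) (PT.nd (nat_lit 3120) (PT.nd (nat_lit 468) (PT.nd (nat_lit 234) (PT.nd (nat_lit 78) (PT.lf (nat_lit 2052) (nat_lit 6) (nat_lit 27) (nat_lit 5) (nat_lit 121) (nat_lit 163) (nat_lit 166)) (PT.nd (nat_lit 78) (PT.lf (nat_lit 2204) (nat_lit 6) (nat_lit 29) (nat_lit 5) (nat_lit 122) (nat_lit 163) (nat_lit 165)) (PT.lf (nat_lit 2432) (nat_lit 6) (nat_lit 32) (nat_lit 5) (nat_lit 123) (nat_lit 163) (nat_lit 164)))) (PT.nd (nat_lit 78) (PT.lf (nat_lit 2660) (nat_lit 3) (nat_lit 35) (nat_lit 4)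 (nat_lit 124) (nat_lit 163) (nat_lit 163)) (PT.nd (nat_lit 78) (PT.lf (nat_lit 2812) (nat_lit 6) (nat_lit 37) (nat_lit 4) (nat_lit 125) (nat_lit 163) (nat_lit 162)) (PT.lf (nat_lit 2964) (nat_lit 6) (nat_lit 39) (nat_lit 4) (nat_lit 126) (nat_lit 163) (nat_lit 161))))) (PT.nd (nat_lit 2418) (PT.nd (nat_lit 78) (PT.lf (nat_lit 3116) (nat_lit 6) (nat_lit 41) (nat_lit 4) (nat_lit 127) (nat_lit 163) (nat_lit 160)) (PT.nd (nat_lit 78) (PT.lf (nat_lit 3268) (nat_lit 6) (nat_lit 43) (nat_lit 4) (nat_lit 128) (nat_lit 163) (nat_lit 159)) (PT.lf (nat_lit 3496) (nat_lit 6) (nat_lit 46) (nat_lit 4) (nat_lit 129) (nat_lit 163) (nat_lit 158)))) (PT.nd (nat_lit 78) (PT.lf (nat_lit 3496) (nat_lit 6) (nat_lit 46) (nat_lit 2) (nat_lit 158) (nat_lit 163) (nat_lit 129)) (PT.nd (nat_lit 78) (PT.lf (nat_lit 3268) (nat_lit 6) (nat_lit 43) (nat_lit 2) (nat_lit 159) (nat_lit 163) (nat_lit 128)) (PT.lf (nat_lit 3116)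 (nat_lit 6) (nat_lit 41) (nat_lit 2) (nat_lit 160) (nat_lit 163) (nat_lit 127)))))) (PT.nd (nat_lit 43602) (PT.nd (nat_lit 234) (PT.nd (nat_lit 78) (PT.lf (nat_lit 2964) (nat_lit 6) (nat_lit 39) (nat_lit 2) (nat_lit 161) (nat_lit 163) (nat_lit 126)) (PT.nd (nat_lit 78) (PT.lf (nat_lit 2812) (nat_lit 6) (nat_lit 37) (nat_lit 2) (nat_lit 162) (nat_lit 163) (nat_lit 125)) (PT.lf (nat_lit 2660) (nat_lit 3) (nat_lit 35) (nat_lit 0) (nat_lit 163) (nat_lit 163) (nat_lit 124)))) (PT.nd (nat_lit 78) (PT.lf (nat_lit 2432) (nat_lit 6) (nat_lit 32) (nat_lit 0) (nat_lit 164) (nat_lit 163) (nat_lit 123)) (PT.nd (nat_lit 78) (PT.lf (nat_lit 2204) (nat_lit 6) (nat_lit 29) (nat_lit 0) (nat_lit 165) (nat_lit 163) (nat_lit 122)) (PT.lf (nat_lit 2052) (nat_lit 6) (nat_lit 27) (nat_lit 0) (nat_lit 166) (nat_lit 163) (nat_lit 121))))) (PT.nd (nat_lit 234) (PT.nd (nat_lit 78) (PT.lf (nat_lit 1748) (nat_lit 6) (nat_lit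 23) (nat_lit 5) (nat_lit 119) (nat_lit 164) (nat_lit 167)) (PT.nd (nat_lit 78) (PT.lf (nat_lit 1900) (nat_lit 6) (nat_lit 25) (nat_lit 5) (nat_lit 120) (nat_lit 164) (nat_lit 166)) (PT.lf (nat_lit 2128) (nat_lit 6) (nat_lit 28) (nat_lit 5) (nat_lit 121) (nat_lit 164) (nat_lit 165)))) (PT.nd (nat_lit 156) (PT.nd (nat_lit 78) (PT.lf (nat_lit 2280) (nat_lit 3) (nat_lit 30) (nat_lit 4) (nat_lit 122) (nat_lit 164) (nat_lit 164)) (PT.lf (nat_lit 2432) (nat_lit 6) (nat_lit 32) (nat_lit 4) (nat_lit 123) (nat_lit 164) (nat_lit 163))) (PT.nd (nat_lit 78) (PT.lf (nat_lit 2584) (nat_lit 6) (nat_lit 34) (nat_lit 4) (nat_lit 124) (nat_lit 164) (nat_lit 162)) (PT.lf (nat_lit 2736) (nat_lit 6) (nat_lit 36) (nat_lit 4) (nat_lit 125) (nat_lit 164) (nat_lit 161))))))))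
noncomputable def pc14 : PT := (PT.nd (nat_lit 93132) (PT.nd (nat_lit 46488) (PT.nd (nat_lit 3042) (PT.nd (nat_lit 2808) (PT.nd (nat_lit 2652) (PT.lf (nat_lit 2888) (nat_lit 6) (nat_lit 38) (nat_lit 4) (nat_lit 126) (nat_lit 164) (nat_lit 160)) (PT.nd (nat_lit 78) (PT.lf (nat_lit 2888) (nat_lit 6) (nat_lit 38) (nat_lit 2) (nat_lit 160) (nat_lit 164) (nat_lit 126)) (PT.lf (nat_lit 2736) (nat_lit 6) (nat_lit 36) (nat_lit 2) (nat_lit 161) (nat_lit 164) (nat_lit 125)))) (PT.nd (nat_lit 78) (PT.lf (nat_lit 2584) (nat_lit 6) (nat_lit 34) (nat_lit 2) (nat_lit 162) (nat_lit 164) (nat_lit 124)) (PT.nd (nat_lit 78) (PT.lf (nat_lit 2432) (nat_lit 6) (nat_lit 32) (nat_lit 2) (nat_lit 163) (nat_lit 164) (nat_lit 123)) (PT.lf (nat_lit 2280) (nat_lit 3) (nat_lit 30) (nat_lit 0) (nat_lit 164) (nat_lit 164) (nat_lit 122))))) (PT.nd (nat_lit 43212) (PT.nd (nat_lit 78) (PT.lf (nat_lit 2128) (nat_lit 6) (nat_lit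 28) (nat_lit 0) (nat_lit 165) (nat_lit 164) (nat_lit 121)) (PT.nd (nat_lit 78) (PT.lf (nat_lit 1900) (nat_lit 6) (nat_lit 25) (nat_lit 0) (nat_lit 166) (nat_lit 164) (nat_lit 120)) (PT.lf (nat_lit 1748) (nat_lit 6) (nat_lit 23) (nat_lit 0) (nat_lit 167) (nat_lit 164) (nat_lit 119)))) (PT.nd (nat_lit 78) (PT.lf (nat_lit 1596) (nat_lit 6) (nat_lit 21) (nat_lit 5) (nat_lit 118) (nat_lit 165) (nat_lit 167)) (PT.nd (nat_lit 78) (PT.lf (nat_lit 1824) (nat_lit 6) (nat_lit 24) (nat_lit 5) (nat_lit 119) (nat_lit 165) (nat_lit 166)) (PT.lf (nat_lit 1976) (nat_lit 3) (nat_lit 26) (nat_lit 4) (nat_lit 120) (nat_lit 165) (nat_lit 165)))))) (PT.nd (nat_lit 3276) (PT.nd (nat_lit 234) (PT.nd (nat_lit 78) (PT.lf (nat_lit 2128) (nat_lit 6) (nat_lit 28) (nat_lit 4) (nat_lit 121) (nat_lit 165) (nat_lit 164)) (PT.nd (nat_lit 78) (PT.lf (nat_lit 2204) (nat_lit 6) (nat_lit 29) (nat_lit 4) (nat_lit 122) (nat_lit 165)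 (nat_lit 163)) (PT.lf (nat_lit 2356) (nat_lit 6) (nat_lit 31) (nat_lit 4) (nat_lit 123) (nat_lit 165) (nat_lit 162)))) (PT.nd (nat_lit 2886) (PT.lf (nat_lit 2508) (nat_lit 6) (nat_lit 33) (nat_lit 4) (nat_lit 124) (nat_lit 165) (nat_lit 161)) (PT.nd (nat_lit 78) (PT.lf (nat_lit 2508) (nat_lit 6) (nat_lit 33) (nat_lit 2) (nat_lit 161) (nat_lit 165) (nat_lit 124)) (PT.lf (nat_lit 2356) (nat_lit 6) (nat_lit 31) (nat_lit 2) (nat_lit 162) (nat_lit 165) (nat_lit 123))))) (PT.nd (nat_lit 234) (PT.nd (nat_lit 78) (PT.lf (nat_lit 2204) (nat_lit 6) (nat_lit 29) (nat_lit 2) (nat_lit 163) (nat_lit 165) (nat_lit 122)) (PT.nd (nat_lit 78) (PT.lf (nat_lit 2128) (nat_lit 6) (nat_lit 28) (nat_lit 2) (nat_lit 164) (nat_lit 165) (nat_lit 121)) (PT.lf (nat_lit 1976) (nat_lit 3) (nat_lit 26) (nat_lit 0) (nat_lit 165) (nat_lit 165) (nat_lit 120)))) (PT.nd (nat_lit 42978) (PT.nd (nat_lit 78) (PT.lf (nat_lit 1824)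 (nat_lit 6) (nat_lit 24) (nat_lit 0) (nat_lit 166) (nat_lit 165) (nat_lit 119)) (PT.lf (nat_lit 1596) (nat_lit 6) (nat_lit 21) (nat_lit 0) (nat_lit 167) (nat_lit 165) (nat_lit 118))) (PT.nd (nat_lit 78) (PT.lf (nat_lit 1368) (nat_lit 6) (nat_lit 18) (nat_lit 5) (nat_lit 116) (nat_lit 166) (nat_lit 168)) (PT.lf (nat_lit 1520) (nat_lit 6) (nat_lit 20) (nat_lit 5) (nat_lit 117) (nat_lit 166) (nat_lit 167))))))) (PT.nd (nat_lit 46722) (PT.nd (nat_lit 3666) (PT.nd (nat_lit 234) (PT.nd (nat_lit 78) (PT.lf (nat_lit 1672) (nat_lit 3) (nat_lit 22) (nat_lit 4) (nat_lit 118) (nat_lit 166) (nat_lit 166)) (PT.nd (nat_lit 78) (PT.lf (nat_lit 1824) (nat_lit 6) (nat_lit 24) (nat_lit 4) (nat_lit 119) (nat_lit 166) (nat_lit 165)) (PT.lf (nat_lit 1900) (nat_lit 6) (nat_lit 25) (nat_lit 4) (nat_lit 120) (nat_lit 166) (nat_lit 164)))) (PT.nd (nat_lit 3276) (PT.lf (nat_lit 2052) (nat_lit 6) (nat_lit 27) (nat_lit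 4) (nat_lit 121) (nat_lit 166) (nat_lit 163)) (PT.nd (nat_lit 78) (PT.lf (nat_lit 2052) (nat_lit 6) (nat_lit 27) (nat_lit 2) (nat_lit 163) (nat_lit 166) (nat_lit 121)) (PT.lf (nat_lit 1900) (nat_lit 6) (nat_lit 25) (nat_lit 2) (nat_lit 164) (nat_lit 166) (nat_lit 120))))) (PT.nd (nat_lit 234) (PT.nd (nat_lit 78) (PT.lf (nat_lit 1824) (nat_lit 6) (nat_lit 24) (nat_lit 2) (nat_lit 165) (nat_lit 166) (nat_lit 119)) (PT.nd (nat_lit 78) (PT.lf (nat_lit 1672) (nat_lit 3) (nat_lit 22) (nat_lit 0) (nat_lit 166) (nat_lit 166) (nat_lit 118)) (PT.lf (nat_lit 1520) (nat_lit 6) (nat_lit 20) (nat_lit 0) (nat_lit 167) (nat_lit 166) (nat_lit 117)))) (PT.nd (nat_lit 42666) (PT.lf (nat_lit 1368) (nat_lit 6) (nat_lit 18) (nat_lit 0) (nat_lit 168) (nat_lit 166) (nat_lit 116)) (PT.nd (nat_lit 78) (PT.lf (nat_lit 1140) (nat_lit 6) (nat_lit 15) (nat_lit 5) (nat_lit 114) (nat_lit 167) (nat_lit 169)) (PT.lf (nat_lit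 1292) (nat_lit 6) (nat_lit 17) (nat_lit 5) (nat_lit 115) (nat_lit 167) (nat_lit 168)))))) (PT.nd (nat_lit 3900) (PT.nd (nat_lit 234) (PT.nd (nat_lit 78) (PT.lf (nat_lit 1444) (nat_lit 3) (nat_lit 19) (nat_lit 4) (nat_lit 116) (nat_lit 167) (nat_lit 167)) (PT.nd (nat_lit 78) (PT.lf (nat_lit 1520) (nat_lit 6) (nat_lit 20) (nat_lit 4) (nat_lit 117) (nat_lit 167) (nat_lit 166)) (PT.lf (nat_lit 1596) (nat_lit 6) (nat_lit 21) (nat_lit 4) (nat_lit 118) (nat_lit 167) (nat_lit 165)))) (PT.nd (nat_lit 3510) (PT.lf (nat_lit 1748) (nat_lit 6) (nat_lit 23) (nat_lit 4) (nat_lit 119) (nat_lit 167) (nat_lit 164)) (PT.nd (nat_lit 78) (PT.lf (nat_lit 1748) (nat_lit 6) (nat_lit 23) (nat_lit 2) (nat_lit 164) (nat_lit 167) (nat_lit 119)) (PT.lf (nat_lit 1596) (nat_lit 6) (nat_lit 21) (nat_lit 2) (nat_lit 165) (nat_lit 167) (nat_lit 118))))) (PT.nd (nat_lit 234) (PT.nd (nat_lit 78) (PT.lf (nat_lit 1520) (nat_lit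 6) (nat_lit 20) (nat_lit 2) (nat_lit 166) (nat_lit 167) (nat_lit 117)) (PT.nd (nat_lit 78) (PT.lf (nat_lit 1444) (nat_lit 3) (nat_lit 19) (nat_lit 0) (nat_lit 167) (nat_lit 167) (nat_lit 116)) (PT.lf (nat_lit 1292) (nat_lit 6) (nat_lit 17) (nat_lit 0) (nat_lit 168) (nat_lit 167) (nat_lit 115)))) (PT.nd (nat_lit 42510) (PT.nd (nat_lit 42432) (PT.lf (nat_lit 1140) (nat_lit 6) (nat_lit 15) (nat_lit 0) (nat_lit 169) (nat_lit 167) (nat_lit 114)) (PT.lf (nat_lit 912) (nat_lit 6) (nat_lit 12) (nat_lit 5) (nat_lit 112) (nat_lit 168) (nat_lit 170))) (PT.nd (nat_lit 78) (PT.lf (nat_lit 1064) (nat_lit 6) (nat_lit 14) (nat_lit 5) (nat_lit 113) (nat_lit 168) (nat_lit 169)) (PT.lf (nat_lit 1216) (nat_lit 3) (nat_lit 16) (nat_lit 4) (nat_lit 114) (nat_lit 168) (nat_lit 168))))))))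
noncomputable def pc15 : PT := (PT.nd (nat_lit 98124) (PT.nd (nat_lit 50934) (PT.nd (nat_lit 4290) (PT.nd (nat_lit 4056) (PT.nd (nat_lit 78) (PT.lf (nat_lit 1292) (nat_lit 6) (nat_lit 17) (nat_lit 4) (nat_lit 115) (nat_lit 168) (nat_lit 167)) (PT.nd (nat_lit 3900) (PT.lf (nat_lit 1368) (nat_lit 6) (nat_lit 18) (nat_lit 4) (nat_lit 116) (nat_lit 168) (nat_lit 166)) (PT.lf (nat_lit 1368) (nat_lit 6) (nat_lit 18) (nat_lit 2) (nat_lit 166) (nat_lit 168) (nat_lit 116)))) (PT.nd (nat_lit 78) (PT.lf (nat_lit 1292) (nat_lit 6) (nat_lit 17) (nat_lit 2) (nat_lit 167) (nat_lit 168) (nat_lit 115)) (PT.nd (nat_lit 78) (PT.lf (nat_lit 1216) (nat_lit 3) (nat_lit 16) (nat_lit 0) (nat_lit 168) (nat_lit 168) (nat_lit 114)) (PT.lf (nat_lit 1064) (nat_lit 6) (nat_lit 14) (nat_lit 0) (nat_lit 169) (nat_lit 168) (nat_lit 113))))) (PT.nd (nat_lit 42354) (PT.nd (nat_lit 42198) (PT.lf (nat_lit 912) (nat_lit 6) (nat_lit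 12) (nat_lit 0) (nat_lit 170) (nat_lit 168) (nat_lit 112)) (PT.nd (nat_lit 78) (PT.lf (nat_lit 684) (nat_lit 6) (nat_lit 9) (nat_lit 5) (nat_lit 110) (nat_lit 169) (nat_lit 171)) (PT.lf (nat_lit 836) (nat_lit 6) (nat_lit 11) (nat_lit 5) (nat_lit 111) (nat_lit 169) (nat_lit 170)))) (PT.nd (nat_lit 78) (PT.lf (nat_lit 988) (nat_lit 3) (nat_lit 13) (nat_lit 4) (nat_lit 112) (nat_lit 169) (nat_lit 169)) (PT.nd (nat_lit 78) (PT.lf (nat_lit 1064) (nat_lit 6) (nat_lit 14) (nat_lit 4) (nat_lit 113) (nat_lit 169) (nat_lit 168)) (PT.lf (nat_lit 1140) (nat_lit 6) (nat_lit 15) (nat_lit 4) (nat_lit 114) (nat_lit 169) (nat_lit 167)))))) (PT.nd (nat_lit 42354) (PT.nd (nat_lit 234) (PT.nd (nat_lit 78) (PT.lf (nat_lit 1140) (nat_lit 6) (nat_lit 15) (nat_lit 2) (nat_lit 167) (nat_lit 169) (nat_lit 114)) (PT.nd (nat_lit 78) (PT.lf (nat_lit 1064) (nat_lit 6) (nat_lit 14) (nat_lit 2) (nat_lit 168) (nat_lit 169)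 (nat_lit 113)) (PT.lf (nat_lit 988) (nat_lit 3) (nat_lit 13) (nat_lit 0) (nat_lit 169) (nat_lit 169) (nat_lit 112)))) (PT.nd (nat_lit 78) (PT.lf (nat_lit 836) (nat_lit 6) (nat_lit 11) (nat_lit 0) (nat_lit 170) (nat_lit 169) (nat_lit 111)) (PT.nd (nat_lit 41964) (PT.lf (nat_lit 684) (nat_lit 6) (nat_lit 9) (nat_lit 0) (nat_lit 171) (nat_lit 169) (nat_lit 110)) (PT.lf (nat_lit 456) (nat_lit 6) (nat_lit 6) (nat_lit 5) (nat_lit 108) (nat_lit 170) (nat_lit 172))))) (PT.nd (nat_lit 234) (PT.nd (nat_lit 78) (PT.lf (nat_lit 608) (nat_lit 6) (nat_lit 8) (nat_lit 5) (nat_lit 109) (nat_lit 170) (nat_lit 171)) (PT.nd (nat_lit 78) (PT.lf (nat_lit 760) (nat_lit 3) (nat_lit 10) (nat_lit 4) (nat_lit 110) (nat_lit 170) (nat_lit 170)) (PT.lf (nat_lit 836) (nat_lit 6) (nat_lit 11) (nat_lit 4) (nat_lit 111) (nat_lit 170) (nat_lit 169)))) (PT.nd (nat_lit 4446) (PT.nd (nat_lit 4368) (PT.lf (nat_lit 912) (nat_lit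 6) (nat_lit 12) (nat_lit 4) (nat_lit 112) (nat_lit 170) (nat_lit 168)) (PT.lf (nat_lit 912) (nat_lit 6) (nat_lit 12) (nat_lit 2) (nat_lit 168) (nat_lit 170) (nat_lit 112))) (PT.nd (nat_lit 78) (PT.lf (nat_lit 836) (nat_lit 6) (nat_lit 11) (nat_lit 2) (nat_lit 169) (nat_lit 170) (nat_lit 111)) (PT.lf (nat_lit 760) (nat_lit 3) (nat_lit 10) (nat_lit 0) (nat_lit 170) (nat_lit 170) (nat_lit 110))))))) (PT.nd (nat_lit 88686) (PT.nd (nat_lit 42120) (PT.nd (nat_lit 41886) (PT.nd (nat_lit 78) (PT.lf (nat_lit 608) (nat_lit 6) (nat_lit 8) (nat_lit 0) (nat_lit 171) (nat_lit 170) (nat_lit 109)) (PT.nd (nat_lit 41730) (PT.lf (nat_lit 456) (nat_lit 6) (nat_lit 6) (nat_lit 0) (nat_lit 172) (nat_lit 170) (nat_lit 108)) (PT.lf (nat_lit 228) (nat_lit 6) (nat_lit 3) (nat_lit 5) (nat_lit 106) (nat_lit 171) (nat_lit 173)))) (PT.nd (nat_lit 78) (PT.lf (nat_lit 380) (nat_lit 6) (nat_lit 5) (nat_lit 5) (nat_lit 107)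 (nat_lit 171) (nat_lit 172)) (PT.nd (nat_lit 78) (PT.lf (nat_lit 532) (nat_lit 3) (nat_lit 7) (nat_lit 4) (nat_lit 108) (nat_lit 171) (nat_lit 171)) (PT.lf (nat_lit 608) (nat_lit 6) (nat_lit 8) (nat_lit 4) (nat_lit 109) (nat_lit 171) (nat_lit 170))))) (PT.nd (nat_lit 4758) (PT.nd (nat_lit 4602) (PT.lf (nat_lit 684) (nat_lit 6) (nat_lit 9) (nat_lit 4) (nat_lit 110) (nat_lit 171) (nat_lit 169)) (PT.nd (nat_lit 78) (PT.lf (nat_lit 684) (nat_lit 6) (nat_lit 9) (nat_lit 2) (nat_lit 169) (nat_lit 171) (nat_lit 110)) (PT.lf (nat_lit 608) (nat_lit 6) (nat_lit 8) (nat_lit 2) (nat_lit 170) (nat_lit 171) (nat_lit 109)))) (PT.nd (nat_lit 156) (PT.nd (nat_lit 78) (PT.lf (nat_lit 532) (nat_lit 3) (nat_lit 7) (nat_lit 0) (nat_lit 171) (nat_lit 171) (nat_lit 108)) (PT.lf (nat_lit 380) (nat_lit 6) (nat_lit 5) (nat_lit 0) (nat_lit 172) (nat_lit 171) (nat_lit 107))) (PT.nd (nat_lit 41574) (PT.lf (nat_lit 228)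 (nat_lit 6) (nat_lit 3) (nat_lit 0) (nat_lit 173) (nat_lit 171) (nat_lit 106)) (PT.lf (nat_lit 152) (nat_lit 6) (nat_lit 2) (nat_lit 5) (nat_lit 105) (nat_lit 172) (nat_lit 173)))))) (PT.nd (nat_lit 5226) (PT.nd (nat_lit 4992) (PT.nd (nat_lit 78) (PT.lf (nat_lit 304) (nat_lit 3) (nat_lit 4) (nat_lit 4) (nat_lit 106) (nat_lit 172) (nat_lit 172)) (PT.nd (nat_lit 78) (PT.lf (nat_lit 380) (nat_lit 6) (nat_lit 5) (nat_lit 4) (nat_lit 107) (nat_lit 172) (nat_lit 171)) (PT.lf (nat_lit 456) (nat_lit 6) (nat_lit 6) (nat_lit 4) (nat_lit 108) (nat_lit 172) (nat_lit 170)))) (PT.nd (nat_lit 78) (PT.lf (nat_lit 456) (nat_lit 6) (nat_lit 6) (nat_lit 2) (nat_lit 170) (nat_lit 172) (nat_lit 108)) (PT.nd (nat_lit 78) (PT.lf (nat_lit 380) (nat_lit 6) (nat_lit 5) (nat_lit 2) (nat_lit 171) (nat_lit 172) (nat_lit 107)) (PT.lf (nat_lit 304) (nat_lit 3) (nat_lit 4) (nat_lit 0) (nat_lit 172) (nat_lit 172) (nat_lit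 106))))) (PT.nd (nat_lit 41652) (PT.nd (nat_lit 41496) (PT.lf (nat_lit 152) (nat_lit 6) (nat_lit 2) (nat_lit 0) (nat_lit 173) (nat_lit 172) (nat_lit 105)) (PT.nd (nat_lit 78) (PT.lf (nat_lit 76) (nat_lit 3) (nat_lit 1) (nat_lit 4) (nat_lit 104) (nat_lit 173) (nat_lit 173)) (PT.lf (nat_lit 152) (nat_lit 6) (nat_lit 2) (nat_lit 4) (nat_lit 105) (nat_lit 173) (nat_lit 172)))) (PT.nd (nat_lit 5148) (PT.nd (nat_lit 5070) (PT.lf (nat_lit 228) (nat_lit 6) (nat_lit 3) (nat_lit 4) (nat_lit 106) (nat_lit 173) (nat_lit 171)) (PT.lf (nat_lit 228) (nat_lit 6) (nat_lit 3) (nat_lit 2) (nat_lit 171) (nat_lit 173) (nat_lit 106))) (PT.nd (nat_lit 78) (PT.lf (nat_lit 152) (nat_lit 6) (nat_lit 2) (nat_lit 2) (nat_lit 172) (nat_lit 173) (nat_lit 105)) (PT.lf (nat_lit 76) (nat_lit 3) (nat_lit 1) (nat_lit 0) (nat_lit 173) (nat_lit 173) (nat_lit 104))))))))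
noncomputable def xc0 : XT := (XT.nd (nat_lit 187122) (nat_lit 0) (nat_lit 0) (XT.nd (nat_lit 140166) (nat_lit 0) (nat_lit 0) (XT.nd (nat_lit 93444) (nat_lit 0) (nat_lit 0) (XT.nd (nat_lit 46722) (nat_lit 0) (nat_lit 0) (XT.nd (nat_lit 46644) (nat_lit 0) (nat_lit 0) (XT.lf (nat_lit 0) (nat_lit 48537709143) (nat_lit 76) (nat_lit 30907844836) (nat_lit 76) (nat_lit 30739370185) (nat_lit 2) (nat_lit 4) (nat_lit 3) (nat_lit 5) (nat_lit 3) (nat_lit 4) (nat_lit 395) (nat_lit 253) (nat_lit 252)) (XT.lf (nat_lit 0) (nat_lit 8220186681) (nat_lit 76) (nat_lit 19785361213) (nat_lit 76) (nat_lit 19785361213) (nat_lit 2) (nat_lit 4) (nat_lit 3) (nat_lit 5) (nat_lit 3) (nat_lit 4) (nat_lit 392) (nat_lit 254) (nat_lit 254))) (XT.nd (nat_lit 156) (nat_lit 0) (nat_lit 0) (XT.lf (nat_lit 0) (nat_lit 26817587299) (nat_lit 76) (nat_lit 36785144703) (nat_lit 76) (nat_lit 36608246320) (nat_lit 2) (nat_lit 4) (nat_lit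 3) (nat_lit 5) (nat_lit 3) (nat_lit 4) (nat_lit 393) (nat_lit 254) (nat_lit 253)) (XT.nd (nat_lit 46488) (nat_lit 0) (nat_lit 76) (XT.lf (nat_lit 0) (nat_lit 48251144147) (nat_lit 76) (nat_lit 31222050799) (nat_lit 76) (nat_lit 30716225716) (nat_lit 2) (nat_lit 4) (nat_lit 3) (nat_lit 5) (nat_lit 3) (nat_lit 4) (nat_lit 395) (nat_lit 254) (nat_lit 251)) (XT.lf (nat_lit 0) (nat_lit 20864598075) (nat_lit 152) (nat_lit 1763258089) (nat_lit 0) (nat_lit 20864598075) (nat_lit 3) (nat_lit 5) (nat_lit 5) (nat_lit 4) (nat_lit 3) (nat_lit 4) (nat_lit 390) (nat_lit 255) (nat_lit 255))))) (XT.nd (nat_lit 234) (nat_lit 0) (nat_lit 0) (XT.nd (nat_lit 78) (nat_lit 0) (nat_lit 0) (XT.lf (nat_lit 0) (nat_lit 6256419226) (nat_lit 76) (nat_lit 42553569853) (nat_lit 76) (nat_lit 42367826550) (nat_lit 2) (nat_lit 4) (nat_lit 3) (nat_lit 5) (nat_lit 3) (nat_lit 4) (nat_lit 391) (nat_lit 255) (nat_lit 254)) (XT.nd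 (nat_lit 78) (nat_lit 0) (nat_lit 0) (XT.lf (nat_lit 0) (nat_lit 16286257310) (nat_lit 76) (nat_lit 39830310416) (nat_lit 76) (nat_lit 39467668729) (nat_lit 2) (nat_lit 4) (nat_lit 3) (nat_lit 5) (nat_lit 3) (nat_lit 4) (nat_lit 392) (nat_lit 255) (nat_lit 253)) (XT.lf (nat_lit 0) (nat_lit 26516694053) (nat_lit 76) (nat_lit 37115060965) (nat_lit 76) (nat_lit 36583944627) (nat_lit 2) (nat_lit 4) (nat_lit 3) (nat_lit 5) (nat_lit 3) (nat_lit 4) (nat_lit 393) (nat_lit 255) (nat_lit 252)))) (XT.nd (nat_lit 78) (nat_lit 0) (nat_lit 0) (XT.lf (nat_lit 0) (nat_lit 36972087638) (nat_lit 76) (nat_lit 34401356622) (nat_lit 76) (nat_lit 33709788235) (nat_lit 2) (nat_lit 4) (nat_lit 3) (nat_lit 5) (nat_lit 3) (nat_lit 4) (nat_lit 394) (nat_lit 255) (nat_lit 251)) (XT.nd (nat_lit 46332) (nat_lit 0) (nat_lit 76) (XT.lf (nat_lit 0) (nat_lit 47677331857) (nat_lit 76) (nat_lit 31682736184) (nat_lit 76) (nat_lit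 30838356323) (nat_lit 2) (nat_lit 4) (nat_lit 3) (nat_lit 5) (nat_lit 3) (nat_lit 4) (nat_lit 395) (nat_lit 255) (nat_lit 250)) (XT.lf (nat_lit 0) (nat_lit 14235937839) (nat_lit 152) (nat_lit 11126730185) (nat_lit 0) (nat_lit 14235937839) (nat_lit 3) (nat_lit 5) (nat_lit 5) (nat_lit 4) (nat_lit 3) (nat_lit 4) (nat_lit 388) (nat_lit 256) (nat_lit 256)))))) (XT.nd (nat_lit 390) (nat_lit 0) (nat_lit 0) (XT.nd (nat_lit 156) (nat_lit 76) (nat_lit 0) (XT.nd (nat_lit 78) (nat_lit 0) (nat_lit 0) (XT.lf (nat_lit 0) (nat_lit 35076371685) (nat_lit 152) (nat_lit 13037098651) (nat_lit 0) (nat_lit 34881341217) (nat_lit 3) (nat_lit 5) (nat_lit 5) (nat_lit 4) (nat_lit 3) (nat_lit 4) (nat_lit 389) (nat_lit 256) (nat_lit 255)) (XT.lf (nat_lit 0) (nat_lit 41841497214) (nat_lit 152) (nat_lit 3685180308) (nat_lit 0) (nat_lit 41460723443) (nat_lit 3) (nat_lit 5) (nat_lit 5) (nat_lit 4) (nat_lit 3) (nat_lit 4) (nat_lit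 390) (nat_lit 256) (nat_lit 254))) (XT.nd (nat_lit 78) (nat_lit 0) (nat_lit 0) (XT.lf (nat_lit 0) (nat_lit 5940481318) (nat_lit 76) (nat_lit 42899981928) (nat_lit 76) (nat_lit 42342309773) (nat_lit 2) (nat_lit 4) (nat_lit 3) (nat_lit 5) (nat_lit 3) (nat_lit 4) (nat_lit 391) (nat_lit 256) (nat_lit 253)) (XT.nd (nat_lit 78) (nat_lit 0) (nat_lit 0) (XT.lf (nat_lit 0) (nat_lit 15823542209) (nat_lit 76) (nat_lit 40247050763) (nat_lit 76) (nat_lit 39520903957) (nat_lit 2) (nat_lit 4) (nat_lit 3) (nat_lit 5) (nat_lit 3) (nat_lit 4) (nat_lit 392) (nat_lit 256) (nat_lit 252)) (XT.lf (nat_lit 0) (nat_lit 25914191149) (nat_lit 76) (nat_lit 37598780620) (nat_lit 76) (nat_lit 36712181765) (nat_lit 2) (nat_lit 4) (nat_lit 3) (nat_lit 5) (nat_lit 3) (nat_lit 4) (nat_lit 393) (nat_lit 256) (nat_lit 251))))) (XT.nd (nat_lit 46332) (nat_lit 0) (nat_lit 76) (XT.nd (nat_lit 78) (nat_lit 0) (nat_lit 0) (XT.lf (nat_lit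 0) (nat_lit 36236453493) (nat_lit 76) (nat_lit 34948866092) (nat_lit 76) (nat_lit 33909455763) (nat_lit 2) (nat_lit 4) (nat_lit 3) (nat_lit 5) (nat_lit 3) (nat_lit 4) (nat_lit 394) (nat_lit 256) (nat_lit 250)) (XT.nd (nat_lit 46176) (nat_lit 0) (nat_lit 76) (XT.lf (nat_lit 0) (nat_lit 46814906054) (nat_lit 76) (nat_lit 32290997861) (nat_lit 76) (nat_lit 31106052793) (nat_lit 2) (nat_lit 4) (nat_lit 3) (nat_lit 5) (nat_lit 3) (nat_lit 4) (nat_lit 395) (nat_lit 256) (nat_lit 249)) (XT.lf (nat_lit 0) (nat_lit 7989104219) (nat_lit 152) (nat_lit 20096045553) (nat_lit 0) (nat_lit 7989104219) (nat_lit 3) (nat_lit 5) (nat_lit 5) (nat_lit 4) (nat_lit 3) (nat_lit 4) (nat_lit 386) (nat_lit 257) (nat_lit 257)))) (XT.nd (nat_lit 78) (nat_lit 0) (nat_lit 0) (XT.lf (nat_lit 0) (nat_lit 22217066195) (nat_lit 152) (nat_lit 31356209186) (nat_lit 0) (nat_lit 22012284203) (nat_lit 3) (nat_lit 5) (nat_lit 5) (nat_lit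 4) (nat_lit 3) (nat_lit 4) (nat_lit 387) (nat_lit 257) (nat_lit 256)) (XT.nd (nat_lit 78) (nat_lit 0) (nat_lit 0) (XT.lf (nat_lit 0) (nat_lit 28589791796) (nat_lit 152) (nat_lit 22420057705) (nat_lit 0) (nat_lit 28189979336) (nat_lit 3) (nat_lit 5) (nat_lit 5) (nat_lit 4) (nat_lit 3) (nat_lit 4) (nat_lit 388) (nat_lit 257) (nat_lit 255)) (XT.lf (nat_lit 0) (nat_lit 35111558398) (nat_lit 152) (nat_lit 13362360114) (nat_lit 0) (nat_lit 34526002636) (nat_lit 3) (nat_lit 5) (nat_lit 5) (nat_lit 4) (nat_lit 3) (nat_lit 4) (nat_lit 389) (nat_lit 257) (nat_lit 254))))))) (XT.nd (nat_lit 46800) (nat_lit 0) (nat_lit 0) (XT.nd (nat_lit 390) (nat_lit 0) (nat_lit 0) (XT.nd (nat_lit 156) (nat_lit 0) (nat_lit 0) (XT.nd (nat_lit 78) (nat_lit 76) (nat_lit 0) (XT.lf (nat_lit 0) (nat_lit 41797894018) (nat_lit 152) (nat_lit 4161550464) (nat_lit 0) (nat_lit 41035439872) (nat_lit 3) (nat_lit 5) (nat_lit 5) (nat_lit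 4) (nat_lit 3) (nat_lit 4) (nat_lit 390) (nat_lit 257) (nat_lit 253)) (XT.lf (nat_lit 0) (nat_lit 5307853269) (nat_lit 76) (nat_lit 43407887565) (nat_lit 76) (nat_lit 42476958768) (nat_lit 2) (nat_lit 4) (nat_lit 3) (nat_lit 5) (nat_lit 3) (nat_lit 4) (nat_lit 391) (nat_lit 257) (nat_lit 252))) (XT.nd (nat_lit 78) (nat_lit 0) (nat_lit 0) (XT.lf (nat_lit 0) (nat_lit 15051126357) (nat_lit 76) (nat_lit 40821935707) (nat_lit 76) (nat_lit 39730554861) (nat_lit 2) (nat_lit 4) (nat_lit 3) (nat_lit 5) (nat_lit 3) (nat_lit 4) (nat_lit 392) (nat_lit 257) (nat_lit 251)) (XT.nd (nat_lit 78) (nat_lit 0) (nat_lit 0) (XT.lf (nat_lit 0) (nat_lit 25008644056) (nat_lit 76) (nat_lit 38237455380) (nat_lit 76) (nat_lit 36993263059) (nat_lit 2) (nat_lit 4) (nat_lit 3) (nat_lit 5) (nat_lit 3) (nat_lit 4) (nat_lit 393) (nat_lit 257) (nat_lit 250)) (XT.lf (nat_lit 0) (nat_lit 35204114742) (nat_lit 76) (nat_lit 35648293059)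 (nat_lit 76) (nat_lit 34258566000) (nat_lit 2) (nat_lit 4) (nat_lit 3) (nat_lit 5) (nat_lit 3) (nat_lit 4) (nat_lit 394) (nat_lit 257) (nat_lit 249))))) (XT.nd (nat_lit 46176) (nat_lit 0) (nat_lit 76) (XT.nd (nat_lit 46020) (nat_lit 0) (nat_lit 76) (XT.lf (nat_lit 0) (nat_lit 45661813343) (nat_lit 76) (nat_lit 33048284072) (nat_lit 76) (nat_lit 31519952500) (nat_lit 2) (nat_lit 4) (nat_lit 3) (nat_lit 5) (nat_lit 3) (nat_lit 4) (nat_lit 395) (nat_lit 257) (nat_lit 248)) (XT.nd (nat_lit 78) (nat_lit 0) (nat_lit 0) (XT.lf (nat_lit 0) (nat_lit 2076876426) (nat_lit 152) (nat_lit 28731667657) (nat_lit 0) (nat_lit 2076876426) (nat_lit 3) (nat_lit 5) (nat_lit 5) (nat_lit 4) (nat_lit 3) (nat_lit 4) (nat_lit 384) (nat_lit 258) (nat_lit 258)) (XT.lf (nat_lit 0) (nat_lit 10073385196) (nat_lit 152) (nat_lit 48948741280) (nat_lit 0) (nat_lit 9858364105) (nat_lit 3) (nat_lit 5) (nat_lit 5) (nat_lit 4) (nat_lit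 3) (nat_lit 4) (nat_lit 385) (nat_lit 258) (nat_lit 257)))) (XT.nd (nat_lit 78) (nat_lit 0) (nat_lit 0) (XT.lf (nat_lit 0) (nat_lit 16102020362) (nat_lit 152) (nat_lit 40367018307) (nat_lit 0) (nat_lit 15682217279) (nat_lit 3) (nat_lit 5) (nat_lit 5) (nat_lit 4) (nat_lit 3) (nat_lit 4) (nat_lit 386) (nat_lit 258) (nat_lit 256)) (XT.nd (nat_lit 78) (nat_lit 0) (nat_lit 0) (XT.lf (nat_lit 0) (nat_lit 22254012243) (nat_lit 152) (nat_lit 31697733722) (nat_lit 0) (nat_lit 21639178693) (nat_lit 3) (nat_lit 5) (nat_lit 5) (nat_lit 4) (nat_lit 3) (nat_lit 4) (nat_lit 387) (nat_lit 258) (nat_lit 255)) (XT.lf (nat_lit 0) (nat_lit 28544008440) (nat_lit 152) (nat_lit 22920246369) (nat_lit 0) (nat_lit 27743431586) (nat_lit 3) (nat_lit 5) (nat_lit 5) (nat_lit 4) (nat_lit 3) (nat_lit 4) (nat_lit 388) (nat_lit 258) (nat_lit 254)))))) (XT.nd (nat_lit 468) (nat_lit 0) (nat_lit 0) (XT.nd (nat_lit 234) (nat_lit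 0) (nat_lit 0) (XT.nd (nat_lit 78) (nat_lit 76) (nat_lit 0) (XT.lf (nat_lit 0) (nat_lit 34986985134) (nat_lit 152) (nat_lit 14013657471) (nat_lit 0) (nat_lit 34009509896) (nat_lit 3) (nat_lit 5) (nat_lit 5) (nat_lit 4) (nat_lit 3) (nat_lit 4) (nat_lit 389) (nat_lit 258) (nat_lit 253)) (XT.nd (nat_lit 78) (nat_lit 76) (nat_lit 0) (XT.lf (nat_lit 0) (nat_lit 41598282745) (nat_lit 152) (nat_lit 4956760862) (nat_lit 0) (nat_lit 40452332857) (nat_lit 3) (nat_lit 5) (nat_lit 5) (nat_lit 4) (nat_lit 3) (nat_lit 4) (nat_lit 390) (nat_lit 258) (nat_lit 252)) (XT.lf (nat_lit 0) (nat_lit 4357028821) (nat_lit 76) (nat_lit 44078496064) (nat_lit 76) (nat_lit 42772094126) (nat_lit 2) (nat_lit 4) (nat_lit 3) (nat_lit 5) (nat_lit 3) (nat_lit 4) (nat_lit 391) (nat_lit 258) (nat_lit 251)))) (XT.nd (nat_lit 78) (nat_lit 0) (nat_lit 0) (XT.lf (nat_lit 0) (nat_lit 13967170669) (nat_lit 76) (nat_lit 41556334022)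 (nat_lit 76) (nat_lit 40097120610) (nat_lit 2) (nat_lit 4) (nat_lit 3) (nat_lit 5) (nat_lit 3) (nat_lit 4) (nat_lit 392) (nat_lit 258) (nat_lit 250)) (XT.nd (nat_lit 78) (nat_lit 0) (nat_lit 0) (XT.lf (nat_lit 0) (nat_lit 23797896710) (nat_lit 76) (nat_lit 39032605901) (nat_lit 76) (nat_lit 37427857751) (nat_lit 2) (nat_lit 4) (nat_lit 3) (nat_lit 5) (nat_lit 3) (nat_lit 4) (nat_lit 393) (nat_lit 258) (nat_lit 249)) (XT.lf (nat_lit 0) (nat_lit 33872613435) (nat_lit 76) (nat_lit 36501302824) (nat_lit 76) (nat_lit 34757950161) (nat_lit 2) (nat_lit 4) (nat_lit 3) (nat_lit 5) (nat_lit 3) (nat_lit 4) (nat_lit 394) (nat_lit 258) (nat_lit 248))))) (XT.nd (nat_lit 46020) (nat_lit 0) (nat_lit 76) (XT.nd (nat_lit 45864) (nat_lit 0) (nat_lit 228) (XT.lf (nat_lit 0) (nat_lit 44215308266) (nat_lit 76) (nat_lit 33956397879) (nat_lit 76) (nat_lit 32081040918) (nat_lit 2) (nat_lit 4) (nat_lit 3) (nat_lit 5)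 (nat_lit 3) (nat_lit 4) (nat_lit 395) (nat_lit 258) (nat_lit 247)) (XT.nd (nat_lit 78) (nat_lit 0) (nat_lit 0) (XT.lf (nat_lit 0) (nat_lit 22978364883) (nat_lit 76) (nat_lit 3509415606) (nat_lit 76) (nat_lit 3509415606) (nat_lit 5) (nat_lit 4) (nat_lit 6) (nat_lit 5) (nat_lit 6) (nat_lit 4) (nat_lit 382) (nat_lit 259) (nat_lit 259)) (XT.lf (nat_lit 0) (nat_lit 59727477760) (nat_lit 76) (nat_lit 1659082269) (nat_lit 76) (nat_lit 1426536959) (nat_lit 5) (nat_lit 4) (nat_lit 6) (nat_lit 5) (nat_lit 6) (nat_lit 4) (nat_lit 383) (nat_lit 259) (nat_lit 258)))) (XT.nd (nat_lit 78) (nat_lit 0) (nat_lit 0) (XT.lf (nat_lit 0) (nat_lit 4283755372) (nat_lit 152) (nat_lit 57647008875) (nat_lit 0) (nat_lit 3842962135) (nat_lit 3) (nat_lit 5) (nat_lit 5) (nat_lit 4) (nat_lit 3) (nat_lit 4) (nat_lit 384) (nat_lit 259) (nat_lit 257)) (XT.nd (nat_lit 78) (nat_lit 0) (nat_lit 0) (XT.lf (nat_lit 0) (nat_lit 10112178547)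 (nat_lit 152) (nat_lit 49307342043) (nat_lit 0) (nat_lit 9466603319) (nat_lit 3) (nat_lit 5) (nat_lit 5) (nat_lit 4) (nat_lit 3) (nat_lit 4) (nat_lit 385) (nat_lit 259) (nat_lit 256)) (XT.lf (nat_lit 0) (nat_lit 16053947838) (nat_lit 152) (nat_lit 40892216404) (nat_lit 0) (nat_lit 15213342142) (nat_lit 3) (nat_lit 5) (nat_lit 5) (nat_lit 4) (nat_lit 3) (nat_lit 4) (nat_lit 386) (nat_lit 259) (nat_lit 255))))))))
noncomputable def xc1 : XT := (XT.nd (nat_lit 47424) (nat_lit 0) (nat_lit 0) (XT.nd (nat_lit 46488) (nat_lit 0) (nat_lit 0) (XT.nd (nat_lit 390) (nat_lit 0) (nat_lit 0) (XT.nd (nat_lit 156) (nat_lit 76) (nat_lit 0) (XT.nd (nat_lit 78) (nat_lit 0) (nat_lit 0) (XT.lf (nat_lit 0) (nat_lit 22123210315) (nat_lit 152) (nat_lit 32381595947) (nat_lit 0) (nat_lit 21096861316) (nat_lit 3) (nat_lit 5) (nat_lit 5) (nat_lit 4) (nat_lit 3) (nat_lit 4) (nat_lit 387) (nat_lit 259) (nat_lit 254)) (XT.lf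 (nat_lit 0) (nat_lit 28334416604) (nat_lit 152) (nat_lit 23755217288) (nat_lit 0) (nat_lit 27131169221) (nat_lit 3) (nat_lit 5) (nat_lit 5) (nat_lit 4) (nat_lit 3) (nat_lit 4) (nat_lit 388) (nat_lit 259) (nat_lit 253))) (XT.nd (nat_lit 78) (nat_lit 76) (nat_lit 0) (XT.lf (nat_lit 0) (nat_lit 34702355289) (nat_lit 152) (nat_lit 14992541431) (nat_lit 0) (nat_lit 33330633255) (nat_lit 3) (nat_lit 5) (nat_lit 5) (nat_lit 4) (nat_lit 3) (nat_lit 4) (nat_lit 389) (nat_lit 259) (nat_lit 252)) (XT.nd (nat_lit 78) (nat_lit 76) (nat_lit 0) (XT.lf (nat_lit 0) (nat_lit 41242188130) (nat_lit 152) (nat_lit 6072704861) (nat_lit 0) (nat_lit 39710014047) (nat_lit 3) (nat_lit 5) (nat_lit 5) (nat_lit 4) (nat_lit 3) (nat_lit 4) (nat_lit 390) (nat_lit 259) (nat_lit 251)) (XT.lf (nat_lit 0) (nat_lit 3085744107) (nat_lit 76) (nat_lit 44913404111) (nat_lit 76) (nat_lit 43228418553) (nat_lit 2) (nat_lit 4) (nat_lit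 3) (nat_lit 5) (nat_lit 3) (nat_lit 4) (nat_lit 391) (nat_lit 259) (nat_lit 250))))) (XT.nd (nat_lit 234) (nat_lit 0) (nat_lit 0) (XT.nd (nat_lit 78) (nat_lit 0) (nat_lit 0) (XT.lf (nat_lit 0) (nat_lit 12569094297) (nat_lit 76) (nat_lit 42451994276) (nat_lit 76) (nat_lit 40621473979) (nat_lit 2) (nat_lit 4) (nat_lit 3) (nat_lit 5) (nat_lit 3) (nat_lit 4) (nat_lit 392) (nat_lit 259) (nat_lit 249)) (XT.nd (nat_lit 78) (nat_lit 0) (nat_lit 0) (XT.lf (nat_lit 0) (nat_lit 22279066378) (nat_lit 76) (nat_lit 39986125398) (nat_lit 76) (nat_lit 38017000590) (nat_lit 2) (nat_lit 4) (nat_lit 3) (nat_lit 5) (nat_lit 3) (nat_lit 4) (nat_lit 393) (nat_lit 259) (nat_lit 248)) (XT.lf (nat_lit 0) (nat_lit 32238779332) (nat_lit 76) (nat_lit 37509926363) (nat_lit 76) (nat_lit 35408797257) (nat_lit 2) (nat_lit 4) (nat_lit 3) (nat_lit 5) (nat_lit 3) (nat_lit 4) (nat_lit 394) (nat_lit 259) (nat_lit 247)))) (XT.nd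 (nat_lit 45708) (nat_lit 0) (nat_lit 228) (XT.lf (nat_lit 0) (nat_lit 42471946761) (nat_lit 76) (nat_lit 35017501457) (nat_lit 76) (nat_lit 32790653972) (nat_lit 2) (nat_lit 4) (nat_lit 3) (nat_lit 5) (nat_lit 3) (nat_lit 4) (nat_lit 395) (nat_lit 259) (nat_lit 246)) (XT.nd (nat_lit 78) (nat_lit 0) (nat_lit 0) (XT.lf (nat_lit 0) (nat_lit 9730424970) (nat_lit 76) (nat_lit 8826615405) (nat_lit 76) (nat_lit 8826615405) (nat_lit 5) (nat_lit 4) (nat_lit 6) (nat_lit 5) (nat_lit 6) (nat_lit 4) (nat_lit 380) (nat_lit 260) (nat_lit 260)) (XT.lf (nat_lit 0) (nat_lit 32480449518) (nat_lit 76) (nat_lit 12539667324) (nat_lit 76) (nat_lit 12295494748) (nat_lit 5) (nat_lit 4) (nat_lit 6) (nat_lit 5) (nat_lit 6) (nat_lit 4) (nat_lit 381) (nat_lit 260) (nat_lit 259)))))) (XT.nd (nat_lit 468) (nat_lit 76) (nat_lit 0) (XT.nd (nat_lit 234) (nat_lit 0) (nat_lit 0) (XT.nd (nat_lit 78) (nat_lit 152) (nat_lit 0) (XT.lf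 (nat_lit 0) (nat_lit 45771682807) (nat_lit 76) (nat_lit 7351173431) (nat_lit 76) (nat_lit 6874455546) (nat_lit 5) (nat_lit 4) (nat_lit 6) (nat_lit 5) (nat_lit 6) (nat_lit 4) (nat_lit 382) (nat_lit 260) (nat_lit 258)) (XT.nd (nat_lit 78) (nat_lit 152) (nat_lit 0) (XT.lf (nat_lit 0) (nat_lit 59366195600) (nat_lit 76) (nat_lit 2075395578) (nat_lit 76) (nat_lit 1377205969) (nat_lit 5) (nat_lit 4) (nat_lit 6) (nat_lit 5) (nat_lit 6) (nat_lit 4) (nat_lit 383) (nat_lit 260) (nat_lit 257)) (XT.lf (nat_lit 0) (nat_lit 4233279222) (nat_lit 152) (nat_lit 58198466877) (nat_lit 0) (nat_lit 3350643241) (nat_lit 3) (nat_lit 5) (nat_lit 5) (nat_lit 4) (nat_lit 3) (nat_lit 4) (nat_lit 384) (nat_lit 260) (nat_lit 256)))) (XT.nd (nat_lit 78) (nat_lit 0) (nat_lit 0) (XT.lf (nat_lit 0) (nat_lit 9974836523) (nat_lit 152) (nat_lit 50025397379) (nat_lit 0) (nat_lit 8897170074) (nat_lit 3) (nat_lit 5) (nat_lit 5) (nat_lit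 4) (nat_lit 3) (nat_lit 4) (nat_lit 385) (nat_lit 260) (nat_lit 255)) (XT.nd (nat_lit 78) (nat_lit 0) (nat_lit 0) (XT.lf (nat_lit 0) (nat_lit 15833876410) (nat_lit 152) (nat_lit 41768935869) (nat_lit 0) (nat_lit 14570466658) (nat_lit 3) (nat_lit 5) (nat_lit 5) (nat_lit 4) (nat_lit 3) (nat_lit 4) (nat_lit 386) (nat_lit 260) (nat_lit 254)) (XT.lf (nat_lit 0) (nat_lit 21824348978) (nat_lit 152) (nat_lit 33409424105) (nat_lit 0) (nat_lit 20384040842) (nat_lit 3) (nat_lit 5) (nat_lit 5) (nat_lit 4) (nat_lit 3) (nat_lit 4) (nat_lit 387) (nat_lit 260) (nat_lit 253))))) (XT.nd (nat_lit 234) (nat_lit 76) (nat_lit 0) (XT.nd (nat_lit 78) (nat_lit 0) (nat_lit 0) (XT.lf (nat_lit 0) (nat_lit 27960517258) (nat_lit 152) (nat_lit 24926958487) (nat_lit 0) (nat_lit 26351734471) (nat_lit 3) (nat_lit 5) (nat_lit 5) (nat_lit 4) (nat_lit 3) (nat_lit 4) (nat_lit 388) (nat_lit 260) (nat_lit 252)) (XT.nd (nat_lit 78)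 (nat_lit 0) (nat_lit 0) (XT.lf (nat_lit 0) (nat_lit 34256991174) (nat_lit 152) (nat_lit 16301342669) (nat_lit 0) (nat_lit 32487756338) (nat_lit 3) (nat_lit 5) (nat_lit 5) (nat_lit 4) (nat_lit 3) (nat_lit 4) (nat_lit 389) (nat_lit 260) (nat_lit 251)) (XT.lf (nat_lit 0) (nat_lit 40728762330) (nat_lit 152) (nat_lit 7512039471) (nat_lit 0) (nat_lit 38806716019) (nat_lit 3) (nat_lit 5) (nat_lit 5) (nat_lit 4) (nat_lit 3) (nat_lit 4) (nat_lit 390) (nat_lit 260) (nat_lit 250)))) (XT.nd (nat_lit 78) (nat_lit 0) (nat_lit 0) (XT.lf (nat_lit 0) (nat_lit 1490972259) (nat_lit 76) (nat_lit 45914599583) (nat_lit 76) (nat_lit 43847018534) (nat_lit 2) (nat_lit 4) (nat_lit 3) (nat_lit 5) (nat_lit 3) (nat_lit 4) (nat_lit 391) (nat_lit 260) (nat_lit 249)) (XT.nd (nat_lit 78) (nat_lit 0) (nat_lit 0) (XT.lf (nat_lit 0) (nat_lit 10853568489) (nat_lit 76) (nat_lit 43511048991) (nat_lit 76) (nat_lit 41304863430) (nat_lit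 2) (nat_lit 4) (nat_lit 3) (nat_lit 5) (nat_lit 3) (nat_lit 4) (nat_lit 392) (nat_lit 260) (nat_lit 248)) (XT.lf (nat_lit 0) (nat_lit 20448536798) (nat_lit 76) (nat_lit 41100284156) (nat_lit 76) (nat_lit 38762094297) (nat_lit 2) (nat_lit 4) (nat_lit 3) (nat_lit 5) (nat_lit 3) (nat_lit 4) (nat_lit 393) (nat_lit 260) (nat_lit 247))))))) (XT.nd (nat_lit 46332) (nat_lit 0) (nat_lit 0) (XT.nd (nat_lit 45864) (nat_lit 0) (nat_lit 76) (XT.nd (nat_lit 45630) (nat_lit 0) (nat_lit 228) (XT.nd (nat_lit 78) (nat_lit 0) (nat_lit 0) (XT.lf (nat_lit 0) (nat_lit 30298722351) (nat_lit 76) (nat_lit 38676565160) (nat_lit 76) (nat_lit 36212656922) (nat_lit 2) (nat_lit 4) (nat_lit 3) (nat_lit 5) (nat_lit 3) (nat_lit 4) (nat_lit 394) (nat_lit 260) (nat_lit 246)) (XT.lf (nat_lit 0) (nat_lit 40427577969) (nat_lit 76) (nat_lit 36234121245) (nat_lit 76) (nat_lit 33650481218) (nat_lit 2) (nat_lit 4) (nat_lit 3) (nat_lit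 5) (nat_lit 3) (nat_lit 4) (nat_lit 395) (nat_lit 260) (nat_lit 245))) (XT.nd (nat_lit 78) (nat_lit 76) (nat_lit 0) (XT.lf (nat_lit 0) (nat_lit 11117530989) (nat_lit 152) (nat_lit 2785982022) (nat_lit 0) (nat_lit 11117530989) (nat_lit 6) (nat_lit 5) (nat_lit 8) (nat_lit 4) (nat_lit 6) (nat_lit 4) (nat_lit 378) (nat_lit 261) (nat_lit 261)) (XT.nd (nat_lit 78) (nat_lit 0) (nat_lit 0) (XT.lf (nat_lit 0) (nat_lit 6681885027) (nat_lit 76) (nat_lit 22960420250) (nat_lit 76) (nat_lit 22704039046) (nat_lit 5) (nat_lit 4) (nat_lit 6) (nat_lit 5) (nat_lit 6) (nat_lit 4) (nat_lit 379) (nat_lit 261) (nat_lit 260)) (XT.lf (nat_lit 0) (nat_lit 19266550632) (nat_lit 76) (nat_lit 18002190142) (nat_lit 76) (nat_lit 17501636362) (nat_lit 5) (nat_lit 4) (nat_lit 6) (nat_lit 5) (nat_lit 6) (nat_lit 4) (nat_lit 380) (nat_lit 261) (nat_lit 259))))) (XT.nd (nat_lit 234) (nat_lit 152) (nat_lit 0) (XT.nd (nat_lit 78)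 (nat_lit 0) (nat_lit 0) (XT.lf (nat_lit 0) (nat_lit 32101103250) (nat_lit 76) (nat_lit 12976796298) (nat_lit 76) (nat_lit 12243697208) (nat_lit 5) (nat_lit 4) (nat_lit 6) (nat_lit 5) (nat_lit 6) (nat_lit 4) (nat_lit 381) (nat_lit 261) (nat_lit 258)) (XT.nd (nat_lit 78) (nat_lit 0) (nat_lit 0) (XT.lf (nat_lit 0) (nat_lit 45216101339) (nat_lit 76) (nat_lit 7872273495) (nat_lit 76) (nat_lit 6917702682) (nat_lit 5) (nat_lit 4) (nat_lit 6) (nat_lit 5) (nat_lit 6) (nat_lit 4) (nat_lit 382) (nat_lit 261) (nat_lit 257)) (XT.lf (nat_lit 0) (nat_lit 58642771086) (nat_lit 76) (nat_lit 2676468108) (nat_lit 76) (nat_lit 1510971844) (nat_lit 5) (nat_lit 4) (nat_lit 6) (nat_lit 5) (nat_lit 6) (nat_lit 4) (nat_lit 383) (nat_lit 261) (nat_lit 256)))) (XT.nd (nat_lit 78) (nat_lit 0) (nat_lit 0) (XT.lf (nat_lit 0) (nat_lit 4002204222) (nat_lit 152) (nat_lit 59119022314) (nat_lit 0) (nat_lit 2675623983) (nat_lit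 3) (nat_lit 5) (nat_lit 5) (nat_lit 4) (nat_lit 3) (nat_lit 4) (nat_lit 384) (nat_lit 261) (nat_lit 255)) (XT.nd (nat_lit 78) (nat_lit 0) (nat_lit 0) (XT.lf (nat_lit 0) (nat_lit 9661032119) (nat_lit 152) (nat_lit 51104616945) (nat_lit 0) (nat_lit 8148708576) (nat_lit 3) (nat_lit 5) (nat_lit 5) (nat_lit 4) (nat_lit 3) (nat_lit 4) (nat_lit 385) (nat_lit 261) (nat_lit 254)) (XT.lf (nat_lit 0) (nat_lit 15441282097) (nat_lit 152) (nat_lit 42999264128) (nat_lit 0) (nat_lit 13752060171) (nat_lit 3) (nat_lit 5) (nat_lit 5) (nat_lit 4) (nat_lit 3) (nat_lit 4) (nat_lit 386) (nat_lit 261) (nat_lit 253)))))) (XT.nd (nat_lit 468) (nat_lit 0) (nat_lit 0) (XT.nd (nat_lit 234) (nat_lit 76) (nat_lit 0) (XT.nd (nat_lit 78) (nat_lit 0) (nat_lit 0) (XT.lf (nat_lit 0) (nat_lit 21356716657) (nat_lit 152) (nat_lit 34783665405) (nat_lit 0) (nat_lit 19499020080) (nat_lit 3) (nat_lit 5) (nat_lit 5) (nat_lit 4) (nat_lit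 3) (nat_lit 4) (nat_lit 387) (nat_lit 261) (nat_lit 252)) (XT.nd (nat_lit 78) (nat_lit 0) (nat_lit 0) (XT.lf (nat_lit 0) (nat_lit 27421420167) (nat_lit 152) (nat_lit 26438259827) (nat_lit 0) (nat_lit 25403271541) (nat_lit 3) (nat_lit 5) (nat_lit 5) (nat_lit 4) (nat_lit 3) (nat_lit 4) (nat_lit 388) (nat_lit 261) (nat_lit 251)) (XT.lf (nat_lit 0) (nat_lit 33649832397) (nat_lit 152) (nat_lit 17943177380) (nat_lit 0) (nat_lit 31478872296) (nat_lit 3) (nat_lit 5) (nat_lit 5) (nat_lit 4) (nat_lit 3) (nat_lit 4) (nat_lit 389) (nat_lit 261) (nat_lit 250)))) (XT.nd (nat_lit 78) (nat_lit 76) (nat_lit 0) (XT.lf (nat_lit 0) (nat_lit 40056782900) (nat_lit 152) (nat_lit 9278191678) (nat_lit 0) (nat_lit 37740288061) (nat_lit 3) (nat_lit 5) (nat_lit 5) (nat_lit 4) (nat_lit 3) (nat_lit 4) (nat_lit 390) (nat_lit 261) (nat_lit 249)) (XT.nd (nat_lit 78) (nat_lit 76) (nat_lit 0) (XT.lf (nat_lit 0) (nat_lit 46657526320)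 (nat_lit 152) (nat_lit 422671801) (nat_lit 0) (nat_lit 44202426968) (nat_lit 3) (nat_lit 5) (nat_lit 5) (nat_lit 4) (nat_lit 3) (nat_lit 4) (nat_lit 391) (nat_lit 261) (nat_lit 248)) (XT.lf (nat_lit 0) (nat_lit 8816508658) (nat_lit 76) (nat_lit 44736019729) (nat_lit 76) (nat_lit 42148916079) (nat_lit 2) (nat_lit 4) (nat_lit 3) (nat_lit 5) (nat_lit 3) (nat_lit 4) (nat_lit 392) (nat_lit 261) (nat_lit 247))))) (XT.nd (nat_lit 45552) (nat_lit 0) (nat_lit 304) (XT.nd (nat_lit 78) (nat_lit 0) (nat_lit 0) (XT.lf (nat_lit 0) (nat_lit 18301949567) (nat_lit 76) (nat_lit 42377734933) (nat_lit 76) (nat_lit 39664912905) (nat_lit 2) (nat_lit 4) (nat_lit 3) (nat_lit 5) (nat_lit 3) (nat_lit 4) (nat_lit 393) (nat_lit 261) (nat_lit 246)) (XT.nd (nat_lit 78) (nat_lit 0) (nat_lit 0) (XT.lf (nat_lit 0) (nat_lit 28047823309) (nat_lit 76) (nat_lit 40003996927) (nat_lit 76) (nat_lit 37171443110) (nat_lit 2) (nat_lit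 4) (nat_lit 3) (nat_lit 5) (nat_lit 3) (nat_lit 4) (nat_lit 394) (nat_lit 261) (nat_lit 245)) (XT.lf (nat_lit 0) (nat_lit 38077334345) (nat_lit 76) (nat_lit 37609153955) (nat_lit 76) (nat_lit 34662569862) (nat_lit 2) (nat_lit 4) (nat_lit 3) (nat_lit 5) (nat_lit 3) (nat_lit 4) (nat_lit 395) (nat_lit 261) (nat_lit 244)))) (XT.nd (nat_lit 78) (nat_lit 0) (nat_lit 0) (XT.lf (nat_lit 0) (nat_lit 4173044845) (nat_lit 152) (nat_lit 14538486402) (nat_lit 0) (nat_lit 4173044845) (nat_lit 6) (nat_lit 5) (nat_lit 8) (nat_lit 4) (nat_lit 6) (nat_lit 4) (nat_lit 376) (nat_lit 262) (nat_lit 262)) (XT.nd (nat_lit 78) (nat_lit 0) (nat_lit 0) (XT.lf (nat_lit 0) (nat_lit 15306217003) (nat_lit 152) (nat_lit 17508658833) (nat_lit 0) (nat_lit 15037016738) (nat_lit 6) (nat_lit 5) (nat_lit 8) (nat_lit 4) (nat_lit 6) (nat_lit 4) (nat_lit 377) (nat_lit 262) (nat_lit 261)) (XT.lf (nat_lit 0) (nat_lit 22399416112) (nat_lit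 152) (nat_lit 5771997264) (nat_lit 0) (nat_lit 21873834643) (nat_lit 6) (nat_lit 5) (nat_lit 8) (nat_lit 4) (nat_lit 6) (nat_lit 4) (nat_lit 378) (nat_lit 262) (nat_lit 260))))))))
noncomputable def xc2 : XT := (XT.nd (nat_lit 46878) (nat_lit 0) (nat_lit 0) (XT.nd (nat_lit 858) (nat_lit 76) (nat_lit 0) (XT.nd (nat_lit 390) (nat_lit 152) (nat_lit 0) (XT.nd (nat_lit 156) (nat_lit 0) (nat_lit 0) (XT.nd (nat_lit 78) (nat_lit 0) (nat_lit 0) (XT.lf (nat_lit 0) (nat_lit 6283571446) (nat_lit 76) (nat_lit 23419405674) (nat_lit 76) (nat_lit 22649651629) (nat_lit 5) (nat_lit 4) (nat_lit 6) (nat_lit 5) (nat_lit 6) (nat_lit 4) (nat_lit 379) (nat_lit 262) (nat_lit 259)) (XT.lf (nat_lit 0) (nat_lit 18683190092) (nat_lit 76) (nat_lit 18549345209) (nat_lit 76) (nat_lit 17547045855) (nat_lit 5) (nat_lit 4) (nat_lit 6) (nat_lit 5) (nat_lit 6) (nat_lit 4) (nat_lit 380) (nat_lit 262) (nat_lit 258))) (XT.nd (nat_lit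 78) (nat_lit 0) (nat_lit 0) (XT.lf (nat_lit 0) (nat_lit 31341507510) (nat_lit 76) (nat_lit 13607922455) (nat_lit 76) (nat_lit 12384151377) (nat_lit 5) (nat_lit 4) (nat_lit 6) (nat_lit 5) (nat_lit 6) (nat_lit 4) (nat_lit 381) (nat_lit 262) (nat_lit 257)) (XT.nd (nat_lit 78) (nat_lit 0) (nat_lit 0) (XT.lf (nat_lit 0) (nat_lit 44288662551) (nat_lit 76) (nat_lit 8583372118) (nat_lit 76) (nat_lit 7148675589) (nat_lit 5) (nat_lit 4) (nat_lit 6) (nat_lit 5) (nat_lit 6) (nat_lit 4) (nat_lit 382) (nat_lit 262) (nat_lit 256)) (XT.lf (nat_lit 0) (nat_lit 57555481777) (nat_lit 76) (nat_lit 3463730985) (nat_lit 76) (nat_lit 1828153073) (nat_lit 5) (nat_lit 4) (nat_lit 6) (nat_lit 5) (nat_lit 6) (nat_lit 4) (nat_lit 383) (nat_lit 262) (nat_lit 255))))) (XT.nd (nat_lit 234) (nat_lit 0) (nat_lit 0) (XT.nd (nat_lit 78) (nat_lit 0) (nat_lit 0) (XT.lf (nat_lit 0) (nat_lit 3589980194) (nat_lit 152) (nat_lit 60410866986)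 (nat_lit 0) (nat_lit 1816297171) (nat_lit 3) (nat_lit 5) (nat_lit 5) (nat_lit 4) (nat_lit 3) (nat_lit 4) (nat_lit 384) (nat_lit 262) (nat_lit 254)) (XT.nd (nat_lit 78) (nat_lit 0) (nat_lit 0) (XT.lf (nat_lit 0) (nat_lit 9170018182) (nat_lit 152) (nat_lit 52547570310) (nat_lit 0) (nat_lit 7219436775) (nat_lit 3) (nat_lit 5) (nat_lit 5) (nat_lit 4) (nat_lit 3) (nat_lit 4) (nat_lit 385) (nat_lit 262) (nat_lit 253)) (XT.lf (nat_lit 0) (nat_lit 14875230152) (nat_lit 152) (nat_lit 44586130535) (nat_lit 0) (nat_lit 12756174094) (nat_lit 3) (nat_lit 5) (nat_lit 5) (nat_lit 4) (nat_lit 3) (nat_lit 4) (nat_lit 386) (nat_lit 262) (nat_lit 252)))) (XT.nd (nat_lit 78) (nat_lit 0) (nat_lit 0) (XT.lf (nat_lit 0) (nat_lit 20719199942) (nat_lit 152) (nat_lit 36507591851) (nat_lit 0) (nat_lit 18439691835) (nat_lit 3) (nat_lit 5) (nat_lit 5) (nat_lit 4) (nat_lit 3) (nat_lit 4) (nat_lit 387) (nat_lit 262) (nat_lit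 251)) (XT.nd (nat_lit 78) (nat_lit 0) (nat_lit 0) (XT.lf (nat_lit 0) (nat_lit 26715841766) (nat_lit 152) (nat_lit 28292719644) (nat_lit 0) (nat_lit 24283522185) (nat_lit 3) (nat_lit 5) (nat_lit 5) (nat_lit 4) (nat_lit 3) (nat_lit 4) (nat_lit 388) (nat_lit 262) (nat_lit 250)) (XT.lf (nat_lit 0) (nat_lit 32879433343) (nat_lit 152) (nat_lit 19921954693) (nat_lit 0) (nat_lit 30301579024) (nat_lit 3) (nat_lit 5) (nat_lit 5) (nat_lit 4) (nat_lit 3) (nat_lit 4) (nat_lit 389) (nat_lit 262) (nat_lit 249)))))) (XT.nd (nat_lit 390) (nat_lit 0) (nat_lit 0) (XT.nd (nat_lit 156) (nat_lit 76) (nat_lit 0) (XT.nd (nat_lit 78) (nat_lit 0) (nat_lit 0) (XT.lf (nat_lit 0) (nat_lit 39224649891) (nat_lit 152) (nat_lit 11375366606) (nat_lit 0) (nat_lit 36508191059) (nat_lit 3) (nat_lit 5) (nat_lit 5) (nat_lit 4) (nat_lit 3) (nat_lit 4) (nat_lit 390) (nat_lit 262) (nat_lit 248)) (XT.lf (nat_lit 0) (nat_lit 45766599068)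 (nat_lit 152) (nat_lit 2632606363) (nat_lit 0) (nat_lit 42918135938) (nat_lit 3) (nat_lit 5) (nat_lit 5) (nat_lit 4) (nat_lit 3) (nat_lit 4) (nat_lit 391) (nat_lit 262) (nat_lit 247))) (XT.nd (nat_lit 78) (nat_lit 0) (nat_lit 0) (XT.lf (nat_lit 0) (nat_lit 6453064664) (nat_lit 76) (nat_lit 46129823084) (nat_lit 76) (nat_lit 43155641576) (nat_lit 2) (nat_lit 4) (nat_lit 3) (nat_lit 5) (nat_lit 3) (nat_lit 4) (nat_lit 392) (nat_lit 262) (nat_lit 246)) (XT.nd (nat_lit 78) (nat_lit 0) (nat_lit 0) (XT.lf (nat_lit 0) (nat_lit 15834193762) (nat_lit 76) (nat_lit 43821519279) (nat_lit 76) (nat_lit 40727605981) (nat_lit 2) (nat_lit 4) (nat_lit 3) (nat_lit 5) (nat_lit 3) (nat_lit 4) (nat_lit 393) (nat_lit 262) (nat_lit 245)) (XT.lf (nat_lit 0) (nat_lit 25480722922) (nat_lit 76) (nat_lit 41495382216) (nat_lit 76) (nat_lit 38287438643) (nat_lit 2) (nat_lit 4) (nat_lit 3) (nat_lit 5) (nat_lit 3) (nat_lit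 4) (nat_lit 394) (nat_lit 262) (nat_lit 244))))) (XT.nd (nat_lit 45396) (nat_lit 0) (nat_lit 304) (XT.nd (nat_lit 45240) (nat_lit 0) (nat_lit 304) (XT.lf (nat_lit 0) (nat_lit 35415620071) (nat_lit 76) (nat_lit 39145873476) (nat_lit 76) (nat_lit 35829329640) (nat_lit 2) (nat_lit 4) (nat_lit 3) (nat_lit 5) (nat_lit 3) (nat_lit 4) (nat_lit 395) (nat_lit 262) (nat_lit 243)) (XT.nd (nat_lit 78) (nat_lit 152) (nat_lit 0) (XT.lf (nat_lit 0) (nat_lit 16158188702) (nat_lit 76) (nat_lit 2397614218) (nat_lit 76) (nat_lit 2397614218) (nat_lit 8) (nat_lit 4) (nat_lit 9) (nat_lit 5) (nat_lit 9) (nat_lit 4) (nat_lit 374) (nat_lit 263) (nat_lit 263)) (XT.lf (nat_lit 0) (nat_lit 1785122724) (nat_lit 152) (nat_lit 40504482783) (nat_lit 0) (nat_lit 1502462446) (nat_lit 6) (nat_lit 5) (nat_lit 8) (nat_lit 4) (nat_lit 6) (nat_lit 4) (nat_lit 375) (nat_lit 263) (nat_lit 262)))) (XT.nd (nat_lit 78) (nat_lit 0) (nat_lit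 0) (XT.lf (nat_lit 0) (nat_lit 8518661532) (nat_lit 152) (nat_lit 29287007686) (nat_lit 0) (nat_lit 7966800990) (nat_lit 6) (nat_lit 5) (nat_lit 8) (nat_lit 4) (nat_lit 6) (nat_lit 4) (nat_lit 376) (nat_lit 263) (nat_lit 261)) (XT.nd (nat_lit 78) (nat_lit 0) (nat_lit 0) (XT.lf (nat_lit 0) (nat_lit 15373942713) (nat_lit 152) (nat_lit 17918726934) (nat_lit 0) (nat_lit 14565700966) (nat_lit 6) (nat_lit 5) (nat_lit 8) (nat_lit 4) (nat_lit 6) (nat_lit 4) (nat_lit 377) (nat_lit 263) (nat_lit 260)) (XT.lf (nat_lit 0) (nat_lit 22367288364) (nat_lit 152) (nat_lit 6372573193) (nat_lit 0) (nat_lit 21314874042) (nat_lit 6) (nat_lit 5) (nat_lit 8) (nat_lit 4) (nat_lit 6) (nat_lit 4) (nat_lit 378) (nat_lit 263) (nat_lit 259))))))) (XT.nd (nat_lit 858) (nat_lit 76) (nat_lit 0) (XT.nd (nat_lit 390) (nat_lit 152) (nat_lit 0) (XT.nd (nat_lit 156) (nat_lit 0) (nat_lit 0) (XT.nd (nat_lit 78) (nat_lit 0) (nat_lit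 0) (XT.lf (nat_lit 0) (nat_lit 5485995919) (nat_lit 76) (nat_lit 24082088138) (nat_lit 76) (nat_lit 22797128506) (nat_lit 5) (nat_lit 4) (nat_lit 6) (nat_lit 5) (nat_lit 6) (nat_lit 4) (nat_lit 379) (nat_lit 263) (nat_lit 258)) (XT.lf (nat_lit 0) (nat_lit 17709379364) (nat_lit 76) (nat_lit 19295998763) (nat_lit 76) (nat_lit 17789567407) (nat_lit 5) (nat_lit 4) (nat_lit 6) (nat_lit 5) (nat_lit 6) (nat_lit 4) (nat_lit 380) (nat_lit 263) (nat_lit 257))) (XT.nd (nat_lit 78) (nat_lit 0) (nat_lit 0) (XT.lf (nat_lit 0) (nat_lit 30199853735) (nat_lit 76) (nat_lit 14434548475) (nat_lit 76) (nat_lit 12717191668) (nat_lit 5) (nat_lit 4) (nat_lit 6) (nat_lit 5) (nat_lit 6) (nat_lit 4) (nat_lit 381) (nat_lit 263) (nat_lit 256)) (XT.nd (nat_lit 78) (nat_lit 0) (nat_lit 0) (XT.lf (nat_lit 0) (nat_lit 42987158255) (nat_lit 76) (nat_lit 9486162392) (nat_lit 76) (nat_lit 7567924203) (nat_lit 5) (nat_lit 4) (nat_lit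 6) (nat_lit 5) (nat_lit 6) (nat_lit 4) (nat_lit 382) (nat_lit 263) (nat_lit 255)) (XT.lf (nat_lit 0) (nat_lit 56101738889) (nat_lit 76) (nat_lit 4439058643) (nat_lit 76) (nat_lit 2329504852) (nat_lit 5) (nat_lit 4) (nat_lit 6) (nat_lit 5) (nat_lit 6) (nat_lit 4) (nat_lit 383) (nat_lit 263) (nat_lit 254))))) (XT.nd (nat_lit 234) (nat_lit 0) (nat_lit 0) (XT.nd (nat_lit 78) (nat_lit 0) (nat_lit 0) (XT.lf (nat_lit 0) (nat_lit 2995625651) (nat_lit 152) (nat_lit 62077076714) (nat_lit 0) (nat_lit 770616791) (nat_lit 3) (nat_lit 5) (nat_lit 5) (nat_lit 4) (nat_lit 3) (nat_lit 4) (nat_lit 384) (nat_lit 263) (nat_lit 253)) (XT.nd (nat_lit 78) (nat_lit 0) (nat_lit 0) (XT.lf (nat_lit 0) (nat_lit 8500625631) (nat_lit 152) (nat_lit 54357693079) (nat_lit 0) (nat_lit 6107142119) (nat_lit 3) (nat_lit 5) (nat_lit 5) (nat_lit 4) (nat_lit 3) (nat_lit 4) (nat_lit 385) (nat_lit 263) (nat_lit 252)) (XT.lf (nat_lit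 0) (nat_lit 14134372831) (nat_lit 152) (nat_lit 46533313343) (nat_lit 0) (nat_lit 11580437270) (nat_lit 3) (nat_lit 5) (nat_lit 5) (nat_lit 4) (nat_lit 3) (nat_lit 4) (nat_lit 386) (nat_lit 263) (nat_lit 251)))) (XT.nd (nat_lit 78) (nat_lit 0) (nat_lit 0) (XT.lf (nat_lit 0) (nat_lit 19910280935) (nat_lit 152) (nat_lit 38585308030) (nat_lit 0) (nat_lit 17203533900) (nat_lit 3) (nat_lit 5) (nat_lit 5) (nat_lit 4) (nat_lit 3) (nat_lit 4) (nat_lit 387) (nat_lit 263) (nat_lit 250)) (XT.nd (nat_lit 78) (nat_lit 0) (nat_lit 0) (XT.lf (nat_lit 0) (nat_lit 25842102107) (nat_lit 152) (nat_lit 30494753319) (nat_lit 0) (nat_lit 22989820333) (nat_lit 3) (nat_lit 5) (nat_lit 5) (nat_lit 4) (nat_lit 3) (nat_lit 4) (nat_lit 388) (nat_lit 263) (nat_lit 249)) (XT.lf (nat_lit 0) (nat_lit 31943959729) (nat_lit 152) (nat_lit 22242385983) (nat_lit 0) (nat_lit 28953073442) (nat_lit 3) (nat_lit 5) (nat_lit 5) (nat_lit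 4) (nat_lit 3) (nat_lit 4) (nat_lit 389) (nat_lit 263) (nat_lit 248)))))) (XT.nd (nat_lit 45474) (nat_lit 0) (nat_lit 304) (XT.nd (nat_lit 234) (nat_lit 0) (nat_lit 0) (XT.nd (nat_lit 78) (nat_lit 76) (nat_lit 0) (XT.lf (nat_lit 0) (nat_lit 38230382033) (nat_lit 152) (nat_lit 13808557530) (nat_lit 0) (nat_lit 35107491450) (nat_lit 3) (nat_lit 5) (nat_lit 5) (nat_lit 4) (nat_lit 3) (nat_lit 4) (nat_lit 390) (nat_lit 263) (nat_lit 247)) (XT.nd (nat_lit 78) (nat_lit 76) (nat_lit 0) (XT.lf (nat_lit 0) (nat_lit 44716336693) (nat_lit 152) (nat_lit 5173187414) (nat_lit 0) (nat_lit 41467727731) (nat_lit 3) (nat_lit 5) (nat_lit 5) (nat_lit 4) (nat_lit 3) (nat_lit 4) (nat_lit 391) (nat_lit 263) (nat_lit 246)) (XT.lf (nat_lit 0) (nat_lit 3757609258) (nat_lit 76) (nat_lit 47695777638) (nat_lit 76) (nat_lit 44327436886) (nat_lit 2) (nat_lit 4) (nat_lit 3) (nat_lit 5) (nat_lit 3) (nat_lit 4) (nat_lit 392)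 (nat_lit 263) (nat_lit 245)))) (XT.nd (nat_lit 78) (nat_lit 0) (nat_lit 0) (XT.lf (nat_lit 0) (nat_lit 13039393774) (nat_lit 76) (nat_lit 45435074775) (nat_lit 76) (nat_lit 41952703748) (nat_lit 2) (nat_lit 4) (nat_lit 3) (nat_lit 5) (nat_lit 3) (nat_lit 4) (nat_lit 393) (nat_lit 263) (nat_lit 244)) (XT.nd (nat_lit 78) (nat_lit 0) (nat_lit 0) (XT.lf (nat_lit 0) (nat_lit 22591309047) (nat_lit 76) (nat_lit 43154271944) (nat_lit 76) (nat_lit 39563300655) (nat_lit 2) (nat_lit 4) (nat_lit 3) (nat_lit 5) (nat_lit 3) (nat_lit 4) (nat_lit 394) (nat_lit 263) (nat_lit 243)) (XT.lf (nat_lit 0) (nat_lit 32436097732) (nat_lit 76) (nat_lit 40847938662) (nat_lit 76) (nat_lit 37153538551) (nat_lit 2) (nat_lit 4) (nat_lit 3) (nat_lit 5) (nat_lit 3) (nat_lit 4) (nat_lit 395) (nat_lit 263) (nat_lit 242))))) (XT.nd (nat_lit 234) (nat_lit 152) (nat_lit 0) (XT.nd (nat_lit 78) (nat_lit 0) (nat_lit 0) (XT.lf (nat_lit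 0) (nat_lit 1951880803) (nat_lit 76) (nat_lit 8627566123) (nat_lit 76) (nat_lit 8627566123) (nat_lit 8) (nat_lit 4) (nat_lit 9) (nat_lit 5) (nat_lit 9) (nat_lit 4) (nat_lit 372) (nat_lit 264) (nat_lit 264)) (XT.nd (nat_lit 78) (nat_lit 0) (nat_lit 0) (XT.lf (nat_lit 0) (nat_lit 17871937589) (nat_lit 76) (nat_lit 11274937233) (nat_lit 76) (nat_lit 10969240142) (nat_lit 8) (nat_lit 4) (nat_lit 9) (nat_lit 5) (nat_lit 9) (nat_lit 4) (nat_lit 373) (nat_lit 264) (nat_lit 263)) (XT.lf (nat_lit 0) (nat_lit 32104810769) (nat_lit 76) (nat_lit 5201109393) (nat_lit 76) (nat_lit 4604272216) (nat_lit 8) (nat_lit 4) (nat_lit 9) (nat_lit 5) (nat_lit 9) (nat_lit 4) (nat_lit 374) (nat_lit 264) (nat_lit 262)))) (XT.nd (nat_lit 78) (nat_lit 0) (nat_lit 0) (XT.lf (nat_lit 0) (nat_lit 1856234719) (nat_lit 152) (nat_lit 40935054289) (nat_lit 0) (nat_lit 1007580886) (nat_lit 6) (nat_lit 5) (nat_lit 8) (nat_lit 4)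 (nat_lit 6) (nat_lit 4) (nat_lit 375) (nat_lit 264) (nat_lit 261)) (XT.nd (nat_lit 78) (nat_lit 0) (nat_lit 0) (XT.lf (nat_lit 0) (nat_lit 8484927397) (nat_lit 152) (nat_lit 29917612411) (nat_lit 0) (nat_lit 7379892359) (nat_lit 6) (nat_lit 5) (nat_lit 8) (nat_lit 4) (nat_lit 6) (nat_lit 4) (nat_lit 376) (nat_lit 264) (nat_lit 260)) (XT.lf (nat_lit 0) (nat_lit 15240355120) (nat_lit 152) (nat_lit 18739839488) (nat_lit 0) (nat_lit 13891147506) (nat_lit 6) (nat_lit 5) (nat_lit 8) (nat_lit 4) (nat_lit 6) (nat_lit 4) (nat_lit 377) (nat_lit 264) (nat_lit 259))))))))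
noncomputable def xc3 : XT := (XT.nd (nat_lit 46644) (nat_lit 0) (nat_lit 0) (XT.nd (nat_lit 858) (nat_lit 76) (nat_lit 0) (XT.nd (nat_lit 390) (nat_lit 152) (nat_lit 0) (XT.nd (nat_lit 156) (nat_lit 0) (nat_lit 0) (XT.nd (nat_lit 78) (nat_lit 76) (nat_lit 0) (XT.lf (nat_lit 0) (nat_lit 22138602240) (nat_lit 152) (nat_lit 7375121774) (nat_lit 0) (nat_lit 20556849316) (nat_lit 6) (nat_lit 5) (nat_lit 8) (nat_lit 4) (nat_lit 6) (nat_lit 4) (nat_lit 378) (nat_lit 264) (nat_lit 258)) (XT.lf (nat_lit 0) (nat_lit 4287259455) (nat_lit 76) (nat_lit 24950045459) (nat_lit 76) (nat_lit 23146820812) (nat_lit 5) (nat_lit 4) (nat_lit 6) (nat_lit 5) (nat_lit 6) (nat_lit 4) (nat_lit 379) (nat_lit 264) (nat_lit 257))) (XT.nd (nat_lit 78) (nat_lit 0) (nat_lit 0) (XT.lf (nat_lit 0) (nat_lit 16342799854) (nat_lit 76) (nat_lit 20243928551) (nat_lit 76) (nat_lit 18229778452) (nat_lit 5) (nat_lit 4) (nat_lit 6) (nat_lit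 5) (nat_lit 6) (nat_lit 4) (nat_lit 380) (nat_lit 264) (nat_lit 256)) (XT.nd (nat_lit 78) (nat_lit 0) (nat_lit 0) (XT.lf (nat_lit 0) (nat_lit 28673423703) (nat_lit 76) (nat_lit 15458642516) (nat_lit 76) (nat_lit 13243611035) (nat_lit 5) (nat_lit 4) (nat_lit 6) (nat_lit 5) (nat_lit 6) (nat_lit 4) (nat_lit 381) (nat_lit 264) (nat_lit 255)) (XT.lf (nat_lit 0) (nat_lit 41308489632) (nat_lit 76) (nat_lit 10582793818) (nat_lit 76) (nat_lit 8176446735) (nat_lit 5) (nat_lit 4) (nat_lit 6) (nat_lit 5) (nat_lit 6) (nat_lit 4) (nat_lit 382) (nat_lit 264) (nat_lit 254))))) (XT.nd (nat_lit 234) (nat_lit 0) (nat_lit 0) (XT.nd (nat_lit 78) (nat_lit 152) (nat_lit 0) (XT.lf (nat_lit 0) (nat_lit 54278081130) (nat_lit 76) (nat_lit 5604773292) (nat_lit 76) (nat_lit 3016220873) (nat_lit 5) (nat_lit 4) (nat_lit 6) (nat_lit 5) (nat_lit 6) (nat_lit 4) (nat_lit 383) (nat_lit 264) (nat_lit 253)) (XT.nd (nat_lit 78)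 (nat_lit 0) (nat_lit 0) (XT.lf (nat_lit 0) (nat_lit 1749134041) (nat_lit 76) (nat_lit 473139530) (nat_lit 152) (nat_lit 63653027238) (nat_lit 3) (nat_lit 5) (nat_lit 4) (nat_lit 5) (nat_lit 5) (nat_lit 4) (nat_lit 384) (nat_lit 264) (nat_lit 252)) (XT.lf (nat_lit 0) (nat_lit 7651260674) (nat_lit 152) (nat_lit 56539295066) (nat_lit 0) (nat_lit 4809176286) (nat_lit 3) (nat_lit 5) (nat_lit 5) (nat_lit 4) (nat_lit 3) (nat_lit 4) (nat_lit 385) (nat_lit 264) (nat_lit 251)))) (XT.nd (nat_lit 78) (nat_lit 0) (nat_lit 0) (XT.lf (nat_lit 0) (nat_lit 13216946188) (nat_lit 152) (nat_lit 48845448701) (nat_lit 0) (nat_lit 10222050326) (nat_lit 3) (nat_lit 5) (nat_lit 5) (nat_lit 4) (nat_lit 3) (nat_lit 4) (nat_lit 386) (nat_lit 264) (nat_lit 250)) (XT.nd (nat_lit 78) (nat_lit 0) (nat_lit 0) (XT.lf (nat_lit 0) (nat_lit 18928033640) (nat_lit 152) (nat_lit 41021760885) (nat_lit 0) (nat_lit 15787603040) (nat_lit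 3) (nat_lit 5) (nat_lit 5) (nat_lit 4) (nat_lit 3) (nat_lit 4) (nat_lit 387) (nat_lit 264) (nat_lit 249)) (XT.lf (nat_lit 0) (nat_lit 24798120856) (nat_lit 152) (nat_lit 33049603789) (nat_lit 0) (nat_lit 21519085743) (nat_lit 3) (nat_lit 5) (nat_lit 5) (nat_lit 4) (nat_lit 3) (nat_lit 4) (nat_lit 388) (nat_lit 264) (nat_lit 248)))))) (XT.nd (nat_lit 468) (nat_lit 0) (nat_lit 0) (XT.nd (nat_lit 234) (nat_lit 76) (nat_lit 0) (XT.nd (nat_lit 78) (nat_lit 0) (nat_lit 0) (XT.lf (nat_lit 0) (nat_lit 30841184235) (nat_lit 152) (nat_lit 24909996087) (nat_lit 0) (nat_lit 27430144824) (nat_lit 3) (nat_lit 5) (nat_lit 5) (nat_lit 4) (nat_lit 3) (nat_lit 4) (nat_lit 389) (nat_lit 264) (nat_lit 247)) (XT.nd (nat_lit 78) (nat_lit 0) (nat_lit 0) (XT.lf (nat_lit 0) (nat_lit 37071612023) (nat_lit 152) (nat_lit 16583557760) (nat_lit 0) (nat_lit 33534854233) (nat_lit 3) (nat_lit 5) (nat_lit 5) (nat_lit 4) (nat_lit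 3) (nat_lit 4) (nat_lit 390) (nat_lit 264) (nat_lit 246)) (XT.lf (nat_lit 0) (nat_lit 43504238571) (nat_lit 152) (nat_lit 8050463957) (nat_lit 0) (nat_lit 39847748992) (nat_lit 3) (nat_lit 5) (nat_lit 5) (nat_lit 4) (nat_lit 3) (nat_lit 4) (nat_lit 391) (nat_lit 264) (nat_lit 245)))) (XT.nd (nat_lit 78) (nat_lit 0) (nat_lit 0) (XT.lf (nat_lit 0) (nat_lit 723724689) (nat_lit 76) (nat_lit 49437611852) (nat_lit 76) (nat_lit 45667091998) (nat_lit 2) (nat_lit 4) (nat_lit 3) (nat_lit 5) (nat_lit 3) (nat_lit 4) (nat_lit 392) (nat_lit 264) (nat_lit 244)) (XT.nd (nat_lit 78) (nat_lit 0) (nat_lit 0) (XT.lf (nat_lit 0) (nat_lit 9910895318) (nat_lit 76) (nat_lit 47222243221) (nat_lit 76) (nat_lit 43343123105) (nat_lit 2) (nat_lit 4) (nat_lit 3) (nat_lit 5) (nat_lit 3) (nat_lit 4) (nat_lit 393) (nat_lit 264) (nat_lit 243)) (XT.lf (nat_lit 0) (nat_lit 19372702126) (nat_lit 76) (nat_lit 44984615849) (nat_lit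 76) (nat_lit 41002066911) (nat_lit 2) (nat_lit 4) (nat_lit 3) (nat_lit 5) (nat_lit 3) (nat_lit 4) (nat_lit 394) (nat_lit 264) (nat_lit 242))))) (XT.nd (nat_lit 45084) (nat_lit 0) (nat_lit 456) (XT.nd (nat_lit 44928) (nat_lit 0) (nat_lit 532) (XT.lf (nat_lit 0) (nat_lit 29131673227) (nat_lit 76) (nat_lit 42719402051) (nat_lit 76) (nat_lit 38638349474) (nat_lit 2) (nat_lit 4) (nat_lit 3) (nat_lit 5) (nat_lit 3) (nat_lit 4) (nat_lit 395) (nat_lit 264) (nat_lit 241)) (XT.nd (nat_lit 78) (nat_lit 0) (nat_lit 0) (XT.lf (nat_lit 0) (nat_lit 3143303232) (nat_lit 152) (nat_lit 11343112689) (nat_lit 0) (nat_lit 3143303232) (nat_lit 9) (nat_lit 5) (nat_lit 11) (nat_lit 4) (nat_lit 9) (nat_lit 4) (nat_lit 370) (nat_lit 265) (nat_lit 265)) (XT.lf (nat_lit 0) (nat_lit 13738460771) (nat_lit 152) (nat_lit 9641097984) (nat_lit 0) (nat_lit 13417478827) (nat_lit 9) (nat_lit 5) (nat_lit 11) (nat_lit 4) (nat_lit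 9) (nat_lit 4) (nat_lit 371) (nat_lit 265) (nat_lit 264)))) (XT.nd (nat_lit 78) (nat_lit 0) (nat_lit 0) (XT.lf (nat_lit 0) (nat_lit 3681616640) (nat_lit 76) (nat_lit 17681307252) (nat_lit 76) (nat_lit 17054628217) (nat_lit 8) (nat_lit 4) (nat_lit 9) (nat_lit 5) (nat_lit 9) (nat_lit 4) (nat_lit 372) (nat_lit 265) (nat_lit 263)) (XT.nd (nat_lit 78) (nat_lit 0) (nat_lit 0) (XT.lf (nat_lit 0) (nat_lit 17438225988) (nat_lit 76) (nat_lit 11801296103) (nat_lit 76) (nat_lit 10883476982) (nat_lit 8) (nat_lit 4) (nat_lit 9) (nat_lit 5) (nat_lit 9) (nat_lit 4) (nat_lit 373) (nat_lit 265) (nat_lit 262)) (XT.lf (nat_lit 0) (nat_lit 31469607136) (nat_lit 76) (nat_lit 5822881469) (nat_lit 76) (nat_lit 4627786075) (nat_lit 8) (nat_lit 4) (nat_lit 9) (nat_lit 5) (nat_lit 9) (nat_lit 4) (nat_lit 374) (nat_lit 265) (nat_lit 261))))))) (XT.nd (nat_lit 858) (nat_lit 76) (nat_lit 0) (XT.nd (nat_lit 390) (nat_lit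 152) (nat_lit 0) (XT.nd (nat_lit 156) (nat_lit 76) (nat_lit 0) (XT.nd (nat_lit 78) (nat_lit 0) (nat_lit 0) (XT.lf (nat_lit 0) (nat_lit 1715967747) (nat_lit 152) (nat_lit 41797222470) (nat_lit 0) (nat_lit 299299753) (nat_lit 6) (nat_lit 5) (nat_lit 8) (nat_lit 4) (nat_lit 6) (nat_lit 4) (nat_lit 375) (nat_lit 265) (nat_lit 260)) (XT.lf (nat_lit 0) (nat_lit 8244806966) (nat_lit 152) (nat_lit 30970288421) (nat_lit 0) (nat_lit 6583966397) (nat_lit 6) (nat_lit 5) (nat_lit 8) (nat_lit 4) (nat_lit 6) (nat_lit 4) (nat_lit 376) (nat_lit 265) (nat_lit 259))) (XT.nd (nat_lit 78) (nat_lit 76) (nat_lit 0) (XT.lf (nat_lit 0) (nat_lit 14905136158) (nat_lit 152) (nat_lit 19973951525) (nat_lit 0) (nat_lit 13011750278) (nat_lit 6) (nat_lit 5) (nat_lit 8) (nat_lit 4) (nat_lit 6) (nat_lit 4) (nat_lit 377) (nat_lit 265) (nat_lit 258)) (XT.nd (nat_lit 78) (nat_lit 76) (nat_lit 0) (XT.lf (nat_lit 0) (nat_lit 21712813248)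 (nat_lit 152) (nat_lit 8782030027) (nat_lit 0) (nat_lit 19597955645) (nat_lit 6) (nat_lit 5) (nat_lit 8) (nat_lit 4) (nat_lit 6) (nat_lit 4) (nat_lit 378) (nat_lit 265) (nat_lit 257)) (XT.lf (nat_lit 0) (nat_lit 2684507922) (nat_lit 76) (nat_lit 26025344203) (nat_lit 76) (nat_lit 23699561148) (nat_lit 5) (nat_lit 4) (nat_lit 6) (nat_lit 5) (nat_lit 6) (nat_lit 4) (nat_lit 379) (nat_lit 265) (nat_lit 256))))) (XT.nd (nat_lit 234) (nat_lit 152) (nat_lit 0) (XT.nd (nat_lit 78) (nat_lit 0) (nat_lit 0) (XT.lf (nat_lit 0) (nat_lit 14580197798) (nat_lit 76) (nat_lit 21395391547) (nat_lit 76) (nat_lit 18868727110) (nat_lit 5) (nat_lit 4) (nat_lit 6) (nat_lit 5) (nat_lit 6) (nat_lit 4) (nat_lit 380) (nat_lit 265) (nat_lit 255)) (XT.nd (nat_lit 78) (nat_lit 0) (nat_lit 0) (XT.lf (nat_lit 0) (nat_lit 26758583056) (nat_lit 76) (nat_lit 16682642897) (nat_lit 76) (nat_lit 13964662858) (nat_lit 5) (nat_lit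 4) (nat_lit 6) (nat_lit 5) (nat_lit 6) (nat_lit 4) (nat_lit 381) (nat_lit 265) (nat_lit 254)) (XT.lf (nat_lit 0) (nat_lit 39248659850) (nat_lit 76) (nat_lit 11875877422) (nat_lit 76) (nat_lit 8975692047) (nat_lit 5) (nat_lit 4) (nat_lit 6) (nat_lit 5) (nat_lit 6) (nat_lit 4) (nat_lit 382) (nat_lit 265) (nat_lit 253)))) (XT.nd (nat_lit 78) (nat_lit 152) (nat_lit 0) (XT.lf (nat_lit 0) (nat_lit 52080166458) (nat_lit 76) (nat_lit 6963650442) (nat_lit 76) (nat_lit 3889936177) (nat_lit 5) (nat_lit 4) (nat_lit 6) (nat_lit 5) (nat_lit 6) (nat_lit 4) (nat_lit 383) (nat_lit 265) (nat_lit 252)) (XT.nd (nat_lit 78) (nat_lit 76) (nat_lit 0) (XT.lf (nat_lit 0) (nat_lit 1279254032) (nat_lit 152) (nat_lit 642094188) (nat_lit 76) (nat_lit 63991482096) (nat_lit 4) (nat_lit 5) (nat_lit 6) (nat_lit 5) (nat_lit 5) (nat_lit 4) (nat_lit 384) (nat_lit 265) (nat_lit 251)) (XT.lf (nat_lit 0) (nat_lit 6619901014) (nat_lit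 152) (nat_lit 59097570564) (nat_lit 0) (nat_lit 3322448883) (nat_lit 3) (nat_lit 5) (nat_lit 5) (nat_lit 4) (nat_lit 3) (nat_lit 4) (nat_lit 385) (nat_lit 265) (nat_lit 250)))))) (XT.nd (nat_lit 468) (nat_lit 76) (nat_lit 0) (XT.nd (nat_lit 234) (nat_lit 0) (nat_lit 0) (XT.nd (nat_lit 78) (nat_lit 0) (nat_lit 0) (XT.lf (nat_lit 0) (nat_lit 12120765875) (nat_lit 152) (nat_lit 51528041695) (nat_lit 0) (nat_lit 8677779007) (nat_lit 3) (nat_lit 5) (nat_lit 5) (nat_lit 4) (nat_lit 3) (nat_lit 4) (nat_lit 386) (nat_lit 265) (nat_lit 249)) (XT.nd (nat_lit 78) (nat_lit 0) (nat_lit 0) (XT.lf (nat_lit 0) (nat_lit 17770119372) (nat_lit 152) (nat_lit 43822751493) (nat_lit 0) (nat_lit 14188527991) (nat_lit 3) (nat_lit 5) (nat_lit 5) (nat_lit 4) (nat_lit 3) (nat_lit 4) (nat_lit 387) (nat_lit 265) (nat_lit 248)) (XT.lf (nat_lit 0) (nat_lit 23581412345) (nat_lit 152) (nat_lit 35963354031) (nat_lit 0) (nat_lit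 19867816666) (nat_lit 3) (nat_lit 5) (nat_lit 5) (nat_lit 4) (nat_lit 3) (nat_lit 4) (nat_lit 388) (nat_lit 265) (nat_lit 247)))) (XT.nd (nat_lit 78) (nat_lit 0) (nat_lit 0) (XT.lf (nat_lit 0) (nat_lit 29568481207) (nat_lit 152) (nat_lit 27931136456) (nat_lit 0) (nat_lit 25729167149) (nat_lit 3) (nat_lit 5) (nat_lit 5) (nat_lit 4) (nat_lit 3) (nat_lit 4) (nat_lit 389) (nat_lit 265) (nat_lit 246)) (XT.nd (nat_lit 78) (nat_lit 0) (nat_lit 0) (XT.lf (nat_lit 0) (nat_lit 35745580883) (nat_lit 152) (nat_lit 19706974441) (nat_lit 0) (nat_lit 31786535036) (nat_lit 3) (nat_lit 5) (nat_lit 5) (nat_lit 4) (nat_lit 3) (nat_lit 4) (nat_lit 390) (nat_lit 265) (nat_lit 245)) (XT.lf (nat_lit 0) (nat_lit 42127418753) (nat_lit 152) (nat_lit 11271286649) (nat_lit 0) (nat_lit 38054342631) (nat_lit 3) (nat_lit 5) (nat_lit 5) (nat_lit 4) (nat_lit 3) (nat_lit 4) (nat_lit 391) (nat_lit 265) (nat_lit 244))))) (XT.nd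 (nat_lit 234) (nat_lit 0) (nat_lit 0) (XT.nd (nat_lit 78) (nat_lit 76) (nat_lit 0) (XT.lf (nat_lit 0) (nat_lit 48729189670) (nat_lit 152) (nat_lit 2603988107) (nat_lit 0) (nat_lit 44547513286) (nat_lit 3) (nat_lit 5) (nat_lit 5) (nat_lit 4) (nat_lit 3) (nat_lit 4) (nat_lit 392) (nat_lit 265) (nat_lit 243)) (XT.nd (nat_lit 78) (nat_lit 0) (nat_lit 0) (XT.lf (nat_lit 0) (nat_lit 6441249587) (nat_lit 76) (nat_lit 49187279780) (nat_lit 76) (nat_lit 44902174574) (nat_lit 2) (nat_lit 4) (nat_lit 3) (nat_lit 5) (nat_lit 3) (nat_lit 4) (nat_lit 393) (nat_lit 265) (nat_lit 242)) (XT.lf (nat_lit 0) (nat_lit 15817238811) (nat_lit 76) (nat_lit 46990771892) (nat_lit 76) (nat_lit 42607163047) (nat_lit 2) (nat_lit 4) (nat_lit 3) (nat_lit 5) (nat_lit 3) (nat_lit 4) (nat_lit 394) (nat_lit 265) (nat_lit 241)))) (XT.nd (nat_lit 44772) (nat_lit 0) (nat_lit 684) (XT.lf (nat_lit 0) (nat_lit 25494478878) (nat_lit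 76) (nat_lit 44764719508) (nat_lit 76) (nat_lit 40287297673) (nat_lit 2) (nat_lit 4) (nat_lit 3) (nat_lit 5) (nat_lit 3) (nat_lit 4) (nat_lit 395) (nat_lit 265) (nat_lit 240)) (XT.nd (nat_lit 78) (nat_lit 0) (nat_lit 0) (XT.lf (nat_lit 0) (nat_lit 8468500350) (nat_lit 76) (nat_lit 3867960801) (nat_lit 76) (nat_lit 3867960801) (nat_lit 11) (nat_lit 4) (nat_lit 12) (nat_lit 5) (nat_lit 12) (nat_lit 4) (nat_lit 368) (nat_lit 266) (nat_lit 266)) (XT.lf (nat_lit 0) (nat_lit 32063827161) (nat_lit 76) (nat_lit 1042226406) (nat_lit 76) (nat_lit 695084433) (nat_lit 11) (nat_lit 4) (nat_lit 12) (nat_lit 5) (nat_lit 12) (nat_lit 4) (nat_lit 369) (nat_lit 266) (nat_lit 265))))))))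
noncomputable def xc4 : XT := (XT.nd (nat_lit 1716) (nat_lit 76) (nat_lit 0) (XT.nd (nat_lit 858) (nat_lit 152) (nat_lit 0) (XT.nd (nat_lit 390) (nat_lit 228) (nat_lit 0) (XT.nd (nat_lit 156) (nat_lit 76) (nat_lit 0) (XT.nd (nat_lit 78) (nat_lit 0) (nat_lit 0) (XT.lf (nat_lit 0) (nat_lit 6503080167) (nat_lit 152) (nat_lit 22914926003) (nat_lit 0) (nat_lit 5845067180) (nat_lit 9) (nat_lit 5) (nat_lit 11) (nat_lit 4) (nat_lit 9) (nat_lit 4) (nat_lit 370) (nat_lit 266) (nat_lit 264)) (XT.lf (nat_lit 0) (nat_lit 13840117961) (nat_lit 152) (nat_lit 10087608725) (nat_lit 0) (nat_lit 12876407884) (nat_lit 9) (nat_lit 5) (nat_lit 11) (nat_lit 4) (nat_lit 9) (nat_lit 4) (nat_lit 371) (nat_lit 266) (nat_lit 263))) (XT.nd (nat_lit 78) (nat_lit 0) (nat_lit 0) (XT.lf (nat_lit 0) (nat_lit 3014652825) (nat_lit 76) (nat_lit 18334167932) (nat_lit 76) (nat_lit 17079317768) (nat_lit 8) (nat_lit 4) (nat_lit 9)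 (nat_lit 5) (nat_lit 9) (nat_lit 4) (nat_lit 372) (nat_lit 266) (nat_lit 262)) (XT.nd (nat_lit 78) (nat_lit 0) (nat_lit 0) (XT.lf (nat_lit 0) (nat_lit 16569770140) (nat_lit 76) (nat_lit 12549569989) (nat_lit 76) (nat_lit 11017443553) (nat_lit 8) (nat_lit 4) (nat_lit 9) (nat_lit 5) (nat_lit 9) (nat_lit 4) (nat_lit 373) (nat_lit 266) (nat_lit 261)) (XT.lf (nat_lit 0) (nat_lit 30409254114) (nat_lit 76) (nat_lit 6662025074) (nat_lit 76) (nat_lit 4865825998) (nat_lit 8) (nat_lit 4) (nat_lit 9) (nat_lit 5) (nat_lit 9) (nat_lit 4) (nat_lit 374) (nat_lit 266) (nat_lit 260))))) (XT.nd (nat_lit 234) (nat_lit 76) (nat_lit 0) (XT.nd (nat_lit 78) (nat_lit 0) (nat_lit 0) (XT.lf (nat_lit 0) (nat_lit 733618645) (nat_lit 76) (nat_lit 636487499) (nat_lit 152) (nat_lit 42462670917) (nat_lit 6) (nat_lit 5) (nat_lit 7) (nat_lit 5) (nat_lit 8) (nat_lit 4) (nat_lit 375) (nat_lit 266) (nat_lit 259)) (XT.nd (nat_lit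 78) (nat_lit 0) (nat_lit 0) (XT.lf (nat_lit 0) (nat_lit 7797728526) (nat_lit 152) (nat_lit 32447542087) (nat_lit 0) (nat_lit 5577128042) (nat_lit 6) (nat_lit 5) (nat_lit 8) (nat_lit 4) (nat_lit 6) (nat_lit 4) (nat_lit 376) (nat_lit 266) (nat_lit 258)) (XT.lf (nat_lit 0) (nat_lit 14367487687) (nat_lit 152) (nat_lit 21624001407) (nat_lit 0) (nat_lit 11925415480) (nat_lit 6) (nat_lit 5) (nat_lit 8) (nat_lit 4) (nat_lit 6) (nat_lit 4) (nat_lit 377) (nat_lit 266) (nat_lit 257)))) (XT.nd (nat_lit 78) (nat_lit 76) (nat_lit 0) (XT.lf (nat_lit 0) (nat_lit 21088907607) (nat_lit 152) (nat_lit 10596647735) (nat_lit 0) (nat_lit 18435909948) (nat_lit 6) (nat_lit 5) (nat_lit 8) (nat_lit 4) (nat_lit 6) (nat_lit 4) (nat_lit 378) (nat_lit 266) (nat_lit 256)) (XT.nd (nat_lit 78) (nat_lit 0) (nat_lit 0) (XT.lf (nat_lit 0) (nat_lit 673925243) (nat_lit 76) (nat_lit 27310544603) (nat_lit 76) (nat_lit 24456665562)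 (nat_lit 5) (nat_lit 4) (nat_lit 6) (nat_lit 5) (nat_lit 6) (nat_lit 4) (nat_lit 379) (nat_lit 266) (nat_lit 255)) (XT.lf (nat_lit 0) (nat_lit 12417376528) (nat_lit 76) (nat_lit 22753129331) (nat_lit 76) (nat_lit 19707934689) (nat_lit 5) (nat_lit 4) (nat_lit 6) (nat_lit 5) (nat_lit 6) (nat_lit 4) (nat_lit 380) (nat_lit 266) (nat_lit 254)))))) (XT.nd (nat_lit 390) (nat_lit 0) (nat_lit 0) (XT.nd (nat_lit 156) (nat_lit 152) (nat_lit 0) (XT.nd (nat_lit 78) (nat_lit 0) (nat_lit 0) (XT.lf (nat_lit 0) (nat_lit 24450772650) (nat_lit 76) (nat_lit 18109463904) (nat_lit 76) (nat_lit 14882063926) (nat_lit 5) (nat_lit 4) (nat_lit 6) (nat_lit 5) (nat_lit 6) (nat_lit 4) (nat_lit 381) (nat_lit 266) (nat_lit 253)) (XT.lf (nat_lit 0) (nat_lit 36802764553) (nat_lit 76) (nat_lit 13368491975) (nat_lit 76) (nat_lit 9967563106) (nat_lit 5) (nat_lit 4) (nat_lit 6) (nat_lit 5) (nat_lit 6) (nat_lit 4) (nat_lit 382)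 (nat_lit 266) (nat_lit 252))) (XT.nd (nat_lit 78) (nat_lit 152) (nat_lit 0) (XT.lf (nat_lit 0) (nat_lit 49502761742) (nat_lit 76) (nat_lit 8518925515) (nat_lit 76) (nat_lit 4952731036) (nat_lit 5) (nat_lit 4) (nat_lit 6) (nat_lit 5) (nat_lit 6) (nat_lit 4) (nat_lit 383) (nat_lit 266) (nat_lit 251)) (XT.nd (nat_lit 78) (nat_lit 76) (nat_lit 0) (XT.lf (nat_lit 0) (nat_lit 170969728) (nat_lit 152) (nat_lit 3376521750) (nat_lit 76) (nat_lit 62408306117) (nat_lit 4) (nat_lit 5) (nat_lit 6) (nat_lit 5) (nat_lit 5) (nat_lit 4) (nat_lit 384) (nat_lit 266) (nat_lit 250)) (XT.lf (nat_lit 0) (nat_lit 5404091032) (nat_lit 152) (nat_lit 62038610703) (nat_lit 0) (nat_lit 1643420082) (nat_lit 3) (nat_lit 5) (nat_lit 5) (nat_lit 4) (nat_lit 3) (nat_lit 4) (nat_lit 385) (nat_lit 266) (nat_lit 249))))) (XT.nd (nat_lit 234) (nat_lit 0) (nat_lit 0) (XT.nd (nat_lit 78) (nat_lit 0) (nat_lit 0) (XT.lf (nat_lit 0)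 (nat_lit 10843221938) (nat_lit 152) (nat_lit 54587479449) (nat_lit 0) (nat_lit 6943946476) (nat_lit 3) (nat_lit 5) (nat_lit 5) (nat_lit 4) (nat_lit 3) (nat_lit 4) (nat_lit 386) (nat_lit 266) (nat_lit 248)) (XT.nd (nat_lit 78) (nat_lit 0) (nat_lit 0) (XT.lf (nat_lit 0) (nat_lit 16433781192) (nat_lit 152) (nat_lit 46994948881) (nat_lit 0) (nat_lit 12402501432) (nat_lit 3) (nat_lit 5) (nat_lit 5) (nat_lit 4) (nat_lit 3) (nat_lit 4) (nat_lit 387) (nat_lit 266) (nat_lit 247)) (XT.lf (nat_lit 0) (nat_lit 22189079648) (nat_lit 152) (nat_lit 39242941546) (nat_lit 0) (nat_lit 18032081509) (nat_lit 3) (nat_lit 5) (nat_lit 5) (nat_lit 4) (nat_lit 3) (nat_lit 4) (nat_lit 388) (nat_lit 266) (nat_lit 246)))) (XT.nd (nat_lit 78) (nat_lit 0) (nat_lit 0) (XT.lf (nat_lit 0) (nat_lit 28122820398) (nat_lit 152) (nat_lit 31313000283) (nat_lit 0) (nat_lit 23846090470) (nat_lit 3) (nat_lit 5) (nat_lit 5) (nat_lit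 4) (nat_lit 3) (nat_lit 4) (nat_lit 389) (nat_lit 266) (nat_lit 245)) (XT.nd (nat_lit 78) (nat_lit 0) (nat_lit 0) (XT.lf (nat_lit 0) (nat_lit 34249131396) (nat_lit 152) (nat_lit 23186244279) (nat_lit 0) (nat_lit 29858371193) (nat_lit 3) (nat_lit 5) (nat_lit 5) (nat_lit 4) (nat_lit 3) (nat_lit 4) (nat_lit 390) (nat_lit 266) (nat_lit 244)) (XT.lf (nat_lit 0) (nat_lit 40582599097) (nat_lit 152) (nat_lit 14843324116) (nat_lit 0) (nat_lit 36083238631) (nat_lit 3) (nat_lit 5) (nat_lit 5) (nat_lit 4) (nat_lit 3) (nat_lit 4) (nat_lit 391) (nat_lit 266) (nat_lit 243))))))) (XT.nd (nat_lit 45396) (nat_lit 0) (nat_lit 228) (XT.nd (nat_lit 44928) (nat_lit 0) (nat_lit 456) (XT.nd (nat_lit 156) (nat_lit 0) (nat_lit 0) (XT.nd (nat_lit 78) (nat_lit 76) (nat_lit 0) (XT.lf (nat_lit 0) (nat_lit 47138303187) (nat_lit 152) (nat_lit 6264375698) (nat_lit 0) (nat_lit 42535513899) (nat_lit 3) (nat_lit 5) (nat_lit 5)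 (nat_lit 4) (nat_lit 3) (nat_lit 4) (nat_lit 392) (nat_lit 266) (nat_lit 242)) (XT.lf (nat_lit 0) (nat_lit 2622195521) (nat_lit 76) (nat_lit 51334863109) (nat_lit 76) (nat_lit 46633570182) (nat_lit 2) (nat_lit 4) (nat_lit 3) (nat_lit 5) (nat_lit 3) (nat_lit 4) (nat_lit 393) (nat_lit 266) (nat_lit 241))) (XT.nd (nat_lit 78) (nat_lit 0) (nat_lit 0) (XT.lf (nat_lit 0) (nat_lit 11916453712) (nat_lit 76) (nat_lit 49177516635) (nat_lit 76) (nat_lit 44382410719) (nat_lit 2) (nat_lit 4) (nat_lit 3) (nat_lit 5) (nat_lit 3) (nat_lit 4) (nat_lit 394) (nat_lit 266) (nat_lit 240)) (XT.nd (nat_lit 44616) (nat_lit 0) (nat_lit 760) (XT.lf (nat_lit 0) (nat_lit 21515854699) (nat_lit 76) (nat_lit 46988760835) (nat_lit 76) (nat_lit 42104309214) (nat_lit 2) (nat_lit 4) (nat_lit 3) (nat_lit 5) (nat_lit 3) (nat_lit 4) (nat_lit 395) (nat_lit 266) (nat_lit 239)) (XT.lf (nat_lit 0) (nat_lit 4443975013) (nat_lit 152)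 (nat_lit 6029128807) (nat_lit 0) (nat_lit 4443975013) (nat_lit 12) (nat_lit 5) (nat_lit 14) (nat_lit 4) (nat_lit 12) (nat_lit 4) (nat_lit 366) (nat_lit 267) (nat_lit 267))))) (XT.nd (nat_lit 234) (nat_lit 228) (nat_lit 0) (XT.nd (nat_lit 78) (nat_lit 0) (nat_lit 0) (XT.lf (nat_lit 0) (nat_lit 2080822632) (nat_lit 76) (nat_lit 14686855178) (nat_lit 76) (nat_lit 14322356106) (nat_lit 11) (nat_lit 4) (nat_lit 12) (nat_lit 5) (nat_lit 12) (nat_lit 4) (nat_lit 367) (nat_lit 267) (nat_lit 266)) (XT.nd (nat_lit 78) (nat_lit 0) (nat_lit 0) (XT.lf (nat_lit 0) (nat_lit 16706678500) (nat_lit 76) (nat_lit 8208743129) (nat_lit 76) (nat_lit 7497102084) (nat_lit 11) (nat_lit 4) (nat_lit 12) (nat_lit 5) (nat_lit 12) (nat_lit 4) (nat_lit 368) (nat_lit 267) (nat_lit 265)) (XT.lf (nat_lit 0) (nat_lit 31614150484) (nat_lit 76) (nat_lit 1618212176) (nat_lit 76) (nat_lit 575959727) (nat_lit 11) (nat_lit 4) (nat_lit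 12) (nat_lit 5) (nat_lit 12) (nat_lit 4) (nat_lit 369) (nat_lit 267) (nat_lit 264)))) (XT.nd (nat_lit 78) (nat_lit 76) (nat_lit 0) (XT.lf (nat_lit 0) (nat_lit 6495003703) (nat_lit 152) (nat_lit 23601572399) (nat_lit 0) (nat_lit 5177411031) (nat_lit 9) (nat_lit 5) (nat_lit 11) (nat_lit 4) (nat_lit 9) (nat_lit 4) (nat_lit 370) (nat_lit 267) (nat_lit 263)) (XT.nd (nat_lit 78) (nat_lit 76) (nat_lit 0) (XT.lf (nat_lit 0) (nat_lit 13722692436) (nat_lit 152) (nat_lit 10981693329) (nat_lit 0) (nat_lit 12113959678) (nat_lit 9) (nat_lit 5) (nat_lit 11) (nat_lit 4) (nat_lit 9) (nat_lit 4) (nat_lit 371) (nat_lit 267) (nat_lit 262)) (XT.lf (nat_lit 0) (nat_lit 1901282152) (nat_lit 76) (nat_lit 19215268717) (nat_lit 76) (nat_lit 17329259687) (nat_lit 8) (nat_lit 4) (nat_lit 9) (nat_lit 5) (nat_lit 9) (nat_lit 4) (nat_lit 372) (nat_lit 267) (nat_lit 261)))))) (XT.nd (nat_lit 468) (nat_lit 76) (nat_lit 0)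 (XT.nd (nat_lit 234) (nat_lit 76) (nat_lit 0) (XT.nd (nat_lit 78) (nat_lit 76) (nat_lit 0) (XT.lf (nat_lit 0) (nat_lit 15264502293) (nat_lit 76) (nat_lit 13521540494) (nat_lit 76) (nat_lit 11371458824) (nat_lit 8) (nat_lit 4) (nat_lit 9) (nat_lit 5) (nat_lit 9) (nat_lit 4) (nat_lit 373) (nat_lit 267) (nat_lit 260)) (XT.nd (nat_lit 78) (nat_lit 76) (nat_lit 0) (XT.lf (nat_lit 0) (nat_lit 28921227053) (nat_lit 76) (nat_lit 7720538170) (nat_lit 76) (nat_lit 5318958747) (nat_lit 8) (nat_lit 4) (nat_lit 9) (nat_lit 5) (nat_lit 9) (nat_lit 4) (nat_lit 374) (nat_lit 267) (nat_lit 259)) (XT.lf (nat_lit 0) (nat_lit 826208095) (nat_lit 152) (nat_lit 963898657) (nat_lit 76) (nat_lit 42069421267) (nat_lit 7) (nat_lit 5) (nat_lit 9) (nat_lit 5) (nat_lit 8) (nat_lit 4) (nat_lit 375) (nat_lit 267) (nat_lit 258)))) (XT.nd (nat_lit 78) (nat_lit 0) (nat_lit 0) (XT.lf (nat_lit 0) (nat_lit 7142627602) (nat_lit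 152) (nat_lit 34352890680) (nat_lit 0) (nat_lit 4356980060) (nat_lit 6) (nat_lit 5) (nat_lit 8) (nat_lit 4) (nat_lit 6) (nat_lit 4) (nat_lit 376) (nat_lit 267) (nat_lit 257)) (XT.nd (nat_lit 78) (nat_lit 0) (nat_lit 0) (XT.lf (nat_lit 0) (nat_lit 13626129593) (nat_lit 152) (nat_lit 23693917825) (nat_lit 0) (nat_lit 10629556600) (nat_lit 6) (nat_lit 5) (nat_lit 8) (nat_lit 4) (nat_lit 6) (nat_lit 4) (nat_lit 377) (nat_lit 267) (nat_lit 256)) (XT.lf (nat_lit 0) (nat_lit 20265399825) (nat_lit 152) (nat_lit 12823295414) (nat_lit 0) (nat_lit 17067945450) (nat_lit 6) (nat_lit 5) (nat_lit 8) (nat_lit 4) (nat_lit 6) (nat_lit 4) (nat_lit 378) (nat_lit 267) (nat_lit 255))))) (XT.nd (nat_lit 234) (nat_lit 0) (nat_lit 0) (XT.nd (nat_lit 78) (nat_lit 76) (nat_lit 0) (XT.lf (nat_lit 0) (nat_lit 27076246085) (nat_lit 152) (nat_lit 1715141013) (nat_lit 0) (nat_lit 23687476108) (nat_lit 6) (nat_lit 5) (nat_lit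 8) (nat_lit 4) (nat_lit 6) (nat_lit 4) (nat_lit 379) (nat_lit 267) (nat_lit 254)) (XT.nd (nat_lit 78) (nat_lit 0) (nat_lit 0) (XT.lf (nat_lit 0) (nat_lit 9849186466) (nat_lit 76) (nat_lit 24320374612) (nat_lit 76) (nat_lit 20749399300) (nat_lit 5) (nat_lit 4) (nat_lit 6) (nat_lit 5) (nat_lit 6) (nat_lit 4) (nat_lit 380) (nat_lit 267) (nat_lit 253)) (XT.lf (nat_lit 0) (nat_lit 21744497699) (nat_lit 76) (nat_lit 19742502731) (nat_lit 76) (nat_lit 15997998528) (nat_lit 5) (nat_lit 4) (nat_lit 6) (nat_lit 5) (nat_lit 6) (nat_lit 4) (nat_lit 381) (nat_lit 267) (nat_lit 252)))) (XT.nd (nat_lit 78) (nat_lit 0) (nat_lit 0) (XT.lf (nat_lit 0) (nat_lit 33964980182) (nat_lit 76) (nat_lit 15064191322) (nat_lit 76) (nat_lit 11154421508) (nat_lit 5) (nat_lit 4) (nat_lit 6) (nat_lit 5) (nat_lit 6) (nat_lit 4) (nat_lit 382) (nat_lit 267) (nat_lit 251)) (XT.nd (nat_lit 78) (nat_lit 0) (nat_lit 0) (XT.lf (nat_lit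 0) (nat_lit 46539730305) (nat_lit 76) (nat_lit 10274301547) (nat_lit 76) (nat_lit 6207135914) (nat_lit 5) (nat_lit 4) (nat_lit 6) (nat_lit 5) (nat_lit 6) (nat_lit 4) (nat_lit 383) (nat_lit 267) (nat_lit 250)) (XT.lf (nat_lit 0) (nat_lit 59498687947) (nat_lit 76) (nat_lit 5361428908) (nat_lit 76) (nat_lit 1144362495) (nat_lit 5) (nat_lit 4) (nat_lit 6) (nat_lit 5) (nat_lit 6) (nat_lit 4) (nat_lit 384) (nat_lit 267) (nat_lit 249))))))))
noncomputable def xc5 : XT := (XT.nd (nat_lit 46176) (nat_lit 0) (nat_lit 0) (XT.nd (nat_lit 45240) (nat_lit 0) (nat_lit 380) (XT.nd (nat_lit 390) (nat_lit 76) (nat_lit 0) (XT.nd (nat_lit 156) (nat_lit 0) (nat_lit 0) (XT.nd (nat_lit 78) (nat_lit 0) (nat_lit 0) (XT.lf (nat_lit 0) (nat_lit 3766686324) (nat_lit 76) (nat_lit 236523224) (nat_lit 152) (nat_lit 65135168341) (nat_lit 3) (nat_lit 5) (nat_lit 4) (nat_lit 5) (nat_lit 5) (nat_lit 4) (nat_lit 385) (nat_lit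 267) (nat_lit 248)) (XT.lf (nat_lit 0) (nat_lit 9381272606) (nat_lit 152) (nat_lit 58031046340) (nat_lit 0) (nat_lit 5016424561) (nat_lit 3) (nat_lit 5) (nat_lit 5) (nat_lit 4) (nat_lit 3) (nat_lit 4) (nat_lit 386) (nat_lit 267) (nat_lit 247))) (XT.nd (nat_lit 78) (nat_lit 0) (nat_lit 0) (XT.lf (nat_lit 0) (nat_lit 14915837343) (nat_lit 152) (nat_lit 50545905899) (nat_lit 0) (nat_lit 10425270918) (nat_lit 3) (nat_lit 5) (nat_lit 5) (nat_lit 4) (nat_lit 3) (nat_lit 4) (nat_lit 387) (nat_lit 267) (nat_lit 246)) (XT.nd (nat_lit 78) (nat_lit 0) (nat_lit 0) (XT.lf (nat_lit 0) (nat_lit 20617807687) (nat_lit 152) (nat_lit 42896174876) (nat_lit 0) (nat_lit 16007509473) (nat_lit 3) (nat_lit 5) (nat_lit 5) (nat_lit 4) (nat_lit 3) (nat_lit 4) (nat_lit 388) (nat_lit 267) (nat_lit 245)) (XT.lf (nat_lit 0) (nat_lit 26500759760) (nat_lit 152) (nat_lit 35063639624) (nat_lit 0) (nat_lit 21776431270) (nat_lit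 3) (nat_lit 5) (nat_lit 5) (nat_lit 4) (nat_lit 3) (nat_lit 4) (nat_lit 389) (nat_lit 267) (nat_lit 244))))) (XT.nd (nat_lit 234) (nat_lit 76) (nat_lit 0) (XT.nd (nat_lit 78) (nat_lit 0) (nat_lit 0) (XT.lf (nat_lit 0) (nat_lit 32578700589) (nat_lit 152) (nat_lit 27029651250) (nat_lit 0) (nat_lit 27745771837) (nat_lit 3) (nat_lit 5) (nat_lit 5) (nat_lit 4) (nat_lit 3) (nat_lit 4) (nat_lit 390) (nat_lit 267) (nat_lit 243)) (XT.nd (nat_lit 78) (nat_lit 0) (nat_lit 0) (XT.lf (nat_lit 0) (nat_lit 38866101462) (nat_lit 152) (nat_lit 18775081210) (nat_lit 0) (nat_lit 33929743889) (nat_lit 3) (nat_lit 5) (nat_lit 5) (nat_lit 4) (nat_lit 3) (nat_lit 4) (nat_lit 391) (nat_lit 267) (nat_lit 242)) (XT.lf (nat_lit 0) (nat_lit 45377932382) (nat_lit 152) (nat_lit 10280275767) (nat_lit 0) (nat_lit 40343071170) (nat_lit 3) (nat_lit 5) (nat_lit 5) (nat_lit 4) (nat_lit 3) (nat_lit 4) (nat_lit 392) (nat_lit 267)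 (nat_lit 241)))) (XT.nd (nat_lit 78) (nat_lit 76) (nat_lit 0) (XT.lf (nat_lit 0) (nat_lit 52129697707) (nat_lit 152) (nat_lit 1525009192) (nat_lit 0) (nat_lit 47001023505) (nat_lit 3) (nat_lit 5) (nat_lit 5) (nat_lit 4) (nat_lit 3) (nat_lit 4) (nat_lit 393) (nat_lit 267) (nat_lit 240)) (XT.nd (nat_lit 78) (nat_lit 0) (nat_lit 0) (XT.lf (nat_lit 0) (nat_lit 7661059245) (nat_lit 76) (nat_lit 51550056613) (nat_lit 76) (nat_lit 46332036707) (nat_lit 2) (nat_lit 4) (nat_lit 3) (nat_lit 5) (nat_lit 3) (nat_lit 4) (nat_lit 394) (nat_lit 267) (nat_lit 239)) (XT.lf (nat_lit 0) (nat_lit 17186327776) (nat_lit 76) (nat_lit 49396821370) (nat_lit 76) (nat_lit 44093710317) (nat_lit 2) (nat_lit 4) (nat_lit 3) (nat_lit 5) (nat_lit 3) (nat_lit 4) (nat_lit 395) (nat_lit 267) (nat_lit 238)))))) (XT.nd (nat_lit 468) (nat_lit 304) (nat_lit 0) (XT.nd (nat_lit 234) (nat_lit 76) (nat_lit 0) (XT.nd (nat_lit 78) (nat_lit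 152) (nat_lit 0) (XT.lf (nat_lit 0) (nat_lit 7863944273) (nat_lit 76) (nat_lit 2945330821) (nat_lit 76) (nat_lit 2945330821) (nat_lit 14) (nat_lit 4) (nat_lit 15) (nat_lit 5) (nat_lit 15) (nat_lit 4) (nat_lit 364) (nat_lit 268) (nat_lit 268)) (XT.nd (nat_lit 78) (nat_lit 0) (nat_lit 0) (XT.lf (nat_lit 0) (nat_lit 1539660274) (nat_lit 152) (nat_lit 25948324481) (nat_lit 0) (nat_lit 1156936248) (nat_lit 12) (nat_lit 5) (nat_lit 14) (nat_lit 4) (nat_lit 12) (nat_lit 4) (nat_lit 365) (nat_lit 268) (nat_lit 267)) (XT.lf (nat_lit 0) (nat_lit 9144899017) (nat_lit 152) (nat_lit 12295376788) (nat_lit 0) (nat_lit 8397675919) (nat_lit 12) (nat_lit 5) (nat_lit 14) (nat_lit 4) (nat_lit 12) (nat_lit 4) (nat_lit 366) (nat_lit 268) (nat_lit 266)))) (XT.nd (nat_lit 78) (nat_lit 0) (nat_lit 0) (XT.lf (nat_lit 0) (nat_lit 1608662121) (nat_lit 76) (nat_lit 15291640237) (nat_lit 76) (nat_lit 14197275166) (nat_lit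 11) (nat_lit 4) (nat_lit 12) (nat_lit 5) (nat_lit 12) (nat_lit 4) (nat_lit 367) (nat_lit 268) (nat_lit 265)) (XT.nd (nat_lit 78) (nat_lit 0) (nat_lit 0) (XT.lf (nat_lit 0) (nat_lit 16015163513) (nat_lit 76) (nat_lit 8916692430) (nat_lit 76) (nat_lit 7491715956) (nat_lit 11) (nat_lit 4) (nat_lit 12) (nat_lit 5) (nat_lit 12) (nat_lit 4) (nat_lit 368) (nat_lit 268) (nat_lit 264)) (XT.lf (nat_lit 0) (nat_lit 30713726471) (nat_lit 76) (nat_lit 2424413137) (nat_lit 76) (nat_lit 684568659) (nat_lit 11) (nat_lit 4) (nat_lit 12) (nat_lit 5) (nat_lit 12) (nat_lit 4) (nat_lit 369) (nat_lit 268) (nat_lit 263))))) (XT.nd (nat_lit 234) (nat_lit 76) (nat_lit 0) (XT.nd (nat_lit 78) (nat_lit 76) (nat_lit 0) (XT.lf (nat_lit 0) (nat_lit 6262357841) (nat_lit 152) (nat_lit 24747799440) (nat_lit 0) (nat_lit 4282048360) (nat_lit 9) (nat_lit 5) (nat_lit 11) (nat_lit 4) (nat_lit 9) (nat_lit 4) (nat_lit 370) (nat_lit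 268) (nat_lit 262)) (XT.nd (nat_lit 78) (nat_lit 76) (nat_lit 0) (XT.lf (nat_lit 0) (nat_lit 13385904612) (nat_lit 152) (nat_lit 12325480567) (nat_lit 0) (nat_lit 11128318858) (nat_lit 9) (nat_lit 5) (nat_lit 11) (nat_lit 4) (nat_lit 9) (nat_lit 4) (nat_lit 371) (nat_lit 268) (nat_lit 261)) (XT.lf (nat_lit 0) (nat_lit 338853739) (nat_lit 76) (nat_lit 20326707468) (nat_lit 76) (nat_lit 17805049074) (nat_lit 8) (nat_lit 4) (nat_lit 9) (nat_lit 5) (nat_lit 9) (nat_lit 4) (nat_lit 372) (nat_lit 268) (nat_lit 260)))) (XT.nd (nat_lit 78) (nat_lit 76) (nat_lit 0) (XT.lf (nat_lit 0) (nat_lit 13519314666) (nat_lit 76) (nat_lit 14719521835) (nat_lit 76) (nat_lit 11946365688) (nat_lit 8) (nat_lit 4) (nat_lit 9) (nat_lit 5) (nat_lit 9) (nat_lit 4) (nat_lit 373) (nat_lit 268) (nat_lit 259)) (XT.nd (nat_lit 78) (nat_lit 76) (nat_lit 0) (XT.lf (nat_lit 0) (nat_lit 27001983033) (nat_lit 76) (nat_lit 9000941026)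 (nat_lit 76) (nat_lit 5988263210) (nat_lit 8) (nat_lit 4) (nat_lit 9) (nat_lit 5) (nat_lit 9) (nat_lit 4) (nat_lit 374) (nat_lit 268) (nat_lit 258)) (XT.lf (nat_lit 0) (nat_lit 81816021) (nat_lit 152) (nat_lit 3074707169) (nat_lit 76) (nat_lit 40736318227) (nat_lit 7) (nat_lit 5) (nat_lit 9) (nat_lit 5) (nat_lit 8) (nat_lit 4) (nat_lit 375) (nat_lit 268) (nat_lit 257))))))) (XT.nd (nat_lit 858) (nat_lit 76) (nat_lit 0) (XT.nd (nat_lit 390) (nat_lit 152) (nat_lit 0) (XT.nd (nat_lit 156) (nat_lit 76) (nat_lit 0) (XT.nd (nat_lit 78) (nat_lit 0) (nat_lit 0) (XT.lf (nat_lit 0) (nat_lit 6277944431) (nat_lit 152) (nat_lit 36690870744) (nat_lit 0) (nat_lit 2920617337) (nat_lit 6) (nat_lit 5) (nat_lit 8) (nat_lit 4) (nat_lit 6) (nat_lit 4) (nat_lit 376) (nat_lit 268) (nat_lit 256)) (XT.lf (nat_lit 0) (nat_lit 12679296735) (nat_lit 152) (nat_lit 26188629151) (nat_lit 0) (nat_lit 9121088259) (nat_lit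 6) (nat_lit 5) (nat_lit 8) (nat_lit 4) (nat_lit 6) (nat_lit 4) (nat_lit 377) (nat_lit 268) (nat_lit 255))) (XT.nd (nat_lit 78) (nat_lit 76) (nat_lit 0) (XT.lf (nat_lit 0) (nat_lit 19240329170) (nat_lit 152) (nat_lit 15467274608) (nat_lit 0) (nat_lit 15490805092) (nat_lit 6) (nat_lit 5) (nat_lit 8) (nat_lit 4) (nat_lit 6) (nat_lit 4) (nat_lit 378) (nat_lit 268) (nat_lit 254)) (XT.nd (nat_lit 78) (nat_lit 76) (nat_lit 0) (XT.lf (nat_lit 0) (nat_lit 25976663243) (nat_lit 152) (nat_lit 4501280082) (nat_lit 0) (nat_lit 22044933830) (nat_lit 6) (nat_lit 5) (nat_lit 8) (nat_lit 4) (nat_lit 6) (nat_lit 4) (nat_lit 379) (nat_lit 268) (nat_lit 253)) (XT.lf (nat_lit 0) (nat_lit 6869512877) (nat_lit 76) (nat_lit 26100858927) (nat_lit 76) (nat_lit 21995600622) (nat_lit 5) (nat_lit 4) (nat_lit 6) (nat_lit 5) (nat_lit 6) (nat_lit 4) (nat_lit 380) (nat_lit 268) (nat_lit 252))))) (XT.nd (nat_lit 234) (nat_lit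 152) (nat_lit 0) (XT.nd (nat_lit 78) (nat_lit 0) (nat_lit 0) (XT.lf (nat_lit 0) (nat_lit 18633314689) (nat_lit 76) (nat_lit 21585647565) (nat_lit 76) (nat_lit 17315123651) (nat_lit 5) (nat_lit 4) (nat_lit 6) (nat_lit 5) (nat_lit 6) (nat_lit 4) (nat_lit 381) (nat_lit 268) (nat_lit 251)) (XT.nd (nat_lit 78) (nat_lit 0) (nat_lit 0) (XT.lf (nat_lit 0) (nat_lit 30728550107) (nat_lit 76) (nat_lit 16967012841) (nat_lit 76) (nat_lit 12539093108) (nat_lit 5) (nat_lit 4) (nat_lit 6) (nat_lit 5) (nat_lit 6) (nat_lit 4) (nat_lit 382) (nat_lit 268) (nat_lit 250)) (XT.lf (nat_lit 0) (nat_lit 43184017309) (nat_lit 76) (nat_lit 12233958005) (nat_lit 76) (nat_lit 7656137491) (nat_lit 5) (nat_lit 4) (nat_lit 6) (nat_lit 5) (nat_lit 6) (nat_lit 4) (nat_lit 383) (nat_lit 268) (nat_lit 249)))) (XT.nd (nat_lit 78) (nat_lit 152) (nat_lit 0) (XT.lf (nat_lit 0) (nat_lit 56029372170) (nat_lit 76) (nat_lit 7375213879)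 (nat_lit 76) (nat_lit 2654630718) (nat_lit 5) (nat_lit 4) (nat_lit 6) (nat_lit 5) (nat_lit 6) (nat_lit 4) (nat_lit 384) (nat_lit 268) (nat_lit 248)) (XT.nd (nat_lit 78) (nat_lit 0) (nat_lit 0) (XT.lf (nat_lit 0) (nat_lit 75788785) (nat_lit 76) (nat_lit 2353933566) (nat_lit 152) (nat_lit 66766616712) (nat_lit 3) (nat_lit 5) (nat_lit 4) (nat_lit 5) (nat_lit 5) (nat_lit 4) (nat_lit 385) (nat_lit 268) (nat_lit 247)) (XT.lf (nat_lit 0) (nat_lit 7731437048) (nat_lit 152) (nat_lit 61866941336) (nat_lit 0) (nat_lit 2890623923) (nat_lit 3) (nat_lit 5) (nat_lit 5) (nat_lit 4) (nat_lit 3) (nat_lit 4) (nat_lit 386) (nat_lit 268) (nat_lit 246)))))) (XT.nd (nat_lit 468) (nat_lit 76) (nat_lit 0) (XT.nd (nat_lit 234) (nat_lit 0) (nat_lit 0) (XT.nd (nat_lit 78) (nat_lit 0) (nat_lit 0) (XT.lf (nat_lit 0) (nat_lit 13212673672) (nat_lit 152) (nat_lit 54484077207) (nat_lit 0) (nat_lit 8252128759) (nat_lit 3) (nat_lit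 5) (nat_lit 5) (nat_lit 4) (nat_lit 3) (nat_lit 4) (nat_lit 387) (nat_lit 268) (nat_lit 245)) (XT.nd (nat_lit 78) (nat_lit 0) (nat_lit 0) (XT.lf (nat_lit 0) (nat_lit 18863855339) (nat_lit 152) (nat_lit 46931752195) (nat_lit 0) (nat_lit 13789280150) (nat_lit 3) (nat_lit 5) (nat_lit 5) (nat_lit 4) (nat_lit 3) (nat_lit 4) (nat_lit 388) (nat_lit 268) (nat_lit 244)) (XT.lf (nat_lit 0) (nat_lit 24698437242) (nat_lit 152) (nat_lit 39191984572) (nat_lit 0) (nat_lit 19515261791) (nat_lit 3) (nat_lit 5) (nat_lit 5) (nat_lit 4) (nat_lit 3) (nat_lit 4) (nat_lit 389) (nat_lit 268) (nat_lit 243)))) (XT.nd (nat_lit 78) (nat_lit 0) (nat_lit 0) (XT.lf (nat_lit 0) (nat_lit 30730311243) (nat_lit 152) (nat_lit 31246346322) (nat_lit 0) (nat_lit 25443706971) (nat_lit 3) (nat_lit 5) (nat_lit 5) (nat_lit 4) (nat_lit 3) (nat_lit 4) (nat_lit 390) (nat_lit 268) (nat_lit 242)) (XT.nd (nat_lit 78) (nat_lit 0) (nat_lit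 0) (XT.lf (nat_lit 0) (nat_lit 36973838947) (nat_lit 152) (nat_lit 23075919257) (nat_lit 0) (nat_lit 31588731035) (nat_lit 3) (nat_lit 5) (nat_lit 5) (nat_lit 4) (nat_lit 3) (nat_lit 4) (nat_lit 391) (nat_lit 268) (nat_lit 241)) (XT.lf (nat_lit 0) (nat_lit 43443885896) (nat_lit 152) (nat_lit 14661249980) (nat_lit 0) (nat_lit 37964964995) (nat_lit 3) (nat_lit 5) (nat_lit 5) (nat_lit 4) (nat_lit 3) (nat_lit 4) (nat_lit 392) (nat_lit 268) (nat_lit 240))))) (XT.nd (nat_lit 44460) (nat_lit 0) (nat_lit 912) (XT.nd (nat_lit 78) (nat_lit 76) (nat_lit 0) (XT.lf (nat_lit 0) (nat_lit 50155856964) (nat_lit 152) (nat_lit 5982303564) (nat_lit 0) (nat_lit 44587590358) (nat_lit 3) (nat_lit 5) (nat_lit 5) (nat_lit 4) (nat_lit 3) (nat_lit 4) (nat_lit 393) (nat_lit 268) (nat_lit 239)) (XT.nd (nat_lit 78) (nat_lit 0) (nat_lit 0) (XT.lf (nat_lit 0) (nat_lit 3040923519) (nat_lit 76) (nat_lit 54114040732) (nat_lit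 76) (nat_lit 48460682978) (nat_lit 2) (nat_lit 4) (nat_lit 3) (nat_lit 5) (nat_lit 3) (nat_lit 4) (nat_lit 394) (nat_lit 268) (nat_lit 238)) (XT.lf (nat_lit 0) (nat_lit 12495589711) (nat_lit 76) (nat_lit 51994634590) (nat_lit 76) (nat_lit 46260237649) (nat_lit 2) (nat_lit 4) (nat_lit 3) (nat_lit 5) (nat_lit 3) (nat_lit 4) (nat_lit 395) (nat_lit 268) (nat_lit 237)))) (XT.nd (nat_lit 78) (nat_lit 76) (nat_lit 0) (XT.lf (nat_lit 0) (nat_lit 2820801598) (nat_lit 152) (nat_lit 7062840262) (nat_lit 0) (nat_lit 2820801598) (nat_lit 15) (nat_lit 5) (nat_lit 17) (nat_lit 4) (nat_lit 15) (nat_lit 4) (nat_lit 362) (nat_lit 269) (nat_lit 269)) (XT.nd (nat_lit 78) (nat_lit 0) (nat_lit 0) (XT.lf (nat_lit 0) (nat_lit 415328758) (nat_lit 76) (nat_lit 13216091590) (nat_lit 76) (nat_lit 12802175557) (nat_lit 14) (nat_lit 4) (nat_lit 15) (nat_lit 5) (nat_lit 15) (nat_lit 4) (nat_lit 363) (nat_lit 269) (nat_lit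 268)) (XT.lf (nat_lit 0) (nat_lit 15489140797) (nat_lit 76) (nat_lit 6416017281) (nat_lit 76) (nat_lit 5607895501) (nat_lit 14) (nat_lit 4) (nat_lit 15) (nat_lit 5) (nat_lit 15) (nat_lit 4) (nat_lit 364) (nat_lit 269) (nat_lit 267))))))))
noncomputable def xc6 : XT := (XT.nd (nat_lit 1794) (nat_lit 76) (nat_lit 0) (XT.nd (nat_lit 858) (nat_lit 380) (nat_lit 0) (XT.nd (nat_lit 390) (nat_lit 228) (nat_lit 0) (XT.nd (nat_lit 156) (nat_lit 76) (nat_lit 0) (XT.nd (nat_lit 78) (nat_lit 0) (nat_lit 0) (XT.lf (nat_lit 0) (nat_lit 1683681679) (nat_lit 152) (nat_lit 26434418787) (nat_lit 0) (nat_lit 534598354) (nat_lit 12) (nat_lit 5) (nat_lit 14) (nat_lit 4) (nat_lit 12) (nat_lit 4) (nat_lit 365) (nat_lit 269) (nat_lit 266)) (XT.lf (nat_lit 0) (nat_lit 9169134674) (nat_lit 152) (nat_lit 13007298879) (nat_lit 0) (nat_lit 7672909376) (nat_lit 12) (nat_lit 5) (nat_lit 14) (nat_lit 4) (nat_lit 12) (nat_lit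 4) (nat_lit 366) (nat_lit 269) (nat_lit 265))) (XT.nd (nat_lit 78) (nat_lit 0) (nat_lit 0) (XT.lf (nat_lit 0) (nat_lit 663216908) (nat_lit 76) (nat_lit 16138151245) (nat_lit 76) (nat_lit 14311314544) (nat_lit 11) (nat_lit 4) (nat_lit 12) (nat_lit 5) (nat_lit 12) (nat_lit 4) (nat_lit 367) (nat_lit 269) (nat_lit 264)) (XT.nd (nat_lit 78) (nat_lit 0) (nat_lit 0) (XT.lf (nat_lit 0) (nat_lit 14860809274) (nat_lit 76) (nat_lit 9861455099) (nat_lit 76) (nat_lit 7719750395) (nat_lit 11) (nat_lit 4) (nat_lit 12) (nat_lit 5) (nat_lit 12) (nat_lit 4) (nat_lit 368) (nat_lit 269) (nat_lit 263)) (XT.lf (nat_lit 0) (nat_lit 29360411256) (nat_lit 76) (nat_lit 3462748814) (nat_lit 76) (nat_lit 1021169822) (nat_lit 11) (nat_lit 4) (nat_lit 12) (nat_lit 5) (nat_lit 12) (nat_lit 4) (nat_lit 369) (nat_lit 269) (nat_lit 262))))) (XT.nd (nat_lit 234) (nat_lit 76) (nat_lit 0) (XT.nd (nat_lit 78) (nat_lit 0) (nat_lit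 0) (XT.lf (nat_lit 0) (nat_lit 5804588664) (nat_lit 152) (nat_lit 26356336238) (nat_lit 0) (nat_lit 3156847350) (nat_lit 9) (nat_lit 5) (nat_lit 11) (nat_lit 4) (nat_lit 9) (nat_lit 4) (nat_lit 370) (nat_lit 269) (nat_lit 261)) (XT.nd (nat_lit 78) (nat_lit 0) (nat_lit 0) (XT.lf (nat_lit 0) (nat_lit 12828952614) (nat_lit 152) (nat_lit 14122169934) (nat_lit 0) (nat_lit 9917138659) (nat_lit 9) (nat_lit 5) (nat_lit 11) (nat_lit 4) (nat_lit 9) (nat_lit 4) (nat_lit 371) (nat_lit 269) (nat_lit 260)) (XT.lf (nat_lit 0) (nat_lit 20010892110) (nat_lit 152) (nat_lit 1643640807) (nat_lit 0) (nat_lit 16847580402) (nat_lit 9) (nat_lit 5) (nat_lit 11) (nat_lit 4) (nat_lit 9) (nat_lit 4) (nat_lit 372) (nat_lit 269) (nat_lit 259)))) (XT.nd (nat_lit 78) (nat_lit 0) (nat_lit 0) (XT.lf (nat_lit 0) (nat_lit 11330052051) (nat_lit 76) (nat_lit 16146366348) (nat_lit 76) (nat_lit 12743532972) (nat_lit 8) (nat_lit 4)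 (nat_lit 9) (nat_lit 5) (nat_lit 9) (nat_lit 4) (nat_lit 373) (nat_lit 269) (nat_lit 258)) (XT.nd (nat_lit 78) (nat_lit 0) (nat_lit 0) (XT.lf (nat_lit 0) (nat_lit 24646952423) (nat_lit 76) (nat_lit 10506282219) (nat_lit 76) (nat_lit 6875332967) (nat_lit 8) (nat_lit 4) (nat_lit 9) (nat_lit 5) (nat_lit 9) (nat_lit 4) (nat_lit 374) (nat_lit 269) (nat_lit 257)) (XT.lf (nat_lit 0) (nat_lit 38306055540) (nat_lit 76) (nat_lit 4737449308) (nat_lit 76) (nat_lit 889246841) (nat_lit 8) (nat_lit 4) (nat_lit 9) (nat_lit 5) (nat_lit 9) (nat_lit 4) (nat_lit 375) (nat_lit 269) (nat_lit 256)))))) (XT.nd (nat_lit 468) (nat_lit 152) (nat_lit 0) (XT.nd (nat_lit 234) (nat_lit 76) (nat_lit 0) (XT.nd (nat_lit 78) (nat_lit 0) (nat_lit 0) (XT.lf (nat_lit 0) (nat_lit 5201620244) (nat_lit 152) (nat_lit 39467048897) (nat_lit 0) (nat_lit 1264619962) (nat_lit 6) (nat_lit 5) (nat_lit 8) (nat_lit 4) (nat_lit 6) (nat_lit 4)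 (nat_lit 376) (nat_lit 269) (nat_lit 255)) (XT.nd (nat_lit 78) (nat_lit 0) (nat_lit 0) (XT.lf (nat_lit 0) (nat_lit 11524734751) (nat_lit 152) (nat_lit 29114075173) (nat_lit 0) (nat_lit 7396418867) (nat_lit 6) (nat_lit 5) (nat_lit 8) (nat_lit 4) (nat_lit 6) (nat_lit 4) (nat_lit 377) (nat_lit 269) (nat_lit 254)) (XT.lf (nat_lit 0) (nat_lit 18011254999) (nat_lit 152) (nat_lit 18534880505) (nat_lit 0) (nat_lit 13700733779) (nat_lit 6) (nat_lit 5) (nat_lit 8) (nat_lit 4) (nat_lit 6) (nat_lit 4) (nat_lit 378) (nat_lit 269) (nat_lit 253)))) (XT.nd (nat_lit 78) (nat_lit 76) (nat_lit 0) (XT.lf (nat_lit 0) (nat_lit 24676625083) (nat_lit 152) (nat_lit 7704276336) (nat_lit 0) (nat_lit 20192574973) (nat_lit 6) (nat_lit 5) (nat_lit 8) (nat_lit 4) (nat_lit 6) (nat_lit 4) (nat_lit 379) (nat_lit 269) (nat_lit 252)) (XT.nd (nat_lit 78) (nat_lit 0) (nat_lit 0) (XT.lf (nat_lit 0) (nat_lit 3471261298) (nat_lit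 76) (nat_lit 28098821522) (nat_lit 76) (nat_lit 23449505802) (nat_lit 5) (nat_lit 4) (nat_lit 6) (nat_lit 5) (nat_lit 6) (nat_lit 4) (nat_lit 380) (nat_lit 269) (nat_lit 251)) (XT.lf (nat_lit 0) (nat_lit 15109816044) (nat_lit 76) (nat_lit 23643286846) (nat_lit 76) (nat_lit 18836575307) (nat_lit 5) (nat_lit 4) (nat_lit 6) (nat_lit 5) (nat_lit 6) (nat_lit 4) (nat_lit 381) (nat_lit 269) (nat_lit 250))))) (XT.nd (nat_lit 234) (nat_lit 152) (nat_lit 0) (XT.nd (nat_lit 78) (nat_lit 0) (nat_lit 0) (XT.lf (nat_lit 0) (nat_lit 27085768541) (nat_lit 76) (nat_lit 19081487061) (nat_lit 76) (nat_lit 14124874741) (nat_lit 5) (nat_lit 4) (nat_lit 6) (nat_lit 5) (nat_lit 6) (nat_lit 4) (nat_lit 382) (nat_lit 269) (nat_lit 249)) (XT.nd (nat_lit 78) (nat_lit 0) (nat_lit 0) (XT.lf (nat_lit 0) (nat_lit 39427632962) (nat_lit 76) (nat_lit 14402560738) (nat_lit 76) (nat_lit 9303185770) (nat_lit 5) (nat_lit 4) (nat_lit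 6) (nat_lit 5) (nat_lit 6) (nat_lit 4) (nat_lit 383) (nat_lit 269) (nat_lit 248)) (XT.lf (nat_lit 0) (nat_lit 52164794698) (nat_lit 76) (nat_lit 9595367577) (nat_lit 76) (nat_lit 4360028183) (nat_lit 5) (nat_lit 4) (nat_lit 6) (nat_lit 5) (nat_lit 6) (nat_lit 4) (nat_lit 384) (nat_lit 269) (nat_lit 247)))) (XT.nd (nat_lit 78) (nat_lit 76) (nat_lit 0) (XT.lf (nat_lit 0) (nat_lit 702388535) (nat_lit 152) (nat_lit 3938980597) (nat_lit 76) (nat_lit 64618099042) (nat_lit 4) (nat_lit 5) (nat_lit 6) (nat_lit 5) (nat_lit 5) (nat_lit 4) (nat_lit 385) (nat_lit 269) (nat_lit 246)) (XT.nd (nat_lit 78) (nat_lit 0) (nat_lit 0) (XT.lf (nat_lit 0) (nat_lit 5889787082) (nat_lit 152) (nat_lit 66104297521) (nat_lit 0) (nat_lit 561483134) (nat_lit 3) (nat_lit 5) (nat_lit 5) (nat_lit 4) (nat_lit 3) (nat_lit 4) (nat_lit 386) (nat_lit 269) (nat_lit 245)) (XT.lf (nat_lit 0) (nat_lit 11320235029) (nat_lit 152) (nat_lit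 58818839403) (nat_lit 0) (nat_lit 5877900805) (nat_lit 3) (nat_lit 5) (nat_lit 5) (nat_lit 4) (nat_lit 3) (nat_lit 4) (nat_lit 387) (nat_lit 269) (nat_lit 244))))))) (XT.nd (nat_lit 44928) (nat_lit 0) (nat_lit 456) (XT.nd (nat_lit 390) (nat_lit 76) (nat_lit 0) (XT.nd (nat_lit 156) (nat_lit 0) (nat_lit 0) (XT.nd (nat_lit 78) (nat_lit 0) (nat_lit 0) (XT.lf (nat_lit 0) (nat_lit 16923046527) (nat_lit 152) (nat_lit 51359282021) (nat_lit 0) (nat_lit 11372112040) (nat_lit 3) (nat_lit 5) (nat_lit 5) (nat_lit 4) (nat_lit 3) (nat_lit 4) (nat_lit 388) (nat_lit 269) (nat_lit 243)) (XT.lf (nat_lit 0) (nat_lit 22711561602) (nat_lit 152) (nat_lit 43707864522) (nat_lit 0) (nat_lit 17057198294) (nat_lit 3) (nat_lit 5) (nat_lit 5) (nat_lit 4) (nat_lit 3) (nat_lit 4) (nat_lit 389) (nat_lit 269) (nat_lit 242))) (XT.nd (nat_lit 78) (nat_lit 0) (nat_lit 0) (XT.lf (nat_lit 0) (nat_lit 28699562434) (nat_lit 152) (nat_lit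 35846369246) (nat_lit 0) (nat_lit 22946695487) (nat_lit 3) (nat_lit 5) (nat_lit 5) (nat_lit 4) (nat_lit 3) (nat_lit 4) (nat_lit 390) (nat_lit 269) (nat_lit 241)) (XT.nd (nat_lit 78) (nat_lit 0) (nat_lit 0) (XT.lf (nat_lit 0) (nat_lit 34901306167) (nat_lit 152) (nat_lit 27756078347) (nat_lit 0) (nat_lit 29054626230) (nat_lit 3) (nat_lit 5) (nat_lit 5) (nat_lit 4) (nat_lit 3) (nat_lit 4) (nat_lit 391) (nat_lit 269) (nat_lit 240)) (XT.lf (nat_lit 0) (nat_lit 41331558858) (nat_lit 152) (nat_lit 19417729229) (nat_lit 0) (nat_lit 35395533217) (nat_lit 3) (nat_lit 5) (nat_lit 5) (nat_lit 4) (nat_lit 3) (nat_lit 4) (nat_lit 392) (nat_lit 269) (nat_lit 239))))) (XT.nd (nat_lit 44304) (nat_lit 0) (nat_lit 988) (XT.nd (nat_lit 78) (nat_lit 76) (nat_lit 0) (XT.lf (nat_lit 0) (nat_lit 48005630632) (nat_lit 152) (nat_lit 10811468678) (nat_lit 0) (nat_lit 41984513844) (nat_lit 3) (nat_lit 5) (nat_lit 5) (nat_lit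 4) (nat_lit 3) (nat_lit 4) (nat_lit 393) (nat_lit 269) (nat_lit 238)) (XT.nd (nat_lit 78) (nat_lit 76) (nat_lit 0) (XT.lf (nat_lit 0) (nat_lit 54939412137) (nat_lit 152) (nat_lit 1916805598) (nat_lit 0) (nat_lit 48837256161) (nat_lit 3) (nat_lit 5) (nat_lit 5) (nat_lit 4) (nat_lit 3) (nat_lit 4) (nat_lit 394) (nat_lit 269) (nat_lit 237)) (XT.lf (nat_lit 0) (nat_lit 7432472079) (nat_lit 76) (nat_lit 54788385765) (nat_lit 76) (nat_lit 48609049610) (nat_lit 2) (nat_lit 4) (nat_lit 3) (nat_lit 5) (nat_lit 3) (nat_lit 4) (nat_lit 395) (nat_lit 269) (nat_lit 236)))) (XT.nd (nat_lit 78) (nat_lit 152) (nat_lit 0) (XT.lf (nat_lit 0) (nat_lit 2443608838) (nat_lit 76) (nat_lit 4656062821) (nat_lit 76) (nat_lit 4656062821) (nat_lit 17) (nat_lit 4) (nat_lit 18) (nat_lit 5) (nat_lit 18) (nat_lit 4) (nat_lit 360) (nat_lit 270) (nat_lit 270)) (XT.nd (nat_lit 78) (nat_lit 152) (nat_lit 0) (XT.lf (nat_lit 0)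 (nat_lit 20471714278) (nat_lit 76) (nat_lit 2207103913) (nat_lit 76) (nat_lit 1759453723) (nat_lit 17) (nat_lit 4) (nat_lit 18) (nat_lit 5) (nat_lit 18) (nat_lit 4) (nat_lit 361) (nat_lit 270) (nat_lit 269)) (XT.lf (nat_lit 0) (nat_lit 5944951219) (nat_lit 152) (nat_lit 14371473892) (nat_lit 0) (nat_lit 5096423349) (nat_lit 15) (nat_lit 5) (nat_lit 17) (nat_lit 4) (nat_lit 15) (nat_lit 4) (nat_lit 362) (nat_lit 270) (nat_lit 268)))))) (XT.nd (nat_lit 468) (nat_lit 228) (nat_lit 0) (XT.nd (nat_lit 234) (nat_lit 76) (nat_lit 0) (XT.nd (nat_lit 78) (nat_lit 228) (nat_lit 0) (XT.lf (nat_lit 0) (nat_lit 13805762821) (nat_lit 152) (nat_lit 72658089) (nat_lit 0) (nat_lit 12563029205) (nat_lit 15) (nat_lit 5) (nat_lit 17) (nat_lit 4) (nat_lit 15) (nat_lit 4) (nat_lit 363) (nat_lit 270) (nat_lit 267)) (XT.nd (nat_lit 78) (nat_lit 152) (nat_lit 0) (XT.lf (nat_lit 0) (nat_lit 14772329101) (nat_lit 76)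 (nat_lit 7185213262) (nat_lit 76) (nat_lit 5567045602) (nat_lit 14) (nat_lit 4) (nat_lit 15) (nat_lit 5) (nat_lit 15) (nat_lit 4) (nat_lit 364) (nat_lit 270) (nat_lit 266)) (XT.lf (nat_lit 0) (nat_lit 1257187617) (nat_lit 76) (nat_lit 335379628) (nat_lit 152) (nat_lit 27075609013) (nat_lit 12) (nat_lit 5) (nat_lit 13) (nat_lit 5) (nat_lit 14) (nat_lit 4) (nat_lit 365) (nat_lit 270) (nat_lit 265)))) (XT.nd (nat_lit 78) (nat_lit 76) (nat_lit 0) (XT.lf (nat_lit 0) (nat_lit 8960714703) (nat_lit 152) (nat_lit 14195718941) (nat_lit 0) (nat_lit 6711924763) (nat_lit 12) (nat_lit 5) (nat_lit 14) (nat_lit 4) (nat_lit 12) (nat_lit 4) (nat_lit 366) (nat_lit 270) (nat_lit 264)) (XT.nd (nat_lit 78) (nat_lit 76) (nat_lit 0) (XT.lf (nat_lit 0) (nat_lit 16477923732) (nat_lit 152) (nat_lit 742977361) (nat_lit 0) (nat_lit 13914265789) (nat_lit 12) (nat_lit 5) (nat_lit 14) (nat_lit 4) (nat_lit 12) (nat_lit 4)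 (nat_lit 367) (nat_lit 270) (nat_lit 263)) (XT.lf (nat_lit 0) (nat_lit 13240867321) (nat_lit 76) (nat_lit 11045280570) (nat_lit 76) (nat_lit 8181748339) (nat_lit 11) (nat_lit 4) (nat_lit 12) (nat_lit 5) (nat_lit 12) (nat_lit 4) (nat_lit 368) (nat_lit 270) (nat_lit 262))))) (XT.nd (nat_lit 234) (nat_lit 76) (nat_lit 0) (XT.nd (nat_lit 78) (nat_lit 152) (nat_lit 0) (XT.lf (nat_lit 0) (nat_lit 27550982659) (nat_lit 76) (nat_lit 4735691437) (nat_lit 76) (nat_lit 1586564646) (nat_lit 11) (nat_lit 4) (nat_lit 12) (nat_lit 5) (nat_lit 12) (nat_lit 4) (nat_lit 369) (nat_lit 270) (nat_lit 261)) (XT.nd (nat_lit 78) (nat_lit 0) (nat_lit 0) (XT.lf (nat_lit 0) (nat_lit 5120606244) (nat_lit 152) (nat_lit 28431012643) (nat_lit 0) (nat_lit 1799128952) (nat_lit 9) (nat_lit 5) (nat_lit 11) (nat_lit 4) (nat_lit 9) (nat_lit 4) (nat_lit 370) (nat_lit 270) (nat_lit 260)) (XT.lf (nat_lit 0) (nat_lit 12050510364)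 (nat_lit 152) (nat_lit 16376039262) (nat_lit 0) (nat_lit 8477535319) (nat_lit 9) (nat_lit 5) (nat_lit 11) (nat_lit 4) (nat_lit 9) (nat_lit 4) (nat_lit 371) (nat_lit 270) (nat_lit 259)))) (XT.nd (nat_lit 78) (nat_lit 76) (nat_lit 0) (XT.lf (nat_lit 0) (nat_lit 19142488117) (nat_lit 152) (nat_lit 4068170061) (nat_lit 0) (nat_lit 15329991403) (nat_lit 9) (nat_lit 5) (nat_lit 11) (nat_lit 4) (nat_lit 9) (nat_lit 4) (nat_lit 372) (nat_lit 270) (nat_lit 258)) (XT.nd (nat_lit 78) (nat_lit 0) (nat_lit 0) (XT.lf (nat_lit 0) (nat_lit 8691501916) (nat_lit 76) (nat_lit 17805471282) (nat_lit 76) (nat_lit 13764858692) (nat_lit 8) (nat_lit 4) (nat_lit 9) (nat_lit 5) (nat_lit 9) (nat_lit 4) (nat_lit 373) (nat_lit 270) (nat_lit 257)) (XT.lf (nat_lit 0) (nat_lit 21850528009) (nat_lit 76) (nat_lit 12240145896) (nat_lit 76) (nat_lit 7982280092) (nat_lit 8) (nat_lit 4) (nat_lit 9) (nat_lit 5) (nat_lit 9) (nat_lit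 4) (nat_lit 374) (nat_lit 270) (nat_lit 256))))))))
noncomputable def xc7 : XT := (XT.nd (nat_lit 45708) (nat_lit 0) (nat_lit 228) (XT.nd (nat_lit 858) (nat_lit 228) (nat_lit 0) (XT.nd (nat_lit 390) (nat_lit 76) (nat_lit 0) (XT.nd (nat_lit 156) (nat_lit 0) (nat_lit 0) (XT.nd (nat_lit 78) (nat_lit 152) (nat_lit 0) (XT.lf (nat_lit 0) (nat_lit 35359274669) (nat_lit 76) (nat_lit 6542511788) (nat_lit 76) (nat_lit 2077738160) (nat_lit 8) (nat_lit 4) (nat_lit 9) (nat_lit 5) (nat_lit 9) (nat_lit 4) (nat_lit 375) (nat_lit 270) (nat_lit 255)) (XT.lf (nat_lit 0) (nat_lit 3289927608) (nat_lit 76) (nat_lit 627193725) (nat_lit 152) (nat_lit 42066870334) (nat_lit 6) (nat_lit 5) (nat_lit 7) (nat_lit 5) (nat_lit 8) (nat_lit 4) (nat_lit 376) (nat_lit 270) (nat_lit 254))) (XT.nd (nat_lit 78) (nat_lit 0) (nat_lit 0) (XT.lf (nat_lit 0) (nat_lit 10159694683) (nat_lit 152) (nat_lit 32477221239) (nat_lit 0) (nat_lit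 5451442067) (nat_lit 6) (nat_lit 5) (nat_lit 8) (nat_lit 4) (nat_lit 6) (nat_lit 4) (nat_lit 377) (nat_lit 270) (nat_lit 253)) (XT.nd (nat_lit 78) (nat_lit 0) (nat_lit 0) (XT.lf (nat_lit 0) (nat_lit 16575250942) (nat_lit 152) (nat_lit 22033416929) (nat_lit 0) (nat_lit 11693469436) (nat_lit 6) (nat_lit 5) (nat_lit 8) (nat_lit 4) (nat_lit 6) (nat_lit 4) (nat_lit 378) (nat_lit 270) (nat_lit 252)) (XT.lf (nat_lit 0) (nat_lit 23173036276) (nat_lit 152) (nat_lit 11331755957) (nat_lit 0) (nat_lit 18125989160) (nat_lit 6) (nat_lit 5) (nat_lit 8) (nat_lit 4) (nat_lit 6) (nat_lit 4) (nat_lit 379) (nat_lit 270) (nat_lit 251))))) (XT.nd (nat_lit 234) (nat_lit 0) (nat_lit 0) (XT.nd (nat_lit 78) (nat_lit 76) (nat_lit 0) (XT.lf (nat_lit 0) (nat_lit 29968759697) (nat_lit 152) (nat_lit 346758178) (nat_lit 0) (nat_lit 24764316761) (nat_lit 6) (nat_lit 5) (nat_lit 8) (nat_lit 4) (nat_lit 6) (nat_lit 4) (nat_lit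 380) (nat_lit 270) (nat_lit 250)) (XT.nd (nat_lit 78) (nat_lit 0) (nat_lit 0) (XT.lf (nat_lit 0) (nat_lit 11165612480) (nat_lit 76) (nat_lit 25920319716) (nat_lit 76) (nat_lit 20565976000) (nat_lit 5) (nat_lit 4) (nat_lit 6) (nat_lit 5) (nat_lit 6) (nat_lit 4) (nat_lit 381) (nat_lit 270) (nat_lit 249)) (XT.lf (nat_lit 0) (nat_lit 23027962196) (nat_lit 76) (nat_lit 21412648443) (nat_lit 76) (nat_lit 15915542080) (nat_lit 5) (nat_lit 4) (nat_lit 6) (nat_lit 5) (nat_lit 6) (nat_lit 4) (nat_lit 382) (nat_lit 270) (nat_lit 248)))) (XT.nd (nat_lit 78) (nat_lit 0) (nat_lit 0) (XT.lf (nat_lit 0) (nat_lit 35261633492) (nat_lit 76) (nat_lit 16785273085) (nat_lit 76) (nat_lit 11152202295) (nat_lit 5) (nat_lit 4) (nat_lit 6) (nat_lit 5) (nat_lit 6) (nat_lit 4) (nat_lit 383) (nat_lit 270) (nat_lit 247)) (XT.nd (nat_lit 78) (nat_lit 0) (nat_lit 0) (XT.lf (nat_lit 0) (nat_lit 47895754157) (nat_lit 76) (nat_lit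 12027176081) (nat_lit 76) (nat_lit 6264615360) (nat_lit 5) (nat_lit 4) (nat_lit 6) (nat_lit 5) (nat_lit 6) (nat_lit 4) (nat_lit 384) (nat_lit 270) (nat_lit 246)) (XT.lf (nat_lit 0) (nat_lit 60960405430) (nat_lit 76) (nat_lit 7127028628) (nat_lit 76) (nat_lit 1241144165) (nat_lit 5) (nat_lit 4) (nat_lit 6) (nat_lit 5) (nat_lit 6) (nat_lit 4) (nat_lit 385) (nat_lit 270) (nat_lit 245)))))) (XT.nd (nat_lit 468) (nat_lit 76) (nat_lit 0) (XT.nd (nat_lit 234) (nat_lit 0) (nat_lit 0) (XT.nd (nat_lit 78) (nat_lit 0) (nat_lit 0) (XT.lf (nat_lit 0) (nat_lit 1855435236) (nat_lit 76) (nat_lit 2015880469) (nat_lit 152) (nat_lit 68756701245) (nat_lit 3) (nat_lit 5) (nat_lit 4) (nat_lit 5) (nat_lit 5) (nat_lit 4) (nat_lit 386) (nat_lit 270) (nat_lit 244)) (XT.nd (nat_lit 78) (nat_lit 0) (nat_lit 0) (XT.lf (nat_lit 0) (nat_lit 9234015607) (nat_lit 152) (nat_lit 63560513350) (nat_lit 0) (nat_lit 3296934134)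 (nat_lit 3) (nat_lit 5) (nat_lit 5) (nat_lit 4) (nat_lit 3) (nat_lit 4) (nat_lit 387) (nat_lit 270) (nat_lit 243)) (XT.lf (nat_lit 0) (nat_lit 14790760277) (nat_lit 152) (nat_lit 56189306091) (nat_lit 0) (nat_lit 8750249983) (nat_lit 3) (nat_lit 5) (nat_lit 5) (nat_lit 4) (nat_lit 3) (nat_lit 4) (nat_lit 388) (nat_lit 270) (nat_lit 242)))) (XT.nd (nat_lit 78) (nat_lit 0) (nat_lit 0) (XT.lf (nat_lit 0) (nat_lit 20535402183) (nat_lit 152) (nat_lit 48622031566) (nat_lit 0) (nat_lit 14396388249) (nat_lit 3) (nat_lit 5) (nat_lit 5) (nat_lit 4) (nat_lit 3) (nat_lit 4) (nat_lit 389) (nat_lit 270) (nat_lit 241)) (XT.nd (nat_lit 78) (nat_lit 0) (nat_lit 0) (XT.lf (nat_lit 0) (nat_lit 26481619044) (nat_lit 152) (nat_lit 40840672457) (nat_lit 0) (nat_lit 20248792120) (nat_lit 3) (nat_lit 5) (nat_lit 5) (nat_lit 4) (nat_lit 3) (nat_lit 4) (nat_lit 390) (nat_lit 270) (nat_lit 240)) (XT.lf (nat_lit 0) (nat_lit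 32643568519) (nat_lit 152) (nat_lit 32826701717) (nat_lit 0) (nat_lit 26321395891) (nat_lit 3) (nat_lit 5) (nat_lit 5) (nat_lit 4) (nat_lit 3) (nat_lit 4) (nat_lit 391) (nat_lit 270) (nat_lit 239))))) (XT.nd (nat_lit 234) (nat_lit 76) (nat_lit 0) (XT.nd (nat_lit 78) (nat_lit 0) (nat_lit 0) (XT.lf (nat_lit 0) (nat_lit 39035921917) (nat_lit 152) (nat_lit 24561038464) (nat_lit 0) (nat_lit 32628658141) (nat_lit 3) (nat_lit 5) (nat_lit 5) (nat_lit 4) (nat_lit 3) (nat_lit 4) (nat_lit 392) (nat_lit 270) (nat_lit 238)) (XT.nd (nat_lit 78) (nat_lit 0) (nat_lit 0) (XT.lf (nat_lit 0) (nat_lit 45673899126) (nat_lit 152) (nat_lit 16024002546) (nat_lit 0) (nat_lit 39185596163) (nat_lit 3) (nat_lit 5) (nat_lit 5) (nat_lit 4) (nat_lit 3) (nat_lit 4) (nat_lit 393) (nat_lit 270) (nat_lit 237)) (XT.lf (nat_lit 0) (nat_lit 52573304854) (nat_lit 152) (nat_lit 7195267689) (nat_lit 0) (nat_lit 46007821713) (nat_lit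 3) (nat_lit 5) (nat_lit 5) (nat_lit 4) (nat_lit 3) (nat_lit 4) (nat_lit 394) (nat_lit 270) (nat_lit 236)))) (XT.nd (nat_lit 43992) (nat_lit 0) (nat_lit 1216) (XT.lf (nat_lit 0) (nat_lit 1984919840) (nat_lit 76) (nat_lit 57784726682) (nat_lit 76) (nat_lit 51145738608) (nat_lit 2) (nat_lit 4) (nat_lit 3) (nat_lit 5) (nat_lit 3) (nat_lit 4) (nat_lit 395) (nat_lit 270) (nat_lit 235)) (XT.nd (nat_lit 78) (nat_lit 152) (nat_lit 0) (XT.lf (nat_lit 0) (nat_lit 9419973583) (nat_lit 76) (nat_lit 739624794) (nat_lit 76) (nat_lit 739624794) (nat_lit 20) (nat_lit 4) (nat_lit 21) (nat_lit 5) (nat_lit 21) (nat_lit 4) (nat_lit 358) (nat_lit 271) (nat_lit 271)) (XT.lf (nat_lit 0) (nat_lit 6434560979) (nat_lit 152) (nat_lit 10234533857) (nat_lit 0) (nat_lit 5964528279) (nat_lit 18) (nat_lit 5) (nat_lit 20) (nat_lit 4) (nat_lit 18) (nat_lit 4) (nat_lit 359) (nat_lit 271) (nat_lit 270))))))) (XT.nd (nat_lit 858)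 (nat_lit 304) (nat_lit 0) (XT.nd (nat_lit 390) (nat_lit 380) (nat_lit 0) (XT.nd (nat_lit 156) (nat_lit 228) (nat_lit 0) (XT.nd (nat_lit 78) (nat_lit 0) (nat_lit 0) (XT.lf (nat_lit 0) (nat_lit 4639796132) (nat_lit 76) (nat_lit 9896684074) (nat_lit 76) (nat_lit 8979001183) (nat_lit 17) (nat_lit 4) (nat_lit 18) (nat_lit 5) (nat_lit 18) (nat_lit 4) (nat_lit 360) (nat_lit 271) (nat_lit 269)) (XT.lf (nat_lit 0) (nat_lit 19988653168) (nat_lit 76) (nat_lit 2900734469) (nat_lit 76) (nat_lit 1556718064) (nat_lit 17) (nat_lit 4) (nat_lit 18) (nat_lit 5) (nat_lit 18) (nat_lit 4) (nat_lit 361) (nat_lit 271) (nat_lit 268))) (XT.nd (nat_lit 78) (nat_lit 76) (nat_lit 0) (XT.lf (nat_lit 0) (nat_lit 6007189673) (nat_lit 152) (nat_lit 15109439215) (nat_lit 0) (nat_lit 4308113630) (nat_lit 15) (nat_lit 5) (nat_lit 17) (nat_lit 4) (nat_lit 15) (nat_lit 4) (nat_lit 362) (nat_lit 271) (nat_lit 267)) (XT.nd (nat_lit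 78) (nat_lit 76) (nat_lit 0) (XT.lf (nat_lit 0) (nat_lit 13748941126) (nat_lit 152) (nat_lit 1033565242) (nat_lit 0) (nat_lit 11674431040) (nat_lit 15) (nat_lit 5) (nat_lit 17) (nat_lit 4) (nat_lit 15) (nat_lit 4) (nat_lit 363) (nat_lit 271) (nat_lit 266)) (XT.lf (nat_lit 0) (nat_lit 13575746766) (nat_lit 76) (nat_lit 8200081004) (nat_lit 76) (nat_lit 5768014685) (nat_lit 14) (nat_lit 4) (nat_lit 15) (nat_lit 5) (nat_lit 15) (nat_lit 4) (nat_lit 364) (nat_lit 271) (nat_lit 265))))) (XT.nd (nat_lit 234) (nat_lit 228) (nat_lit 0) (XT.nd (nat_lit 78) (nat_lit 76) (nat_lit 0) (XT.lf (nat_lit 0) (nat_lit 1272353469) (nat_lit 152) (nat_lit 189718522) (nat_lit 76) (nat_lit 27229130574) (nat_lit 13) (nat_lit 5) (nat_lit 15) (nat_lit 5) (nat_lit 14) (nat_lit 4) (nat_lit 365) (nat_lit 271) (nat_lit 264)) (XT.nd (nat_lit 78) (nat_lit 0) (nat_lit 0) (XT.lf (nat_lit 0) (nat_lit 8519142864) (nat_lit 152)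 (nat_lit 15863466543) (nat_lit 0) (nat_lit 5512434021) (nat_lit 12) (nat_lit 5) (nat_lit 14) (nat_lit 4) (nat_lit 12) (nat_lit 4) (nat_lit 366) (nat_lit 271) (nat_lit 263)) (XT.lf (nat_lit 0) (nat_lit 15932876460) (nat_lit 152) (nat_lit 2605803495) (nat_lit 0) (nat_lit 12626293329) (nat_lit 12) (nat_lit 5) (nat_lit 14) (nat_lit 4) (nat_lit 12) (nat_lit 4) (nat_lit 367) (nat_lit 271) (nat_lit 262)))) (XT.nd (nat_lit 78) (nat_lit 152) (nat_lit 0) (XT.lf (nat_lit 0) (nat_lit 11151480651) (nat_lit 76) (nat_lit 12470987476) (nat_lit 76) (nat_lit 8878809784) (nat_lit 11) (nat_lit 4) (nat_lit 12) (nat_lit 5) (nat_lit 12) (nat_lit 4) (nat_lit 368) (nat_lit 271) (nat_lit 261)) (XT.nd (nat_lit 78) (nat_lit 152) (nat_lit 0) (XT.lf (nat_lit 0) (nat_lit 25281132518) (nat_lit 76) (nat_lit 6246271821) (nat_lit 76) (nat_lit 2382099309) (nat_lit 11) (nat_lit 4) (nat_lit 12) (nat_lit 5) (nat_lit 12) (nat_lit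 4) (nat_lit 369) (nat_lit 271) (nat_lit 260)) (XT.lf (nat_lit 0) (nat_lit 4208782052) (nat_lit 152) (nat_lit 30976768359) (nat_lit 0) (nat_lit 205660502) (nat_lit 9) (nat_lit 5) (nat_lit 11) (nat_lit 4) (nat_lit 9) (nat_lit 4) (nat_lit 370) (nat_lit 271) (nat_lit 259)))))) (XT.nd (nat_lit 468) (nat_lit 152) (nat_lit 0) (XT.nd (nat_lit 234) (nat_lit 76) (nat_lit 0) (XT.nd (nat_lit 78) (nat_lit 76) (nat_lit 0) (XT.lf (nat_lit 0) (nat_lit 11048724429) (nat_lit 152) (nat_lit 19092454905) (nat_lit 0) (nat_lit 6806081210) (nat_lit 9) (nat_lit 5) (nat_lit 11) (nat_lit 4) (nat_lit 9) (nat_lit 4) (nat_lit 371) (nat_lit 271) (nat_lit 258)) (XT.nd (nat_lit 78) (nat_lit 76) (nat_lit 0) (XT.lf (nat_lit 0) (nat_lit 18055024333) (nat_lit 152) (nat_lit 6947118968) (nat_lit 0) (nat_lit 13584265238) (nat_lit 9) (nat_lit 5) (nat_lit 11) (nat_lit 4) (nat_lit 9) (nat_lit 4) (nat_lit 372) (nat_lit 271) (nat_lit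 257)) (XT.lf (nat_lit 0) (nat_lit 5597382002) (nat_lit 76) (nat_lit 19700786886) (nat_lit 76) (nat_lit 15012774576) (nat_lit 8) (nat_lit 4) (nat_lit 9) (nat_lit 5) (nat_lit 9) (nat_lit 4) (nat_lit 373) (nat_lit 271) (nat_lit 256)))) (XT.nd (nat_lit 78) (nat_lit 76) (nat_lit 0) (XT.lf (nat_lit 0) (nat_lit 18606051637) (nat_lit 76) (nat_lit 14206660304) (nat_lit 76) (nat_lit 9311740170) (nat_lit 8) (nat_lit 4) (nat_lit 9) (nat_lit 5) (nat_lit 9) (nat_lit 4) (nat_lit 374) (nat_lit 271) (nat_lit 255)) (XT.nd (nat_lit 78) (nat_lit 76) (nat_lit 0) (XT.lf (nat_lit 0) (nat_lit 31971601671) (nat_lit 76) (nat_lit 8576834580) (nat_lit 76) (nat_lit 3484859376) (nat_lit 8) (nat_lit 4) (nat_lit 9) (nat_lit 5) (nat_lit 9) (nat_lit 4) (nat_lit 375) (nat_lit 271) (nat_lit 254)) (XT.lf (nat_lit 0) (nat_lit 2433313619) (nat_lit 152) (nat_lit 340020050) (nat_lit 76) (nat_lit 43267969526) (nat_lit 7) (nat_lit 5)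 (nat_lit 9) (nat_lit 5) (nat_lit 8) (nat_lit 4) (nat_lit 376) (nat_lit 271) (nat_lit 253))))) (XT.nd (nat_lit 234) (nat_lit 76) (nat_lit 0) (XT.nd (nat_lit 78) (nat_lit 0) (nat_lit 0) (XT.lf (nat_lit 0) (nat_lit 8580926436) (nat_lit 152) (nat_lit 36286074841) (nat_lit 0) (nat_lit 3281526963) (nat_lit 6) (nat_lit 5) (nat_lit 8) (nat_lit 4) (nat_lit 6) (nat_lit 4) (nat_lit 377) (nat_lit 271) (nat_lit 252)) (XT.nd (nat_lit 78) (nat_lit 0) (nat_lit 0) (XT.lf (nat_lit 0) (nat_lit 14928897945) (nat_lit 152) (nat_lit 25971213727) (nat_lit 0) (nat_lit 9464232862) (nat_lit 6) (nat_lit 5) (nat_lit 8) (nat_lit 4) (nat_lit 6) (nat_lit 4) (nat_lit 378) (nat_lit 271) (nat_lit 251)) (XT.lf (nat_lit 0) (nat_lit 21462316849) (nat_lit 152) (nat_lit 15392355800) (nat_lit 0) (nat_lit 15840255948) (nat_lit 6) (nat_lit 5) (nat_lit 8) (nat_lit 4) (nat_lit 6) (nat_lit 4) (nat_lit 379) (nat_lit 271) (nat_lit 250))))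 (XT.nd (nat_lit 78) (nat_lit 76) (nat_lit 0) (XT.lf (nat_lit 0) (nat_lit 28196738909) (nat_lit 152) (nat_lit 4524313302) (nat_lit 0) (nat_lit 22424777227) (nat_lit 6) (nat_lit 5) (nat_lit 8) (nat_lit 4) (nat_lit 6) (nat_lit 4) (nat_lit 380) (nat_lit 271) (nat_lit 249)) (XT.nd (nat_lit 78) (nat_lit 0) (nat_lit 0) (XT.lf (nat_lit 0) (nat_lit 6791313036) (nat_lit 76) (nat_lit 28422167680) (nat_lit 76) (nat_lit 22507443350) (nat_lit 5) (nat_lit 4) (nat_lit 6) (nat_lit 5) (nat_lit 6) (nat_lit 4) (nat_lit 381) (nat_lit 271) (nat_lit 248)) (XT.lf (nat_lit 0) (nat_lit 18545469628) (nat_lit 76) (nat_lit 23966047373) (nat_lit 76) (nat_lit 17915358616) (nat_lit 5) (nat_lit 4) (nat_lit 6) (nat_lit 5) (nat_lit 6) (nat_lit 4) (nat_lit 382) (nat_lit 271) (nat_lit 247))))))))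
noncomputable def xc8 : XT := (XT.nd (nat_lit 45474) (nat_lit 0) (nat_lit 0) (XT.nd (nat_lit 858) (nat_lit 0) (nat_lit 0) (XT.nd (nat_lit 390) (nat_lit 0) (nat_lit 0) (XT.nd (nat_lit 156) (nat_lit 152) (nat_lit 0) (XT.nd (nat_lit 78) (nat_lit 0) (nat_lit 0) (XT.lf (nat_lit 0) (nat_lit 30676099853) (nat_lit 76) (nat_lit 19387768171) (nat_lit 76) (nat_lit 13207589485) (nat_lit 5) (nat_lit 4) (nat_lit 6) (nat_lit 5) (nat_lit 6) (nat_lit 4) (nat_lit 383) (nat_lit 271) (nat_lit 246)) (XT.lf (nat_lit 0) (nat_lit 43212086164) (nat_lit 76) (nat_lit 14676429412) (nat_lit 76) (nat_lit 8372926982) (nat_lit 5) (nat_lit 4) (nat_lit 6) (nat_lit 5) (nat_lit 6) (nat_lit 4) (nat_lit 384) (nat_lit 271) (nat_lit 245))) (XT.nd (nat_lit 78) (nat_lit 152) (nat_lit 0) (XT.lf (nat_lit 0) (nat_lit 56183276147) (nat_lit 76) (nat_lit 9820813620) (nat_lit 76) (nat_lit 3399860007) (nat_lit 5) (nat_lit 4) (nat_lit 6) (nat_lit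 5) (nat_lit 6) (nat_lit 4) (nat_lit 385) (nat_lit 271) (nat_lit 244)) (XT.nd (nat_lit 78) (nat_lit 76) (nat_lit 0) (XT.lf (nat_lit 0) (nat_lit 1689821317) (nat_lit 152) (nat_lit 3102474608) (nat_lit 76) (nat_lit 67913668390) (nat_lit 4) (nat_lit 5) (nat_lit 6) (nat_lit 5) (nat_lit 5) (nat_lit 4) (nat_lit 386) (nat_lit 271) (nat_lit 243)) (XT.lf (nat_lit 0) (nat_lit 6949048217) (nat_lit 152) (nat_lit 68720388747) (nat_lit 0) (nat_lit 503083587) (nat_lit 3) (nat_lit 5) (nat_lit 5) (nat_lit 4) (nat_lit 3) (nat_lit 4) (nat_lit 387) (nat_lit 271) (nat_lit 242))))) (XT.nd (nat_lit 234) (nat_lit 0) (nat_lit 0) (XT.nd (nat_lit 78) (nat_lit 0) (nat_lit 0) (XT.lf (nat_lit 0) (nat_lit 12461919717) (nat_lit 152) (nat_lit 61433324462) (nat_lit 0) (nat_lit 5917451447) (nat_lit 3) (nat_lit 5) (nat_lit 5) (nat_lit 4) (nat_lit 3) (nat_lit 4) (nat_lit 388) (nat_lit 271) (nat_lit 241)) (XT.nd (nat_lit 78) (nat_lit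 0) (nat_lit 0) (XT.lf (nat_lit 0) (nat_lit 18164777652) (nat_lit 152) (nat_lit 53946186104) (nat_lit 0) (nat_lit 11526496393) (nat_lit 3) (nat_lit 5) (nat_lit 5) (nat_lit 4) (nat_lit 3) (nat_lit 4) (nat_lit 389) (nat_lit 271) (nat_lit 240)) (XT.lf (nat_lit 0) (nat_lit 24071200255) (nat_lit 152) (nat_lit 46241147154) (nat_lit 0) (nat_lit 17343573291) (nat_lit 3) (nat_lit 5) (nat_lit 5) (nat_lit 4) (nat_lit 3) (nat_lit 4) (nat_lit 390) (nat_lit 271) (nat_lit 239)))) (XT.nd (nat_lit 78) (nat_lit 0) (nat_lit 0) (XT.lf (nat_lit 0) (nat_lit 30195250437) (nat_lit 152) (nat_lit 38299862279) (nat_lit 0) (nat_lit 23382532326) (nat_lit 3) (nat_lit 5) (nat_lit 5) (nat_lit 4) (nat_lit 3) (nat_lit 4) (nat_lit 391) (nat_lit 271) (nat_lit 238)) (XT.nd (nat_lit 78) (nat_lit 0) (nat_lit 0) (XT.lf (nat_lit 0) (nat_lit 36551509270) (nat_lit 152) (nat_lit 30103423659) (nat_lit 0) (nat_lit 29657751971) (nat_lit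 3) (nat_lit 5) (nat_lit 5) (nat_lit 4) (nat_lit 3) (nat_lit 4) (nat_lit 392) (nat_lit 271) (nat_lit 237)) (XT.lf (nat_lit 0) (nat_lit 43155110703) (nat_lit 152) (nat_lit 21632315964) (nat_lit 0) (nat_lit 36184173225) (nat_lit 3) (nat_lit 5) (nat_lit 5) (nat_lit 4) (nat_lit 3) (nat_lit 4) (nat_lit 393) (nat_lit 271) (nat_lit 236)))))) (XT.nd (nat_lit 44148) (nat_lit 0) (nat_lit 836) (XT.nd (nat_lit 43914) (nat_lit 0) (nat_lit 1292) (XT.nd (nat_lit 78) (nat_lit 0) (nat_lit 0) (XT.lf (nat_lit 0) (nat_lit 50021777597) (nat_lit 152) (nat_lit 12866369890) (nat_lit 0) (nat_lit 42977335187) (nat_lit 3) (nat_lit 5) (nat_lit 5) (nat_lit 4) (nat_lit 3) (nat_lit 4) (nat_lit 394) (nat_lit 271) (nat_lit 235)) (XT.lf (nat_lit 0) (nat_lit 57167859159) (nat_lit 152) (nat_lit 3784714137) (nat_lit 0) (nat_lit 50053412051) (nat_lit 3) (nat_lit 5) (nat_lit 5) (nat_lit 4) (nat_lit 3) (nat_lit 4) (nat_lit 395) (nat_lit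 271) (nat_lit 234))) (XT.nd (nat_lit 78) (nat_lit 76) (nat_lit 0) (XT.lf (nat_lit 0) (nat_lit 2063847877) (nat_lit 152) (nat_lit 5996219927) (nat_lit 0) (nat_lit 2063847877) (nat_lit 21) (nat_lit 5) (nat_lit 23) (nat_lit 4) (nat_lit 21) (nat_lit 4) (nat_lit 356) (nat_lit 272) (nat_lit 272)) (XT.nd (nat_lit 78) (nat_lit 0) (nat_lit 0) (XT.lf (nat_lit 0) (nat_lit 3050546721) (nat_lit 76) (nat_lit 9230892018) (nat_lit 76) (nat_lit 8722551653) (nat_lit 20) (nat_lit 4) (nat_lit 21) (nat_lit 5) (nat_lit 21) (nat_lit 4) (nat_lit 357) (nat_lit 272) (nat_lit 271)) (XT.lf (nat_lit 0) (nat_lit 18595811755) (nat_lit 76) (nat_lit 2099550753) (nat_lit 76) (nat_lit 1107076707) (nat_lit 20) (nat_lit 4) (nat_lit 21) (nat_lit 5) (nat_lit 21) (nat_lit 4) (nat_lit 358) (nat_lit 272) (nat_lit 270))))) (XT.nd (nat_lit 234) (nat_lit 228) (nat_lit 0) (XT.nd (nat_lit 78) (nat_lit 76) (nat_lit 0) (XT.lf (nat_lit 0)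 (nat_lit 6660534550) (nat_lit 152) (nat_lit 10731850446) (nat_lit 0) (nat_lit 5249317324) (nat_lit 18) (nat_lit 5) (nat_lit 20) (nat_lit 4) (nat_lit 18) (nat_lit 4) (nat_lit 359) (nat_lit 272) (nat_lit 269)) (XT.nd (nat_lit 78) (nat_lit 0) (nat_lit 0) (XT.lf (nat_lit 0) (nat_lit 3896942402) (nat_lit 76) (nat_lit 10734068282) (nat_lit 76) (nat_lit 8896517542) (nat_lit 17) (nat_lit 4) (nat_lit 18) (nat_lit 5) (nat_lit 18) (nat_lit 4) (nat_lit 360) (nat_lit 272) (nat_lit 268)) (XT.lf (nat_lit 0) (nat_lit 19021380804) (nat_lit 76) (nat_lit 3841996891) (nat_lit 76) (nat_lit 1598414232) (nat_lit 17) (nat_lit 4) (nat_lit 18) (nat_lit 5) (nat_lit 18) (nat_lit 4) (nat_lit 361) (nat_lit 272) (nat_lit 267)))) (XT.nd (nat_lit 78) (nat_lit 76) (nat_lit 0) (XT.lf (nat_lit 0) (nat_lit 5828466745) (nat_lit 152) (nat_lit 16341333555) (nat_lit 0) (nat_lit 3274797110) (nat_lit 15) (nat_lit 5) (nat_lit 17) (nat_lit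 4) (nat_lit 15) (nat_lit 4) (nat_lit 362) (nat_lit 272) (nat_lit 266)) (XT.nd (nat_lit 78) (nat_lit 76) (nat_lit 0) (XT.lf (nat_lit 0) (nat_lit 13456827582) (nat_lit 152) (nat_lit 2477785133) (nat_lit 0) (nat_lit 10545601714) (nat_lit 15) (nat_lit 5) (nat_lit 17) (nat_lit 4) (nat_lit 15) (nat_lit 4) (nat_lit 363) (nat_lit 272) (nat_lit 265)) (XT.lf (nat_lit 0) (nat_lit 11896544784) (nat_lit 76) (nat_lit 9463036860) (nat_lit 76) (nat_lit 6211281247) (nat_lit 14) (nat_lit 4) (nat_lit 15) (nat_lit 5) (nat_lit 15) (nat_lit 4) (nat_lit 364) (nat_lit 272) (nat_lit 264))))))) (XT.nd (nat_lit 858) (nat_lit 380) (nat_lit 0) (XT.nd (nat_lit 390) (nat_lit 228) (nat_lit 0) (XT.nd (nat_lit 156) (nat_lit 76) (nat_lit 0) (XT.nd (nat_lit 78) (nat_lit 76) (nat_lit 0) (XT.lf (nat_lit 0) (nat_lit 731944759) (nat_lit 152) (nat_lit 2090221794) (nat_lit 76) (nat_lit 25899376007) (nat_lit 13) (nat_lit 5) (nat_lit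 15) (nat_lit 5) (nat_lit 14) (nat_lit 4) (nat_lit 365) (nat_lit 272) (nat_lit 263)) (XT.lf (nat_lit 0) (nat_lit 7843367797) (nat_lit 152) (nat_lit 18014512515) (nat_lit 0) (nat_lit 4071581220) (nat_lit 12) (nat_lit 5) (nat_lit 14) (nat_lit 4) (nat_lit 12) (nat_lit 4) (nat_lit 366) (nat_lit 272) (nat_lit 262))) (XT.nd (nat_lit 78) (nat_lit 76) (nat_lit 0) (XT.lf (nat_lit 0) (nat_lit 15158553362) (nat_lit 152) (nat_lit 4942638544) (nat_lit 0) (nat_lit 11101172225) (nat_lit 12) (nat_lit 5) (nat_lit 14) (nat_lit 4) (nat_lit 12) (nat_lit 4) (nat_lit 367) (nat_lit 272) (nat_lit 261)) (XT.nd (nat_lit 78) (nat_lit 0) (nat_lit 0) (XT.lf (nat_lit 0) (nat_lit 8587674531) (nat_lit 76) (nat_lit 14141970357) (nat_lit 76) (nat_lit 9812594400) (nat_lit 11) (nat_lit 4) (nat_lit 12) (nat_lit 5) (nat_lit 12) (nat_lit 4) (nat_lit 368) (nat_lit 272) (nat_lit 260)) (XT.lf (nat_lit 0) (nat_lit 22545456426) (nat_lit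 76) (nat_lit 7998086585) (nat_lit 76) (nat_lit 3409667943) (nat_lit 11) (nat_lit 4) (nat_lit 12) (nat_lit 5) (nat_lit 12) (nat_lit 4) (nat_lit 369) (nat_lit 272) (nat_lit 259))))) (XT.nd (nat_lit 234) (nat_lit 76) (nat_lit 0) (XT.nd (nat_lit 78) (nat_lit 0) (nat_lit 0) (XT.lf (nat_lit 0) (nat_lit 1423160043) (nat_lit 76) (nat_lit 1659739466) (nat_lit 152) (nat_lit 32355879676) (nat_lit 9) (nat_lit 5) (nat_lit 10) (nat_lit 5) (nat_lit 11) (nat_lit 4) (nat_lit 370) (nat_lit 272) (nat_lit 258)) (XT.nd (nat_lit 78) (nat_lit 0) (nat_lit 0) (XT.lf (nat_lit 0) (nat_lit 9821209605) (nat_lit 152) (nat_lit 22277884520) (nat_lit 0) (nat_lit 4898796680) (nat_lit 9) (nat_lit 5) (nat_lit 11) (nat_lit 4) (nat_lit 9) (nat_lit 4) (nat_lit 371) (nat_lit 272) (nat_lit 257)) (XT.lf (nat_lit 0) (nat_lit 16745911556) (nat_lit 152) (nat_lit 10287342167) (nat_lit 0) (nat_lit 11606245416) (nat_lit 9) (nat_lit 5) (nat_lit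 11) (nat_lit 4) (nat_lit 9) (nat_lit 4) (nat_lit 372) (nat_lit 272) (nat_lit 256)))) (XT.nd (nat_lit 78) (nat_lit 0) (nat_lit 0) (XT.lf (nat_lit 0) (nat_lit 2040325354) (nat_lit 76) (nat_lit 21836825817) (nat_lit 76) (nat_lit 16490251854) (nat_lit 8) (nat_lit 4) (nat_lit 9) (nat_lit 5) (nat_lit 9) (nat_lit 4) (nat_lit 373) (nat_lit 272) (nat_lit 255)) (XT.nd (nat_lit 78) (nat_lit 0) (nat_lit 0) (XT.lf (nat_lit 0) (nat_lit 14905798363) (nat_lit 76) (nat_lit 16410507619) (nat_lit 76) (nat_lit 10866878585) (nat_lit 8) (nat_lit 4) (nat_lit 9) (nat_lit 5) (nat_lit 9) (nat_lit 4) (nat_lit 374) (nat_lit 272) (nat_lit 254)) (XT.lf (nat_lit 0) (nat_lit 28134970658) (nat_lit 76) (nat_lit 10845261308) (nat_lit 76) (nat_lit 5113960779) (nat_lit 8) (nat_lit 4) (nat_lit 9) (nat_lit 5) (nat_lit 9) (nat_lit 4) (nat_lit 375) (nat_lit 272) (nat_lit 253)))))) (XT.nd (nat_lit 468) (nat_lit 152) (nat_lit 0) (XT.nd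 (nat_lit 234) (nat_lit 76) (nat_lit 0) (XT.nd (nat_lit 78) (nat_lit 76) (nat_lit 0) (XT.lf (nat_lit 0) (nat_lit 766935468) (nat_lit 152) (nat_lit 4353156285) (nat_lit 76) (nat_lit 40984660255) (nat_lit 7) (nat_lit 5) (nat_lit 9) (nat_lit 5) (nat_lit 8) (nat_lit 4) (nat_lit 376) (nat_lit 272) (nat_lit 252)) (XT.nd (nat_lit 78) (nat_lit 0) (nat_lit 0) (XT.lf (nat_lit 0) (nat_lit 6784671037) (nat_lit 152) (nat_lit 40549704676) (nat_lit 0) (nat_lit 881507090) (nat_lit 6) (nat_lit 5) (nat_lit 8) (nat_lit 4) (nat_lit 6) (nat_lit 4) (nat_lit 377) (nat_lit 272) (nat_lit 251)) (XT.lf (nat_lit 0) (nat_lit 13068276117) (nat_lit 152) (nat_lit 30357646608) (nat_lit 0) (nat_lit 7007716351) (nat_lit 6) (nat_lit 5) (nat_lit 8) (nat_lit 4) (nat_lit 6) (nat_lit 4) (nat_lit 378) (nat_lit 272) (nat_lit 250)))) (XT.nd (nat_lit 78) (nat_lit 76) (nat_lit 0) (XT.lf (nat_lit 0) (nat_lit 19540393661) (nat_lit 152) (nat_lit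 19895743961) (nat_lit 0) (nat_lit 13329933114) (nat_lit 6) (nat_lit 5) (nat_lit 8) (nat_lit 4) (nat_lit 6) (nat_lit 4) (nat_lit 379) (nat_lit 272) (nat_lit 249)) (XT.nd (nat_lit 78) (nat_lit 76) (nat_lit 0) (XT.lf (nat_lit 0) (nat_lit 26216433472) (nat_lit 152) (nat_lit 9139087445) (nat_lit 0) (nat_lit 19863210277) (nat_lit 6) (nat_lit 5) (nat_lit 8) (nat_lit 4) (nat_lit 6) (nat_lit 4) (nat_lit 380) (nat_lit 272) (nat_lit 248)) (XT.lf (nat_lit 0) (nat_lit 1976502715) (nat_lit 76) (nat_lit 31154787521) (nat_lit 76) (nat_lit 24665599900) (nat_lit 5) (nat_lit 4) (nat_lit 6) (nat_lit 5) (nat_lit 6) (nat_lit 4) (nat_lit 381) (nat_lit 272) (nat_lit 247))))) (XT.nd (nat_lit 234) (nat_lit 152) (nat_lit 0) (XT.nd (nat_lit 78) (nat_lit 0) (nat_lit 0) (XT.lf (nat_lit 0) (nat_lit 13627618235) (nat_lit 76) (nat_lit 26747763370) (nat_lit 76) (nat_lit 20129085819) (nat_lit 5) (nat_lit 4) (nat_lit 6) (nat_lit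 5) (nat_lit 6) (nat_lit 4) (nat_lit 382) (nat_lit 272) (nat_lit 246)) (XT.nd (nat_lit 78) (nat_lit 0) (nat_lit 0) (XT.lf (nat_lit 0) (nat_lit 25660114106) (nat_lit 76) (nat_lit 22216242414) (nat_lit 76) (nat_lit 15474241120) (nat_lit 5) (nat_lit 4) (nat_lit 6) (nat_lit 5) (nat_lit 6) (nat_lit 4) (nat_lit 383) (nat_lit 272) (nat_lit 245)) (XT.lf (nat_lit 0) (nat_lit 38102639128) (nat_lit 76) (nat_lit 17549435316) (nat_lit 76) (nat_lit 10689982838) (nat_lit 5) (nat_lit 4) (nat_lit 6) (nat_lit 5) (nat_lit 6) (nat_lit 4) (nat_lit 384) (nat_lit 272) (nat_lit 244)))) (XT.nd (nat_lit 78) (nat_lit 152) (nat_lit 0) (XT.lf (nat_lit 0) (nat_lit 50984818360) (nat_lit 76) (nat_lit 12736230630) (nat_lit 76) (nat_lit 5764919883) (nat_lit 5) (nat_lit 4) (nat_lit 6) (nat_lit 5) (nat_lit 6) (nat_lit 4) (nat_lit 385) (nat_lit 272) (nat_lit 243)) (XT.nd (nat_lit 78) (nat_lit 152) (nat_lit 0) (XT.lf (nat_lit 0)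 (nat_lit 64337323658) (nat_lit 76) (nat_lit 7765168347) (nat_lit 76) (nat_lit 687325914) (nat_lit 5) (nat_lit 4) (nat_lit 6) (nat_lit 5) (nat_lit 6) (nat_lit 4) (nat_lit 386) (nat_lit 272) (nat_lit 242)) (XT.lf (nat_lit 0) (nat_lit 1924240461) (nat_lit 76) (nat_lit 2560262811) (nat_lit 152) (nat_lit 71775099013) (nat_lit 3) (nat_lit 5) (nat_lit 4) (nat_lit 5) (nat_lit 5) (nat_lit 4) (nat_lit 387) (nat_lit 272) (nat_lit 241))))))))
noncomputable def xc9 : XT := (XT.nd (nat_lit 45396) (nat_lit 0) (nat_lit 0) (XT.nd (nat_lit 44460) (nat_lit 0) (nat_lit 608) (XT.nd (nat_lit 390) (nat_lit 0) (nat_lit 0) (XT.nd (nat_lit 156) (nat_lit 0) (nat_lit 0) (XT.nd (nat_lit 78) (nat_lit 0) (nat_lit 0) (XT.lf (nat_lit 0) (nat_lit 9930979989) (nat_lit 152) (nat_lit 67103822894) (nat_lit 0) (nat_lit 2866971677) (nat_lit 3) (nat_lit 5) (nat_lit 5) (nat_lit 4) (nat_lit 3) (nat_lit 4) (nat_lit 388) (nat_lit 272)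 (nat_lit 240)) (XT.lf (nat_lit 0) (nat_lit 15594043666) (nat_lit 152) (nat_lit 59693004694) (nat_lit 0) (nat_lit 8440689649) (nat_lit 3) (nat_lit 5) (nat_lit 5) (nat_lit 4) (nat_lit 3) (nat_lit 4) (nat_lit 389) (nat_lit 272) (nat_lit 239))) (XT.nd (nat_lit 78) (nat_lit 0) (nat_lit 0) (XT.lf (nat_lit 0) (nat_lit 21462566976) (nat_lit 152) (nat_lit 52060651609) (nat_lit 0) (nat_lit 14224121812) (nat_lit 3) (nat_lit 5) (nat_lit 5) (nat_lit 4) (nat_lit 3) (nat_lit 4) (nat_lit 390) (nat_lit 272) (nat_lit 238)) (XT.nd (nat_lit 78) (nat_lit 0) (nat_lit 0) (XT.lf (nat_lit 0) (nat_lit 27550522593) (nat_lit 152) (nat_lit 44188591367) (nat_lit 0) (nat_lit 20231038241) (nat_lit 3) (nat_lit 5) (nat_lit 5) (nat_lit 4) (nat_lit 3) (nat_lit 4) (nat_lit 391) (nat_lit 272) (nat_lit 237)) (XT.lf (nat_lit 0) (nat_lit 33872405649) (nat_lit 152) (nat_lit 36058080970) (nat_lit 0) (nat_lit 26475741119) (nat_lit 3)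 (nat_lit 5) (nat_lit 5) (nat_lit 4) (nat_lit 3) (nat_lit 4) (nat_lit 392) (nat_lit 272) (nat_lit 236))))) (XT.nd (nat_lit 43836) (nat_lit 0) (nat_lit 1368) (XT.nd (nat_lit 78) (nat_lit 0) (nat_lit 0) (XT.lf (nat_lit 0) (nat_lit 40443268248) (nat_lit 152) (nat_lit 27649762058) (nat_lit 0) (nat_lit 32973098785) (nat_lit 3) (nat_lit 5) (nat_lit 5) (nat_lit 4) (nat_lit 3) (nat_lit 4) (nat_lit 393) (nat_lit 272) (nat_lit 235)) (XT.nd (nat_lit 78) (nat_lit 0) (nat_lit 0) (XT.lf (nat_lit 0) (nat_lit 47278755299) (nat_lit 152) (nat_lit 18943614826) (nat_lit 0) (nat_lit 39738581139) (nat_lit 3) (nat_lit 5) (nat_lit 5) (nat_lit 4) (nat_lit 3) (nat_lit 4) (nat_lit 394) (nat_lit 272) (nat_lit 234)) (XT.lf (nat_lit 0) (nat_lit 54395141773) (nat_lit 152) (nat_lit 9918910350) (nat_lit 0) (nat_lit 46788296473) (nat_lit 3) (nat_lit 5) (nat_lit 5) (nat_lit 4) (nat_lit 3) (nat_lit 4) (nat_lit 395) (nat_lit 272)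 (nat_lit 233)))) (XT.nd (nat_lit 78) (nat_lit 304) (nat_lit 0) (XT.lf (nat_lit 0) (nat_lit 3942505219) (nat_lit 152) (nat_lit 1538103933) (nat_lit 0) (nat_lit 3942505219) (nat_lit 25) (nat_lit 5) (nat_lit 27) (nat_lit 4) (nat_lit 25) (nat_lit 4) (nat_lit 354) (nat_lit 273) (nat_lit 273)) (XT.nd (nat_lit 78) (nat_lit 152) (nat_lit 0) (XT.lf (nat_lit 0) (nat_lit 12383236401) (nat_lit 152) (nat_lit 3848616338) (nat_lit 152) (nat_lit 3298846233) (nat_lit 23) (nat_lit 4) (nat_lit 25) (nat_lit 5) (nat_lit 25) (nat_lit 4) (nat_lit 355) (nat_lit 273) (nat_lit 272)) (XT.lf (nat_lit 0) (nat_lit 4525133915) (nat_lit 152) (nat_lit 12243779878) (nat_lit 0) (nat_lit 3483036166) (nat_lit 21) (nat_lit 5) (nat_lit 23) (nat_lit 4) (nat_lit 21) (nat_lit 4) (nat_lit 356) (nat_lit 273) (nat_lit 271)))))) (XT.nd (nat_lit 468) (nat_lit 304) (nat_lit 0) (XT.nd (nat_lit 234) (nat_lit 228) (nat_lit 0) (XT.nd (nat_lit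 78) (nat_lit 152) (nat_lit 0) (XT.lf (nat_lit 0) (nat_lit 2550069127) (nat_lit 76) (nat_lit 9994169043) (nat_lit 76) (nat_lit 8467937614) (nat_lit 20) (nat_lit 4) (nat_lit 21) (nat_lit 5) (nat_lit 21) (nat_lit 4) (nat_lit 357) (nat_lit 273) (nat_lit 270)) (XT.nd (nat_lit 78) (nat_lit 152) (nat_lit 0) (XT.lf (nat_lit 0) (nat_lit 17862824245) (nat_lit 76) (nat_lit 2969457112) (nat_lit 76) (nat_lit 982145986) (nat_lit 20) (nat_lit 4) (nat_lit 21) (nat_lit 5) (nat_lit 21) (nat_lit 4) (nat_lit 358) (nat_lit 273) (nat_lit 269)) (XT.lf (nat_lit 0) (nat_lit 6642987025) (nat_lit 152) (nat_lit 11727667713) (nat_lit 0) (nat_lit 4287225233) (nat_lit 18) (nat_lit 5) (nat_lit 20) (nat_lit 4) (nat_lit 18) (nat_lit 4) (nat_lit 359) (nat_lit 273) (nat_lit 268)))) (XT.nd (nat_lit 78) (nat_lit 152) (nat_lit 0) (XT.lf (nat_lit 0) (nat_lit 2656887786) (nat_lit 76) (nat_lit 11826272038) (nat_lit 76) (nat_lit 9064478328)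 (nat_lit 17) (nat_lit 4) (nat_lit 18) (nat_lit 5) (nat_lit 18) (nat_lit 4) (nat_lit 360) (nat_lit 273) (nat_lit 267)) (XT.nd (nat_lit 78) (nat_lit 152) (nat_lit 0) (XT.lf (nat_lit 0) (nat_lit 17567594155) (nat_lit 76) (nat_lit 5033132280) (nat_lit 76) (nat_lit 1884641503) (nat_lit 17) (nat_lit 4) (nat_lit 18) (nat_lit 5) (nat_lit 18) (nat_lit 4) (nat_lit 361) (nat_lit 273) (nat_lit 266)) (XT.lf (nat_lit 0) (nat_lit 5408356906) (nat_lit 152) (nat_lit 18070089993) (nat_lit 0) (nat_lit 1994013512) (nat_lit 15) (nat_lit 5) (nat_lit 17) (nat_lit 4) (nat_lit 15) (nat_lit 4) (nat_lit 362) (nat_lit 273) (nat_lit 265))))) (XT.nd (nat_lit 234) (nat_lit 228) (nat_lit 0) (XT.nd (nat_lit 78) (nat_lit 76) (nat_lit 0) (XT.lf (nat_lit 0) (nat_lit 12928726678) (nat_lit 152) (nat_lit 4408756382) (nat_lit 0) (nat_lit 9173853539) (nat_lit 15) (nat_lit 5) (nat_lit 17) (nat_lit 4) (nat_lit 15) (nat_lit 4) (nat_lit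 363) (nat_lit 273) (nat_lit 264)) (XT.nd (nat_lit 78) (nat_lit 0) (nat_lit 0) (XT.lf (nat_lit 0) (nat_lit 9730725057) (nat_lit 76) (nat_lit 10977087868) (nat_lit 76) (nat_lit 6897900685) (nat_lit 14) (nat_lit 4) (nat_lit 15) (nat_lit 5) (nat_lit 15) (nat_lit 4) (nat_lit 364) (nat_lit 273) (nat_lit 263)) (XT.lf (nat_lit 0) (nat_lit 24285827137) (nat_lit 76) (nat_lit 4430924614) (nat_lit 76) (nat_lit 42866914) (nat_lit 14) (nat_lit 4) (nat_lit 15) (nat_lit 5) (nat_lit 15) (nat_lit 4) (nat_lit 365) (nat_lit 273) (nat_lit 262)))) (XT.nd (nat_lit 78) (nat_lit 76) (nat_lit 0) (XT.lf (nat_lit 0) (nat_lit 6931780512) (nat_lit 152) (nat_lit 20653978394) (nat_lit 0) (nat_lit 2385935758) (nat_lit 12) (nat_lit 5) (nat_lit 14) (nat_lit 4) (nat_lit 12) (nat_lit 4) (nat_lit 366) (nat_lit 273) (nat_lit 261)) (XT.nd (nat_lit 78) (nat_lit 76) (nat_lit 0) (XT.lf (nat_lit 0) (nat_lit 14153110810) (nat_lit 152)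 (nat_lit 7759046401) (nat_lit 0) (nat_lit 9335271236) (nat_lit 12) (nat_lit 5) (nat_lit 14) (nat_lit 4) (nat_lit 12) (nat_lit 4) (nat_lit 367) (nat_lit 273) (nat_lit 260)) (XT.lf (nat_lit 0) (nat_lit 5543344663) (nat_lit 76) (nat_lit 16062207743) (nat_lit 76) (nat_lit 10985325483) (nat_lit 11) (nat_lit 4) (nat_lit 12) (nat_lit 5) (nat_lit 12) (nat_lit 4) (nat_lit 368) (nat_lit 273) (nat_lit 259))))))) (XT.nd (nat_lit 858) (nat_lit 228) (nat_lit 0) (XT.nd (nat_lit 390) (nat_lit 228) (nat_lit 0) (XT.nd (nat_lit 156) (nat_lit 76) (nat_lit 0) (XT.nd (nat_lit 78) (nat_lit 76) (nat_lit 0) (XT.lf (nat_lit 0) (nat_lit 19337440870) (nat_lit 76) (nat_lit 9995306718) (nat_lit 76) (nat_lit 4671717139) (nat_lit 11) (nat_lit 4) (nat_lit 12) (nat_lit 5) (nat_lit 12) (nat_lit 4) (nat_lit 369) (nat_lit 273) (nat_lit 258)) (XT.lf (nat_lit 0) (nat_lit 1748392208) (nat_lit 152) (nat_lit 2009312748) (nat_lit 76)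 (nat_lit 31735617528) (nat_lit 10) (nat_lit 5) (nat_lit 12) (nat_lit 5) (nat_lit 11) (nat_lit 4) (nat_lit 370) (nat_lit 273) (nat_lit 257))) (XT.nd (nat_lit 78) (nat_lit 0) (nat_lit 0) (XT.lf (nat_lit 0) (nat_lit 8365043238) (nat_lit 152) (nat_lit 25939912464) (nat_lit 0) (nat_lit 2751140576) (nat_lit 9) (nat_lit 5) (nat_lit 11) (nat_lit 4) (nat_lit 9) (nat_lit 4) (nat_lit 371) (nat_lit 273) (nat_lit 256)) (XT.nd (nat_lit 78) (nat_lit 0) (nat_lit 0) (XT.lf (nat_lit 0) (nat_lit 15212032853) (nat_lit 152) (nat_lit 14096792572) (nat_lit 0) (nat_lit 9391222367) (nat_lit 9) (nat_lit 5) (nat_lit 11) (nat_lit 4) (nat_lit 9) (nat_lit 4) (nat_lit 372) (nat_lit 273) (nat_lit 255)) (XT.lf (nat_lit 0) (nat_lit 22249647865) (nat_lit 152) (nat_lit 1949341490) (nat_lit 0) (nat_lit 16231782309) (nat_lit 9) (nat_lit 5) (nat_lit 11) (nat_lit 4) (nat_lit 9) (nat_lit 4) (nat_lit 373) (nat_lit 273) (nat_lit 254)))))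 (XT.nd (nat_lit 234) (nat_lit 152) (nat_lit 0) (XT.nd (nat_lit 78) (nat_lit 0) (nat_lit 0) (XT.lf (nat_lit 0) (nat_lit 10740958061) (nat_lit 76) (nat_lit 18856935097) (nat_lit 76) (nat_lit 12651398046) (nat_lit 8) (nat_lit 4) (nat_lit 9) (nat_lit 5) (nat_lit 9) (nat_lit 4) (nat_lit 374) (nat_lit 273) (nat_lit 253)) (XT.nd (nat_lit 78) (nat_lit 0) (nat_lit 0) (XT.lf (nat_lit 0) (nat_lit 23840246795) (nat_lit 76) (nat_lit 13353192989) (nat_lit 76) (nat_lit 6968921181) (nat_lit 8) (nat_lit 4) (nat_lit 9) (nat_lit 5) (nat_lit 9) (nat_lit 4) (nat_lit 375) (nat_lit 273) (nat_lit 252)) (XT.lf (nat_lit 0) (nat_lit 37340917776) (nat_lit 76) (nat_lit 7694343411) (nat_lit 76) (nat_lit 1139848024) (nat_lit 8) (nat_lit 4) (nat_lit 9) (nat_lit 5) (nat_lit 9) (nat_lit 4) (nat_lit 376) (nat_lit 273) (nat_lit 251)))) (XT.nd (nat_lit 78) (nat_lit 0) (nat_lit 0) (XT.lf (nat_lit 0) (nat_lit 2994604493) (nat_lit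 76) (nat_lit 1789246528) (nat_lit 152) (nat_lit 43506215049) (nat_lit 6) (nat_lit 5) (nat_lit 7) (nat_lit 5) (nat_lit 8) (nat_lit 4) (nat_lit 377) (nat_lit 273) (nat_lit 250)) (XT.nd (nat_lit 78) (nat_lit 0) (nat_lit 0) (XT.lf (nat_lit 0) (nat_lit 10988955408) (nat_lit 152) (nat_lit 35203159458) (nat_lit 0) (nat_lit 4318071054) (nat_lit 6) (nat_lit 5) (nat_lit 8) (nat_lit 4) (nat_lit 6) (nat_lit 4) (nat_lit 378) (nat_lit 273) (nat_lit 249)) (XT.lf (nat_lit 0) (nat_lit 17402690703) (nat_lit 152) (nat_lit 24852642793) (nat_lit 0) (nat_lit 10589043701) (nat_lit 6) (nat_lit 5) (nat_lit 8) (nat_lit 4) (nat_lit 6) (nat_lit 4) (nat_lit 379) (nat_lit 273) (nat_lit 248)))))) (XT.nd (nat_lit 468) (nat_lit 152) (nat_lit 0) (XT.nd (nat_lit 234) (nat_lit 0) (nat_lit 0) (XT.nd (nat_lit 78) (nat_lit 76) (nat_lit 0) (XT.lf (nat_lit 0) (nat_lit 24023128372) (nat_lit 152) (nat_lit 14202068164) (nat_lit 0) (nat_lit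 17073516944) (nat_lit 6) (nat_lit 5) (nat_lit 8) (nat_lit 4) (nat_lit 6) (nat_lit 4) (nat_lit 380) (nat_lit 273) (nat_lit 247)) (XT.nd (nat_lit 78) (nat_lit 76) (nat_lit 0) (XT.lf (nat_lit 0) (nat_lit 30866031363) (nat_lit 152) (nat_lit 3226077059) (nat_lit 0) (nat_lit 23786930004) (nat_lit 6) (nat_lit 5) (nat_lit 8) (nat_lit 4) (nat_lit 6) (nat_lit 4) (nat_lit 381) (nat_lit 273) (nat_lit 246)) (XT.lf (nat_lit 0) (nat_lit 8262698847) (nat_lit 76) (nat_lit 29764419569) (nat_lit 76) (nat_lit 22561994468) (nat_lit 5) (nat_lit 4) (nat_lit 6) (nat_lit 5) (nat_lit 6) (nat_lit 4) (nat_lit 382) (nat_lit 273) (nat_lit 245)))) (XT.nd (nat_lit 78) (nat_lit 0) (nat_lit 0) (XT.lf (nat_lit 0) (nat_lit 20201733429) (nat_lit 76) (nat_lit 25277430274) (nat_lit 76) (nat_lit 17957553989) (nat_lit 5) (nat_lit 4) (nat_lit 6) (nat_lit 5) (nat_lit 6) (nat_lit 4) (nat_lit 383) (nat_lit 273) (nat_lit 244)) (XT.nd (nat_lit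 78) (nat_lit 0) (nat_lit 0) (XT.lf (nat_lit 0) (nat_lit 32555247699) (nat_lit 76) (nat_lit 20653034282) (nat_lit 76) (nat_lit 13221299727) (nat_lit 5) (nat_lit 4) (nat_lit 6) (nat_lit 5) (nat_lit 6) (nat_lit 4) (nat_lit 384) (nat_lit 273) (nat_lit 243)) (XT.lf (nat_lit 0) (nat_lit 45352654787) (nat_lit 76) (nat_lit 15880221127) (nat_lit 76) (nat_lit 8341954886) (nat_lit 5) (nat_lit 4) (nat_lit 6) (nat_lit 5) (nat_lit 6) (nat_lit 4) (nat_lit 385) (nat_lit 273) (nat_lit 242))))) (XT.nd (nat_lit 234) (nat_lit 0) (nat_lit 0) (XT.nd (nat_lit 78) (nat_lit 152) (nat_lit 0) (XT.lf (nat_lit 0) (nat_lit 58624424709) (nat_lit 76) (nat_lit 10947626968) (nat_lit 76) (nat_lit 3307901978) (nat_lit 5) (nat_lit 4) (nat_lit 6) (nat_lit 5) (nat_lit 6) (nat_lit 4) (nat_lit 386) (nat_lit 273) (nat_lit 241)) (XT.nd (nat_lit 78) (nat_lit 76) (nat_lit 0) (XT.lf (nat_lit 0) (nat_lit 1855908616) (nat_lit 152) (nat_lit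 3968857878) (nat_lit 76) (nat_lit 70527507264) (nat_lit 4) (nat_lit 5) (nat_lit 6) (nat_lit 5) (nat_lit 5) (nat_lit 4) (nat_lit 387) (nat_lit 273) (nat_lit 240)) (XT.lf (nat_lit 0) (nat_lit 6779338102) (nat_lit 76) (nat_lit 416581378) (nat_lit 152) (nat_lit 72801725628) (nat_lit 3) (nat_lit 5) (nat_lit 4) (nat_lit 5) (nat_lit 5) (nat_lit 4) (nat_lit 388) (nat_lit 273) (nat_lit 239)))) (XT.nd (nat_lit 78) (nat_lit 0) (nat_lit 0) (XT.lf (nat_lit 0) (nat_lit 12817079430) (nat_lit 152) (nat_lit 65876170237) (nat_lit 0) (nat_lit 5131620860) (nat_lit 3) (nat_lit 5) (nat_lit 5) (nat_lit 4) (nat_lit 3) (nat_lit 4) (nat_lit 389) (nat_lit 273) (nat_lit 238)) (XT.nd (nat_lit 78) (nat_lit 0) (nat_lit 0) (XT.lf (nat_lit 0) (nat_lit 18649508174) (nat_lit 152) (nat_lit 58313041785) (nat_lit 0) (nat_lit 10883010417) (nat_lit 3) (nat_lit 5) (nat_lit 5) (nat_lit 4) (nat_lit 3) (nat_lit 4) (nat_lit 390) (nat_lit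 273) (nat_lit 237)) (XT.lf (nat_lit 0) (nat_lit 24703088015) (nat_lit 152) (nat_lit 50506909766) (nat_lit 0) (nat_lit 16859410079) (nat_lit 3) (nat_lit 5) (nat_lit 5) (nat_lit 4) (nat_lit 3) (nat_lit 4) (nat_lit 391) (nat_lit 273) (nat_lit 236))))))))
noncomputable def xc10 : XT := (XT.nd (nat_lit 45162) (nat_lit 0) (nat_lit 0) (XT.nd (nat_lit 44304) (nat_lit 0) (nat_lit 608) (XT.nd (nat_lit 43836) (nat_lit 0) (nat_lit 1292) (XT.nd (nat_lit 156) (nat_lit 0) (nat_lit 0) (XT.nd (nat_lit 78) (nat_lit 0) (nat_lit 0) (XT.lf (nat_lit 0) (nat_lit 30992232237) (nat_lit 152) (nat_lit 42439188152) (nat_lit 0) (nat_lit 23075049369) (nat_lit 3) (nat_lit 5) (nat_lit 5) (nat_lit 4) (nat_lit 3) (nat_lit 4) (nat_lit 392) (nat_lit 273) (nat_lit 235)) (XT.lf (nat_lit 0) (nat_lit 37531914993) (nat_lit 152) (nat_lit 34090668082) (nat_lit 0) (nat_lit 29544727428) (nat_lit 3) (nat_lit 5) (nat_lit 5) (nat_lit 4)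 (nat_lit 3) (nat_lit 4) (nat_lit 393) (nat_lit 273) (nat_lit 234))) (XT.nd (nat_lit 78) (nat_lit 0) (nat_lit 0) (XT.lf (nat_lit 0) (nat_lit 44337706957) (nat_lit 152) (nat_lit 25441472126) (nat_lit 0) (nat_lit 36283848251) (nat_lit 3) (nat_lit 5) (nat_lit 5) (nat_lit 4) (nat_lit 3) (nat_lit 4) (nat_lit 394) (nat_lit 273) (nat_lit 233)) (XT.nd (nat_lit 43524) (nat_lit 0) (nat_lit 1824) (XT.lf (nat_lit 0) (nat_lit 51425812395) (nat_lit 152) (nat_lit 16471006962) (nat_lit 0) (nat_lit 43308457365) (nat_lit 3) (nat_lit 5) (nat_lit 5) (nat_lit 4) (nat_lit 3) (nat_lit 4) (nat_lit 395) (nat_lit 273) (nat_lit 232)) (XT.lf (nat_lit 0) (nat_lit 1373028755) (nat_lit 152) (nat_lit 3707967796) (nat_lit 152) (nat_lit 3707967796) (nat_lit 27) (nat_lit 4) (nat_lit 29) (nat_lit 5) (nat_lit 29) (nat_lit 4) (nat_lit 352) (nat_lit 274) (nat_lit 274))))) (XT.nd (nat_lit 234) (nat_lit 228) (nat_lit 0) (XT.nd (nat_lit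 78) (nat_lit 152) (nat_lit 0) (XT.lf (nat_lit 0) (nat_lit 143372958) (nat_lit 76) (nat_lit 220148877) (nat_lit 152) (nat_lit 17835372980) (nat_lit 25) (nat_lit 5) (nat_lit 26) (nat_lit 5) (nat_lit 27) (nat_lit 4) (nat_lit 353) (nat_lit 274) (nat_lit 273)) (XT.nd (nat_lit 78) (nat_lit 152) (nat_lit 0) (XT.lf (nat_lit 0) (nat_lit 8326610740) (nat_lit 152) (nat_lit 3324137111) (nat_lit 0) (nat_lit 7199582025) (nat_lit 25) (nat_lit 5) (nat_lit 27) (nat_lit 4) (nat_lit 25) (nat_lit 4) (nat_lit 354) (nat_lit 274) (nat_lit 272)) (XT.lf (nat_lit 0) (nat_lit 11889550477) (nat_lit 152) (nat_lit 4649958562) (nat_lit 152) (nat_lit 2999339272) (nat_lit 23) (nat_lit 4) (nat_lit 25) (nat_lit 5) (nat_lit 25) (nat_lit 4) (nat_lit 355) (nat_lit 274) (nat_lit 271)))) (XT.nd (nat_lit 78) (nat_lit 76) (nat_lit 0) (XT.lf (nat_lit 0) (nat_lit 4676296927) (nat_lit 152) (nat_lit 12998398375) (nat_lit 0) (nat_lit 2589620245)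 (nat_lit 21) (nat_lit 5) (nat_lit 23) (nat_lit 4) (nat_lit 21) (nat_lit 4) (nat_lit 356) (nat_lit 274) (nat_lit 270)) (XT.nd (nat_lit 78) (nat_lit 0) (nat_lit 0) (XT.lf (nat_lit 0) (nat_lit 1547922327) (nat_lit 76) (nat_lit 11014200053) (nat_lit 76) (nat_lit 8466443675) (nat_lit 20) (nat_lit 4) (nat_lit 21) (nat_lit 5) (nat_lit 21) (nat_lit 4) (nat_lit 357) (nat_lit 274) (nat_lit 269)) (XT.lf (nat_lit 0) (nat_lit 16639239429) (nat_lit 76) (nat_lit 4091039869) (nat_lit 76) (nat_lit 1104159971) (nat_lit 20) (nat_lit 4) (nat_lit 21) (nat_lit 5) (nat_lit 21) (nat_lit 4) (nat_lit 358) (nat_lit 274) (nat_lit 268)))))) (XT.nd (nat_lit 390) (nat_lit 304) (nat_lit 0) (XT.nd (nat_lit 156) (nat_lit 152) (nat_lit 0) (XT.nd (nat_lit 78) (nat_lit 76) (nat_lit 0) (XT.lf (nat_lit 0) (nat_lit 6381876623) (nat_lit 152) (nat_lit 13224356649) (nat_lit 0) (nat_lit 3075961308) (nat_lit 18) (nat_lit 5) (nat_lit 20)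 (nat_lit 4) (nat_lit 18) (nat_lit 4) (nat_lit 359) (nat_lit 274) (nat_lit 267)) (XT.lf (nat_lit 0) (nat_lit 916679772) (nat_lit 76) (nat_lit 13175895829) (nat_lit 76) (nat_lit 9483283449) (nat_lit 17) (nat_lit 4) (nat_lit 18) (nat_lit 5) (nat_lit 18) (nat_lit 4) (nat_lit 360) (nat_lit 274) (nat_lit 266))) (XT.nd (nat_lit 78) (nat_lit 152) (nat_lit 0) (XT.lf (nat_lit 0) (nat_lit 15623831826) (nat_lit 76) (nat_lit 6476976673) (nat_lit 76) (nat_lit 2416081372) (nat_lit 17) (nat_lit 4) (nat_lit 18) (nat_lit 5) (nat_lit 18) (nat_lit 4) (nat_lit 361) (nat_lit 274) (nat_lit 265)) (XT.nd (nat_lit 78) (nat_lit 0) (nat_lit 0) (XT.lf (nat_lit 0) (nat_lit 4745859893) (nat_lit 152) (nat_lit 20299824616) (nat_lit 0) (nat_lit 462713352) (nat_lit 15) (nat_lit 5) (nat_lit 17) (nat_lit 4) (nat_lit 15) (nat_lit 4) (nat_lit 362) (nat_lit 274) (nat_lit 264)) (XT.lf (nat_lit 0) (nat_lit 12163381033) (nat_lit 152)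 (nat_lit 6831076540) (nat_lit 0) (nat_lit 7555920448) (nat_lit 15) (nat_lit 5) (nat_lit 17) (nat_lit 4) (nat_lit 15) (nat_lit 4) (nat_lit 363) (nat_lit 274) (nat_lit 263))))) (XT.nd (nat_lit 234) (nat_lit 76) (nat_lit 0) (XT.nd (nat_lit 78) (nat_lit 152) (nat_lit 0) (XT.lf (nat_lit 0) (nat_lit 7073130870) (nat_lit 76) (nat_lit 12745838910) (nat_lit 76) (nat_lit 7829507808) (nat_lit 14) (nat_lit 4) (nat_lit 15) (nat_lit 5) (nat_lit 15) (nat_lit 4) (nat_lit 364) (nat_lit 274) (nat_lit 262)) (XT.nd (nat_lit 78) (nat_lit 152) (nat_lit 0) (XT.lf (nat_lit 0) (nat_lit 21450075703) (nat_lit 76) (nat_lit 6282833605) (nat_lit 76) (nat_lit 1072340105) (nat_lit 14) (nat_lit 4) (nat_lit 15) (nat_lit 5) (nat_lit 15) (nat_lit 4) (nat_lit 365) (nat_lit 274) (nat_lit 261)) (XT.lf (nat_lit 0) (nat_lit 5782210565) (nat_lit 152) (nat_lit 23788148623) (nat_lit 0) (nat_lit 451484193) (nat_lit 12) (nat_lit 5) (nat_lit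 14) (nat_lit 4) (nat_lit 12) (nat_lit 4) (nat_lit 366) (nat_lit 274) (nat_lit 260)))) (XT.nd (nat_lit 78) (nat_lit 76) (nat_lit 0) (XT.lf (nat_lit 0) (nat_lit 12914154894) (nat_lit 152) (nat_lit 11061732800) (nat_lit 0) (nat_lit 7324385836) (nat_lit 12) (nat_lit 5) (nat_lit 14) (nat_lit 4) (nat_lit 12) (nat_lit 4) (nat_lit 367) (nat_lit 274) (nat_lit 259)) (XT.nd (nat_lit 78) (nat_lit 0) (nat_lit 0) (XT.lf (nat_lit 0) (nat_lit 2011242641) (nat_lit 76) (nat_lit 18236271628) (nat_lit 76) (nat_lit 12399795251) (nat_lit 11) (nat_lit 4) (nat_lit 12) (nat_lit 5) (nat_lit 12) (nat_lit 4) (nat_lit 368) (nat_lit 274) (nat_lit 258)) (XT.lf (nat_lit 0) (nat_lit 15649447717) (nat_lit 76) (nat_lit 12242687504) (nat_lit 76) (nat_lit 6171251775) (nat_lit 11) (nat_lit 4) (nat_lit 12) (nat_lit 5) (nat_lit 12) (nat_lit 4) (nat_lit 369) (nat_lit 274) (nat_lit 257))))))) (XT.nd (nat_lit 858) (nat_lit 228) (nat_lit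 0) (XT.nd (nat_lit 390) (nat_lit 152) (nat_lit 0) (XT.nd (nat_lit 156) (nat_lit 76) (nat_lit 0) (XT.nd (nat_lit 78) (nat_lit 76) (nat_lit 0) (XT.lf (nat_lit 0) (nat_lit 198685610) (nat_lit 152) (nat_lit 5891874750) (nat_lit 76) (nat_lit 29464512227) (nat_lit 10) (nat_lit 5) (nat_lit 12) (nat_lit 5) (nat_lit 11) (nat_lit 4) (nat_lit 370) (nat_lit 274) (nat_lit 256)) (XT.lf (nat_lit 0) (nat_lit 6676758263) (nat_lit 152) (nat_lit 30087257850) (nat_lit 0) (nat_lit 357999430) (nat_lit 9) (nat_lit 5) (nat_lit 11) (nat_lit 4) (nat_lit 9) (nat_lit 4) (nat_lit 371) (nat_lit 274) (nat_lit 255))) (XT.nd (nat_lit 78) (nat_lit 76) (nat_lit 0) (XT.lf (nat_lit 0) (nat_lit 13449736130) (nat_lit 152) (nat_lit 18384540302) (nat_lit 0) (nat_lit 6933922226) (nat_lit 9) (nat_lit 5) (nat_lit 11) (nat_lit 4) (nat_lit 9) (nat_lit 4) (nat_lit 372) (nat_lit 274) (nat_lit 254)) (XT.nd (nat_lit 78) (nat_lit 76) (nat_lit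 0) (XT.lf (nat_lit 0) (nat_lit 20416863762) (nat_lit 152) (nat_lit 6370805738) (nat_lit 0) (nat_lit 13713378363) (nat_lit 9) (nat_lit 5) (nat_lit 11) (nat_lit 4) (nat_lit 9) (nat_lit 4) (nat_lit 373) (nat_lit 274) (nat_lit 253)) (XT.lf (nat_lit 0) (nat_lit 6101614444) (nat_lit 76) (nat_lit 21551767566) (nat_lit 76) (nat_lit 14669547409) (nat_lit 8) (nat_lit 4) (nat_lit 9) (nat_lit 5) (nat_lit 9) (nat_lit 4) (nat_lit 374) (nat_lit 274) (nat_lit 252))))) (XT.nd (nat_lit 234) (nat_lit 76) (nat_lit 0) (XT.nd (nat_lit 78) (nat_lit 76) (nat_lit 0) (XT.lf (nat_lit 0) (nat_lit 19077204549) (nat_lit 76) (nat_lit 16106600890) (nat_lit 76) (nat_lit 9054157155) (nat_lit 8) (nat_lit 4) (nat_lit 9) (nat_lit 5) (nat_lit 9) (nat_lit 4) (nat_lit 375) (nat_lit 274) (nat_lit 251)) (XT.nd (nat_lit 78) (nat_lit 76) (nat_lit 0) (XT.lf (nat_lit 0) (nat_lit 32460067311) (nat_lit 76) (nat_lit 10503537436) (nat_lit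 76) (nat_lit 3288976008) (nat_lit 8) (nat_lit 4) (nat_lit 9) (nat_lit 5) (nat_lit 9) (nat_lit 4) (nat_lit 376) (nat_lit 274) (nat_lit 250)) (XT.lf (nat_lit 0) (nat_lit 2588212155) (nat_lit 152) (nat_lit 2114888556) (nat_lit 76) (nat_lit 43667718666) (nat_lit 7) (nat_lit 5) (nat_lit 9) (nat_lit 5) (nat_lit 8) (nat_lit 4) (nat_lit 377) (nat_lit 274) (nat_lit 249)))) (XT.nd (nat_lit 78) (nat_lit 0) (nat_lit 0) (XT.lf (nat_lit 0) (nat_lit 8685985054) (nat_lit 152) (nat_lit 40519289213) (nat_lit 0) (nat_lit 1388893054) (nat_lit 6) (nat_lit 5) (nat_lit 8) (nat_lit 4) (nat_lit 6) (nat_lit 4) (nat_lit 378) (nat_lit 274) (nat_lit 248)) (XT.nd (nat_lit 78) (nat_lit 0) (nat_lit 0) (XT.lf (nat_lit 0) (nat_lit 15044118207) (nat_lit 152) (nat_lit 30274854435) (nat_lit 0) (nat_lit 7611061781) (nat_lit 6) (nat_lit 5) (nat_lit 8) (nat_lit 4) (nat_lit 6) (nat_lit 4) (nat_lit 379) (nat_lit 274) (nat_lit 247))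 (XT.lf (nat_lit 0) (nat_lit 21611601456) (nat_lit 152) (nat_lit 19725310175) (nat_lit 0) (nat_lit 14049055099) (nat_lit 6) (nat_lit 5) (nat_lit 8) (nat_lit 4) (nat_lit 6) (nat_lit 4) (nat_lit 380) (nat_lit 274) (nat_lit 246)))))) (XT.nd (nat_lit 468) (nat_lit 152) (nat_lit 0) (XT.nd (nat_lit 234) (nat_lit 0) (nat_lit 0) (XT.nd (nat_lit 78) (nat_lit 76) (nat_lit 0) (XT.lf (nat_lit 0) (nat_lit 28404071665) (nat_lit 152) (nat_lit 8845538469) (nat_lit 0) (nat_lit 20718201565) (nat_lit 6) (nat_lit 5) (nat_lit 8) (nat_lit 4) (nat_lit 6) (nat_lit 4) (nat_lit 381) (nat_lit 274) (nat_lit 245)) (XT.nd (nat_lit 78) (nat_lit 0) (nat_lit 0) (XT.lf (nat_lit 0) (nat_lit 2437937847) (nat_lit 76) (nat_lit 33023198484) (nat_lit 76) (nat_lit 25219877201) (nat_lit 5) (nat_lit 4) (nat_lit 6) (nat_lit 5) (nat_lit 6) (nat_lit 4) (nat_lit 382) (nat_lit 274) (nat_lit 244)) (XT.lf (nat_lit 0) (nat_lit 14287961678) (nat_lit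 76) (nat_lit 28578620296) (nat_lit 76) (nat_lit 20663440743) (nat_lit 5) (nat_lit 4) (nat_lit 6) (nat_lit 5) (nat_lit 6) (nat_lit 4) (nat_lit 383) (nat_lit 274) (nat_lit 243)))) (XT.nd (nat_lit 78) (nat_lit 0) (nat_lit 0) (XT.lf (nat_lit 0) (nat_lit 26556703803) (nat_lit 76) (nat_lit 23994615834) (nat_lit 76) (nat_lit 15972904595) (nat_lit 5) (nat_lit 4) (nat_lit 6) (nat_lit 5) (nat_lit 6) (nat_lit 4) (nat_lit 384) (nat_lit 274) (nat_lit 242)) (XT.nd (nat_lit 78) (nat_lit 0) (nat_lit 0) (XT.lf (nat_lit 0) (nat_lit 39273375516) (nat_lit 76) (nat_lit 19260270802) (nat_lit 76) (nat_lit 11137100815) (nat_lit 5) (nat_lit 4) (nat_lit 6) (nat_lit 5) (nat_lit 6) (nat_lit 4) (nat_lit 385) (nat_lit 274) (nat_lit 241)) (XT.lf (nat_lit 0) (nat_lit 52468254604) (nat_lit 76) (nat_lit 14364312951) (nat_lit 76) (nat_lit 6144515584) (nat_lit 5) (nat_lit 4) (nat_lit 6) (nat_lit 5) (nat_lit 6) (nat_lit 4) (nat_lit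 386) (nat_lit 274) (nat_lit 240))))) (XT.nd (nat_lit 234) (nat_lit 0) (nat_lit 0) (XT.nd (nat_lit 78) (nat_lit 152) (nat_lit 0) (XT.lf (nat_lit 0) (nat_lit 66172757447) (nat_lit 76) (nat_lit 9295085237) (nat_lit 76) (nat_lit 983261794) (nat_lit 5) (nat_lit 4) (nat_lit 6) (nat_lit 5) (nat_lit 6) (nat_lit 4) (nat_lit 387) (nat_lit 274) (nat_lit 239)) (XT.nd (nat_lit 78) (nat_lit 0) (nat_lit 0) (XT.lf (nat_lit 0) (nat_lit 282033788) (nat_lit 76) (nat_lit 3994567744) (nat_lit 152) (nat_lit 75823142741) (nat_lit 3) (nat_lit 5) (nat_lit 4) (nat_lit 5) (nat_lit 5) (nat_lit 4) (nat_lit 388) (nat_lit 274) (nat_lit 238)) (XT.lf (nat_lit 0) (nat_lit 9827273123) (nat_lit 152) (nat_lit 72510404556) (nat_lit 0) (nat_lit 1591411290) (nat_lit 3) (nat_lit 5) (nat_lit 5) (nat_lit 4) (nat_lit 3) (nat_lit 4) (nat_lit 389) (nat_lit 274) (nat_lit 237)))) (XT.nd (nat_lit 78) (nat_lit 0) (nat_lit 0) (XT.lf (nat_lit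 0) (nat_lit 15625326091) (nat_lit 152) (nat_lit 65013204326) (nat_lit 0) (nat_lit 7312284080) (nat_lit 3) (nat_lit 5) (nat_lit 5) (nat_lit 4) (nat_lit 3) (nat_lit 4) (nat_lit 390) (nat_lit 274) (nat_lit 236)) (XT.nd (nat_lit 78) (nat_lit 0) (nat_lit 0) (XT.lf (nat_lit 0) (nat_lit 21646167098) (nat_lit 152) (nat_lit 57269861091) (nat_lit 0) (nat_lit 13259620154) (nat_lit 3) (nat_lit 5) (nat_lit 5) (nat_lit 4) (nat_lit 3) (nat_lit 4) (nat_lit 391) (nat_lit 274) (nat_lit 235)) (XT.lf (nat_lit 0) (nat_lit 27904131477) (nat_lit 152) (nat_lit 49261938318) (nat_lit 0) (nat_lit 19447579836) (nat_lit 3) (nat_lit 5) (nat_lit 5) (nat_lit 4) (nat_lit 3) (nat_lit 4) (nat_lit 392) (nat_lit 274) (nat_lit 234))))))))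
noncomputable def xc11 : XT := (XT.nd (nat_lit 45084) (nat_lit 0) (nat_lit 0) (XT.nd (nat_lit 44148) (nat_lit 0) (nat_lit 608) (XT.nd (nat_lit 43680) (nat_lit 0) (nat_lit 1292) (XT.nd (nat_lit 156) (nat_lit 0) (nat_lit 0) (XT.nd (nat_lit 78) (nat_lit 0) (nat_lit 0) (XT.lf (nat_lit 0) (nat_lit 34414119146) (nat_lit 152) (nat_lit 40970369525) (nat_lit 0) (nat_lit 25890896364) (nat_lit 3) (nat_lit 5) (nat_lit 5) (nat_lit 4) (nat_lit 3) (nat_lit 4) (nat_lit 393) (nat_lit 274) (nat_lit 233)) (XT.lf (nat_lit 0) (nat_lit 41191630073) (nat_lit 152) (nat_lit 32375412881) (nat_lit 0) (nat_lit 32604910967) (nat_lit 3) (nat_lit 5) (nat_lit 5) (nat_lit 4) (nat_lit 3) (nat_lit 4) (nat_lit 394) (nat_lit 274) (nat_lit 232))) (XT.nd (nat_lit 43368) (nat_lit 0) (nat_lit 1976) (XT.lf (nat_lit 0) (nat_lit 48252801191) (nat_lit 152) (nat_lit 23456604204) (nat_lit 0) (nat_lit 39605609395) (nat_lit 3) (nat_lit 5)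 (nat_lit 5) (nat_lit 4) (nat_lit 3) (nat_lit 4) (nat_lit 395) (nat_lit 274) (nat_lit 231)) (XT.nd (nat_lit 78) (nat_lit 152) (nat_lit 0) (XT.lf (nat_lit 0) (nat_lit 3023741009) (nat_lit 152) (nat_lit 2595388078) (nat_lit 152) (nat_lit 2595388078) (nat_lit 31) (nat_lit 4) (nat_lit 33) (nat_lit 5) (nat_lit 33) (nat_lit 4) (nat_lit 350) (nat_lit 275) (nat_lit 275)) (XT.lf (nat_lit 0) (nat_lit 2632897911) (nat_lit 152) (nat_lit 12349386338) (nat_lit 0) (nat_lit 2008592724) (nat_lit 29) (nat_lit 5) (nat_lit 31) (nat_lit 4) (nat_lit 29) (nat_lit 4) (nat_lit 351) (nat_lit 275) (nat_lit 274))))) (XT.nd (nat_lit 234) (nat_lit 380) (nat_lit 0) (XT.nd (nat_lit 78) (nat_lit 152) (nat_lit 0) (XT.lf (nat_lit 0) (nat_lit 2496705770) (nat_lit 152) (nat_lit 8152131131) (nat_lit 152) (nat_lit 6933249576) (nat_lit 27) (nat_lit 4) (nat_lit 29) (nat_lit 5) (nat_lit 29) (nat_lit 4) (nat_lit 352) (nat_lit 275) (nat_lit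 273)) (XT.nd (nat_lit 78) (nat_lit 76) (nat_lit 0) (XT.lf (nat_lit 0) (nat_lit 703167224) (nat_lit 228) (nat_lit 357715296) (nat_lit 76) (nat_lit 17146070913) (nat_lit 26) (nat_lit 5) (nat_lit 29) (nat_lit 5) (nat_lit 27) (nat_lit 4) (nat_lit 353) (nat_lit 275) (nat_lit 272)) (XT.lf (nat_lit 0) (nat_lit 8525434358) (nat_lit 152) (nat_lit 4068515150) (nat_lit 0) (nat_lit 6268693527) (nat_lit 25) (nat_lit 5) (nat_lit 27) (nat_lit 4) (nat_lit 25) (nat_lit 4) (nat_lit 354) (nat_lit 275) (nat_lit 271)))) (XT.nd (nat_lit 78) (nat_lit 228) (nat_lit 0) (XT.lf (nat_lit 0) (nat_lit 10901003187) (nat_lit 152) (nat_lit 5704780865) (nat_lit 152) (nat_lit 2949382342) (nat_lit 23) (nat_lit 4) (nat_lit 25) (nat_lit 5) (nat_lit 25) (nat_lit 4) (nat_lit 355) (nat_lit 275) (nat_lit 270)) (XT.nd (nat_lit 78) (nat_lit 76) (nat_lit 0) (XT.lf (nat_lit 0) (nat_lit 4581544704) (nat_lit 152) (nat_lit 14258092057) (nat_lit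 0) (nat_lit 1445320811) (nat_lit 21) (nat_lit 5) (nat_lit 23) (nat_lit 4) (nat_lit 21) (nat_lit 4) (nat_lit 356) (nat_lit 275) (nat_lit 269)) (XT.lf (nat_lit 0) (nat_lit 41720255) (nat_lit 76) (nat_lit 12293413695) (nat_lit 76) (nat_lit 8718066282) (nat_lit 20) (nat_lit 4) (nat_lit 21) (nat_lit 5) (nat_lit 21) (nat_lit 4) (nat_lit 357) (nat_lit 275) (nat_lit 268)))))) (XT.nd (nat_lit 468) (nat_lit 304) (nat_lit 0) (XT.nd (nat_lit 234) (nat_lit 228) (nat_lit 0) (XT.nd (nat_lit 78) (nat_lit 152) (nat_lit 0) (XT.lf (nat_lit 0) (nat_lit 14922144010) (nat_lit 76) (nat_lit 5466969460) (nat_lit 76) (nat_lit 1473409170) (nat_lit 20) (nat_lit 4) (nat_lit 21) (nat_lit 5) (nat_lit 21) (nat_lit 4) (nat_lit 358) (nat_lit 275) (nat_lit 267)) (XT.nd (nat_lit 78) (nat_lit 0) (nat_lit 0) (XT.lf (nat_lit 0) (nat_lit 5876581654) (nat_lit 152) (nat_lit 15225480801) (nat_lit 0) (nat_lit 1612641588) (nat_lit 18)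 (nat_lit 5) (nat_lit 20) (nat_lit 4) (nat_lit 18) (nat_lit 4) (nat_lit 359) (nat_lit 275) (nat_lit 266)) (XT.lf (nat_lit 0) (nat_lit 13471091920) (nat_lit 152) (nat_lit 1301914341) (nat_lit 0) (nat_lit 8838868935) (nat_lit 18) (nat_lit 5) (nat_lit 20) (nat_lit 4) (nat_lit 18) (nat_lit 4) (nat_lit 360) (nat_lit 275) (nat_lit 265)))) (XT.nd (nat_lit 78) (nat_lit 152) (nat_lit 0) (XT.lf (nat_lit 0) (nat_lit 13185465809) (nat_lit 76) (nat_lit 8176967794) (nat_lit 76) (nat_lit 3193999172) (nat_lit 17) (nat_lit 4) (nat_lit 18) (nat_lit 5) (nat_lit 18) (nat_lit 4) (nat_lit 361) (nat_lit 275) (nat_lit 264)) (XT.nd (nat_lit 78) (nat_lit 0) (nat_lit 0) (XT.lf (nat_lit 0) (nat_lit 2503291835) (nat_lit 76) (nat_lit 1349074628) (nat_lit 152) (nat_lit 21699739818) (nat_lit 15) (nat_lit 5) (nat_lit 16) (nat_lit 5) (nat_lit 17) (nat_lit 4) (nat_lit 362) (nat_lit 275) (nat_lit 263)) (XT.lf (nat_lit 0) (nat_lit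 11158968395) (nat_lit 152) (nat_lit 9750513034) (nat_lit 0) (nat_lit 5687950220) (nat_lit 15) (nat_lit 5) (nat_lit 17) (nat_lit 4) (nat_lit 15) (nat_lit 4) (nat_lit 363) (nat_lit 275) (nat_lit 262))))) (XT.nd (nat_lit 234) (nat_lit 76) (nat_lit 0) (XT.nd (nat_lit 78) (nat_lit 152) (nat_lit 0) (XT.lf (nat_lit 0) (nat_lit 3917434618) (nat_lit 76) (nat_lit 14773501298) (nat_lit 76) (nat_lit 9008320727) (nat_lit 14) (nat_lit 4) (nat_lit 15) (nat_lit 5) (nat_lit 15) (nat_lit 4) (nat_lit 364) (nat_lit 275) (nat_lit 261)) (XT.nd (nat_lit 78) (nat_lit 152) (nat_lit 0) (XT.lf (nat_lit 0) (nat_lit 18124705883) (nat_lit 76) (nat_lit 8389694040) (nat_lit 76) (nat_lit 2344358804) (nat_lit 14) (nat_lit 4) (nat_lit 15) (nat_lit 5) (nat_lit 15) (nat_lit 4) (nat_lit 365) (nat_lit 275) (nat_lit 260)) (XT.lf (nat_lit 0) (nat_lit 2638007546) (nat_lit 76) (nat_lit 1770936664) (nat_lit 152) (nat_lit 25670572173)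 (nat_lit 12) (nat_lit 5) (nat_lit 13) (nat_lit 5) (nat_lit 14) (nat_lit 4) (nat_lit 366) (nat_lit 275) (nat_lit 259)))) (XT.nd (nat_lit 78) (nat_lit 76) (nat_lit 0) (XT.lf (nat_lit 0) (nat_lit 11438735718) (nat_lit 152) (nat_lit 14858561279) (nat_lit 0) (nat_lit 5063728203) (nat_lit 12) (nat_lit 5) (nat_lit 14) (nat_lit 4) (nat_lit 12) (nat_lit 4) (nat_lit 367) (nat_lit 275) (nat_lit 258)) (XT.nd (nat_lit 78) (nat_lit 76) (nat_lit 0) (XT.lf (nat_lit 0) (nat_lit 18671686090) (nat_lit 152) (nat_lit 1977681558) (nat_lit 0) (nat_lit 12061719223) (nat_lit 12) (nat_lit 5) (nat_lit 14) (nat_lit 4) (nat_lit 12) (nat_lit 4) (nat_lit 368) (nat_lit 275) (nat_lit 257)) (XT.lf (nat_lit 0) (nat_lit 11472696032) (nat_lit 76) (nat_lit 14745579852) (nat_lit 76) (nat_lit 7911842173) (nat_lit 11) (nat_lit 4) (nat_lit 12) (nat_lit 5) (nat_lit 12) (nat_lit 4) (nat_lit 369) (nat_lit 275) (nat_lit 256))))))) (XT.nd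 (nat_lit 858) (nat_lit 228) (nat_lit 0) (XT.nd (nat_lit 390) (nat_lit 152) (nat_lit 0) (XT.nd (nat_lit 156) (nat_lit 76) (nat_lit 0) (XT.nd (nat_lit 78) (nat_lit 152) (nat_lit 0) (XT.lf (nat_lit 0) (nat_lit 25347054635) (nat_lit 76) (nat_lit 8661959634) (nat_lit 76) (nat_lit 1615106897) (nat_lit 11) (nat_lit 4) (nat_lit 12) (nat_lit 5) (nat_lit 12) (nat_lit 4) (nat_lit 370) (nat_lit 275) (nat_lit 255)) (XT.lf (nat_lit 0) (nat_lit 2442922847) (nat_lit 76) (nat_lit 2331827057) (nat_lit 152) (nat_lit 32420383201) (nat_lit 9) (nat_lit 5) (nat_lit 10) (nat_lit 5) (nat_lit 11) (nat_lit 4) (nat_lit 371) (nat_lit 275) (nat_lit 254))) (XT.nd (nat_lit 78) (nat_lit 76) (nat_lit 0) (XT.lf (nat_lit 0) (nat_lit 11454825444) (nat_lit 152) (nat_lit 23160794280) (nat_lit 0) (nat_lit 4228494279) (nat_lit 9) (nat_lit 5) (nat_lit 11) (nat_lit 4) (nat_lit 9) (nat_lit 4) (nat_lit 372) (nat_lit 275) (nat_lit 253))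 (XT.nd (nat_lit 78) (nat_lit 76) (nat_lit 0) (XT.lf (nat_lit 0) (nat_lit 18354822239) (nat_lit 152) (nat_lit 11274408782) (nat_lit 0) (nat_lit 10949756317) (nat_lit 9) (nat_lit 5) (nat_lit 11) (nat_lit 4) (nat_lit 9) (nat_lit 4) (nat_lit 373) (nat_lit 275) (nat_lit 252)) (XT.lf (nat_lit 0) (nat_lit 976721456) (nat_lit 76) (nat_lit 24501421293) (nat_lit 76) (nat_lit 16926131792) (nat_lit 8) (nat_lit 4) (nat_lit 9) (nat_lit 5) (nat_lit 9) (nat_lit 4) (nat_lit 374) (nat_lit 275) (nat_lit 251))))) (XT.nd (nat_lit 234) (nat_lit 76) (nat_lit 0) (XT.nd (nat_lit 78) (nat_lit 76) (nat_lit 0) (XT.lf (nat_lit 0) (nat_lit 13834503342) (nat_lit 76) (nat_lit 19112040742) (nat_lit 76) (nat_lit 11374633548) (nat_lit 8) (nat_lit 4) (nat_lit 9) (nat_lit 5) (nat_lit 9) (nat_lit 4) (nat_lit 375) (nat_lit 275) (nat_lit 250)) (XT.nd (nat_lit 78) (nat_lit 76) (nat_lit 0) (XT.lf (nat_lit 0) (nat_lit 27105167801) (nat_lit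 76) (nat_lit 13562106932) (nat_lit 76) (nat_lit 5670301934) (nat_lit 8) (nat_lit 4) (nat_lit 9) (nat_lit 5) (nat_lit 9) (nat_lit 4) (nat_lit 376) (nat_lit 275) (nat_lit 249)) (XT.lf (nat_lit 0) (nat_lit 196533389) (nat_lit 152) (nat_lit 7639887743) (nat_lit 76) (nat_lit 40621793661) (nat_lit 7) (nat_lit 5) (nat_lit 9) (nat_lit 5) (nat_lit 8) (nat_lit 4) (nat_lit 377) (nat_lit 275) (nat_lit 248)))) (XT.nd (nat_lit 78) (nat_lit 0) (nat_lit 0) (XT.lf (nat_lit 0) (nat_lit 4349046814) (nat_lit 76) (nat_lit 1822352544) (nat_lit 152) (nat_lit 44513858347) (nat_lit 6) (nat_lit 5) (nat_lit 7) (nat_lit 5) (nat_lit 8) (nat_lit 4) (nat_lit 378) (nat_lit 275) (nat_lit 247)) (XT.nd (nat_lit 78) (nat_lit 0) (nat_lit 0) (XT.lf (nat_lit 0) (nat_lit 12459060524) (nat_lit 152) (nat_lit 36175288915) (nat_lit 0) (nat_lit 4388896920) (nat_lit 6) (nat_lit 5) (nat_lit 8) (nat_lit 4) (nat_lit 6) (nat_lit 4) (nat_lit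 379) (nat_lit 275) (nat_lit 246)) (XT.lf (nat_lit 0) (nat_lit 18976110991) (nat_lit 152) (nat_lit 25721964054) (nat_lit 0) (nat_lit 10782623644) (nat_lit 6) (nat_lit 5) (nat_lit 8) (nat_lit 4) (nat_lit 6) (nat_lit 4) (nat_lit 380) (nat_lit 275) (nat_lit 245)))))) (XT.nd (nat_lit 468) (nat_lit 152) (nat_lit 0) (XT.nd (nat_lit 234) (nat_lit 0) (nat_lit 0) (XT.nd (nat_lit 78) (nat_lit 76) (nat_lit 0) (XT.lf (nat_lit 0) (nat_lit 25720549980) (nat_lit 152) (nat_lit 14933829871) (nat_lit 0) (nat_lit 17409611449) (nat_lit 6) (nat_lit 5) (nat_lit 8) (nat_lit 4) (nat_lit 6) (nat_lit 4) (nat_lit 381) (nat_lit 275) (nat_lit 244)) (XT.nd (nat_lit 78) (nat_lit 76) (nat_lit 0) (XT.lf (nat_lit 0) (nat_lit 32708435678) (nat_lit 152) (nat_lit 3785200334) (nat_lit 0) (nat_lit 24285638877) (nat_lit 6) (nat_lit 5) (nat_lit 8) (nat_lit 4) (nat_lit 6) (nat_lit 4) (nat_lit 382) (nat_lit 275) (nat_lit 243)) (XT.lf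 (nat_lit 0) (nat_lit 7904718443) (nat_lit 76) (nat_lit 32127672454) (nat_lit 76) (nat_lit 23598343968) (nat_lit 5) (nat_lit 4) (nat_lit 6) (nat_lit 5) (nat_lit 6) (nat_lit 4) (nat_lit 383) (nat_lit 275) (nat_lit 242)))) (XT.nd (nat_lit 78) (nat_lit 0) (nat_lit 0) (XT.lf (nat_lit 0) (nat_lit 20092725193) (nat_lit 76) (nat_lit 27582136116) (nat_lit 76) (nat_lit 18951348881) (nat_lit 5) (nat_lit 4) (nat_lit 6) (nat_lit 5) (nat_lit 6) (nat_lit 4) (nat_lit 384) (nat_lit 275) (nat_lit 241)) (XT.nd (nat_lit 78) (nat_lit 0) (nat_lit 0) (XT.lf (nat_lit 0) (nat_lit 32732506071) (nat_lit 76) (nat_lit 22884427393) (nat_lit 76) (nat_lit 14157012778) (nat_lit 5) (nat_lit 4) (nat_lit 6) (nat_lit 5) (nat_lit 6) (nat_lit 4) (nat_lit 385) (nat_lit 275) (nat_lit 240)) (XT.lf (nat_lit 0) (nat_lit 45854155794) (nat_lit 76) (nat_lit 18023361263) (nat_lit 76) (nat_lit 9203920573) (nat_lit 5) (nat_lit 4) (nat_lit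 6) (nat_lit 5) (nat_lit 6) (nat_lit 4) (nat_lit 386) (nat_lit 275) (nat_lit 239))))) (XT.nd (nat_lit 234) (nat_lit 0) (nat_lit 0) (XT.nd (nat_lit 78) (nat_lit 152) (nat_lit 0) (XT.lf (nat_lit 0) (nat_lit 59488916384) (nat_lit 76) (nat_lit 12987363761) (nat_lit 76) (nat_lit 4080279189) (nat_lit 5) (nat_lit 4) (nat_lit 6) (nat_lit 5) (nat_lit 6) (nat_lit 4) (nat_lit 387) (nat_lit 275) (nat_lit 238)) (XT.nd (nat_lit 78) (nat_lit 76) (nat_lit 0) (XT.lf (nat_lit 0) (nat_lit 1202184686) (nat_lit 152) (nat_lit 6550120021) (nat_lit 76) (nat_lit 72454927163) (nat_lit 4) (nat_lit 5) (nat_lit 6) (nat_lit 5) (nat_lit 5) (nat_lit 4) (nat_lit 388) (nat_lit 275) (nat_lit 237)) (XT.lf (nat_lit 0) (nat_lit 4407039802) (nat_lit 76) (nat_lit 2231920947) (nat_lit 152) (nat_lit 77401037089) (nat_lit 3) (nat_lit 5) (nat_lit 4) (nat_lit 5) (nat_lit 5) (nat_lit 4) (nat_lit 389) (nat_lit 275) (nat_lit 236)))) (XT.nd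 (nat_lit 78) (nat_lit 0) (nat_lit 0) (XT.lf (nat_lit 0) (nat_lit 12382820294) (nat_lit 152) (nat_lit 72177092000) (nat_lit 0) (nat_lit 3503441070) (nat_lit 3) (nat_lit 5) (nat_lit 5) (nat_lit 4) (nat_lit 3) (nat_lit 4) (nat_lit 390) (nat_lit 275) (nat_lit 235)) (XT.nd (nat_lit 78) (nat_lit 0) (nat_lit 0) (XT.lf (nat_lit 0) (nat_lit 18372481458) (nat_lit 152) (nat_lit 64493547606) (nat_lit 0) (nat_lit 9423097537) (nat_lit 3) (nat_lit 5) (nat_lit 5) (nat_lit 4) (nat_lit 3) (nat_lit 4) (nat_lit 391) (nat_lit 275) (nat_lit 234)) (XT.lf (nat_lit 0) (nat_lit 24600750749) (nat_lit 152) (nat_lit 56542576110) (nat_lit 0) (nat_lit 15584695688) (nat_lit 3) (nat_lit 5) (nat_lit 5) (nat_lit 4) (nat_lit 3) (nat_lit 4) (nat_lit 392) (nat_lit 275) (nat_lit 233))))))))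
noncomputable def xc12 : XT := (XT.nd (nat_lit 44850) (nat_lit 0) (nat_lit 76) (XT.nd (nat_lit 43992) (nat_lit 0) (nat_lit 760) (XT.nd (nat_lit 43524) (nat_lit 0) (nat_lit 1520) (XT.nd (nat_lit 156) (nat_lit 0) (nat_lit 0) (XT.nd (nat_lit 78) (nat_lit 0) (nat_lit 0) (XT.lf (nat_lit 0) (nat_lit 31082457381) (nat_lit 152) (nat_lit 48305246629) (nat_lit 0) (nat_lit 22002905996) (nat_lit 3) (nat_lit 5) (nat_lit 5) (nat_lit 4) (nat_lit 3) (nat_lit 4) (nat_lit 393) (nat_lit 275) (nat_lit 232)) (XT.lf (nat_lit 0) (nat_lit 37833033989) (nat_lit 152) (nat_lit 39761946473) (nat_lit 0) (nat_lit 28693009914) (nat_lit 3) (nat_lit 5) (nat_lit 5) (nat_lit 4) (nat_lit 3) (nat_lit 4) (nat_lit 394) (nat_lit 275) (nat_lit 231))) (XT.nd (nat_lit 43212) (nat_lit 0) (nat_lit 2280) (XT.lf (nat_lit 0) (nat_lit 44868553373) (nat_lit 152) (nat_lit 30892334450) (nat_lit 0) (nat_lit 35670936260) (nat_lit 3) (nat_lit 5)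 (nat_lit 5) (nat_lit 4) (nat_lit 3) (nat_lit 4) (nat_lit 395) (nat_lit 275) (nat_lit 230)) (XT.nd (nat_lit 78) (nat_lit 152) (nat_lit 0) (XT.lf (nat_lit 0) (nat_lit 3647360503) (nat_lit 152) (nat_lit 2023221291) (nat_lit 152) (nat_lit 2023221291) (nat_lit 35) (nat_lit 4) (nat_lit 37) (nat_lit 5) (nat_lit 37) (nat_lit 4) (nat_lit 348) (nat_lit 276) (nat_lit 276)) (XT.lf (nat_lit 0) (nat_lit 3758902180) (nat_lit 152) (nat_lit 9054192764) (nat_lit 0) (nat_lit 3083716120) (nat_lit 33) (nat_lit 5) (nat_lit 35) (nat_lit 4) (nat_lit 33) (nat_lit 4) (nat_lit 349) (nat_lit 276) (nat_lit 275))))) (XT.nd (nat_lit 234) (nat_lit 304) (nat_lit 0) (XT.nd (nat_lit 78) (nat_lit 304) (nat_lit 0) (XT.lf (nat_lit 0) (nat_lit 5801680451) (nat_lit 152) (nat_lit 5974859065) (nat_lit 152) (nat_lit 4656638663) (nat_lit 31) (nat_lit 4) (nat_lit 33) (nat_lit 5) (nat_lit 33) (nat_lit 4) (nat_lit 350) (nat_lit 276) (nat_lit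 274)) (XT.nd (nat_lit 78) (nat_lit 152) (nat_lit 0) (XT.lf (nat_lit 0) (nat_lit 3011536198) (nat_lit 152) (nat_lit 12850582619) (nat_lit 0) (nat_lit 1137134197) (nat_lit 29) (nat_lit 5) (nat_lit 31) (nat_lit 4) (nat_lit 29) (nat_lit 4) (nat_lit 351) (nat_lit 276) (nat_lit 273)) (XT.lf (nat_lit 0) (nat_lit 1748056852) (nat_lit 152) (nat_lit 9143589039) (nat_lit 152) (nat_lit 6702923830) (nat_lit 27) (nat_lit 4) (nat_lit 29) (nat_lit 5) (nat_lit 29) (nat_lit 4) (nat_lit 352) (nat_lit 276) (nat_lit 272)))) (XT.nd (nat_lit 78) (nat_lit 228) (nat_lit 0) (XT.lf (nat_lit 0) (nat_lit 803052299) (nat_lit 228) (nat_lit 1349767334) (nat_lit 76) (nat_lit 16070358897) (nat_lit 26) (nat_lit 5) (nat_lit 29) (nat_lit 5) (nat_lit 27) (nat_lit 4) (nat_lit 353) (nat_lit 276) (nat_lit 271)) (XT.nd (nat_lit 78) (nat_lit 152) (nat_lit 0) (XT.lf (nat_lit 0) (nat_lit 8481954683) (nat_lit 152) (nat_lit 5311114314)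 (nat_lit 0) (nat_lit 5090128542) (nat_lit 25) (nat_lit 5) (nat_lit 27) (nat_lit 4) (nat_lit 25) (nat_lit 4) (nat_lit 354) (nat_lit 276) (nat_lit 270)) (XT.lf (nat_lit 0) (nat_lit 9415240846) (nat_lit 152) (nat_lit 7015594726) (nat_lit 152) (nat_lit 3148856498) (nat_lit 23) (nat_lit 4) (nat_lit 25) (nat_lit 5) (nat_lit 25) (nat_lit 4) (nat_lit 355) (nat_lit 276) (nat_lit 269)))))) (XT.nd (nat_lit 390) (nat_lit 380) (nat_lit 0) (XT.nd (nat_lit 156) (nat_lit 228) (nat_lit 0) (XT.nd (nat_lit 78) (nat_lit 0) (nat_lit 0) (XT.lf (nat_lit 0) (nat_lit 4240651644) (nat_lit 152) (nat_lit 16025860195) (nat_lit 0) (nat_lit 47413340) (nat_lit 21) (nat_lit 5) (nat_lit 23) (nat_lit 4) (nat_lit 21) (nat_lit 4) (nat_lit 356) (nat_lit 276) (nat_lit 268)) (XT.lf (nat_lit 0) (nat_lit 11881689689) (nat_lit 152) (nat_lit 1933640053) (nat_lit 0) (nat_lit 7270238508) (nat_lit 21) (nat_lit 5) (nat_lit 23) (nat_lit 4)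 (nat_lit 21) (nat_lit 4) (nat_lit 357) (nat_lit 276) (nat_lit 267))) (XT.nd (nat_lit 78) (nat_lit 152) (nat_lit 0) (XT.lf (nat_lit 0) (nat_lit 12707449666) (nat_lit 76) (nat_lit 7100521908) (nat_lit 76) (nat_lit 2090772750) (nat_lit 20) (nat_lit 4) (nat_lit 21) (nat_lit 5) (nat_lit 21) (nat_lit 4) (nat_lit 358) (nat_lit 276) (nat_lit 266)) (XT.nd (nat_lit 78) (nat_lit 0) (nat_lit 0) (XT.lf (nat_lit 0) (nat_lit 5018608420) (nat_lit 76) (nat_lit 108331966) (nat_lit 152) (nat_lit 17628514136) (nat_lit 18) (nat_lit 5) (nat_lit 19) (nat_lit 5) (nat_lit 20) (nat_lit 4) (nat_lit 359) (nat_lit 276) (nat_lit 265)) (XT.lf (nat_lit 0) (nat_lit 12618145466) (nat_lit 152) (nat_lit 4002316612) (nat_lit 0) (nat_lit 7035282775) (nat_lit 18) (nat_lit 5) (nat_lit 20) (nat_lit 4) (nat_lit 18) (nat_lit 4) (nat_lit 360) (nat_lit 276) (nat_lit 264))))) (XT.nd (nat_lit 234) (nat_lit 152) (nat_lit 0) (XT.nd (nat_lit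 78) (nat_lit 152) (nat_lit 0) (XT.lf (nat_lit 0) (nat_lit 10246690473) (nat_lit 76) (nat_lit 10137153242) (nat_lit 76) (nat_lit 4220247087) (nat_lit 17) (nat_lit 4) (nat_lit 18) (nat_lit 5) (nat_lit 18) (nat_lit 4) (nat_lit 361) (nat_lit 276) (nat_lit 263)) (XT.nd (nat_lit 78) (nat_lit 76) (nat_lit 0) (XT.lf (nat_lit 0) (nat_lit 2726681676) (nat_lit 152) (nat_lit 699878984) (nat_lit 76) (nat_lit 22177101106) (nat_lit 16) (nat_lit 5) (nat_lit 18) (nat_lit 5) (nat_lit 17) (nat_lit 4) (nat_lit 362) (nat_lit 276) (nat_lit 262)) (XT.lf (nat_lit 0) (nat_lit 9913097304) (nat_lit 152) (nat_lit 13174016905) (nat_lit 0) (nat_lit 3565495306) (nat_lit 15) (nat_lit 5) (nat_lit 17) (nat_lit 4) (nat_lit 15) (nat_lit 4) (nat_lit 363) (nat_lit 276) (nat_lit 261)))) (XT.nd (nat_lit 78) (nat_lit 76) (nat_lit 0) (XT.lf (nat_lit 0) (nat_lit 256122739) (nat_lit 76) (nat_lit 17064902801) (nat_lit 76) (nat_lit 10437146139)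 (nat_lit 14) (nat_lit 4) (nat_lit 15) (nat_lit 5) (nat_lit 15) (nat_lit 4) (nat_lit 364) (nat_lit 276) (nat_lit 260)) (XT.nd (nat_lit 78) (nat_lit 76) (nat_lit 0) (XT.lf (nat_lit 0) (nat_lit 14301800130) (nat_lit 76) (nat_lit 10756522253) (nat_lit 76) (nat_lit 3861951625) (nat_lit 14) (nat_lit 4) (nat_lit 15) (nat_lit 5) (nat_lit 15) (nat_lit 4) (nat_lit 365) (nat_lit 276) (nat_lit 259)) (XT.lf (nat_lit 0) (nat_lit 2812716246) (nat_lit 152) (nat_lit 1438865185) (nat_lit 76) (nat_lit 25893149422) (nat_lit 13) (nat_lit 5) (nat_lit 15) (nat_lit 5) (nat_lit 14) (nat_lit 4) (nat_lit 366) (nat_lit 276) (nat_lit 258))))))) (XT.nd (nat_lit 858) (nat_lit 304) (nat_lit 0) (XT.nd (nat_lit 390) (nat_lit 152) (nat_lit 0) (XT.nd (nat_lit 156) (nat_lit 152) (nat_lit 0) (XT.nd (nat_lit 78) (nat_lit 0) (nat_lit 0) (XT.lf (nat_lit 0) (nat_lit 9723340380) (nat_lit 152) (nat_lit 19158571906) (nat_lit 0) (nat_lit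 2547915818) (nat_lit 12) (nat_lit 5) (nat_lit 14) (nat_lit 4) (nat_lit 12) (nat_lit 4) (nat_lit 367) (nat_lit 276) (nat_lit 257)) (XT.lf (nat_lit 0) (nat_lit 16879075792) (nat_lit 152) (nat_lit 6423262789) (nat_lit 0) (nat_lit 9479880418) (nat_lit 12) (nat_lit 5) (nat_lit 14) (nat_lit 4) (nat_lit 12) (nat_lit 4) (nat_lit 368) (nat_lit 276) (nat_lit 256))) (XT.nd (nat_lit 78) (nat_lit 76) (nat_lit 0) (XT.lf (nat_lit 0) (nat_lit 6797241167) (nat_lit 76) (nat_lit 17509943028) (nat_lit 76) (nat_lit 9897632596) (nat_lit 11) (nat_lit 4) (nat_lit 12) (nat_lit 5) (nat_lit 12) (nat_lit 4) (nat_lit 369) (nat_lit 276) (nat_lit 255)) (XT.nd (nat_lit 78) (nat_lit 76) (nat_lit 0) (XT.lf (nat_lit 0) (nat_lit 20536935150) (nat_lit 76) (nat_lit 11489656706) (nat_lit 76) (nat_lit 3674379552) (nat_lit 11) (nat_lit 4) (nat_lit 12) (nat_lit 5) (nat_lit 12) (nat_lit 4) (nat_lit 370) (nat_lit 276) (nat_lit 254))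 (XT.lf (nat_lit 0) (nat_lit 2663560751) (nat_lit 152) (nat_lit 2601550468) (nat_lit 76) (nat_lit 32010239699) (nat_lit 10) (nat_lit 5) (nat_lit 12) (nat_lit 5) (nat_lit 11) (nat_lit 4) (nat_lit 371) (nat_lit 276) (nat_lit 253))))) (XT.nd (nat_lit 234) (nat_lit 76) (nat_lit 0) (XT.nd (nat_lit 78) (nat_lit 0) (nat_lit 0) (XT.lf (nat_lit 0) (nat_lit 9222551006) (nat_lit 152) (nat_lit 28436926541) (nat_lit 0) (nat_lit 1268497031) (nat_lit 9) (nat_lit 5) (nat_lit 11) (nat_lit 4) (nat_lit 9) (nat_lit 4) (nat_lit 372) (nat_lit 276) (nat_lit 252)) (XT.nd (nat_lit 78) (nat_lit 0) (nat_lit 0) (XT.lf (nat_lit 0) (nat_lit 16058613670) (nat_lit 152) (nat_lit 16671825866) (nat_lit 0) (nat_lit 7934336116) (nat_lit 9) (nat_lit 5) (nat_lit 11) (nat_lit 4) (nat_lit 9) (nat_lit 4) (nat_lit 373) (nat_lit 276) (nat_lit 251)) (XT.lf (nat_lit 0) (nat_lit 23111655688) (nat_lit 152) (nat_lit 4555264336) (nat_lit 0)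 (nat_lit 14825260440) (nat_lit 9) (nat_lit 5) (nat_lit 11) (nat_lit 4) (nat_lit 9) (nat_lit 4) (nat_lit 374) (nat_lit 276) (nat_lit 250)))) (XT.nd (nat_lit 78) (nat_lit 0) (nat_lit 0) (XT.lf (nat_lit 0) (nat_lit 8099660554) (nat_lit 76) (nat_lit 22376668355) (nat_lit 76) (nat_lit 13935875304) (nat_lit 8) (nat_lit 4) (nat_lit 9) (nat_lit 5) (nat_lit 9) (nat_lit 4) (nat_lit 375) (nat_lit 276) (nat_lit 249)) (XT.nd (nat_lit 78) (nat_lit 0) (nat_lit 0) (XT.lf (nat_lit 0) (nat_lit 21263469485) (nat_lit 76) (nat_lit 16877334205) (nat_lit 76) (nat_lit 8289495627) (nat_lit 8) (nat_lit 4) (nat_lit 9) (nat_lit 5) (nat_lit 9) (nat_lit 4) (nat_lit 376) (nat_lit 276) (nat_lit 248)) (XT.lf (nat_lit 0) (nat_lit 34876846168) (nat_lit 76) (nat_lit 11201823161) (nat_lit 76) (nat_lit 2473941223) (nat_lit 8) (nat_lit 4) (nat_lit 9) (nat_lit 5) (nat_lit 9) (nat_lit 4) (nat_lit 377) (nat_lit 276) (nat_lit 247))))))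 (XT.nd (nat_lit 468) (nat_lit 76) (nat_lit 0) (XT.nd (nat_lit 234) (nat_lit 76) (nat_lit 0) (XT.nd (nat_lit 78) (nat_lit 76) (nat_lit 0) (XT.lf (nat_lit 0) (nat_lit 3455856151) (nat_lit 152) (nat_lit 1845868577) (nat_lit 76) (nat_lit 45481449881) (nat_lit 7) (nat_lit 5) (nat_lit 9) (nat_lit 5) (nat_lit 8) (nat_lit 4) (nat_lit 378) (nat_lit 276) (nat_lit 246)) (XT.nd (nat_lit 78) (nat_lit 0) (nat_lit 0) (XT.lf (nat_lit 0) (nat_lit 9641362755) (nat_lit 152) (nat_lit 42567994888) (nat_lit 0) (nat_lit 914877297) (nat_lit 6) (nat_lit 5) (nat_lit 8) (nat_lit 4) (nat_lit 6) (nat_lit 4) (nat_lit 379) (nat_lit 276) (nat_lit 245)) (XT.lf (nat_lit 0) (nat_lit 16110382001) (nat_lit 152) (nat_lit 32206307549) (nat_lit 0) (nat_lit 7266445360) (nat_lit 6) (nat_lit 5) (nat_lit 8) (nat_lit 4) (nat_lit 6) (nat_lit 4) (nat_lit 380) (nat_lit 276) (nat_lit 244)))) (XT.nd (nat_lit 78) (nat_lit 76) (nat_lit 0) (XT.lf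 (nat_lit 0) (nat_lit 22809076970) (nat_lit 152) (nat_lit 21505447198) (nat_lit 0) (nat_lit 13853282059) (nat_lit 6) (nat_lit 5) (nat_lit 8) (nat_lit 4) (nat_lit 6) (nat_lit 4) (nat_lit 381) (nat_lit 276) (nat_lit 243)) (XT.nd (nat_lit 78) (nat_lit 76) (nat_lit 0) (XT.lf (nat_lit 0) (nat_lit 29753396936) (nat_lit 152) (nat_lit 10439935595) (nat_lit 0) (nat_lit 20691070338) (nat_lit 6) (nat_lit 5) (nat_lit 8) (nat_lit 4) (nat_lit 6) (nat_lit 4) (nat_lit 382) (nat_lit 276) (nat_lit 242)) (XT.lf (nat_lit 0) (nat_lit 1036805526) (nat_lit 76) (nat_lit 35933036874) (nat_lit 76) (nat_lit 26769251529) (nat_lit 5) (nat_lit 4) (nat_lit 6) (nat_lit 5) (nat_lit 6) (nat_lit 4) (nat_lit 383) (nat_lit 276) (nat_lit 241))))) (XT.nd (nat_lit 234) (nat_lit 76) (nat_lit 0) (XT.nd (nat_lit 78) (nat_lit 0) (nat_lit 0) (XT.lf (nat_lit 0) (nat_lit 13147921442) (nat_lit 76) (nat_lit 31424136844) (nat_lit 76) (nat_lit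 22163724119) (nat_lit 5) (nat_lit 4) (nat_lit 6) (nat_lit 5) (nat_lit 6) (nat_lit 4) (nat_lit 384) (nat_lit 276) (nat_lit 240)) (XT.nd (nat_lit 78) (nat_lit 0) (nat_lit 0) (XT.lf (nat_lit 0) (nat_lit 25714472955) (nat_lit 76) (nat_lit 26761319843) (nat_lit 76) (nat_lit 17408881042) (nat_lit 5) (nat_lit 4) (nat_lit 6) (nat_lit 5) (nat_lit 6) (nat_lit 4) (nat_lit 385) (nat_lit 276) (nat_lit 239)) (XT.lf (nat_lit 0) (nat_lit 38766380425) (nat_lit 76) (nat_lit 21933483925) (nat_lit 76) (nat_lit 12493401243) (nat_lit 5) (nat_lit 4) (nat_lit 6) (nat_lit 5) (nat_lit 6) (nat_lit 4) (nat_lit 386) (nat_lit 276) (nat_lit 238)))) (XT.nd (nat_lit 78) (nat_lit 76) (nat_lit 0) (XT.lf (nat_lit 0) (nat_lit 52334719822) (nat_lit 76) (nat_lit 16929134244) (nat_lit 76) (nat_lit 7405581198) (nat_lit 5) (nat_lit 4) (nat_lit 6) (nat_lit 5) (nat_lit 6) (nat_lit 4) (nat_lit 387) (nat_lit 276) (nat_lit 237)) (XT.nd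 (nat_lit 78) (nat_lit 76) (nat_lit 0) (XT.lf (nat_lit 0) (nat_lit 66451796716) (nat_lit 76) (nat_lit 11736355680) (nat_lit 76) (nat_lit 2133307050) (nat_lit 5) (nat_lit 4) (nat_lit 6) (nat_lit 5) (nat_lit 6) (nat_lit 4) (nat_lit 388) (nat_lit 276) (nat_lit 236)) (XT.lf (nat_lit 0) (nat_lit 3270877361) (nat_lit 152) (nat_lit 3038877666) (nat_lit 76) (nat_lit 77847316386) (nat_lit 4) (nat_lit 5) (nat_lit 6) (nat_lit 5) (nat_lit 5) (nat_lit 4) (nat_lit 389) (nat_lit 276) (nat_lit 235))))))))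
noncomputable def xc13 : XT := (XT.nd (nat_lit 44772) (nat_lit 0) (nat_lit 152) (XT.nd (nat_lit 43836) (nat_lit 0) (nat_lit 988) (XT.nd (nat_lit 390) (nat_lit 0) (nat_lit 0) (XT.nd (nat_lit 156) (nat_lit 0) (nat_lit 0) (XT.nd (nat_lit 78) (nat_lit 0) (nat_lit 0) (XT.lf (nat_lit 0) (nat_lit 8356103197) (nat_lit 76) (nat_lit 563584854) (nat_lit 152) (nat_lit 79263594350) (nat_lit 3) (nat_lit 5) (nat_lit 4) (nat_lit 5) (nat_lit 5) (nat_lit 4) (nat_lit 390) (nat_lit 276) (nat_lit 234)) (XT.lf (nat_lit 0) (nat_lit 14874236605) (nat_lit 152) (nat_lit 72195168566) (nat_lit 0) (nat_lit 5340707651) (nat_lit 3) (nat_lit 5) (nat_lit 5) (nat_lit 4) (nat_lit 3) (nat_lit 4) (nat_lit 391) (nat_lit 276) (nat_lit 233))) (XT.nd (nat_lit 78) (nat_lit 0) (nat_lit 0) (XT.lf (nat_lit 0) (nat_lit 21074224861) (nat_lit 152) (nat_lit 64298436382) (nat_lit 0) (nat_lit 11477199582) (nat_lit 3) (nat_lit 5) (nat_lit 5)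 (nat_lit 4) (nat_lit 3) (nat_lit 4) (nat_lit 392) (nat_lit 276) (nat_lit 232)) (XT.nd (nat_lit 78) (nat_lit 0) (nat_lit 0) (XT.lf (nat_lit 0) (nat_lit 27528997173) (nat_lit 152) (nat_lit 56112763388) (nat_lit 0) (nat_lit 17871499204) (nat_lit 3) (nat_lit 5) (nat_lit 5) (nat_lit 4) (nat_lit 3) (nat_lit 4) (nat_lit 393) (nat_lit 276) (nat_lit 231)) (XT.lf (nat_lit 0) (nat_lit 34253922047) (nat_lit 152) (nat_lit 47618659886) (nat_lit 0) (nat_lit 24538831040) (nat_lit 3) (nat_lit 5) (nat_lit 5) (nat_lit 4) (nat_lit 3) (nat_lit 4) (nat_lit 394) (nat_lit 276) (nat_lit 230))))) (XT.nd (nat_lit 43212) (nat_lit 0) (nat_lit 2128) (XT.nd (nat_lit 43056) (nat_lit 0) (nat_lit 2584) (XT.lf (nat_lit 0) (nat_lit 41265011208) (nat_lit 152) (nat_lit 38795901820) (nat_lit 0) (nat_lit 31495069690) (nat_lit 3) (nat_lit 5) (nat_lit 5) (nat_lit 4) (nat_lit 3) (nat_lit 4) (nat_lit 395) (nat_lit 276) (nat_lit 229))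 (XT.nd (nat_lit 78) (nat_lit 228) (nat_lit 0) (XT.lf (nat_lit 0) (nat_lit 3465341455) (nat_lit 152) (nat_lit 1877933415) (nat_lit 152) (nat_lit 1877933415) (nat_lit 40) (nat_lit 4) (nat_lit 42) (nat_lit 5) (nat_lit 42) (nat_lit 4) (nat_lit 346) (nat_lit 277) (nat_lit 277)) (XT.lf (nat_lit 0) (nat_lit 3980170584) (nat_lit 228) (nat_lit 7674554911) (nat_lit 0) (nat_lit 3249956861) (nat_lit 37) (nat_lit 5) (nat_lit 40) (nat_lit 4) (nat_lit 37) (nat_lit 4) (nat_lit 347) (nat_lit 277) (nat_lit 276)))) (XT.nd (nat_lit 78) (nat_lit 304) (nat_lit 0) (XT.lf (nat_lit 0) (nat_lit 7052513680) (nat_lit 152) (nat_lit 4882440129) (nat_lit 152) (nat_lit 3456784764) (nat_lit 35) (nat_lit 4) (nat_lit 37) (nat_lit 5) (nat_lit 37) (nat_lit 4) (nat_lit 348) (nat_lit 277) (nat_lit 275)) (XT.nd (nat_lit 78) (nat_lit 152) (nat_lit 0) (XT.lf (nat_lit 0) (nat_lit 4192036599) (nat_lit 152) (nat_lit 9548253207) (nat_lit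 0) (nat_lit 2164870834) (nat_lit 33) (nat_lit 5) (nat_lit 35) (nat_lit 4) (nat_lit 33) (nat_lit 4) (nat_lit 349) (nat_lit 277) (nat_lit 274)) (XT.lf (nat_lit 0) (nat_lit 5063690505) (nat_lit 152) (nat_lit 7010754253) (nat_lit 152) (nat_lit 4371174829) (nat_lit 31) (nat_lit 4) (nat_lit 33) (nat_lit 5) (nat_lit 33) (nat_lit 4) (nat_lit 350) (nat_lit 277) (nat_lit 273)))))) (XT.nd (nat_lit 468) (nat_lit 380) (nat_lit 0) (XT.nd (nat_lit 234) (nat_lit 380) (nat_lit 0) (XT.nd (nat_lit 78) (nat_lit 228) (nat_lit 0) (XT.lf (nat_lit 0) (nat_lit 3145409107) (nat_lit 152) (nat_lit 13854168505) (nat_lit 0) (nat_lit 16447429) (nat_lit 29) (nat_lit 5) (nat_lit 31) (nat_lit 4) (nat_lit 29) (nat_lit 4) (nat_lit 351) (nat_lit 277) (nat_lit 272)) (XT.nd (nat_lit 78) (nat_lit 76) (nat_lit 0) (XT.lf (nat_lit 0) (nat_lit 498328260) (nat_lit 152) (nat_lit 10392669930) (nat_lit 152) (nat_lit 6724409959) (nat_lit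 27) (nat_lit 4) (nat_lit 29) (nat_lit 5) (nat_lit 29) (nat_lit 4) (nat_lit 352) (nat_lit 277) (nat_lit 271)) (XT.lf (nat_lit 0) (nat_lit 662036692) (nat_lit 228) (nat_lit 2837942906) (nat_lit 76) (nat_lit 14747670483) (nat_lit 26) (nat_lit 5) (nat_lit 29) (nat_lit 5) (nat_lit 27) (nat_lit 4) (nat_lit 353) (nat_lit 277) (nat_lit 270)))) (XT.nd (nat_lit 78) (nat_lit 304) (nat_lit 0) (XT.lf (nat_lit 0) (nat_lit 8196068191) (nat_lit 152) (nat_lit 7054893170) (nat_lit 0) (nat_lit 3661080965) (nat_lit 25) (nat_lit 5) (nat_lit 27) (nat_lit 4) (nat_lit 25) (nat_lit 4) (nat_lit 354) (nat_lit 277) (nat_lit 269)) (XT.nd (nat_lit 78) (nat_lit 152) (nat_lit 0) (XT.lf (nat_lit 0) (nat_lit 7428725926) (nat_lit 152) (nat_lit 8585521131) (nat_lit 152) (nat_lit 3598236680) (nat_lit 23) (nat_lit 4) (nat_lit 25) (nat_lit 5) (nat_lit 25) (nat_lit 4) (nat_lit 355) (nat_lit 277) (nat_lit 268)) (XT.lf (nat_lit 0)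 (nat_lit 2029143686) (nat_lit 76) (nat_lit 1639421535) (nat_lit 152) (nat_lit 16682249347) (nat_lit 21) (nat_lit 5) (nat_lit 22) (nat_lit 5) (nat_lit 23) (nat_lit 4) (nat_lit 356) (nat_lit 277) (nat_lit 267))))) (XT.nd (nat_lit 234) (nat_lit 152) (nat_lit 0) (XT.nd (nat_lit 78) (nat_lit 228) (nat_lit 0) (XT.lf (nat_lit 0) (nat_lit 11187034464) (nat_lit 152) (nat_lit 4410623102) (nat_lit 0) (nat_lit 5528499871) (nat_lit 21) (nat_lit 5) (nat_lit 23) (nat_lit 4) (nat_lit 21) (nat_lit 4) (nat_lit 357) (nat_lit 277) (nat_lit 266)) (XT.nd (nat_lit 78) (nat_lit 152) (nat_lit 0) (XT.lf (nat_lit 0) (nat_lit 9989883313) (nat_lit 76) (nat_lit 8995586622) (nat_lit 76) (nat_lit 2957720622) (nat_lit 20) (nat_lit 4) (nat_lit 21) (nat_lit 5) (nat_lit 21) (nat_lit 4) (nat_lit 358) (nat_lit 277) (nat_lit 265)) (XT.lf (nat_lit 0) (nat_lit 2022279898) (nat_lit 76) (nat_lit 2126199858) (nat_lit 152) (nat_lit 18655543932)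 (nat_lit 18) (nat_lit 5) (nat_lit 19) (nat_lit 5) (nat_lit 20) (nat_lit 4) (nat_lit 359) (nat_lit 277) (nat_lit 264)))) (XT.nd (nat_lit 78) (nat_lit 152) (nat_lit 0) (XT.lf (nat_lit 0) (nat_lit 11522893727) (nat_lit 152) (nat_lit 7208844293) (nat_lit 0) (nat_lit 4976098799) (nat_lit 18) (nat_lit 5) (nat_lit 20) (nat_lit 4) (nat_lit 18) (nat_lit 4) (nat_lit 360) (nat_lit 277) (nat_lit 263)) (XT.nd (nat_lit 78) (nat_lit 76) (nat_lit 0) (XT.lf (nat_lit 0) (nat_lit 6800508732) (nat_lit 76) (nat_lit 12362200125) (nat_lit 76) (nat_lit 5497268565) (nat_lit 17) (nat_lit 4) (nat_lit 18) (nat_lit 5) (nat_lit 18) (nat_lit 4) (nat_lit 361) (nat_lit 277) (nat_lit 262)) (XT.lf (nat_lit 0) (nat_lit 1383722827) (nat_lit 152) (nat_lit 4358961491) (nat_lit 76) (nat_lit 19919974827) (nat_lit 16) (nat_lit 5) (nat_lit 18) (nat_lit 5) (nat_lit 17) (nat_lit 4) (nat_lit 362) (nat_lit 277) (nat_lit 261))))))) (XT.nd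 (nat_lit 858) (nat_lit 304) (nat_lit 0) (XT.nd (nat_lit 390) (nat_lit 228) (nat_lit 0) (XT.nd (nat_lit 156) (nat_lit 228) (nat_lit 0) (XT.nd (nat_lit 78) (nat_lit 0) (nat_lit 0) (XT.lf (nat_lit 0) (nat_lit 8422801401) (nat_lit 152) (nat_lit 17109739353) (nat_lit 0) (nat_lit 1183502242) (nat_lit 15) (nat_lit 5) (nat_lit 17) (nat_lit 4) (nat_lit 15) (nat_lit 4) (nat_lit 363) (nat_lit 277) (nat_lit 260)) (XT.lf (nat_lit 0) (nat_lit 15743653805) (nat_lit 152) (nat_lit 3843038181) (nat_lit 0) (nat_lit 8237540680) (nat_lit 15) (nat_lit 5) (nat_lit 17) (nat_lit 4) (nat_lit 15) (nat_lit 4) (nat_lit 364) (nat_lit 277) (nat_lit 259))) (XT.nd (nat_lit 78) (nat_lit 152) (nat_lit 0) (XT.lf (nat_lit 0) (nat_lit 9972256286) (nat_lit 76) (nat_lit 13388953551) (nat_lit 76) (nat_lit 5628731887) (nat_lit 14) (nat_lit 4) (nat_lit 15) (nat_lit 5) (nat_lit 15) (nat_lit 4) (nat_lit 365) (nat_lit 277) (nat_lit 258))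 (XT.nd (nat_lit 78) (nat_lit 76) (nat_lit 0) (XT.lf (nat_lit 0) (nat_lit 1001468706) (nat_lit 152) (nat_lit 5969248322) (nat_lit 76) (nat_lit 23246572760) (nat_lit 13) (nat_lit 5) (nat_lit 15) (nat_lit 5) (nat_lit 14) (nat_lit 4) (nat_lit 366) (nat_lit 277) (nat_lit 257)) (XT.lf (nat_lit 0) (nat_lit 7532530389) (nat_lit 76) (nat_lit 233599719) (nat_lit 152) (nat_lit 23740648585) (nat_lit 12) (nat_lit 5) (nat_lit 13) (nat_lit 5) (nat_lit 14) (nat_lit 4) (nat_lit 367) (nat_lit 277) (nat_lit 256))))) (XT.nd (nat_lit 234) (nat_lit 152) (nat_lit 0) (XT.nd (nat_lit 78) (nat_lit 76) (nat_lit 0) (XT.lf (nat_lit 0) (nat_lit 14846081959) (nat_lit 152) (nat_lit 11375332355) (nat_lit 0) (nat_lit 6640040947) (nat_lit 12) (nat_lit 5) (nat_lit 14) (nat_lit 4) (nat_lit 12) (nat_lit 4) (nat_lit 368) (nat_lit 277) (nat_lit 255)) (XT.nd (nat_lit 78) (nat_lit 0) (nat_lit 0) (XT.lf (nat_lit 0) (nat_lit 1611951086)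 (nat_lit 76) (nat_lit 20542358849) (nat_lit 76) (nat_lit 12133351115) (nat_lit 11) (nat_lit 4) (nat_lit 12) (nat_lit 5) (nat_lit 12) (nat_lit 4) (nat_lit 369) (nat_lit 277) (nat_lit 254)) (XT.lf (nat_lit 0) (nat_lit 15223393050) (nat_lit 76) (nat_lit 14582390524) (nat_lit 76) (nat_lit 5980081149) (nat_lit 11) (nat_lit 4) (nat_lit 12) (nat_lit 5) (nat_lit 12) (nat_lit 4) (nat_lit 370) (nat_lit 277) (nat_lit 253)))) (XT.nd (nat_lit 78) (nat_lit 76) (nat_lit 0) (XT.lf (nat_lit 0) (nat_lit 337501739) (nat_lit 152) (nat_lit 8101277644) (nat_lit 76) (nat_lit 28924100467) (nat_lit 10) (nat_lit 5) (nat_lit 12) (nat_lit 5) (nat_lit 11) (nat_lit 4) (nat_lit 371) (nat_lit 277) (nat_lit 252)) (XT.nd (nat_lit 78) (nat_lit 0) (nat_lit 0) (XT.lf (nat_lit 0) (nat_lit 4774758093) (nat_lit 76) (nat_lit 1991987991) (nat_lit 152) (nat_lit 32252659517) (nat_lit 9) (nat_lit 5) (nat_lit 10) (nat_lit 5) (nat_lit 11)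 (nat_lit 4) (nat_lit 372) (nat_lit 277) (nat_lit 251)) (XT.lf (nat_lit 0) (nat_lit 13522770894) (nat_lit 152) (nat_lit 22575907983) (nat_lit 0) (nat_lit 4659938190) (nat_lit 9) (nat_lit 5) (nat_lit 11) (nat_lit 4) (nat_lit 9) (nat_lit 4) (nat_lit 373) (nat_lit 277) (nat_lit 250)))))) (XT.nd (nat_lit 468) (nat_lit 76) (nat_lit 0) (XT.nd (nat_lit 234) (nat_lit 152) (nat_lit 0) (XT.nd (nat_lit 78) (nat_lit 76) (nat_lit 0) (XT.lf (nat_lit 0) (nat_lit 20517822770) (nat_lit 152) (nat_lit 10569355364) (nat_lit 0) (nat_lit 11500592263) (nat_lit 9) (nat_lit 5) (nat_lit 11) (nat_lit 4) (nat_lit 9) (nat_lit 4) (nat_lit 374) (nat_lit 277) (nat_lit 249)) (XT.nd (nat_lit 78) (nat_lit 0) (nat_lit 0) (XT.lf (nat_lit 0) (nat_lit 1859021795) (nat_lit 76) (nat_lit 25908256652) (nat_lit 76) (nat_lit 16743980617) (nat_lit 8) (nat_lit 4) (nat_lit 9) (nat_lit 5) (nat_lit 9) (nat_lit 4) (nat_lit 375) (nat_lit 277)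 (nat_lit 248)) (XT.lf (nat_lit 0) (nat_lit 14921063558) (nat_lit 76) (nat_lit 20457112655) (nat_lit 76) (nat_lit 11152793261) (nat_lit 8) (nat_lit 4) (nat_lit 9) (nat_lit 5) (nat_lit 9) (nat_lit 4) (nat_lit 376) (nat_lit 277) (nat_lit 247)))) (XT.nd (nat_lit 78) (nat_lit 152) (nat_lit 0) (XT.lf (nat_lit 0) (nat_lit 28437519128) (nat_lit 76) (nat_lit 14827496994) (nat_lit 76) (nat_lit 5389802972) (nat_lit 8) (nat_lit 4) (nat_lit 9) (nat_lit 5) (nat_lit 9) (nat_lit 4) (nat_lit 377) (nat_lit 277) (nat_lit 246)) (XT.nd (nat_lit 78) (nat_lit 76) (nat_lit 0) (XT.lf (nat_lit 0) (nat_lit 547809177) (nat_lit 152) (nat_lit 8452664845) (nat_lit 76) (nat_lit 41887229565) (nat_lit 7) (nat_lit 5) (nat_lit 9) (nat_lit 5) (nat_lit 8) (nat_lit 4) (nat_lit 378) (nat_lit 277) (nat_lit 245)) (XT.lf (nat_lit 0) (nat_lit 3736578449) (nat_lit 76) (nat_lit 2875377533) (nat_lit 152) (nat_lit 46620455435) (nat_lit 6)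 (nat_lit 5) (nat_lit 7) (nat_lit 5) (nat_lit 8) (nat_lit 4) (nat_lit 379) (nat_lit 277) (nat_lit 244))))) (XT.nd (nat_lit 234) (nat_lit 76) (nat_lit 0) (XT.nd (nat_lit 78) (nat_lit 0) (nat_lit 0) (XT.lf (nat_lit 0) (nat_lit 13007591322) (nat_lit 152) (nat_lit 39193779573) (nat_lit 0) (nat_lit 3492148395) (nat_lit 6) (nat_lit 5) (nat_lit 8) (nat_lit 4) (nat_lit 6) (nat_lit 4) (nat_lit 380) (nat_lit 277) (nat_lit 243)) (XT.nd (nat_lit 78) (nat_lit 0) (nat_lit 0) (XT.lf (nat_lit 0) (nat_lit 19662720558) (nat_lit 152) (nat_lit 28576037156) (nat_lit 0) (nat_lit 10040745945) (nat_lit 6) (nat_lit 5) (nat_lit 8) (nat_lit 4) (nat_lit 6) (nat_lit 4) (nat_lit 381) (nat_lit 277) (nat_lit 242)) (XT.lf (nat_lit 0) (nat_lit 26565549349) (nat_lit 152) (nat_lit 17589685491) (nat_lit 0) (nat_lit 16842115988) (nat_lit 6) (nat_lit 5) (nat_lit 8) (nat_lit 4) (nat_lit 6) (nat_lit 4) (nat_lit 382) (nat_lit 277) (nat_lit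 241)))) (XT.nd (nat_lit 78) (nat_lit 76) (nat_lit 0) (XT.lf (nat_lit 0) (nat_lit 33732513002) (nat_lit 152) (nat_lit 6208566596) (nat_lit 0) (nat_lit 23912452261) (nat_lit 6) (nat_lit 5) (nat_lit 8) (nat_lit 4) (nat_lit 6) (nat_lit 4) (nat_lit 383) (nat_lit 277) (nat_lit 240)) (XT.nd (nat_lit 78) (nat_lit 0) (nat_lit 0) (XT.lf (nat_lit 0) (nat_lit 5705757305) (nat_lit 76) (nat_lit 35529765639) (nat_lit 76) (nat_lit 25617678823) (nat_lit 5) (nat_lit 4) (nat_lit 6) (nat_lit 5) (nat_lit 6) (nat_lit 4) (nat_lit 384) (nat_lit 277) (nat_lit 239)) (XT.lf (nat_lit 0) (nat_lit 18202566564) (nat_lit 76) (nat_lit 30900178850) (nat_lit 76) (nat_lit 20900448151) (nat_lit 5) (nat_lit 4) (nat_lit 6) (nat_lit 5) (nat_lit 6) (nat_lit 4) (nat_lit 385) (nat_lit 277) (nat_lit 238))))))))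
noncomputable def xc14 : XT := (XT.nd (nat_lit 44616) (nat_lit 0) (nat_lit 304) (XT.nd (nat_lit 43680) (nat_lit 0) (nat_lit 1444) (XT.nd (nat_lit 390) (nat_lit 0) (nat_lit 0) (XT.nd (nat_lit 156) (nat_lit 152) (nat_lit 0) (XT.nd (nat_lit 78) (nat_lit 0) (nat_lit 0) (XT.lf (nat_lit 0) (nat_lit 31188052841) (nat_lit 76) (nat_lit 26103990752) (nat_lit 76) (nat_lit 16020789691) (nat_lit 5) (nat_lit 4) (nat_lit 6) (nat_lit 5) (nat_lit 6) (nat_lit 4) (nat_lit 386) (nat_lit 277) (nat_lit 237)) (XT.lf (nat_lit 0) (nat_lit 44693133958) (nat_lit 76) (nat_lit 21129781852) (nat_lit 76) (nat_lit 10967085206) (nat_lit 5) (nat_lit 4) (nat_lit 6) (nat_lit 5) (nat_lit 6) (nat_lit 4) (nat_lit 387) (nat_lit 277) (nat_lit 236))) (XT.nd (nat_lit 78) (nat_lit 152) (nat_lit 0) (XT.lf (nat_lit 0) (nat_lit 58749964872) (nat_lit 76) (nat_lit 15965708795) (nat_lit 76) (nat_lit 5727302068) (nat_lit 5) (nat_lit 4) (nat_lit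 6) (nat_lit 5) (nat_lit 6) (nat_lit 4) (nat_lit 388) (nat_lit 277) (nat_lit 235)) (XT.nd (nat_lit 78) (nat_lit 152) (nat_lit 0) (XT.lf (nat_lit 0) (nat_lit 73392014227) (nat_lit 76) (nat_lit 10599476167) (nat_lit 76) (nat_lit 288964603) (nat_lit 5) (nat_lit 4) (nat_lit 6) (nat_lit 5) (nat_lit 6) (nat_lit 4) (nat_lit 389) (nat_lit 277) (nat_lit 234)) (XT.lf (nat_lit 0) (nat_lit 296828563) (nat_lit 76) (nat_lit 4962290353) (nat_lit 152) (nat_lit 83050825184) (nat_lit 3) (nat_lit 5) (nat_lit 4) (nat_lit 5) (nat_lit 5) (nat_lit 4) (nat_lit 390) (nat_lit 277) (nat_lit 233))))) (XT.nd (nat_lit 234) (nat_lit 0) (nat_lit 0) (XT.nd (nat_lit 78) (nat_lit 0) (nat_lit 0) (XT.lf (nat_lit 0) (nat_lit 11143103386) (nat_lit 152) (nat_lit 80393061162) (nat_lit 0) (nat_lit 1002730519) (nat_lit 3) (nat_lit 5) (nat_lit 5) (nat_lit 4) (nat_lit 3) (nat_lit 4) (nat_lit 391) (nat_lit 277) (nat_lit 232)) (XT.nd (nat_lit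 78) (nat_lit 0) (nat_lit 0) (XT.lf (nat_lit 0) (nat_lit 17316157321) (nat_lit 152) (nat_lit 72547985465) (nat_lit 0) (nat_lit 7115311765) (nat_lit 3) (nat_lit 5) (nat_lit 5) (nat_lit 4) (nat_lit 3) (nat_lit 4) (nat_lit 392) (nat_lit 277) (nat_lit 231)) (XT.lf (nat_lit 0) (nat_lit 23745277900) (nat_lit 152) (nat_lit 64411509126) (nat_lit 0) (nat_lit 13486839306) (nat_lit 3) (nat_lit 5) (nat_lit 5) (nat_lit 4) (nat_lit 3) (nat_lit 4) (nat_lit 393) (nat_lit 277) (nat_lit 230)))) (XT.nd (nat_lit 78) (nat_lit 0) (nat_lit 0) (XT.lf (nat_lit 0) (nat_lit 30445772551) (nat_lit 152) (nat_lit 55964259581) (nat_lit 0) (nat_lit 20132483445) (nat_lit 3) (nat_lit 5) (nat_lit 5) (nat_lit 4) (nat_lit 3) (nat_lit 4) (nat_lit 394) (nat_lit 277) (nat_lit 229)) (XT.nd (nat_lit 42900) (nat_lit 0) (nat_lit 3192) (XT.lf (nat_lit 0) (nat_lit 37433594835) (nat_lit 152) (nat_lit 47186124332) (nat_lit 0) (nat_lit 27068067145)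 (nat_lit 3) (nat_lit 5) (nat_lit 5) (nat_lit 4) (nat_lit 3) (nat_lit 4) (nat_lit 395) (nat_lit 277) (nat_lit 228)) (XT.lf (nat_lit 0) (nat_lit 2663168079) (nat_lit 152) (nat_lit 2064326114) (nat_lit 152) (nat_lit 2064326114) (nat_lit 45) (nat_lit 4) (nat_lit 47) (nat_lit 5) (nat_lit 47) (nat_lit 4) (nat_lit 344) (nat_lit 278) (nat_lit 278)))))) (XT.nd (nat_lit 468) (nat_lit 684) (nat_lit 0) (XT.nd (nat_lit 234) (nat_lit 456) (nat_lit 0) (XT.nd (nat_lit 78) (nat_lit 380) (nat_lit 0) (XT.lf (nat_lit 0) (nat_lit 3498567491) (nat_lit 228) (nat_lit 7796520871) (nat_lit 0) (nat_lit 2708841350) (nat_lit 42) (nat_lit 5) (nat_lit 45) (nat_lit 4) (nat_lit 42) (nat_lit 4) (nat_lit 345) (nat_lit 278) (nat_lit 277)) (XT.nd (nat_lit 78) (nat_lit 228) (nat_lit 0) (XT.lf (nat_lit 0) (nat_lit 6692120005) (nat_lit 152) (nat_lit 4648133229) (nat_lit 152) (nat_lit 3106286952) (nat_lit 40) (nat_lit 4) (nat_lit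 42) (nat_lit 5) (nat_lit 42) (nat_lit 4) (nat_lit 346) (nat_lit 278) (nat_lit 276)) (XT.lf (nat_lit 0) (nat_lit 4471999715) (nat_lit 228) (nat_lit 8161390939) (nat_lit 0) (nat_lit 2279619941) (nat_lit 37) (nat_lit 5) (nat_lit 40) (nat_lit 4) (nat_lit 37) (nat_lit 4) (nat_lit 347) (nat_lit 278) (nat_lit 275)))) (XT.nd (nat_lit 78) (nat_lit 304) (nat_lit 0) (XT.lf (nat_lit 0) (nat_lit 6325315015) (nat_lit 152) (nat_lit 5966767876) (nat_lit 152) (nat_lit 3112062729) (nat_lit 35) (nat_lit 4) (nat_lit 37) (nat_lit 5) (nat_lit 37) (nat_lit 4) (nat_lit 348) (nat_lit 278) (nat_lit 274)) (XT.nd (nat_lit 78) (nat_lit 152) (nat_lit 0) (XT.lf (nat_lit 0) (nat_lit 4384150650) (nat_lit 152) (nat_lit 10537550427) (nat_lit 0) (nat_lit 1000178595) (nat_lit 33) (nat_lit 5) (nat_lit 35) (nat_lit 4) (nat_lit 33) (nat_lit 4) (nat_lit 349) (nat_lit 278) (nat_lit 273)) (XT.lf (nat_lit 0) (nat_lit 3831755064) (nat_lit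 152) (nat_lit 8300928138) (nat_lit 152) (nat_lit 4333704979) (nat_lit 31) (nat_lit 4) (nat_lit 33) (nat_lit 5) (nat_lit 33) (nat_lit 4) (nat_lit 350) (nat_lit 278) (nat_lit 272))))) (XT.nd (nat_lit 234) (nat_lit 304) (nat_lit 0) (XT.nd (nat_lit 78) (nat_lit 228) (nat_lit 0) (XT.lf (nat_lit 0) (nat_lit 1665005186) (nat_lit 76) (nat_lit 1383125644) (nat_lit 152) (nat_lit 13992703291) (nat_lit 29) (nat_lit 5) (nat_lit 30) (nat_lit 5) (nat_lit 31) (nat_lit 4) (nat_lit 351) (nat_lit 278) (nat_lit 271)) (XT.nd (nat_lit 78) (nat_lit 228) (nat_lit 0) (XT.lf (nat_lit 0) (nat_lit 10658960463) (nat_lit 152) (nat_lit 1230957091) (nat_lit 0) (nat_lit 5754371778) (nat_lit 29) (nat_lit 5) (nat_lit 31) (nat_lit 4) (nat_lit 29) (nat_lit 4) (nat_lit 352) (nat_lit 278) (nat_lit 270)) (XT.lf (nat_lit 0) (nat_lit 279784652) (nat_lit 228) (nat_lit 4825785289) (nat_lit 76) (nat_lit 13174856414) (nat_lit 26) (nat_lit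 5) (nat_lit 29) (nat_lit 5) (nat_lit 27) (nat_lit 4) (nat_lit 353) (nat_lit 278) (nat_lit 269)))) (XT.nd (nat_lit 78) (nat_lit 228) (nat_lit 0) (XT.lf (nat_lit 0) (nat_lit 7667094200) (nat_lit 152) (nat_lit 9304003575) (nat_lit 0) (nat_lit 1978148300) (nat_lit 25) (nat_lit 5) (nat_lit 27) (nat_lit 4) (nat_lit 25) (nat_lit 4) (nat_lit 354) (nat_lit 278) (nat_lit 268)) (XT.nd (nat_lit 78) (nat_lit 76) (nat_lit 0) (XT.lf (nat_lit 0) (nat_lit 4936728628) (nat_lit 152) (nat_lit 10418298001) (nat_lit 152) (nat_lit 4298592839) (nat_lit 23) (nat_lit 4) (nat_lit 25) (nat_lit 5) (nat_lit 25) (nat_lit 4) (nat_lit 355) (nat_lit 278) (nat_lit 267)) (XT.lf (nat_lit 0) (nat_lit 2858282835) (nat_lit 228) (nat_lit 727637923) (nat_lit 76) (nat_lit 16809962026) (nat_lit 22) (nat_lit 5) (nat_lit 25) (nat_lit 5) (nat_lit 23) (nat_lit 4) (nat_lit 356) (nat_lit 278) (nat_lit 266))))))) (XT.nd (nat_lit 858) (nat_lit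 380) (nat_lit 0) (XT.nd (nat_lit 390) (nat_lit 380) (nat_lit 0) (XT.nd (nat_lit 156) (nat_lit 228) (nat_lit 0) (XT.nd (nat_lit 78) (nat_lit 76) (nat_lit 0) (XT.lf (nat_lit 0) (nat_lit 10249113297) (nat_lit 152) (nat_lit 7395940584) (nat_lit 0) (nat_lit 3530022589) (nat_lit 21) (nat_lit 5) (nat_lit 23) (nat_lit 4) (nat_lit 21) (nat_lit 4) (nat_lit 357) (nat_lit 278) (nat_lit 265)) (XT.lf (nat_lit 0) (nat_lit 6762974557) (nat_lit 76) (nat_lit 11156675663) (nat_lit 76) (nat_lit 4076316948) (nat_lit 20) (nat_lit 4) (nat_lit 21) (nat_lit 5) (nat_lit 21) (nat_lit 4) (nat_lit 358) (nat_lit 278) (nat_lit 264))) (XT.nd (nat_lit 78) (nat_lit 152) (nat_lit 0) (XT.lf (nat_lit 0) (nat_lit 2937388556) (nat_lit 152) (nat_lit 1461524712) (nat_lit 76) (nat_lit 18461658358) (nat_lit 19) (nat_lit 5) (nat_lit 21) (nat_lit 5) (nat_lit 20) (nat_lit 4) (nat_lit 359) (nat_lit 278) (nat_lit 263)) (XT.nd (nat_lit 78)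 (nat_lit 76) (nat_lit 0) (XT.lf (nat_lit 0) (nat_lit 10182728962) (nat_lit 152) (nat_lit 10929131973) (nat_lit 0) (nat_lit 2656414191) (nat_lit 18) (nat_lit 5) (nat_lit 20) (nat_lit 4) (nat_lit 18) (nat_lit 4) (nat_lit 360) (nat_lit 278) (nat_lit 262)) (XT.lf (nat_lit 0) (nat_lit 2838715393) (nat_lit 76) (nat_lit 14857406174) (nat_lit 76) (nat_lit 7028104133) (nat_lit 17) (nat_lit 4) (nat_lit 18) (nat_lit 5) (nat_lit 18) (nat_lit 4) (nat_lit 361) (nat_lit 278) (nat_lit 261))))) (XT.nd (nat_lit 234) (nat_lit 228) (nat_lit 0) (XT.nd (nat_lit 78) (nat_lit 152) (nat_lit 0) (XT.lf (nat_lit 0) (nat_lit 17196387069) (nat_lit 76) (nat_lit 8325687561) (nat_lit 76) (nat_lit 207826216) (nat_lit 17) (nat_lit 4) (nat_lit 18) (nat_lit 5) (nat_lit 18) (nat_lit 4) (nat_lit 362) (nat_lit 278) (nat_lit 260)) (XT.nd (nat_lit 78) (nat_lit 0) (nat_lit 0) (XT.lf (nat_lit 0) (nat_lit 5206051476) (nat_lit 76) (nat_lit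 1492830891) (nat_lit 152) (nat_lit 20088570256) (nat_lit 15) (nat_lit 5) (nat_lit 16) (nat_lit 5) (nat_lit 17) (nat_lit 4) (nat_lit 363) (nat_lit 278) (nat_lit 259)) (XT.lf (nat_lit 0) (nat_lit 13924800172) (nat_lit 152) (nat_lit 8451245777) (nat_lit 0) (nat_lit 5522458886) (nat_lit 15) (nat_lit 5) (nat_lit 17) (nat_lit 4) (nat_lit 15) (nat_lit 4) (nat_lit 364) (nat_lit 278) (nat_lit 258)))) (XT.nd (nat_lit 78) (nat_lit 152) (nat_lit 0) (XT.lf (nat_lit 0) (nat_lit 5125765915) (nat_lit 76) (nat_lit 16293255626) (nat_lit 76) (nat_lit 7648906207) (nat_lit 14) (nat_lit 4) (nat_lit 15) (nat_lit 5) (nat_lit 15) (nat_lit 4) (nat_lit 365) (nat_lit 278) (nat_lit 257)) (XT.nd (nat_lit 78) (nat_lit 152) (nat_lit 0) (XT.lf (nat_lit 0) (nat_lit 19272073101) (nat_lit 76) (nat_lit 9950288402) (nat_lit 76) (nat_lit 1075455048) (nat_lit 14) (nat_lit 4) (nat_lit 15) (nat_lit 5) (nat_lit 15) (nat_lit 4) (nat_lit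 366) (nat_lit 278) (nat_lit 256)) (XT.lf (nat_lit 0) (nat_lit 2248889418) (nat_lit 76) (nat_lit 3338909243) (nat_lit 152) (nat_lit 26003500910) (nat_lit 12) (nat_lit 5) (nat_lit 13) (nat_lit 5) (nat_lit 14) (nat_lit 4) (nat_lit 367) (nat_lit 278) (nat_lit 255)))))) (XT.nd (nat_lit 468) (nat_lit 152) (nat_lit 0) (XT.nd (nat_lit 234) (nat_lit 152) (nat_lit 0) (XT.nd (nat_lit 78) (nat_lit 76) (nat_lit 0) (XT.lf (nat_lit 0) (nat_lit 12567864130) (nat_lit 152) (nat_lit 16845680897) (nat_lit 0) (nat_lit 3535439288) (nat_lit 12) (nat_lit 5) (nat_lit 14) (nat_lit 4) (nat_lit 12) (nat_lit 4) (nat_lit 368) (nat_lit 278) (nat_lit 254)) (XT.nd (nat_lit 78) (nat_lit 76) (nat_lit 0) (XT.lf (nat_lit 0) (nat_lit 19793895861) (nat_lit 152) (nat_lit 4015601788) (nat_lit 0) (nat_lit 10568169378) (nat_lit 12) (nat_lit 5) (nat_lit 14) (nat_lit 4) (nat_lit 12) (nat_lit 4) (nat_lit 369) (nat_lit 278) (nat_lit 253))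 (XT.lf (nat_lit 0) (nat_lit 9393777045) (nat_lit 76) (nat_lit 17947524739) (nat_lit 76) (nat_lit 8537701455) (nat_lit 11) (nat_lit 4) (nat_lit 12) (nat_lit 5) (nat_lit 12) (nat_lit 4) (nat_lit 370) (nat_lit 278) (nat_lit 252)))) (XT.nd (nat_lit 78) (nat_lit 152) (nat_lit 0) (XT.lf (nat_lit 0) (nat_lit 23319065945) (nat_lit 76) (nat_lit 11862031904) (nat_lit 76) (nat_lit 2276878335) (nat_lit 11) (nat_lit 4) (nat_lit 12) (nat_lit 5) (nat_lit 12) (nat_lit 4) (nat_lit 371) (nat_lit 278) (nat_lit 251)) (XT.nd (nat_lit 78) (nat_lit 76) (nat_lit 0) (XT.lf (nat_lit 0) (nat_lit 4091623874) (nat_lit 152) (nat_lit 1446138329) (nat_lit 76) (nat_lit 33580560758) (nat_lit 10) (nat_lit 5) (nat_lit 12) (nat_lit 5) (nat_lit 11) (nat_lit 4) (nat_lit 372) (nat_lit 278) (nat_lit 250)) (XT.lf (nat_lit 0) (nat_lit 10741256189) (nat_lit 152) (nat_lit 29000712473) (nat_lit 0) (nat_lit 1118766352) (nat_lit 9) (nat_lit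 5) (nat_lit 11) (nat_lit 4) (nat_lit 9) (nat_lit 4) (nat_lit 373) (nat_lit 278) (nat_lit 249))))) (XT.nd (nat_lit 234) (nat_lit 76) (nat_lit 0) (XT.nd (nat_lit 78) (nat_lit 76) (nat_lit 0) (XT.lf (nat_lit 0) (nat_lit 17681079359) (nat_lit 152) (nat_lit 17098930244) (nat_lit 0) (nat_lit 7911543995) (nat_lit 9) (nat_lit 5) (nat_lit 11) (nat_lit 4) (nat_lit 9) (nat_lit 4) (nat_lit 374) (nat_lit 278) (nat_lit 248)) (XT.nd (nat_lit 78) (nat_lit 76) (nat_lit 0) (XT.lf (nat_lit 0) (nat_lit 24860066214) (nat_lit 152) (nat_lit 4806610620) (nat_lit 0) (nat_lit 14950487491) (nat_lit 9) (nat_lit 5) (nat_lit 11) (nat_lit 4) (nat_lit 9) (nat_lit 4) (nat_lit 375) (nat_lit 278) (nat_lit 247)) (XT.lf (nat_lit 0) (nat_lit 8062849053) (nat_lit 76) (nat_lit 24309965563) (nat_lit 76) (nat_lit 14267012212) (nat_lit 8) (nat_lit 4) (nat_lit 9) (nat_lit 5) (nat_lit 9) (nat_lit 4) (nat_lit 376) (nat_lit 278) (nat_lit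 246)))) (XT.nd (nat_lit 78) (nat_lit 76) (nat_lit 0) (XT.lf (nat_lit 0) (nat_lit 21486998801) (nat_lit 76) (nat_lit 18724059791) (nat_lit 76) (nat_lit 8554082985) (nat_lit 8) (nat_lit 4) (nat_lit 9) (nat_lit 5) (nat_lit 9) (nat_lit 4) (nat_lit 377) (nat_lit 278) (nat_lit 245)) (XT.nd (nat_lit 78) (nat_lit 76) (nat_lit 0) (XT.lf (nat_lit 0) (nat_lit 35402139909) (nat_lit 76) (nat_lit 12944197085) (nat_lit 76) (nat_lit 2653245559) (nat_lit 8) (nat_lit 4) (nat_lit 9) (nat_lit 5) (nat_lit 9) (nat_lit 4) (nat_lit 378) (nat_lit 278) (nat_lit 244)) (XT.lf (nat_lit 0) (nat_lit 3382236537) (nat_lit 152) (nat_lit 3540225372) (nat_lit 76) (nat_lit 46425013169) (nat_lit 7) (nat_lit 5) (nat_lit 9) (nat_lit 5) (nat_lit 8) (nat_lit 4) (nat_lit 379) (nat_lit 278) (nat_lit 243))))))))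
noncomputable def xc15 : XT := (XT.nd (nat_lit 44460) (nat_lit 0) (nat_lit 608) (XT.nd (nat_lit 858) (nat_lit 76) (nat_lit 0) (XT.nd (nat_lit 390) (nat_lit 152) (nat_lit 0) (XT.nd (nat_lit 156) (nat_lit 0) (nat_lit 0) (XT.nd (nat_lit 78) (nat_lit 0) (nat_lit 0) (XT.lf (nat_lit 0) (nat_lit 9105551299) (nat_lit 76) (nat_lit 560184897) (nat_lit 152) (nat_lit 46146216907) (nat_lit 6) (nat_lit 5) (nat_lit 7) (nat_lit 5) (nat_lit 8) (nat_lit 4) (nat_lit 380) (nat_lit 278) (nat_lit 242)) (XT.lf (nat_lit 0) (nat_lit 16273989419) (nat_lit 152) (nat_lit 36162434485) (nat_lit 0) (nat_lit 5962925641) (nat_lit 6) (nat_lit 5) (nat_lit 8) (nat_lit 4) (nat_lit 6) (nat_lit 4) (nat_lit 381) (nat_lit 278) (nat_lit 241))) (XT.nd (nat_lit 78) (nat_lit 0) (nat_lit 0) (XT.lf (nat_lit 0) (nat_lit 23137302806) (nat_lit 152) (nat_lit 25251473236) (nat_lit 0) (nat_lit 12729611648) (nat_lit 6) (nat_lit 5) (nat_lit 8)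 (nat_lit 4) (nat_lit 6) (nat_lit 4) (nat_lit 382) (nat_lit 278) (nat_lit 240)) (XT.nd (nat_lit 78) (nat_lit 0) (nat_lit 0) (XT.lf (nat_lit 0) (nat_lit 30266632740) (nat_lit 152) (nat_lit 13942154738) (nat_lit 0) (nat_lit 19766915507) (nat_lit 6) (nat_lit 5) (nat_lit 8) (nat_lit 4) (nat_lit 6) (nat_lit 4) (nat_lit 383) (nat_lit 278) (nat_lit 239)) (XT.lf (nat_lit 0) (nat_lit 37678953817) (nat_lit 152) (nat_lit 2207552043) (nat_lit 0) (nat_lit 27091592702) (nat_lit 6) (nat_lit 5) (nat_lit 8) (nat_lit 4) (nat_lit 6) (nat_lit 4) (nat_lit 384) (nat_lit 278) (nat_lit 238))))) (XT.nd (nat_lit 234) (nat_lit 76) (nat_lit 0) (XT.nd (nat_lit 78) (nat_lit 0) (nat_lit 0) (XT.lf (nat_lit 0) (nat_lit 10178901408) (nat_lit 76) (nat_lit 35310858838) (nat_lit 76) (nat_lit 24640027360) (nat_lit 5) (nat_lit 4) (nat_lit 6) (nat_lit 5) (nat_lit 6) (nat_lit 4) (nat_lit 385) (nat_lit 278) (nat_lit 237)) (XT.nd (nat_lit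 78) (nat_lit 0) (nat_lit 0) (XT.lf (nat_lit 0) (nat_lit 23101129405) (nat_lit 76) (nat_lit 30544811523) (nat_lit 76) (nat_lit 19794484460) (nat_lit 5) (nat_lit 4) (nat_lit 6) (nat_lit 5) (nat_lit 6) (nat_lit 4) (nat_lit 386) (nat_lit 278) (nat_lit 236)) (XT.lf (nat_lit 0) (nat_lit 36545964542) (nat_lit 76) (nat_lit 25599308129) (nat_lit 76) (nat_lit 14773270986) (nat_lit 5) (nat_lit 4) (nat_lit 6) (nat_lit 5) (nat_lit 6) (nat_lit 4) (nat_lit 387) (nat_lit 278) (nat_lit 235)))) (XT.nd (nat_lit 78) (nat_lit 76) (nat_lit 0) (XT.lf (nat_lit 0) (nat_lit 50545418332) (nat_lit 76) (nat_lit 20462573648) (nat_lit 76) (nat_lit 9564431667) (nat_lit 5) (nat_lit 4) (nat_lit 6) (nat_lit 5) (nat_lit 6) (nat_lit 4) (nat_lit 388) (nat_lit 278) (nat_lit 234)) (XT.nd (nat_lit 78) (nat_lit 76) (nat_lit 0) (XT.lf (nat_lit 0) (nat_lit 65132822807) (nat_lit 76) (nat_lit 15122377761) (nat_lit 76) (nat_lit 4155564506)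 (nat_lit 5) (nat_lit 4) (nat_lit 6) (nat_lit 5) (nat_lit 6) (nat_lit 4) (nat_lit 389) (nat_lit 278) (nat_lit 233)) (XT.lf (nat_lit 0) (nat_lit 1437597739) (nat_lit 152) (nat_lit 8113891058) (nat_lit 76) (nat_lit 78890795225) (nat_lit 4) (nat_lit 5) (nat_lit 6) (nat_lit 5) (nat_lit 5) (nat_lit 4) (nat_lit 390) (nat_lit 278) (nat_lit 232)))))) (XT.nd (nat_lit 43134) (nat_lit 0) (nat_lit 2432) (XT.nd (nat_lit 234) (nat_lit 0) (nat_lit 0) (XT.nd (nat_lit 78) (nat_lit 0) (nat_lit 0) (XT.lf (nat_lit 0) (nat_lit 3532671097) (nat_lit 76) (nat_lit 3672832566) (nat_lit 152) (nat_lit 85469217135) (nat_lit 3) (nat_lit 5) (nat_lit 4) (nat_lit 5) (nat_lit 5) (nat_lit 4) (nat_lit 391) (nat_lit 278) (nat_lit 231)) (XT.nd (nat_lit 78) (nat_lit 0) (nat_lit 0) (XT.lf (nat_lit 0) (nat_lit 13317600352) (nat_lit 152) (nat_lit 81310865146) (nat_lit 0) (nat_lit 2488646790) (nat_lit 3) (nat_lit 5) (nat_lit 5) (nat_lit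 4) (nat_lit 3) (nat_lit 4) (nat_lit 392) (nat_lit 278) (nat_lit 230)) (XT.lf (nat_lit 0) (nat_lit 19722290708) (nat_lit 152) (nat_lit 73221242763) (nat_lit 0) (nat_lit 8838486634) (nat_lit 3) (nat_lit 5) (nat_lit 5) (nat_lit 4) (nat_lit 3) (nat_lit 4) (nat_lit 393) (nat_lit 278) (nat_lit 229)))) (XT.nd (nat_lit 78) (nat_lit 0) (nat_lit 0) (XT.lf (nat_lit 0) (nat_lit 26399518481) (nat_lit 152) (nat_lit 64818616034) (nat_lit 0) (nat_lit 15463475824) (nat_lit 3) (nat_lit 5) (nat_lit 5) (nat_lit 4) (nat_lit 3) (nat_lit 4) (nat_lit 394) (nat_lit 278) (nat_lit 228)) (XT.nd (nat_lit 42744) (nat_lit 0) (nat_lit 3572) (XT.lf (nat_lit 0) (nat_lit 33365181832) (nat_lit 152) (nat_lit 56082978705) (nat_lit 0) (nat_lit 22379388144) (nat_lit 3) (nat_lit 5) (nat_lit 5) (nat_lit 4) (nat_lit 3) (nat_lit 4) (nat_lit 395) (nat_lit 278) (nat_lit 227)) (XT.lf (nat_lit 0) (nat_lit 1395907376) (nat_lit 152) (nat_lit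 2502714364) (nat_lit 152) (nat_lit 2502714364) (nat_lit 50) (nat_lit 4) (nat_lit 52) (nat_lit 5) (nat_lit 52) (nat_lit 4) (nat_lit 342) (nat_lit 279) (nat_lit 279))))) (XT.nd (nat_lit 234) (nat_lit 532) (nat_lit 0) (XT.nd (nat_lit 78) (nat_lit 380) (nat_lit 0) (XT.lf (nat_lit 0) (nat_lit 2483054999) (nat_lit 228) (nat_lit 9073287835) (nat_lit 0) (nat_lit 1628966176) (nat_lit 47) (nat_lit 5) (nat_lit 50) (nat_lit 4) (nat_lit 47) (nat_lit 4) (nat_lit 343) (nat_lit 279) (nat_lit 278)) (XT.nd (nat_lit 78) (nat_lit 228) (nat_lit 0) (XT.lf (nat_lit 0) (nat_lit 5091474434) (nat_lit 152) (nat_lit 5081895293) (nat_lit 152) (nat_lit 3414388545) (nat_lit 45) (nat_lit 4) (nat_lit 47) (nat_lit 5) (nat_lit 47) (nat_lit 4) (nat_lit 344) (nat_lit 279) (nat_lit 277)) (XT.lf (nat_lit 0) (nat_lit 4053634592) (nat_lit 228) (nat_lit 8276031626) (nat_lit 0) (nat_lit 1682575867) (nat_lit 42) (nat_lit 5) (nat_lit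 45) (nat_lit 4) (nat_lit 42) (nat_lit 4) (nat_lit 345) (nat_lit 279) (nat_lit 276)))) (XT.nd (nat_lit 78) (nat_lit 380) (nat_lit 0) (XT.lf (nat_lit 0) (nat_lit 5975863277) (nat_lit 152) (nat_lit 5785210590) (nat_lit 152) (nat_lit 2697846974) (nat_lit 40) (nat_lit 4) (nat_lit 42) (nat_lit 5) (nat_lit 42) (nat_lit 4) (nat_lit 346) (nat_lit 279) (nat_lit 275)) (XT.nd (nat_lit 78) (nat_lit 152) (nat_lit 0) (XT.lf (nat_lit 0) (nat_lit 4726615274) (nat_lit 228) (nat_lit 9136222130) (nat_lit 0) (nat_lit 1066849497) (nat_lit 37) (nat_lit 5) (nat_lit 40) (nat_lit 4) (nat_lit 37) (nat_lit 4) (nat_lit 347) (nat_lit 279) (nat_lit 274)) (XT.lf (nat_lit 0) (nat_lit 5111393587) (nat_lit 152) (nat_lit 7302007555) (nat_lit 152) (nat_lit 3011455709) (nat_lit 35) (nat_lit 4) (nat_lit 37) (nat_lit 5) (nat_lit 37) (nat_lit 4) (nat_lit 348) (nat_lit 279) (nat_lit 273))))))) (XT.nd (nat_lit 858) (nat_lit 608) (nat_lit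 0) (XT.nd (nat_lit 390) (nat_lit 608) (nat_lit 0) (XT.nd (nat_lit 156) (nat_lit 304) (nat_lit 0) (XT.nd (nat_lit 78) (nat_lit 152) (nat_lit 0) (XT.lf (nat_lit 0) (nat_lit 3918396233) (nat_lit 76) (nat_lit 421355843) (nat_lit 152) (nat_lit 11607134379) (nat_lit 33) (nat_lit 5) (nat_lit 34) (nat_lit 5) (nat_lit 35) (nat_lit 4) (nat_lit 349) (nat_lit 279) (nat_lit 272)) (XT.lf (nat_lit 0) (nat_lit 2102940946) (nat_lit 152) (nat_lit 9848452561) (nat_lit 152) (nat_lit 4544139899) (nat_lit 31) (nat_lit 4) (nat_lit 33) (nat_lit 5) (nat_lit 33) (nat_lit 4) (nat_lit 350) (nat_lit 279) (nat_lit 271))) (XT.nd (nat_lit 78) (nat_lit 228) (nat_lit 0) (XT.lf (nat_lit 0) (nat_lit 2712020579) (nat_lit 228) (nat_lit 327936831) (nat_lit 76) (nat_lit 14034005390) (nat_lit 30) (nat_lit 5) (nat_lit 33) (nat_lit 5) (nat_lit 31) (nat_lit 4) (nat_lit 351) (nat_lit 279) (nat_lit 270)) (XT.nd (nat_lit 78) (nat_lit 152)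 (nat_lit 0) (XT.lf (nat_lit 0) (nat_lit 10192558960) (nat_lit 152) (nat_lit 3448831742) (nat_lit 0) (nat_lit 4039963969) (nat_lit 29) (nat_lit 5) (nat_lit 31) (nat_lit 4) (nat_lit 29) (nat_lit 4) (nat_lit 352) (nat_lit 279) (nat_lit 269)) (XT.lf (nat_lit 0) (nat_lit 11000078024) (nat_lit 152) (nat_lit 6969933570) (nat_lit 152) (nat_lit 351472436) (nat_lit 27) (nat_lit 4) (nat_lit 29) (nat_lit 5) (nat_lit 29) (nat_lit 4) (nat_lit 353) (nat_lit 279) (nat_lit 268))))) (XT.nd (nat_lit 234) (nat_lit 228) (nat_lit 0) (XT.nd (nat_lit 78) (nat_lit 228) (nat_lit 0) (XT.lf (nat_lit 0) (nat_lit 6893773249) (nat_lit 152) (nat_lit 12063800553) (nat_lit 0) (nat_lit 37323566) (nat_lit 25) (nat_lit 5) (nat_lit 27) (nat_lit 4) (nat_lit 25) (nat_lit 4) (nat_lit 354) (nat_lit 279) (nat_lit 267)) (XT.nd (nat_lit 78) (nat_lit 76) (nat_lit 0) (XT.lf (nat_lit 0) (nat_lit 1933315626) (nat_lit 152) (nat_lit 12518289091)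 (nat_lit 152) (nat_lit 5251592490) (nat_lit 23) (nat_lit 4) (nat_lit 25) (nat_lit 5) (nat_lit 25) (nat_lit 4) (nat_lit 355) (nat_lit 279) (nat_lit 266)) (XT.lf (nat_lit 0) (nat_lit 1824748850) (nat_lit 228) (nat_lit 3953167783) (nat_lit 76) (nat_lit 14670814292) (nat_lit 22) (nat_lit 5) (nat_lit 25) (nat_lit 5) (nat_lit 23) (nat_lit 4) (nat_lit 356) (nat_lit 279) (nat_lit 265)))) (XT.nd (nat_lit 78) (nat_lit 152) (nat_lit 0) (XT.lf (nat_lit 0) (nat_lit 9065693040) (nat_lit 152) (nat_lit 10896700397) (nat_lit 0) (nat_lit 1270048383) (nat_lit 21) (nat_lit 5) (nat_lit 23) (nat_lit 4) (nat_lit 21) (nat_lit 4) (nat_lit 357) (nat_lit 279) (nat_lit 264)) (XT.nd (nat_lit 78) (nat_lit 76) (nat_lit 0) (XT.lf (nat_lit 0) (nat_lit 3019040281) (nat_lit 76) (nat_lit 13588934479) (nat_lit 76) (nat_lit 5449225054) (nat_lit 20) (nat_lit 4) (nat_lit 21) (nat_lit 5) (nat_lit 21) (nat_lit 4) (nat_lit 358) (nat_lit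 279) (nat_lit 263)) (XT.lf (nat_lit 0) (nat_lit 1500905761) (nat_lit 152) (nat_lit 5420551460) (nat_lit 76) (nat_lit 16003472081) (nat_lit 19) (nat_lit 5) (nat_lit 21) (nat_lit 5) (nat_lit 20) (nat_lit 4) (nat_lit 359) (nat_lit 279) (nat_lit 262)))))) (XT.nd (nat_lit 468) (nat_lit 304) (nat_lit 0) (XT.nd (nat_lit 234) (nat_lit 152) (nat_lit 0) (XT.nd (nat_lit 78) (nat_lit 76) (nat_lit 0) (XT.lf (nat_lit 0) (nat_lit 8594460302) (nat_lit 152) (nat_lit 15172037480) (nat_lit 0) (nat_lit 70705890) (nat_lit 18) (nat_lit 5) (nat_lit 20) (nat_lit 4) (nat_lit 18) (nat_lit 4) (nat_lit 360) (nat_lit 279) (nat_lit 261)) (XT.nd (nat_lit 78) (nat_lit 76) (nat_lit 0) (XT.lf (nat_lit 0) (nat_lit 15996432729) (nat_lit 152) (nat_lit 1615961581) (nat_lit 0) (nat_lit 7184119013) (nat_lit 18) (nat_lit 5) (nat_lit 20) (nat_lit 4) (nat_lit 18) (nat_lit 4) (nat_lit 361) (nat_lit 279) (nat_lit 260)) (XT.lf (nat_lit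 0) (nat_lit 12557653924) (nat_lit 76) (nat_lit 11167302605) (nat_lit 76) (nat_lit 2080170504) (nat_lit 17) (nat_lit 4) (nat_lit 18) (nat_lit 5) (nat_lit 18) (nat_lit 4) (nat_lit 362) (nat_lit 279) (nat_lit 259)))) (XT.nd (nat_lit 78) (nat_lit 0) (nat_lit 0) (XT.lf (nat_lit 0) (nat_lit 267482216) (nat_lit 76) (nat_lit 4469634095) (nat_lit 152) (nat_lit 22129895688) (nat_lit 15) (nat_lit 5) (nat_lit 16) (nat_lit 5) (nat_lit 17) (nat_lit 4) (nat_lit 363) (nat_lit 279) (nat_lit 258)) (XT.nd (nat_lit 78) (nat_lit 0) (nat_lit 0) (XT.lf (nat_lit 0) (nat_lit 11857672030) (nat_lit 152) (nat_lit 13584469851) (nat_lit 0) (nat_lit 2539097008) (nat_lit 15) (nat_lit 5) (nat_lit 17) (nat_lit 4) (nat_lit 15) (nat_lit 4) (nat_lit 364) (nat_lit 279) (nat_lit 257)) (XT.lf (nat_lit 0) (nat_lit 19229528799) (nat_lit 152) (nat_lit 244347256) (nat_lit 0) (nat_lit 9680469841) (nat_lit 15) (nat_lit 5) (nat_lit 17)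 (nat_lit 4) (nat_lit 15) (nat_lit 4) (nat_lit 365) (nat_lit 279) (nat_lit 256))))) (XT.nd (nat_lit 234) (nat_lit 76) (nat_lit 0) (XT.nd (nat_lit 78) (nat_lit 152) (nat_lit 0) (XT.lf (nat_lit 0) (nat_lit 13764153259) (nat_lit 76) (nat_lit 13195430002) (nat_lit 76) (nat_lit 3426862534) (nat_lit 14) (nat_lit 4) (nat_lit 15) (nat_lit 5) (nat_lit 15) (nat_lit 4) (nat_lit 366) (nat_lit 279) (nat_lit 255)) (XT.nd (nat_lit 78) (nat_lit 76) (nat_lit 0) (XT.lf (nat_lit 0) (nat_lit 3192463518) (nat_lit 152) (nat_lit 3496922248) (nat_lit 76) (nat_lit 24993927090) (nat_lit 13) (nat_lit 5) (nat_lit 15) (nat_lit 5) (nat_lit 14) (nat_lit 4) (nat_lit 367) (nat_lit 279) (nat_lit 254)) (XT.lf (nat_lit 0) (nat_lit 10038997979) (nat_lit 152) (nat_lit 22847333056) (nat_lit 0) (nat_lit 158683531) (nat_lit 12) (nat_lit 5) (nat_lit 14) (nat_lit 4) (nat_lit 12) (nat_lit 4) (nat_lit 368) (nat_lit 279) (nat_lit 253))))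 (XT.nd (nat_lit 78) (nat_lit 76) (nat_lit 0) (XT.lf (nat_lit 0) (nat_lit 17201504770) (nat_lit 152) (nat_lit 10137015242) (nat_lit 0) (nat_lit 7137093522) (nat_lit 12) (nat_lit 5) (nat_lit 14) (nat_lit 4) (nat_lit 12) (nat_lit 4) (nat_lit 369) (nat_lit 279) (nat_lit 252)) (XT.nd (nat_lit 78) (nat_lit 0) (nat_lit 0) (XT.lf (nat_lit 0) (nat_lit 3034207098) (nat_lit 76) (nat_lit 21593071576) (nat_lit 76) (nat_lit 11353330042) (nat_lit 11) (nat_lit 4) (nat_lit 12) (nat_lit 5) (nat_lit 12) (nat_lit 4) (nat_lit 370) (nat_lit 279) (nat_lit 251)) (XT.lf (nat_lit 0) (nat_lit 16848707081) (nat_lit 76) (nat_lit 15559683694) (nat_lit 76) (nat_lit 5152960936) (nat_lit 11) (nat_lit 4) (nat_lit 12) (nat_lit 5) (nat_lit 12) (nat_lit 4) (nat_lit 371) (nat_lit 279) (nat_lit 250))))))))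
noncomputable def xc16 : XT := (XT.nd (nat_lit 1716) (nat_lit 0) (nat_lit 0) (XT.nd (nat_lit 858) (nat_lit 228) (nat_lit 0) (XT.nd (nat_lit 390) (nat_lit 152) (nat_lit 0) (XT.nd (nat_lit 156) (nat_lit 76) (nat_lit 0) (XT.nd (nat_lit 78) (nat_lit 76) (nat_lit 0) (XT.lf (nat_lit 0) (nat_lit 1215212252) (nat_lit 152) (nat_lit 8098871622) (nat_lit 76) (nat_lit 29910146379) (nat_lit 10) (nat_lit 5) (nat_lit 12) (nat_lit 5) (nat_lit 11) (nat_lit 4) (nat_lit 372) (nat_lit 279) (nat_lit 249)) (XT.lf (nat_lit 0) (nat_lit 4982595563) (nat_lit 76) (nat_lit 2751298501) (nat_lit 152) (nat_lit 33236685150) (nat_lit 9) (nat_lit 5) (nat_lit 10) (nat_lit 5) (nat_lit 11) (nat_lit 4) (nat_lit 373) (nat_lit 279) (nat_lit 248))) (XT.nd (nat_lit 78) (nat_lit 76) (nat_lit 0) (XT.lf (nat_lit 0) (nat_lit 14594671303) (nat_lit 152) (nat_lit 24159535584) (nat_lit 0) (nat_lit 4049570285) (nat_lit 9) (nat_lit 5) (nat_lit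 11) (nat_lit 4) (nat_lit 9) (nat_lit 4) (nat_lit 374) (nat_lit 279) (nat_lit 247)) (XT.nd (nat_lit 78) (nat_lit 76) (nat_lit 0) (XT.lf (nat_lit 0) (nat_lit 21723564094) (nat_lit 152) (nat_lit 11962245793) (nat_lit 0) (nat_lit 11045088447) (nat_lit 9) (nat_lit 5) (nat_lit 11) (nat_lit 4) (nat_lit 9) (nat_lit 4) (nat_lit 375) (nat_lit 279) (nat_lit 246)) (XT.lf (nat_lit 0) (nat_lit 672496888) (nat_lit 76) (nat_lit 28445066389) (nat_lit 76) (nat_lit 17639567287) (nat_lit 8) (nat_lit 4) (nat_lit 9) (nat_lit 5) (nat_lit 9) (nat_lit 4) (nat_lit 376) (nat_lit 279) (nat_lit 245))))) (XT.nd (nat_lit 234) (nat_lit 152) (nat_lit 0) (XT.nd (nat_lit 78) (nat_lit 0) (nat_lit 0) (XT.lf (nat_lit 0) (nat_lit 14008736330) (nat_lit 76) (nat_lit 22900789083) (nat_lit 76) (nat_lit 11974315262) (nat_lit 8) (nat_lit 4) (nat_lit 9) (nat_lit 5) (nat_lit 9) (nat_lit 4) (nat_lit 377) (nat_lit 279) (nat_lit 244)) (XT.nd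 (nat_lit 78) (nat_lit 0) (nat_lit 0) (XT.lf (nat_lit 0) (nat_lit 27840153336) (nat_lit 76) (nat_lit 17160572534) (nat_lit 76) (nat_lit 6118884695) (nat_lit 8) (nat_lit 4) (nat_lit 9) (nat_lit 5) (nat_lit 9) (nat_lit 4) (nat_lit 378) (nat_lit 279) (nat_lit 243)) (XT.lf (nat_lit 0) (nat_lit 42199679851) (nat_lit 76) (nat_lit 11210749561) (nat_lit 76) (nat_lit 59334086) (nat_lit 8) (nat_lit 4) (nat_lit 9) (nat_lit 5) (nat_lit 9) (nat_lit 4) (nat_lit 379) (nat_lit 279) (nat_lit 242)))) (XT.nd (nat_lit 78) (nat_lit 0) (nat_lit 0) (XT.lf (nat_lit 0) (nat_lit 1144158230) (nat_lit 76) (nat_lit 4964253699) (nat_lit 152) (nat_lit 49829359841) (nat_lit 6) (nat_lit 5) (nat_lit 7) (nat_lit 5) (nat_lit 8) (nat_lit 4) (nat_lit 380) (nat_lit 279) (nat_lit 241)) (XT.nd (nat_lit 78) (nat_lit 0) (nat_lit 0) (XT.lf (nat_lit 0) (nat_lit 12634815144) (nat_lit 152) (nat_lit 44282702034) (nat_lit 0) (nat_lit 1610112049)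 (nat_lit 6) (nat_lit 5) (nat_lit 8) (nat_lit 4) (nat_lit 6) (nat_lit 4) (nat_lit 381) (nat_lit 279) (nat_lit 240)) (XT.lf (nat_lit 0) (nat_lit 19460494813) (nat_lit 152) (nat_lit 33443541182) (nat_lit 0) (nat_lit 8343765642) (nat_lit 6) (nat_lit 5) (nat_lit 8) (nat_lit 4) (nat_lit 6) (nat_lit 4) (nat_lit 382) (nat_lit 279) (nat_lit 239)))))) (XT.nd (nat_lit 390) (nat_lit 152) (nat_lit 0) (XT.nd (nat_lit 156) (nat_lit 76) (nat_lit 0) (XT.nd (nat_lit 78) (nat_lit 0) (nat_lit 0) (XT.lf (nat_lit 0) (nat_lit 26553983111) (nat_lit 152) (nat_lit 22202604015) (nat_lit 0) (nat_lit 15349610059) (nat_lit 6) (nat_lit 5) (nat_lit 8) (nat_lit 4) (nat_lit 6) (nat_lit 4) (nat_lit 383) (nat_lit 279) (nat_lit 238)) (XT.lf (nat_lit 0) (nat_lit 33932169296) (nat_lit 152) (nat_lit 10533126396) (nat_lit 0) (nat_lit 22644325881) (nat_lit 6) (nat_lit 5) (nat_lit 8) (nat_lit 4) (nat_lit 6) (nat_lit 4) (nat_lit 384)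 (nat_lit 279) (nat_lit 237))) (XT.nd (nat_lit 78) (nat_lit 0) (nat_lit 0) (XT.lf (nat_lit 0) (nat_lit 1624373521) (nat_lit 76) (nat_lit 40003861429) (nat_lit 76) (nat_lit 28636522429) (nat_lit 5) (nat_lit 4) (nat_lit 6) (nat_lit 5) (nat_lit 6) (nat_lit 4) (nat_lit 385) (nat_lit 279) (nat_lit 236)) (XT.nd (nat_lit 78) (nat_lit 0) (nat_lit 0) (XT.lf (nat_lit 0) (nat_lit 14486355538) (nat_lit 76) (nat_lit 35266519619) (nat_lit 76) (nat_lit 23823470539) (nat_lit 5) (nat_lit 4) (nat_lit 6) (nat_lit 5) (nat_lit 6) (nat_lit 4) (nat_lit 386) (nat_lit 279) (nat_lit 235)) (XT.lf (nat_lit 0) (nat_lit 27873813551) (nat_lit 76) (nat_lit 30348354802) (nat_lit 76) (nat_lit 18833200884) (nat_lit 5) (nat_lit 4) (nat_lit 6) (nat_lit 5) (nat_lit 6) (nat_lit 4) (nat_lit 387) (nat_lit 279) (nat_lit 234))))) (XT.nd (nat_lit 234) (nat_lit 152) (nat_lit 0) (XT.nd (nat_lit 78) (nat_lit 0) (nat_lit 0) (XT.lf (nat_lit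 0) (nat_lit 41818622461) (nat_lit 76) (nat_lit 25237657062) (nat_lit 76) (nat_lit 13653831869) (nat_lit 5) (nat_lit 4) (nat_lit 6) (nat_lit 5) (nat_lit 6) (nat_lit 4) (nat_lit 388) (nat_lit 279) (nat_lit 233)) (XT.nd (nat_lit 78) (nat_lit 0) (nat_lit 0) (XT.lf (nat_lit 0) (nat_lit 56353984192) (nat_lit 76) (nat_lit 19922258071) (nat_lit 76) (nat_lit 8273031664) (nat_lit 5) (nat_lit 4) (nat_lit 6) (nat_lit 5) (nat_lit 6) (nat_lit 4) (nat_lit 389) (nat_lit 279) (nat_lit 232)) (XT.lf (nat_lit 0) (nat_lit 71514506751) (nat_lit 76) (nat_lit 14389502116) (nat_lit 76) (nat_lit 2677988839) (nat_lit 5) (nat_lit 4) (nat_lit 6) (nat_lit 5) (nat_lit 6) (nat_lit 4) (nat_lit 390) (nat_lit 279) (nat_lit 231)))) (XT.nd (nat_lit 78) (nat_lit 76) (nat_lit 0) (XT.lf (nat_lit 0) (nat_lit 3083255309) (nat_lit 152) (nat_lit 5511825828) (nat_lit 76) (nat_lit 84221896476) (nat_lit 4) (nat_lit 5) (nat_lit 6) (nat_lit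 5) (nat_lit 5) (nat_lit 4) (nat_lit 391) (nat_lit 279) (nat_lit 230)) (XT.nd (nat_lit 78) (nat_lit 0) (nat_lit 0) (XT.lf (nat_lit 0) (nat_lit 6630847605) (nat_lit 76) (nat_lit 2461850788) (nat_lit 152) (nat_lit 88169753449) (nat_lit 3) (nat_lit 5) (nat_lit 4) (nat_lit 5) (nat_lit 5) (nat_lit 4) (nat_lit 392) (nat_lit 279) (nat_lit 229)) (XT.lf (nat_lit 0) (nat_lit 15450457055) (nat_lit 152) (nat_lit 82562939854) (nat_lit 0) (nat_lit 3915373682) (nat_lit 3) (nat_lit 5) (nat_lit 5) (nat_lit 4) (nat_lit 3) (nat_lit 4) (nat_lit 393) (nat_lit 279) (nat_lit 228))))))) (XT.nd (nat_lit 43368) (nat_lit 0) (nat_lit 1140) (XT.nd (nat_lit 42900) (nat_lit 0) (nat_lit 2432) (XT.nd (nat_lit 42666) (nat_lit 0) (nat_lit 3572) (XT.nd (nat_lit 78) (nat_lit 0) (nat_lit 0) (XT.lf (nat_lit 0) (nat_lit 22105525896) (nat_lit 152) (nat_lit 74202811045) (nat_lit 0) (nat_lit 10520691492) (nat_lit 3) (nat_lit 5) (nat_lit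 5) (nat_lit 4) (nat_lit 3) (nat_lit 4) (nat_lit 394) (nat_lit 279) (nat_lit 227)) (XT.lf (nat_lit 0) (nat_lit 29050085503) (nat_lit 152) (nat_lit 65507647926) (nat_lit 0) (nat_lit 17417869164) (nat_lit 3) (nat_lit 5) (nat_lit 5) (nat_lit 4) (nat_lit 3) (nat_lit 4) (nat_lit 395) (nat_lit 279) (nat_lit 226))) (XT.nd (nat_lit 78) (nat_lit 608) (nat_lit 0) (XT.lf (nat_lit 0) (nat_lit 2921452447) (nat_lit 228) (nat_lit 203018395) (nat_lit 0) (nat_lit 2921452447) (nat_lit 58) (nat_lit 5) (nat_lit 61) (nat_lit 4) (nat_lit 58) (nat_lit 4) (nat_lit 340) (nat_lit 280) (nat_lit 280)) (XT.nd (nat_lit 78) (nat_lit 152) (nat_lit 0) (XT.lf (nat_lit 0) (nat_lit 1074794401) (nat_lit 228) (nat_lit 11214829401) (nat_lit 0) (nat_lit 151097340) (nat_lit 52) (nat_lit 5) (nat_lit 55) (nat_lit 4) (nat_lit 52) (nat_lit 4) (nat_lit 341) (nat_lit 280) (nat_lit 279)) (XT.lf (nat_lit 0) (nat_lit 2560718069) (nat_lit 152)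 (nat_lit 6024738708) (nat_lit 152) (nat_lit 4221330160) (nat_lit 50) (nat_lit 4) (nat_lit 52) (nat_lit 5) (nat_lit 52) (nat_lit 4) (nat_lit 342) (nat_lit 280) (nat_lit 278))))) (XT.nd (nat_lit 234) (nat_lit 532) (nat_lit 0) (XT.nd (nat_lit 78) (nat_lit 380) (nat_lit 0) (XT.lf (nat_lit 0) (nat_lit 3106276075) (nat_lit 228) (nat_lit 9545359222) (nat_lit 0) (nat_lit 541976063) (nat_lit 47) (nat_lit 5) (nat_lit 50) (nat_lit 4) (nat_lit 47) (nat_lit 4) (nat_lit 343) (nat_lit 280) (nat_lit 277)) (XT.nd (nat_lit 78) (nat_lit 228) (nat_lit 0) (XT.lf (nat_lit 0) (nat_lit 4386330068) (nat_lit 152) (nat_lit 6276387364) (nat_lit 152) (nat_lit 2937403613) (nat_lit 45) (nat_lit 4) (nat_lit 47) (nat_lit 5) (nat_lit 47) (nat_lit 4) (nat_lit 344) (nat_lit 280) (nat_lit 276)) (XT.lf (nat_lit 0) (nat_lit 4375364241) (nat_lit 228) (nat_lit 9236194828) (nat_lit 0) (nat_lit 417327553) (nat_lit 42) (nat_lit 5) (nat_lit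 45) (nat_lit 4) (nat_lit 42) (nat_lit 4) (nat_lit 345) (nat_lit 280) (nat_lit 275)))) (XT.nd (nat_lit 78) (nat_lit 380) (nat_lit 0) (XT.lf (nat_lit 0) (nat_lit 4780207356) (nat_lit 152) (nat_lit 7169806241) (nat_lit 152) (nat_lit 2529574420) (nat_lit 40) (nat_lit 4) (nat_lit 42) (nat_lit 5) (nat_lit 42) (nat_lit 4) (nat_lit 346) (nat_lit 280) (nat_lit 274)) (XT.nd (nat_lit 78) (nat_lit 152) (nat_lit 0) (XT.lf (nat_lit 0) (nat_lit 4349430693) (nat_lit 152) (nat_lit 399028501) (nat_lit 228) (nat_lit 10206176714) (nat_lit 37) (nat_lit 5) (nat_lit 39) (nat_lit 5) (nat_lit 40) (nat_lit 4) (nat_lit 347) (nat_lit 280) (nat_lit 273)) (XT.lf (nat_lit 0) (nat_lit 3407859106) (nat_lit 152) (nat_lit 8891338310) (nat_lit 152) (nat_lit 3154724165) (nat_lit 35) (nat_lit 4) (nat_lit 37) (nat_lit 5) (nat_lit 37) (nat_lit 4) (nat_lit 348) (nat_lit 280) (nat_lit 272)))))) (XT.nd (nat_lit 468) (nat_lit 532) (nat_lit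 0) (XT.nd (nat_lit 234) (nat_lit 380) (nat_lit 0) (XT.nd (nat_lit 78) (nat_lit 228) (nat_lit 0) (XT.lf (nat_lit 0) (nat_lit 1947155456) (nat_lit 76) (nat_lit 2119795854) (nat_lit 152) (nat_lit 11913042738) (nat_lit 33) (nat_lit 5) (nat_lit 34) (nat_lit 5) (nat_lit 35) (nat_lit 4) (nat_lit 349) (nat_lit 280) (nat_lit 271)) (XT.nd (nat_lit 78) (nat_lit 228) (nat_lit 0) (XT.lf (nat_lit 0) (nat_lit 11531363568) (nat_lit 152) (nat_lit 124392418) (nat_lit 0) (nat_lit 4877332085) (nat_lit 33) (nat_lit 5) (nat_lit 35) (nat_lit 4) (nat_lit 33) (nat_lit 4) (nat_lit 350) (nat_lit 280) (nat_lit 270)) (XT.lf (nat_lit 0) (nat_lit 2153774797) (nat_lit 228) (nat_lit 2785702876) (nat_lit 76) (nat_lit 12175487382) (nat_lit 30) (nat_lit 5) (nat_lit 33) (nat_lit 5) (nat_lit 31) (nat_lit 4) (nat_lit 351) (nat_lit 280) (nat_lit 269)))) (XT.nd (nat_lit 78) (nat_lit 304) (nat_lit 0) (XT.lf (nat_lit 0) (nat_lit 9485892966)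 (nat_lit 152) (nat_lit 6170300526) (nat_lit 0) (nat_lit 2070642633) (nat_lit 29) (nat_lit 5) (nat_lit 31) (nat_lit 4) (nat_lit 29) (nat_lit 4) (nat_lit 352) (nat_lit 280) (nat_lit 268)) (XT.nd (nat_lit 78) (nat_lit 152) (nat_lit 0) (XT.lf (nat_lit 0) (nat_lit 8038376566) (nat_lit 152) (nat_lit 9095712162) (nat_lit 152) (nat_lit 1236779788) (nat_lit 27) (nat_lit 4) (nat_lit 29) (nat_lit 5) (nat_lit 29) (nat_lit 4) (nat_lit 353) (nat_lit 280) (nat_lit 267)) (XT.lf (nat_lit 0) (nat_lit 3686377352) (nat_lit 76) (nat_lit 2209122179) (nat_lit 152) (nat_lit 13152968302) (nat_lit 25) (nat_lit 5) (nat_lit 26) (nat_lit 5) (nat_lit 27) (nat_lit 4) (nat_lit 354) (nat_lit 280) (nat_lit 266))))) (XT.nd (nat_lit 234) (nat_lit 228) (nat_lit 0) (XT.nd (nat_lit 78) (nat_lit 304) (nat_lit 0) (XT.lf (nat_lit 0) (nat_lit 13317101526) (nat_lit 152) (nat_lit 1557663504) (nat_lit 0) (nat_lit 4886111829) (nat_lit 25)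 (nat_lit 5) (nat_lit 27) (nat_lit 4) (nat_lit 25) (nat_lit 4) (nat_lit 355) (nat_lit 280) (nat_lit 265)) (XT.nd (nat_lit 78) (nat_lit 76) (nat_lit 0) (XT.lf (nat_lit 0) (nat_lit 545997101) (nat_lit 228) (nat_lit 7694721626) (nat_lit 76) (nat_lit 12269351251) (nat_lit 22) (nat_lit 5) (nat_lit 25) (nat_lit 5) (nat_lit 23) (nat_lit 4) (nat_lit 356) (nat_lit 280) (nat_lit 264)) (XT.lf (nat_lit 0) (nat_lit 6364461139) (nat_lit 76) (nat_lit 1281816493) (nat_lit 152) (nat_lit 13651742793) (nat_lit 21) (nat_lit 5) (nat_lit 22) (nat_lit 5) (nat_lit 23) (nat_lit 4) (nat_lit 357) (nat_lit 280) (nat_lit 263)))) (XT.nd (nat_lit 78) (nat_lit 228) (nat_lit 0) (XT.lf (nat_lit 0) (nat_lit 15059344299) (nat_lit 152) (nat_lit 1226425373) (nat_lit 0) (nat_lit 5840903902) (nat_lit 21) (nat_lit 5) (nat_lit 23) (nat_lit 4) (nat_lit 21) (nat_lit 4) (nat_lit 358) (nat_lit 280) (nat_lit 262)) (XT.nd (nat_lit 78) (nat_lit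 152) (nat_lit 0) (XT.lf (nat_lit 0) (nat_lit 13092288260) (nat_lit 76) (nat_lit 9718004043) (nat_lit 76) (nat_lit 187486758) (nat_lit 20) (nat_lit 4) (nat_lit 21) (nat_lit 5) (nat_lit 21) (nat_lit 4) (nat_lit 359) (nat_lit 280) (nat_lit 261)) (XT.lf (nat_lit 0) (nat_lit 3938978527) (nat_lit 76) (nat_lit 2842652947) (nat_lit 152) (nat_lit 17132335341) (nat_lit 18) (nat_lit 5) (nat_lit 19) (nat_lit 5) (nat_lit 20) (nat_lit 4) (nat_lit 360) (nat_lit 280) (nat_lit 260))))))))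
noncomputable def xc17 : XT := (XT.nd (nat_lit 1794) (nat_lit 228) (nat_lit 0) (XT.nd (nat_lit 858) (nat_lit 380) (nat_lit 0) (XT.nd (nat_lit 390) (nat_lit 304) (nat_lit 0) (XT.nd (nat_lit 156) (nat_lit 152) (nat_lit 0) (XT.nd (nat_lit 78) (nat_lit 76) (nat_lit 0) (XT.lf (nat_lit 0) (nat_lit 14076152193) (nat_lit 152) (nat_lit 6540518411) (nat_lit 0) (nat_lit 4259845102) (nat_lit 18) (nat_lit 5) (nat_lit 20) (nat_lit 4) (nat_lit 18) (nat_lit 4) (nat_lit 361) (nat_lit 280) (nat_lit 259)) (XT.lf (nat_lit 0) (nat_lit 7390426505) (nat_lit 76) (nat_lit 14288268089) (nat_lit 76) (nat_lit 4210229203) (nat_lit 17) (nat_lit 4) (nat_lit 18) (nat_lit 5) (nat_lit 18) (nat_lit 4) (nat_lit 362) (nat_lit 280) (nat_lit 258))) (XT.nd (nat_lit 78) (nat_lit 76) (nat_lit 0) (XT.lf (nat_lit 0) (nat_lit 2571303528) (nat_lit 152) (nat_lit 5107561100) (nat_lit 76) (nat_lit 19274891788) (nat_lit 16) (nat_lit 5) (nat_lit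 18) (nat_lit 5) (nat_lit 17) (nat_lit 4) (nat_lit 363) (nat_lit 280) (nat_lit 257)) (XT.nd (nat_lit 78) (nat_lit 0) (nat_lit 0) (XT.lf (nat_lit 0) (nat_lit 8810432413) (nat_lit 76) (nat_lit 733970606) (nat_lit 152) (nat_lit 18528017131) (nat_lit 15) (nat_lit 5) (nat_lit 16) (nat_lit 5) (nat_lit 17) (nat_lit 4) (nat_lit 364) (nat_lit 280) (nat_lit 256)) (XT.lf (nat_lit 0) (nat_lit 16839592410) (nat_lit 152) (nat_lit 6045159238) (nat_lit 0) (nat_lit 6363088059) (nat_lit 15) (nat_lit 5) (nat_lit 17) (nat_lit 4) (nat_lit 15) (nat_lit 4) (nat_lit 365) (nat_lit 280) (nat_lit 255))))) (XT.nd (nat_lit 234) (nat_lit 76) (nat_lit 0) (XT.nd (nat_lit 78) (nat_lit 152) (nat_lit 0) (XT.lf (nat_lit 0) (nat_lit 7721280715) (nat_lit 76) (nat_lit 16723981224) (nat_lit 76) (nat_lit 6038421149) (nat_lit 14) (nat_lit 4) (nat_lit 15) (nat_lit 5) (nat_lit 15) (nat_lit 4) (nat_lit 366) (nat_lit 280) (nat_lit 254))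 (XT.nd (nat_lit 78) (nat_lit 76) (nat_lit 0) (XT.lf (nat_lit 0) (nat_lit 566918784) (nat_lit 152) (nat_lit 9733815631) (nat_lit 76) (nat_lit 21482528297) (nat_lit 13) (nat_lit 5) (nat_lit 15) (nat_lit 5) (nat_lit 14) (nat_lit 4) (nat_lit 367) (nat_lit 280) (nat_lit 253)) (XT.lf (nat_lit 0) (nat_lit 3719870547) (nat_lit 76) (nat_lit 3567888573) (nat_lit 152) (nat_lit 25860986633) (nat_lit 12) (nat_lit 5) (nat_lit 13) (nat_lit 5) (nat_lit 14) (nat_lit 4) (nat_lit 368) (nat_lit 280) (nat_lit 252)))) (XT.nd (nat_lit 78) (nat_lit 76) (nat_lit 0) (XT.lf (nat_lit 0) (nat_lit 14355469242) (nat_lit 152) (nat_lit 16798319042) (nat_lit 0) (nat_lit 3428410346) (nat_lit 12) (nat_lit 5) (nat_lit 14) (nat_lit 4) (nat_lit 12) (nat_lit 4) (nat_lit 369) (nat_lit 280) (nat_lit 251)) (XT.nd (nat_lit 78) (nat_lit 76) (nat_lit 0) (XT.lf (nat_lit 0) (nat_lit 21694457499) (nat_lit 152) (nat_lit 3794932036) (nat_lit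 0) (nat_lit 10600417378) (nat_lit 12) (nat_lit 5) (nat_lit 14) (nat_lit 4) (nat_lit 12) (nat_lit 4) (nat_lit 370) (nat_lit 280) (nat_lit 250)) (XT.lf (nat_lit 0) (nat_lit 9838528104) (nat_lit 76) (nat_lit 19543946791) (nat_lit 76) (nat_lit 8290876933) (nat_lit 11) (nat_lit 4) (nat_lit 12) (nat_lit 5) (nat_lit 12) (nat_lit 4) (nat_lit 371) (nat_lit 280) (nat_lit 249)))))) (XT.nd (nat_lit 468) (nat_lit 152) (nat_lit 0) (XT.nd (nat_lit 234) (nat_lit 76) (nat_lit 0) (XT.nd (nat_lit 78) (nat_lit 152) (nat_lit 0) (XT.lf (nat_lit 0) (nat_lit 24026962102) (nat_lit 76) (nat_lit 13357878961) (nat_lit 76) (nat_lit 1953352210) (nat_lit 11) (nat_lit 4) (nat_lit 12) (nat_lit 5) (nat_lit 12) (nat_lit 4) (nat_lit 372) (nat_lit 280) (nat_lit 248)) (XT.nd (nat_lit 78) (nat_lit 76) (nat_lit 0) (XT.lf (nat_lit 0) (nat_lit 4504347380) (nat_lit 152) (nat_lit 2404946228) (nat_lit 76) (nat_lit 34178792899) (nat_lit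 10) (nat_lit 5) (nat_lit 12) (nat_lit 5) (nat_lit 11) (nat_lit 4) (nat_lit 373) (nat_lit 280) (nat_lit 247)) (XT.lf (nat_lit 0) (nat_lit 11155771462) (nat_lit 76) (nat_lit 96405257) (nat_lit 152) (nat_lit 31672503797) (nat_lit 9) (nat_lit 5) (nat_lit 10) (nat_lit 5) (nat_lit 11) (nat_lit 4) (nat_lit 374) (nat_lit 280) (nat_lit 246)))) (XT.nd (nat_lit 78) (nat_lit 76) (nat_lit 0) (XT.lf (nat_lit 0) (nat_lit 18332434170) (nat_lit 152) (nat_lit 19661197159) (nat_lit 0) (nat_lit 6859636658) (nat_lit 9) (nat_lit 5) (nat_lit 11) (nat_lit 4) (nat_lit 9) (nat_lit 4) (nat_lit 375) (nat_lit 280) (nat_lit 245)) (XT.nd (nat_lit 78) (nat_lit 76) (nat_lit 0) (XT.lf (nat_lit 0) (nat_lit 25674532110) (nat_lit 152) (nat_lit 7125772174) (nat_lit 0) (nat_lit 14080759879) (nat_lit 9) (nat_lit 5) (nat_lit 11) (nat_lit 4) (nat_lit 9) (nat_lit 4) (nat_lit 376) (nat_lit 280) (nat_lit 244)) (XT.lf (nat_lit 0) (nat_lit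 5984926327) (nat_lit 76) (nat_lit 27367629462) (nat_lit 76) (nat_lit 15658643213) (nat_lit 8) (nat_lit 4) (nat_lit 9) (nat_lit 5) (nat_lit 9) (nat_lit 4) (nat_lit 377) (nat_lit 280) (nat_lit 243))))) (XT.nd (nat_lit 234) (nat_lit 76) (nat_lit 0) (XT.nd (nat_lit 78) (nat_lit 76) (nat_lit 0) (XT.lf (nat_lit 0) (nat_lit 19736606094) (nat_lit 76) (nat_lit 21665171159) (nat_lit 76) (nat_lit 9846457273) (nat_lit 8) (nat_lit 4) (nat_lit 9) (nat_lit 5) (nat_lit 9) (nat_lit 4) (nat_lit 378) (nat_lit 280) (nat_lit 242)) (XT.nd (nat_lit 78) (nat_lit 76) (nat_lit 0) (XT.lf (nat_lit 0) (nat_lit 34020192381) (nat_lit 76) (nat_lit 15751308420) (nat_lit 76) (nat_lit 3828092023) (nat_lit 8) (nat_lit 4) (nat_lit 9) (nat_lit 5) (nat_lit 9) (nat_lit 4) (nat_lit 379) (nat_lit 280) (nat_lit 241)) (XT.lf (nat_lit 0) (nat_lit 2363738937) (nat_lit 152) (nat_lit 7224352554) (nat_lit 76) (nat_lit 46482085662) (nat_lit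 7) (nat_lit 5) (nat_lit 9) (nat_lit 5) (nat_lit 8) (nat_lit 4) (nat_lit 380) (nat_lit 280) (nat_lit 240)))) (XT.nd (nat_lit 78) (nat_lit 0) (nat_lit 0) (XT.lf (nat_lit 0) (nat_lit 5677896907) (nat_lit 76) (nat_lit 3088322975) (nat_lit 152) (nat_lit 49897537649) (nat_lit 6) (nat_lit 5) (nat_lit 7) (nat_lit 5) (nat_lit 8) (nat_lit 4) (nat_lit 381) (nat_lit 280) (nat_lit 239)) (XT.nd (nat_lit 78) (nat_lit 0) (nat_lit 0) (XT.lf (nat_lit 0) (nat_lit 15526371066) (nat_lit 152) (nat_lit 42185394253) (nat_lit 0) (nat_lit 3674135480) (nat_lit 6) (nat_lit 5) (nat_lit 8) (nat_lit 4) (nat_lit 6) (nat_lit 4) (nat_lit 382) (nat_lit 280) (nat_lit 238)) (XT.lf (nat_lit 0) (nat_lit 22585724473) (nat_lit 152) (nat_lit 31009582163) (nat_lit 0) (nat_lit 10650018523) (nat_lit 6) (nat_lit 5) (nat_lit 8) (nat_lit 4) (nat_lit 6) (nat_lit 4) (nat_lit 383) (nat_lit 280) (nat_lit 237))))))) (XT.nd (nat_lit 858) (nat_lit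 0) (nat_lit 0) (XT.nd (nat_lit 390) (nat_lit 152) (nat_lit 0) (XT.nd (nat_lit 156) (nat_lit 76) (nat_lit 0) (XT.nd (nat_lit 78) (nat_lit 0) (nat_lit 0) (XT.lf (nat_lit 0) (nat_lit 29931401237) (nat_lit 152) (nat_lit 19402128426) (nat_lit 0) (nat_lit 17916199703) (nat_lit 6) (nat_lit 5) (nat_lit 8) (nat_lit 4) (nat_lit 6) (nat_lit 4) (nat_lit 384) (nat_lit 280) (nat_lit 236)) (XT.lf (nat_lit 0) (nat_lit 37580891066) (nat_lit 152) (nat_lit 7335396250) (nat_lit 0) (nat_lit 25489979452) (nat_lit 6) (nat_lit 5) (nat_lit 8) (nat_lit 4) (nat_lit 6) (nat_lit 4) (nat_lit 385) (nat_lit 280) (nat_lit 235))) (XT.nd (nat_lit 78) (nat_lit 0) (nat_lit 0) (XT.lf (nat_lit 0) (nat_lit 5323219873) (nat_lit 76) (nat_lit 40280357204) (nat_lit 76) (nat_lit 28117340751) (nat_lit 5) (nat_lit 4) (nat_lit 6) (nat_lit 5) (nat_lit 6) (nat_lit 4) (nat_lit 386) (nat_lit 280) (nat_lit 234)) (XT.nd (nat_lit 78) (nat_lit 0)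 (nat_lit 0) (XT.lf (nat_lit 0) (nat_lit 18656033006) (nat_lit 76) (nat_lit 35388229127) (nat_lit 76) (nat_lit 23156541400) (nat_lit 5) (nat_lit 4) (nat_lit 6) (nat_lit 5) (nat_lit 6) (nat_lit 4) (nat_lit 387) (nat_lit 280) (nat_lit 233)) (XT.lf (nat_lit 0) (nat_lit 32548799172) (nat_lit 76) (nat_lit 30302328283) (nat_lit 76) (nat_lit 18005239342) (nat_lit 5) (nat_lit 4) (nat_lit 6) (nat_lit 5) (nat_lit 6) (nat_lit 4) (nat_lit 388) (nat_lit 280) (nat_lit 232))))) (XT.nd (nat_lit 234) (nat_lit 152) (nat_lit 0) (XT.nd (nat_lit 78) (nat_lit 0) (nat_lit 0) (XT.lf (nat_lit 0) (nat_lit 47034596387) (nat_lit 76) (nat_lit 25010545382) (nat_lit 76) (nat_lit 12651169571) (nat_lit 5) (nat_lit 4) (nat_lit 6) (nat_lit 5) (nat_lit 6) (nat_lit 4) (nat_lit 389) (nat_lit 280) (nat_lit 231)) (XT.nd (nat_lit 78) (nat_lit 0) (nat_lit 0) (XT.lf (nat_lit 0) (nat_lit 62147914644) (nat_lit 76) (nat_lit 19500280943)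 (nat_lit 76) (nat_lit 7081584302) (nat_lit 5) (nat_lit 4) (nat_lit 6) (nat_lit 5) (nat_lit 6) (nat_lit 4) (nat_lit 390) (nat_lit 280) (nat_lit 230)) (XT.lf (nat_lit 0) (nat_lit 77924738033) (nat_lit 76) (nat_lit 13758415287) (nat_lit 76) (nat_lit 1283222619) (nat_lit 5) (nat_lit 4) (nat_lit 6) (nat_lit 5) (nat_lit 6) (nat_lit 4) (nat_lit 391) (nat_lit 280) (nat_lit 229)))) (XT.nd (nat_lit 78) (nat_lit 76) (nat_lit 0) (XT.lf (nat_lit 0) (nat_lit 4664880825) (nat_lit 152) (nat_lit 3059290332) (nat_lit 76) (nat_lit 89690643445) (nat_lit 4) (nat_lit 5) (nat_lit 6) (nat_lit 5) (nat_lit 5) (nat_lit 4) (nat_lit 392) (nat_lit 280) (nat_lit 228)) (XT.nd (nat_lit 78) (nat_lit 0) (nat_lit 0) (XT.lf (nat_lit 0) (nat_lit 9612315566) (nat_lit 76) (nat_lit 1319978786) (nat_lit 152) (nat_lit 91151552193) (nat_lit 3) (nat_lit 5) (nat_lit 4) (nat_lit 5) (nat_lit 5) (nat_lit 4) (nat_lit 393) (nat_lit 280) (nat_lit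 227)) (XT.lf (nat_lit 0) (nat_lit 17553571006) (nat_lit 152) (nat_lit 84139187937) (nat_lit 0) (nat_lit 5292361915) (nat_lit 3) (nat_lit 5) (nat_lit 5) (nat_lit 4) (nat_lit 3) (nat_lit 4) (nat_lit 394) (nat_lit 280) (nat_lit 226)))))) (XT.nd (nat_lit 42822) (nat_lit 0) (nat_lit 2432) (XT.nd (nat_lit 42588) (nat_lit 0) (nat_lit 3572) (XT.nd (nat_lit 42432) (nat_lit 0) (nat_lit 4408) (XT.lf (nat_lit 0) (nat_lit 24478031808) (nat_lit 152) (nat_lit 75482571683) (nat_lit 0) (nat_lit 12171697066) (nat_lit 3) (nat_lit 5) (nat_lit 5) (nat_lit 4) (nat_lit 3) (nat_lit 4) (nat_lit 395) (nat_lit 280) (nat_lit 225)) (XT.nd (nat_lit 78) (nat_lit 228) (nat_lit 0) (XT.lf (nat_lit 0) (nat_lit 1861814754) (nat_lit 228) (nat_lit 1998233480) (nat_lit 0) (nat_lit 1861814754) (nat_lit 64) (nat_lit 5) (nat_lit 67) (nat_lit 4) (nat_lit 64) (nat_lit 4) (nat_lit 338) (nat_lit 281) (nat_lit 281)) (XT.lf (nat_lit 0) (nat_lit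 9567513481) (nat_lit 228) (nat_lit 1611606911) (nat_lit 228) (nat_lit 582659188) (nat_lit 61) (nat_lit 4) (nat_lit 64) (nat_lit 5) (nat_lit 64) (nat_lit 4) (nat_lit 339) (nat_lit 281) (nat_lit 280)))) (XT.nd (nat_lit 78) (nat_lit 608) (nat_lit 0) (XT.lf (nat_lit 0) (nat_lit 6708710083) (nat_lit 228) (nat_lit 628862265) (nat_lit 0) (nat_lit 4758323738) (nat_lit 58) (nat_lit 5) (nat_lit 61) (nat_lit 4) (nat_lit 58) (nat_lit 4) (nat_lit 340) (nat_lit 281) (nat_lit 279)) (XT.nd (nat_lit 78) (nat_lit 152) (nat_lit 0) (XT.lf (nat_lit 0) (nat_lit 759570415) (nat_lit 152) (nat_lit 1021739728) (nat_lit 228) (nat_lit 10667414927) (nat_lit 52) (nat_lit 5) (nat_lit 54) (nat_lit 5) (nat_lit 55) (nat_lit 4) (nat_lit 341) (nat_lit 281) (nat_lit 278)) (XT.lf (nat_lit 0) (nat_lit 1866877789) (nat_lit 152) (nat_lit 7281687030) (nat_lit 152) (nat_lit 3670576103) (nat_lit 50) (nat_lit 4) (nat_lit 52) (nat_lit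 5) (nat_lit 52) (nat_lit 4) (nat_lit 342) (nat_lit 281) (nat_lit 277))))) (XT.nd (nat_lit 234) (nat_lit 532) (nat_lit 0) (XT.nd (nat_lit 78) (nat_lit 380) (nat_lit 0) (XT.lf (nat_lit 0) (nat_lit 2711728299) (nat_lit 152) (nat_lit 796036960) (nat_lit 228) (nat_lit 9702241011) (nat_lit 47) (nat_lit 5) (nat_lit 49) (nat_lit 5) (nat_lit 50) (nat_lit 4) (nat_lit 343) (nat_lit 281) (nat_lit 276)) (XT.nd (nat_lit 78) (nat_lit 228) (nat_lit 0) (XT.lf (nat_lit 0) (nat_lit 3209224144) (nat_lit 152) (nat_lit 7714972470) (nat_lit 152) (nat_lit 2696561756) (nat_lit 45) (nat_lit 4) (nat_lit 47) (nat_lit 5) (nat_lit 47) (nat_lit 4) (nat_lit 344) (nat_lit 281) (nat_lit 275)) (XT.lf (nat_lit 0) (nat_lit 3363600359) (nat_lit 152) (nat_lit 1111607553) (nat_lit 228) (nat_lit 9578374478) (nat_lit 42) (nat_lit 5) (nat_lit 44) (nat_lit 5) (nat_lit 45) (nat_lit 4) (nat_lit 345) (nat_lit 281) (nat_lit 274)))) (XT.nd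 (nat_lit 78) (nat_lit 380) (nat_lit 0) (XT.lf (nat_lit 0) (nat_lit 3102305441) (nat_lit 152) (nat_lit 8805216839) (nat_lit 152) (nat_lit 2601068641) (nat_lit 40) (nat_lit 4) (nat_lit 42) (nat_lit 5) (nat_lit 42) (nat_lit 4) (nat_lit 346) (nat_lit 281) (nat_lit 273)) (XT.nd (nat_lit 78) (nat_lit 152) (nat_lit 0) (XT.lf (nat_lit 0) (nat_lit 2406754023) (nat_lit 152) (nat_lit 2139883078) (nat_lit 228) (nat_lit 10441008310) (nat_lit 37) (nat_lit 5) (nat_lit 39) (nat_lit 5) (nat_lit 40) (nat_lit 4) (nat_lit 347) (nat_lit 281) (nat_lit 272)) (XT.lf (nat_lit 0) (nat_lit 1210655538) (nat_lit 152) (nat_lit 10738544259) (nat_lit 152) (nat_lit 3542209211) (nat_lit 35) (nat_lit 4) (nat_lit 37) (nat_lit 5) (nat_lit 37) (nat_lit 4) (nat_lit 348) (nat_lit 281) (nat_lit 271))))))))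
noncomputable def xc18 : XT := (XT.nd (nat_lit 1716) (nat_lit 608) (nat_lit 0) (XT.nd (nat_lit 858) (nat_lit 608) (nat_lit 0) (XT.nd (nat_lit 390) (nat_lit 532) (nat_lit 0) (XT.nd (nat_lit 156) (nat_lit 456) (nat_lit 0) (XT.nd (nat_lit 78) (nat_lit 76) (nat_lit 0) (XT.lf (nat_lit 0) (nat_lit 3560330031) (nat_lit 228) (nat_lit 513761806) (nat_lit 76) (nat_lit 11947332502) (nat_lit 34) (nat_lit 5) (nat_lit 37) (nat_lit 5) (nat_lit 35) (nat_lit 4) (nat_lit 349) (nat_lit 281) (nat_lit 270)) (XT.lf (nat_lit 0) (nat_lit 10895452533) (nat_lit 152) (nat_lit 2807113986) (nat_lit 0) (nat_lit 2875859298) (nat_lit 33) (nat_lit 5) (nat_lit 35) (nat_lit 4) (nat_lit 33) (nat_lit 4) (nat_lit 350) (nat_lit 281) (nat_lit 269))) (XT.nd (nat_lit 78) (nat_lit 228) (nat_lit 0) (XT.lf (nat_lit 0) (nat_lit 1356059280) (nat_lit 228) (nat_lit 5746635021) (nat_lit 76) (nat_lit 10061724359) (nat_lit 30) (nat_lit 5) (nat_lit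 33) (nat_lit 5) (nat_lit 31) (nat_lit 4) (nat_lit 351) (nat_lit 281) (nat_lit 268)) (XT.nd (nat_lit 78) (nat_lit 152) (nat_lit 0) (XT.lf (nat_lit 0) (nat_lit 8377400524) (nat_lit 76) (nat_lit 161431193) (nat_lit 152) (nat_lit 9241963712) (nat_lit 29) (nat_lit 5) (nat_lit 30) (nat_lit 5) (nat_lit 31) (nat_lit 4) (nat_lit 352) (nat_lit 281) (nat_lit 267)) (XT.lf (nat_lit 0) (nat_lit 4565310301) (nat_lit 152) (nat_lit 11490792371) (nat_lit 152) (nat_lit 2372677014) (nat_lit 27) (nat_lit 4) (nat_lit 29) (nat_lit 5) (nat_lit 29) (nat_lit 4) (nat_lit 353) (nat_lit 281) (nat_lit 266))))) (XT.nd (nat_lit 234) (nat_lit 228) (nat_lit 0) (XT.nd (nat_lit 78) (nat_lit 228) (nat_lit 0) (XT.lf (nat_lit 0) (nat_lit 4652349054) (nat_lit 228) (nat_lit 76279465) (nat_lit 76) (nat_lit 14381982914) (nat_lit 26) (nat_lit 5) (nat_lit 29) (nat_lit 5) (nat_lit 27) (nat_lit 4) (nat_lit 354) (nat_lit 281) (nat_lit 265))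 (XT.nd (nat_lit 78) (nat_lit 152) (nat_lit 0) (XT.lf (nat_lit 0) (nat_lit 11957157887) (nat_lit 152) (nat_lit 5527586299) (nat_lit 0) (nat_lit 2341801309) (nat_lit 25) (nat_lit 5) (nat_lit 27) (nat_lit 4) (nat_lit 25) (nat_lit 4) (nat_lit 355) (nat_lit 281) (nat_lit 264)) (XT.lf (nat_lit 0) (nat_lit 8608931729) (nat_lit 152) (nat_lit 10970284509) (nat_lit 152) (nat_lit 1000541220) (nat_lit 23) (nat_lit 4) (nat_lit 25) (nat_lit 5) (nat_lit 25) (nat_lit 4) (nat_lit 356) (nat_lit 281) (nat_lit 263)))) (XT.nd (nat_lit 78) (nat_lit 76) (nat_lit 0) (XT.lf (nat_lit 0) (nat_lit 1852980376) (nat_lit 76) (nat_lit 4137283081) (nat_lit 152) (nat_lit 15381621687) (nat_lit 21) (nat_lit 5) (nat_lit 22) (nat_lit 5) (nat_lit 23) (nat_lit 4) (nat_lit 357) (nat_lit 281) (nat_lit 262)) (XT.nd (nat_lit 78) (nat_lit 76) (nat_lit 0) (XT.lf (nat_lit 0) (nat_lit 13292193455) (nat_lit 152) (nat_lit 5938623334) (nat_lit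 0) (nat_lit 2973073419) (nat_lit 21) (nat_lit 5) (nat_lit 23) (nat_lit 4) (nat_lit 21) (nat_lit 4) (nat_lit 358) (nat_lit 281) (nat_lit 261)) (XT.lf (nat_lit 0) (nat_lit 8136430355) (nat_lit 76) (nat_lit 12779369339) (nat_lit 76) (nat_lit 2163033219) (nat_lit 20) (nat_lit 4) (nat_lit 21) (nat_lit 5) (nat_lit 21) (nat_lit 4) (nat_lit 359) (nat_lit 281) (nat_lit 260)))))) (XT.nd (nat_lit 390) (nat_lit 228) (nat_lit 0) (XT.nd (nat_lit 156) (nat_lit 228) (nat_lit 0) (XT.nd (nat_lit 78) (nat_lit 76) (nat_lit 0) (XT.lf (nat_lit 0) (nat_lit 4728710423) (nat_lit 152) (nat_lit 1300116895) (nat_lit 76) (nat_lit 17970256480) (nat_lit 19) (nat_lit 5) (nat_lit 21) (nat_lit 5) (nat_lit 20) (nat_lit 4) (nat_lit 360) (nat_lit 281) (nat_lit 259)) (XT.lf (nat_lit 0) (nat_lit 11903420392) (nat_lit 152) (nat_lit 12002073792) (nat_lit 0) (nat_lit 1059747766) (nat_lit 18) (nat_lit 5) (nat_lit 20) (nat_lit 4) (nat_lit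 18) (nat_lit 4) (nat_lit 361) (nat_lit 281) (nat_lit 258))) (XT.nd (nat_lit 78) (nat_lit 152) (nat_lit 0) (XT.lf (nat_lit 0) (nat_lit 1682401889) (nat_lit 76) (nat_lit 17696014883) (nat_lit 76) (nat_lit 6603073881) (nat_lit 17) (nat_lit 4) (nat_lit 18) (nat_lit 5) (nat_lit 18) (nat_lit 4) (nat_lit 362) (nat_lit 281) (nat_lit 257)) (XT.nd (nat_lit 78) (nat_lit 76) (nat_lit 0) (XT.lf (nat_lit 0) (nat_lit 153963298) (nat_lit 152) (nat_lit 11017793960) (nat_lit 76) (nat_lit 15877404871) (nat_lit 16) (nat_lit 5) (nat_lit 18) (nat_lit 5) (nat_lit 17) (nat_lit 4) (nat_lit 363) (nat_lit 281) (nat_lit 256)) (XT.lf (nat_lit 0) (nat_lit 2653733635) (nat_lit 76) (nat_lit 4346348559) (nat_lit 152) (nat_lit 21171565616) (nat_lit 15) (nat_lit 5) (nat_lit 16) (nat_lit 5) (nat_lit 17) (nat_lit 4) (nat_lit 364) (nat_lit 281) (nat_lit 255))))) (XT.nd (nat_lit 234) (nat_lit 152) (nat_lit 0) (XT.nd (nat_lit 78)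 (nat_lit 76) (nat_lit 0) (XT.lf (nat_lit 0) (nat_lit 14194250054) (nat_lit 152) (nat_lit 12390503643) (nat_lit 0) (nat_lit 2765356252) (nat_lit 15) (nat_lit 5) (nat_lit 17) (nat_lit 4) (nat_lit 15) (nat_lit 4) (nat_lit 365) (nat_lit 281) (nat_lit 254)) (XT.nd (nat_lit 78) (nat_lit 0) (nat_lit 0) (XT.lf (nat_lit 0) (nat_lit 1129067678) (nat_lit 76) (nat_lit 20544343381) (nat_lit 76) (nat_lit 8916348889) (nat_lit 14) (nat_lit 4) (nat_lit 15) (nat_lit 5) (nat_lit 15) (nat_lit 4) (nat_lit 366) (nat_lit 281) (nat_lit 253)) (XT.lf (nat_lit 0) (nat_lit 15348117063) (nat_lit 76) (nat_lit 14180425696) (nat_lit 76) (nat_lit 2362811500) (nat_lit 14) (nat_lit 4) (nat_lit 15) (nat_lit 5) (nat_lit 15) (nat_lit 4) (nat_lit 367) (nat_lit 281) (nat_lit 252)))) (XT.nd (nat_lit 78) (nat_lit 76) (nat_lit 0) (XT.lf (nat_lit 0) (nat_lit 4309469252) (nat_lit 152) (nat_lit 3249981807) (nat_lit 76) (nat_lit 25700917631)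 (nat_lit 13) (nat_lit 5) (nat_lit 15) (nat_lit 5) (nat_lit 14) (nat_lit 4) (nat_lit 368) (nat_lit 281) (nat_lit 251)) (XT.nd (nat_lit 78) (nat_lit 0) (nat_lit 0) (XT.lf (nat_lit 0) (nat_lit 10676579992) (nat_lit 76) (nat_lit 577988994) (nat_lit 152) (nat_lit 23442940424) (nat_lit 12) (nat_lit 5) (nat_lit 13) (nat_lit 5) (nat_lit 14) (nat_lit 4) (nat_lit 369) (nat_lit 281) (nat_lit 250)) (XT.lf (nat_lit 0) (nat_lit 18533126029) (nat_lit 152) (nat_lit 11115440739) (nat_lit 0) (nat_lit 6558372939) (nat_lit 12) (nat_lit 5) (nat_lit 14) (nat_lit 4) (nat_lit 12) (nat_lit 4) (nat_lit 370) (nat_lit 281) (nat_lit 249))))))) (XT.nd (nat_lit 858) (nat_lit 228) (nat_lit 0) (XT.nd (nat_lit 390) (nat_lit 152) (nat_lit 0) (XT.nd (nat_lit 156) (nat_lit 152) (nat_lit 0) (XT.nd (nat_lit 78) (nat_lit 0) (nat_lit 0) (XT.lf (nat_lit 0) (nat_lit 2271838110) (nat_lit 76) (nat_lit 23824307536) (nat_lit 76) (nat_lit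 11698097554) (nat_lit 11) (nat_lit 4) (nat_lit 12) (nat_lit 5) (nat_lit 12) (nat_lit 4) (nat_lit 371) (nat_lit 281) (nat_lit 248)) (XT.lf (nat_lit 0) (nat_lit 16364568478) (nat_lit 76) (nat_lit 17683249923) (nat_lit 76) (nat_lit 5412795281) (nat_lit 11) (nat_lit 4) (nat_lit 12) (nat_lit 5) (nat_lit 12) (nat_lit 4) (nat_lit 372) (nat_lit 281) (nat_lit 247))) (XT.nd (nat_lit 78) (nat_lit 76) (nat_lit 0) (XT.lf (nat_lit 0) (nat_lit 1063645358) (nat_lit 152) (nat_lit 10248630430) (nat_lit 76) (nat_lit 29900699325) (nat_lit 10) (nat_lit 5) (nat_lit 12) (nat_lit 5) (nat_lit 11) (nat_lit 4) (nat_lit 373) (nat_lit 281) (nat_lit 246)) (XT.nd (nat_lit 78) (nat_lit 0) (nat_lit 0) (XT.lf (nat_lit 0) (nat_lit 3066498842) (nat_lit 76) (nat_lit 4620773822) (nat_lit 152) (nat_lit 35366029768) (nat_lit 9) (nat_lit 5) (nat_lit 10) (nat_lit 5) (nat_lit 11) (nat_lit 4) (nat_lit 374) (nat_lit 281) (nat_lit 245))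 (XT.lf (nat_lit 0) (nat_lit 14678602325) (nat_lit 152) (nat_lit 27921795557) (nat_lit 0) (nat_lit 2384166763) (nat_lit 9) (nat_lit 5) (nat_lit 11) (nat_lit 4) (nat_lit 9) (nat_lit 4) (nat_lit 375) (nat_lit 281) (nat_lit 244))))) (XT.nd (nat_lit 234) (nat_lit 76) (nat_lit 0) (XT.nd (nat_lit 78) (nat_lit 76) (nat_lit 0) (XT.lf (nat_lit 0) (nat_lit 21977427128) (nat_lit 152) (nat_lit 15468460914) (nat_lit 0) (nat_lit 9567777547) (nat_lit 9) (nat_lit 5) (nat_lit 11) (nat_lit 4) (nat_lit 9) (nat_lit 4) (nat_lit 376) (nat_lit 281) (nat_lit 243)) (XT.nd (nat_lit 78) (nat_lit 76) (nat_lit 0) (XT.lf (nat_lit 0) (nat_lit 29556707524) (nat_lit 152) (nat_lit 2552731160) (nat_lit 0) (nat_lit 17037330307) (nat_lit 9) (nat_lit 5) (nat_lit 11) (nat_lit 4) (nat_lit 9) (nat_lit 4) (nat_lit 377) (nat_lit 281) (nat_lit 242)) (XT.lf (nat_lit 0) (nat_lit 11072204022) (nat_lit 76) (nat_lit 26468718195) (nat_lit 76)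 (nat_lit 13844838467) (nat_lit 8) (nat_lit 4) (nat_lit 9) (nat_lit 5) (nat_lit 9) (nat_lit 4) (nat_lit 378) (nat_lit 281) (nat_lit 241)))) (XT.nd (nat_lit 78) (nat_lit 76) (nat_lit 0) (XT.lf (nat_lit 0) (nat_lit 25283466282) (nat_lit 76) (nat_lit 20589103297) (nat_lit 76) (nat_lit 7865697369) (nat_lit 8) (nat_lit 4) (nat_lit 9) (nat_lit 5) (nat_lit 9) (nat_lit 4) (nat_lit 379) (nat_lit 281) (nat_lit 240)) (XT.nd (nat_lit 78) (nat_lit 76) (nat_lit 0) (XT.lf (nat_lit 0) (nat_lit 40064087604) (nat_lit 76) (nat_lit 14482372489) (nat_lit 76) (nat_lit 1664179703) (nat_lit 8) (nat_lit 4) (nat_lit 9) (nat_lit 5) (nat_lit 9) (nat_lit 4) (nat_lit 380) (nat_lit 281) (nat_lit 239)) (XT.lf (nat_lit 0) (nat_lit 4681312746) (nat_lit 152) (nat_lit 3405401108) (nat_lit 76) (nat_lit 50720675115) (nat_lit 7) (nat_lit 5) (nat_lit 9) (nat_lit 5) (nat_lit 8) (nat_lit 4) (nat_lit 381) (nat_lit 281) (nat_lit 238))))))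 (XT.nd (nat_lit 468) (nat_lit 76) (nat_lit 0) (XT.nd (nat_lit 234) (nat_lit 76) (nat_lit 0) (XT.nd (nat_lit 78) (nat_lit 0) (nat_lit 0) (XT.lf (nat_lit 0) (nat_lit 10022137118) (nat_lit 76) (nat_lit 1316078436) (nat_lit 152) (nat_lit 50194418899) (nat_lit 6) (nat_lit 5) (nat_lit 7) (nat_lit 5) (nat_lit 8) (nat_lit 4) (nat_lit 382) (nat_lit 281) (nat_lit 237)) (XT.nd (nat_lit 78) (nat_lit 0) (nat_lit 0) (XT.lf (nat_lit 0) (nat_lit 18352408590) (nat_lit 152) (nat_lit 40384058176) (nat_lit 0) (nat_lit 5656951395) (nat_lit 6) (nat_lit 5) (nat_lit 8) (nat_lit 4) (nat_lit 6) (nat_lit 4) (nat_lit 383) (nat_lit 281) (nat_lit 236)) (XT.lf (nat_lit 0) (nat_lit 25667124001) (nat_lit 152) (nat_lit 28835674805) (nat_lit 0) (nat_lit 12895956726) (nat_lit 6) (nat_lit 5) (nat_lit 8) (nat_lit 4) (nat_lit 6) (nat_lit 4) (nat_lit 384) (nat_lit 281) (nat_lit 235)))) (XT.nd (nat_lit 78) (nat_lit 76) (nat_lit 0)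 (XT.lf (nat_lit 0) (nat_lit 33287126828) (nat_lit 152) (nat_lit 16825200118) (nat_lit 0) (nat_lit 20443854714) (nat_lit 6) (nat_lit 5) (nat_lit 8) (nat_lit 4) (nat_lit 6) (nat_lit 4) (nat_lit 385) (nat_lit 281) (nat_lit 234)) (XT.nd (nat_lit 78) (nat_lit 76) (nat_lit 0) (XT.lf (nat_lit 0) (nat_lit 41230559933) (nat_lit 152) (nat_lit 4324037749) (nat_lit 0) (nat_lit 28318616545) (nat_lit 6) (nat_lit 5) (nat_lit 8) (nat_lit 4) (nat_lit 6) (nat_lit 4) (nat_lit 386) (nat_lit 281) (nat_lit 233)) (XT.lf (nat_lit 0) (nat_lit 8870675810) (nat_lit 76) (nat_lit 40730930804) (nat_lit 76) (nat_lit 27753586202) (nat_lit 5) (nat_lit 4) (nat_lit 6) (nat_lit 5) (nat_lit 6) (nat_lit 4) (nat_lit 387) (nat_lit 281) (nat_lit 232))))) (XT.nd (nat_lit 234) (nat_lit 76) (nat_lit 0) (XT.nd (nat_lit 78) (nat_lit 0) (nat_lit 0) (XT.lf (nat_lit 0) (nat_lit 22713877460) (nat_lit 76) (nat_lit 35668646050) (nat_lit 76)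 (nat_lit 22629014578) (nat_lit 5) (nat_lit 4) (nat_lit 6) (nat_lit 5) (nat_lit 6) (nat_lit 4) (nat_lit 388) (nat_lit 281) (nat_lit 231)) (XT.nd (nat_lit 78) (nat_lit 0) (nat_lit 0) (XT.lf (nat_lit 0) (nat_lit 37152470373) (nat_lit 76) (nat_lit 30399354665) (nat_lit 76) (nat_lit 17300402364) (nat_lit 5) (nat_lit 4) (nat_lit 6) (nat_lit 5) (nat_lit 6) (nat_lit 4) (nat_lit 389) (nat_lit 281) (nat_lit 230)) (XT.lf (nat_lit 0) (nat_lit 52220832151) (nat_lit 76) (nat_lit 24910510716) (nat_lit 76) (nat_lit 11755062388) (nat_lit 5) (nat_lit 4) (nat_lit 6) (nat_lit 5) (nat_lit 6) (nat_lit 4) (nat_lit 390) (nat_lit 281) (nat_lit 229)))) (XT.nd (nat_lit 78) (nat_lit 76) (nat_lit 0) (XT.lf (nat_lit 0) (nat_lit 67954839847) (nat_lit 76) (nat_lit 19189045528) (nat_lit 76) (nat_lit 5979791459) (nat_lit 5) (nat_lit 4) (nat_lit 6) (nat_lit 5) (nat_lit 6) (nat_lit 4) (nat_lit 391) (nat_lit 281) (nat_lit 228))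 (XT.nd (nat_lit 78) (nat_lit 0) (nat_lit 0) (XT.lf (nat_lit 0) (nat_lit 38396893) (nat_lit 152) (nat_lit 13182551937) (nat_lit 76) (nat_lit 84353170756) (nat_lit 4) (nat_lit 5) (nat_lit 6) (nat_lit 5) (nat_lit 5) (nat_lit 4) (nat_lit 392) (nat_lit 281) (nat_lit 227)) (XT.lf (nat_lit 0) (nat_lit 6192875661) (nat_lit 152) (nat_lit 737763431) (nat_lit 76) (nat_lit 95315903186) (nat_lit 4) (nat_lit 5) (nat_lit 6) (nat_lit 5) (nat_lit 5) (nat_lit 4) (nat_lit 393) (nat_lit 281) (nat_lit 226))))))))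
noncomputable def xc19 : XT := (XT.nd (nat_lit 43992) (nat_lit 0) (nat_lit 380) (XT.nd (nat_lit 43056) (nat_lit 0) (nat_lit 1520) (XT.nd (nat_lit 42588) (nat_lit 0) (nat_lit 3192) (XT.nd (nat_lit 42354) (nat_lit 0) (nat_lit 4636) (XT.nd (nat_lit 78) (nat_lit 0) (nat_lit 0) (XT.lf (nat_lit 0) (nat_lit 12496491962) (nat_lit 76) (nat_lit 238617598) (nat_lit 152) (nat_lit 94415080889) (nat_lit 3) (nat_lit 5) (nat_lit 4) (nat_lit 5) (nat_lit 5) (nat_lit 4) (nat_lit 394) (nat_lit 281) (nat_lit 225)) (XT.lf (nat_lit 0) (nat_lit 19638134906) (nat_lit 152) (nat_lit 86031499796) (nat_lit 0) (nat_lit 6628380962) (nat_lit 3) (nat_lit 5) (nat_lit 5) (nat_lit 4) (nat_lit 3) (nat_lit 4) (nat_lit 395) (nat_lit 281) (nat_lit 224))) (XT.nd (nat_lit 78) (nat_lit 456) (nat_lit 0) (XT.lf (nat_lit 0) (nat_lit 748731539) (nat_lit 304) (nat_lit 3929214076) (nat_lit 0) (nat_lit 748731539) (nat_lit 70) (nat_lit 5) (nat_lit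 74) (nat_lit 4) (nat_lit 70) (nat_lit 4) (nat_lit 336) (nat_lit 282) (nat_lit 282)) (XT.nd (nat_lit 78) (nat_lit 228) (nat_lit 0) (XT.lf (nat_lit 0) (nat_lit 5183444342) (nat_lit 228) (nat_lit 3535989969) (nat_lit 228) (nat_lit 2423183006) (nat_lit 67) (nat_lit 4) (nat_lit 70) (nat_lit 5) (nat_lit 70) (nat_lit 4) (nat_lit 337) (nat_lit 282) (nat_lit 281)) (XT.lf (nat_lit 0) (nat_lit 4670835331) (nat_lit 228) (nat_lit 4215452560) (nat_lit 0) (nat_lit 2561492499) (nat_lit 64) (nat_lit 5) (nat_lit 67) (nat_lit 4) (nat_lit 64) (nat_lit 4) (nat_lit 338) (nat_lit 282) (nat_lit 280))))) (XT.nd (nat_lit 234) (nat_lit 684) (nat_lit 0) (XT.nd (nat_lit 78) (nat_lit 456) (nat_lit 0) (XT.lf (nat_lit 0) (nat_lit 221066922) (nat_lit 304) (nat_lit 2640527192) (nat_lit 76) (nat_lit 8908161953) (nat_lit 60) (nat_lit 5) (nat_lit 64) (nat_lit 5) (nat_lit 61) (nat_lit 4) (nat_lit 339) (nat_lit 282) (nat_lit 279))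 (XT.nd (nat_lit 78) (nat_lit 304) (nat_lit 0) (XT.lf (nat_lit 0) (nat_lit 7357800741) (nat_lit 228) (nat_lit 1297869224) (nat_lit 0) (nat_lit 3452384274) (nat_lit 58) (nat_lit 5) (nat_lit 61) (nat_lit 4) (nat_lit 58) (nat_lit 4) (nat_lit 340) (nat_lit 282) (nat_lit 278)) (XT.lf (nat_lit 0) (nat_lit 2267851169) (nat_lit 304) (nat_lit 164633670) (nat_lit 76) (nat_lit 10032401412) (nat_lit 54) (nat_lit 5) (nat_lit 58) (nat_lit 5) (nat_lit 55) (nat_lit 4) (nat_lit 341) (nat_lit 282) (nat_lit 277)))) (XT.nd (nat_lit 78) (nat_lit 380) (nat_lit 0) (XT.lf (nat_lit 0) (nat_lit 708641911) (nat_lit 152) (nat_lit 8779266426) (nat_lit 152) (nat_lit 3351855238) (nat_lit 50) (nat_lit 4) (nat_lit 52) (nat_lit 5) (nat_lit 52) (nat_lit 4) (nat_lit 342) (nat_lit 282) (nat_lit 276)) (XT.nd (nat_lit 78) (nat_lit 152) (nat_lit 0) (XT.lf (nat_lit 0) (nat_lit 1300237485) (nat_lit 152) (nat_lit 2388223860) (nat_lit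 228) (nat_lit 9546071943) (nat_lit 47) (nat_lit 5) (nat_lit 49) (nat_lit 5) (nat_lit 50) (nat_lit 4) (nat_lit 343) (nat_lit 282) (nat_lit 275)) (XT.lf (nat_lit 0) (nat_lit 1557354030) (nat_lit 152) (nat_lit 9401075814) (nat_lit 152) (nat_lit 2691289539) (nat_lit 45) (nat_lit 4) (nat_lit 47) (nat_lit 5) (nat_lit 47) (nat_lit 4) (nat_lit 344) (nat_lit 282) (nat_lit 274)))))) (XT.nd (nat_lit 468) (nat_lit 760) (nat_lit 0) (XT.nd (nat_lit 234) (nat_lit 456) (nat_lit 0) (XT.nd (nat_lit 78) (nat_lit 228) (nat_lit 0) (XT.lf (nat_lit 0) (nat_lit 1449871666) (nat_lit 152) (nat_lit 2899319901) (nat_lit 228) (nat_lit 9737322973) (nat_lit 42) (nat_lit 5) (nat_lit 44) (nat_lit 5) (nat_lit 45) (nat_lit 4) (nat_lit 345) (nat_lit 282) (nat_lit 273)) (XT.nd (nat_lit 78) (nat_lit 76) (nat_lit 0) (XT.lf (nat_lit 0) (nat_lit 938162529) (nat_lit 152) (nat_lit 10695336217) (nat_lit 152) (nat_lit 2912499862) (nat_lit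 40) (nat_lit 4) (nat_lit 42) (nat_lit 5) (nat_lit 42) (nat_lit 4) (nat_lit 346) (nat_lit 282) (nat_lit 272)) (XT.lf (nat_lit 0) (nat_lit 4110482324) (nat_lit 228) (nat_lit 27863042) (nat_lit 76) (nat_lit 10890754222) (nat_lit 39) (nat_lit 5) (nat_lit 42) (nat_lit 5) (nat_lit 40) (nat_lit 4) (nat_lit 347) (nat_lit 282) (nat_lit 271)))) (XT.nd (nat_lit 78) (nat_lit 304) (nat_lit 0) (XT.lf (nat_lit 0) (nat_lit 11376854002) (nat_lit 228) (nat_lit 1456462101) (nat_lit 0) (nat_lit 2703663918) (nat_lit 37) (nat_lit 5) (nat_lit 40) (nat_lit 4) (nat_lit 37) (nat_lit 4) (nat_lit 348) (nat_lit 282) (nat_lit 270)) (XT.nd (nat_lit 78) (nat_lit 76) (nat_lit 0) (XT.lf (nat_lit 0) (nat_lit 2837212292) (nat_lit 228) (nat_lit 3432598390) (nat_lit 76) (nat_lit 9800909385) (nat_lit 34) (nat_lit 5) (nat_lit 37) (nat_lit 5) (nat_lit 35) (nat_lit 4) (nat_lit 349) (nat_lit 282) (nat_lit 269)) (XT.lf (nat_lit 0) (nat_lit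 10021931573) (nat_lit 152) (nat_lit 5992647142) (nat_lit 0) (nat_lit 617682316) (nat_lit 33) (nat_lit 5) (nat_lit 35) (nat_lit 4) (nat_lit 33) (nat_lit 4) (nat_lit 350) (nat_lit 282) (nat_lit 268))))) (XT.nd (nat_lit 234) (nat_lit 304) (nat_lit 0) (XT.nd (nat_lit 78) (nat_lit 228) (nat_lit 0) (XT.lf (nat_lit 0) (nat_lit 316974706) (nat_lit 228) (nat_lit 9217783105) (nat_lit 76) (nat_lit 7687683554) (nat_lit 30) (nat_lit 5) (nat_lit 33) (nat_lit 5) (nat_lit 31) (nat_lit 4) (nat_lit 351) (nat_lit 282) (nat_lit 267)) (XT.nd (nat_lit 78) (nat_lit 152) (nat_lit 0) (XT.lf (nat_lit 0) (nat_lit 4665565972) (nat_lit 76) (nat_lit 2704896433) (nat_lit 152) (nat_lit 10472258390) (nat_lit 29) (nat_lit 5) (nat_lit 30) (nat_lit 5) (nat_lit 31) (nat_lit 4) (nat_lit 352) (nat_lit 282) (nat_lit 266)) (XT.lf (nat_lit 0) (nat_lit 572610021) (nat_lit 152) (nat_lit 14160876769) (nat_lit 152) (nat_lit 3761868631)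 (nat_lit 27) (nat_lit 4) (nat_lit 29) (nat_lit 5) (nat_lit 29) (nat_lit 4) (nat_lit 353) (nat_lit 282) (nat_lit 265)))) (XT.nd (nat_lit 78) (nat_lit 228) (nat_lit 0) (XT.lf (nat_lit 0) (nat_lit 3200757967) (nat_lit 228) (nat_lit 4284738693) (nat_lit 76) (nat_lit 11694797591) (nat_lit 26) (nat_lit 5) (nat_lit 29) (nat_lit 5) (nat_lit 27) (nat_lit 4) (nat_lit 354) (nat_lit 282) (nat_lit 264)) (XT.nd (nat_lit 78) (nat_lit 152) (nat_lit 0) (XT.lf (nat_lit 0) (nat_lit 9872513095) (nat_lit 76) (nat_lit 482072507) (nat_lit 152) (nat_lit 9546192375) (nat_lit 25) (nat_lit 5) (nat_lit 26) (nat_lit 5) (nat_lit 27) (nat_lit 4) (nat_lit 355) (nat_lit 282) (nat_lit 263)) (XT.lf (nat_lit 0) (nat_lit 3868170751) (nat_lit 152) (nat_lit 13974985699) (nat_lit 152) (nat_lit 2814857381) (nat_lit 23) (nat_lit 4) (nat_lit 25) (nat_lit 5) (nat_lit 25) (nat_lit 4) (nat_lit 356) (nat_lit 282) (nat_lit 262))))))) (XT.nd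 (nat_lit 858) (nat_lit 456) (nat_lit 0) (XT.nd (nat_lit 390) (nat_lit 304) (nat_lit 0) (XT.nd (nat_lit 156) (nat_lit 228) (nat_lit 0) (XT.nd (nat_lit 78) (nat_lit 76) (nat_lit 0) (XT.lf (nat_lit 0) (nat_lit 4111984013) (nat_lit 228) (nat_lit 3134239965) (nat_lit 76) (nat_lit 14207439576) (nat_lit 22) (nat_lit 5) (nat_lit 25) (nat_lit 5) (nat_lit 23) (nat_lit 4) (nat_lit 357) (nat_lit 282) (nat_lit 261)) (XT.lf (nat_lit 0) (nat_lit 11100491195) (nat_lit 76) (nat_lit 174479875) (nat_lit 152) (nat_lit 11014882802) (nat_lit 21) (nat_lit 5) (nat_lit 22) (nat_lit 5) (nat_lit 23) (nat_lit 4) (nat_lit 358) (nat_lit 282) (nat_lit 260))) (XT.nd (nat_lit 78) (nat_lit 152) (nat_lit 0) (XT.lf (nat_lit 0) (nat_lit 2640160671) (nat_lit 76) (nat_lit 16127998280) (nat_lit 76) (nat_lit 4400566335) (nat_lit 20) (nat_lit 4) (nat_lit 21) (nat_lit 5) (nat_lit 21) (nat_lit 4) (nat_lit 359) (nat_lit 282) (nat_lit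 259)) (XT.nd (nat_lit 78) (nat_lit 76) (nat_lit 0) (XT.lf (nat_lit 0) (nat_lit 2460496070) (nat_lit 152) (nat_lit 7002208671) (nat_lit 76) (nat_lit 14629161935) (nat_lit 19) (nat_lit 5) (nat_lit 21) (nat_lit 5) (nat_lit 20) (nat_lit 4) (nat_lit 360) (nat_lit 282) (nat_lit 258)) (XT.lf (nat_lit 0) (nat_lit 7024796335) (nat_lit 76) (nat_lit 2472030490) (nat_lit 152) (nat_lit 15565363608) (nat_lit 18) (nat_lit 5) (nat_lit 19) (nat_lit 5) (nat_lit 20) (nat_lit 4) (nat_lit 361) (nat_lit 282) (nat_lit 257))))) (XT.nd (nat_lit 234) (nat_lit 152) (nat_lit 0) (XT.nd (nat_lit 78) (nat_lit 152) (nat_lit 0) (XT.lf (nat_lit 0) (nat_lit 16862672073) (nat_lit 152) (nat_lit 4490637957) (nat_lit 0) (nat_lit 4728417190) (nat_lit 18) (nat_lit 5) (nat_lit 20) (nat_lit 4) (nat_lit 18) (nat_lit 4) (nat_lit 362) (nat_lit 282) (nat_lit 256)) (XT.nd (nat_lit 78) (nat_lit 76) (nat_lit 0) (XT.lf (nat_lit 0) (nat_lit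 9645545857) (nat_lit 76) (nat_lit 14933797047) (nat_lit 76) (nat_lit 2573448400) (nat_lit 17) (nat_lit 4) (nat_lit 18) (nat_lit 5) (nat_lit 18) (nat_lit 4) (nat_lit 363) (nat_lit 282) (nat_lit 255)) (XT.lf (nat_lit 0) (nat_lit 4232808301) (nat_lit 152) (nat_lit 3983075191) (nat_lit 76) (nat_lit 20062849937) (nat_lit 16) (nat_lit 5) (nat_lit 18) (nat_lit 5) (nat_lit 17) (nat_lit 4) (nat_lit 364) (nat_lit 282) (nat_lit 254)))) (XT.nd (nat_lit 78) (nat_lit 76) (nat_lit 0) (XT.lf (nat_lit 0) (nat_lit 10154588840) (nat_lit 76) (nat_lit 1143607511) (nat_lit 152) (nat_lit 18162873976) (nat_lit 15) (nat_lit 5) (nat_lit 16) (nat_lit 5) (nat_lit 17) (nat_lit 4) (nat_lit 365) (nat_lit 282) (nat_lit 253)) (XT.nd (nat_lit 78) (nat_lit 76) (nat_lit 0) (XT.lf (nat_lit 0) (nat_lit 18695377548) (nat_lit 152) (nat_lit 5910550060) (nat_lit 0) (nat_lit 6097262937) (nat_lit 15) (nat_lit 5) (nat_lit 17) (nat_lit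 4) (nat_lit 15) (nat_lit 4) (nat_lit 366) (nat_lit 282) (nat_lit 252)) (XT.lf (nat_lit 0) (nat_lit 8081494693) (nat_lit 76) (nat_lit 18352746657) (nat_lit 76) (nat_lit 5574041852) (nat_lit 14) (nat_lit 4) (nat_lit 15) (nat_lit 5) (nat_lit 15) (nat_lit 4) (nat_lit 367) (nat_lit 282) (nat_lit 251)))))) (XT.nd (nat_lit 468) (nat_lit 228) (nat_lit 0) (XT.nd (nat_lit 234) (nat_lit 76) (nat_lit 0) (XT.nd (nat_lit 78) (nat_lit 76) (nat_lit 0) (XT.lf (nat_lit 0) (nat_lit 1104797881) (nat_lit 152) (nat_lit 10707955765) (nat_lit 76) (nat_lit 21567162677) (nat_lit 13) (nat_lit 5) (nat_lit 15) (nat_lit 5) (nat_lit 14) (nat_lit 4) (nat_lit 368) (nat_lit 282) (nat_lit 250)) (XT.nd (nat_lit 78) (nat_lit 0) (nat_lit 0) (XT.lf (nat_lit 0) (nat_lit 2967904915) (nat_lit 76) (nat_lit 4954460114) (nat_lit 152) (nat_lit 26898527070) (nat_lit 12) (nat_lit 5) (nat_lit 13) (nat_lit 5) (nat_lit 14) (nat_lit 4) (nat_lit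 369) (nat_lit 282) (nat_lit 249)) (XT.lf (nat_lit 0) (nat_lit 15106590629) (nat_lit 152) (nat_lit 19003957102) (nat_lit 0) (nat_lit 2222613254) (nat_lit 12) (nat_lit 5) (nat_lit 14) (nat_lit 4) (nat_lit 12) (nat_lit 4) (nat_lit 370) (nat_lit 282) (nat_lit 248)))) (XT.nd (nat_lit 78) (nat_lit 76) (nat_lit 0) (XT.lf (nat_lit 0) (nat_lit 22597998497) (nat_lit 152) (nat_lit 5754846105) (nat_lit 0) (nat_lit 9569776462) (nat_lit 12) (nat_lit 5) (nat_lit 14) (nat_lit 4) (nat_lit 12) (nat_lit 4) (nat_lit 371) (nat_lit 282) (nat_lit 247)) (XT.nd (nat_lit 78) (nat_lit 0) (nat_lit 0) (XT.lf (nat_lit 0) (nat_lit 8132205224) (nat_lit 76) (nat_lit 22312766525) (nat_lit 76) (nat_lit 9147168624) (nat_lit 11) (nat_lit 4) (nat_lit 12) (nat_lit 5) (nat_lit 12) (nat_lit 4) (nat_lit 372) (nat_lit 282) (nat_lit 246)) (XT.lf (nat_lit 0) (nat_lit 22655916148) (nat_lit 76) (nat_lit 15993358717) (nat_lit 76) (nat_lit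 2696926657) (nat_lit 11) (nat_lit 4) (nat_lit 12) (nat_lit 5) (nat_lit 12) (nat_lit 4) (nat_lit 373) (nat_lit 282) (nat_lit 245))))) (XT.nd (nat_lit 234) (nat_lit 76) (nat_lit 0) (XT.nd (nat_lit 78) (nat_lit 76) (nat_lit 0) (XT.lf (nat_lit 0) (nat_lit 3905618915) (nat_lit 152) (nat_lit 5492629623) (nat_lit 76) (nat_lit 33791276199) (nat_lit 10) (nat_lit 5) (nat_lit 12) (nat_lit 5) (nat_lit 11) (nat_lit 4) (nat_lit 374) (nat_lit 282) (nat_lit 244)) (XT.nd (nat_lit 78) (nat_lit 0) (nat_lit 0) (XT.lf (nat_lit 0) (nat_lit 8337237558) (nat_lit 76) (nat_lit 2439582154) (nat_lit 152) (nat_lit 34347577678) (nat_lit 9) (nat_lit 5) (nat_lit 10) (nat_lit 5) (nat_lit 11) (nat_lit 4) (nat_lit 375) (nat_lit 282) (nat_lit 243)) (XT.lf (nat_lit 0) (nat_lit 18010981249) (nat_lit 152) (nat_lit 24388555713) (nat_lit 0) (nat_lit 4755907535) (nat_lit 9) (nat_lit 5) (nat_lit 11) (nat_lit 4) (nat_lit 9) (nat_lit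 4) (nat_lit 376) (nat_lit 282) (nat_lit 242)))) (XT.nd (nat_lit 78) (nat_lit 76) (nat_lit 0) (XT.lf (nat_lit 0) (nat_lit 25551011635) (nat_lit 152) (nat_lit 11547284320) (nat_lit 0) (nat_lit 12191435410) (nat_lit 9) (nat_lit 5) (nat_lit 11) (nat_lit 4) (nat_lit 9) (nat_lit 4) (nat_lit 377) (nat_lit 282) (nat_lit 241)) (XT.nd (nat_lit 78) (nat_lit 0) (nat_lit 0) (XT.lf (nat_lit 0) (nat_lit 1826317591) (nat_lit 76) (nat_lit 31582650657) (nat_lit 76) (nat_lit 18123548232) (nat_lit 8) (nat_lit 4) (nat_lit 9) (nat_lit 5) (nat_lit 9) (nat_lit 4) (nat_lit 378) (nat_lit 282) (nat_lit 240)) (XT.lf (nat_lit 0) (nat_lit 15968699827) (nat_lit 76) (nat_lit 25735652752) (nat_lit 76) (nat_lit 12181763469) (nat_lit 8) (nat_lit 4) (nat_lit 9) (nat_lit 5) (nat_lit 9) (nat_lit 4) (nat_lit 379) (nat_lit 282) (nat_lit 239))))))))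
noncomputable def xc20 : XT := (XT.nd (nat_lit 43758) (nat_lit 0) (nat_lit 1140) (XT.nd (nat_lit 858) (nat_lit 152) (nat_lit 0) (XT.nd (nat_lit 390) (nat_lit 76) (nat_lit 0) (XT.nd (nat_lit 156) (nat_lit 76) (nat_lit 0) (XT.nd (nat_lit 78) (nat_lit 76) (nat_lit 0) (XT.lf (nat_lit 0) (nat_lit 30683721124) (nat_lit 76) (nat_lit 19659985746) (nat_lit 76) (nat_lit 6015823264) (nat_lit 8) (nat_lit 4) (nat_lit 9) (nat_lit 5) (nat_lit 9) (nat_lit 4) (nat_lit 380) (nat_lit 282) (nat_lit 238)) (XT.lf (nat_lit 0) (nat_lit 381363313) (nat_lit 152) (nat_lit 12955969430) (nat_lit 76) (nat_lit 45621202913) (nat_lit 7) (nat_lit 5) (nat_lit 9) (nat_lit 5) (nat_lit 8) (nat_lit 4) (nat_lit 381) (nat_lit 282) (nat_lit 237))) (XT.nd (nat_lit 78) (nat_lit 0) (nat_lit 0) (XT.lf (nat_lit 0) (nat_lit 220161554) (nat_lit 76) (nat_lit 6692241875) (nat_lit 152) (nat_lit 54775158129) (nat_lit 6) (nat_lit 5) (nat_lit 7)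 (nat_lit 5) (nat_lit 8) (nat_lit 4) (nat_lit 382) (nat_lit 282) (nat_lit 236)) (XT.nd (nat_lit 78) (nat_lit 0) (nat_lit 0) (XT.lf (nat_lit 0) (nat_lit 13843956140) (nat_lit 152) (nat_lit 50348352238) (nat_lit 0) (nat_lit 358520420) (nat_lit 6) (nat_lit 5) (nat_lit 8) (nat_lit 4) (nat_lit 6) (nat_lit 4) (nat_lit 383) (nat_lit 282) (nat_lit 235)) (XT.lf (nat_lit 0) (nat_lit 21129184548) (nat_lit 152) (nat_lit 38856226356) (nat_lit 0) (nat_lit 7571643991) (nat_lit 6) (nat_lit 5) (nat_lit 8) (nat_lit 4) (nat_lit 6) (nat_lit 4) (nat_lit 384) (nat_lit 282) (nat_lit 234))))) (XT.nd (nat_lit 234) (nat_lit 76) (nat_lit 0) (XT.nd (nat_lit 78) (nat_lit 0) (nat_lit 0) (XT.lf (nat_lit 0) (nat_lit 28721104515) (nat_lit 152) (nat_lit 26899330231) (nat_lit 0) (nat_lit 15094892683) (nat_lit 6) (nat_lit 5) (nat_lit 8) (nat_lit 4) (nat_lit 6) (nat_lit 4) (nat_lit 385) (nat_lit 282) (nat_lit 233)) (XT.nd (nat_lit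 78) (nat_lit 0) (nat_lit 0) (XT.lf (nat_lit 0) (nat_lit 36637792039) (nat_lit 152) (nat_lit 14449195063) (nat_lit 0) (nat_lit 22946178993) (nat_lit 6) (nat_lit 5) (nat_lit 8) (nat_lit 4) (nat_lit 6) (nat_lit 4) (nat_lit 386) (nat_lit 282) (nat_lit 232)) (XT.lf (nat_lit 0) (nat_lit 44898096377) (nat_lit 152) (nat_lit 1476177674) (nat_lit 0) (nat_lit 31144196460) (nat_lit 6) (nat_lit 5) (nat_lit 8) (nat_lit 4) (nat_lit 6) (nat_lit 4) (nat_lit 387) (nat_lit 282) (nat_lit 231)))) (XT.nd (nat_lit 78) (nat_lit 0) (nat_lit 0) (XT.lf (nat_lit 0) (nat_lit 12290440843) (nat_lit 76) (nat_lit 41349387313) (nat_lit 76) (nat_lit 27536166567) (nat_lit 5) (nat_lit 4) (nat_lit 6) (nat_lit 5) (nat_lit 6) (nat_lit 4) (nat_lit 388) (nat_lit 282) (nat_lit 230)) (XT.nd (nat_lit 78) (nat_lit 0) (nat_lit 0) (XT.lf (nat_lit 0) (nat_lit 26684077277) (nat_lit 76) (nat_lit 36101516418) (nat_lit 76) (nat_lit 22231799645)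 (nat_lit 5) (nat_lit 4) (nat_lit 6) (nat_lit 5) (nat_lit 6) (nat_lit 4) (nat_lit 389) (nat_lit 282) (nat_lit 229)) (XT.lf (nat_lit 0) (nat_lit 41709623362) (nat_lit 76) (nat_lit 30633072936) (nat_lit 76) (nat_lit 16709550423) (nat_lit 5) (nat_lit 4) (nat_lit 6) (nat_lit 5) (nat_lit 6) (nat_lit 4) (nat_lit 390) (nat_lit 282) (nat_lit 228)))))) (XT.nd (nat_lit 42432) (nat_lit 0) (nat_lit 4332) (XT.nd (nat_lit 156) (nat_lit 152) (nat_lit 0) (XT.nd (nat_lit 78) (nat_lit 0) (nat_lit 0) (XT.lf (nat_lit 0) (nat_lit 57402854207) (nat_lit 76) (nat_lit 24931036765) (nat_lit 76) (nat_lit 10956270689) (nat_lit 5) (nat_lit 4) (nat_lit 6) (nat_lit 5) (nat_lit 6) (nat_lit 4) (nat_lit 391) (nat_lit 282) (nat_lit 227)) (XT.lf (nat_lit 0) (nat_lit 73801134647) (nat_lit 76) (nat_lit 18981831626) (nat_lit 76) (nat_lit 4958262158) (nat_lit 5) (nat_lit 4) (nat_lit 6) (nat_lit 5) (nat_lit 6) (nat_lit 4) (nat_lit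 392) (nat_lit 282) (nat_lit 226))) (XT.nd (nat_lit 78) (nat_lit 76) (nat_lit 0) (XT.lf (nat_lit 0) (nat_lit 1273412733) (nat_lit 152) (nat_lit 11485021041) (nat_lit 76) (nat_lit 89657236503) (nat_lit 4) (nat_lit 5) (nat_lit 6) (nat_lit 5) (nat_lit 5) (nat_lit 4) (nat_lit 393) (nat_lit 282) (nat_lit 225)) (XT.nd (nat_lit 78) (nat_lit 0) (nat_lit 0) (XT.lf (nat_lit 0) (nat_lit 1499036661) (nat_lit 76) (nat_lit 6192269578) (nat_lit 152) (nat_lit 99631744873) (nat_lit 3) (nat_lit 5) (nat_lit 4) (nat_lit 5) (nat_lit 5) (nat_lit 4) (nat_lit 394) (nat_lit 282) (nat_lit 224)) (XT.lf (nat_lit 0) (nat_lit 14518871232) (nat_lit 152) (nat_lit 97179548760) (nat_lit 0) (nat_lit 774722483) (nat_lit 3) (nat_lit 5) (nat_lit 5) (nat_lit 4) (nat_lit 3) (nat_lit 4) (nat_lit 395) (nat_lit 282) (nat_lit 223))))) (XT.nd (nat_lit 234) (nat_lit 760) (nat_lit 0) (XT.nd (nat_lit 78) (nat_lit 836) (nat_lit 0) (XT.lf (nat_lit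 0) (nat_lit 4399536619) (nat_lit 304) (nat_lit 378927040) (nat_lit 304) (nat_lit 378927040) (nat_lit 81) (nat_lit 4) (nat_lit 85) (nat_lit 5) (nat_lit 85) (nat_lit 4) (nat_lit 334) (nat_lit 283) (nat_lit 283)) (XT.nd (nat_lit 78) (nat_lit 304) (nat_lit 0) (XT.lf (nat_lit 0) (nat_lit 658357359) (nat_lit 228) (nat_lit 5561855385) (nat_lit 228) (nat_lit 4358354655) (nat_lit 74) (nat_lit 4) (nat_lit 77) (nat_lit 5) (nat_lit 77) (nat_lit 4) (nat_lit 335) (nat_lit 283) (nat_lit 282)) (XT.lf (nat_lit 0) (nat_lit 2532592342) (nat_lit 304) (nat_lit 8073486963) (nat_lit 0) (nat_lit 251338069) (nat_lit 70) (nat_lit 5) (nat_lit 74) (nat_lit 4) (nat_lit 70) (nat_lit 4) (nat_lit 336) (nat_lit 283) (nat_lit 281)))) (XT.nd (nat_lit 78) (nat_lit 532) (nat_lit 0) (XT.lf (nat_lit 0) (nat_lit 4755211247) (nat_lit 228) (nat_lit 4868266319) (nat_lit 228) (nat_lit 1527195891) (nat_lit 67) (nat_lit 4) (nat_lit 70)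 (nat_lit 5) (nat_lit 70) (nat_lit 4) (nat_lit 337) (nat_lit 283) (nat_lit 280)) (XT.nd (nat_lit 78) (nat_lit 304) (nat_lit 0) (XT.lf (nat_lit 0) (nat_lit 5405365221) (nat_lit 228) (nat_lit 4872930752) (nat_lit 0) (nat_lit 1181657312) (nat_lit 64) (nat_lit 5) (nat_lit 67) (nat_lit 4) (nat_lit 64) (nat_lit 4) (nat_lit 338) (nat_lit 283) (nat_lit 279)) (XT.lf (nat_lit 0) (nat_lit 798796899) (nat_lit 304) (nat_lit 3535436118) (nat_lit 76) (nat_lit 7451455290) (nat_lit 60) (nat_lit 5) (nat_lit 64) (nat_lit 5) (nat_lit 61) (nat_lit 4) (nat_lit 339) (nat_lit 283) (nat_lit 278))))))) (XT.nd (nat_lit 858) (nat_lit 1140) (nat_lit 0) (XT.nd (nat_lit 390) (nat_lit 1064) (nat_lit 0) (XT.nd (nat_lit 156) (nat_lit 532) (nat_lit 0) (XT.nd (nat_lit 78) (nat_lit 304) (nat_lit 0) (XT.lf (nat_lit 0) (nat_lit 7791722325) (nat_lit 228) (nat_lit 2414650542) (nat_lit 0) (nat_lit 1921977125) (nat_lit 58) (nat_lit 5)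 (nat_lit 61) (nat_lit 4) (nat_lit 58) (nat_lit 4) (nat_lit 340) (nat_lit 283) (nat_lit 277)) (XT.lf (nat_lit 0) (nat_lit 2544217625) (nat_lit 304) (nat_lit 1526845398) (nat_lit 76) (nat_lit 8417920888) (nat_lit 54) (nat_lit 5) (nat_lit 58) (nat_lit 5) (nat_lit 55) (nat_lit 4) (nat_lit 341) (nat_lit 283) (nat_lit 276))) (XT.nd (nat_lit 78) (nat_lit 380) (nat_lit 0) (XT.lf (nat_lit 0) (nat_lit 9613107629) (nat_lit 228) (nat_lit 898858228) (nat_lit 0) (nat_lit 2356473772) (nat_lit 52) (nat_lit 5) (nat_lit 55) (nat_lit 4) (nat_lit 52) (nat_lit 4) (nat_lit 342) (nat_lit 283) (nat_lit 275)) (XT.nd (nat_lit 78) (nat_lit 152) (nat_lit 0) (XT.lf (nat_lit 0) (nat_lit 3649095875) (nat_lit 228) (nat_lit 572710046) (nat_lit 76) (nat_lit 9045435851) (nat_lit 49) (nat_lit 5) (nat_lit 52) (nat_lit 5) (nat_lit 50) (nat_lit 4) (nat_lit 343) (nat_lit 283) (nat_lit 274)) (XT.lf (nat_lit 0) (nat_lit 10771008706)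 (nat_lit 228) (nat_lit 562027842) (nat_lit 0) (nat_lit 2353871188) (nat_lit 47) (nat_lit 5) (nat_lit 50) (nat_lit 4) (nat_lit 47) (nat_lit 4) (nat_lit 344) (nat_lit 283) (nat_lit 273))))) (XT.nd (nat_lit 234) (nat_lit 456) (nat_lit 0) (XT.nd (nat_lit 78) (nat_lit 380) (nat_lit 0) (XT.lf (nat_lit 0) (nat_lit 4002044520) (nat_lit 228) (nat_lit 930321370) (nat_lit 76) (nat_lit 9195244712) (nat_lit 44) (nat_lit 5) (nat_lit 47) (nat_lit 5) (nat_lit 45) (nat_lit 4) (nat_lit 345) (nat_lit 283) (nat_lit 272)) (XT.nd (nat_lit 78) (nat_lit 228) (nat_lit 0) (XT.lf (nat_lit 0) (nat_lit 11143799009) (nat_lit 228) (nat_lit 1683861948) (nat_lit 0) (nat_lit 1763743933) (nat_lit 42) (nat_lit 5) (nat_lit 45) (nat_lit 4) (nat_lit 42) (nat_lit 4) (nat_lit 346) (nat_lit 283) (nat_lit 271)) (XT.lf (nat_lit 0) (nat_lit 3466607669) (nat_lit 228) (nat_lit 2904085130) (nat_lit 76) (nat_lit 8707574802) (nat_lit 39) (nat_lit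 5) (nat_lit 42) (nat_lit 5) (nat_lit 40) (nat_lit 4) (nat_lit 347) (nat_lit 283) (nat_lit 270)))) (XT.nd (nat_lit 78) (nat_lit 304) (nat_lit 0) (XT.lf (nat_lit 0) (nat_lit 10582979265) (nat_lit 228) (nat_lit 4595414700) (nat_lit 0) (nat_lit 412283694) (nat_lit 37) (nat_lit 5) (nat_lit 40) (nat_lit 4) (nat_lit 37) (nat_lit 4) (nat_lit 348) (nat_lit 283) (nat_lit 269)) (XT.nd (nat_lit 78) (nat_lit 76) (nat_lit 0) (XT.lf (nat_lit 0) (nat_lit 1877159132) (nat_lit 228) (nat_lit 6854299922) (nat_lit 76) (nat_lit 7397101063) (nat_lit 34) (nat_lit 5) (nat_lit 37) (nat_lit 5) (nat_lit 35) (nat_lit 4) (nat_lit 349) (nat_lit 283) (nat_lit 268)) (XT.lf (nat_lit 0) (nat_lit 6986933125) (nat_lit 76) (nat_lit 1940440453) (nat_lit 152) (nat_lit 7766788735) (nat_lit 33) (nat_lit 5) (nat_lit 34) (nat_lit 5) (nat_lit 35) (nat_lit 4) (nat_lit 350) (nat_lit 283) (nat_lit 267)))))) (XT.nd (nat_lit 468) (nat_lit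 532) (nat_lit 0) (XT.nd (nat_lit 234) (nat_lit 304) (nat_lit 0) (XT.nd (nat_lit 78) (nat_lit 152) (nat_lit 0) (XT.lf (nat_lit 0) (nat_lit 4072005321) (nat_lit 152) (nat_lit 12231704597) (nat_lit 152) (nat_lit 985177295) (nat_lit 31) (nat_lit 4) (nat_lit 33) (nat_lit 5) (nat_lit 33) (nat_lit 4) (nat_lit 351) (nat_lit 283) (nat_lit 266)) (XT.nd (nat_lit 78) (nat_lit 0) (nat_lit 0) (XT.lf (nat_lit 0) (nat_lit 433103674) (nat_lit 76) (nat_lit 5524599107) (nat_lit 152) (nat_lit 11955665897) (nat_lit 29) (nat_lit 5) (nat_lit 30) (nat_lit 5) (nat_lit 31) (nat_lit 4) (nat_lit 352) (nat_lit 283) (nat_lit 265)) (XT.lf (nat_lit 0) (nat_lit 13201054421) (nat_lit 152) (nat_lit 3872166985) (nat_lit 0) (nat_lit 1496393957) (nat_lit 29) (nat_lit 5) (nat_lit 31) (nat_lit 4) (nat_lit 29) (nat_lit 4) (nat_lit 353) (nat_lit 283) (nat_lit 264)))) (XT.nd (nat_lit 78) (nat_lit 76) (nat_lit 0) (XT.lf (nat_lit 0) (nat_lit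 1501834385) (nat_lit 228) (nat_lit 9020954974) (nat_lit 76) (nat_lit 8735955908) (nat_lit 26) (nat_lit 5) (nat_lit 29) (nat_lit 5) (nat_lit 27) (nat_lit 4) (nat_lit 354) (nat_lit 283) (nat_lit 263)) (XT.nd (nat_lit 78) (nat_lit 0) (nat_lit 0) (XT.lf (nat_lit 0) (nat_lit 4891676936) (nat_lit 76) (nat_lit 3634920207) (nat_lit 152) (nat_lit 11456523063) (nat_lit 25) (nat_lit 5) (nat_lit 26) (nat_lit 5) (nat_lit 27) (nat_lit 4) (nat_lit 355) (nat_lit 283) (nat_lit 262)) (XT.lf (nat_lit 0) (nat_lit 15868361062) (nat_lit 152) (nat_lit 1385141573) (nat_lit 0) (nat_lit 3491275980) (nat_lit 25) (nat_lit 5) (nat_lit 27) (nat_lit 4) (nat_lit 25) (nat_lit 4) (nat_lit 356) (nat_lit 283) (nat_lit 261))))) (XT.nd (nat_lit 234) (nat_lit 228) (nat_lit 0) (XT.nd (nat_lit 78) (nat_lit 76) (nat_lit 0) (XT.lf (nat_lit 0) (nat_lit 1999266464) (nat_lit 228) (nat_lit 8624706725) (nat_lit 76) (nat_lit 10919808201)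 (nat_lit 22) (nat_lit 5) (nat_lit 25) (nat_lit 5) (nat_lit 23) (nat_lit 4) (nat_lit 357) (nat_lit 283) (nat_lit 260)) (XT.nd (nat_lit 78) (nat_lit 0) (nat_lit 0) (XT.lf (nat_lit 0) (nat_lit 5362467639) (nat_lit 76) (nat_lit 3670655568) (nat_lit 152) (nat_lit 13350738568) (nat_lit 21) (nat_lit 5) (nat_lit 22) (nat_lit 5) (nat_lit 23) (nat_lit 4) (nat_lit 358) (nat_lit 283) (nat_lit 259)) (XT.lf (nat_lit 0) (nat_lit 16395031875) (nat_lit 152) (nat_lit 3343073431) (nat_lit 0) (nat_lit 3528581648) (nat_lit 21) (nat_lit 5) (nat_lit 23) (nat_lit 4) (nat_lit 21) (nat_lit 4) (nat_lit 359) (nat_lit 283) (nat_lit 258)))) (XT.nd (nat_lit 78) (nat_lit 152) (nat_lit 0) (XT.lf (nat_lit 0) (nat_lit 10935266150) (nat_lit 76) (nat_lit 13190791643) (nat_lit 76) (nat_lit 67594988) (nat_lit 20) (nat_lit 4) (nat_lit 21) (nat_lit 5) (nat_lit 21) (nat_lit 4) (nat_lit 360) (nat_lit 283) (nat_lit 257)) (XT.nd (nat_lit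 78) (nat_lit 0) (nat_lit 0) (XT.lf (nat_lit 0) (nat_lit 517629324) (nat_lit 76) (nat_lit 6322442787) (nat_lit 152) (nat_lit 18327836952) (nat_lit 18) (nat_lit 5) (nat_lit 19) (nat_lit 5) (nat_lit 20) (nat_lit 4) (nat_lit 361) (nat_lit 283) (nat_lit 256)) (XT.lf (nat_lit 0) (nat_lit 14102984660) (nat_lit 152) (nat_lit 11189037262) (nat_lit 0) (nat_lit 898524815) (nat_lit 18) (nat_lit 5) (nat_lit 20) (nat_lit 4) (nat_lit 18) (nat_lit 4) (nat_lit 362) (nat_lit 283) (nat_lit 255))))))))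
noncomputable def xc21 : XT := (XT.nd (nat_lit 1794) (nat_lit 228) (nat_lit 0) (XT.nd (nat_lit 858) (nat_lit 380) (nat_lit 0) (XT.nd (nat_lit 390) (nat_lit 228) (nat_lit 0) (XT.nd (nat_lit 156) (nat_lit 152) (nat_lit 0) (XT.nd (nat_lit 78) (nat_lit 76) (nat_lit 0) (XT.lf (nat_lit 0) (nat_lit 2694821279) (nat_lit 76) (nat_lit 18995238474) (nat_lit 76) (nat_lit 5575451233) (nat_lit 17) (nat_lit 4) (nat_lit 18) (nat_lit 5) (nat_lit 18) (nat_lit 4) (nat_lit 363) (nat_lit 283) (nat_lit 254)) (XT.lf (nat_lit 0) (nat_lit 1227889992) (nat_lit 152) (nat_lit 11132244266) (nat_lit 76) (nat_lit 16034040790) (nat_lit 16) (nat_lit 5) (nat_lit 18) (nat_lit 5) (nat_lit 17) (nat_lit 4) (nat_lit 364) (nat_lit 283) (nat_lit 253))) (XT.nd (nat_lit 78) (nat_lit 76) (nat_lit 0) (XT.lf (nat_lit 0) (nat_lit 2751839846) (nat_lit 76) (nat_lit 5411711430) (nat_lit 152) (nat_lit 21416863297) (nat_lit 15) (nat_lit 5) (nat_lit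 16) (nat_lit 5) (nat_lit 17) (nat_lit 4) (nat_lit 365) (nat_lit 283) (nat_lit 252)) (XT.nd (nat_lit 78) (nat_lit 76) (nat_lit 0) (XT.lf (nat_lit 0) (nat_lit 15462434881) (nat_lit 152) (nat_lit 13498854507) (nat_lit 0) (nat_lit 1864204641) (nat_lit 15) (nat_lit 5) (nat_lit 17) (nat_lit 4) (nat_lit 15) (nat_lit 4) (nat_lit 366) (nat_lit 283) (nat_lit 251)) (XT.lf (nat_lit 0) (nat_lit 238003257) (nat_lit 76) (nat_lit 22833356162) (nat_lit 76) (nat_lit 9063135261) (nat_lit 14) (nat_lit 4) (nat_lit 15) (nat_lit 5) (nat_lit 15) (nat_lit 4) (nat_lit 367) (nat_lit 283) (nat_lit 250))))) (XT.nd (nat_lit 234) (nat_lit 76) (nat_lit 0) (XT.nd (nat_lit 78) (nat_lit 152) (nat_lit 0) (XT.lf (nat_lit 0) (nat_lit 14740420794) (nat_lit 76) (nat_lit 16350824902) (nat_lit 76) (nat_lit 2416803371) (nat_lit 14) (nat_lit 4) (nat_lit 15) (nat_lit 5) (nat_lit 15) (nat_lit 4) (nat_lit 368) (nat_lit 283) (nat_lit 249))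 (XT.nd (nat_lit 78) (nat_lit 76) (nat_lit 0) (XT.lf (nat_lit 0) (nat_lit 4368507296) (nat_lit 152) (nat_lit 5221952317) (nat_lit 76) (nat_lit 25361653339) (nat_lit 13) (nat_lit 5) (nat_lit 15) (nat_lit 5) (nat_lit 14) (nat_lit 4) (nat_lit 369) (nat_lit 283) (nat_lit 248)) (XT.lf (nat_lit 0) (nat_lit 8965099139) (nat_lit 76) (nat_lit 2465291633) (nat_lit 152) (nat_lit 25037669564) (nat_lit 12) (nat_lit 5) (nat_lit 13) (nat_lit 5) (nat_lit 14) (nat_lit 4) (nat_lit 370) (nat_lit 283) (nat_lit 247)))) (XT.nd (nat_lit 78) (nat_lit 76) (nat_lit 0) (XT.lf (nat_lit 0) (nat_lit 18850697462) (nat_lit 152) (nat_lit 14319520032) (nat_lit 0) (nat_lit 4889443799) (nat_lit 12) (nat_lit 5) (nat_lit 14) (nat_lit 4) (nat_lit 12) (nat_lit 4) (nat_lit 371) (nat_lit 283) (nat_lit 246)) (XT.nd (nat_lit 78) (nat_lit 76) (nat_lit 0) (XT.lf (nat_lit 0) (nat_lit 26574352995) (nat_lit 152) (nat_lit 676269433) (nat_lit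 0) (nat_lit 12482265173) (nat_lit 12) (nat_lit 5) (nat_lit 14) (nat_lit 4) (nat_lit 12) (nat_lit 4) (nat_lit 372) (nat_lit 283) (nat_lit 245)) (XT.lf (nat_lit 0) (nat_lit 13751310006) (nat_lit 76) (nat_lit 20976925134) (nat_lit 76) (nat_lit 6760233352) (nat_lit 11) (nat_lit 4) (nat_lit 12) (nat_lit 5) (nat_lit 12) (nat_lit 4) (nat_lit 373) (nat_lit 283) (nat_lit 244)))))) (XT.nd (nat_lit 468) (nat_lit 152) (nat_lit 0) (XT.nd (nat_lit 234) (nat_lit 76) (nat_lit 0) (XT.nd (nat_lit 78) (nat_lit 152) (nat_lit 0) (XT.lf (nat_lit 0) (nat_lit 28752992451) (nat_lit 76) (nat_lit 14458284065) (nat_lit 76) (nat_lit 122921844) (nat_lit 11) (nat_lit 4) (nat_lit 12) (nat_lit 5) (nat_lit 12) (nat_lit 4) (nat_lit 374) (nat_lit 283) (nat_lit 243)) (XT.nd (nat_lit 78) (nat_lit 76) (nat_lit 0) (XT.lf (nat_lit 0) (nat_lit 6630415768) (nat_lit 152) (nat_lit 988637676) (nat_lit 76) (nat_lit 37653667136) (nat_lit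 10) (nat_lit 5) (nat_lit 12) (nat_lit 5) (nat_lit 11) (nat_lit 4) (nat_lit 375) (nat_lit 283) (nat_lit 242)) (XT.lf (nat_lit 0) (nat_lit 13395744583) (nat_lit 76) (nat_lit 373597218) (nat_lit 152) (nat_lit 33537288917) (nat_lit 9) (nat_lit 5) (nat_lit 10) (nat_lit 5) (nat_lit 11) (nat_lit 4) (nat_lit 376) (nat_lit 283) (nat_lit 241)))) (XT.nd (nat_lit 78) (nat_lit 76) (nat_lit 0) (XT.lf (nat_lit 0) (nat_lit 21268399979) (nat_lit 152) (nat_lit 21136936222) (nat_lit 0) (nat_lit 7036816231) (nat_lit 9) (nat_lit 5) (nat_lit 11) (nat_lit 4) (nat_lit 9) (nat_lit 4) (nat_lit 377) (nat_lit 283) (nat_lit 240)) (XT.nd (nat_lit 78) (nat_lit 76) (nat_lit 0) (XT.lf (nat_lit 0) (nat_lit 29073199995) (nat_lit 152) (nat_lit 7866508272) (nat_lit 0) (nat_lit 14746829389) (nat_lit 9) (nat_lit 5) (nat_lit 11) (nat_lit 4) (nat_lit 9) (nat_lit 4) (nat_lit 378) (nat_lit 283) (nat_lit 239)) (XT.lf (nat_lit 0) (nat_lit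 6053714998) (nat_lit 76) (nat_lit 31203210474) (nat_lit 76) (nat_lit 16786566670) (nat_lit 8) (nat_lit 4) (nat_lit 9) (nat_lit 5) (nat_lit 9) (nat_lit 4) (nat_lit 379) (nat_lit 283) (nat_lit 238))))) (XT.nd (nat_lit 234) (nat_lit 76) (nat_lit 0) (XT.nd (nat_lit 78) (nat_lit 76) (nat_lit 0) (XT.lf (nat_lit 0) (nat_lit 20706260082) (nat_lit 76) (nat_lit 25157128041) (nat_lit 76) (nat_lit 10654509763) (nat_lit 8) (nat_lit 4) (nat_lit 9) (nat_lit 5) (nat_lit 9) (nat_lit 4) (nat_lit 380) (nat_lit 283) (nat_lit 237)) (XT.nd (nat_lit 78) (nat_lit 76) (nat_lit 0) (XT.lf (nat_lit 0) (nat_lit 35969455051) (nat_lit 76) (nat_lit 18866501844) (nat_lit 76) (nat_lit 4282003114) (nat_lit 8) (nat_lit 4) (nat_lit 9) (nat_lit 5) (nat_lit 9) (nat_lit 4) (nat_lit 381) (nat_lit 283) (nat_lit 236)) (XT.lf (nat_lit 0) (nat_lit 2300344543) (nat_lit 152) (nat_lit 9992780688) (nat_lit 76) (nat_lit 49556067331) (nat_lit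 7) (nat_lit 5) (nat_lit 9) (nat_lit 5) (nat_lit 8) (nat_lit 4) (nat_lit 382) (nat_lit 283) (nat_lit 235)))) (XT.nd (nat_lit 78) (nat_lit 0) (nat_lit 0) (XT.lf (nat_lit 0) (nat_lit 3738648622) (nat_lit 76) (nat_lit 5362532027) (nat_lit 152) (nat_lit 55615204767) (nat_lit 6) (nat_lit 5) (nat_lit 7) (nat_lit 5) (nat_lit 8) (nat_lit 4) (nat_lit 383) (nat_lit 283) (nat_lit 234)) (XT.nd (nat_lit 78) (nat_lit 0) (nat_lit 0) (XT.lf (nat_lit 0) (nat_lit 16306778260) (nat_lit 152) (nat_lit 49487641536) (nat_lit 0) (nat_lit 1930584562) (nat_lit 6) (nat_lit 5) (nat_lit 8) (nat_lit 4) (nat_lit 6) (nat_lit 4) (nat_lit 384) (nat_lit 283) (nat_lit 233)) (XT.lf (nat_lit 0) (nat_lit 23871952645) (nat_lit 152) (nat_lit 37581772613) (nat_lit 0) (nat_lit 9430357733) (nat_lit 6) (nat_lit 5) (nat_lit 8) (nat_lit 4) (nat_lit 6) (nat_lit 4) (nat_lit 385) (nat_lit 283) (nat_lit 232))))))) (XT.nd (nat_lit 42744) (nat_lit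 0) (nat_lit 3344) (XT.nd (nat_lit 390) (nat_lit 152) (nat_lit 0) (XT.nd (nat_lit 156) (nat_lit 76) (nat_lit 0) (XT.nd (nat_lit 78) (nat_lit 0) (nat_lit 0) (XT.lf (nat_lit 0) (nat_lit 31763168188) (nat_lit 152) (nat_lit 25180234780) (nat_lit 0) (nat_lit 17259286405) (nat_lit 6) (nat_lit 5) (nat_lit 8) (nat_lit 4) (nat_lit 6) (nat_lit 4) (nat_lit 386) (nat_lit 283) (nat_lit 231)) (XT.lf (nat_lit 0) (nat_lit 39999213495) (nat_lit 152) (nat_lit 12253500566) (nat_lit 0) (nat_lit 25436010884) (nat_lit 6) (nat_lit 5) (nat_lit 8) (nat_lit 4) (nat_lit 6) (nat_lit 4) (nat_lit 387) (nat_lit 283) (nat_lit 230))) (XT.nd (nat_lit 78) (nat_lit 0) (nat_lit 0) (XT.lf (nat_lit 0) (nat_lit 1253671614) (nat_lit 76) (nat_lit 47358077644) (nat_lit 76) (nat_lit 32738379005) (nat_lit 5) (nat_lit 4) (nat_lit 6) (nat_lit 5) (nat_lit 6) (nat_lit 4) (nat_lit 388) (nat_lit 283) (nat_lit 229)) (XT.nd (nat_lit 78) (nat_lit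 0) (nat_lit 0) (XT.lf (nat_lit 0) (nat_lit 15604492356) (nat_lit 76) (nat_lit 42130607216) (nat_lit 76) (nat_lit 27457102837) (nat_lit 5) (nat_lit 4) (nat_lit 6) (nat_lit 5) (nat_lit 6) (nat_lit 4) (nat_lit 389) (nat_lit 283) (nat_lit 228)) (XT.lf (nat_lit 0) (nat_lit 30589261590) (nat_lit 76) (nat_lit 36681592751) (nat_lit 76) (nat_lit 21956844810) (nat_lit 5) (nat_lit 4) (nat_lit 6) (nat_lit 5) (nat_lit 6) (nat_lit 4) (nat_lit 390) (nat_lit 283) (nat_lit 227))))) (XT.nd (nat_lit 234) (nat_lit 152) (nat_lit 0) (XT.nd (nat_lit 78) (nat_lit 0) (nat_lit 0) (XT.lf (nat_lit 0) (nat_lit 46243657338) (nat_lit 76) (nat_lit 30998060405) (nat_lit 76) (nat_lit 16224509070) (nat_lit 5) (nat_lit 4) (nat_lit 6) (nat_lit 5) (nat_lit 6) (nat_lit 4) (nat_lit 391) (nat_lit 283) (nat_lit 226)) (XT.nd (nat_lit 78) (nat_lit 0) (nat_lit 0) (XT.lf (nat_lit 0) (nat_lit 62604951973) (nat_lit 76) (nat_lit 25066477957)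 (nat_lit 76) (nat_lit 10246447200) (nat_lit 5) (nat_lit 4) (nat_lit 6) (nat_lit 5) (nat_lit 6) (nat_lit 4) (nat_lit 392) (nat_lit 283) (nat_lit 225)) (XT.lf (nat_lit 0) (nat_lit 79712100956) (nat_lit 76) (nat_lit 18872722592) (nat_lit 76) (nat_lit 4008425720) (nat_lit 5) (nat_lit 4) (nat_lit 6) (nat_lit 5) (nat_lit 6) (nat_lit 4) (nat_lit 393) (nat_lit 283) (nat_lit 224)))) (XT.nd (nat_lit 78) (nat_lit 76) (nat_lit 0) (XT.lf (nat_lit 0) (nat_lit 2455537786) (nat_lit 152) (nat_lit 9921713370) (nat_lit 76) (nat_lit 95125501692) (nat_lit 4) (nat_lit 5) (nat_lit 6) (nat_lit 5) (nat_lit 5) (nat_lit 4) (nat_lit 394) (nat_lit 283) (nat_lit 223)) (XT.nd (nat_lit 41964) (nat_lit 0) (nat_lit 6536) (XT.lf (nat_lit 0) (nat_lit 3650274526) (nat_lit 76) (nat_lit 5510750240) (nat_lit 152) (nat_lit 103495484011) (nat_lit 3) (nat_lit 5) (nat_lit 4) (nat_lit 5) (nat_lit 5) (nat_lit 4) (nat_lit 395) (nat_lit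 283) (nat_lit 222)) (XT.lf (nat_lit 0) (nat_lit 1934004829) (nat_lit 304) (nat_lit 1488680956) (nat_lit 304) (nat_lit 1488680956) (nat_lit 89) (nat_lit 4) (nat_lit 93) (nat_lit 5) (nat_lit 93) (nat_lit 4) (nat_lit 332) (nat_lit 284) (nat_lit 284)))))) (XT.nd (nat_lit 468) (nat_lit 1292) (nat_lit 0) (XT.nd (nat_lit 234) (nat_lit 760) (nat_lit 0) (XT.nd (nat_lit 78) (nat_lit 836) (nat_lit 0) (XT.lf (nat_lit 0) (nat_lit 3780826766) (nat_lit 304) (nat_lit 3803716200) (nat_lit 0) (nat_lit 2479240727) (nat_lit 85) (nat_lit 5) (nat_lit 89) (nat_lit 4) (nat_lit 85) (nat_lit 4) (nat_lit 333) (nat_lit 284) (nat_lit 283)) (XT.nd (nat_lit 78) (nat_lit 456) (nat_lit 0) (XT.lf (nat_lit 0) (nat_lit 402270366) (nat_lit 380) (nat_lit 1724582946) (nat_lit 76) (nat_lit 8191765527) (nat_lit 80) (nat_lit 5) (nat_lit 85) (nat_lit 5) (nat_lit 81) (nat_lit 4) (nat_lit 334) (nat_lit 284) (nat_lit 282)) (XT.lf (nat_lit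 0) (nat_lit 238135227) (nat_lit 228) (nat_lit 6980939194) (nat_lit 228) (nat_lit 3367571526) (nat_lit 74) (nat_lit 4) (nat_lit 77) (nat_lit 5) (nat_lit 77) (nat_lit 4) (nat_lit 335) (nat_lit 284) (nat_lit 281)))) (XT.nd (nat_lit 78) (nat_lit 456) (nat_lit 0) (XT.lf (nat_lit 0) (nat_lit 2138234799) (nat_lit 228) (nat_lit 1232806139) (nat_lit 304) (nat_lit 7498219785) (nat_lit 70) (nat_lit 5) (nat_lit 73) (nat_lit 5) (nat_lit 74) (nat_lit 4) (nat_lit 336) (nat_lit 284) (nat_lit 280)) (XT.nd (nat_lit 78) (nat_lit 228) (nat_lit 0) (XT.lf (nat_lit 0) (nat_lit 3897725455) (nat_lit 228) (nat_lit 6423184143) (nat_lit 228) (nat_lit 845895321) (nat_lit 67) (nat_lit 4) (nat_lit 70) (nat_lit 5) (nat_lit 70) (nat_lit 4) (nat_lit 337) (nat_lit 284) (nat_lit 279)) (XT.lf (nat_lit 0) (nat_lit 5505573974) (nat_lit 152) (nat_lit 427503508) (nat_lit 228) (nat_lit 5547072876) (nat_lit 64) (nat_lit 5) (nat_lit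 66) (nat_lit 5) (nat_lit 67) (nat_lit 4) (nat_lit 338) (nat_lit 284) (nat_lit 278))))) (XT.nd (nat_lit 234) (nat_lit 532) (nat_lit 0) (XT.nd (nat_lit 78) (nat_lit 456) (nat_lit 0) (XT.lf (nat_lit 0) (nat_lit 1163276072) (nat_lit 304) (nat_lit 4875522737) (nat_lit 76) (nat_lit 5770983454) (nat_lit 60) (nat_lit 5) (nat_lit 64) (nat_lit 5) (nat_lit 61) (nat_lit 4) (nat_lit 339) (nat_lit 284) (nat_lit 277)) (XT.nd (nat_lit 78) (nat_lit 304) (nat_lit 0) (XT.lf (nat_lit 0) (nat_lit 8011507980) (nat_lit 228) (nat_lit 3981865222) (nat_lit 0) (nat_lit 163458463) (nat_lit 58) (nat_lit 5) (nat_lit 61) (nat_lit 4) (nat_lit 58) (nat_lit 4) (nat_lit 340) (nat_lit 284) (nat_lit 276)) (XT.lf (nat_lit 0) (nat_lit 2603766072) (nat_lit 304) (nat_lit 3345130083) (nat_lit 76) (nat_lit 6572398316) (nat_lit 54) (nat_lit 5) (nat_lit 58) (nat_lit 5) (nat_lit 55) (nat_lit 4) (nat_lit 341) (nat_lit 284) (nat_lit 275))))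 (XT.nd (nat_lit 78) (nat_lit 380) (nat_lit 0) (XT.lf (nat_lit 0) (nat_lit 9526967134) (nat_lit 228) (nat_lit 2954362127) (nat_lit 0) (nat_lit 423832909) (nat_lit 52) (nat_lit 5) (nat_lit 55) (nat_lit 4) (nat_lit 52) (nat_lit 4) (nat_lit 342) (nat_lit 284) (nat_lit 274)) (XT.nd (nat_lit 78) (nat_lit 152) (nat_lit 0) (XT.lf (nat_lit 0) (nat_lit 3401034124) (nat_lit 228) (nat_lit 2888311922) (nat_lit 76) (nat_lit 7018519784) (nat_lit 49) (nat_lit 5) (nat_lit 52) (nat_lit 5) (nat_lit 50) (nat_lit 4) (nat_lit 343) (nat_lit 284) (nat_lit 273)) (XT.lf (nat_lit 0) (nat_lit 10375584296) (nat_lit 228) (nat_lit 3125350028) (nat_lit 0) (nat_lit 231054732) (nat_lit 47) (nat_lit 5) (nat_lit 50) (nat_lit 4) (nat_lit 47) (nat_lit 4) (nat_lit 344) (nat_lit 284) (nat_lit 272))))))))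
noncomputable def xc22 : XT := (XT.nd (nat_lit 1794) (nat_lit 760) (nat_lit 0) (XT.nd (nat_lit 858) (nat_lit 836) (nat_lit 0) (XT.nd (nat_lit 390) (nat_lit 608) (nat_lit 0) (XT.nd (nat_lit 156) (nat_lit 608) (nat_lit 0) (XT.nd (nat_lit 78) (nat_lit 152) (nat_lit 0) (XT.lf (nat_lit 0) (nat_lit 3442451589) (nat_lit 228) (nat_lit 3763337817) (nat_lit 76) (nat_lit 6970893677) (nat_lit 44) (nat_lit 5) (nat_lit 47) (nat_lit 5) (nat_lit 45) (nat_lit 4) (nat_lit 345) (nat_lit 284) (nat_lit 271)) (XT.lf (nat_lit 0) (nat_lit 9863710198) (nat_lit 152) (nat_lit 576341858) (nat_lit 228) (nat_lit 4204781973) (nat_lit 42) (nat_lit 5) (nat_lit 44) (nat_lit 5) (nat_lit 45) (nat_lit 4) (nat_lit 346) (nat_lit 284) (nat_lit 270))) (XT.nd (nat_lit 78) (nat_lit 380) (nat_lit 0) (XT.lf (nat_lit 0) (nat_lit 2590344910) (nat_lit 228) (nat_lit 6275724828) (nat_lit 76) (nat_lit 6269890835) (nat_lit 39) (nat_lit 5) (nat_lit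 42) (nat_lit 5) (nat_lit 40) (nat_lit 4) (nat_lit 347) (nat_lit 284) (nat_lit 269)) (XT.nd (nat_lit 78) (nat_lit 228) (nat_lit 0) (XT.lf (nat_lit 0) (nat_lit 7394085362) (nat_lit 152) (nat_lit 2180926890) (nat_lit 228) (nat_lit 6077337719) (nat_lit 37) (nat_lit 5) (nat_lit 39) (nat_lit 5) (nat_lit 40) (nat_lit 4) (nat_lit 348) (nat_lit 284) (nat_lit 268)) (XT.lf (nat_lit 0) (nat_lit 677884712) (nat_lit 228) (nat_lit 10787013311) (nat_lit 76) (nat_lit 4730184182) (nat_lit 34) (nat_lit 5) (nat_lit 37) (nat_lit 5) (nat_lit 35) (nat_lit 4) (nat_lit 349) (nat_lit 284) (nat_lit 267))))) (XT.nd (nat_lit 234) (nat_lit 304) (nat_lit 0) (XT.nd (nat_lit 78) (nat_lit 228) (nat_lit 0) (XT.lf (nat_lit 0) (nat_lit 2814886225) (nat_lit 76) (nat_lit 4784273077) (nat_lit 152) (nat_lit 9165418137) (nat_lit 33) (nat_lit 5) (nat_lit 34) (nat_lit 5) (nat_lit 35) (nat_lit 4) (nat_lit 350) (nat_lit 284) (nat_lit 266))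 (XT.nd (nat_lit 78) (nat_lit 228) (nat_lit 0) (XT.lf (nat_lit 0) (nat_lit 14822289454) (nat_lit 152) (nat_lit 377933569) (nat_lit 0) (nat_lit 2163699162) (nat_lit 33) (nat_lit 5) (nat_lit 35) (nat_lit 4) (nat_lit 33) (nat_lit 4) (nat_lit 351) (nat_lit 284) (nat_lit 265)) (XT.lf (nat_lit 0) (nat_lit 4338812351) (nat_lit 228) (nat_lit 4245568523) (nat_lit 76) (nat_lit 9407277715) (nat_lit 30) (nat_lit 5) (nat_lit 33) (nat_lit 5) (nat_lit 31) (nat_lit 4) (nat_lit 352) (nat_lit 284) (nat_lit 264)))) (XT.nd (nat_lit 78) (nat_lit 228) (nat_lit 0) (XT.lf (nat_lit 0) (nat_lit 9801153861) (nat_lit 76) (nat_lit 1642432503) (nat_lit 152) (nat_lit 7208497076) (nat_lit 29) (nat_lit 5) (nat_lit 30) (nat_lit 5) (nat_lit 31) (nat_lit 4) (nat_lit 353) (nat_lit 284) (nat_lit 263)) (XT.nd (nat_lit 78) (nat_lit 76) (nat_lit 0) (XT.lf (nat_lit 0) (nat_lit 5045417624) (nat_lit 152) (nat_lit 13843209630) (nat_lit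 152) (nat_lit 457392113) (nat_lit 27) (nat_lit 4) (nat_lit 29) (nat_lit 5) (nat_lit 29) (nat_lit 4) (nat_lit 354) (nat_lit 284) (nat_lit 262)) (XT.lf (nat_lit 0) (nat_lit 6451954187) (nat_lit 228) (nat_lit 619432886) (nat_lit 76) (nat_lit 13002887740) (nat_lit 26) (nat_lit 5) (nat_lit 29) (nat_lit 5) (nat_lit 27) (nat_lit 4) (nat_lit 355) (nat_lit 284) (nat_lit 261)))))) (XT.nd (nat_lit 468) (nat_lit 304) (nat_lit 0) (XT.nd (nat_lit 234) (nat_lit 228) (nat_lit 0) (XT.nd (nat_lit 78) (nat_lit 228) (nat_lit 0) (XT.lf (nat_lit 0) (nat_lit 13679012063) (nat_lit 152) (nat_lit 7104878848) (nat_lit 0) (nat_lit 55500967) (nat_lit 25) (nat_lit 5) (nat_lit 27) (nat_lit 4) (nat_lit 25) (nat_lit 4) (nat_lit 356) (nat_lit 284) (nat_lit 260)) (XT.nd (nat_lit 78) (nat_lit 76) (nat_lit 0) (XT.lf (nat_lit 0) (nat_lit 6971593150) (nat_lit 152) (nat_lit 14293175653) (nat_lit 152) (nat_lit 378109732) (nat_lit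 23) (nat_lit 4) (nat_lit 25) (nat_lit 5) (nat_lit 25) (nat_lit 4) (nat_lit 357) (nat_lit 284) (nat_lit 259)) (XT.lf (nat_lit 0) (nat_lit 6541127573) (nat_lit 228) (nat_lit 914248209) (nat_lit 76) (nat_lit 15031367499) (nat_lit 22) (nat_lit 5) (nat_lit 25) (nat_lit 5) (nat_lit 23) (nat_lit 4) (nat_lit 358) (nat_lit 284) (nat_lit 258)))) (XT.nd (nat_lit 78) (nat_lit 152) (nat_lit 0) (XT.lf (nat_lit 0) (nat_lit 13538904854) (nat_lit 76) (nat_lit 252272907) (nat_lit 152) (nat_lit 9581761108) (nat_lit 21) (nat_lit 5) (nat_lit 22) (nat_lit 5) (nat_lit 23) (nat_lit 4) (nat_lit 359) (nat_lit 284) (nat_lit 257)) (XT.nd (nat_lit 78) (nat_lit 76) (nat_lit 0) (XT.lf (nat_lit 0) (nat_lit 4194291014) (nat_lit 76) (nat_lit 17195117410) (nat_lit 76) (nat_lit 2914494088) (nat_lit 20) (nat_lit 4) (nat_lit 21) (nat_lit 5) (nat_lit 21) (nat_lit 4) (nat_lit 360) (nat_lit 284) (nat_lit 256)) (XT.lf (nat_lit 0) (nat_lit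 3979529728) (nat_lit 152) (nat_lit 6435054551) (nat_lit 76) (nat_lit 14866484301) (nat_lit 19) (nat_lit 5) (nat_lit 21) (nat_lit 5) (nat_lit 20) (nat_lit 4) (nat_lit 361) (nat_lit 284) (nat_lit 255))))) (XT.nd (nat_lit 234) (nat_lit 152) (nat_lit 0) (XT.nd (nat_lit 78) (nat_lit 76) (nat_lit 0) (XT.lf (nat_lit 0) (nat_lit 7814507612) (nat_lit 76) (nat_lit 3293765654) (nat_lit 152) (nat_lit 15199470351) (nat_lit 18) (nat_lit 5) (nat_lit 19) (nat_lit 5) (nat_lit 20) (nat_lit 4) (nat_lit 362) (nat_lit 284) (nat_lit 254)) (XT.nd (nat_lit 78) (nat_lit 76) (nat_lit 0) (XT.lf (nat_lit 0) (nat_lit 18577990851) (nat_lit 152) (nat_lit 4741436301) (nat_lit 0) (nat_lit 4066813143) (nat_lit 18) (nat_lit 5) (nat_lit 20) (nat_lit 4) (nat_lit 18) (nat_lit 4) (nat_lit 363) (nat_lit 284) (nat_lit 253)) (XT.lf (nat_lit 0) (nat_lit 9635759404) (nat_lit 76) (nat_lit 16794568626) (nat_lit 76) (nat_lit 2088082622)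 (nat_lit 17) (nat_lit 4) (nat_lit 18) (nat_lit 5) (nat_lit 18) (nat_lit 4) (nat_lit 364) (nat_lit 284) (nat_lit 252)))) (XT.nd (nat_lit 78) (nat_lit 76) (nat_lit 0) (XT.lf (nat_lit 0) (nat_lit 4806094199) (nat_lit 152) (nat_lit 5136122679) (nat_lit 76) (nat_lit 19765512679) (nat_lit 16) (nat_lit 5) (nat_lit 18) (nat_lit 5) (nat_lit 17) (nat_lit 4) (nat_lit 365) (nat_lit 284) (nat_lit 251)) (XT.nd (nat_lit 78) (nat_lit 0) (nat_lit 0) (XT.lf (nat_lit 0) (nat_lit 9254332840) (nat_lit 76) (nat_lit 2727921901) (nat_lit 152) (nat_lit 18974245781) (nat_lit 15) (nat_lit 5) (nat_lit 16) (nat_lit 5) (nat_lit 17) (nat_lit 4) (nat_lit 366) (nat_lit 284) (nat_lit 250)) (XT.lf (nat_lit 0) (nat_lit 19510723445) (nat_lit 152) (nat_lit 8041000545) (nat_lit 0) (nat_lit 4716200208) (nat_lit 15) (nat_lit 5) (nat_lit 17) (nat_lit 4) (nat_lit 15) (nat_lit 4) (nat_lit 367) (nat_lit 284) (nat_lit 249))))))) (XT.nd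 (nat_lit 858) (nat_lit 304) (nat_lit 0) (XT.nd (nat_lit 390) (nat_lit 228) (nat_lit 0) (XT.nd (nat_lit 156) (nat_lit 76) (nat_lit 0) (XT.nd (nat_lit 78) (nat_lit 76) (nat_lit 0) (XT.lf (nat_lit 0) (nat_lit 6206904721) (nat_lit 76) (nat_lit 21194491506) (nat_lit 76) (nat_lit 6243967669) (nat_lit 14) (nat_lit 4) (nat_lit 15) (nat_lit 5) (nat_lit 15) (nat_lit 4) (nat_lit 368) (nat_lit 284) (nat_lit 248)) (XT.lf (nat_lit 0) (nat_lit 567560283) (nat_lit 152) (nat_lit 13946948462) (nat_lit 76) (nat_lit 20577484877) (nat_lit 13) (nat_lit 5) (nat_lit 15) (nat_lit 5) (nat_lit 14) (nat_lit 4) (nat_lit 369) (nat_lit 284) (nat_lit 247))) (XT.nd (nat_lit 78) (nat_lit 76) (nat_lit 0) (XT.lf (nat_lit 0) (nat_lit 7497109097) (nat_lit 152) (nat_lit 21461511) (nat_lit 76) (nat_lit 29093348277) (nat_lit 13) (nat_lit 5) (nat_lit 15) (nat_lit 5) (nat_lit 14) (nat_lit 4) (nat_lit 370) (nat_lit 284) (nat_lit 246))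 (XT.nd (nat_lit 78) (nat_lit 0) (nat_lit 0) (XT.lf (nat_lit 0) (nat_lit 14718387183) (nat_lit 76) (nat_lit 106114957) (nat_lit 152) (nat_lit 23381812579) (nat_lit 12) (nat_lit 5) (nat_lit 13) (nat_lit 5) (nat_lit 14) (nat_lit 4) (nat_lit 371) (nat_lit 284) (nat_lit 245)) (XT.lf (nat_lit 0) (nat_lit 22504141452) (nat_lit 152) (nat_lit 9924716056) (nat_lit 0) (nat_lit 7452011120) (nat_lit 12) (nat_lit 5) (nat_lit 14) (nat_lit 4) (nat_lit 12) (nat_lit 4) (nat_lit 372) (nat_lit 284) (nat_lit 244))))) (XT.nd (nat_lit 234) (nat_lit 76) (nat_lit 0) (XT.nd (nat_lit 78) (nat_lit 76) (nat_lit 0) (XT.lf (nat_lit 0) (nat_lit 4240065547) (nat_lit 76) (nat_lit 26285581408) (nat_lit 76) (nat_lit 11114780636) (nat_lit 11) (nat_lit 4) (nat_lit 12) (nat_lit 5) (nat_lit 12) (nat_lit 4) (nat_lit 373) (nat_lit 284) (nat_lit 243)) (XT.nd (nat_lit 78) (nat_lit 76) (nat_lit 0) (XT.lf (nat_lit 0) (nat_lit 19166761692)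 (nat_lit 76) (nat_lit 19802207022) (nat_lit 76) (nat_lit 4518386785) (nat_lit 11) (nat_lit 4) (nat_lit 12) (nat_lit 5) (nat_lit 12) (nat_lit 4) (nat_lit 374) (nat_lit 284) (nat_lit 242)) (XT.lf (nat_lit 0) (nat_lit 2282513413) (nat_lit 152) (nat_lit 10757955594) (nat_lit 76) (nat_lit 32387828499) (nat_lit 10) (nat_lit 5) (nat_lit 12) (nat_lit 5) (nat_lit 11) (nat_lit 4) (nat_lit 375) (nat_lit 284) (nat_lit 241)))) (XT.nd (nat_lit 78) (nat_lit 0) (nat_lit 0) (XT.lf (nat_lit 0) (nat_lit 3361885245) (nat_lit 76) (nat_lit 5926713304) (nat_lit 152) (nat_lit 38177600002) (nat_lit 9) (nat_lit 5) (nat_lit 10) (nat_lit 5) (nat_lit 11) (nat_lit 4) (nat_lit 376) (nat_lit 284) (nat_lit 240)) (XT.nd (nat_lit 78) (nat_lit 0) (nat_lit 0) (XT.lf (nat_lit 0) (nat_lit 16698675862) (nat_lit 152) (nat_lit 31344519372) (nat_lit 0) (nat_lit 1561199868) (nat_lit 9) (nat_lit 5) (nat_lit 11) (nat_lit 4) (nat_lit 9)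 (nat_lit 4) (nat_lit 377) (nat_lit 284) (nat_lit 239)) (XT.lf (nat_lit 0) (nat_lit 24469570244) (nat_lit 152) (nat_lit 18138411354) (nat_lit 0) (nat_lit 9241821051) (nat_lit 9) (nat_lit 5) (nat_lit 11) (nat_lit 4) (nat_lit 9) (nat_lit 4) (nat_lit 378) (nat_lit 284) (nat_lit 238)))))) (XT.nd (nat_lit 468) (nat_lit 76) (nat_lit 0) (XT.nd (nat_lit 234) (nat_lit 152) (nat_lit 0) (XT.nd (nat_lit 78) (nat_lit 76) (nat_lit 0) (XT.lf (nat_lit 0) (nat_lit 32562812629) (nat_lit 152) (nat_lit 4397574944) (nat_lit 0) (nat_lit 17249088962) (nat_lit 9) (nat_lit 5) (nat_lit 11) (nat_lit 4) (nat_lit 9) (nat_lit 4) (nat_lit 379) (nat_lit 284) (nat_lit 237)) (XT.nd (nat_lit 78) (nat_lit 0) (nat_lit 0) (XT.lf (nat_lit 0) (nat_lit 10107948619) (nat_lit 76) (nat_lit 30986887809) (nat_lit 76) (nat_lit 15591283690) (nat_lit 8) (nat_lit 4) (nat_lit 9) (nat_lit 5) (nat_lit 9) (nat_lit 4) (nat_lit 380) (nat_lit 284)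 (nat_lit 236)) (XT.lf (nat_lit 0) (nat_lit 25314475820) (nat_lit 76) (nat_lit 24723095692) (nat_lit 76) (nat_lit 9249510190) (nat_lit 8) (nat_lit 4) (nat_lit 9) (nat_lit 5) (nat_lit 9) (nat_lit 4) (nat_lit 381) (nat_lit 284) (nat_lit 235)))) (XT.nd (nat_lit 78) (nat_lit 152) (nat_lit 0) (XT.lf (nat_lit 0) (nat_lit 41170692312) (nat_lit 76) (nat_lit 18198504316) (nat_lit 76) (nat_lit 2650650831) (nat_lit 8) (nat_lit 4) (nat_lit 9) (nat_lit 5) (nat_lit 9) (nat_lit 4) (nat_lit 382) (nat_lit 284) (nat_lit 234)) (XT.nd (nat_lit 78) (nat_lit 76) (nat_lit 0) (XT.lf (nat_lit 0) (nat_lit 4138638927) (nat_lit 152) (nat_lit 7217147874) (nat_lit 76) (nat_lit 53533919924) (nat_lit 7) (nat_lit 5) (nat_lit 9) (nat_lit 5) (nat_lit 8) (nat_lit 4) (nat_lit 383) (nat_lit 284) (nat_lit 233)) (XT.lf (nat_lit 0) (nat_lit 7106967892) (nat_lit 76) (nat_lit 4121069565) (nat_lit 152) (nat_lit 56673777914) (nat_lit 6)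 (nat_lit 5) (nat_lit 7) (nat_lit 5) (nat_lit 8) (nat_lit 4) (nat_lit 384) (nat_lit 284) (nat_lit 232))))) (XT.nd (nat_lit 234) (nat_lit 76) (nat_lit 0) (XT.nd (nat_lit 78) (nat_lit 0) (nat_lit 0) (XT.lf (nat_lit 0) (nat_lit 18728125620) (nat_lit 152) (nat_lit 48897961650) (nat_lit 0) (nat_lit 3436762878) (nat_lit 6) (nat_lit 5) (nat_lit 8) (nat_lit 4) (nat_lit 6) (nat_lit 4) (nat_lit 385) (nat_lit 284) (nat_lit 231)) (XT.nd (nat_lit 78) (nat_lit 0) (nat_lit 0) (XT.lf (nat_lit 0) (nat_lit 26595082132) (nat_lit 152) (nat_lit 36542706993) (nat_lit 0) (nat_lit 11244398561) (nat_lit 6) (nat_lit 5) (nat_lit 8) (nat_lit 4) (nat_lit 6) (nat_lit 4) (nat_lit 386) (nat_lit 284) (nat_lit 230)) (XT.lf (nat_lit 0) (nat_lit 34808023602) (nat_lit 152) (nat_lit 23660051995) (nat_lit 0) (nat_lit 19400844003) (nat_lit 6) (nat_lit 5) (nat_lit 8) (nat_lit 4) (nat_lit 6) (nat_lit 4) (nat_lit 387) (nat_lit 284) (nat_lit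 229)))) (XT.nd (nat_lit 78) (nat_lit 76) (nat_lit 0) (XT.lf (nat_lit 0) (nat_lit 43386504651) (nat_lit 152) (nat_lit 10219323667) (nat_lit 0) (nat_lit 27925519312) (nat_lit 6) (nat_lit 5) (nat_lit 8) (nat_lit 4) (nat_lit 6) (nat_lit 4) (nat_lit 388) (nat_lit 284) (nat_lit 228)) (XT.nd (nat_lit 78) (nat_lit 0) (nat_lit 0) (XT.lf (nat_lit 0) (nat_lit 3887335643) (nat_lit 76) (nat_lit 48500982039) (nat_lit 76) (nat_lit 32988753137) (nat_lit 5) (nat_lit 4) (nat_lit 6) (nat_lit 5) (nat_lit 6) (nat_lit 4) (nat_lit 389) (nat_lit 284) (nat_lit 227)) (XT.lf (nat_lit 0) (nat_lit 18833269781) (nat_lit 76) (nat_lit 43070471399) (nat_lit 76) (nat_lit 27509439105) (nat_lit 5) (nat_lit 4) (nat_lit 6) (nat_lit 5) (nat_lit 6) (nat_lit 4) (nat_lit 390) (nat_lit 284) (nat_lit 226))))))))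
noncomputable def xc23 : XT := (XT.nd (nat_lit 43602) (nat_lit 0) (nat_lit 532) (XT.nd (nat_lit 42666) (nat_lit 0) (nat_lit 2432) (XT.nd (nat_lit 42198) (nat_lit 0) (nat_lit 4940) (XT.nd (nat_lit 156) (nat_lit 0) (nat_lit 0) (XT.nd (nat_lit 78) (nat_lit 0) (nat_lit 0) (XT.lf (nat_lit 0) (nat_lit 34450679724) (nat_lit 76) (nat_lit 37404561743) (nat_lit 76) (nat_lit 21797050027) (nat_lit 5) (nat_lit 4) (nat_lit 6) (nat_lit 5) (nat_lit 6) (nat_lit 4) (nat_lit 391) (nat_lit 284) (nat_lit 225)) (XT.lf (nat_lit 0) (nat_lit 50776749782) (nat_lit 76) (nat_lit 31489762810) (nat_lit 76) (nat_lit 15837984978) (nat_lit 5) (nat_lit 4) (nat_lit 6) (nat_lit 5) (nat_lit 6) (nat_lit 4) (nat_lit 392) (nat_lit 284) (nat_lit 224))) (XT.nd (nat_lit 78) (nat_lit 0) (nat_lit 0) (XT.lf (nat_lit 0) (nat_lit 67850351549) (nat_lit 76) (nat_lit 25311991745) (nat_lit 76) (nat_lit 9618055707) (nat_lit 5) (nat_lit 4) (nat_lit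 6) (nat_lit 5) (nat_lit 6) (nat_lit 4) (nat_lit 393) (nat_lit 284) (nat_lit 223)) (XT.nd (nat_lit 41886) (nat_lit 0) (nat_lit 7372) (XT.lf (nat_lit 0) (nat_lit 85712136459) (nat_lit 76) (nat_lit 18856539569) (nat_lit 76) (nat_lit 3122452860) (nat_lit 5) (nat_lit 4) (nat_lit 6) (nat_lit 5) (nat_lit 6) (nat_lit 4) (nat_lit 394) (nat_lit 284) (nat_lit 222)) (XT.lf (nat_lit 0) (nat_lit 2127574439) (nat_lit 380) (nat_lit 432270056) (nat_lit 0) (nat_lit 2127574439) (nat_lit 102) (nat_lit 5) (nat_lit 107) (nat_lit 4) (nat_lit 102) (nat_lit 4) (nat_lit 330) (nat_lit 285) (nat_lit 285))))) (XT.nd (nat_lit 234) (nat_lit 1140) (nat_lit 0) (XT.nd (nat_lit 78) (nat_lit 608) (nat_lit 0) (XT.lf (nat_lit 0) (nat_lit 1420567755) (nat_lit 380) (nat_lit 8161596167) (nat_lit 0) (nat_lit 12902454) (nat_lit 93) (nat_lit 5) (nat_lit 98) (nat_lit 4) (nat_lit 93) (nat_lit 4) (nat_lit 331) (nat_lit 285) (nat_lit 284))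 (XT.nd (nat_lit 78) (nat_lit 304) (nat_lit 0) (XT.lf (nat_lit 0) (nat_lit 3671159713) (nat_lit 304) (nat_lit 4451923909) (nat_lit 304) (nat_lit 1703624986) (nat_lit 89) (nat_lit 4) (nat_lit 93) (nat_lit 5) (nat_lit 93) (nat_lit 4) (nat_lit 332) (nat_lit 285) (nat_lit 283)) (XT.lf (nat_lit 0) (nat_lit 4885977768) (nat_lit 304) (nat_lit 4207675778) (nat_lit 0) (nat_lit 978120635) (nat_lit 85) (nat_lit 5) (nat_lit 89) (nat_lit 4) (nat_lit 85) (nat_lit 4) (nat_lit 333) (nat_lit 285) (nat_lit 282)))) (XT.nd (nat_lit 78) (nat_lit 760) (nat_lit 0) (XT.lf (nat_lit 0) (nat_lit 1349401324) (nat_lit 380) (nat_lit 2349149350) (nat_lit 76) (nat_lit 6631666283) (nat_lit 80) (nat_lit 5) (nat_lit 85) (nat_lit 5) (nat_lit 81) (nat_lit 4) (nat_lit 334) (nat_lit 285) (nat_lit 281)) (XT.nd (nat_lit 78) (nat_lit 532) (nat_lit 0) (XT.lf (nat_lit 0) (nat_lit 8021474669) (nat_lit 304) (nat_lit 591536822) (nat_lit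 0) (nat_lit 1989636807) (nat_lit 77) (nat_lit 5) (nat_lit 81) (nat_lit 4) (nat_lit 77) (nat_lit 4) (nat_lit 335) (nat_lit 285) (nat_lit 280)) (XT.lf (nat_lit 0) (nat_lit 1063803281) (nat_lit 228) (nat_lit 2943719045) (nat_lit 304) (nat_lit 6881608716) (nat_lit 70) (nat_lit 5) (nat_lit 73) (nat_lit 5) (nat_lit 74) (nat_lit 4) (nat_lit 336) (nat_lit 285) (nat_lit 279)))))) (XT.nd (nat_lit 468) (nat_lit 1140) (nat_lit 0) (XT.nd (nat_lit 234) (nat_lit 608) (nat_lit 0) (XT.nd (nat_lit 78) (nat_lit 532) (nat_lit 0) (XT.lf (nat_lit 0) (nat_lit 2608945332) (nat_lit 228) (nat_lit 8204445627) (nat_lit 228) (nat_lit 377659151) (nat_lit 67) (nat_lit 4) (nat_lit 70) (nat_lit 5) (nat_lit 70) (nat_lit 4) (nat_lit 337) (nat_lit 285) (nat_lit 278)) (XT.nd (nat_lit 78) (nat_lit 304) (nat_lit 0) (XT.lf (nat_lit 0) (nat_lit 3975447651) (nat_lit 152) (nat_lit 2289450461) (nat_lit 228) (nat_lit 5243231503) (nat_lit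 64) (nat_lit 5) (nat_lit 66) (nat_lit 5) (nat_lit 67) (nat_lit 4) (nat_lit 338) (nat_lit 285) (nat_lit 277)) (XT.lf (nat_lit 0) (nat_lit 1315372246) (nat_lit 304) (nat_lit 6663977729) (nat_lit 76) (nat_lit 3862745322) (nat_lit 60) (nat_lit 5) (nat_lit 64) (nat_lit 5) (nat_lit 61) (nat_lit 4) (nat_lit 339) (nat_lit 285) (nat_lit 276)))) (XT.nd (nat_lit 78) (nat_lit 456) (nat_lit 0) (XT.lf (nat_lit 0) (nat_lit 6171869607) (nat_lit 152) (nat_lit 1863726679) (nat_lit 228) (nat_lit 4157433330) (nat_lit 58) (nat_lit 5) (nat_lit 60) (nat_lit 5) (nat_lit 61) (nat_lit 4) (nat_lit 340) (nat_lit 285) (nat_lit 275)) (XT.nd (nat_lit 78) (nat_lit 152) (nat_lit 0) (XT.lf (nat_lit 0) (nat_lit 2446638291) (nat_lit 304) (nat_lit 5623816975) (nat_lit 76) (nat_lit 4491439593) (nat_lit 54) (nat_lit 5) (nat_lit 58) (nat_lit 5) (nat_lit 55) (nat_lit 4) (nat_lit 341) (nat_lit 285) (nat_lit 274)) (XT.lf (nat_lit 0)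 (nat_lit 7455971147) (nat_lit 152) (nat_lit 1783644188) (nat_lit 228) (nat_lit 3710093289) (nat_lit 52) (nat_lit 5) (nat_lit 54) (nat_lit 5) (nat_lit 55) (nat_lit 4) (nat_lit 342) (nat_lit 285) (nat_lit 273))))) (XT.nd (nat_lit 234) (nat_lit 532) (nat_lit 0) (XT.nd (nat_lit 78) (nat_lit 380) (nat_lit 0) (XT.lf (nat_lit 0) (nat_lit 2931186789) (nat_lit 228) (nat_lit 5677453796) (nat_lit 76) (nat_lit 4748236561) (nat_lit 49) (nat_lit 5) (nat_lit 52) (nat_lit 5) (nat_lit 50) (nat_lit 4) (nat_lit 343) (nat_lit 285) (nat_lit 272)) (XT.nd (nat_lit 78) (nat_lit 228) (nat_lit 0) (XT.lf (nat_lit 0) (nat_lit 7594806430) (nat_lit 152) (nat_lit 2182417185) (nat_lit 228) (nat_lit 4007666805) (nat_lit 47) (nat_lit 5) (nat_lit 49) (nat_lit 5) (nat_lit 50) (nat_lit 4) (nat_lit 344) (nat_lit 285) (nat_lit 271)) (XT.lf (nat_lit 0) (nat_lit 2655143356) (nat_lit 228) (nat_lit 7084215172) (nat_lit 76) (nat_lit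 4494908407) (nat_lit 44) (nat_lit 5) (nat_lit 47) (nat_lit 5) (nat_lit 45) (nat_lit 4) (nat_lit 345) (nat_lit 285) (nat_lit 270)))) (XT.nd (nat_lit 78) (nat_lit 380) (nat_lit 0) (XT.lf (nat_lit 0) (nat_lit 6312698902) (nat_lit 152) (nat_lit 3213118022) (nat_lit 228) (nat_lit 5180439275) (nat_lit 42) (nat_lit 5) (nat_lit 44) (nat_lit 5) (nat_lit 45) (nat_lit 4) (nat_lit 346) (nat_lit 285) (nat_lit 269)) (XT.nd (nat_lit 78) (nat_lit 152) (nat_lit 0) (XT.lf (nat_lit 0) (nat_lit 1479607708) (nat_lit 228) (nat_lit 10150809850) (nat_lit 76) (nat_lit 3571898311) (nat_lit 39) (nat_lit 5) (nat_lit 42) (nat_lit 5) (nat_lit 40) (nat_lit 4) (nat_lit 347) (nat_lit 285) (nat_lit 268)) (XT.lf (nat_lit 0) (nat_lit 3283212917) (nat_lit 152) (nat_lit 5052969230) (nat_lit 228) (nat_lit 7386392775) (nat_lit 37) (nat_lit 5) (nat_lit 39) (nat_lit 5) (nat_lit 40) (nat_lit 4) (nat_lit 348) (nat_lit 285) (nat_lit 267)))))))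 (XT.nd (nat_lit 858) (nat_lit 684) (nat_lit 0) (XT.nd (nat_lit 390) (nat_lit 608) (nat_lit 0) (XT.nd (nat_lit 156) (nat_lit 380) (nat_lit 0) (XT.nd (nat_lit 78) (nat_lit 76) (nat_lit 0) (XT.lf (nat_lit 0) (nat_lit 1022633044) (nat_lit 152) (nat_lit 14468926262) (nat_lit 152) (nat_lit 778660861) (nat_lit 35) (nat_lit 4) (nat_lit 37) (nat_lit 5) (nat_lit 37) (nat_lit 4) (nat_lit 349) (nat_lit 285) (nat_lit 266)) (XT.lf (nat_lit 0) (nat_lit 6046144477) (nat_lit 228) (nat_lit 1843532952) (nat_lit 76) (nat_lit 8953636094) (nat_lit 34) (nat_lit 5) (nat_lit 37) (nat_lit 5) (nat_lit 35) (nat_lit 4) (nat_lit 350) (nat_lit 285) (nat_lit 265))) (XT.nd (nat_lit 78) (nat_lit 304) (nat_lit 0) (XT.lf (nat_lit 0) (nat_lit 12166638113) (nat_lit 76) (nat_lit 981369117) (nat_lit 152) (nat_lit 4298311596) (nat_lit 33) (nat_lit 5) (nat_lit 34) (nat_lit 5) (nat_lit 35) (nat_lit 4) (nat_lit 351) (nat_lit 285) (nat_lit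 264)) (XT.nd (nat_lit 78) (nat_lit 76) (nat_lit 0) (XT.lf (nat_lit 0) (nat_lit 2477588025) (nat_lit 228) (nat_lit 9447257952) (nat_lit 76) (nat_lit 6153901414) (nat_lit 30) (nat_lit 5) (nat_lit 33) (nat_lit 5) (nat_lit 31) (nat_lit 4) (nat_lit 352) (nat_lit 285) (nat_lit 263)) (XT.lf (nat_lit 0) (nat_lit 4354761729) (nat_lit 76) (nat_lit 5098237756) (nat_lit 152) (nat_lit 9290073477) (nat_lit 29) (nat_lit 5) (nat_lit 30) (nat_lit 5) (nat_lit 31) (nat_lit 4) (nat_lit 353) (nat_lit 285) (nat_lit 262))))) (XT.nd (nat_lit 234) (nat_lit 304) (nat_lit 0) (XT.nd (nat_lit 78) (nat_lit 304) (nat_lit 0) (XT.lf (nat_lit 0) (nat_lit 16741112472) (nat_lit 152) (nat_lit 693337933) (nat_lit 0) (nat_lit 2007285221) (nat_lit 29) (nat_lit 5) (nat_lit 31) (nat_lit 4) (nat_lit 29) (nat_lit 4) (nat_lit 354) (nat_lit 285) (nat_lit 261)) (XT.nd (nat_lit 78) (nat_lit 76) (nat_lit 0) (XT.lf (nat_lit 0) (nat_lit 4171993804)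 (nat_lit 228) (nat_lit 6579996370) (nat_lit 76) (nat_lit 9421080357) (nat_lit 26) (nat_lit 5) (nat_lit 29) (nat_lit 5) (nat_lit 27) (nat_lit 4) (nat_lit 355) (nat_lit 285) (nat_lit 260)) (XT.lf (nat_lit 0) (nat_lit 7525996572) (nat_lit 76) (nat_lit 3742693986) (nat_lit 152) (nat_lit 9673424515) (nat_lit 25) (nat_lit 5) (nat_lit 26) (nat_lit 5) (nat_lit 27) (nat_lit 4) (nat_lit 356) (nat_lit 285) (nat_lit 259)))) (XT.nd (nat_lit 78) (nat_lit 152) (nat_lit 0) (XT.lf (nat_lit 0) (nat_lit 443727269) (nat_lit 152) (nat_lit 18243476461) (nat_lit 152) (nat_lit 3063431158) (nat_lit 23) (nat_lit 4) (nat_lit 25) (nat_lit 5) (nat_lit 25) (nat_lit 4) (nat_lit 357) (nat_lit 285) (nat_lit 258)) (XT.nd (nat_lit 78) (nat_lit 76) (nat_lit 0) (XT.lf (nat_lit 0) (nat_lit 3841110820) (nat_lit 228) (nat_lit 7647039157) (nat_lit 76) (nat_lit 11109151568) (nat_lit 22) (nat_lit 5) (nat_lit 25) (nat_lit 5) (nat_lit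 23) (nat_lit 4) (nat_lit 358) (nat_lit 285) (nat_lit 257)) (XT.lf (nat_lit 0) (nat_lit 6552661741) (nat_lit 76) (nat_lit 4407442635) (nat_lit 152) (nat_lit 12527338415) (nat_lit 21) (nat_lit 5) (nat_lit 22) (nat_lit 5) (nat_lit 23) (nat_lit 4) (nat_lit 359) (nat_lit 285) (nat_lit 256)))))) (XT.nd (nat_lit 468) (nat_lit 304) (nat_lit 0) (XT.nd (nat_lit 234) (nat_lit 152) (nat_lit 0) (XT.nd (nat_lit 78) (nat_lit 228) (nat_lit 0) (XT.lf (nat_lit 0) (nat_lit 18415625508) (nat_lit 152) (nat_lit 3063501472) (nat_lit 0) (nat_lit 2943574033) (nat_lit 21) (nat_lit 5) (nat_lit 23) (nat_lit 4) (nat_lit 21) (nat_lit 4) (nat_lit 360) (nat_lit 285) (nat_lit 255)) (XT.nd (nat_lit 78) (nat_lit 76) (nat_lit 0) (XT.lf (nat_lit 0) (nat_lit 855801378) (nat_lit 152) (nat_lit 13956561894) (nat_lit 76) (nat_lit 10591152765) (nat_lit 19) (nat_lit 5) (nat_lit 21) (nat_lit 5) (nat_lit 20) (nat_lit 4) (nat_lit 361) (nat_lit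 285) (nat_lit 254)) (XT.lf (nat_lit 0) (nat_lit 33477884) (nat_lit 76) (nat_lit 7818020882) (nat_lit 152) (nat_lit 18582695396) (nat_lit 18) (nat_lit 5) (nat_lit 19) (nat_lit 5) (nat_lit 20) (nat_lit 4) (nat_lit 362) (nat_lit 285) (nat_lit 253)))) (XT.nd (nat_lit 78) (nat_lit 152) (nat_lit 0) (XT.lf (nat_lit 0) (nat_lit 14800241447) (nat_lit 76) (nat_lit 424622397) (nat_lit 152) (nat_lit 12290728722) (nat_lit 18) (nat_lit 5) (nat_lit 19) (nat_lit 5) (nat_lit 20) (nat_lit 4) (nat_lit 363) (nat_lit 285) (nat_lit 252)) (XT.nd (nat_lit 78) (nat_lit 76) (nat_lit 0) (XT.lf (nat_lit 0) (nat_lit 1404502249) (nat_lit 76) (nat_lit 21535260470) (nat_lit 76) (nat_lit 5712133970) (nat_lit 17) (nat_lit 4) (nat_lit 18) (nat_lit 5) (nat_lit 18) (nat_lit 4) (nat_lit 364) (nat_lit 285) (nat_lit 251)) (XT.lf (nat_lit 0) (nat_lit 1199639138) (nat_lit 152) (nat_lit 13565009429) (nat_lit 76) (nat_lit 15079215603)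 (nat_lit 16) (nat_lit 5) (nat_lit 18) (nat_lit 5) (nat_lit 17) (nat_lit 4) (nat_lit 365) (nat_lit 285) (nat_lit 250))))) (XT.nd (nat_lit 234) (nat_lit 228) (nat_lit 0) (XT.nd (nat_lit 78) (nat_lit 0) (nat_lit 0) (XT.lf (nat_lit 0) (nat_lit 561551807) (nat_lit 76) (nat_lit 7680095156) (nat_lit 152) (nat_lit 22855022103) (nat_lit 15) (nat_lit 5) (nat_lit 16) (nat_lit 5) (nat_lit 17) (nat_lit 4) (nat_lit 366) (nat_lit 285) (nat_lit 249)) (XT.nd (nat_lit 78) (nat_lit 0) (nat_lit 0) (XT.lf (nat_lit 0) (nat_lit 15490202319) (nat_lit 76) (nat_lit 184612688) (nat_lit 152) (nat_lit 16736145661) (nat_lit 15) (nat_lit 5) (nat_lit 16) (nat_lit 5) (nat_lit 17) (nat_lit 4) (nat_lit 367) (nat_lit 285) (nat_lit 248)) (XT.lf (nat_lit 0) (nat_lit 23456932471) (nat_lit 152) (nat_lit 2880423192) (nat_lit 0) (nat_lit 7454309842) (nat_lit 15) (nat_lit 5) (nat_lit 17) (nat_lit 4) (nat_lit 15) (nat_lit 4) (nat_lit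 368) (nat_lit 285) (nat_lit 247)))) (XT.nd (nat_lit 78) (nat_lit 152) (nat_lit 0) (XT.lf (nat_lit 0) (nat_lit 11920425740) (nat_lit 76) (nat_lit 19732191170) (nat_lit 76) (nat_lit 3588071399) (nat_lit 14) (nat_lit 4) (nat_lit 15) (nat_lit 5) (nat_lit 15) (nat_lit 4) (nat_lit 369) (nat_lit 285) (nat_lit 246)) (XT.nd (nat_lit 78) (nat_lit 76) (nat_lit 0) (XT.lf (nat_lit 0) (nat_lit 3367534903) (nat_lit 152) (nat_lit 9442783101) (nat_lit 76) (nat_lit 23952656522) (nat_lit 13) (nat_lit 5) (nat_lit 15) (nat_lit 5) (nat_lit 14) (nat_lit 4) (nat_lit 370) (nat_lit 285) (nat_lit 245)) (XT.lf (nat_lit 0) (nat_lit 5029429394) (nat_lit 76) (nat_lit 5530496925) (nat_lit 152) (nat_lit 27801501202) (nat_lit 12) (nat_lit 5) (nat_lit 13) (nat_lit 5) (nat_lit 14) (nat_lit 4) (nat_lit 371) (nat_lit 285) (nat_lit 244))))))))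
noncomputable def xc24 : XT := (XT.nd (nat_lit 1716) (nat_lit 0) (nat_lit 0) (XT.nd (nat_lit 858) (nat_lit 228) (nat_lit 0) (XT.nd (nat_lit 390) (nat_lit 152) (nat_lit 0) (XT.nd (nat_lit 156) (nat_lit 152) (nat_lit 0) (XT.nd (nat_lit 78) (nat_lit 0) (nat_lit 0) (XT.lf (nat_lit 0) (nat_lit 18146474411) (nat_lit 152) (nat_lit 19793843367) (nat_lit 0) (nat_lit 2098463162) (nat_lit 12) (nat_lit 5) (nat_lit 14) (nat_lit 4) (nat_lit 12) (nat_lit 4) (nat_lit 372) (nat_lit 285) (nat_lit 243)) (XT.lf (nat_lit 0) (nat_lit 26088223008) (nat_lit 152) (nat_lit 5785323761) (nat_lit 0) (nat_lit 9927192293) (nat_lit 12) (nat_lit 5) (nat_lit 14) (nat_lit 4) (nat_lit 12) (nat_lit 4) (nat_lit 373) (nat_lit 285) (nat_lit 242))) (XT.nd (nat_lit 78) (nat_lit 76) (nat_lit 0) (XT.lf (nat_lit 0) (nat_lit 8954817573) (nat_lit 76) (nat_lit 25482180127) (nat_lit 76) (nat_lit 9213511826) (nat_lit 11) (nat_lit 4) (nat_lit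 12) (nat_lit 5) (nat_lit 12) (nat_lit 4) (nat_lit 374) (nat_lit 285) (nat_lit 241)) (XT.nd (nat_lit 78) (nat_lit 76) (nat_lit 0) (XT.lf (nat_lit 0) (nat_lit 24413431919) (nat_lit 76) (nat_lit 18775478943) (nat_lit 76) (nat_lit 2404298656) (nat_lit 11) (nat_lit 4) (nat_lit 12) (nat_lit 5) (nat_lit 12) (nat_lit 4) (nat_lit 375) (nat_lit 285) (nat_lit 240)) (XT.lf (nat_lit 0) (nat_lit 4581730031) (nat_lit 152) (nat_lit 7167898788) (nat_lit 76) (nat_lit 35884189692) (nat_lit 10) (nat_lit 5) (nat_lit 12) (nat_lit 5) (nat_lit 11) (nat_lit 4) (nat_lit 376) (nat_lit 285) (nat_lit 239))))) (XT.nd (nat_lit 234) (nat_lit 76) (nat_lit 0) (XT.nd (nat_lit 78) (nat_lit 0) (nat_lit 0) (XT.lf (nat_lit 0) (nat_lit 7539607103) (nat_lit 76) (nat_lit 4333003363) (nat_lit 152) (nat_lit 37902985654) (nat_lit 9) (nat_lit 5) (nat_lit 10) (nat_lit 5) (nat_lit 11) (nat_lit 4) (nat_lit 377) (nat_lit 285) (nat_lit 238))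 (XT.nd (nat_lit 78) (nat_lit 0) (nat_lit 0) (XT.lf (nat_lit 0) (nat_lit 19569562289) (nat_lit 152) (nat_lit 29049486598) (nat_lit 0) (nat_lit 3404177964) (nat_lit 9) (nat_lit 5) (nat_lit 11) (nat_lit 4) (nat_lit 9) (nat_lit 4) (nat_lit 378) (nat_lit 285) (nat_lit 237)) (XT.lf (nat_lit 0) (nat_lit 27632051264) (nat_lit 152) (nat_lit 15366990262) (nat_lit 0) (nat_lit 11384786488) (nat_lit 9) (nat_lit 5) (nat_lit 11) (nat_lit 4) (nat_lit 9) (nat_lit 4) (nat_lit 379) (nat_lit 285) (nat_lit 236)))) (XT.nd (nat_lit 78) (nat_lit 76) (nat_lit 0) (XT.lf (nat_lit 0) (nat_lit 36037622316) (nat_lit 152) (nat_lit 1114271158) (nat_lit 0) (nat_lit 19712376157) (nat_lit 9) (nat_lit 5) (nat_lit 11) (nat_lit 4) (nat_lit 9) (nat_lit 4) (nat_lit 380) (nat_lit 285) (nat_lit 235)) (XT.nd (nat_lit 78) (nat_lit 0) (nat_lit 0) (XT.lf (nat_lit 0) (nat_lit 14016110559) (nat_lit 76) (nat_lit 30924909578) (nat_lit 76)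 (nat_lit 14525395436) (nat_lit 8) (nat_lit 4) (nat_lit 9) (nat_lit 5) (nat_lit 9) (nat_lit 4) (nat_lit 381) (nat_lit 285) (nat_lit 234)) (XT.lf (nat_lit 0) (nat_lit 29820927715) (nat_lit 76) (nat_lit 24424657504) (nat_lit 76) (nat_lit 7954411949) (nat_lit 8) (nat_lit 4) (nat_lit 9) (nat_lit 5) (nat_lit 9) (nat_lit 4) (nat_lit 382) (nat_lit 285) (nat_lit 233)))))) (XT.nd (nat_lit 390) (nat_lit 76) (nat_lit 0) (XT.nd (nat_lit 156) (nat_lit 76) (nat_lit 0) (XT.nd (nat_lit 78) (nat_lit 76) (nat_lit 0) (XT.lf (nat_lit 0) (nat_lit 46315634645) (nat_lit 76) (nat_lit 17646912415) (nat_lit 76) (nat_lit 1109303610) (nat_lit 8) (nat_lit 4) (nat_lit 9) (nat_lit 5) (nat_lit 9) (nat_lit 4) (nat_lit 383) (nat_lit 285) (nat_lit 232)) (XT.lf (nat_lit 0) (nat_lit 5908634054) (nat_lit 152) (nat_lit 4607237150) (nat_lit 76) (nat_lit 57571204788) (nat_lit 7) (nat_lit 5) (nat_lit 9) (nat_lit 5) (nat_lit 8) (nat_lit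 4) (nat_lit 384) (nat_lit 285) (nat_lit 231))) (XT.nd (nat_lit 78) (nat_lit 0) (nat_lit 0) (XT.lf (nat_lit 0) (nat_lit 10347927932) (nat_lit 76) (nat_lit 2957881263) (nat_lit 152) (nat_lit 57945392351) (nat_lit 6) (nat_lit 5) (nat_lit 7) (nat_lit 5) (nat_lit 8) (nat_lit 4) (nat_lit 385) (nat_lit 285) (nat_lit 230)) (XT.nd (nat_lit 78) (nat_lit 0) (nat_lit 0) (XT.lf (nat_lit 0) (nat_lit 21121228905) (nat_lit 152) (nat_lit 48563665209) (nat_lit 0) (nat_lit 4887194300) (nat_lit 6) (nat_lit 5) (nat_lit 8) (nat_lit 4) (nat_lit 6) (nat_lit 4) (nat_lit 386) (nat_lit 285) (nat_lit 229)) (XT.lf (nat_lit 0) (nat_lit 29312166719) (nat_lit 152) (nat_lit 35722990415) (nat_lit 0) (nat_lit 13024326373) (nat_lit 6) (nat_lit 5) (nat_lit 8) (nat_lit 4) (nat_lit 6) (nat_lit 4) (nat_lit 387) (nat_lit 285) (nat_lit 228))))) (XT.nd (nat_lit 234) (nat_lit 0) (nat_lit 0) (XT.nd (nat_lit 78) (nat_lit 76) (nat_lit 0)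 (XT.lf (nat_lit 0) (nat_lit 37869691906) (nat_lit 152) (nat_lit 22322243235) (nat_lit 0) (nat_lit 21530607997) (nat_lit 6) (nat_lit 5) (nat_lit 8) (nat_lit 4) (nat_lit 6) (nat_lit 4) (nat_lit 388) (nat_lit 285) (nat_lit 227)) (XT.nd (nat_lit 78) (nat_lit 76) (nat_lit 0) (XT.lf (nat_lit 0) (nat_lit 46814179525) (nat_lit 152) (nat_lit 8329517127) (nat_lit 0) (nat_lit 30426292224) (nat_lit 6) (nat_lit 5) (nat_lit 8) (nat_lit 4) (nat_lit 6) (nat_lit 4) (nat_lit 389) (nat_lit 285) (nat_lit 226)) (XT.lf (nat_lit 0) (nat_lit 6413657481) (nat_lit 76) (nat_lit 49814920494) (nat_lit 76) (nat_lit 33380553771) (nat_lit 5) (nat_lit 4) (nat_lit 6) (nat_lit 5) (nat_lit 6) (nat_lit 4) (nat_lit 390) (nat_lit 285) (nat_lit 225)))) (XT.nd (nat_lit 78) (nat_lit 0) (nat_lit 0) (XT.lf (nat_lit 0) (nat_lit 21995842847) (nat_lit 76) (nat_lit 44165794353) (nat_lit 76) (nat_lit 27687161514) (nat_lit 5) (nat_lit 4) (nat_lit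 6) (nat_lit 5) (nat_lit 6) (nat_lit 4) (nat_lit 391) (nat_lit 285) (nat_lit 224)) (XT.nd (nat_lit 78) (nat_lit 0) (nat_lit 0) (XT.lf (nat_lit 0) (nat_lit 38288365688) (nat_lit 76) (nat_lit 38266979720) (nat_lit 76) (nat_lit 21746188675) (nat_lit 5) (nat_lit 4) (nat_lit 6) (nat_lit 5) (nat_lit 6) (nat_lit 4) (nat_lit 392) (nat_lit 285) (nat_lit 223)) (XT.lf (nat_lit 0) (nat_lit 55330017726) (nat_lit 76) (nat_lit 32104431798) (nat_lit 76) (nat_lit 15543490081) (nat_lit 5) (nat_lit 4) (nat_lit 6) (nat_lit 5) (nat_lit 6) (nat_lit 4) (nat_lit 393) (nat_lit 285) (nat_lit 222))))))) (XT.nd (nat_lit 42510) (nat_lit 0) (nat_lit 2432) (XT.nd (nat_lit 42042) (nat_lit 0) (nat_lit 4712) (XT.nd (nat_lit 41808) (nat_lit 0) (nat_lit 6688) (XT.nd (nat_lit 41730) (nat_lit 0) (nat_lit 8132) (XT.lf (nat_lit 0) (nat_lit 73161374322) (nat_lit 76) (nat_lit 25663477854) (nat_lit 76) (nat_lit 9064297402) (nat_lit 5)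 (nat_lit 4) (nat_lit 6) (nat_lit 5) (nat_lit 6) (nat_lit 4) (nat_lit 394) (nat_lit 285) (nat_lit 221)) (XT.lf (nat_lit 0) (nat_lit 924031783) (nat_lit 380) (nat_lit 2635396253) (nat_lit 0) (nat_lit 924031783) (nat_lit 112) (nat_lit 5) (nat_lit 117) (nat_lit 4) (nat_lit 112) (nat_lit 4) (nat_lit 328) (nat_lit 286) (nat_lit 286))) (XT.nd (nat_lit 78) (nat_lit 1064) (nat_lit 0) (XT.lf (nat_lit 0) (nat_lit 6024570109) (nat_lit 380) (nat_lit 2355315589) (nat_lit 380) (nat_lit 787253865) (nat_lit 107) (nat_lit 4) (nat_lit 112) (nat_lit 5) (nat_lit 112) (nat_lit 4) (nat_lit 329) (nat_lit 286) (nat_lit 285)) (XT.nd (nat_lit 78) (nat_lit 684) (nat_lit 0) (XT.lf (nat_lit 0) (nat_lit 5648842918) (nat_lit 380) (nat_lit 1053380960) (nat_lit 0) (nat_lit 2676557634) (nat_lit 102) (nat_lit 5) (nat_lit 107) (nat_lit 4) (nat_lit 102) (nat_lit 4) (nat_lit 330) (nat_lit 286) (nat_lit 284)) (XT.lf (nat_lit 0) (nat_lit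 1029776549) (nat_lit 304) (nat_lit 1621905451) (nat_lit 380) (nat_lit 6950949285) (nat_lit 93) (nat_lit 5) (nat_lit 97) (nat_lit 5) (nat_lit 98) (nat_lit 4) (nat_lit 331) (nat_lit 286) (nat_lit 283))))) (XT.nd (nat_lit 234) (nat_lit 988) (nat_lit 0) (XT.nd (nat_lit 78) (nat_lit 684) (nat_lit 0) (XT.lf (nat_lit 0) (nat_lit 3080141187) (nat_lit 304) (nat_lit 6130821836) (nat_lit 304) (nat_lit 627680423) (nat_lit 89) (nat_lit 4) (nat_lit 93) (nat_lit 5) (nat_lit 93) (nat_lit 4) (nat_lit 332) (nat_lit 286) (nat_lit 282)) (XT.nd (nat_lit 78) (nat_lit 380) (nat_lit 0) (XT.lf (nat_lit 0) (nat_lit 5063885176) (nat_lit 228) (nat_lit 740558568) (nat_lit 304) (nat_lit 4283116875) (nat_lit 85) (nat_lit 5) (nat_lit 88) (nat_lit 5) (nat_lit 89) (nat_lit 4) (nat_lit 333) (nat_lit 286) (nat_lit 281)) (XT.lf (nat_lit 0) (nat_lit 2100582328) (nat_lit 380) (nat_lit 3383609478) (nat_lit 76) (nat_lit 4865630109)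 (nat_lit 80) (nat_lit 5) (nat_lit 85) (nat_lit 5) (nat_lit 81) (nat_lit 4) (nat_lit 334) (nat_lit 286) (nat_lit 280)))) (XT.nd (nat_lit 78) (nat_lit 760) (nat_lit 0) (XT.lf (nat_lit 0) (nat_lit 8629868184) (nat_lit 304) (nat_lit 1831529431) (nat_lit 0) (nat_lit 165198610) (nat_lit 77) (nat_lit 5) (nat_lit 81) (nat_lit 4) (nat_lit 77) (nat_lit 4) (nat_lit 335) (nat_lit 286) (nat_lit 279)) (XT.nd (nat_lit 78) (nat_lit 456) (nat_lit 0) (XT.lf (nat_lit 0) (nat_lit 4445311470) (nat_lit 304) (nat_lit 430810317) (nat_lit 76) (nat_lit 6040901067) (nat_lit 73) (nat_lit 5) (nat_lit 77) (nat_lit 5) (nat_lit 74) (nat_lit 4) (nat_lit 336) (nat_lit 286) (nat_lit 278)) (XT.lf (nat_lit 0) (nat_lit 885802355) (nat_lit 228) (nat_lit 10216291870) (nat_lit 228) (nat_lit 121372534) (nat_lit 67) (nat_lit 4) (nat_lit 70) (nat_lit 5) (nat_lit 70) (nat_lit 4) (nat_lit 337) (nat_lit 286) (nat_lit 277)))))) (XT.nd (nat_lit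 468) (nat_lit 912) (nat_lit 0) (XT.nd (nat_lit 234) (nat_lit 684) (nat_lit 0) (XT.nd (nat_lit 78) (nat_lit 456) (nat_lit 0) (XT.lf (nat_lit 0) (nat_lit 2004932829) (nat_lit 152) (nat_lit 4385099455) (nat_lit 228) (nat_lit 5154272934) (nat_lit 64) (nat_lit 5) (nat_lit 66) (nat_lit 5) (nat_lit 67) (nat_lit 4) (nat_lit 338) (nat_lit 286) (nat_lit 276)) (XT.nd (nat_lit 78) (nat_lit 152) (nat_lit 0) (XT.lf (nat_lit 0) (nat_lit 1255447556) (nat_lit 304) (nat_lit 8905059322) (nat_lit 76) (nat_lit 1722197469) (nat_lit 60) (nat_lit 5) (nat_lit 64) (nat_lit 5) (nat_lit 61) (nat_lit 4) (nat_lit 339) (nat_lit 286) (nat_lit 275)) (XT.lf (nat_lit 0) (nat_lit 3714092103) (nat_lit 152) (nat_lit 4135920999) (nat_lit 228) (nat_lit 4387437871) (nat_lit 58) (nat_lit 5) (nat_lit 60) (nat_lit 5) (nat_lit 61) (nat_lit 4) (nat_lit 340) (nat_lit 286) (nat_lit 274)))) (XT.nd (nat_lit 78) (nat_lit 380) (nat_lit 0) (XT.lf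 (nat_lit 0) (nat_lit 2072460168) (nat_lit 304) (nat_lit 8368331519) (nat_lit 76) (nat_lit 2170090057) (nat_lit 54) (nat_lit 5) (nat_lit 58) (nat_lit 5) (nat_lit 55) (nat_lit 4) (nat_lit 341) (nat_lit 286) (nat_lit 273)) (XT.nd (nat_lit 78) (nat_lit 228) (nat_lit 0) (XT.lf (nat_lit 0) (nat_lit 4490100575) (nat_lit 152) (nat_lit 4249640371) (nat_lit 228) (nat_lit 4262762924) (nat_lit 52) (nat_lit 5) (nat_lit 54) (nat_lit 5) (nat_lit 55) (nat_lit 4) (nat_lit 342) (nat_lit 286) (nat_lit 272)) (XT.lf (nat_lit 0) (nat_lit 2238435188) (nat_lit 228) (nat_lit 8946776482) (nat_lit 76) (nat_lit 2229180744) (nat_lit 49) (nat_lit 5) (nat_lit 52) (nat_lit 5) (nat_lit 50) (nat_lit 4) (nat_lit 343) (nat_lit 286) (nat_lit 271))))) (XT.nd (nat_lit 234) (nat_lit 380) (nat_lit 0) (XT.nd (nat_lit 78) (nat_lit 380) (nat_lit 0) (XT.lf (nat_lit 0) (nat_lit 4098975402) (nat_lit 152) (nat_lit 4859250547) (nat_lit 228)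 (nat_lit 4888000118) (nat_lit 47) (nat_lit 5) (nat_lit 49) (nat_lit 5) (nat_lit 50) (nat_lit 4) (nat_lit 344) (nat_lit 286) (nat_lit 270)) (XT.nd (nat_lit 78) (nat_lit 152) (nat_lit 0) (XT.lf (nat_lit 0) (nat_lit 1638245278) (nat_lit 228) (nat_lit 10900860283) (nat_lit 76) (nat_lit 1761393699) (nat_lit 44) (nat_lit 5) (nat_lit 47) (nat_lit 5) (nat_lit 45) (nat_lit 4) (nat_lit 345) (nat_lit 286) (nat_lit 269)) (XT.lf (nat_lit 0) (nat_lit 2263864620) (nat_lit 152) (nat_lit 6117760634) (nat_lit 228) (nat_lit 6394711138) (nat_lit 42) (nat_lit 5) (nat_lit 44) (nat_lit 5) (nat_lit 45) (nat_lit 4) (nat_lit 346) (nat_lit 286) (nat_lit 268)))) (XT.nd (nat_lit 78) (nat_lit 152) (nat_lit 0) (XT.lf (nat_lit 0) (nat_lit 131751449) (nat_lit 228) (nat_lit 14538566588) (nat_lit 76) (nat_lit 607173438) (nat_lit 39) (nat_lit 5) (nat_lit 42) (nat_lit 5) (nat_lit 40) (nat_lit 4) (nat_lit 347) (nat_lit 286) (nat_lit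 267)) (XT.nd (nat_lit 78) (nat_lit 152) (nat_lit 0) (XT.lf (nat_lit 0) (nat_lit 6872406894) (nat_lit 228) (nat_lit 1316772554) (nat_lit 76) (nat_lit 7612074241) (nat_lit 39) (nat_lit 5) (nat_lit 42) (nat_lit 5) (nat_lit 40) (nat_lit 4) (nat_lit 348) (nat_lit 286) (nat_lit 266)) (XT.lf (nat_lit 0) (nat_lit 12521176900) (nat_lit 152) (nat_lit 1384579018) (nat_lit 228) (nat_lit 2446828229) (nat_lit 37) (nat_lit 5) (nat_lit 39) (nat_lit 5) (nat_lit 40) (nat_lit 4) (nat_lit 349) (nat_lit 286) (nat_lit 265))))))))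
noncomputable def xc25 : XT := (XT.nd (nat_lit 1794) (nat_lit 532) (nat_lit 0) (XT.nd (nat_lit 858) (nat_lit 684) (nat_lit 0) (XT.nd (nat_lit 390) (nat_lit 608) (nat_lit 0) (XT.nd (nat_lit 156) (nat_lit 304) (nat_lit 0) (XT.nd (nat_lit 78) (nat_lit 76) (nat_lit 0) (XT.lf (nat_lit 0) (nat_lit 4278708420) (nat_lit 228) (nat_lit 6970839625) (nat_lit 76) (nat_lit 5680587677) (nat_lit 34) (nat_lit 5) (nat_lit 37) (nat_lit 5) (nat_lit 35) (nat_lit 4) (nat_lit 350) (nat_lit 286) (nat_lit 264)) (XT.lf (nat_lit 0) (nat_lit 6798154151) (nat_lit 76) (nat_lit 4454072349) (nat_lit 152) (nat_lit 6284786325) (nat_lit 33) (nat_lit 5) (nat_lit 34) (nat_lit 5) (nat_lit 35) (nat_lit 4) (nat_lit 351) (nat_lit 286) (nat_lit 263))) (XT.nd (nat_lit 78) (nat_lit 76) (nat_lit 0) (XT.lf (nat_lit 0) (nat_lit 365435059) (nat_lit 228) (nat_lit 15192801001) (nat_lit 76) (nat_lit 2616731276) (nat_lit 30) (nat_lit 5) (nat_lit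 33) (nat_lit 5) (nat_lit 31) (nat_lit 4) (nat_lit 352) (nat_lit 286) (nat_lit 262)) (XT.nd (nat_lit 78) (nat_lit 76) (nat_lit 0) (XT.lf (nat_lit 0) (nat_lit 7225644458) (nat_lit 228) (nat_lit 1607590762) (nat_lit 76) (nat_lit 10009532649) (nat_lit 30) (nat_lit 5) (nat_lit 33) (nat_lit 5) (nat_lit 31) (nat_lit 4) (nat_lit 353) (nat_lit 286) (nat_lit 261)) (XT.lf (nat_lit 0) (nat_lit 12646267230) (nat_lit 76) (nat_lit 1760970346) (nat_lit 152) (nat_lit 5137406551) (nat_lit 29) (nat_lit 5) (nat_lit 30) (nat_lit 5) (nat_lit 31) (nat_lit 4) (nat_lit 354) (nat_lit 286) (nat_lit 260))))) (XT.nd (nat_lit 234) (nat_lit 304) (nat_lit 0) (XT.nd (nat_lit 78) (nat_lit 76) (nat_lit 0) (XT.lf (nat_lit 0) (nat_lit 1634265726) (nat_lit 228) (nat_lit 13099659570) (nat_lit 76) (nat_lit 5547227947) (nat_lit 26) (nat_lit 5) (nat_lit 29) (nat_lit 5) (nat_lit 27) (nat_lit 4) (nat_lit 355) (nat_lit 286) (nat_lit 259))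 (XT.nd (nat_lit 78) (nat_lit 0) (nat_lit 0) (XT.lf (nat_lit 0) (nat_lit 752877838) (nat_lit 76) (nat_lit 7846185330) (nat_lit 152) (nat_lit 12455107447) (nat_lit 25) (nat_lit 5) (nat_lit 26) (nat_lit 5) (nat_lit 27) (nat_lit 4) (nat_lit 356) (nat_lit 286) (nat_lit 258)) (XT.lf (nat_lit 0) (nat_lit 15330274113) (nat_lit 76) (nat_lit 583950907) (nat_lit 152) (nat_lit 5951581045) (nat_lit 25) (nat_lit 5) (nat_lit 26) (nat_lit 5) (nat_lit 27) (nat_lit 4) (nat_lit 357) (nat_lit 286) (nat_lit 257)))) (XT.nd (nat_lit 78) (nat_lit 76) (nat_lit 0) (XT.lf (nat_lit 0) (nat_lit 875097019) (nat_lit 228) (nat_lit 14956576719) (nat_lit 76) (nat_lit 6885672485) (nat_lit 22) (nat_lit 5) (nat_lit 25) (nat_lit 5) (nat_lit 23) (nat_lit 4) (nat_lit 358) (nat_lit 286) (nat_lit 256)) (XT.nd (nat_lit 78) (nat_lit 76) (nat_lit 0) (XT.lf (nat_lit 0) (nat_lit 7870244677) (nat_lit 228) (nat_lit 996289850) (nat_lit 76)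 (nat_lit 14744681612) (nat_lit 22) (nat_lit 5) (nat_lit 25) (nat_lit 5) (nat_lit 23) (nat_lit 4) (nat_lit 359) (nat_lit 286) (nat_lit 255)) (XT.lf (nat_lit 0) (nat_lit 13711793657) (nat_lit 76) (nat_lit 1516344784) (nat_lit 152) (nat_lit 9321277401) (nat_lit 21) (nat_lit 5) (nat_lit 22) (nat_lit 5) (nat_lit 23) (nat_lit 4) (nat_lit 360) (nat_lit 286) (nat_lit 254)))))) (XT.nd (nat_lit 468) (nat_lit 304) (nat_lit 0) (XT.nd (nat_lit 234) (nat_lit 152) (nat_lit 0) (XT.nd (nat_lit 78) (nat_lit 152) (nat_lit 0) (XT.lf (nat_lit 0) (nat_lit 3435105754) (nat_lit 76) (nat_lit 19505691080) (nat_lit 76) (nat_lit 2594147315) (nat_lit 20) (nat_lit 4) (nat_lit 21) (nat_lit 5) (nat_lit 21) (nat_lit 4) (nat_lit 361) (nat_lit 286) (nat_lit 253)) (XT.nd (nat_lit 78) (nat_lit 76) (nat_lit 0) (XT.lf (nat_lit 0) (nat_lit 4396373106) (nat_lit 152) (nat_lit 8188073903) (nat_lit 76) (nat_lit 13983608456) (nat_lit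 19) (nat_lit 5) (nat_lit 21) (nat_lit 5) (nat_lit 20) (nat_lit 4) (nat_lit 362) (nat_lit 286) (nat_lit 252)) (XT.lf (nat_lit 0) (nat_lit 6316112211) (nat_lit 76) (nat_lit 5319558555) (nat_lit 152) (nat_lit 16017815741) (nat_lit 18) (nat_lit 5) (nat_lit 19) (nat_lit 5) (nat_lit 20) (nat_lit 4) (nat_lit 363) (nat_lit 286) (nat_lit 251)))) (XT.nd (nat_lit 78) (nat_lit 152) (nat_lit 0) (XT.lf (nat_lit 0) (nat_lit 19238365401) (nat_lit 152) (nat_lit 7293877174) (nat_lit 0) (nat_lit 2260924295) (nat_lit 18) (nat_lit 5) (nat_lit 20) (nat_lit 4) (nat_lit 18) (nat_lit 4) (nat_lit 364) (nat_lit 286) (nat_lit 250)) (XT.nd (nat_lit 78) (nat_lit 76) (nat_lit 0) (XT.lf (nat_lit 0) (nat_lit 7354176286) (nat_lit 76) (nat_lit 19890562078) (nat_lit 76) (nat_lit 2744406323) (nat_lit 17) (nat_lit 4) (nat_lit 18) (nat_lit 5) (nat_lit 18) (nat_lit 4) (nat_lit 365) (nat_lit 286) (nat_lit 249)) (XT.lf (nat_lit 0)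 (nat_lit 4297573548) (nat_lit 152) (nat_lit 8582762070) (nat_lit 76) (nat_lit 18364021734) (nat_lit 16) (nat_lit 5) (nat_lit 18) (nat_lit 5) (nat_lit 17) (nat_lit 4) (nat_lit 366) (nat_lit 286) (nat_lit 248))))) (XT.nd (nat_lit 234) (nat_lit 152) (nat_lit 0) (XT.nd (nat_lit 78) (nat_lit 76) (nat_lit 0) (XT.lf (nat_lit 0) (nat_lit 6087870194) (nat_lit 76) (nat_lit 5511999622) (nat_lit 152) (nat_lit 20962713772) (nat_lit 15) (nat_lit 5) (nat_lit 16) (nat_lit 5) (nat_lit 17) (nat_lit 4) (nat_lit 367) (nat_lit 286) (nat_lit 247)) (XT.nd (nat_lit 78) (nat_lit 76) (nat_lit 0) (XT.lf (nat_lit 0) (nat_lit 19285904659) (nat_lit 152) (nat_lit 12467192565) (nat_lit 0) (nat_lit 2193081756) (nat_lit 15) (nat_lit 5) (nat_lit 17) (nat_lit 4) (nat_lit 15) (nat_lit 4) (nat_lit 368) (nat_lit 286) (nat_lit 246)) (XT.lf (nat_lit 0) (nat_lit 2061244972) (nat_lit 76) (nat_lit 25282835918) (nat_lit 76) (nat_lit 8055253832)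 (nat_lit 14) (nat_lit 4) (nat_lit 15) (nat_lit 5) (nat_lit 15) (nat_lit 4) (nat_lit 369) (nat_lit 286) (nat_lit 245)))) (XT.nd (nat_lit 78) (nat_lit 152) (nat_lit 0) (XT.lf (nat_lit 0) (nat_lit 17417286740) (nat_lit 76) (nat_lit 18431249789) (nat_lit 76) (nat_lit 1075325623) (nat_lit 14) (nat_lit 4) (nat_lit 15) (nat_lit 5) (nat_lit 15) (nat_lit 4) (nat_lit 370) (nat_lit 286) (nat_lit 244)) (XT.nd (nat_lit 78) (nat_lit 76) (nat_lit 0) (XT.lf (nat_lit 0) (nat_lit 6049831472) (nat_lit 152) (nat_lit 5196996829) (nat_lit 76) (nat_lit 27278450256) (nat_lit 13) (nat_lit 5) (nat_lit 15) (nat_lit 5) (nat_lit 14) (nat_lit 4) (nat_lit 371) (nat_lit 286) (nat_lit 243)) (XT.lf (nat_lit 0) (nat_lit 9863587906) (nat_lit 76) (nat_lit 3662595676) (nat_lit 152) (nat_lit 26679760724) (nat_lit 12) (nat_lit 5) (nat_lit 13) (nat_lit 5) (nat_lit 14) (nat_lit 4) (nat_lit 372) (nat_lit 286) (nat_lit 242))))))) (XT.nd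 (nat_lit 858) (nat_lit 228) (nat_lit 0) (XT.nd (nat_lit 390) (nat_lit 152) (nat_lit 0) (XT.nd (nat_lit 156) (nat_lit 152) (nat_lit 0) (XT.nd (nat_lit 78) (nat_lit 0) (nat_lit 0) (XT.lf (nat_lit 0) (nat_lit 21395583353) (nat_lit 152) (nat_lit 16368651633) (nat_lit 0) (nat_lit 4205844051) (nat_lit 12) (nat_lit 5) (nat_lit 14) (nat_lit 4) (nat_lit 12) (nat_lit 4) (nat_lit 373) (nat_lit 286) (nat_lit 241)) (XT.lf (nat_lit 0) (nat_lit 29622905798) (nat_lit 152) (nat_lit 1869938613) (nat_lit 0) (nat_lit 12330654509) (nat_lit 12) (nat_lit 5) (nat_lit 14) (nat_lit 4) (nat_lit 12) (nat_lit 4) (nat_lit 374) (nat_lit 286) (nat_lit 240))) (XT.nd (nat_lit 78) (nat_lit 76) (nat_lit 0) (XT.lf (nat_lit 0) (nat_lit 13486684301) (nat_lit 76) (nat_lit 24835490629) (nat_lit 76) (nat_lit 7445608876) (nat_lit 11) (nat_lit 4) (nat_lit 12) (nat_lit 5) (nat_lit 12) (nat_lit 4) (nat_lit 375) (nat_lit 286) (nat_lit 239))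 (XT.nd (nat_lit 78) (nat_lit 76) (nat_lit 0) (XT.lf (nat_lit 0) (nat_lit 29523747181) (nat_lit 76) (nat_lit 17884920981) (nat_lit 76) (nat_lit 402057834) (nat_lit 11) (nat_lit 4) (nat_lit 12) (nat_lit 5) (nat_lit 12) (nat_lit 4) (nat_lit 376) (nat_lit 286) (nat_lit 238)) (XT.lf (nat_lit 0) (nat_lit 6792758434) (nat_lit 152) (nat_lit 3782117232) (nat_lit 76) (nat_lit 39380866086) (nat_lit 10) (nat_lit 5) (nat_lit 12) (nat_lit 5) (nat_lit 11) (nat_lit 4) (nat_lit 377) (nat_lit 286) (nat_lit 237))))) (XT.nd (nat_lit 234) (nat_lit 76) (nat_lit 0) (XT.nd (nat_lit 78) (nat_lit 0) (nat_lit 0) (XT.lf (nat_lit 0) (nat_lit 11553437886) (nat_lit 76) (nat_lit 2835326451) (nat_lit 152) (nat_lit 37817641197) (nat_lit 9) (nat_lit 5) (nat_lit 10) (nat_lit 5) (nat_lit 11) (nat_lit 4) (nat_lit 378) (nat_lit 286) (nat_lit 236)) (XT.nd (nat_lit 78) (nat_lit 0) (nat_lit 0) (XT.lf (nat_lit 0) (nat_lit 22394709459)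 (nat_lit 152) (nat_lit 26998778396) (nat_lit 0) (nat_lit 5175219609) (nat_lit 9) (nat_lit 5) (nat_lit 11) (nat_lit 4) (nat_lit 9) (nat_lit 4) (nat_lit 379) (nat_lit 286) (nat_lit 235)) (XT.lf (nat_lit 0) (nat_lit 30772386261) (nat_lit 152) (nat_lit 12798975459) (nat_lit 0) (nat_lit 13478628428) (nat_lit 9) (nat_lit 5) (nat_lit 11) (nat_lit 4) (nat_lit 9) (nat_lit 4) (nat_lit 380) (nat_lit 286) (nat_lit 234)))) (XT.nd (nat_lit 78) (nat_lit 0) (nat_lit 0) (XT.lf (nat_lit 0) (nat_lit 2047458396) (nat_lit 76) (nat_lit 37486709728) (nat_lit 76) (nat_lit 20122220482) (nat_lit 8) (nat_lit 4) (nat_lit 9) (nat_lit 5) (nat_lit 9) (nat_lit 4) (nat_lit 381) (nat_lit 286) (nat_lit 233)) (XT.nd (nat_lit 78) (nat_lit 0) (nat_lit 0) (XT.lf (nat_lit 0) (nat_lit 17803323804) (nat_lit 76) (nat_lit 31009637941) (nat_lit 76) (nat_lit 13577785445) (nat_lit 8) (nat_lit 4) (nat_lit 9) (nat_lit 5) (nat_lit 9) (nat_lit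 4) (nat_lit 382) (nat_lit 286) (nat_lit 232)) (XT.lf (nat_lit 0) (nat_lit 34251410022) (nat_lit 76) (nat_lit 24253969316) (nat_lit 76) (nat_lit 6757961344) (nat_lit 8) (nat_lit 4) (nat_lit 9) (nat_lit 5) (nat_lit 9) (nat_lit 4) (nat_lit 383) (nat_lit 286) (nat_lit 231)))))) (XT.nd (nat_lit 468) (nat_lit 76) (nat_lit 0) (XT.nd (nat_lit 234) (nat_lit 0) (nat_lit 0) (XT.nd (nat_lit 78) (nat_lit 76) (nat_lit 0) (XT.lf (nat_lit 0) (nat_lit 346591644) (nat_lit 152) (nat_lit 16853527388) (nat_lit 76) (nat_lit 51080787619) (nat_lit 7) (nat_lit 5) (nat_lit 9) (nat_lit 5) (nat_lit 8) (nat_lit 4) (nat_lit 384) (nat_lit 286) (nat_lit 230)) (XT.nd (nat_lit 78) (nat_lit 76) (nat_lit 0) (XT.lf (nat_lit 0) (nat_lit 7621810138) (nat_lit 152) (nat_lit 2143024752) (nat_lit 76) (nat_lit 61683859238) (nat_lit 7) (nat_lit 5) (nat_lit 9) (nat_lit 5) (nat_lit 8) (nat_lit 4) (nat_lit 385) (nat_lit 286) (nat_lit 229))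 (XT.lf (nat_lit 0) (nat_lit 13482659154) (nat_lit 76) (nat_lit 1863832668) (nat_lit 152) (nat_lit 59425814386) (nat_lit 6) (nat_lit 5) (nat_lit 7) (nat_lit 5) (nat_lit 8) (nat_lit 4) (nat_lit 386) (nat_lit 286) (nat_lit 228)))) (XT.nd (nat_lit 78) (nat_lit 0) (nat_lit 0) (XT.lf (nat_lit 0) (nat_lit 23498557475) (nat_lit 152) (nat_lit 48471037109) (nat_lit 0) (nat_lit 6291275808) (nat_lit 6) (nat_lit 5) (nat_lit 8) (nat_lit 4) (nat_lit 6) (nat_lit 4) (nat_lit 387) (nat_lit 286) (nat_lit 227)) (XT.nd (nat_lit 78) (nat_lit 0) (nat_lit 0) (XT.lf (nat_lit 0) (nat_lit 32036124697) (nat_lit 152) (nat_lit 35108367213) (nat_lit 0) (nat_lit 14780039638) (nat_lit 6) (nat_lit 5) (nat_lit 8) (nat_lit 4) (nat_lit 6) (nat_lit 4) (nat_lit 388) (nat_lit 286) (nat_lit 226)) (XT.lf (nat_lit 0) (nat_lit 40961604732) (nat_lit 152) (nat_lit 21151905184) (nat_lit 0) (nat_lit 23659040251) (nat_lit 6) (nat_lit 5) (nat_lit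 8) (nat_lit 4) (nat_lit 6) (nat_lit 4) (nat_lit 389) (nat_lit 286) (nat_lit 225))))) (XT.nd (nat_lit 312) (nat_lit 0) (nat_lit 0) (XT.nd (nat_lit 78) (nat_lit 76) (nat_lit 0) (XT.lf (nat_lit 0) (nat_lit 50296248721) (nat_lit 152) (nat_lit 6568421352) (nat_lit 0) (nat_lit 32949418124) (nat_lit 6) (nat_lit 5) (nat_lit 8) (nat_lit 4) (nat_lit 6) (nat_lit 4) (nat_lit 390) (nat_lit 286) (nat_lit 224)) (XT.nd (nat_lit 78) (nat_lit 0) (nat_lit 0) (XT.lf (nat_lit 0) (nat_lit 8849492333) (nat_lit 76) (nat_lit 51297856409) (nat_lit 76) (nat_lit 33908867606) (nat_lit 5) (nat_lit 4) (nat_lit 6) (nat_lit 5) (nat_lit 6) (nat_lit 4) (nat_lit 391) (nat_lit 286) (nat_lit 223)) (XT.lf (nat_lit 0) (nat_lit 25110065444) (nat_lit 76) (nat_lit 45414264919) (nat_lit 76) (nat_lit 27985125444) (nat_lit 5) (nat_lit 4) (nat_lit 6) (nat_lit 5) (nat_lit 6) (nat_lit 4) (nat_lit 392) (nat_lit 286) (nat_lit 222)))) (XT.nd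 (nat_lit 41574) (nat_lit 0) (nat_lit 8512) (XT.lf (nat_lit 0) (nat_lit 59923666417) (nat_lit 76) (nat_lit 32839069123) (nat_lit 76) (nat_lit 15335273070) (nat_lit 5) (nat_lit 4) (nat_lit 6) (nat_lit 5) (nat_lit 6) (nat_lit 4) (nat_lit 394) (nat_lit 286) (nat_lit 220)) (XT.nd (nat_lit 78) (nat_lit 836) (nat_lit 0) (XT.lf (nat_lit 0) (nat_lit 3917526557) (nat_lit 380) (nat_lit 190409952) (nat_lit 380) (nat_lit 190409952) (nat_lit 128) (nat_lit 4) (nat_lit 133) (nat_lit 5) (nat_lit 133) (nat_lit 4) (nat_lit 326) (nat_lit 287) (nat_lit 287)) (XT.lf (nat_lit 0) (nat_lit 1357199534) (nat_lit 380) (nat_lit 4558326593) (nat_lit 380) (nat_lit 2862467838) (nat_lit 117) (nat_lit 4) (nat_lit 122) (nat_lit 5) (nat_lit 122) (nat_lit 4) (nat_lit 327) (nat_lit 287) (nat_lit 286))))))))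
noncomputable def xc26 : XT := (XT.nd (nat_lit 1716) (nat_lit 1824) (nat_lit 0) (XT.nd (nat_lit 858) (nat_lit 2204) (nat_lit 0) (XT.nd (nat_lit 390) (nat_lit 1672) (nat_lit 0) (XT.nd (nat_lit 156) (nat_lit 1368) (nat_lit 0) (XT.nd (nat_lit 78) (nat_lit 456) (nat_lit 0) (XT.lf (nat_lit 0) (nat_lit 3365044959) (nat_lit 380) (nat_lit 5455330267) (nat_lit 0) (nat_lit 150518424) (nat_lit 112) (nat_lit 5) (nat_lit 117) (nat_lit 4) (nat_lit 112) (nat_lit 4) (nat_lit 328) (nat_lit 287) (nat_lit 285)) (XT.lf (nat_lit 0) (nat_lit 583402153) (nat_lit 456) (nat_lit 3523612281) (nat_lit 76) (nat_lit 5067818290) (nat_lit 106) (nat_lit 5) (nat_lit 112) (nat_lit 5) (nat_lit 107) (nat_lit 4) (nat_lit 329) (nat_lit 287) (nat_lit 284))) (XT.nd (nat_lit 78) (nat_lit 1064) (nat_lit 0) (XT.lf (nat_lit 0) (nat_lit 6860958073) (nat_lit 380) (nat_lit 1620353125) (nat_lit 0) (nat_lit 909310634) (nat_lit 102) (nat_lit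 5) (nat_lit 107) (nat_lit 4) (nat_lit 102) (nat_lit 4) (nat_lit 330) (nat_lit 287) (nat_lit 283)) (XT.nd (nat_lit 78) (nat_lit 380) (nat_lit 0) (XT.lf (nat_lit 0) (nat_lit 235381823) (nat_lit 304) (nat_lit 3460247242) (nat_lit 380) (nat_lit 5922556471) (nat_lit 93) (nat_lit 5) (nat_lit 97) (nat_lit 5) (nat_lit 98) (nat_lit 4) (nat_lit 331) (nat_lit 287) (nat_lit 282)) (XT.lf (nat_lit 0) (nat_lit 248095955) (nat_lit 380) (nat_lit 7767451832) (nat_lit 76) (nat_lit 1842945655) (nat_lit 88) (nat_lit 5) (nat_lit 93) (nat_lit 5) (nat_lit 89) (nat_lit 4) (nat_lit 332) (nat_lit 287) (nat_lit 281))))) (XT.nd (nat_lit 234) (nat_lit 836) (nat_lit 0) (XT.nd (nat_lit 78) (nat_lit 608) (nat_lit 0) (XT.lf (nat_lit 0) (nat_lit 3852903195) (nat_lit 228) (nat_lit 2689993131) (nat_lit 304) (nat_lit 3568149727) (nat_lit 85) (nat_lit 5) (nat_lit 88) (nat_lit 5) (nat_lit 89) (nat_lit 4) (nat_lit 333) (nat_lit 287)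 (nat_lit 280)) (XT.nd (nat_lit 78) (nat_lit 228) (nat_lit 0) (XT.lf (nat_lit 0) (nat_lit 2657601906) (nat_lit 380) (nat_lit 4830426330) (nat_lit 76) (nat_lit 2889452156) (nat_lit 80) (nat_lit 5) (nat_lit 85) (nat_lit 5) (nat_lit 81) (nat_lit 4) (nat_lit 334) (nat_lit 287) (nat_lit 279)) (XT.lf (nat_lit 0) (nat_lit 7150247426) (nat_lit 228) (nat_lit 1911541907) (nat_lit 304) (nat_lit 1596274841) (nat_lit 77) (nat_lit 5) (nat_lit 80) (nat_lit 5) (nat_lit 81) (nat_lit 4) (nat_lit 335) (nat_lit 287) (nat_lit 278)))) (XT.nd (nat_lit 78) (nat_lit 532) (nat_lit 0) (XT.lf (nat_lit 0) (nat_lit 4695598835) (nat_lit 304) (nat_lit 2328563939) (nat_lit 76) (nat_lit 3928535352) (nat_lit 73) (nat_lit 5) (nat_lit 77) (nat_lit 5) (nat_lit 74) (nat_lit 4) (nat_lit 336) (nat_lit 287) (nat_lit 277)) (XT.nd (nat_lit 78) (nat_lit 304) (nat_lit 0) (XT.lf (nat_lit 0) (nat_lit 10000865954) (nat_lit 228) (nat_lit 1210743062)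 (nat_lit 304) (nat_lit 51805963) (nat_lit 70) (nat_lit 5) (nat_lit 73) (nat_lit 5) (nat_lit 74) (nat_lit 4) (nat_lit 337) (nat_lit 287) (nat_lit 276)) (XT.lf (nat_lit 0) (nat_lit 6312725474) (nat_lit 304) (nat_lit 402648694) (nat_lit 76) (nat_lit 4873270706) (nat_lit 66) (nat_lit 5) (nat_lit 70) (nat_lit 5) (nat_lit 67) (nat_lit 4) (nat_lit 338) (nat_lit 287) (nat_lit 275)))))) (XT.nd (nat_lit 390) (nat_lit 912) (nat_lit 0) (XT.nd (nat_lit 156) (nat_lit 684) (nat_lit 0) (XT.nd (nat_lit 78) (nat_lit 152) (nat_lit 0) (XT.lf (nat_lit 0) (nat_lit 320980820) (nat_lit 228) (nat_lit 668807490) (nat_lit 304) (nat_lit 10941724921) (nat_lit 60) (nat_lit 5) (nat_lit 63) (nat_lit 5) (nat_lit 64) (nat_lit 5) (nat_lit 339) (nat_lit 287) (nat_lit 274)) (XT.lf (nat_lit 0) (nat_lit 797432690) (nat_lit 152) (nat_lit 6655281339) (nat_lit 228) (nat_lit 4837535549) (nat_lit 58) (nat_lit 5) (nat_lit 60) (nat_lit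 5) (nat_lit 61) (nat_lit 4) (nat_lit 340) (nat_lit 287) (nat_lit 273))) (XT.nd (nat_lit 78) (nat_lit 380) (nat_lit 0) (XT.lf (nat_lit 0) (nat_lit 1079152777) (nat_lit 228) (nat_lit 405081922) (nat_lit 304) (nat_lit 11184020245) (nat_lit 54) (nat_lit 5) (nat_lit 57) (nat_lit 5) (nat_lit 58) (nat_lit 5) (nat_lit 341) (nat_lit 287) (nat_lit 272)) (XT.nd (nat_lit 78) (nat_lit 228) (nat_lit 0) (XT.lf (nat_lit 0) (nat_lit 1050406611) (nat_lit 152) (nat_lit 6971591952) (nat_lit 228) (nat_lit 5041799702) (nat_lit 52) (nat_lit 5) (nat_lit 54) (nat_lit 5) (nat_lit 55) (nat_lit 4) (nat_lit 342) (nat_lit 287) (nat_lit 271)) (XT.lf (nat_lit 0) (nat_lit 770984642) (nat_lit 152) (nat_lit 555484929) (nat_lit 228) (nat_lit 12153918813) (nat_lit 49) (nat_lit 5) (nat_lit 51) (nat_lit 5) (nat_lit 52) (nat_lit 5) (nat_lit 343) (nat_lit 287) (nat_lit 270))))) (XT.nd (nat_lit 234) (nat_lit 532) (nat_lit 0) (XT.nd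 (nat_lit 78) (nat_lit 228) (nat_lit 0) (XT.lf (nat_lit 0) (nat_lit 113155735) (nat_lit 152) (nat_lit 7801220326) (nat_lit 228) (nat_lit 6001833932) (nat_lit 47) (nat_lit 5) (nat_lit 49) (nat_lit 5) (nat_lit 50) (nat_lit 4) (nat_lit 344) (nat_lit 287) (nat_lit 269)) (XT.nd (nat_lit 78) (nat_lit 152) (nat_lit 0) (XT.lf (nat_lit 0) (nat_lit 409715542) (nat_lit 228) (nat_lit 842537281) (nat_lit 76) (nat_lit 13122673551) (nat_lit 46) (nat_lit 5) (nat_lit 49) (nat_lit 5) (nat_lit 47) (nat_lit 5) (nat_lit 345) (nat_lit 287) (nat_lit 268)) (XT.lf (nat_lit 0) (nat_lit 7026789045) (nat_lit 228) (nat_lit 2247699108) (nat_lit 76) (nat_lit 5580092221) (nat_lit 44) (nat_lit 5) (nat_lit 47) (nat_lit 5) (nat_lit 45) (nat_lit 4) (nat_lit 346) (nat_lit 287) (nat_lit 267)))) (XT.nd (nat_lit 78) (nat_lit 380) (nat_lit 0) (XT.lf (nat_lit 0) (nat_lit 11311597363) (nat_lit 152) (nat_lit 2628928178) (nat_lit 228)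 (nat_lit 1418771287) (nat_lit 42) (nat_lit 5) (nat_lit 44) (nat_lit 5) (nat_lit 45) (nat_lit 4) (nat_lit 347) (nat_lit 287) (nat_lit 266)) (XT.nd (nat_lit 78) (nat_lit 152) (nat_lit 0) (XT.lf (nat_lit 0) (nat_lit 5203880736) (nat_lit 228) (nat_lit 6368754166) (nat_lit 76) (nat_lit 4315228314) (nat_lit 39) (nat_lit 5) (nat_lit 42) (nat_lit 5) (nat_lit 40) (nat_lit 4) (nat_lit 348) (nat_lit 287) (nat_lit 265)) (XT.lf (nat_lit 0) (nat_lit 7231589608) (nat_lit 152) (nat_lit 4878277537) (nat_lit 228) (nat_lit 4333170621) (nat_lit 37) (nat_lit 5) (nat_lit 39) (nat_lit 5) (nat_lit 40) (nat_lit 4) (nat_lit 349) (nat_lit 287) (nat_lit 264))))))) (XT.nd (nat_lit 858) (nat_lit 608) (nat_lit 0) (XT.nd (nat_lit 390) (nat_lit 608) (nat_lit 0) (XT.nd (nat_lit 156) (nat_lit 304) (nat_lit 0) (XT.nd (nat_lit 78) (nat_lit 76) (nat_lit 0) (XT.lf (nat_lit 0) (nat_lit 2265584542) (nat_lit 228) (nat_lit 12634170234)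 (nat_lit 76) (nat_lit 2126307728) (nat_lit 34) (nat_lit 5) (nat_lit 37) (nat_lit 5) (nat_lit 35) (nat_lit 4) (nat_lit 350) (nat_lit 287) (nat_lit 263)) (XT.lf (nat_lit 0) (nat_lit 889603746) (nat_lit 76) (nat_lit 8219617018) (nat_lit 152) (nat_lit 8527635740) (nat_lit 33) (nat_lit 5) (nat_lit 34) (nat_lit 5) (nat_lit 35) (nat_lit 4) (nat_lit 351) (nat_lit 287) (nat_lit 262))) (XT.nd (nat_lit 78) (nat_lit 304) (nat_lit 0) (XT.lf (nat_lit 0) (nat_lit 15094876524) (nat_lit 76) (nat_lit 1185042794) (nat_lit 152) (nat_lit 1998764375) (nat_lit 33) (nat_lit 5) (nat_lit 34) (nat_lit 5) (nat_lit 35) (nat_lit 4) (nat_lit 352) (nat_lit 287) (nat_lit 261)) (XT.nd (nat_lit 78) (nat_lit 76) (nat_lit 0) (XT.lf (nat_lit 0) (nat_lit 4787684937) (nat_lit 228) (nat_lit 8036221919) (nat_lit 76) (nat_lit 6126554663) (nat_lit 30) (nat_lit 5) (nat_lit 33) (nat_lit 5) (nat_lit 31) (nat_lit 4) (nat_lit 353) (nat_lit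 287) (nat_lit 260)) (XT.lf (nat_lit 0) (nat_lit 5967738080) (nat_lit 76) (nat_lit 5870819031) (nat_lit 152) (nat_lit 7817719438) (nat_lit 29) (nat_lit 5) (nat_lit 30) (nat_lit 5) (nat_lit 31) (nat_lit 4) (nat_lit 354) (nat_lit 287) (nat_lit 259))))) (XT.nd (nat_lit 234) (nat_lit 304) (nat_lit 0) (XT.nd (nat_lit 78) (nat_lit 152) (nat_lit 0) (XT.lf (nat_lit 0) (nat_lit 193047635) (nat_lit 152) (nat_lit 19014886076) (nat_lit 152) (nat_lit 1190503262) (nat_lit 27) (nat_lit 4) (nat_lit 29) (nat_lit 5) (nat_lit 29) (nat_lit 4) (nat_lit 355) (nat_lit 287) (nat_lit 258)) (XT.nd (nat_lit 78) (nat_lit 76) (nat_lit 0) (XT.lf (nat_lit 0) (nat_lit 5726676681) (nat_lit 228) (nat_lit 6471611435) (nat_lit 76) (nat_lit 8975650095) (nat_lit 26) (nat_lit 5) (nat_lit 29) (nat_lit 5) (nat_lit 27) (nat_lit 4) (nat_lit 356) (nat_lit 287) (nat_lit 257)) (XT.lf (nat_lit 0) (nat_lit 7864786218) (nat_lit 76) (nat_lit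 5051944331) (nat_lit 152) (nat_lit 9072610728) (nat_lit 25) (nat_lit 5) (nat_lit 26) (nat_lit 5) (nat_lit 27) (nat_lit 4) (nat_lit 357) (nat_lit 287) (nat_lit 256)))) (XT.nd (nat_lit 78) (nat_lit 304) (nat_lit 0) (XT.lf (nat_lit 0) (nat_lit 20435799736) (nat_lit 152) (nat_lit 36251462) (nat_lit 0) (nat_lit 2374405988) (nat_lit 25) (nat_lit 5) (nat_lit 27) (nat_lit 4) (nat_lit 25) (nat_lit 4) (nat_lit 358) (nat_lit 287) (nat_lit 255)) (XT.nd (nat_lit 78) (nat_lit 76) (nat_lit 0) (XT.lf (nat_lit 0) (nat_lit 4573212171) (nat_lit 228) (nat_lit 9006213874) (nat_lit 76) (nat_lit 10163358458) (nat_lit 22) (nat_lit 5) (nat_lit 25) (nat_lit 5) (nat_lit 23) (nat_lit 4) (nat_lit 359) (nat_lit 287) (nat_lit 254)) (XT.lf (nat_lit 0) (nat_lit 5439265490) (nat_lit 76) (nat_lit 6357120111) (nat_lit 152) (nat_lit 12888652272) (nat_lit 21) (nat_lit 5) (nat_lit 22) (nat_lit 5) (nat_lit 23) (nat_lit 4) (nat_lit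 360) (nat_lit 287) (nat_lit 253)))))) (XT.nd (nat_lit 468) (nat_lit 228) (nat_lit 0) (XT.nd (nat_lit 234) (nat_lit 228) (nat_lit 0) (XT.nd (nat_lit 78) (nat_lit 152) (nat_lit 0) (XT.lf (nat_lit 0) (nat_lit 19375545017) (nat_lit 152) (nat_lit 5093007017) (nat_lit 0) (nat_lit 1206030598) (nat_lit 21) (nat_lit 5) (nat_lit 23) (nat_lit 4) (nat_lit 21) (nat_lit 4) (nat_lit 361) (nat_lit 287) (nat_lit 252)) (XT.nd (nat_lit 78) (nat_lit 0) (nat_lit 0) (XT.lf (nat_lit 0) (nat_lit 660518162) (nat_lit 152) (nat_lit 17020250687) (nat_lit 76) (nat_lit 9031101939) (nat_lit 19) (nat_lit 5) (nat_lit 21) (nat_lit 5) (nat_lit 20) (nat_lit 4) (nat_lit 362) (nat_lit 287) (nat_lit 251)) (XT.lf (nat_lit 0) (nat_lit 7788782836) (nat_lit 152) (nat_lit 2732338291) (nat_lit 76) (nat_lit 17279521806) (nat_lit 19) (nat_lit 5) (nat_lit 21) (nat_lit 5) (nat_lit 20) (nat_lit 4) (nat_lit 363) (nat_lit 287) (nat_lit 250))))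 (XT.nd (nat_lit 78) (nat_lit 152) (nat_lit 0) (XT.lf (nat_lit 0) (nat_lit 12328934088) (nat_lit 76) (nat_lit 2964798732) (nat_lit 152) (nat_lit 13649532446) (nat_lit 18) (nat_lit 5) (nat_lit 19) (nat_lit 5) (nat_lit 20) (nat_lit 4) (nat_lit 364) (nat_lit 287) (nat_lit 249)) (XT.nd (nat_lit 78) (nat_lit 152) (nat_lit 0) (XT.lf (nat_lit 0) (nat_lit 23154065242) (nat_lit 152) (nat_lit 2168361796) (nat_lit 0) (nat_lit 4821206432) (nat_lit 18) (nat_lit 5) (nat_lit 20) (nat_lit 4) (nat_lit 18) (nat_lit 4) (nat_lit 365) (nat_lit 287) (nat_lit 248)) (XT.lf (nat_lit 0) (nat_lit 67892325) (nat_lit 152) (nat_lit 18348066548) (nat_lit 76) (nat_lit 12986140687) (nat_lit 16) (nat_lit 5) (nat_lit 18) (nat_lit 5) (nat_lit 17) (nat_lit 4) (nat_lit 366) (nat_lit 287) (nat_lit 247))))) (XT.nd (nat_lit 234) (nat_lit 152) (nat_lit 0) (XT.nd (nat_lit 78) (nat_lit 76) (nat_lit 0) (XT.lf (nat_lit 0) (nat_lit 7267964654)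 (nat_lit 152) (nat_lit 3877661778) (nat_lit 76) (nat_lit 21577774159) (nat_lit 16) (nat_lit 5) (nat_lit 18) (nat_lit 5) (nat_lit 17) (nat_lit 4) (nat_lit 367) (nat_lit 287) (nat_lit 246)) (XT.nd (nat_lit 78) (nat_lit 0) (nat_lit 0) (XT.lf (nat_lit 0) (nat_lit 11379330185) (nat_lit 76) (nat_lit 3472769405) (nat_lit 152) (nat_lit 19257961082) (nat_lit 15) (nat_lit 5) (nat_lit 16) (nat_lit 5) (nat_lit 17) (nat_lit 4) (nat_lit 368) (nat_lit 287) (nat_lit 245)) (XT.lf (nat_lit 0) (nat_lit 22816378795) (nat_lit 152) (nat_lit 8285345515) (nat_lit 0) (nat_lit 4464316342) (nat_lit 15) (nat_lit 5) (nat_lit 17) (nat_lit 4) (nat_lit 15) (nat_lit 4) (nat_lit 369) (nat_lit 287) (nat_lit 244)))) (XT.nd (nat_lit 78) (nat_lit 76) (nat_lit 0) (XT.lf (nat_lit 0) (nat_lit 6831773614) (nat_lit 76) (nat_lit 24368357771) (nat_lit 76) (nat_lit 5894064766) (nat_lit 14) (nat_lit 4) (nat_lit 15) (nat_lit 5) (nat_lit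 15) (nat_lit 4) (nat_lit 370) (nat_lit 287) (nat_lit 243)) (XT.nd (nat_lit 78) (nat_lit 0) (nat_lit 0) (XT.lf (nat_lit 0) (nat_lit 1287150101) (nat_lit 152) (nat_lit 15977788350) (nat_lit 76) (nat_lit 21433209372) (nat_lit 13) (nat_lit 5) (nat_lit 15) (nat_lit 5) (nat_lit 14) (nat_lit 4) (nat_lit 371) (nat_lit 287) (nat_lit 242)) (XT.lf (nat_lit 0) (nat_lit 8632522432) (nat_lit 152) (nat_lit 1177549231) (nat_lit 76) (nat_lit 30572677447) (nat_lit 13) (nat_lit 5) (nat_lit 15) (nat_lit 5) (nat_lit 14) (nat_lit 4) (nat_lit 372) (nat_lit 287) (nat_lit 241))))))))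
noncomputable def xc27 : XT := (XT.nd (nat_lit 43212) (nat_lit 0) (nat_lit 2584) (XT.nd (nat_lit 858) (nat_lit 228) (nat_lit 0) (XT.nd (nat_lit 390) (nat_lit 152) (nat_lit 0) (XT.nd (nat_lit 156) (nat_lit 152) (nat_lit 0) (XT.nd (nat_lit 78) (nat_lit 0) (nat_lit 0) (XT.lf (nat_lit 0) (nat_lit 14513399539) (nat_lit 76) (nat_lit 1900667778) (nat_lit 152) (nat_lit 25735458022) (nat_lit 12) (nat_lit 5) (nat_lit 13) (nat_lit 5) (nat_lit 14) (nat_lit 4) (nat_lit 373) (nat_lit 287) (nat_lit 240)) (XT.lf (nat_lit 0) (nat_lit 24589430749) (nat_lit 152) (nat_lit 13182654372) (nat_lit 0) (nat_lit 6232424445) (nat_lit 12) (nat_lit 5) (nat_lit 14) (nat_lit 4) (nat_lit 12) (nat_lit 4) (nat_lit 374) (nat_lit 287) (nat_lit 239))) (XT.nd (nat_lit 78) (nat_lit 76) (nat_lit 0) (XT.lf (nat_lit 0) (nat_lit 1887131903) (nat_lit 76) (nat_lit 31257981573) (nat_lit 76) (nat_lit 12807993874) (nat_lit 11) (nat_lit 4)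 (nat_lit 12) (nat_lit 5) (nat_lit 12) (nat_lit 4) (nat_lit 375) (nat_lit 287) (nat_lit 238)) (XT.nd (nat_lit 78) (nat_lit 76) (nat_lit 0) (XT.lf (nat_lit 0) (nat_lit 17865441055) (nat_lit 76) (nat_lit 24335044294) (nat_lit 76) (nat_lit 5796502887) (nat_lit 11) (nat_lit 4) (nat_lit 12) (nat_lit 5) (nat_lit 12) (nat_lit 4) (nat_lit 376) (nat_lit 287) (nat_lit 237)) (XT.lf (nat_lit 0) (nat_lit 1473640866) (nat_lit 152) (nat_lit 15631387313) (nat_lit 76) (nat_lit 33039434256) (nat_lit 10) (nat_lit 5) (nat_lit 12) (nat_lit 5) (nat_lit 11) (nat_lit 4) (nat_lit 377) (nat_lit 287) (nat_lit 236))))) (XT.nd (nat_lit 234) (nat_lit 76) (nat_lit 0) (XT.nd (nat_lit 78) (nat_lit 76) (nat_lit 0) (XT.lf (nat_lit 0) (nat_lit 8930076086) (nat_lit 152) (nat_lit 575144640) (nat_lit 76) (nat_lit 42894097063) (nat_lit 10) (nat_lit 5) (nat_lit 12) (nat_lit 5) (nat_lit 11) (nat_lit 4) (nat_lit 378) (nat_lit 287) (nat_lit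 235)) (XT.nd (nat_lit 78) (nat_lit 0) (nat_lit 0) (XT.lf (nat_lit 0) (nat_lit 15429840327) (nat_lit 76) (nat_lit 1422147577) (nat_lit 152) (nat_lit 37912157053) (nat_lit 9) (nat_lit 5) (nat_lit 10) (nat_lit 5) (nat_lit 11) (nat_lit 4) (nat_lit 379) (nat_lit 287) (nat_lit 234)) (XT.lf (nat_lit 0) (nat_lit 25189428202) (nat_lit 152) (nat_lit 25171227490) (nat_lit 0) (nat_lit 6885983081) (nat_lit 9) (nat_lit 5) (nat_lit 11) (nat_lit 4) (nat_lit 9) (nat_lit 4) (nat_lit 380) (nat_lit 287) (nat_lit 233)))) (XT.nd (nat_lit 78) (nat_lit 76) (nat_lit 0) (XT.lf (nat_lit 0) (nat_lit 33906227736) (nat_lit 152) (nat_lit 10412743446) (nat_lit 0) (nat_lit 15535419365) (nat_lit 9) (nat_lit 5) (nat_lit 11) (nat_lit 4) (nat_lit 9) (nat_lit 4) (nat_lit 381) (nat_lit 287) (nat_lit 232)) (XT.nd (nat_lit 78) (nat_lit 0) (nat_lit 0) (XT.lf (nat_lit 0) (nat_lit 5089267237) (nat_lit 76) (nat_lit 37969124151) (nat_lit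 76) (nat_lit 19534160304) (nat_lit 8) (nat_lit 4) (nat_lit 9) (nat_lit 5) (nat_lit 9) (nat_lit 4) (nat_lit 382) (nat_lit 287) (nat_lit 231)) (XT.lf (nat_lit 0) (nat_lit 21492952776) (nat_lit 76) (nat_lit 31234480730) (nat_lit 76) (nat_lit 12738416429) (nat_lit 8) (nat_lit 4) (nat_lit 9) (nat_lit 5) (nat_lit 9) (nat_lit 4) (nat_lit 383) (nat_lit 287) (nat_lit 230)))))) (XT.nd (nat_lit 468) (nat_lit 76) (nat_lit 0) (XT.nd (nat_lit 234) (nat_lit 0) (nat_lit 0) (XT.nd (nat_lit 78) (nat_lit 152) (nat_lit 0) (XT.lf (nat_lit 0) (nat_lit 38630135554) (nat_lit 76) (nat_lit 24204154346) (nat_lit 76) (nat_lit 5649899136) (nat_lit 8) (nat_lit 4) (nat_lit 9) (nat_lit 5) (nat_lit 9) (nat_lit 4) (nat_lit 384) (nat_lit 287) (nat_lit 229)) (XT.nd (nat_lit 78) (nat_lit 76) (nat_lit 0) (XT.lf (nat_lit 0) (nat_lit 1714153970) (nat_lit 152) (nat_lit 15129942562) (nat_lit 76) (nat_lit 54810154820) (nat_lit 7) (nat_lit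 5) (nat_lit 9) (nat_lit 5) (nat_lit 8) (nat_lit 4) (nat_lit 385) (nat_lit 287) (nat_lit 228)) (XT.lf (nat_lit 0) (nat_lit 197740929) (nat_lit 76) (nat_lit 9092996470) (nat_lit 152) (nat_lit 65691571906) (nat_lit 6) (nat_lit 5) (nat_lit 7) (nat_lit 5) (nat_lit 8) (nat_lit 4) (nat_lit 386) (nat_lit 287) (nat_lit 227)))) (XT.nd (nat_lit 78) (nat_lit 0) (nat_lit 0) (XT.lf (nat_lit 0) (nat_lit 16530791954) (nat_lit 76) (nat_lit 830545701) (nat_lit 152) (nat_lit 61111982582) (nat_lit 6) (nat_lit 5) (nat_lit 7) (nat_lit 5) (nat_lit 8) (nat_lit 4) (nat_lit 387) (nat_lit 287) (nat_lit 226)) (XT.nd (nat_lit 78) (nat_lit 0) (nat_lit 0) (XT.lf (nat_lit 0) (nat_lit 25871913579) (nat_lit 152) (nat_lit 48608138752) (nat_lit 0) (nat_lit 7657741452) (nat_lit 6) (nat_lit 5) (nat_lit 8) (nat_lit 4) (nat_lit 6) (nat_lit 4) (nat_lit 388) (nat_lit 287) (nat_lit 225)) (XT.lf (nat_lit 0) (nat_lit 34779291152) (nat_lit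 152) (nat_lit 34686213942) (nat_lit 0) (nat_lit 16520852909) (nat_lit 6) (nat_lit 5) (nat_lit 8) (nat_lit 4) (nat_lit 6) (nat_lit 4) (nat_lit 389) (nat_lit 287) (nat_lit 224))))) (XT.nd (nat_lit 312) (nat_lit 0) (nat_lit 0) (XT.nd (nat_lit 78) (nat_lit 76) (nat_lit 0) (XT.lf (nat_lit 0) (nat_lit 44096694701) (nat_lit 152) (nat_lit 20135622699) (nat_lit 0) (nat_lit 25796098253) (nat_lit 6) (nat_lit 5) (nat_lit 8) (nat_lit 4) (nat_lit 6) (nat_lit 4) (nat_lit 390) (nat_lit 287) (nat_lit 223)) (XT.nd (nat_lit 78) (nat_lit 76) (nat_lit 0) (XT.lf (nat_lit 0) (nat_lit 53846308522) (nat_lit 152) (nat_lit 4921720759) (nat_lit 0) (nat_lit 35505561401) (nat_lit 6) (nat_lit 5) (nat_lit 8) (nat_lit 4) (nat_lit 6) (nat_lit 4) (nat_lit 391) (nat_lit 287) (nat_lit 222)) (XT.lf (nat_lit 0) (nat_lit 11210472144) (nat_lit 76) (nat_lit 52948635751) (nat_lit 76) (nat_lit 34569649896) (nat_lit 5) (nat_lit 4) (nat_lit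 6) (nat_lit 5) (nat_lit 6) (nat_lit 4) (nat_lit 392) (nat_lit 287) (nat_lit 221)))) (XT.nd (nat_lit 41418) (nat_lit 0) (nat_lit 9728) (XT.lf (nat_lit 0) (nat_lit 45967494393) (nat_lit 76) (nat_lit 40400398118) (nat_lit 76) (nat_lit 21950310759) (nat_lit 5) (nat_lit 4) (nat_lit 6) (nat_lit 5) (nat_lit 6) (nat_lit 4) (nat_lit 394) (nat_lit 287) (nat_lit 219)) (XT.nd (nat_lit 78) (nat_lit 456) (nat_lit 0) (XT.lf (nat_lit 0) (nat_lit 1734250448) (nat_lit 456) (nat_lit 1197900018) (nat_lit 456) (nat_lit 1197900018) (nat_lit 139) (nat_lit 4) (nat_lit 145) (nat_lit 5) (nat_lit 145) (nat_lit 4) (nat_lit 324) (nat_lit 288) (nat_lit 288)) (XT.lf (nat_lit 0) (nat_lit 3690582553) (nat_lit 456) (nat_lit 2877760837) (nat_lit 0) (nat_lit 1856511309) (nat_lit 133) (nat_lit 5) (nat_lit 139) (nat_lit 4) (nat_lit 133) (nat_lit 4) (nat_lit 325) (nat_lit 288) (nat_lit 287))))))) (XT.nd (nat_lit 858) (nat_lit 2584)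 (nat_lit 0) (XT.nd (nat_lit 390) (nat_lit 2204) (nat_lit 0) (XT.nd (nat_lit 156) (nat_lit 1140) (nat_lit 0) (XT.nd (nat_lit 78) (nat_lit 760) (nat_lit 0) (XT.lf (nat_lit 0) (nat_lit 1296602923) (nat_lit 456) (nat_lit 948701827) (nat_lit 76) (nat_lit 6354914597) (nat_lit 127) (nat_lit 5) (nat_lit 133) (nat_lit 5) (nat_lit 128) (nat_lit 4) (nat_lit 326) (nat_lit 288) (nat_lit 286)) (XT.lf (nat_lit 0) (nat_lit 998604980) (nat_lit 380) (nat_lit 6439467582) (nat_lit 380) (nat_lit 1347853559) (nat_lit 117) (nat_lit 4) (nat_lit 122) (nat_lit 5) (nat_lit 122) (nat_lit 4) (nat_lit 327) (nat_lit 288) (nat_lit 285))) (XT.nd (nat_lit 78) (nat_lit 760) (nat_lit 0) (XT.lf (nat_lit 0) (nat_lit 2955956132) (nat_lit 304) (nat_lit 1766095118) (nat_lit 380) (nat_lit 4260264594) (nat_lit 112) (nat_lit 5) (nat_lit 116) (nat_lit 5) (nat_lit 117) (nat_lit 4) (nat_lit 328) (nat_lit 288) (nat_lit 284)) (XT.nd (nat_lit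 78) (nat_lit 304) (nat_lit 0) (XT.lf (nat_lit 0) (nat_lit 1759753571) (nat_lit 456) (nat_lit 4286685162) (nat_lit 76) (nat_lit 3143796234) (nat_lit 106) (nat_lit 5) (nat_lit 112) (nat_lit 5) (nat_lit 107) (nat_lit 4) (nat_lit 329) (nat_lit 288) (nat_lit 283)) (XT.lf (nat_lit 0) (nat_lit 6832969461) (nat_lit 304) (nat_lit 1071712828) (nat_lit 380) (nat_lit 1505395670) (nat_lit 102) (nat_lit 5) (nat_lit 106) (nat_lit 5) (nat_lit 107) (nat_lit 4) (nat_lit 330) (nat_lit 288) (nat_lit 282))))) (XT.nd (nat_lit 234) (nat_lit 912) (nat_lit 0) (XT.nd (nat_lit 78) (nat_lit 912) (nat_lit 0) (XT.lf (nat_lit 0) (nat_lit 4563914203) (nat_lit 380) (nat_lit 932908387) (nat_lit 76) (nat_lit 4144672981) (nat_lit 97) (nat_lit 5) (nat_lit 102) (nat_lit 5) (nat_lit 98) (nat_lit 4) (nat_lit 331) (nat_lit 288) (nat_lit 281)) (XT.nd (nat_lit 78) (nat_lit 228) (nat_lit 0) (XT.lf (nat_lit 0) (nat_lit 697467528) (nat_lit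 304) (nat_lit 226973388) (nat_lit 380) (nat_lit 8961747320) (nat_lit 88) (nat_lit 5) (nat_lit 92) (nat_lit 5) (nat_lit 93) (nat_lit 5) (nat_lit 332) (nat_lit 288) (nat_lit 280)) (XT.lf (nat_lit 0) (nat_lit 2238146269) (nat_lit 228) (nat_lit 4855358046) (nat_lit 304) (nat_lit 3049069766) (nat_lit 85) (nat_lit 5) (nat_lit 88) (nat_lit 5) (nat_lit 89) (nat_lit 4) (nat_lit 333) (nat_lit 288) (nat_lit 279)))) (XT.nd (nat_lit 78) (nat_lit 532) (nat_lit 0) (XT.lf (nat_lit 0) (nat_lit 3021786294) (nat_lit 380) (nat_lit 6693044708) (nat_lit 76) (nat_lit 698427238) (nat_lit 80) (nat_lit 5) (nat_lit 85) (nat_lit 5) (nat_lit 81) (nat_lit 4) (nat_lit 334) (nat_lit 288) (nat_lit 278)) (XT.nd (nat_lit 78) (nat_lit 304) (nat_lit 0) (XT.lf (nat_lit 0) (nat_lit 5087820044) (nat_lit 228) (nat_lit 4215802848) (nat_lit 304) (nat_lit 1393943482) (nat_lit 77) (nat_lit 5) (nat_lit 80) (nat_lit 5) (nat_lit 81) (nat_lit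 4) (nat_lit 335) (nat_lit 288) (nat_lit 277)) (XT.lf (nat_lit 0) (nat_lit 4748754415) (nat_lit 304) (nat_lit 4654734678) (nat_lit 76) (nat_lit 1593059484) (nat_lit 73) (nat_lit 5) (nat_lit 77) (nat_lit 5) (nat_lit 74) (nat_lit 4) (nat_lit 336) (nat_lit 288) (nat_lit 276)))))) (XT.nd (nat_lit 468) (nat_lit 1140) (nat_lit 0) (XT.nd (nat_lit 234) (nat_lit 684) (nat_lit 0) (XT.nd (nat_lit 78) (nat_lit 532) (nat_lit 0) (XT.lf (nat_lit 0) (nat_lit 7470366255) (nat_lit 228) (nat_lit 3672677043) (nat_lit 304) (nat_lit 167921171) (nat_lit 70) (nat_lit 5) (nat_lit 73) (nat_lit 5) (nat_lit 74) (nat_lit 4) (nat_lit 337) (nat_lit 288) (nat_lit 275)) (XT.nd (nat_lit 78) (nat_lit 228) (nat_lit 0) (XT.lf (nat_lit 0) (nat_lit 6052442990) (nat_lit 304) (nat_lit 3213141028) (nat_lit 76) (nat_lit 2375080654) (nat_lit 66) (nat_lit 5) (nat_lit 70) (nat_lit 5) (nat_lit 67) (nat_lit 4) (nat_lit 338) (nat_lit 288)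 (nat_lit 274)) (XT.lf (nat_lit 0) (nat_lit 557609978) (nat_lit 228) (nat_lit 2756547443) (nat_lit 76) (nat_lit 8673285301) (nat_lit 63) (nat_lit 5) (nat_lit 66) (nat_lit 5) (nat_lit 64) (nat_lit 5) (nat_lit 339) (nat_lit 288) (nat_lit 273)))) (XT.nd (nat_lit 78) (nat_lit 456) (nat_lit 0) (XT.lf (nat_lit 0) (nat_lit 6867602228) (nat_lit 304) (nat_lit 2534609362) (nat_lit 76) (nat_lit 2948594079) (nat_lit 60) (nat_lit 5) (nat_lit 64) (nat_lit 5) (nat_lit 61) (nat_lit 4) (nat_lit 340) (nat_lit 288) (nat_lit 272)) (XT.nd (nat_lit 78) (nat_lit 228) (nat_lit 0) (XT.lf (nat_lit 0) (nat_lit 725205814) (nat_lit 228) (nat_lit 2529738019) (nat_lit 76) (nat_lit 9477867897) (nat_lit 57) (nat_lit 5) (nat_lit 60) (nat_lit 5) (nat_lit 58) (nat_lit 5) (nat_lit 341) (nat_lit 288) (nat_lit 271)) (XT.lf (nat_lit 0) (nat_lit 7112279974) (nat_lit 304) (nat_lit 2815271076) (nat_lit 76) (nat_lit 3205358678) (nat_lit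 54) (nat_lit 5) (nat_lit 58) (nat_lit 5) (nat_lit 55) (nat_lit 4) (nat_lit 342) (nat_lit 288) (nat_lit 270))))) (XT.nd (nat_lit 234) (nat_lit 608) (nat_lit 0) (XT.nd (nat_lit 78) (nat_lit 304) (nat_lit 0) (XT.lf (nat_lit 0) (nat_lit 245240325) (nat_lit 228) (nat_lit 3371803306) (nat_lit 76) (nat_lit 9936414908) (nat_lit 51) (nat_lit 5) (nat_lit 54) (nat_lit 5) (nat_lit 52) (nat_lit 5) (nat_lit 343) (nat_lit 288) (nat_lit 269)) (XT.nd (nat_lit 78) (nat_lit 152) (nat_lit 0) (XT.lf (nat_lit 0) (nat_lit 6685216303) (nat_lit 228) (nat_lit 4286826365) (nat_lit 76) (nat_lit 3021705324) (nat_lit 49) (nat_lit 5) (nat_lit 52) (nat_lit 5) (nat_lit 50) (nat_lit 4) (nat_lit 344) (nat_lit 288) (nat_lit 268)) (XT.lf (nat_lit 0) (nat_lit 8911768041) (nat_lit 152) (nat_lit 4528592840) (nat_lit 228) (nat_lit 1015954381) (nat_lit 47) (nat_lit 5) (nat_lit 49) (nat_lit 5) (nat_lit 50) (nat_lit 4) (nat_lit 345)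 (nat_lit 288) (nat_lit 267)))) (XT.nd (nat_lit 78) (nat_lit 380) (nat_lit 0) (XT.lf (nat_lit 0) (nat_lit 5462737742) (nat_lit 228) (nat_lit 7223283957) (nat_lit 76) (nat_lit 2255013089) (nat_lit 44) (nat_lit 5) (nat_lit 47) (nat_lit 5) (nat_lit 45) (nat_lit 4) (nat_lit 346) (nat_lit 288) (nat_lit 266)) (XT.nd (nat_lit 78) (nat_lit 228) (nat_lit 0) (XT.lf (nat_lit 0) (nat_lit 6102030884) (nat_lit 152) (nat_lit 6148025271) (nat_lit 228) (nat_lit 3199512730) (nat_lit 42) (nat_lit 5) (nat_lit 44) (nat_lit 5) (nat_lit 45) (nat_lit 4) (nat_lit 347) (nat_lit 288) (nat_lit 265)) (XT.lf (nat_lit 0) (nat_lit 3295070742) (nat_lit 228) (nat_lit 11948827757) (nat_lit 76) (nat_lit 739658030) (nat_lit 39) (nat_lit 5) (nat_lit 42) (nat_lit 5) (nat_lit 40) (nat_lit 4) (nat_lit 348) (nat_lit 288) (nat_lit 264))))))))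
noncomputable def xc28 : XT := (XT.nd (nat_lit 1716) (nat_lit 760) (nat_lit 0) (XT.nd (nat_lit 858) (nat_lit 532) (nat_lit 0) (XT.nd (nat_lit 390) (nat_lit 608) (nat_lit 0) (XT.nd (nat_lit 156) (nat_lit 456) (nat_lit 0) (XT.nd (nat_lit 78) (nat_lit 76) (nat_lit 0) (XT.lf (nat_lit 0) (nat_lit 1409927002) (nat_lit 152) (nat_lit 8662296511) (nat_lit 228) (nat_lit 6470394678) (nat_lit 37) (nat_lit 5) (nat_lit 39) (nat_lit 5) (nat_lit 40) (nat_lit 4) (nat_lit 349) (nat_lit 288) (nat_lit 263)) (XT.lf (nat_lit 0) (nat_lit 35478519) (nat_lit 228) (nat_lit 1699213999) (nat_lit 76) (nat_lit 15395624789) (nat_lit 36) (nat_lit 5) (nat_lit 39) (nat_lit 5) (nat_lit 37) (nat_lit 5) (nat_lit 350) (nat_lit 288) (nat_lit 262))) (XT.nd (nat_lit 78) (nat_lit 304) (nat_lit 0) (XT.lf (nat_lit 0) (nat_lit 6767459492) (nat_lit 228) (nat_lit 5464330194) (nat_lit 76) (nat_lit 5512690743) (nat_lit 34) (nat_lit 5) (nat_lit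 37) (nat_lit 5) (nat_lit 35) (nat_lit 4) (nat_lit 351) (nat_lit 288) (nat_lit 261)) (XT.nd (nat_lit 78) (nat_lit 228) (nat_lit 0) (XT.lf (nat_lit 0) (nat_lit 8512002662) (nat_lit 76) (nat_lit 5305137705) (nat_lit 152) (nat_lit 4572816321) (nat_lit 33) (nat_lit 5) (nat_lit 34) (nat_lit 5) (nat_lit 35) (nat_lit 4) (nat_lit 352) (nat_lit 288) (nat_lit 260)) (XT.lf (nat_lit 0) (nat_lit 2091455624) (nat_lit 228) (nat_lit 15031415094) (nat_lit 76) (nat_lit 1944795431) (nat_lit 30) (nat_lit 5) (nat_lit 33) (nat_lit 5) (nat_lit 31) (nat_lit 4) (nat_lit 353) (nat_lit 288) (nat_lit 259))))) (XT.nd (nat_lit 234) (nat_lit 304) (nat_lit 0) (XT.nd (nat_lit 78) (nat_lit 304) (nat_lit 0) (XT.lf (nat_lit 0) (nat_lit 9021607166) (nat_lit 228) (nat_lit 1257788905) (nat_lit 76) (nat_lit 9497723052) (nat_lit 30) (nat_lit 5) (nat_lit 33) (nat_lit 5) (nat_lit 31) (nat_lit 4) (nat_lit 354) (nat_lit 288) (nat_lit 258))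 (XT.nd (nat_lit 78) (nat_lit 228) (nat_lit 0) (XT.lf (nat_lit 0) (nat_lit 13240548838) (nat_lit 76) (nat_lit 3061300445) (nat_lit 152) (nat_lit 4220119847) (nat_lit 29) (nat_lit 5) (nat_lit 30) (nat_lit 5) (nat_lit 31) (nat_lit 4) (nat_lit 355) (nat_lit 288) (nat_lit 257)) (XT.lf (nat_lit 0) (nat_lit 2594076196) (nat_lit 228) (nat_lit 14267422660) (nat_lit 76) (nat_lit 4441722644) (nat_lit 26) (nat_lit 5) (nat_lit 29) (nat_lit 5) (nat_lit 27) (nat_lit 4) (nat_lit 356) (nat_lit 288) (nat_lit 256)))) (XT.nd (nat_lit 78) (nat_lit 304) (nat_lit 0) (XT.lf (nat_lit 0) (nat_lit 9650831529) (nat_lit 228) (nat_lit 189268095) (nat_lit 76) (nat_lit 12282537589) (nat_lit 26) (nat_lit 5) (nat_lit 29) (nat_lit 5) (nat_lit 27) (nat_lit 4) (nat_lit 357) (nat_lit 288) (nat_lit 255)) (XT.nd (nat_lit 78) (nat_lit 228) (nat_lit 0) (XT.lf (nat_lit 0) (nat_lit 14674591958) (nat_lit 76) (nat_lit 2414246523) (nat_lit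 152) (nat_lit 5893359549) (nat_lit 25) (nat_lit 5) (nat_lit 26) (nat_lit 5) (nat_lit 27) (nat_lit 4) (nat_lit 358) (nat_lit 288) (nat_lit 254)) (XT.lf (nat_lit 0) (nat_lit 998168588) (nat_lit 228) (nat_lit 17624047609) (nat_lit 76) (nat_lit 5262134588) (nat_lit 22) (nat_lit 5) (nat_lit 25) (nat_lit 5) (nat_lit 23) (nat_lit 4) (nat_lit 359) (nat_lit 288) (nat_lit 253)))))) (XT.nd (nat_lit 390) (nat_lit 228) (nat_lit 0) (XT.nd (nat_lit 156) (nat_lit 228) (nat_lit 0) (XT.nd (nat_lit 78) (nat_lit 76) (nat_lit 0) (XT.lf (nat_lit 0) (nat_lit 8116485297) (nat_lit 228) (nat_lit 3381067260) (nat_lit 76) (nat_lit 13332208783) (nat_lit 22) (nat_lit 5) (nat_lit 25) (nat_lit 5) (nat_lit 23) (nat_lit 4) (nat_lit 360) (nat_lit 288) (nat_lit 252)) (XT.lf (nat_lit 0) (nat_lit 11612534308) (nat_lit 76) (nat_lit 3987171358) (nat_lit 152) (nat_lit 10222489542) (nat_lit 21) (nat_lit 5) (nat_lit 22) (nat_lit 5)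 (nat_lit 23) (nat_lit 4) (nat_lit 361) (nat_lit 288) (nat_lit 251))) (XT.nd (nat_lit 78) (nat_lit 152) (nat_lit 0) (XT.lf (nat_lit 0) (nat_lit 347274714) (nat_lit 76) (nat_lit 23085469207) (nat_lit 76) (nat_lit 3432258493) (nat_lit 20) (nat_lit 4) (nat_lit 21) (nat_lit 5) (nat_lit 21) (nat_lit 4) (nat_lit 362) (nat_lit 288) (nat_lit 250)) (XT.nd (nat_lit 78) (nat_lit 76) (nat_lit 0) (XT.lf (nat_lit 0) (nat_lit 3715059379) (nat_lit 152) (nat_lit 12285416262) (nat_lit 76) (nat_lit 11955736015) (nat_lit 19) (nat_lit 5) (nat_lit 21) (nat_lit 5) (nat_lit 20) (nat_lit 4) (nat_lit 363) (nat_lit 288) (nat_lit 249)) (XT.lf (nat_lit 0) (nat_lit 2499676736) (nat_lit 76) (nat_lit 8580207290) (nat_lit 152) (nat_lit 18023162894) (nat_lit 18) (nat_lit 5) (nat_lit 19) (nat_lit 5) (nat_lit 20) (nat_lit 4) (nat_lit 364) (nat_lit 288) (nat_lit 248))))) (XT.nd (nat_lit 234) (nat_lit 76) (nat_lit 0) (XT.nd (nat_lit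 78) (nat_lit 152) (nat_lit 0) (XT.lf (nat_lit 0) (nat_lit 18112742485) (nat_lit 76) (nat_lit 735952272) (nat_lit 152) (nat_lit 11457474753) (nat_lit 18) (nat_lit 5) (nat_lit 19) (nat_lit 5) (nat_lit 20) (nat_lit 4) (nat_lit 365) (nat_lit 288) (nat_lit 247)) (XT.nd (nat_lit 78) (nat_lit 76) (nat_lit 0) (XT.lf (nat_lit 0) (nat_lit 2756796769) (nat_lit 76) (nat_lit 24260638708) (nat_lit 76) (nat_lit 4551685123) (nat_lit 17) (nat_lit 4) (nat_lit 18) (nat_lit 5) (nat_lit 18) (nat_lit 4) (nat_lit 366) (nat_lit 288) (nat_lit 246)) (XT.lf (nat_lit 0) (nat_lit 2695584492) (nat_lit 152) (nat_lit 14375719023) (nat_lit 76) (nat_lit 15821687091) (nat_lit 16) (nat_lit 5) (nat_lit 18) (nat_lit 5) (nat_lit 17) (nat_lit 4) (nat_lit 367) (nat_lit 288) (nat_lit 245)))) (XT.nd (nat_lit 78) (nat_lit 0) (nat_lit 0) (XT.lf (nat_lit 0) (nat_lit 597010531) (nat_lit 76) (nat_lit 9539422186) (nat_lit 152) (nat_lit 24147523899)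 (nat_lit 15) (nat_lit 5) (nat_lit 16) (nat_lit 5) (nat_lit 17) (nat_lit 4) (nat_lit 368) (nat_lit 288) (nat_lit 244)) (XT.nd (nat_lit 78) (nat_lit 0) (nat_lit 0) (XT.lf (nat_lit 0) (nat_lit 16471713005) (nat_lit 76) (nat_lit 1546788649) (nat_lit 152) (nat_lit 17723908226) (nat_lit 15) (nat_lit 5) (nat_lit 16) (nat_lit 5) (nat_lit 17) (nat_lit 4) (nat_lit 369) (nat_lit 288) (nat_lit 243)) (XT.lf (nat_lit 0) (nat_lit 26284797648) (nat_lit 152) (nat_lit 4341148684) (nat_lit 0) (nat_lit 6648149390) (nat_lit 15) (nat_lit 5) (nat_lit 17) (nat_lit 4) (nat_lit 15) (nat_lit 4) (nat_lit 370) (nat_lit 288) (nat_lit 242))))))) (XT.nd (nat_lit 858) (nat_lit 304) (nat_lit 0) (XT.nd (nat_lit 390) (nat_lit 228) (nat_lit 0) (XT.nd (nat_lit 156) (nat_lit 76) (nat_lit 0) (XT.nd (nat_lit 78) (nat_lit 76) (nat_lit 0) (XT.lf (nat_lit 0) (nat_lit 11406891903) (nat_lit 76) (nat_lit 23610703150) (nat_lit 76) (nat_lit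 3863188178) (nat_lit 14) (nat_lit 4) (nat_lit 15) (nat_lit 5) (nat_lit 15) (nat_lit 4) (nat_lit 371) (nat_lit 288) (nat_lit 241)) (XT.lf (nat_lit 0) (nat_lit 3523126069) (nat_lit 152) (nat_lit 12701156396) (nat_lit 76) (nat_lit 24343255249) (nat_lit 13) (nat_lit 5) (nat_lit 15) (nat_lit 5) (nat_lit 14) (nat_lit 4) (nat_lit 372) (nat_lit 288) (nat_lit 240))) (XT.nd (nat_lit 78) (nat_lit 0) (nat_lit 0) (XT.lf (nat_lit 0) (nat_lit 2697663360) (nat_lit 76) (nat_lit 8460624844) (nat_lit 152) (nat_lit 31180422795) (nat_lit 12) (nat_lit 5) (nat_lit 13) (nat_lit 5) (nat_lit 14) (nat_lit 4) (nat_lit 373) (nat_lit 288) (nat_lit 239)) (XT.nd (nat_lit 78) (nat_lit 0) (nat_lit 0) (XT.lf (nat_lit 0) (nat_lit 19009257487) (nat_lit 76) (nat_lit 231476512) (nat_lit 152) (nat_lit 24955754064) (nat_lit 12) (nat_lit 5) (nat_lit 13) (nat_lit 5) (nat_lit 14) (nat_lit 4) (nat_lit 374) (nat_lit 288) (nat_lit 238))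 (XT.lf (nat_lit 0) (nat_lit 27745494784) (nat_lit 152) (nat_lit 10209651178) (nat_lit 0) (nat_lit 8191472598) (nat_lit 12) (nat_lit 5) (nat_lit 14) (nat_lit 4) (nat_lit 12) (nat_lit 4) (nat_lit 375) (nat_lit 288) (nat_lit 237))))) (XT.nd (nat_lit 234) (nat_lit 76) (nat_lit 0) (XT.nd (nat_lit 78) (nat_lit 76) (nat_lit 0) (XT.lf (nat_lit 0) (nat_lit 5509509964) (nat_lit 76) (nat_lit 31161622684) (nat_lit 76) (nat_lit 11523263633) (nat_lit 11) (nat_lit 4) (nat_lit 12) (nat_lit 5) (nat_lit 12) (nat_lit 4) (nat_lit 376) (nat_lit 288) (nat_lit 236)) (XT.nd (nat_lit 78) (nat_lit 76) (nat_lit 0) (XT.lf (nat_lit 0) (nat_lit 22118733551) (nat_lit 76) (nat_lit 23971550826) (nat_lit 76) (nat_lit 4252870950) (nat_lit 11) (nat_lit 4) (nat_lit 12) (nat_lit 5) (nat_lit 12) (nat_lit 4) (nat_lit 377) (nat_lit 288) (nat_lit 235)) (XT.lf (nat_lit 0) (nat_lit 3259398842) (nat_lit 152) (nat_lit 13178596247) (nat_lit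 76) (nat_lit 36162060895) (nat_lit 10) (nat_lit 5) (nat_lit 12) (nat_lit 5) (nat_lit 11) (nat_lit 4) (nat_lit 378) (nat_lit 288) (nat_lit 234)))) (XT.nd (nat_lit 78) (nat_lit 0) (nat_lit 0) (XT.lf (nat_lit 0) (nat_lit 2525727435) (nat_lit 76) (nat_lit 8505679800) (nat_lit 152) (nat_lit 43937977058) (nat_lit 9) (nat_lit 5) (nat_lit 10) (nat_lit 5) (nat_lit 11) (nat_lit 4) (nat_lit 379) (nat_lit 288) (nat_lit 233)) (XT.nd (nat_lit 78) (nat_lit 0) (nat_lit 0) (XT.lf (nat_lit 0) (nat_lit 19193378191) (nat_lit 76) (nat_lit 82873824) (nat_lit 152) (nat_lit 38178407805) (nat_lit 9) (nat_lit 5) (nat_lit 10) (nat_lit 5) (nat_lit 11) (nat_lit 4) (nat_lit 380) (nat_lit 288) (nat_lit 232)) (XT.lf (nat_lit 0) (nat_lit 27968158814) (nat_lit 152) (nat_lit 23547711925) (nat_lit 0) (nat_lit 8547291298) (nat_lit 9) (nat_lit 5) (nat_lit 11) (nat_lit 4) (nat_lit 9) (nat_lit 4) (nat_lit 381) (nat_lit 288) (nat_lit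 231)))))) (XT.nd (nat_lit 468) (nat_lit 76) (nat_lit 0) (XT.nd (nat_lit 234) (nat_lit 152) (nat_lit 0) (XT.nd (nat_lit 78) (nat_lit 76) (nat_lit 0) (XT.lf (nat_lit 0) (nat_lit 37048452649) (nat_lit 152) (nat_lit 8188545438) (nat_lit 0) (nat_lit 17566484678) (nat_lit 9) (nat_lit 5) (nat_lit 11) (nat_lit 4) (nat_lit 9) (nat_lit 4) (nat_lit 382) (nat_lit 288) (nat_lit 230)) (XT.nd (nat_lit 78) (nat_lit 0) (nat_lit 0) (XT.lf (nat_lit 0) (nat_lit 8009885630) (nat_lit 76) (nat_lit 38605066923) (nat_lit 76) (nat_lit 19064908044) (nat_lit 8) (nat_lit 4) (nat_lit 9) (nat_lit 5) (nat_lit 9) (nat_lit 4) (nat_lit 383) (nat_lit 288) (nat_lit 229)) (XT.lf (nat_lit 0) (nat_lit 25106795683) (nat_lit 76) (nat_lit 31593811018) (nat_lit 76) (nat_lit 11998232227) (nat_lit 8) (nat_lit 4) (nat_lit 9) (nat_lit 5) (nat_lit 9) (nat_lit 4) (nat_lit 384) (nat_lit 288) (nat_lit 228)))) (XT.nd (nat_lit 78) (nat_lit 152)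 (nat_lit 0) (XT.lf (nat_lit 0) (nat_lit 42979923538) (nat_lit 76) (nat_lit 24269225160) (nat_lit 76) (nat_lit 4620865499) (nat_lit 8) (nat_lit 4) (nat_lit 9) (nat_lit 5) (nat_lit 9) (nat_lit 4) (nat_lit 385) (nat_lit 288) (nat_lit 227)) (XT.nd (nat_lit 78) (nat_lit 76) (nat_lit 0) (XT.lf (nat_lit 0) (nat_lit 3024562571) (nat_lit 152) (nat_lit 13558765136) (nat_lit 76) (nat_lit 58616719541) (nat_lit 7) (nat_lit 5) (nat_lit 9) (nat_lit 5) (nat_lit 8) (nat_lit 4) (nat_lit 386) (nat_lit 288) (nat_lit 226)) (XT.lf (nat_lit 0) (nat_lit 2468580206) (nat_lit 76) (nat_lit 8474809530) (nat_lit 152) (nat_lit 67752224288) (nat_lit 6) (nat_lit 5) (nat_lit 7) (nat_lit 5) (nat_lit 8) (nat_lit 4) (nat_lit 387) (nat_lit 288) (nat_lit 225))))) (XT.nd (nat_lit 234) (nat_lit 76) (nat_lit 0) (XT.nd (nat_lit 78) (nat_lit 0) (nat_lit 0) (XT.lf (nat_lit 0) (nat_lit 19362381858) (nat_lit 152) (nat_lit 62853700167)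 (nat_lit 0) (nat_lit 146755588) (nat_lit 6) (nat_lit 5) (nat_lit 8) (nat_lit 4) (nat_lit 6) (nat_lit 4) (nat_lit 388) (nat_lit 288) (nat_lit 224)) (XT.nd (nat_lit 78) (nat_lit 0) (nat_lit 0) (XT.lf (nat_lit 0) (nat_lit 28252518991) (nat_lit 152) (nat_lit 48964667946) (nat_lit 0) (nat_lit 8994734515) (nat_lit 6) (nat_lit 5) (nat_lit 8) (nat_lit 4) (nat_lit 6) (nat_lit 4) (nat_lit 389) (nat_lit 288) (nat_lit 223)) (XT.lf (nat_lit 0) (nat_lit 37553503074) (nat_lit 152) (nat_lit 34445402978) (nat_lit 0) (nat_lit 18255567926) (nat_lit 6) (nat_lit 5) (nat_lit 8) (nat_lit 4) (nat_lit 6) (nat_lit 4) (nat_lit 390) (nat_lit 288) (nat_lit 222)))) (XT.nd (nat_lit 78) (nat_lit 76) (nat_lit 0) (XT.lf (nat_lit 0) (nat_lit 47287479307) (nat_lit 152) (nat_lit 19261335586) (nat_lit 0) (nat_lit 27951305424) (nat_lit 6) (nat_lit 5) (nat_lit 8) (nat_lit 4) (nat_lit 6) (nat_lit 4) (nat_lit 391) (nat_lit 288) (nat_lit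 221)) (XT.nd (nat_lit 156) (nat_lit 76) (nat_lit 0) (XT.lf (nat_lit 0) (nat_lit 57477623825) (nat_lit 152) (nat_lit 3376313227) (nat_lit 0) (nat_lit 38105032098) (nat_lit 6) (nat_lit 5) (nat_lit 8) (nat_lit 4) (nat_lit 6) (nat_lit 4) (nat_lit 392) (nat_lit 288) (nat_lit 220)) (XT.lf (nat_lit 0) (nat_lit 31259629268) (nat_lit 76) (nat_lit 48365468002) (nat_lit 76) (nat_lit 28925160558) (nat_lit 5) (nat_lit 4) (nat_lit 6) (nat_lit 5) (nat_lit 6) (nat_lit 4) (nat_lit 394) (nat_lit 288) (nat_lit 218))))))))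
noncomputable def xc29 : XT := (XT.nd (nat_lit 1794) (nat_lit 2432) (nat_lit 0) (XT.nd (nat_lit 858) (nat_lit 3268) (nat_lit 0) (XT.nd (nat_lit 390) (nat_lit 2660) (nat_lit 0) (XT.nd (nat_lit 156) (nat_lit 1368) (nat_lit 0) (XT.nd (nat_lit 78) (nat_lit 988) (nat_lit 0) (XT.lf (nat_lit 0) (nat_lit 1882581701) (nat_lit 532) (nat_lit 213297412) (nat_lit 0) (nat_lit 1882581701) (nat_lit 158) (nat_lit 5) (nat_lit 165) (nat_lit 4) (nat_lit 158) (nat_lit 4) (nat_lit 322) (nat_lit 289) (nat_lit 289)) (XT.lf (nat_lit 0) (nat_lit 1426232691) (nat_lit 456) (nat_lit 282775772) (nat_lit 532) (nat_lit 6396792686) (nat_lit 145) (nat_lit 5) (nat_lit 151) (nat_lit 5) (nat_lit 152) (nat_lit 4) (nat_lit 323) (nat_lit 289) (nat_lit 288))) (XT.nd (nat_lit 78) (nat_lit 912) (nat_lit 0) (XT.lf (nat_lit 0) (nat_lit 3302712915) (nat_lit 456) (nat_lit 4416990837) (nat_lit 456) (nat_lit 544349406) (nat_lit 139) (nat_lit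 4) (nat_lit 145) (nat_lit 5) (nat_lit 145) (nat_lit 4) (nat_lit 324) (nat_lit 289) (nat_lit 287)) (XT.nd (nat_lit 78) (nat_lit 456) (nat_lit 0) (XT.lf (nat_lit 0) (nat_lit 5210929974) (nat_lit 380) (nat_lit 150009906) (nat_lit 456) (nat_lit 3071781744) (nat_lit 133) (nat_lit 5) (nat_lit 138) (nat_lit 5) (nat_lit 139) (nat_lit 4) (nat_lit 325) (nat_lit 289) (nat_lit 286)) (XT.lf (nat_lit 0) (nat_lit 2799622727) (nat_lit 456) (nat_lit 1486903112) (nat_lit 76) (nat_lit 4324984083) (nat_lit 127) (nat_lit 5) (nat_lit 133) (nat_lit 5) (nat_lit 128) (nat_lit 4) (nat_lit 326) (nat_lit 289) (nat_lit 285))))) (XT.nd (nat_lit 234) (nat_lit 1064) (nat_lit 0) (XT.nd (nat_lit 78) (nat_lit 836) (nat_lit 0) (XT.lf (nat_lit 0) (nat_lit 280562076) (nat_lit 380) (nat_lit 8510369713) (nat_lit 380) (nat_lit 10877530) (nat_lit 117) (nat_lit 4) (nat_lit 122) (nat_lit 5) (nat_lit 122) (nat_lit 4) (nat_lit 327) (nat_lit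 289) (nat_lit 284)) (XT.nd (nat_lit 78) (nat_lit 456) (nat_lit 0) (XT.lf (nat_lit 0) (nat_lit 2030071354) (nat_lit 304) (nat_lit 3878554306) (nat_lit 380) (nat_lit 3092998384) (nat_lit 112) (nat_lit 5) (nat_lit 116) (nat_lit 5) (nat_lit 117) (nat_lit 4) (nat_lit 328) (nat_lit 289) (nat_lit 283)) (XT.lf (nat_lit 0) (nat_lit 2759963384) (nat_lit 456) (nat_lit 5426037370) (nat_lit 76) (nat_lit 1027609234) (nat_lit 106) (nat_lit 5) (nat_lit 112) (nat_lit 5) (nat_lit 107) (nat_lit 4) (nat_lit 329) (nat_lit 289) (nat_lit 282)))) (XT.nd (nat_lit 78) (nat_lit 760) (nat_lit 0) (XT.lf (nat_lit 0) (nat_lit 5510730505) (nat_lit 304) (nat_lit 3272295015) (nat_lit 380) (nat_lit 654154952) (nat_lit 102) (nat_lit 5) (nat_lit 106) (nat_lit 5) (nat_lit 107) (nat_lit 4) (nat_lit 330) (nat_lit 289) (nat_lit 281)) (XT.nd (nat_lit 78) (nat_lit 380) (nat_lit 0) (XT.lf (nat_lit 0) (nat_lit 5255499207) (nat_lit 380)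 (nat_lit 2484180000) (nat_lit 76) (nat_lit 1933030853) (nat_lit 97) (nat_lit 5) (nat_lit 102) (nat_lit 5) (nat_lit 98) (nat_lit 4) (nat_lit 331) (nat_lit 289) (nat_lit 280)) (XT.lf (nat_lit 0) (nat_lit 1443897765) (nat_lit 380) (nat_lit 1094397698) (nat_lit 76) (nat_lit 7382818773) (nat_lit 92) (nat_lit 5) (nat_lit 97) (nat_lit 5) (nat_lit 93) (nat_lit 5) (nat_lit 332) (nat_lit 289) (nat_lit 279)))))) (XT.nd (nat_lit 468) (nat_lit 1292) (nat_lit 0) (XT.nd (nat_lit 234) (nat_lit 836) (nat_lit 0) (XT.nd (nat_lit 78) (nat_lit 608) (nat_lit 0) (XT.lf (nat_lit 0) (nat_lit 215769739) (nat_lit 228) (nat_lit 7241808942) (nat_lit 304) (nat_lit 2724641089) (nat_lit 85) (nat_lit 5) (nat_lit 88) (nat_lit 5) (nat_lit 89) (nat_lit 4) (nat_lit 333) (nat_lit 289) (nat_lit 278)) (XT.nd (nat_lit 78) (nat_lit 228) (nat_lit 0) (XT.lf (nat_lit 0) (nat_lit 1464046707) (nat_lit 304) (nat_lit 1746746688) (nat_lit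 380) (nat_lit 7245943528) (nat_lit 80) (nat_lit 5) (nat_lit 84) (nat_lit 5) (nat_lit 85) (nat_lit 5) (nat_lit 334) (nat_lit 289) (nat_lit 277)) (XT.lf (nat_lit 0) (nat_lit 2604542292) (nat_lit 228) (nat_lit 6749782772) (nat_lit 304) (nat_lit 1390920404) (nat_lit 77) (nat_lit 5) (nat_lit 80) (nat_lit 5) (nat_lit 81) (nat_lit 4) (nat_lit 335) (nat_lit 289) (nat_lit 276)))) (XT.nd (nat_lit 78) (nat_lit 532) (nat_lit 0) (XT.lf (nat_lit 0) (nat_lit 3624011500) (nat_lit 228) (nat_lit 990413734) (nat_lit 304) (nat_lit 6433967765) (nat_lit 73) (nat_lit 5) (nat_lit 76) (nat_lit 5) (nat_lit 77) (nat_lit 5) (nat_lit 336) (nat_lit 289) (nat_lit 275)) (XT.nd (nat_lit 78) (nat_lit 304) (nat_lit 0) (XT.lf (nat_lit 0) (nat_lit 4504799780) (nat_lit 228) (nat_lit 6373128382) (nat_lit 304) (nat_lit 488849452) (nat_lit 70) (nat_lit 5) (nat_lit 73) (nat_lit 5) (nat_lit 74) (nat_lit 4) (nat_lit 337) (nat_lit 289)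 (nat_lit 274)) (XT.lf (nat_lit 0) (nat_lit 5225066167) (nat_lit 228) (nat_lit 367761454) (nat_lit 304) (nat_lit 6108132972) (nat_lit 66) (nat_lit 5) (nat_lit 69) (nat_lit 5) (nat_lit 70) (nat_lit 5) (nat_lit 338) (nat_lit 289) (nat_lit 273))))) (XT.nd (nat_lit 234) (nat_lit 684) (nat_lit 0) (XT.nd (nat_lit 78) (nat_lit 456) (nat_lit 0) (XT.lf (nat_lit 0) (nat_lit 5766410390) (nat_lit 152) (nat_lit 6205194870) (nat_lit 228) (nat_lit 80089947) (nat_lit 64) (nat_lit 5) (nat_lit 66) (nat_lit 5) (nat_lit 67) (nat_lit 4) (nat_lit 339) (nat_lit 289) (nat_lit 272)) (XT.nd (nat_lit 78) (nat_lit 152) (nat_lit 0) (XT.lf (nat_lit 0) (nat_lit 6080596933) (nat_lit 304) (nat_lit 6315723402) (nat_lit 76) (nat_lit 23323721) (nat_lit 60) (nat_lit 5) (nat_lit 64) (nat_lit 5) (nat_lit 61) (nat_lit 4) (nat_lit 340) (nat_lit 289) (nat_lit 271)) (XT.lf (nat_lit 0) (nat_lit 6212449090) (nat_lit 152) (nat_lit 6350836088)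 (nat_lit 228) (nat_lit 242284443) (nat_lit 58) (nat_lit 5) (nat_lit 60) (nat_lit 5) (nat_lit 61) (nat_lit 4) (nat_lit 341) (nat_lit 289) (nat_lit 270)))) (XT.nd (nat_lit 78) (nat_lit 380) (nat_lit 0) (XT.lf (nat_lit 0) (nat_lit 5995573081) (nat_lit 304) (nat_lit 7142214066) (nat_lit 76) (nat_lit 72601046) (nat_lit 54) (nat_lit 5) (nat_lit 58) (nat_lit 5) (nat_lit 55) (nat_lit 4) (nat_lit 342) (nat_lit 289) (nat_lit 269)) (XT.nd (nat_lit 78) (nat_lit 228) (nat_lit 0) (XT.lf (nat_lit 0) (nat_lit 5633900900) (nat_lit 152) (nat_lit 6929348784) (nat_lit 228) (nat_lit 1071501133) (nat_lit 52) (nat_lit 5) (nat_lit 54) (nat_lit 5) (nat_lit 55) (nat_lit 4) (nat_lit 343) (nat_lit 289) (nat_lit 268)) (XT.lf (nat_lit 0) (nat_lit 4891908664) (nat_lit 152) (nat_lit 343073167) (nat_lit 228) (nat_lit 8845028000) (nat_lit 49) (nat_lit 5) (nat_lit 51) (nat_lit 5) (nat_lit 52) (nat_lit 5) (nat_lit 344) (nat_lit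 289) (nat_lit 267))))))) (XT.nd (nat_lit 858) (nat_lit 912) (nat_lit 0) (XT.nd (nat_lit 390) (nat_lit 760) (nat_lit 0) (XT.nd (nat_lit 156) (nat_lit 380) (nat_lit 0) (XT.nd (nat_lit 78) (nat_lit 228) (nat_lit 0) (XT.lf (nat_lit 0) (nat_lit 3783492652) (nat_lit 152) (nat_lit 8077823007) (nat_lit 228) (nat_lit 2685152911) (nat_lit 47) (nat_lit 5) (nat_lit 49) (nat_lit 5) (nat_lit 50) (nat_lit 4) (nat_lit 345) (nat_lit 289) (nat_lit 266)) (XT.lf (nat_lit 0) (nat_lit 2304050222) (nat_lit 152) (nat_lit 1373134953) (nat_lit 228) (nat_lit 11358977167) (nat_lit 44) (nat_lit 5) (nat_lit 46) (nat_lit 5) (nat_lit 47) (nat_lit 5) (nat_lit 346) (nat_lit 289) (nat_lit 265))) (XT.nd (nat_lit 78) (nat_lit 228) (nat_lit 0) (XT.lf (nat_lit 0) (nat_lit 368497169) (nat_lit 152) (nat_lit 9954987495) (nat_lit 228) (nat_lit 5225466250) (nat_lit 42) (nat_lit 5) (nat_lit 44) (nat_lit 5) (nat_lit 45) (nat_lit 4) (nat_lit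 347) (nat_lit 289) (nat_lit 264)) (XT.nd (nat_lit 78) (nat_lit 152) (nat_lit 0) (XT.lf (nat_lit 0) (nat_lit 1191403886) (nat_lit 228) (nat_lit 1973969572) (nat_lit 76) (nat_lit 12921688855) (nat_lit 41) (nat_lit 5) (nat_lit 44) (nat_lit 5) (nat_lit 42) (nat_lit 5) (nat_lit 348) (nat_lit 289) (nat_lit 263)) (XT.lf (nat_lit 0) (nat_lit 7835629670) (nat_lit 228) (nat_lit 4860929980) (nat_lit 76) (nat_lit 3953573189) (nat_lit 39) (nat_lit 5) (nat_lit 42) (nat_lit 5) (nat_lit 40) (nat_lit 4) (nat_lit 349) (nat_lit 289) (nat_lit 262))))) (XT.nd (nat_lit 234) (nat_lit 304) (nat_lit 0) (XT.nd (nat_lit 78) (nat_lit 304) (nat_lit 0) (XT.lf (nat_lit 0) (nat_lit 8945463813) (nat_lit 152) (nat_lit 5869563117) (nat_lit 228) (nat_lit 2426282256) (nat_lit 37) (nat_lit 5) (nat_lit 39) (nat_lit 5) (nat_lit 40) (nat_lit 4) (nat_lit 350) (nat_lit 289) (nat_lit 261)) (XT.nd (nat_lit 78) (nat_lit 76) (nat_lit 0)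 (XT.lf (nat_lit 0) (nat_lit 4181693651) (nat_lit 228) (nat_lit 12359313106) (nat_lit 76) (nat_lit 1320324295) (nat_lit 34) (nat_lit 5) (nat_lit 37) (nat_lit 5) (nat_lit 35) (nat_lit 4) (nat_lit 351) (nat_lit 289) (nat_lit 260)) (XT.lf (nat_lit 0) (nat_lit 1365330322) (nat_lit 76) (nat_lit 9734212224) (nat_lit 152) (nat_lit 7411237379) (nat_lit 33) (nat_lit 5) (nat_lit 34) (nat_lit 5) (nat_lit 35) (nat_lit 4) (nat_lit 352) (nat_lit 289) (nat_lit 259)))) (XT.nd (nat_lit 78) (nat_lit 304) (nat_lit 0) (XT.lf (nat_lit 0) (nat_lit 15810998467) (nat_lit 76) (nat_lit 2554104192) (nat_lit 152) (nat_lit 827578492) (nat_lit 33) (nat_lit 5) (nat_lit 34) (nat_lit 5) (nat_lit 35) (nat_lit 4) (nat_lit 353) (nat_lit 289) (nat_lit 258)) (XT.nd (nat_lit 78) (nat_lit 76) (nat_lit 0) (XT.lf (nat_lit 0) (nat_lit 6000350293) (nat_lit 228) (nat_lit 8944658125) (nat_lit 76) (nat_lit 4960931065) (nat_lit 30) (nat_lit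 5) (nat_lit 33) (nat_lit 5) (nat_lit 31) (nat_lit 4) (nat_lit 354) (nat_lit 289) (nat_lit 257)) (XT.lf (nat_lit 0) (nat_lit 5295345993) (nat_lit 76) (nat_lit 7851407339) (nat_lit 152) (nat_lit 7508066138) (nat_lit 29) (nat_lit 5) (nat_lit 30) (nat_lit 5) (nat_lit 31) (nat_lit 4) (nat_lit 355) (nat_lit 289) (nat_lit 256)))))) (XT.nd (nat_lit 468) (nat_lit 304) (nat_lit 0) (XT.nd (nat_lit 234) (nat_lit 304) (nat_lit 0) (XT.nd (nat_lit 78) (nat_lit 304) (nat_lit 0) (XT.lf (nat_lit 0) (nat_lit 20228584311) (nat_lit 76) (nat_lit 399798993) (nat_lit 152) (nat_lit 813451859) (nat_lit 29) (nat_lit 5) (nat_lit 30) (nat_lit 5) (nat_lit 31) (nat_lit 4) (nat_lit 356) (nat_lit 289) (nat_lit 255)) (XT.nd (nat_lit 78) (nat_lit 76) (nat_lit 0) (XT.lf (nat_lit 0) (nat_lit 6188371448) (nat_lit 228) (nat_lit 8689437686) (nat_lit 76) (nat_lit 7385813527) (nat_lit 26) (nat_lit 5) (nat_lit 29) (nat_lit 5) (nat_lit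 27) (nat_lit 4) (nat_lit 357) (nat_lit 289) (nat_lit 254)) (XT.lf (nat_lit 0) (nat_lit 5908328999) (nat_lit 76) (nat_lit 7581449476) (nat_lit 152) (nat_lit 9637515419) (nat_lit 25) (nat_lit 5) (nat_lit 26) (nat_lit 5) (nat_lit 27) (nat_lit 4) (nat_lit 358) (nat_lit 289) (nat_lit 253)))) (XT.nd (nat_lit 78) (nat_lit 304) (nat_lit 0) (XT.lf (nat_lit 0) (nat_lit 21142545200) (nat_lit 152) (nat_lit 2807105461) (nat_lit 0) (nat_lit 84933594) (nat_lit 25) (nat_lit 5) (nat_lit 27) (nat_lit 4) (nat_lit 25) (nat_lit 4) (nat_lit 359) (nat_lit 289) (nat_lit 252)) (XT.nd (nat_lit 78) (nat_lit 76) (nat_lit 0) (XT.lf (nat_lit 0) (nat_lit 4204850844) (nat_lit 228) (nat_lit 12719100173) (nat_lit 76) (nat_lit 8059224558) (nat_lit 22) (nat_lit 5) (nat_lit 25) (nat_lit 5) (nat_lit 23) (nat_lit 4) (nat_lit 360) (nat_lit 289) (nat_lit 251)) (XT.lf (nat_lit 0) (nat_lit 1999516008) (nat_lit 76) (nat_lit 9548465388)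 (nat_lit 152) (nat_lit 14431841157) (nat_lit 21) (nat_lit 5) (nat_lit 22) (nat_lit 5) (nat_lit 23) (nat_lit 4) (nat_lit 361) (nat_lit 289) (nat_lit 250))))) (XT.nd (nat_lit 234) (nat_lit 152) (nat_lit 0) (XT.nd (nat_lit 78) (nat_lit 152) (nat_lit 0) (XT.lf (nat_lit 0) (nat_lit 17545819112) (nat_lit 76) (nat_lit 1748611778) (nat_lit 152) (nat_lit 7730806451) (nat_lit 21) (nat_lit 5) (nat_lit 22) (nat_lit 5) (nat_lit 23) (nat_lit 4) (nat_lit 362) (nat_lit 289) (nat_lit 249)) (XT.nd (nat_lit 78) (nat_lit 76) (nat_lit 0) (XT.lf (nat_lit 0) (nat_lit 5626643848) (nat_lit 76) (nat_lit 21826580506) (nat_lit 76) (nat_lit 668967239) (nat_lit 20) (nat_lit 4) (nat_lit 21) (nat_lit 5) (nat_lit 21) (nat_lit 4) (nat_lit 363) (nat_lit 289) (nat_lit 248)) (XT.lf (nat_lit 0) (nat_lit 6641415802) (nat_lit 152) (nat_lit 7833159221) (nat_lit 76) (nat_lit 14796678351) (nat_lit 19) (nat_lit 5) (nat_lit 21) (nat_lit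 5) (nat_lit 20) (nat_lit 4) (nat_lit 364) (nat_lit 289) (nat_lit 247)))) (XT.nd (nat_lit 78) (nat_lit 76) (nat_lit 0) (XT.lf (nat_lit 0) (nat_lit 7545957423) (nat_lit 76) (nat_lit 6745325849) (nat_lit 152) (nat_lit 16186669310) (nat_lit 18) (nat_lit 5) (nat_lit 19) (nat_lit 5) (nat_lit 20) (nat_lit 4) (nat_lit 365) (nat_lit 289) (nat_lit 246)) (XT.nd (nat_lit 78) (nat_lit 76) (nat_lit 0) (XT.lf (nat_lit 0) (nat_lit 22335288929) (nat_lit 152) (nat_lit 8053021070) (nat_lit 0) (nat_lit 1356343649) (nat_lit 18) (nat_lit 5) (nat_lit 20) (nat_lit 4) (nat_lit 18) (nat_lit 4) (nat_lit 366) (nat_lit 289) (nat_lit 245)) (XT.lf (nat_lit 0) (nat_lit 7501338684) (nat_lit 76) (nat_lit 23341334413) (nat_lit 76) (nat_lit 2230196791) (nat_lit 17) (nat_lit 4) (nat_lit 18) (nat_lit 5) (nat_lit 18) (nat_lit 4) (nat_lit 367) (nat_lit 289) (nat_lit 244))))))))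
noncomputable def xc30 : XT := (XT.nd (nat_lit 1794) (nat_lit 76) (nat_lit 0) (XT.nd (nat_lit 858) (nat_lit 380) (nat_lit 0) (XT.nd (nat_lit 390) (nat_lit 228) (nat_lit 0) (XT.nd (nat_lit 156) (nat_lit 76) (nat_lit 0) (XT.nd (nat_lit 78) (nat_lit 76) (nat_lit 0) (XT.lf (nat_lit 0) (nat_lit 5210678956) (nat_lit 152) (nat_lit 10659356809) (nat_lit 76) (nat_lit 18595755001) (nat_lit 16) (nat_lit 5) (nat_lit 18) (nat_lit 5) (nat_lit 17) (nat_lit 4) (nat_lit 368) (nat_lit 289) (nat_lit 243)) (XT.lf (nat_lit 0) (nat_lit 4934876592) (nat_lit 76) (nat_lit 8016755936) (nat_lit 152) (nat_lit 22976851608) (nat_lit 15) (nat_lit 5) (nat_lit 16) (nat_lit 5) (nat_lit 17) (nat_lit 4) (nat_lit 369) (nat_lit 289) (nat_lit 242))) (XT.nd (nat_lit 78) (nat_lit 76) (nat_lit 0) (XT.lf (nat_lit 0) (nat_lit 21120576446) (nat_lit 152) (nat_lit 16067701410) (nat_lit 0) (nat_lit 274819012) (nat_lit 15) (nat_lit 5) (nat_lit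 17) (nat_lit 4) (nat_lit 15) (nat_lit 4) (nat_lit 370) (nat_lit 289) (nat_lit 241)) (XT.nd (nat_lit 78) (nat_lit 76) (nat_lit 0) (XT.lf (nat_lit 0) (nat_lit 29710239265) (nat_lit 152) (nat_lit 604950693) (nat_lit 0) (nat_lit 8758894484) (nat_lit 15) (nat_lit 5) (nat_lit 17) (nat_lit 4) (nat_lit 15) (nat_lit 4) (nat_lit 371) (nat_lit 289) (nat_lit 240)) (XT.lf (nat_lit 0) (nat_lit 15817172650) (nat_lit 76) (nat_lit 22998882289) (nat_lit 76) (nat_lit 1946978131) (nat_lit 14) (nat_lit 4) (nat_lit 15) (nat_lit 5) (nat_lit 15) (nat_lit 4) (nat_lit 372) (nat_lit 289) (nat_lit 239))))) (XT.nd (nat_lit 234) (nat_lit 76) (nat_lit 0) (XT.nd (nat_lit 78) (nat_lit 76) (nat_lit 0) (XT.lf (nat_lit 0) (nat_lit 5669004335) (nat_lit 152) (nat_lit 9639596192) (nat_lit 76) (nat_lit 27227887769) (nat_lit 13) (nat_lit 5) (nat_lit 15) (nat_lit 5) (nat_lit 14) (nat_lit 4) (nat_lit 373) (nat_lit 289) (nat_lit 238))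 (XT.nd (nat_lit 78) (nat_lit 0) (nat_lit 0) (XT.lf (nat_lit 0) (nat_lit 6423201739) (nat_lit 76) (nat_lit 7203442129) (nat_lit 152) (nat_lit 30771370735) (nat_lit 12) (nat_lit 5) (nat_lit 13) (nat_lit 5) (nat_lit 14) (nat_lit 4) (nat_lit 374) (nat_lit 289) (nat_lit 237)) (XT.lf (nat_lit 0) (nat_lit 22035284348) (nat_lit 152) (nat_lit 22985078697) (nat_lit 0) (nat_lit 1330670479) (nat_lit 12) (nat_lit 5) (nat_lit 14) (nat_lit 4) (nat_lit 12) (nat_lit 4) (nat_lit 375) (nat_lit 289) (nat_lit 236)))) (XT.nd (nat_lit 78) (nat_lit 76) (nat_lit 0) (XT.lf (nat_lit 0) (nat_lit 30880245711) (nat_lit 152) (nat_lit 7425679394) (nat_lit 0) (nat_lit 10095311018) (nat_lit 12) (nat_lit 5) (nat_lit 14) (nat_lit 4) (nat_lit 12) (nat_lit 4) (nat_lit 376) (nat_lit 289) (nat_lit 235)) (XT.nd (nat_lit 78) (nat_lit 0) (nat_lit 0) (XT.lf (nat_lit 0) (nat_lit 8985004933) (nat_lit 76) (nat_lit 31214707929) (nat_lit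 76) (nat_lit 10353277213) (nat_lit 11) (nat_lit 4) (nat_lit 12) (nat_lit 5) (nat_lit 12) (nat_lit 4) (nat_lit 377) (nat_lit 289) (nat_lit 234)) (XT.lf (nat_lit 0) (nat_lit 26272307819) (nat_lit 76) (nat_lit 23736798949) (nat_lit 76) (nat_lit 2802514878) (nat_lit 11) (nat_lit 4) (nat_lit 12) (nat_lit 5) (nat_lit 12) (nat_lit 4) (nat_lit 378) (nat_lit 289) (nat_lit 233)))))) (XT.nd (nat_lit 468) (nat_lit 152) (nat_lit 0) (XT.nd (nat_lit 234) (nat_lit 76) (nat_lit 0) (XT.nd (nat_lit 78) (nat_lit 76) (nat_lit 0) (XT.lf (nat_lit 0) (nat_lit 4975272125) (nat_lit 152) (nat_lit 10903865803) (nat_lit 76) (nat_lit 39304091311) (nat_lit 10) (nat_lit 5) (nat_lit 12) (nat_lit 5) (nat_lit 11) (nat_lit 4) (nat_lit 379) (nat_lit 289) (nat_lit 232)) (XT.nd (nat_lit 78) (nat_lit 0) (nat_lit 0) (XT.lf (nat_lit 0) (nat_lit 5501581281) (nat_lit 76) (nat_lit 7587743665) (nat_lit 152) (nat_lit 44583107243) (nat_lit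 9) (nat_lit 5) (nat_lit 10) (nat_lit 5) (nat_lit 11) (nat_lit 4) (nat_lit 380) (nat_lit 289) (nat_lit 231)) (XT.lf (nat_lit 0) (nat_lit 21686141676) (nat_lit 152) (nat_lit 37428674065) (nat_lit 0) (nat_lit 1168974854) (nat_lit 9) (nat_lit 5) (nat_lit 11) (nat_lit 4) (nat_lit 9) (nat_lit 4) (nat_lit 381) (nat_lit 289) (nat_lit 230)))) (XT.nd (nat_lit 78) (nat_lit 76) (nat_lit 0) (XT.lf (nat_lit 0) (nat_lit 30744579637) (nat_lit 152) (nat_lit 22110968779) (nat_lit 0) (nat_lit 10169221906) (nat_lit 9) (nat_lit 5) (nat_lit 11) (nat_lit 4) (nat_lit 9) (nat_lit 4) (nat_lit 382) (nat_lit 289) (nat_lit 229)) (XT.nd (nat_lit 78) (nat_lit 76) (nat_lit 0) (XT.lf (nat_lit 0) (nat_lit 40213268502) (nat_lit 152) (nat_lit 6108326288) (nat_lit 0) (nat_lit 19582490858) (nat_lit 9) (nat_lit 5) (nat_lit 11) (nat_lit 4) (nat_lit 9) (nat_lit 4) (nat_lit 383) (nat_lit 289) (nat_lit 228)) (XT.lf (nat_lit 0) (nat_lit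 10828661118) (nat_lit 76) (nat_lit 39390183366) (nat_lit 76) (nat_lit 18706624853) (nat_lit 8) (nat_lit 4) (nat_lit 9) (nat_lit 5) (nat_lit 9) (nat_lit 4) (nat_lit 384) (nat_lit 289) (nat_lit 227))))) (XT.nd (nat_lit 234) (nat_lit 76) (nat_lit 0) (XT.nd (nat_lit 78) (nat_lit 76) (nat_lit 0) (XT.lf (nat_lit 0) (nat_lit 28665260426) (nat_lit 76) (nat_lit 32082894995) (nat_lit 76) (nat_lit 11349068987) (nat_lit 8) (nat_lit 4) (nat_lit 9) (nat_lit 5) (nat_lit 9) (nat_lit 4) (nat_lit 385) (nat_lit 289) (nat_lit 226)) (XT.nd (nat_lit 78) (nat_lit 76) (nat_lit 0) (XT.lf (nat_lit 0) (nat_lit 47322372057) (nat_lit 76) (nat_lit 24444013490) (nat_lit 76) (nat_lit 3662313678) (nat_lit 8) (nat_lit 4) (nat_lit 9) (nat_lit 5) (nat_lit 9) (nat_lit 4) (nat_lit 386) (nat_lit 289) (nat_lit 225)) (XT.lf (nat_lit 0) (nat_lit 4286630519) (nat_lit 152) (nat_lit 12125433955) (nat_lit 76) (nat_lit 62514500624) (nat_lit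 7) (nat_lit 5) (nat_lit 9) (nat_lit 5) (nat_lit 8) (nat_lit 4) (nat_lit 387) (nat_lit 289) (nat_lit 224)))) (XT.nd (nat_lit 78) (nat_lit 0) (nat_lit 0) (XT.lf (nat_lit 0) (nat_lit 4642759538) (nat_lit 76) (nat_lit 7925455437) (nat_lit 152) (nat_lit 70029698348) (nat_lit 6) (nat_lit 5) (nat_lit 7) (nat_lit 5) (nat_lit 8) (nat_lit 4) (nat_lit 388) (nat_lit 289) (nat_lit 223)) (XT.nd (nat_lit 78) (nat_lit 0) (nat_lit 0) (XT.lf (nat_lit 0) (nat_lit 21365748316) (nat_lit 152) (nat_lit 64021263514) (nat_lit 0) (nat_lit 1062765738) (nat_lit 6) (nat_lit 5) (nat_lit 8) (nat_lit 4) (nat_lit 6) (nat_lit 4) (nat_lit 389) (nat_lit 289) (nat_lit 222)) (XT.lf (nat_lit 0) (nat_lit 30651094812) (nat_lit 152) (nat_lit 49531833094) (nat_lit 0) (nat_lit 10309873499) (nat_lit 6) (nat_lit 5) (nat_lit 8) (nat_lit 4) (nat_lit 6) (nat_lit 4) (nat_lit 390) (nat_lit 289) (nat_lit 221))))))) (XT.nd (nat_lit 41964) (nat_lit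 0) (nat_lit 4484) (XT.nd (nat_lit 41496) (nat_lit 0) (nat_lit 8816) (XT.nd (nat_lit 234) (nat_lit 76) (nat_lit 0) (XT.nd (nat_lit 78) (nat_lit 0) (nat_lit 0) (XT.lf (nat_lit 0) (nat_lit 40370178105) (nat_lit 152) (nat_lit 34376179557) (nat_lit 0) (nat_lit 19992538949) (nat_lit 6) (nat_lit 5) (nat_lit 8) (nat_lit 4) (nat_lit 6) (nat_lit 4) (nat_lit 391) (nat_lit 289) (nat_lit 220)) (XT.lf (nat_lit 0) (nat_lit 50546138870) (nat_lit 152) (nat_lit 18518218013) (nat_lit 0) (nat_lit 30133816054) (nat_lit 6) (nat_lit 5) (nat_lit 8) (nat_lit 4) (nat_lit 6) (nat_lit 4) (nat_lit 392) (nat_lit 289) (nat_lit 219))) (XT.nd (nat_lit 41106) (nat_lit 0) (nat_lit 12084) (XT.lf (nat_lit 0) (nat_lit 15765052316) (nat_lit 76) (nat_lit 56753243230) (nat_lit 76) (nat_lit 36276429254) (nat_lit 5) (nat_lit 4) (nat_lit 6) (nat_lit 5) (nat_lit 6) (nat_lit 4) (nat_lit 394) (nat_lit 289) (nat_lit 217)) (XT.nd (nat_lit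 78) (nat_lit 608) (nat_lit 0) (XT.lf (nat_lit 0) (nat_lit 978292561) (nat_lit 608) (nat_lit 1885652016) (nat_lit 0) (nat_lit 978292561) (nat_lit 172) (nat_lit 5) (nat_lit 180) (nat_lit 4) (nat_lit 172) (nat_lit 4) (nat_lit 320) (nat_lit 290) (nat_lit 290)) (XT.lf (nat_lit 0) (nat_lit 8972690) (nat_lit 608) (nat_lit 2191348870) (nat_lit 76) (nat_lit 5617767785) (nat_lit 164) (nat_lit 5) (nat_lit 172) (nat_lit 5) (nat_lit 165) (nat_lit 4) (nat_lit 321) (nat_lit 290) (nat_lit 289))))) (XT.nd (nat_lit 234) (nat_lit 1292) (nat_lit 0) (XT.nd (nat_lit 78) (nat_lit 1520) (nat_lit 0) (XT.lf (nat_lit 0) (nat_lit 5782370516) (nat_lit 532) (nat_lit 584398932) (nat_lit 0) (nat_lit 1594108809) (nat_lit 158) (nat_lit 5) (nat_lit 165) (nat_lit 4) (nat_lit 158) (nat_lit 4) (nat_lit 322) (nat_lit 290) (nat_lit 288)) (XT.nd (nat_lit 78) (nat_lit 532) (nat_lit 0) (XT.lf (nat_lit 0) (nat_lit 1079307428) (nat_lit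 456) (nat_lit 2474059723) (nat_lit 532) (nat_lit 4559806061) (nat_lit 145) (nat_lit 5) (nat_lit 151) (nat_lit 5) (nat_lit 152) (nat_lit 4) (nat_lit 323) (nat_lit 290) (nat_lit 287)) (XT.lf (nat_lit 0) (nat_lit 1119489235) (nat_lit 532) (nat_lit 5481940288) (nat_lit 76) (nat_lit 1674160357) (nat_lit 138) (nat_lit 5) (nat_lit 145) (nat_lit 5) (nat_lit 139) (nat_lit 4) (nat_lit 324) (nat_lit 290) (nat_lit 286)))) (XT.nd (nat_lit 78) (nat_lit 912) (nat_lit 0) (XT.lf (nat_lit 0) (nat_lit 4518783446) (nat_lit 380) (nat_lit 2371241315) (nat_lit 456) (nat_lit 1557895512) (nat_lit 133) (nat_lit 5) (nat_lit 138) (nat_lit 5) (nat_lit 139) (nat_lit 4) (nat_lit 325) (nat_lit 290) (nat_lit 285)) (XT.nd (nat_lit 78) (nat_lit 456) (nat_lit 0) (XT.lf (nat_lit 0) (nat_lit 4139249296) (nat_lit 456) (nat_lit 2373864421) (nat_lit 76) (nat_lit 2117587635) (nat_lit 127) (nat_lit 5) (nat_lit 133) (nat_lit 5) (nat_lit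 128) (nat_lit 4) (nat_lit 326) (nat_lit 290) (nat_lit 284)) (XT.lf (nat_lit 0) (nat_lit 1156157541) (nat_lit 456) (nat_lit 813434512) (nat_lit 76) (nat_lit 6854947609) (nat_lit 121) (nat_lit 5) (nat_lit 127) (nat_lit 5) (nat_lit 122) (nat_lit 5) (nat_lit 327) (nat_lit 290) (nat_lit 283)))))) (XT.nd (nat_lit 468) (nat_lit 1824) (nat_lit 0) (XT.nd (nat_lit 234) (nat_lit 988) (nat_lit 0) (XT.nd (nat_lit 78) (nat_lit 836) (nat_lit 0) (XT.lf (nat_lit 0) (nat_lit 737224505) (nat_lit 304) (nat_lit 6188893193) (nat_lit 380) (nat_lit 2102790799) (nat_lit 112) (nat_lit 5) (nat_lit 116) (nat_lit 5) (nat_lit 117) (nat_lit 4) (nat_lit 328) (nat_lit 290) (nat_lit 282)) (XT.nd (nat_lit 78) (nat_lit 380) (nat_lit 0) (XT.lf (nat_lit 0) (nat_lit 2287647924) (nat_lit 380) (nat_lit 1311370817) (nat_lit 456) (nat_lit 5645616530) (nat_lit 106) (nat_lit 5) (nat_lit 111) (nat_lit 5) (nat_lit 112) (nat_lit 5) (nat_lit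 329) (nat_lit 290) (nat_lit 281)) (XT.lf (nat_lit 0) (nat_lit 16573068) (nat_lit 380) (nat_lit 5662837918) (nat_lit 76) (nat_lit 3792845484) (nat_lit 101) (nat_lit 5) (nat_lit 106) (nat_lit 5) (nat_lit 102) (nat_lit 5) (nat_lit 330) (nat_lit 290) (nat_lit 280)))) (XT.nd (nat_lit 78) (nat_lit 684) (nat_lit 0) (XT.lf (nat_lit 0) (nat_lit 5280358868) (nat_lit 304) (nat_lit 494159367) (nat_lit 380) (nat_lit 3937310459) (nat_lit 97) (nat_lit 5) (nat_lit 101) (nat_lit 5) (nat_lit 102) (nat_lit 5) (nat_lit 331) (nat_lit 290) (nat_lit 279)) (XT.nd (nat_lit 78) (nat_lit 304) (nat_lit 0) (XT.lf (nat_lit 0) (nat_lit 1789485361) (nat_lit 380) (nat_lit 3270514466) (nat_lit 76) (nat_lit 4903901311) (nat_lit 92) (nat_lit 5) (nat_lit 97) (nat_lit 5) (nat_lit 93) (nat_lit 5) (nat_lit 332) (nat_lit 290) (nat_lit 278)) (XT.lf (nat_lit 0) (nat_lit 7657317054) (nat_lit 380) (nat_lit 2175740083) (nat_lit 76) (nat_lit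 396380454) (nat_lit 88) (nat_lit 5) (nat_lit 93) (nat_lit 5) (nat_lit 89) (nat_lit 4) (nat_lit 333) (nat_lit 290) (nat_lit 277))))) (XT.nd (nat_lit 234) (nat_lit 684) (nat_lit 0) (XT.nd (nat_lit 78) (nat_lit 836) (nat_lit 0) (XT.lf (nat_lit 0) (nat_lit 3229019545) (nat_lit 304) (nat_lit 1195031988) (nat_lit 76) (nat_lit 6083850036) (nat_lit 84) (nat_lit 5) (nat_lit 88) (nat_lit 5) (nat_lit 85) (nat_lit 5) (nat_lit 334) (nat_lit 290) (nat_lit 276)) (XT.nd (nat_lit 78) (nat_lit 532) (nat_lit 0) (XT.lf (nat_lit 0) (nat_lit 9216953206) (nat_lit 380) (nat_lit 299537022) (nat_lit 76) (nat_lit 1284636650) (nat_lit 80) (nat_lit 5) (nat_lit 85) (nat_lit 5) (nat_lit 81) (nat_lit 4) (nat_lit 335) (nat_lit 290) (nat_lit 275)) (XT.lf (nat_lit 0) (nat_lit 455627902) (nat_lit 228) (nat_lit 3845040382) (nat_lit 304) (nat_lit 6807435240) (nat_lit 73) (nat_lit 5) (nat_lit 76) (nat_lit 5) (nat_lit 77) (nat_lit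 5) (nat_lit 336) (nat_lit 290) (nat_lit 274)))) (XT.nd (nat_lit 78) (nat_lit 456) (nat_lit 0) (XT.lf (nat_lit 0) (nat_lit 1097105655) (nat_lit 228) (nat_lit 9318526724) (nat_lit 304) (nat_lit 1015354920) (nat_lit 70) (nat_lit 5) (nat_lit 73) (nat_lit 5) (nat_lit 74) (nat_lit 4) (nat_lit 337) (nat_lit 290) (nat_lit 273)) (XT.nd (nat_lit 78) (nat_lit 152) (nat_lit 0) (XT.lf (nat_lit 0) (nat_lit 1548201249) (nat_lit 228) (nat_lit 3406717385) (nat_lit 304) (nat_lit 6814093556) (nat_lit 66) (nat_lit 5) (nat_lit 69) (nat_lit 5) (nat_lit 70) (nat_lit 5) (nat_lit 338) (nat_lit 290) (nat_lit 272)) (XT.lf (nat_lit 0) (nat_lit 1837677739) (nat_lit 152) (nat_lit 9345039343) (nat_lit 228) (nat_lit 941596962) (nat_lit 64) (nat_lit 5) (nat_lit 66) (nat_lit 5) (nat_lit 67) (nat_lit 4) (nat_lit 339) (nat_lit 290) (nat_lit 271))))))))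
noncomputable def xc31 : XT := (XT.nd (nat_lit 1794) (nat_lit 988) (nat_lit 0) (XT.nd (nat_lit 858) (nat_lit 1216) (nat_lit 0) (XT.nd (nat_lit 390) (nat_lit 1064) (nat_lit 0) (XT.nd (nat_lit 156) (nat_lit 532) (nat_lit 0) (XT.nd (nat_lit 78) (nat_lit 152) (nat_lit 0) (XT.lf (nat_lit 0) (nat_lit 1894821646) (nat_lit 228) (nat_lit 3218273277) (nat_lit 304) (nat_lit 7383135598) (nat_lit 60) (nat_lit 5) (nat_lit 63) (nat_lit 5) (nat_lit 64) (nat_lit 5) (nat_lit 340) (nat_lit 290) (nat_lit 270)) (XT.lf (nat_lit 0) (nat_lit 1738181624) (nat_lit 152) (nat_lit 9703710742) (nat_lit 228) (nat_lit 1444913785) (nat_lit 58) (nat_lit 5) (nat_lit 60) (nat_lit 5) (nat_lit 61) (nat_lit 4) (nat_lit 341) (nat_lit 290) (nat_lit 269))) (XT.nd (nat_lit 78) (nat_lit 228) (nat_lit 0) (XT.lf (nat_lit 0) (nat_lit 1301937157) (nat_lit 228) (nat_lit 3389769287) (nat_lit 304) (nat_lit 8604037069) (nat_lit 54) (nat_lit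 5) (nat_lit 57) (nat_lit 5) (nat_lit 58) (nat_lit 5) (nat_lit 342) (nat_lit 290) (nat_lit 268)) (XT.nd (nat_lit 78) (nat_lit 76) (nat_lit 0) (XT.lf (nat_lit 0) (nat_lit 588344359) (nat_lit 152) (nat_lit 10513805007) (nat_lit 228) (nat_lit 2622703142) (nat_lit 52) (nat_lit 5) (nat_lit 54) (nat_lit 5) (nat_lit 55) (nat_lit 4) (nat_lit 343) (nat_lit 290) (nat_lit 267)) (XT.lf (nat_lit 0) (nat_lit 3592549975) (nat_lit 228) (nat_lit 450226656) (nat_lit 76) (nat_lit 10131454351) (nat_lit 51) (nat_lit 5) (nat_lit 54) (nat_lit 5) (nat_lit 52) (nat_lit 5) (nat_lit 344) (nat_lit 290) (nat_lit 266))))) (XT.nd (nat_lit 234) (nat_lit 532) (nat_lit 0) (XT.nd (nat_lit 78) (nat_lit 380) (nat_lit 0) (XT.lf (nat_lit 0) (nat_lit 10069905626) (nat_lit 228) (nat_lit 1824204679) (nat_lit 76) (nat_lit 2751074618) (nat_lit 49) (nat_lit 5) (nat_lit 52) (nat_lit 5) (nat_lit 50) (nat_lit 4) (nat_lit 345) (nat_lit 290)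 (nat_lit 265)) (XT.nd (nat_lit 78) (nat_lit 152) (nat_lit 0) (XT.lf (nat_lit 0) (nat_lit 1712723593) (nat_lit 228) (nat_lit 3587727375) (nat_lit 76) (nat_lit 9838333257) (nat_lit 46) (nat_lit 5) (nat_lit 49) (nat_lit 5) (nat_lit 47) (nat_lit 5) (nat_lit 346) (nat_lit 290) (nat_lit 264)) (XT.lf (nat_lit 0) (nat_lit 8212963921) (nat_lit 228) (nat_lit 5787472993) (nat_lit 76) (nat_lit 1655540425) (nat_lit 44) (nat_lit 5) (nat_lit 47) (nat_lit 5) (nat_lit 45) (nat_lit 4) (nat_lit 347) (nat_lit 290) (nat_lit 263)))) (XT.nd (nat_lit 78) (nat_lit 380) (nat_lit 0) (XT.lf (nat_lit 0) (nat_lit 7737389795) (nat_lit 152) (nat_lit 7330810933) (nat_lit 228) (nat_lit 1129974299) (nat_lit 42) (nat_lit 5) (nat_lit 44) (nat_lit 5) (nat_lit 45) (nat_lit 4) (nat_lit 348) (nat_lit 290) (nat_lit 262)) (XT.nd (nat_lit 78) (nat_lit 152) (nat_lit 0) (XT.lf (nat_lit 0) (nat_lit 5109718393) (nat_lit 152) (nat_lit 258705883)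 (nat_lit 228) (nat_lit 11398203498) (nat_lit 39) (nat_lit 5) (nat_lit 41) (nat_lit 5) (nat_lit 42) (nat_lit 5) (nat_lit 349) (nat_lit 290) (nat_lit 261)) (XT.lf (nat_lit 0) (nat_lit 1904006724) (nat_lit 152) (nat_lit 10310691387) (nat_lit 228) (nat_lit 5147118809) (nat_lit 37) (nat_lit 5) (nat_lit 39) (nat_lit 5) (nat_lit 40) (nat_lit 4) (nat_lit 350) (nat_lit 290) (nat_lit 260)))))) (XT.nd (nat_lit 468) (nat_lit 608) (nat_lit 0) (XT.nd (nat_lit 234) (nat_lit 304) (nat_lit 0) (XT.nd (nat_lit 78) (nat_lit 228) (nat_lit 0) (XT.lf (nat_lit 0) (nat_lit 1386383008) (nat_lit 228) (nat_lit 1836719086) (nat_lit 76) (nat_lit 14763366002) (nat_lit 36) (nat_lit 5) (nat_lit 39) (nat_lit 5) (nat_lit 37) (nat_lit 5) (nat_lit 351) (nat_lit 290) (nat_lit 259)) (XT.nd (nat_lit 78) (nat_lit 76) (nat_lit 0) (XT.lf (nat_lit 0) (nat_lit 8181812323) (nat_lit 228) (nat_lit 6238007795) (nat_lit 76) (nat_lit 4219786253)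 (nat_lit 34) (nat_lit 5) (nat_lit 37) (nat_lit 5) (nat_lit 35) (nat_lit 4) (nat_lit 352) (nat_lit 290) (nat_lit 258)) (XT.lf (nat_lit 0) (nat_lit 7979687954) (nat_lit 76) (nat_lit 7348265313) (nat_lit 152) (nat_lit 3997152920) (nat_lit 33) (nat_lit 5) (nat_lit 34) (nat_lit 5) (nat_lit 35) (nat_lit 4) (nat_lit 353) (nat_lit 290) (nat_lit 257)))) (XT.nd (nat_lit 78) (nat_lit 76) (nat_lit 0) (XT.lf (nat_lit 0) (nat_lit 2710227475) (nat_lit 228) (nat_lit 17227623712) (nat_lit 76) (nat_lit 106914123) (nat_lit 30) (nat_lit 5) (nat_lit 33) (nat_lit 5) (nat_lit 31) (nat_lit 4) (nat_lit 354) (nat_lit 290) (nat_lit 256)) (XT.nd (nat_lit 78) (nat_lit 76) (nat_lit 0) (XT.lf (nat_lit 0) (nat_lit 9750999906) (nat_lit 228) (nat_lit 3189326202) (nat_lit 76) (nat_lit 7856502210) (nat_lit 30) (nat_lit 5) (nat_lit 33) (nat_lit 5) (nat_lit 31) (nat_lit 4) (nat_lit 355) (nat_lit 290) (nat_lit 255)) (XT.lf (nat_lit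 0) (nat_lit 11584882846) (nat_lit 76) (nat_lit 5563438207) (nat_lit 152) (nat_lit 4438065654) (nat_lit 29) (nat_lit 5) (nat_lit 30) (nat_lit 5) (nat_lit 31) (nat_lit 4) (nat_lit 356) (nat_lit 290) (nat_lit 254))))) (XT.nd (nat_lit 234) (nat_lit 304) (nat_lit 0) (XT.nd (nat_lit 78) (nat_lit 76) (nat_lit 0) (XT.lf (nat_lit 0) (nat_lit 2445505216) (nat_lit 228) (nat_lit 17809431361) (nat_lit 76) (nat_lit 2159964758) (nat_lit 26) (nat_lit 5) (nat_lit 29) (nat_lit 5) (nat_lit 27) (nat_lit 4) (nat_lit 357) (nat_lit 290) (nat_lit 253)) (XT.nd (nat_lit 78) (nat_lit 76) (nat_lit 0) (XT.lf (nat_lit 0) (nat_lit 9640276589) (nat_lit 228) (nat_lit 3417464122) (nat_lit 76) (nat_lit 10224042754) (nat_lit 26) (nat_lit 5) (nat_lit 29) (nat_lit 5) (nat_lit 27) (nat_lit 4) (nat_lit 358) (nat_lit 290) (nat_lit 252)) (XT.lf (nat_lit 0) (nat_lit 11746616784) (nat_lit 76) (nat_lit 5463776436) (nat_lit 152) (nat_lit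 6981171373) (nat_lit 25) (nat_lit 5) (nat_lit 26) (nat_lit 5) (nat_lit 27) (nat_lit 4) (nat_lit 359) (nat_lit 290) (nat_lit 251)))) (XT.nd (nat_lit 78) (nat_lit 152) (nat_lit 0) (XT.lf (nat_lit 0) (nat_lit 2444006915) (nat_lit 152) (nat_lit 22703088421) (nat_lit 152) (nat_lit 119044) (nat_lit 23) (nat_lit 4) (nat_lit 25) (nat_lit 5) (nat_lit 25) (nat_lit 4) (nat_lit 360) (nat_lit 290) (nat_lit 250)) (XT.nd (nat_lit 78) (nat_lit 76) (nat_lit 0) (XT.lf (nat_lit 0) (nat_lit 7278380303) (nat_lit 228) (nat_lit 8106846732) (nat_lit 76) (nat_lit 10760583283) (nat_lit 22) (nat_lit 5) (nat_lit 25) (nat_lit 5) (nat_lit 23) (nat_lit 4) (nat_lit 361) (nat_lit 290) (nat_lit 249)) (XT.lf (nat_lit 0) (nat_lit 7197261417) (nat_lit 76) (nat_lit 7704061850) (nat_lit 152) (nat_lit 12293616483) (nat_lit 21) (nat_lit 5) (nat_lit 22) (nat_lit 5) (nat_lit 23) (nat_lit 4) (nat_lit 362) (nat_lit 290) (nat_lit 248)))))))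 (XT.nd (nat_lit 858) (nat_lit 456) (nat_lit 0) (XT.nd (nat_lit 390) (nat_lit 304) (nat_lit 0) (XT.nd (nat_lit 156) (nat_lit 76) (nat_lit 0) (XT.nd (nat_lit 78) (nat_lit 152) (nat_lit 0) (XT.lf (nat_lit 0) (nat_lit 22906514341) (nat_lit 152) (nat_lit 5022097389) (nat_lit 0) (nat_lit 367899339) (nat_lit 21) (nat_lit 5) (nat_lit 23) (nat_lit 4) (nat_lit 21) (nat_lit 4) (nat_lit 363) (nat_lit 290) (nat_lit 247)) (XT.lf (nat_lit 0) (nat_lit 1921389585) (nat_lit 152) (nat_lit 18788308461) (nat_lit 76) (nat_lit 8739978199) (nat_lit 19) (nat_lit 5) (nat_lit 21) (nat_lit 5) (nat_lit 20) (nat_lit 4) (nat_lit 364) (nat_lit 290) (nat_lit 246))) (XT.nd (nat_lit 78) (nat_lit 76) (nat_lit 0) (XT.lf (nat_lit 0) (nat_lit 9459294715) (nat_lit 152) (nat_lit 3629327066) (nat_lit 76) (nat_lit 17571120465) (nat_lit 19) (nat_lit 5) (nat_lit 21) (nat_lit 5) (nat_lit 20) (nat_lit 4) (nat_lit 365) (nat_lit 290) (nat_lit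 245)) (XT.nd (nat_lit 78) (nat_lit 0) (nat_lit 0) (XT.lf (nat_lit 0) (nat_lit 12387016609) (nat_lit 76) (nat_lit 5029175538) (nat_lit 152) (nat_lit 14512871957) (nat_lit 18) (nat_lit 5) (nat_lit 19) (nat_lit 5) (nat_lit 20) (nat_lit 4) (nat_lit 366) (nat_lit 290) (nat_lit 244)) (XT.lf (nat_lit 0) (nat_lit 25766418526) (nat_lit 152) (nat_lit 4153949527) (nat_lit 0) (nat_lit 3341634212) (nat_lit 18) (nat_lit 5) (nat_lit 20) (nat_lit 4) (nat_lit 18) (nat_lit 4) (nat_lit 367) (nat_lit 290) (nat_lit 243))))) (XT.nd (nat_lit 234) (nat_lit 76) (nat_lit 0) (XT.nd (nat_lit 78) (nat_lit 152) (nat_lit 0) (XT.lf (nat_lit 0) (nat_lit 12054820201) (nat_lit 76) (nat_lit 22574309315) (nat_lit 76) (nat_lit 29622650) (nat_lit 17) (nat_lit 4) (nat_lit 18) (nat_lit 5) (nat_lit 18) (nat_lit 4) (nat_lit 368) (nat_lit 290) (nat_lit 242)) (XT.nd (nat_lit 78) (nat_lit 76) (nat_lit 0) (XT.lf (nat_lit 0) (nat_lit 7630228993)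 (nat_lit 152) (nat_lit 7169514522) (nat_lit 76) (nat_lit 21324167291) (nat_lit 16) (nat_lit 5) (nat_lit 18) (nat_lit 5) (nat_lit 17) (nat_lit 4) (nat_lit 369) (nat_lit 290) (nat_lit 241)) (XT.lf (nat_lit 0) (nat_lit 9089117504) (nat_lit 76) (nat_lit 6603863703) (nat_lit 152) (nat_lit 21968734111) (nat_lit 15) (nat_lit 5) (nat_lit 16) (nat_lit 5) (nat_lit 17) (nat_lit 4) (nat_lit 370) (nat_lit 290) (nat_lit 240)))) (XT.nd (nat_lit 78) (nat_lit 76) (nat_lit 0) (XT.lf (nat_lit 0) (nat_lit 24187273587) (nat_lit 152) (nat_lit 13106081313) (nat_lit 0) (nat_lit 1982214844) (nat_lit 15) (nat_lit 5) (nat_lit 17) (nat_lit 4) (nat_lit 15) (nat_lit 4) (nat_lit 371) (nat_lit 290) (nat_lit 239)) (XT.nd (nat_lit 78) (nat_lit 0) (nat_lit 0) (XT.lf (nat_lit 0) (nat_lit 3009242131) (nat_lit 76) (nat_lit 30130357981) (nat_lit 76) (nat_lit 7829528402) (nat_lit 14) (nat_lit 4) (nat_lit 15) (nat_lit 5) (nat_lit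 15) (nat_lit 4) (nat_lit 372) (nat_lit 290) (nat_lit 238)) (XT.lf (nat_lit 0) (nat_lit 20090966568) (nat_lit 76) (nat_lit 22523106659) (nat_lit 76) (nat_lit 131066760) (nat_lit 14) (nat_lit 4) (nat_lit 15) (nat_lit 5) (nat_lit 15) (nat_lit 4) (nat_lit 373) (nat_lit 290) (nat_lit 237)))))) (XT.nd (nat_lit 468) (nat_lit 228) (nat_lit 0) (XT.nd (nat_lit 234) (nat_lit 76) (nat_lit 0) (XT.nd (nat_lit 78) (nat_lit 76) (nat_lit 0) (XT.lf (nat_lit 0) (nat_lit 7739050436) (nat_lit 152) (nat_lit 6768634484) (nat_lit 76) (nat_lit 30101726382) (nat_lit 13) (nat_lit 5) (nat_lit 15) (nat_lit 5) (nat_lit 14) (nat_lit 4) (nat_lit 374) (nat_lit 290) (nat_lit 236)) (XT.nd (nat_lit 78) (nat_lit 0) (nat_lit 0) (XT.lf (nat_lit 0) (nat_lit 10001191948) (nat_lit 76) (nat_lit 6039610646) (nat_lit 152) (nat_lit 30524838864) (nat_lit 12) (nat_lit 5) (nat_lit 13) (nat_lit 5) (nat_lit 14) (nat_lit 4) (nat_lit 375) (nat_lit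 290) (nat_lit 235)) (XT.lf (nat_lit 0) (nat_lit 24801311602) (nat_lit 152) (nat_lit 20996757067) (nat_lit 0) (nat_lit 2820313327) (nat_lit 12) (nat_lit 5) (nat_lit 14) (nat_lit 4) (nat_lit 12) (nat_lit 4) (nat_lit 376) (nat_lit 290) (nat_lit 234)))) (XT.nd (nat_lit 78) (nat_lit 76) (nat_lit 0) (XT.lf (nat_lit 0) (nat_lit 34009270413) (nat_lit 152) (nat_lit 4808796160) (nat_lit 0) (nat_lit 11955418782) (nat_lit 12) (nat_lit 5) (nat_lit 14) (nat_lit 4) (nat_lit 12) (nat_lit 4) (nat_lit 377) (nat_lit 290) (nat_lit 233)) (XT.nd (nat_lit 78) (nat_lit 0) (nat_lit 0) (XT.lf (nat_lit 0) (nat_lit 12336767170) (nat_lit 76) (nat_lit 31410367689) (nat_lit 76) (nat_lit 9287131911) (nat_lit 11) (nat_lit 4) (nat_lit 12) (nat_lit 5) (nat_lit 12) (nat_lit 4) (nat_lit 378) (nat_lit 290) (nat_lit 232)) (XT.lf (nat_lit 0) (nat_lit 30350220345) (nat_lit 76) (nat_lit 23623566862) (nat_lit 76) (nat_lit 1434250943)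 (nat_lit 11) (nat_lit 4) (nat_lit 12) (nat_lit 5) (nat_lit 12) (nat_lit 4) (nat_lit 379) (nat_lit 290) (nat_lit 231))))) (XT.nd (nat_lit 234) (nat_lit 76) (nat_lit 0) (XT.nd (nat_lit 78) (nat_lit 76) (nat_lit 0) (XT.lf (nat_lit 0) (nat_lit 6632564839) (nat_lit 152) (nat_lit 8788142762) (nat_lit 76) (nat_lit 42479207325) (nat_lit 10) (nat_lit 5) (nat_lit 12) (nat_lit 5) (nat_lit 11) (nat_lit 4) (nat_lit 380) (nat_lit 290) (nat_lit 230)) (XT.nd (nat_lit 78) (nat_lit 0) (nat_lit 0) (XT.lf (nat_lit 0) (nat_lit 8361302044) (nat_lit 76) (nat_lit 6748790598) (nat_lit 152) (nat_lit 45404762680) (nat_lit 9) (nat_lit 5) (nat_lit 10) (nat_lit 5) (nat_lit 11) (nat_lit 4) (nat_lit 381) (nat_lit 290) (nat_lit 229)) (XT.lf (nat_lit 0) (nat_lit 24082841981) (nat_lit 152) (nat_lit 36810461347) (nat_lit 0) (nat_lit 2365105542) (nat_lit 9) (nat_lit 5) (nat_lit 11) (nat_lit 4) (nat_lit 9) (nat_lit 4) (nat_lit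 382) (nat_lit 290) (nat_lit 228)))) (XT.nd (nat_lit 78) (nat_lit 76) (nat_lit 0) (XT.lf (nat_lit 0) (nat_lit 33531706924) (nat_lit 152) (nat_lit 20845425387) (nat_lit 0) (nat_lit 11761189616) (nat_lit 9) (nat_lit 5) (nat_lit 11) (nat_lit 4) (nat_lit 9) (nat_lit 4) (nat_lit 383) (nat_lit 290) (nat_lit 227)) (XT.nd (nat_lit 78) (nat_lit 76) (nat_lit 0) (XT.lf (nat_lit 0) (nat_lit 43414311265) (nat_lit 152) (nat_lit 4155559906) (nat_lit 0) (nat_lit 21593526463) (nat_lit 9) (nat_lit 5) (nat_lit 11) (nat_lit 4) (nat_lit 9) (nat_lit 4) (nat_lit 384) (nat_lit 290) (nat_lit 226)) (XT.lf (nat_lit 0) (nat_lit 13563546516) (nat_lit 76) (nat_lit 40321019606) (nat_lit 76) (nat_lit 18452360999) (nat_lit 8) (nat_lit 4) (nat_lit 9) (nat_lit 5) (nat_lit 9) (nat_lit 4) (nat_lit 385) (nat_lit 290) (nat_lit 225))))))))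
noncomputable def xc32 : XT := (XT.nd (nat_lit 42666) (nat_lit 0) (nat_lit 2052) (XT.nd (nat_lit 41808) (nat_lit 0) (nat_lit 6916) (XT.nd (nat_lit 390) (nat_lit 0) (nat_lit 0) (XT.nd (nat_lit 156) (nat_lit 152) (nat_lit 0) (XT.nd (nat_lit 78) (nat_lit 0) (nat_lit 0) (XT.lf (nat_lit 0) (nat_lit 32187525678) (nat_lit 76) (nat_lit 32697827432) (nat_lit 76) (nat_lit 10783574726) (nat_lit 8) (nat_lit 4) (nat_lit 9) (nat_lit 5) (nat_lit 9) (nat_lit 4) (nat_lit 386) (nat_lit 290) (nat_lit 224)) (XT.lf (nat_lit 0) (nat_lit 51678016594) (nat_lit 76) (nat_lit 24724107200) (nat_lit 76) (nat_lit 2766431542) (nat_lit 8) (nat_lit 4) (nat_lit 9) (nat_lit 5) (nat_lit 9) (nat_lit 4) (nat_lit 387) (nat_lit 290) (nat_lit 223))) (XT.nd (nat_lit 78) (nat_lit 76) (nat_lit 0) (XT.lf (nat_lit 0) (nat_lit 5508526508) (nat_lit 152) (nat_lit 10816722037) (nat_lit 76) (nat_lit 66517273370) (nat_lit 7) (nat_lit 5) (nat_lit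 9) (nat_lit 5) (nat_lit 8) (nat_lit 4) (nat_lit 388) (nat_lit 290) (nat_lit 222)) (XT.nd (nat_lit 78) (nat_lit 0) (nat_lit 0) (XT.lf (nat_lit 0) (nat_lit 6734988511) (nat_lit 76) (nat_lit 7439102749) (nat_lit 152) (nat_lit 72524256141) (nat_lit 6) (nat_lit 5) (nat_lit 7) (nat_lit 5) (nat_lit 8) (nat_lit 4) (nat_lit 389) (nat_lit 290) (nat_lit 221)) (XT.lf (nat_lit 0) (nat_lit 23373035609) (nat_lit 152) (nat_lit 65430833120) (nat_lit 0) (nat_lit 1940096652) (nat_lit 6) (nat_lit 5) (nat_lit 8) (nat_lit 4) (nat_lit 6) (nat_lit 4) (nat_lit 390) (nat_lit 290) (nat_lit 220))))) (XT.nd (nat_lit 41184) (nat_lit 0) (nat_lit 12616) (XT.nd (nat_lit 78) (nat_lit 0) (nat_lit 0) (XT.lf (nat_lit 0) (nat_lit 33077935150) (nat_lit 152) (nat_lit 50302240397) (nat_lit 0) (nat_lit 11610312533) (nat_lit 6) (nat_lit 5) (nat_lit 8) (nat_lit 4) (nat_lit 6) (nat_lit 4) (nat_lit 391) (nat_lit 290) (nat_lit 219)) (XT.nd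 (nat_lit 156) (nat_lit 0) (nat_lit 0) (XT.lf (nat_lit 0) (nat_lit 43240387579) (nat_lit 152) (nat_lit 34470051056) (nat_lit 0) (nat_lit 21739732905) (nat_lit 6) (nat_lit 5) (nat_lit 8) (nat_lit 4) (nat_lit 6) (nat_lit 4) (nat_lit 392) (nat_lit 290) (nat_lit 218)) (XT.lf (nat_lit 0) (nat_lit 65035883388) (nat_lit 152) (nat_lit 542334786) (nat_lit 0) (nat_lit 43473808561) (nat_lit 6) (nat_lit 5) (nat_lit 8) (nat_lit 4) (nat_lit 6) (nat_lit 4) (nat_lit 394) (nat_lit 290) (nat_lit 216)))) (XT.nd (nat_lit 78) (nat_lit 1140) (nat_lit 0) (XT.lf (nat_lit 0) (nat_lit 208197963) (nat_lit 608) (nat_lit 3304645363) (nat_lit 0) (nat_lit 208197963) (nat_lit 187) (nat_lit 5) (nat_lit 195) (nat_lit 4) (nat_lit 187) (nat_lit 4) (nat_lit 318) (nat_lit 291) (nat_lit 291)) (XT.nd (nat_lit 78) (nat_lit 608) (nat_lit 0) (XT.lf (nat_lit 0) (nat_lit 2260633893) (nat_lit 532) (nat_lit 3844710423) (nat_lit 532) (nat_lit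 1455067571) (nat_lit 180) (nat_lit 4) (nat_lit 187) (nat_lit 5) (nat_lit 187) (nat_lit 4) (nat_lit 319) (nat_lit 291) (nat_lit 290)) (XT.lf (nat_lit 0) (nat_lit 3760468997) (nat_lit 532) (nat_lit 390251290) (nat_lit 608) (nat_lit 3537657311) (nat_lit 172) (nat_lit 5) (nat_lit 179) (nat_lit 5) (nat_lit 180) (nat_lit 4) (nat_lit 320) (nat_lit 291) (nat_lit 289)))))) (XT.nd (nat_lit 390) (nat_lit 2736) (nat_lit 0) (XT.nd (nat_lit 156) (nat_lit 1900) (nat_lit 0) (XT.nd (nat_lit 78) (nat_lit 456) (nat_lit 0) (XT.lf (nat_lit 0) (nat_lit 2024898036) (nat_lit 608) (nat_lit 2523408148) (nat_lit 76) (nat_lit 3277118505) (nat_lit 164) (nat_lit 5) (nat_lit 172) (nat_lit 5) (nat_lit 165) (nat_lit 4) (nat_lit 321) (nat_lit 291) (nat_lit 288)) (XT.lf (nat_lit 0) (nat_lit 6907138800) (nat_lit 456) (nat_lit 750609539) (nat_lit 532) (nat_lit 314792756) (nat_lit 158) (nat_lit 5) (nat_lit 164) (nat_lit 5) (nat_lit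 165) (nat_lit 4) (nat_lit 322) (nat_lit 291) (nat_lit 287))) (XT.nd (nat_lit 78) (nat_lit 912) (nat_lit 0) (XT.lf (nat_lit 0) (nat_lit 404660836) (nat_lit 456) (nat_lit 4838820420) (nat_lit 532) (nat_lit 2885037031) (nat_lit 145) (nat_lit 5) (nat_lit 151) (nat_lit 5) (nat_lit 152) (nat_lit 4) (nat_lit 323) (nat_lit 291) (nat_lit 286)) (XT.nd (nat_lit 78) (nat_lit 380) (nat_lit 0) (XT.lf (nat_lit 0) (nat_lit 1940903675) (nat_lit 456) (nat_lit 680170696) (nat_lit 532) (nat_lit 5673687670) (nat_lit 138) (nat_lit 5) (nat_lit 144) (nat_lit 5) (nat_lit 145) (nat_lit 5) (nat_lit 324) (nat_lit 291) (nat_lit 285)) (XT.lf (nat_lit 0) (nat_lit 3487753435) (nat_lit 380) (nat_lit 4775523347) (nat_lit 456) (nat_lit 207756084) (nat_lit 133) (nat_lit 5) (nat_lit 138) (nat_lit 5) (nat_lit 139) (nat_lit 4) (nat_lit 325) (nat_lit 291) (nat_lit 284))))) (XT.nd (nat_lit 234) (nat_lit 1444) (nat_lit 0) (XT.nd (nat_lit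 78) (nat_lit 836) (nat_lit 0) (XT.lf (nat_lit 0) (nat_lit 5043389739) (nat_lit 380) (nat_lit 277954344) (nat_lit 456) (nat_lit 3336415090) (nat_lit 127) (nat_lit 5) (nat_lit 132) (nat_lit 5) (nat_lit 133) (nat_lit 5) (nat_lit 326) (nat_lit 291) (nat_lit 283)) (XT.nd (nat_lit 78) (nat_lit 380) (nat_lit 0) (XT.lf (nat_lit 0) (nat_lit 2165623756) (nat_lit 456) (nat_lit 2261827324) (nat_lit 76) (nat_lit 4427581591) (nat_lit 121) (nat_lit 5) (nat_lit 127) (nat_lit 5) (nat_lit 122) (nat_lit 5) (nat_lit 327) (nat_lit 291) (nat_lit 282)) (XT.lf (nat_lit 0) (nat_lit 7785847999) (nat_lit 456) (nat_lit 907599609) (nat_lit 76) (nat_lit 370519615) (nat_lit 116) (nat_lit 5) (nat_lit 122) (nat_lit 5) (nat_lit 117) (nat_lit 4) (nat_lit 328) (nat_lit 291) (nat_lit 281)))) (XT.nd (nat_lit 78) (nat_lit 684) (nat_lit 0) (XT.lf (nat_lit 0) (nat_lit 400795430) (nat_lit 380) (nat_lit 3877548222) (nat_lit 456) (nat_lit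 5005058248) (nat_lit 106) (nat_lit 5) (nat_lit 111) (nat_lit 5) (nat_lit 112) (nat_lit 5) (nat_lit 329) (nat_lit 291) (nat_lit 280)) (XT.nd (nat_lit 78) (nat_lit 304) (nat_lit 0) (XT.lf (nat_lit 0) (nat_lit 499435903) (nat_lit 380) (nat_lit 7794815208) (nat_lit 76) (nat_lit 1221006098) (nat_lit 101) (nat_lit 5) (nat_lit 106) (nat_lit 5) (nat_lit 102) (nat_lit 5) (nat_lit 330) (nat_lit 291) (nat_lit 279)) (XT.lf (nat_lit 0) (nat_lit 2962777474) (nat_lit 304) (nat_lit 3175694497) (nat_lit 380) (nat_lit 3619984697) (nat_lit 97) (nat_lit 5) (nat_lit 101) (nat_lit 5) (nat_lit 102) (nat_lit 5) (nat_lit 331) (nat_lit 291) (nat_lit 278))))))) (XT.nd (nat_lit 858) (nat_lit 1824) (nat_lit 0) (XT.nd (nat_lit 390) (nat_lit 1444) (nat_lit 0) (XT.nd (nat_lit 156) (nat_lit 912) (nat_lit 0) (XT.nd (nat_lit 78) (nat_lit 304) (nat_lit 0) (XT.lf (nat_lit 0) (nat_lit 1955322050) (nat_lit 380) (nat_lit 5849674109)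 (nat_lit 76) (nat_lit 2209855792) (nat_lit 92) (nat_lit 5) (nat_lit 97) (nat_lit 5) (nat_lit 93) (nat_lit 5) (nat_lit 332) (nat_lit 291) (nat_lit 277)) (XT.lf (nat_lit 0) (nat_lit 5287794201) (nat_lit 304) (nat_lit 2413311869) (nat_lit 380) (nat_lit 2582996565) (nat_lit 88) (nat_lit 5) (nat_lit 92) (nat_lit 5) (nat_lit 93) (nat_lit 5) (nat_lit 333) (nat_lit 291) (nat_lit 276))) (XT.nd (nat_lit 78) (nat_lit 608) (nat_lit 0) (XT.lf (nat_lit 0) (nat_lit 3076085496) (nat_lit 304) (nat_lit 4243258844) (nat_lit 76) (nat_lit 3247542341) (nat_lit 84) (nat_lit 5) (nat_lit 88) (nat_lit 5) (nat_lit 85) (nat_lit 5) (nat_lit 334) (nat_lit 291) (nat_lit 275)) (XT.nd (nat_lit 78) (nat_lit 304) (nat_lit 0) (XT.lf (nat_lit 0) (nat_lit 7270065782) (nat_lit 304) (nat_lit 1663365478) (nat_lit 380) (nat_lit 1930644865) (nat_lit 80) (nat_lit 5) (nat_lit 84) (nat_lit 5) (nat_lit 85) (nat_lit 5) (nat_lit 335) (nat_lit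 291) (nat_lit 274)) (XT.lf (nat_lit 0) (nat_lit 3821444106) (nat_lit 304) (nat_lit 3093232494) (nat_lit 76) (nat_lit 4260704496) (nat_lit 76) (nat_lit 5) (nat_lit 80) (nat_lit 5) (nat_lit 77) (nat_lit 5) (nat_lit 336) (nat_lit 291) (nat_lit 273))))) (XT.nd (nat_lit 234) (nat_lit 684) (nat_lit 0) (XT.nd (nat_lit 78) (nat_lit 532) (nat_lit 0) (XT.lf (nat_lit 0) (nat_lit 8786041672) (nat_lit 228) (nat_lit 1005215101) (nat_lit 304) (nat_lit 1711403587) (nat_lit 73) (nat_lit 5) (nat_lit 76) (nat_lit 5) (nat_lit 77) (nat_lit 5) (nat_lit 337) (nat_lit 291) (nat_lit 272)) (XT.nd (nat_lit 78) (nat_lit 228) (nat_lit 0) (XT.lf (nat_lit 0) (nat_lit 4138788016) (nat_lit 304) (nat_lit 2537343773) (nat_lit 76) (nat_lit 5168801981) (nat_lit 69) (nat_lit 5) (nat_lit 73) (nat_lit 5) (nat_lit 70) (nat_lit 5) (nat_lit 338) (nat_lit 291) (nat_lit 271)) (XT.lf (nat_lit 0) (nat_lit 9690591681) (nat_lit 228) (nat_lit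 526842972) (nat_lit 304) (nat_lit 1987311581) (nat_lit 66) (nat_lit 5) (nat_lit 69) (nat_lit 5) (nat_lit 70) (nat_lit 5) (nat_lit 339) (nat_lit 291) (nat_lit 270)))) (XT.nd (nat_lit 78) (nat_lit 456) (nat_lit 0) (XT.lf (nat_lit 0) (nat_lit 3961410310) (nat_lit 228) (nat_lit 2737571455) (nat_lit 76) (nat_lit 5881807120) (nat_lit 63) (nat_lit 5) (nat_lit 66) (nat_lit 5) (nat_lit 64) (nat_lit 5) (nat_lit 340) (nat_lit 291) (nat_lit 269)) (XT.nd (nat_lit 78) (nat_lit 228) (nat_lit 0) (XT.lf (nat_lit 0) (nat_lit 9812592404) (nat_lit 228) (nat_lit 327351751) (nat_lit 304) (nat_lit 2835960021) (nat_lit 60) (nat_lit 5) (nat_lit 63) (nat_lit 5) (nat_lit 64) (nat_lit 5) (nat_lit 341) (nat_lit 291) (nat_lit 268)) (XT.lf (nat_lit 0) (nat_lit 3206375161) (nat_lit 228) (nat_lit 3884935892) (nat_lit 76) (nat_lit 6297603873) (nat_lit 57) (nat_lit 5) (nat_lit 60) (nat_lit 5) (nat_lit 58) (nat_lit 5) (nat_lit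 342) (nat_lit 291) (nat_lit 267)))))) (XT.nd (nat_lit 468) (nat_lit 684) (nat_lit 0) (XT.nd (nat_lit 234) (nat_lit 532) (nat_lit 0) (XT.nd (nat_lit 78) (nat_lit 380) (nat_lit 0) (XT.lf (nat_lit 0) (nat_lit 8949797225) (nat_lit 228) (nat_lit 519793643) (nat_lit 304) (nat_lit 4352877831) (nat_lit 54) (nat_lit 5) (nat_lit 57) (nat_lit 5) (nat_lit 58) (nat_lit 5) (nat_lit 343) (nat_lit 291) (nat_lit 266)) (XT.nd (nat_lit 78) (nat_lit 152) (nat_lit 0) (XT.lf (nat_lit 0) (nat_lit 1771967459) (nat_lit 228) (nat_lit 6205099277) (nat_lit 76) (nat_lit 6299030332) (nat_lit 51) (nat_lit 5) (nat_lit 54) (nat_lit 5) (nat_lit 52) (nat_lit 5) (nat_lit 344) (nat_lit 291) (nat_lit 265)) (XT.lf (nat_lit 0) (nat_lit 6862859888) (nat_lit 152) (nat_lit 1234400407) (nat_lit 228) (nat_lit 6654377220) (nat_lit 49) (nat_lit 5) (nat_lit 51) (nat_lit 5) (nat_lit 52) (nat_lit 5) (nat_lit 345) (nat_lit 291) (nat_lit 264))))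 (XT.nd (nat_lit 78) (nat_lit 380) (nat_lit 0) (XT.lf (nat_lit 0) (nat_lit 5280450016) (nat_lit 152) (nat_lit 9494854861) (nat_lit 228) (nat_lit 474603570) (nat_lit 47) (nat_lit 5) (nat_lit 49) (nat_lit 5) (nat_lit 50) (nat_lit 4) (nat_lit 346) (nat_lit 291) (nat_lit 263)) (XT.nd (nat_lit 78) (nat_lit 152) (nat_lit 0) (XT.lf (nat_lit 0) (nat_lit 3268360282) (nat_lit 152) (nat_lit 2622294334) (nat_lit 228) (nat_lit 9880932797) (nat_lit 44) (nat_lit 5) (nat_lit 46) (nat_lit 5) (nat_lit 47) (nat_lit 5) (nat_lit 347) (nat_lit 291) (nat_lit 262)) (XT.lf (nat_lit 0) (nat_lit 802657686) (nat_lit 152) (nat_lit 11788560200) (nat_lit 228) (nat_lit 3727228074) (nat_lit 42) (nat_lit 5) (nat_lit 44) (nat_lit 5) (nat_lit 45) (nat_lit 4) (nat_lit 348) (nat_lit 291) (nat_lit 261))))) (XT.nd (nat_lit 234) (nat_lit 304) (nat_lit 0) (XT.nd (nat_lit 78) (nat_lit 304) (nat_lit 0) (XT.lf (nat_lit 0) (nat_lit 2711281688)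 (nat_lit 228) (nat_lit 2127012310) (nat_lit 76) (nat_lit 12052689914) (nat_lit 41) (nat_lit 5) (nat_lit 44) (nat_lit 5) (nat_lit 42) (nat_lit 5) (nat_lit 349) (nat_lit 291) (nat_lit 260)) (XT.nd (nat_lit 78) (nat_lit 152) (nat_lit 0) (XT.lf (nat_lit 0) (nat_lit 9414219530) (nat_lit 228) (nat_lit 5598258741) (nat_lit 76) (nat_lit 2478013051) (nat_lit 39) (nat_lit 5) (nat_lit 42) (nat_lit 5) (nat_lit 40) (nat_lit 4) (nat_lit 350) (nat_lit 291) (nat_lit 259)) (XT.lf (nat_lit 0) (nat_lit 8447789685) (nat_lit 152) (nat_lit 8039616976) (nat_lit 228) (nat_lit 1631549875) (nat_lit 37) (nat_lit 5) (nat_lit 39) (nat_lit 5) (nat_lit 40) (nat_lit 4) (nat_lit 351) (nat_lit 291) (nat_lit 258)))) (XT.nd (nat_lit 78) (nat_lit 76) (nat_lit 0) (XT.lf (nat_lit 0) (nat_lit 4369341008) (nat_lit 152) (nat_lit 651506233) (nat_lit 228) (nat_lit 13756980180) (nat_lit 34) (nat_lit 5) (nat_lit 36) (nat_lit 5) (nat_lit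 37) (nat_lit 5) (nat_lit 352) (nat_lit 291) (nat_lit 257)) (XT.nd (nat_lit 78) (nat_lit 76) (nat_lit 0) (XT.lf (nat_lit 0) (nat_lit 12029482522) (nat_lit 228) (nat_lit 437190756) (nat_lit 76) (nat_lit 7000794380) (nat_lit 34) (nat_lit 5) (nat_lit 37) (nat_lit 5) (nat_lit 35) (nat_lit 4) (nat_lit 353) (nat_lit 291) (nat_lit 256)) (XT.lf (nat_lit 0) (nat_lit 14316169963) (nat_lit 76) (nat_lit 5110093524) (nat_lit 152) (nat_lit 764224780) (nat_lit 33) (nat_lit 5) (nat_lit 34) (nat_lit 5) (nat_lit 35) (nat_lit 4) (nat_lit 354) (nat_lit 291) (nat_lit 255))))))))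
noncomputable def xc33 : XT := (XT.nd (nat_lit 1794) (nat_lit 456) (nat_lit 0) (XT.nd (nat_lit 858) (nat_lit 532) (nat_lit 0) (XT.nd (nat_lit 390) (nat_lit 456) (nat_lit 0) (XT.nd (nat_lit 156) (nat_lit 304) (nat_lit 0) (XT.nd (nat_lit 78) (nat_lit 76) (nat_lit 0) (XT.lf (nat_lit 0) (nat_lit 6132055132) (nat_lit 228) (nat_lit 12181800299) (nat_lit 76) (nat_lit 2633711821) (nat_lit 30) (nat_lit 5) (nat_lit 33) (nat_lit 5) (nat_lit 31) (nat_lit 4) (nat_lit 355) (nat_lit 291) (nat_lit 254)) (XT.lf (nat_lit 0) (nat_lit 2322435715) (nat_lit 76) (nat_lit 11068263890) (nat_lit 152) (nat_lit 8350599128) (nat_lit 29) (nat_lit 5) (nat_lit 30) (nat_lit 5) (nat_lit 31) (nat_lit 4) (nat_lit 356) (nat_lit 291) (nat_lit 253))) (XT.nd (nat_lit 78) (nat_lit 304) (nat_lit 0) (XT.lf (nat_lit 0) (nat_lit 17628770574) (nat_lit 76) (nat_lit 3410281773) (nat_lit 152) (nat_lit 1534886134) (nat_lit 29) (nat_lit 5)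 (nat_lit 30) (nat_lit 5) (nat_lit 31) (nat_lit 4) (nat_lit 357) (nat_lit 291) (nat_lit 252)) (XT.nd (nat_lit 78) (nat_lit 76) (nat_lit 0) (XT.lf (nat_lit 0) (nat_lit 5560624828) (nat_lit 228) (nat_lit 13265192978) (nat_lit 76) (nat_lit 4619333044) (nat_lit 26) (nat_lit 5) (nat_lit 29) (nat_lit 5) (nat_lit 27) (nat_lit 4) (nat_lit 358) (nat_lit 291) (nat_lit 251)) (XT.lf (nat_lit 0) (nat_lit 1619172803) (nat_lit 76) (nat_lit 11369010048) (nat_lit 152) (nat_lit 11371036614) (nat_lit 25) (nat_lit 5) (nat_lit 26) (nat_lit 5) (nat_lit 27) (nat_lit 4) (nat_lit 359) (nat_lit 291) (nat_lit 250))))) (XT.nd (nat_lit 234) (nat_lit 228) (nat_lit 0) (XT.nd (nat_lit 78) (nat_lit 228) (nat_lit 0) (XT.lf (nat_lit 0) (nat_lit 17361495320) (nat_lit 76) (nat_lit 3472343477) (nat_lit 152) (nat_lit 4483772058) (nat_lit 25) (nat_lit 5) (nat_lit 26) (nat_lit 5) (nat_lit 27) (nat_lit 4) (nat_lit 360) (nat_lit 291)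 (nat_lit 249)) (XT.nd (nat_lit 78) (nat_lit 0) (nat_lit 0) (XT.lf (nat_lit 0) (nat_lit 2726817363) (nat_lit 228) (nat_lit 18840072875) (nat_lit 76) (nat_lit 4755281053) (nat_lit 22) (nat_lit 5) (nat_lit 25) (nat_lit 5) (nat_lit 23) (nat_lit 4) (nat_lit 361) (nat_lit 291) (nat_lit 248)) (XT.lf (nat_lit 0) (nat_lit 10239384957) (nat_lit 228) (nat_lit 3751909295) (nat_lit 76) (nat_lit 13383326730) (nat_lit 22) (nat_lit 5) (nat_lit 25) (nat_lit 5) (nat_lit 23) (nat_lit 4) (nat_lit 362) (nat_lit 291) (nat_lit 247)))) (XT.nd (nat_lit 78) (nat_lit 152) (nat_lit 0) (XT.lf (nat_lit 0) (nat_lit 12180951797) (nat_lit 76) (nat_lit 5983299584) (nat_lit 152) (nat_lit 10314359229) (nat_lit 21) (nat_lit 5) (nat_lit 22) (nat_lit 5) (nat_lit 23) (nat_lit 4) (nat_lit 363) (nat_lit 291) (nat_lit 246)) (XT.nd (nat_lit 78) (nat_lit 152) (nat_lit 0) (XT.lf (nat_lit 0) (nat_lit 26469083657) (nat_lit 152) (nat_lit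 816383583) (nat_lit 0) (nat_lit 2352837534) (nat_lit 21) (nat_lit 5) (nat_lit 23) (nat_lit 4) (nat_lit 21) (nat_lit 4) (nat_lit 364) (nat_lit 291) (nat_lit 245)) (XT.lf (nat_lit 0) (nat_lit 4384895371) (nat_lit 152) (nat_lit 15351066630) (nat_lit 76) (nat_lit 11114699200) (nat_lit 19) (nat_lit 5) (nat_lit 21) (nat_lit 5) (nat_lit 20) (nat_lit 4) (nat_lit 365) (nat_lit 291) (nat_lit 244)))))) (XT.nd (nat_lit 468) (nat_lit 228) (nat_lit 0) (XT.nd (nat_lit 234) (nat_lit 228) (nat_lit 0) (XT.nd (nat_lit 78) (nat_lit 0) (nat_lit 0) (XT.lf (nat_lit 0) (nat_lit 364565571) (nat_lit 76) (nat_lit 11825899551) (nat_lit 152) (nat_lit 19934064954) (nat_lit 18) (nat_lit 5) (nat_lit 19) (nat_lit 5) (nat_lit 20) (nat_lit 4) (nat_lit 366) (nat_lit 291) (nat_lit 243)) (XT.nd (nat_lit 78) (nat_lit 0) (nat_lit 0) (XT.lf (nat_lit 0) (nat_lit 17055130537) (nat_lit 76) (nat_lit 3418124923) (nat_lit 152) (nat_lit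 12986242702) (nat_lit 18) (nat_lit 5) (nat_lit 19) (nat_lit 5) (nat_lit 20) (nat_lit 4) (nat_lit 367) (nat_lit 291) (nat_lit 242)) (XT.lf (nat_lit 0) (nat_lit 29153936868) (nat_lit 152) (nat_lit 459857799) (nat_lit 0) (nat_lit 5247920803) (nat_lit 18) (nat_lit 5) (nat_lit 20) (nat_lit 4) (nat_lit 18) (nat_lit 4) (nat_lit 368) (nat_lit 291) (nat_lit 241)))) (XT.nd (nat_lit 78) (nat_lit 76) (nat_lit 0) (XT.lf (nat_lit 0) (nat_lit 2025708963) (nat_lit 152) (nat_lit 19902581835) (nat_lit 76) (nat_lit 14401341758) (nat_lit 16) (nat_lit 5) (nat_lit 18) (nat_lit 5) (nat_lit 17) (nat_lit 4) (nat_lit 369) (nat_lit 291) (nat_lit 240)) (XT.nd (nat_lit 78) (nat_lit 76) (nat_lit 0) (XT.lf (nat_lit 0) (nat_lit 9970031681) (nat_lit 152) (nat_lit 3879182876) (nat_lit 76) (nat_lit 24021781135) (nat_lit 16) (nat_lit 5) (nat_lit 18) (nat_lit 5) (nat_lit 17) (nat_lit 4) (nat_lit 370) (nat_lit 291) (nat_lit 239))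 (XT.lf (nat_lit 0) (nat_lit 13087788420) (nat_lit 76) (nat_lit 5288950284) (nat_lit 152) (nat_lit 21110744442) (nat_lit 15) (nat_lit 5) (nat_lit 16) (nat_lit 5) (nat_lit 17) (nat_lit 4) (nat_lit 371) (nat_lit 291) (nat_lit 238))))) (XT.nd (nat_lit 234) (nat_lit 76) (nat_lit 0) (XT.nd (nat_lit 78) (nat_lit 152) (nat_lit 0) (XT.lf (nat_lit 0) (nat_lit 27220372703) (nat_lit 152) (nat_lit 10346414706) (nat_lit 0) (nat_lit 3617520489) (nat_lit 15) (nat_lit 5) (nat_lit 17) (nat_lit 4) (nat_lit 15) (nat_lit 4) (nat_lit 372) (nat_lit 291) (nat_lit 237)) (XT.nd (nat_lit 78) (nat_lit 76) (nat_lit 0) (XT.lf (nat_lit 0) (nat_lit 6476785462) (nat_lit 76) (nat_lit 30088571362) (nat_lit 76) (nat_lit 6398852176) (nat_lit 14) (nat_lit 4) (nat_lit 15) (nat_lit 5) (nat_lit 15) (nat_lit 4) (nat_lit 373) (nat_lit 291) (nat_lit 236)) (XT.lf (nat_lit 0) (nat_lit 1566585255) (nat_lit 152) (nat_lit 20592281566) (nat_lit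 76) (nat_lit 22672235178) (nat_lit 13) (nat_lit 5) (nat_lit 15) (nat_lit 5) (nat_lit 14) (nat_lit 4) (nat_lit 374) (nat_lit 291) (nat_lit 235)))) (XT.nd (nat_lit 78) (nat_lit 76) (nat_lit 0) (XT.lf (nat_lit 0) (nat_lit 9746498091) (nat_lit 152) (nat_lit 4065849411) (nat_lit 76) (nat_lit 32978644198) (nat_lit 13) (nat_lit 5) (nat_lit 15) (nat_lit 5) (nat_lit 14) (nat_lit 4) (nat_lit 375) (nat_lit 291) (nat_lit 234)) (XT.nd (nat_lit 78) (nat_lit 0) (nat_lit 0) (XT.lf (nat_lit 0) (nat_lit 13455292473) (nat_lit 76) (nat_lit 4959274998) (nat_lit 152) (nat_lit 30431942115) (nat_lit 12) (nat_lit 5) (nat_lit 13) (nat_lit 5) (nat_lit 14) (nat_lit 4) (nat_lit 376) (nat_lit 291) (nat_lit 233)) (XT.lf (nat_lit 0) (nat_lit 27550912815) (nat_lit 152) (nat_lit 19200721393) (nat_lit 0) (nat_lit 4252131101) (nat_lit 12) (nat_lit 5) (nat_lit 14) (nat_lit 4) (nat_lit 12) (nat_lit 4) (nat_lit 377) (nat_lit 291)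 (nat_lit 232))))))) (XT.nd (nat_lit 858) (nat_lit 152) (nat_lit 0) (XT.nd (nat_lit 390) (nat_lit 76) (nat_lit 0) (XT.nd (nat_lit 156) (nat_lit 152) (nat_lit 0) (XT.nd (nat_lit 78) (nat_lit 76) (nat_lit 0) (XT.lf (nat_lit 0) (nat_lit 37147386918) (nat_lit 152) (nat_lit 2338880228) (nat_lit 0) (nat_lit 13782525062) (nat_lit 12) (nat_lit 5) (nat_lit 14) (nat_lit 4) (nat_lit 12) (nat_lit 4) (nat_lit 378) (nat_lit 291) (nat_lit 231)) (XT.lf (nat_lit 0) (nat_lit 15586269466) (nat_lit 76) (nat_lit 31742722231) (nat_lit 76) (nat_lit 8314926909) (nat_lit 11) (nat_lit 4) (nat_lit 12) (nat_lit 5) (nat_lit 12) (nat_lit 4) (nat_lit 379) (nat_lit 291) (nat_lit 230))) (XT.nd (nat_lit 78) (nat_lit 152) (nat_lit 0) (XT.lf (nat_lit 0) (nat_lit 34375030350) (nat_lit 76) (nat_lit 23625541545) (nat_lit 76) (nat_lit 137809587) (nat_lit 11) (nat_lit 4) (nat_lit 12) (nat_lit 5) (nat_lit 12) (nat_lit 4) (nat_lit 380)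 (nat_lit 291) (nat_lit 229)) (XT.nd (nat_lit 78) (nat_lit 76) (nat_lit 0) (XT.lf (nat_lit 0) (nat_lit 8241770502) (nat_lit 152) (nat_lit 6814020347) (nat_lit 76) (nat_lit 45700593041) (nat_lit 10) (nat_lit 5) (nat_lit 12) (nat_lit 5) (nat_lit 11) (nat_lit 4) (nat_lit 381) (nat_lit 291) (nat_lit 228)) (XT.lf (nat_lit 0) (nat_lit 11123713359) (nat_lit 76) (nat_lit 5981159607) (nat_lit 152) (nat_lit 46398356891) (nat_lit 9) (nat_lit 5) (nat_lit 10) (nat_lit 5) (nat_lit 11) (nat_lit 4) (nat_lit 382) (nat_lit 291) (nat_lit 227))))) (XT.nd (nat_lit 234) (nat_lit 76) (nat_lit 0) (XT.nd (nat_lit 78) (nat_lit 0) (nat_lit 0) (XT.lf (nat_lit 0) (nat_lit 26477363418) (nat_lit 152) (nat_lit 36392801718) (nat_lit 0) (nat_lit 3515271881) (nat_lit 9) (nat_lit 5) (nat_lit 11) (nat_lit 4) (nat_lit 9) (nat_lit 4) (nat_lit 383) (nat_lit 291) (nat_lit 226)) (XT.nd (nat_lit 78) (nat_lit 0) (nat_lit 0) (XT.lf (nat_lit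 0) (nat_lit 36341986878) (nat_lit 152) (nat_lit 19737046470) (nat_lit 0) (nat_lit 13332021537) (nat_lit 9) (nat_lit 5) (nat_lit 11) (nat_lit 4) (nat_lit 9) (nat_lit 4) (nat_lit 384) (nat_lit 291) (nat_lit 225)) (XT.lf (nat_lit 0) (nat_lit 46664735979) (nat_lit 152) (nat_lit 2315099629) (nat_lit 0) (nat_lit 23609176538) (nat_lit 9) (nat_lit 5) (nat_lit 11) (nat_lit 4) (nat_lit 9) (nat_lit 4) (nat_lit 385) (nat_lit 291) (nat_lit 224)))) (XT.nd (nat_lit 78) (nat_lit 0) (nat_lit 0) (XT.lf (nat_lit 0) (nat_lit 16231249776) (nat_lit 76) (nat_lit 41394963622) (nat_lit 76) (nat_lit 18295981229) (nat_lit 8) (nat_lit 4) (nat_lit 9) (nat_lit 5) (nat_lit 9) (nat_lit 4) (nat_lit 386) (nat_lit 291) (nat_lit 223)) (XT.nd (nat_lit 78) (nat_lit 0) (nat_lit 0) (XT.lf (nat_lit 0) (nat_lit 35691688565) (nat_lit 76) (nat_lit 33435474076) (nat_lit 76) (nat_lit 10295136491) (nat_lit 8) (nat_lit 4) (nat_lit 9) (nat_lit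 5) (nat_lit 9) (nat_lit 4) (nat_lit 387) (nat_lit 291) (nat_lit 222)) (XT.lf (nat_lit 0) (nat_lit 56066476094) (nat_lit 76) (nat_lit 25105793772) (nat_lit 76) (nat_lit 1926070290) (nat_lit 8) (nat_lit 4) (nat_lit 9) (nat_lit 5) (nat_lit 9) (nat_lit 4) (nat_lit 388) (nat_lit 291) (nat_lit 221)))))) (XT.nd (nat_lit 41262) (nat_lit 0) (nat_lit 11476) (XT.nd (nat_lit 234) (nat_lit 0) (nat_lit 0) (XT.nd (nat_lit 78) (nat_lit 76) (nat_lit 0) (XT.lf (nat_lit 0) (nat_lit 6697843503) (nat_lit 152) (nat_lit 9620611548) (nat_lit 76) (nat_lit 70638645171) (nat_lit 7) (nat_lit 5) (nat_lit 9) (nat_lit 5) (nat_lit 8) (nat_lit 4) (nat_lit 389) (nat_lit 291) (nat_lit 220)) (XT.nd (nat_lit 78) (nat_lit 0) (nat_lit 0) (XT.lf (nat_lit 0) (nat_lit 8758895302) (nat_lit 76) (nat_lit 7010490575) (nat_lit 152) (nat_lit 75237156364) (nat_lit 6) (nat_lit 5) (nat_lit 7) (nat_lit 5) (nat_lit 8) (nat_lit 4) (nat_lit 390)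 (nat_lit 291) (nat_lit 219)) (XT.lf (nat_lit 0) (nat_lit 25393387958) (nat_lit 152) (nat_lit 67077437297) (nat_lit 0) (nat_lit 2784668493) (nat_lit 6) (nat_lit 5) (nat_lit 8) (nat_lit 4) (nat_lit 6) (nat_lit 4) (nat_lit 391) (nat_lit 291) (nat_lit 218)))) (XT.nd (nat_lit 156) (nat_lit 0) (nat_lit 0) (XT.lf (nat_lit 0) (nat_lit 35542975306) (nat_lit 152) (nat_lit 51269792913) (nat_lit 0) (nat_lit 12902796739) (nat_lit 6) (nat_lit 5) (nat_lit 8) (nat_lit 4) (nat_lit 6) (nat_lit 4) (nat_lit 392) (nat_lit 291) (nat_lit 217)) (XT.nd (nat_lit 40794) (nat_lit 0) (nat_lit 15884) (XT.lf (nat_lit 0) (nat_lit 57314549648) (nat_lit 152) (nat_lit 17387715791) (nat_lit 0) (nat_lit 34615875697) (nat_lit 6) (nat_lit 5) (nat_lit 8) (nat_lit 4) (nat_lit 6) (nat_lit 4) (nat_lit 394) (nat_lit 291) (nat_lit 215)) (XT.lf (nat_lit 0) (nat_lit 2776068150) (nat_lit 1140) (nat_lit 418798252) (nat_lit 1140) (nat_lit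 418798252) (nat_lit 215) (nat_lit 4) (nat_lit 230) (nat_lit 5) (nat_lit 230) (nat_lit 4) (nat_lit 316) (nat_lit 292) (nat_lit 292))))) (XT.nd (nat_lit 234) (nat_lit 1672) (nat_lit 0) (XT.nd (nat_lit 78) (nat_lit 1824) (nat_lit 0) (XT.lf (nat_lit 0) (nat_lit 4685507634) (nat_lit 912) (nat_lit 545343168) (nat_lit 0) (nat_lit 2101108890) (nat_lit 203) (nat_lit 5) (nat_lit 215) (nat_lit 4) (nat_lit 203) (nat_lit 4) (nat_lit 317) (nat_lit 292) (nat_lit 291)) (XT.nd (nat_lit 78) (nat_lit 608) (nat_lit 0) (XT.lf (nat_lit 0) (nat_lit 667938381) (nat_lit 532) (nat_lit 2146677019) (nat_lit 608) (nat_lit 4630930753) (nat_lit 187) (nat_lit 5) (nat_lit 194) (nat_lit 5) (nat_lit 195) (nat_lit 4) (nat_lit 318) (nat_lit 292) (nat_lit 290)) (XT.lf (nat_lit 0) (nat_lit 771012787) (nat_lit 608) (nat_lit 5609462223) (nat_lit 76) (nat_lit 1187765757) (nat_lit 179) (nat_lit 5) (nat_lit 187) (nat_lit 5) (nat_lit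 180) (nat_lit 4) (nat_lit 319) (nat_lit 292) (nat_lit 289)))) (XT.nd (nat_lit 78) (nat_lit 1140) (nat_lit 0) (XT.lf (nat_lit 0) (nat_lit 3288421743) (nat_lit 532) (nat_lit 2933507534) (nat_lit 608) (nat_lit 1477772043) (nat_lit 172) (nat_lit 5) (nat_lit 179) (nat_lit 5) (nat_lit 180) (nat_lit 4) (nat_lit 320) (nat_lit 292) (nat_lit 288)) (XT.nd (nat_lit 78) (nat_lit 532) (nat_lit 0) (XT.lf (nat_lit 0) (nat_lit 3895101658) (nat_lit 608) (nat_lit 3167077647) (nat_lit 76) (nat_lit 778570726) (nat_lit 164) (nat_lit 5) (nat_lit 172) (nat_lit 5) (nat_lit 165) (nat_lit 4) (nat_lit 321) (nat_lit 292) (nat_lit 287)) (XT.lf (nat_lit 0) (nat_lit 1386538978) (nat_lit 532) (nat_lit 1894353078) (nat_lit 76) (nat_lit 4710337770) (nat_lit 157) (nat_lit 5) (nat_lit 164) (nat_lit 5) (nat_lit 158) (nat_lit 5) (nat_lit 322) (nat_lit 292) (nat_lit 286))))))))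
noncomputable def xc34 : XT := (XT.nd (nat_lit 1716) (nat_lit 2584) (nat_lit 0) (XT.nd (nat_lit 858) (nat_lit 2736) (nat_lit 0) (XT.nd (nat_lit 390) (nat_lit 2508) (nat_lit 0) (XT.nd (nat_lit 156) (nat_lit 1292) (nat_lit 0) (XT.nd (nat_lit 78) (nat_lit 988) (nat_lit 0) (XT.lf (nat_lit 0) (nat_lit 6789135828) (nat_lit 532) (nat_lit 587618623) (nat_lit 76) (nat_lit 774945628) (nat_lit 151) (nat_lit 5) (nat_lit 158) (nat_lit 5) (nat_lit 152) (nat_lit 4) (nat_lit 323) (nat_lit 292) (nat_lit 285)) (XT.lf (nat_lit 0) (nat_lit 735871898) (nat_lit 456) (nat_lit 3250345617) (nat_lit 532) (nat_lit 4335206330) (nat_lit 138) (nat_lit 5) (nat_lit 144) (nat_lit 5) (nat_lit 145) (nat_lit 5) (nat_lit 324) (nat_lit 292) (nat_lit 284))) (XT.nd (nat_lit 78) (nat_lit 836) (nat_lit 0) (XT.lf (nat_lit 0) (nat_lit 962691706) (nat_lit 456) (nat_lit 6396167479) (nat_lit 76) (nat_lit 1142972102) (nat_lit 132) (nat_lit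 5) (nat_lit 138) (nat_lit 5) (nat_lit 133) (nat_lit 5) (nat_lit 325) (nat_lit 292) (nat_lit 283)) (XT.nd (nat_lit 78) (nat_lit 456) (nat_lit 0) (XT.lf (nat_lit 0) (nat_lit 3460848572) (nat_lit 380) (nat_lit 2907802644) (nat_lit 456) (nat_lit 2323498705) (nat_lit 127) (nat_lit 5) (nat_lit 132) (nat_lit 5) (nat_lit 133) (nat_lit 5) (nat_lit 326) (nat_lit 292) (nat_lit 282)) (XT.lf (nat_lit 0) (nat_lit 3014554390) (nat_lit 456) (nat_lit 4070549589) (nat_lit 76) (nat_lit 1808427580) (nat_lit 121) (nat_lit 5) (nat_lit 127) (nat_lit 5) (nat_lit 122) (nat_lit 5) (nat_lit 327) (nat_lit 292) (nat_lit 281))))) (XT.nd (nat_lit 234) (nat_lit 1292) (nat_lit 0) (XT.nd (nat_lit 78) (nat_lit 836) (nat_lit 0) (XT.lf (nat_lit 0) (nat_lit 6178971734) (nat_lit 380) (nat_lit 2335100764) (nat_lit 456) (nat_lit 592084926) (nat_lit 116) (nat_lit 5) (nat_lit 121) (nat_lit 5) (nat_lit 122) (nat_lit 5) (nat_lit 328)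 (nat_lit 292) (nat_lit 280)) (XT.nd (nat_lit 78) (nat_lit 456) (nat_lit 0) (XT.lf (nat_lit 0) (nat_lit 4807428667) (nat_lit 380) (nat_lit 1830666674) (nat_lit 76) (nat_lit 2691670639) (nat_lit 111) (nat_lit 5) (nat_lit 116) (nat_lit 5) (nat_lit 112) (nat_lit 5) (nat_lit 329) (nat_lit 292) (nat_lit 279)) (XT.lf (nat_lit 0) (nat_lit 831078432) (nat_lit 456) (nat_lit 755444965) (nat_lit 76) (nat_lit 7979268411) (nat_lit 105) (nat_lit 5) (nat_lit 111) (nat_lit 5) (nat_lit 106) (nat_lit 5) (nat_lit 330) (nat_lit 292) (nat_lit 278)))) (XT.nd (nat_lit 78) (nat_lit 684) (nat_lit 0) (XT.lf (nat_lit 0) (nat_lit 249787648) (nat_lit 304) (nat_lit 6079488038) (nat_lit 380) (nat_lit 3483997851) (nat_lit 97) (nat_lit 5) (nat_lit 101) (nat_lit 5) (nat_lit 102) (nat_lit 5) (nat_lit 331) (nat_lit 292) (nat_lit 277)) (XT.nd (nat_lit 78) (nat_lit 304) (nat_lit 0) (XT.lf (nat_lit 0) (nat_lit 1228943990) (nat_lit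 304) (nat_lit 719777631) (nat_lit 380) (nat_lit 8125158795) (nat_lit 92) (nat_lit 5) (nat_lit 96) (nat_lit 5) (nat_lit 97) (nat_lit 5) (nat_lit 332) (nat_lit 292) (nat_lit 276)) (XT.lf (nat_lit 0) (nat_lit 2107199795) (nat_lit 304) (nat_lit 5462636363) (nat_lit 380) (nat_lit 2777085315) (nat_lit 88) (nat_lit 5) (nat_lit 92) (nat_lit 5) (nat_lit 93) (nat_lit 5) (nat_lit 333) (nat_lit 292) (nat_lit 275)))))) (XT.nd (nat_lit 390) (nat_lit 1292) (nat_lit 0) (XT.nd (nat_lit 156) (nat_lit 836) (nat_lit 0) (XT.nd (nat_lit 78) (nat_lit 304) (nat_lit 0) (XT.lf (nat_lit 0) (nat_lit 2737553806) (nat_lit 304) (nat_lit 7716460367) (nat_lit 76) (nat_lit 180240723) (nat_lit 84) (nat_lit 5) (nat_lit 88) (nat_lit 5) (nat_lit 85) (nat_lit 5) (nat_lit 334) (nat_lit 292) (nat_lit 274)) (XT.lf (nat_lit 0) (nat_lit 3598594225) (nat_lit 304) (nat_lit 4878341165) (nat_lit 380) (nat_lit 2458092159) (nat_lit 80) (nat_lit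 5) (nat_lit 84) (nat_lit 5) (nat_lit 85) (nat_lit 5) (nat_lit 335) (nat_lit 292) (nat_lit 273))) (XT.nd (nat_lit 78) (nat_lit 532) (nat_lit 0) (XT.lf (nat_lit 0) (nat_lit 3153925223) (nat_lit 304) (nat_lit 7075042883) (nat_lit 76) (nat_lit 1022068387) (nat_lit 76) (nat_lit 5) (nat_lit 80) (nat_lit 5) (nat_lit 77) (nat_lit 5) (nat_lit 336) (nat_lit 292) (nat_lit 272)) (XT.nd (nat_lit 78) (nat_lit 304) (nat_lit 0) (XT.lf (nat_lit 0) (nat_lit 4599497252) (nat_lit 228) (nat_lit 4405515126) (nat_lit 304) (nat_lit 2576904140) (nat_lit 73) (nat_lit 5) (nat_lit 76) (nat_lit 5) (nat_lit 77) (nat_lit 5) (nat_lit 337) (nat_lit 292) (nat_lit 271)) (XT.lf (nat_lit 0) (nat_lit 3136948270) (nat_lit 304) (nat_lit 7052551371) (nat_lit 76) (nat_lit 1739572783) (nat_lit 69) (nat_lit 5) (nat_lit 73) (nat_lit 5) (nat_lit 70) (nat_lit 5) (nat_lit 338) (nat_lit 292) (nat_lit 270))))) (XT.nd (nat_lit 234) (nat_lit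 608) (nat_lit 0) (XT.nd (nat_lit 78) (nat_lit 456) (nat_lit 0) (XT.lf (nat_lit 0) (nat_lit 4963699700) (nat_lit 228) (nat_lit 4131879512) (nat_lit 304) (nat_lit 3196940489) (nat_lit 66) (nat_lit 5) (nat_lit 69) (nat_lit 5) (nat_lit 70) (nat_lit 5) (nat_lit 339) (nat_lit 292) (nat_lit 269)) (XT.nd (nat_lit 78) (nat_lit 228) (nat_lit 0) (XT.lf (nat_lit 0) (nat_lit 2618581360) (nat_lit 228) (nat_lit 7812154287) (nat_lit 76) (nat_lit 2242911416) (nat_lit 63) (nat_lit 5) (nat_lit 66) (nat_lit 5) (nat_lit 64) (nat_lit 5) (nat_lit 340) (nat_lit 292) (nat_lit 268)) (XT.lf (nat_lit 0) (nat_lit 4518847232) (nat_lit 228) (nat_lit 4156447458) (nat_lit 304) (nat_lit 4397152520) (nat_lit 60) (nat_lit 5) (nat_lit 63) (nat_lit 5) (nat_lit 64) (nat_lit 5) (nat_lit 341) (nat_lit 292) (nat_lit 267)))) (XT.nd (nat_lit 78) (nat_lit 380) (nat_lit 0) (XT.lf (nat_lit 0) (nat_lit 1514567750) (nat_lit 228) (nat_lit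 9546210893) (nat_lit 76) (nat_lit 2429989876) (nat_lit 57) (nat_lit 5) (nat_lit 60) (nat_lit 5) (nat_lit 58) (nat_lit 5) (nat_lit 342) (nat_lit 292) (nat_lit 266)) (XT.nd (nat_lit 78) (nat_lit 152) (nat_lit 0) (XT.lf (nat_lit 0) (nat_lit 3061312826) (nat_lit 228) (nat_lit 4592340631) (nat_lit 304) (nat_lit 6274419366) (nat_lit 54) (nat_lit 5) (nat_lit 57) (nat_lit 5) (nat_lit 58) (nat_lit 5) (nat_lit 343) (nat_lit 292) (nat_lit 265)) (XT.lf (nat_lit 0) (nat_lit 1902582801) (nat_lit 152) (nat_lit 12200937064) (nat_lit 228) (nat_lit 283659678) (nat_lit 52) (nat_lit 5) (nat_lit 54) (nat_lit 5) (nat_lit 55) (nat_lit 4) (nat_lit 344) (nat_lit 292) (nat_lit 264))))))) (XT.nd (nat_lit 858) (nat_lit 1064) (nat_lit 0) (XT.nd (nat_lit 390) (nat_lit 760) (nat_lit 0) (XT.nd (nat_lit 156) (nat_lit 532) (nat_lit 0) (XT.nd (nat_lit 78) (nat_lit 0) (nat_lit 0) (XT.lf (nat_lit 0) (nat_lit 350221521) (nat_lit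 152) (nat_lit 5570008772) (nat_lit 228) (nat_lit 8946403092) (nat_lit 49) (nat_lit 5) (nat_lit 51) (nat_lit 5) (nat_lit 52) (nat_lit 5) (nat_lit 345) (nat_lit 292) (nat_lit 263)) (XT.lf (nat_lit 0) (nat_lit 12443135689) (nat_lit 228) (nat_lit 1515686615) (nat_lit 76) (nat_lit 1410758524) (nat_lit 49) (nat_lit 5) (nat_lit 52) (nat_lit 5) (nat_lit 50) (nat_lit 4) (nat_lit 346) (nat_lit 292) (nat_lit 262))) (XT.nd (nat_lit 78) (nat_lit 304) (nat_lit 0) (XT.lf (nat_lit 0) (nat_lit 3378892790) (nat_lit 228) (nat_lit 3823430069) (nat_lit 76) (nat_lit 8692897579) (nat_lit 46) (nat_lit 5) (nat_lit 49) (nat_lit 5) (nat_lit 47) (nat_lit 5) (nat_lit 347) (nat_lit 292) (nat_lit 261)) (XT.nd (nat_lit 78) (nat_lit 152) (nat_lit 0) (XT.lf (nat_lit 0) (nat_lit 9881163309) (nat_lit 152) (nat_lit 49354951) (nat_lit 228) (nat_lit 6516048526) (nat_lit 44) (nat_lit 5) (nat_lit 46) (nat_lit 5) (nat_lit 47) (nat_lit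 5) (nat_lit 348) (nat_lit 292) (nat_lit 260)) (XT.lf (nat_lit 0) (nat_lit 7192400995) (nat_lit 152) (nat_lit 9681151206) (nat_lit 228) (nat_lit 150051835) (nat_lit 42) (nat_lit 5) (nat_lit 44) (nat_lit 5) (nat_lit 45) (nat_lit 4) (nat_lit 349) (nat_lit 292) (nat_lit 259))))) (XT.nd (nat_lit 234) (nat_lit 304) (nat_lit 0) (XT.nd (nat_lit 78) (nat_lit 228) (nat_lit 0) (XT.lf (nat_lit 0) (nat_lit 3962237669) (nat_lit 152) (nat_lit 2437074095) (nat_lit 228) (nat_lit 11228555343) (nat_lit 39) (nat_lit 5) (nat_lit 41) (nat_lit 5) (nat_lit 42) (nat_lit 5) (nat_lit 350) (nat_lit 292) (nat_lit 258)) (XT.nd (nat_lit 78) (nat_lit 76) (nat_lit 0) (XT.lf (nat_lit 0) (nat_lit 146348440) (nat_lit 152) (nat_lit 13168546879) (nat_lit 228) (nat_lit 4946181606) (nat_lit 37) (nat_lit 5) (nat_lit 39) (nat_lit 5) (nat_lit 40) (nat_lit 4) (nat_lit 351) (nat_lit 292) (nat_lit 257)) (XT.lf (nat_lit 0) (nat_lit 1675677443)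 (nat_lit 228) (nat_lit 4221462835) (nat_lit 76) (nat_lit 13026635204) (nat_lit 36) (nat_lit 5) (nat_lit 39) (nat_lit 5) (nat_lit 37) (nat_lit 5) (nat_lit 352) (nat_lit 292) (nat_lit 256)))) (XT.nd (nat_lit 78) (nat_lit 152) (nat_lit 0) (XT.lf (nat_lit 0) (nat_lit 8540151491) (nat_lit 228) (nat_lit 9300699276) (nat_lit 76) (nat_lit 1776904316) (nat_lit 34) (nat_lit 5) (nat_lit 37) (nat_lit 5) (nat_lit 35) (nat_lit 4) (nat_lit 353) (nat_lit 292) (nat_lit 255)) (XT.nd (nat_lit 78) (nat_lit 76) (nat_lit 0) (XT.lf (nat_lit 0) (nat_lit 5186573334) (nat_lit 76) (nat_lit 10613132875) (nat_lit 152) (nat_lit 4545200106) (nat_lit 33) (nat_lit 5) (nat_lit 34) (nat_lit 5) (nat_lit 35) (nat_lit 4) (nat_lit 354) (nat_lit 292) (nat_lit 254)) (XT.lf (nat_lit 0) (nat_lit 2266102007) (nat_lit 152) (nat_lit 713270553) (nat_lit 76) (nat_lit 18128478629) (nat_lit 32) (nat_lit 5) (nat_lit 34) (nat_lit 5) (nat_lit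 33) (nat_lit 5) (nat_lit 355) (nat_lit 292) (nat_lit 253)))))) (XT.nd (nat_lit 468) (nat_lit 532) (nat_lit 0) (XT.nd (nat_lit 234) (nat_lit 228) (nat_lit 0) (XT.nd (nat_lit 78) (nat_lit 152) (nat_lit 0) (XT.lf (nat_lit 0) (nat_lit 9419443633) (nat_lit 228) (nat_lit 7432881607) (nat_lit 76) (nat_lit 5052428698) (nat_lit 30) (nat_lit 5) (nat_lit 33) (nat_lit 5) (nat_lit 31) (nat_lit 4) (nat_lit 356) (nat_lit 292) (nat_lit 252)) (XT.nd (nat_lit 78) (nat_lit 76) (nat_lit 0) (XT.lf (nat_lit 0) (nat_lit 7642979964) (nat_lit 76) (nat_lit 9306126281) (nat_lit 152) (nat_lit 5791859748) (nat_lit 29) (nat_lit 5) (nat_lit 30) (nat_lit 5) (nat_lit 31) (nat_lit 4) (nat_lit 357) (nat_lit 292) (nat_lit 251)) (XT.lf (nat_lit 0) (nat_lit 1199048370) (nat_lit 152) (nat_lit 164352974) (nat_lit 76) (nat_lit 22255645516) (nat_lit 28) (nat_lit 5) (nat_lit 30) (nat_lit 5) (nat_lit 29) (nat_lit 5) (nat_lit 358) (nat_lit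 292) (nat_lit 250)))) (XT.nd (nat_lit 78) (nat_lit 76) (nat_lit 0) (XT.lf (nat_lit 0) (nat_lit 8553254121) (nat_lit 228) (nat_lit 8999010495) (nat_lit 76) (nat_lit 6983061644) (nat_lit 26) (nat_lit 5) (nat_lit 29) (nat_lit 5) (nat_lit 27) (nat_lit 4) (nat_lit 359) (nat_lit 292) (nat_lit 249)) (XT.nd (nat_lit 78) (nat_lit 0) (nat_lit 0) (XT.lf (nat_lit 0) (nat_lit 6488272106) (nat_lit 76) (nat_lit 9780677902) (nat_lit 152) (nat_lit 9228676174) (nat_lit 25) (nat_lit 5) (nat_lit 26) (nat_lit 5) (nat_lit 27) (nat_lit 4) (nat_lit 360) (nat_lit 292) (nat_lit 248)) (XT.lf (nat_lit 0) (nat_lit 22789704051) (nat_lit 76) (nat_lit 1591881938) (nat_lit 152) (nat_lit 2126139450) (nat_lit 25) (nat_lit 5) (nat_lit 26) (nat_lit 5) (nat_lit 27) (nat_lit 4) (nat_lit 361) (nat_lit 292) (nat_lit 247))))) (XT.nd (nat_lit 234) (nat_lit 228) (nat_lit 0) (XT.nd (nat_lit 78) (nat_lit 76) (nat_lit 0) (XT.lf (nat_lit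 0) (nat_lit 5336573126) (nat_lit 228) (nat_lit 15248476735) (nat_lit 76) (nat_lit 6978487280) (nat_lit 22) (nat_lit 5) (nat_lit 25) (nat_lit 5) (nat_lit 23) (nat_lit 4) (nat_lit 362) (nat_lit 292) (nat_lit 246)) (XT.nd (nat_lit 78) (nat_lit 0) (nat_lit 0) (XT.lf (nat_lit 0) (nat_lit 385736427) (nat_lit 76) (nat_lit 12724958946) (nat_lit 152) (nat_lit 15561361882) (nat_lit 21) (nat_lit 5) (nat_lit 22) (nat_lit 5) (nat_lit 23) (nat_lit 4) (nat_lit 363) (nat_lit 292) (nat_lit 245)) (XT.lf (nat_lit 0) (nat_lit 16983947060) (nat_lit 76) (nat_lit 4372291903) (nat_lit 152) (nat_lit 8477298888) (nat_lit 21) (nat_lit 5) (nat_lit 22) (nat_lit 5) (nat_lit 23) (nat_lit 4) (nat_lit 364) (nat_lit 292) (nat_lit 244)))) (XT.nd (nat_lit 78) (nat_lit 152) (nat_lit 0) (XT.lf (nat_lit 0) (nat_lit 3248656138) (nat_lit 76) (nat_lit 26767620972) (nat_lit 76) (nat_lit 1036764020) (nat_lit 20) (nat_lit 4) (nat_lit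 21) (nat_lit 5) (nat_lit 21) (nat_lit 4) (nat_lit 365) (nat_lit 292) (nat_lit 243)) (XT.nd (nat_lit 78) (nat_lit 76) (nat_lit 0) (XT.lf (nat_lit 0) (nat_lit 6751474659) (nat_lit 152) (nat_lit 12148862815) (nat_lit 76) (nat_lit 13428005218) (nat_lit 19) (nat_lit 5) (nat_lit 21) (nat_lit 5) (nat_lit 20) (nat_lit 4) (nat_lit 366) (nat_lit 292) (nat_lit 242)) (XT.lf (nat_lit 0) (nat_lit 4238758705) (nat_lit 76) (nat_lit 10643376061) (nat_lit 152) (nat_lit 18785746438) (nat_lit 18) (nat_lit 5) (nat_lit 19) (nat_lit 5) (nat_lit 20) (nat_lit 4) (nat_lit 367) (nat_lit 292) (nat_lit 241))))))))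
noncomputable def xc35 : XT := (XT.nd (nat_lit 1794) (nat_lit 76) (nat_lit 0) (XT.nd (nat_lit 858) (nat_lit 380) (nat_lit 0) (XT.nd (nat_lit 390) (nat_lit 228) (nat_lit 0) (XT.nd (nat_lit 156) (nat_lit 152) (nat_lit 0) (XT.nd (nat_lit 78) (nat_lit 76) (nat_lit 0) (XT.lf (nat_lit 0) (nat_lit 21580234545) (nat_lit 76) (nat_lit 1899680248) (nat_lit 152) (nat_lit 11592676967) (nat_lit 18) (nat_lit 5) (nat_lit 19) (nat_lit 5) (nat_lit 20) (nat_lit 4) (nat_lit 368) (nat_lit 292) (nat_lit 240)) (XT.lf (nat_lit 0) (nat_lit 3117011252) (nat_lit 76) (nat_lit 29428619014) (nat_lit 76) (nat_lit 4000778305) (nat_lit 17) (nat_lit 4) (nat_lit 18) (nat_lit 5) (nat_lit 18) (nat_lit 4) (nat_lit 369) (nat_lit 292) (nat_lit 239))) (XT.nd (nat_lit 78) (nat_lit 76) (nat_lit 0) (XT.lf (nat_lit 0) (nat_lit 3992033685) (nat_lit 152) (nat_lit 17422656287) (nat_lit 76) (nat_lit 16675128350) (nat_lit 16) (nat_lit 5) (nat_lit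 18) (nat_lit 5) (nat_lit 17) (nat_lit 4) (nat_lit 370) (nat_lit 292) (nat_lit 238)) (XT.nd (nat_lit 78) (nat_lit 76) (nat_lit 0) (XT.lf (nat_lit 0) (nat_lit 12244761145) (nat_lit 152) (nat_lit 763566173) (nat_lit 76) (nat_lit 26702603052) (nat_lit 16) (nat_lit 5) (nat_lit 18) (nat_lit 5) (nat_lit 17) (nat_lit 4) (nat_lit 371) (nat_lit 292) (nat_lit 237)) (XT.lf (nat_lit 0) (nat_lit 16956885361) (nat_lit 76) (nat_lit 4061237614) (nat_lit 152) (nat_lit 20391745270) (nat_lit 15) (nat_lit 5) (nat_lit 16) (nat_lit 5) (nat_lit 17) (nat_lit 4) (nat_lit 372) (nat_lit 292) (nat_lit 236))))) (XT.nd (nat_lit 234) (nat_lit 76) (nat_lit 0) (XT.nd (nat_lit 78) (nat_lit 152) (nat_lit 0) (XT.lf (nat_lit 0) (nat_lit 30235573140) (nat_lit 152) (nat_lit 7766256373) (nat_lit 0) (nat_lit 5191770575) (nat_lit 15) (nat_lit 5) (nat_lit 17) (nat_lit 4) (nat_lit 15) (nat_lit 4) (nat_lit 373) (nat_lit 292) (nat_lit 235))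 (XT.nd (nat_lit 78) (nat_lit 76) (nat_lit 0) (XT.lf (nat_lit 0) (nat_lit 9809315188) (nat_lit 76) (nat_lit 30188642090) (nat_lit 76) (nat_lit 5066048621) (nat_lit 14) (nat_lit 4) (nat_lit 15) (nat_lit 5) (nat_lit 15) (nat_lit 4) (nat_lit 374) (nat_lit 292) (nat_lit 234)) (XT.lf (nat_lit 0) (nat_lit 3188243216) (nat_lit 152) (nat_lit 18725498695) (nat_lit 76) (nat_lit 25112353124) (nat_lit 13) (nat_lit 5) (nat_lit 15) (nat_lit 5) (nat_lit 14) (nat_lit 4) (nat_lit 375) (nat_lit 292) (nat_lit 233)))) (XT.nd (nat_lit 78) (nat_lit 76) (nat_lit 0) (XT.lf (nat_lit 0) (nat_lit 11703659851) (nat_lit 152) (nat_lit 1510668597) (nat_lit 76) (nat_lit 35871868014) (nat_lit 13) (nat_lit 5) (nat_lit 15) (nat_lit 5) (nat_lit 14) (nat_lit 4) (nat_lit 376) (nat_lit 292) (nat_lit 232)) (XT.nd (nat_lit 78) (nat_lit 0) (nat_lit 0) (XT.lf (nat_lit 0) (nat_lit 16807459299) (nat_lit 76) (nat_lit 3953437223) (nat_lit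 152) (nat_lit 30484932697) (nat_lit 12) (nat_lit 5) (nat_lit 13) (nat_lit 5) (nat_lit 14) (nat_lit 4) (nat_lit 377) (nat_lit 292) (nat_lit 231)) (XT.lf (nat_lit 0) (nat_lit 30297651775) (nat_lit 152) (nat_lit 17579466282) (nat_lit 0) (nat_lit 5635533219) (nat_lit 12) (nat_lit 5) (nat_lit 14) (nat_lit 4) (nat_lit 12) (nat_lit 4) (nat_lit 378) (nat_lit 292) (nat_lit 230)))))) (XT.nd (nat_lit 468) (nat_lit 152) (nat_lit 0) (XT.nd (nat_lit 234) (nat_lit 76) (nat_lit 0) (XT.nd (nat_lit 78) (nat_lit 76) (nat_lit 0) (XT.lf (nat_lit 0) (nat_lit 2599030) (nat_lit 76) (nat_lit 40306175853) (nat_lit 76) (nat_lit 15584120661) (nat_lit 11) (nat_lit 4) (nat_lit 12) (nat_lit 5) (nat_lit 12) (nat_lit 4) (nat_lit 379) (nat_lit 292) (nat_lit 229)) (XT.nd (nat_lit 78) (nat_lit 76) (nat_lit 0) (XT.lf (nat_lit 0) (nat_lit 18753486737) (nat_lit 76) (nat_lit 32206807239) (nat_lit 76) (nat_lit 7427669537) (nat_lit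 11) (nat_lit 4) (nat_lit 12) (nat_lit 5) (nat_lit 12) (nat_lit 4) (nat_lit 380) (nat_lit 292) (nat_lit 228)) (XT.lf (nat_lit 0) (nat_lit 1074863954) (nat_lit 152) (nat_lit 22651528170) (nat_lit 76) (nat_lit 37282257988) (nat_lit 10) (nat_lit 5) (nat_lit 12) (nat_lit 5) (nat_lit 11) (nat_lit 4) (nat_lit 381) (nat_lit 292) (nat_lit 227)))) (XT.nd (nat_lit 78) (nat_lit 76) (nat_lit 0) (XT.lf (nat_lit 0) (nat_lit 9812659410) (nat_lit 152) (nat_lit 4965578913) (nat_lit 76) (nat_lit 48981019835) (nat_lit 10) (nat_lit 5) (nat_lit 12) (nat_lit 5) (nat_lit 11) (nat_lit 4) (nat_lit 382) (nat_lit 292) (nat_lit 226)) (XT.nd (nat_lit 78) (nat_lit 0) (nat_lit 0) (XT.lf (nat_lit 0) (nat_lit 13806290150) (nat_lit 76) (nat_lit 5277886049) (nat_lit 152) (nat_lit 47560321063) (nat_lit 9) (nat_lit 5) (nat_lit 10) (nat_lit 5) (nat_lit 11) (nat_lit 4) (nat_lit 383) (nat_lit 292) (nat_lit 225)) (XT.lf (nat_lit 0)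 (nat_lit 28880940740) (nat_lit 152) (nat_lit 36164203532) (nat_lit 0) (nat_lit 4627009228) (nat_lit 9) (nat_lit 5) (nat_lit 11) (nat_lit 4) (nat_lit 9) (nat_lit 4) (nat_lit 384) (nat_lit 292) (nat_lit 224))))) (XT.nd (nat_lit 234) (nat_lit 76) (nat_lit 0) (XT.nd (nat_lit 78) (nat_lit 76) (nat_lit 0) (XT.lf (nat_lit 0) (nat_lit 39187380651) (nat_lit 152) (nat_lit 18773195677) (nat_lit 0) (nat_lit 14890026187) (nat_lit 9) (nat_lit 5) (nat_lit 11) (nat_lit 4) (nat_lit 9) (nat_lit 4) (nat_lit 385) (nat_lit 292) (nat_lit 223)) (XT.nd (nat_lit 78) (nat_lit 76) (nat_lit 0) (XT.lf (nat_lit 0) (nat_lit 49977300806) (nat_lit 152) (nat_lit 573042118) (nat_lit 0) (nat_lit 25638591150) (nat_lit 9) (nat_lit 5) (nat_lit 11) (nat_lit 4) (nat_lit 9) (nat_lit 4) (nat_lit 386) (nat_lit 292) (nat_lit 222)) (XT.lf (nat_lit 0) (nat_lit 18847370935) (nat_lit 76) (nat_lit 42610193014) (nat_lit 76) (nat_lit 18232097461)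 (nat_lit 8) (nat_lit 4) (nat_lit 9) (nat_lit 5) (nat_lit 9) (nat_lit 4) (nat_lit 387) (nat_lit 292) (nat_lit 221)))) (XT.nd (nat_lit 78) (nat_lit 76) (nat_lit 0) (XT.lf (nat_lit 0) (nat_lit 39194900298) (nat_lit 76) (nat_lit 34293420362) (nat_lit 76) (nat_lit 9877814430) (nat_lit 8) (nat_lit 4) (nat_lit 9) (nat_lit 5) (nat_lit 9) (nat_lit 4) (nat_lit 388) (nat_lit 292) (nat_lit 220)) (XT.nd (nat_lit 78) (nat_lit 76) (nat_lit 0) (XT.lf (nat_lit 0) (nat_lit 60506587808) (nat_lit 76) (nat_lit 25586009729) (nat_lit 76) (nat_lit 1134679627) (nat_lit 8) (nat_lit 4) (nat_lit 9) (nat_lit 5) (nat_lit 9) (nat_lit 4) (nat_lit 389) (nat_lit 292) (nat_lit 219)) (XT.lf (nat_lit 0) (nat_lit 7861661455) (nat_lit 152) (nat_lit 8526180365) (nat_lit 76) (nat_lit 74892126755) (nat_lit 7) (nat_lit 5) (nat_lit 9) (nat_lit 5) (nat_lit 8) (nat_lit 4) (nat_lit 390) (nat_lit 292) (nat_lit 218))))))) (XT.nd (nat_lit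 41496) (nat_lit 0) (nat_lit 6536) (XT.nd (nat_lit 41028) (nat_lit 0) (nat_lit 12008) (XT.nd (nat_lit 234) (nat_lit 0) (nat_lit 0) (XT.nd (nat_lit 78) (nat_lit 0) (nat_lit 0) (XT.lf (nat_lit 0) (nat_lit 10727141532) (nat_lit 76) (nat_lit 6634876954) (nat_lit 152) (nat_lit 78170612745) (nat_lit 6) (nat_lit 5) (nat_lit 7) (nat_lit 5) (nat_lit 8) (nat_lit 4) (nat_lit 391) (nat_lit 292) (nat_lit 217)) (XT.lf (nat_lit 0) (nat_lit 27435574879) (nat_lit 152) (nat_lit 68957442968) (nat_lit 0) (nat_lit 3601967232) (nat_lit 6) (nat_lit 5) (nat_lit 8) (nat_lit 4) (nat_lit 6) (nat_lit 4) (nat_lit 392) (nat_lit 292) (nat_lit 216))) (XT.nd (nat_lit 40638) (nat_lit 0) (nat_lit 17024) (XT.lf (nat_lit 0) (nat_lit 49184366871) (nat_lit 152) (nat_lit 35118831701) (nat_lit 0) (nat_lit 25295049335) (nat_lit 6) (nat_lit 5) (nat_lit 8) (nat_lit 4) (nat_lit 6) (nat_lit 4) (nat_lit 394) (nat_lit 292) (nat_lit 214))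 (XT.nd (nat_lit 78) (nat_lit 1140) (nat_lit 0) (XT.lf (nat_lit 0) (nat_lit 1715868225) (nat_lit 988) (nat_lit 902022977) (nat_lit 988) (nat_lit 902022977) (nat_lit 245) (nat_lit 4) (nat_lit 258) (nat_lit 5) (nat_lit 258) (nat_lit 4) (nat_lit 314) (nat_lit 293) (nat_lit 293)) (XT.lf (nat_lit 0) (nat_lit 3587531597) (nat_lit 1140) (nat_lit 2751050325) (nat_lit 0) (nat_lit 792504355) (nat_lit 230) (nat_lit 5) (nat_lit 245) (nat_lit 4) (nat_lit 230) (nat_lit 4) (nat_lit 315) (nat_lit 293) (nat_lit 292))))) (XT.nd (nat_lit 234) (nat_lit 1748) (nat_lit 0) (XT.nd (nat_lit 78) (nat_lit 2052) (nat_lit 0) (XT.lf (nat_lit 0) (nat_lit 1786939564) (nat_lit 1216) (nat_lit 1829470632) (nat_lit 76) (nat_lit 3614470995) (nat_lit 214) (nat_lit 5) (nat_lit 230) (nat_lit 5) (nat_lit 215) (nat_lit 4) (nat_lit 316) (nat_lit 293) (nat_lit 291)) (XT.nd (nat_lit 78) (nat_lit 1216) (nat_lit 0) (XT.lf (nat_lit 0) (nat_lit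 6510695201) (nat_lit 836) (nat_lit 633553691) (nat_lit 912) (nat_lit 195645146) (nat_lit 203) (nat_lit 5) (nat_lit 214) (nat_lit 5) (nat_lit 215) (nat_lit 4) (nat_lit 317) (nat_lit 293) (nat_lit 290)) (XT.lf (nat_lit 0) (nat_lit 209829048) (nat_lit 532) (nat_lit 4870616497) (nat_lit 608) (nat_lit 2376572686) (nat_lit 187) (nat_lit 5) (nat_lit 194) (nat_lit 5) (nat_lit 195) (nat_lit 4) (nat_lit 318) (nat_lit 293) (nat_lit 289)))) (XT.nd (nat_lit 78) (nat_lit 1140) (nat_lit 0) (XT.lf (nat_lit 0) (nat_lit 1334221960) (nat_lit 532) (nat_lit 1508888966) (nat_lit 608) (nat_lit 4740220011) (nat_lit 179) (nat_lit 5) (nat_lit 186) (nat_lit 5) (nat_lit 187) (nat_lit 5) (nat_lit 319) (nat_lit 293) (nat_lit 288)) (XT.nd (nat_lit 78) (nat_lit 532) (nat_lit 0) (XT.lf (nat_lit 0) (nat_lit 428387707) (nat_lit 608) (nat_lit 5207585517) (nat_lit 76) (nat_lit 2082948654) (nat_lit 171) (nat_lit 5) (nat_lit 179)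 (nat_lit 5) (nat_lit 172) (nat_lit 5) (nat_lit 320) (nat_lit 293) (nat_lit 287)) (XT.lf (nat_lit 0) (nat_lit 3721189014) (nat_lit 532) (nat_lit 1921316275) (nat_lit 608) (nat_lit 2221042504) (nat_lit 164) (nat_lit 5) (nat_lit 171) (nat_lit 5) (nat_lit 172) (nat_lit 5) (nat_lit 321) (nat_lit 293) (nat_lit 286)))))) (XT.nd (nat_lit 468) (nat_lit 2204) (nat_lit 0) (XT.nd (nat_lit 234) (nat_lit 1748) (nat_lit 0) (XT.nd (nat_lit 78) (nat_lit 988) (nat_lit 0) (XT.lf (nat_lit 0) (nat_lit 2937822683) (nat_lit 532) (nat_lit 3045585715) (nat_lit 76) (nat_lit 2034409729) (nat_lit 157) (nat_lit 5) (nat_lit 164) (nat_lit 5) (nat_lit 158) (nat_lit 5) (nat_lit 322) (nat_lit 293) (nat_lit 285)) (XT.nd (nat_lit 78) (nat_lit 456) (nat_lit 0) (XT.lf (nat_lit 0) (nat_lit 31243857) (nat_lit 532) (nat_lit 1916276830) (nat_lit 76) (nat_lit 6234643082) (nat_lit 150) (nat_lit 5) (nat_lit 157) (nat_lit 5) (nat_lit 151)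 (nat_lit 5) (nat_lit 323) (nat_lit 293) (nat_lit 284)) (XT.lf (nat_lit 0) (nat_lit 5209516982) (nat_lit 532) (nat_lit 791653664) (nat_lit 76) (nat_lit 2354727688) (nat_lit 144) (nat_lit 5) (nat_lit 151) (nat_lit 5) (nat_lit 145) (nat_lit 5) (nat_lit 324) (nat_lit 293) (nat_lit 283)))) (XT.nd (nat_lit 78) (nat_lit 836) (nat_lit 0) (XT.lf (nat_lit 0) (nat_lit 362356343) (nat_lit 380) (nat_lit 1627753550) (nat_lit 456) (nat_lit 6550078948) (nat_lit 132) (nat_lit 5) (nat_lit 137) (nat_lit 5) (nat_lit 138) (nat_lit 5) (nat_lit 325) (nat_lit 293) (nat_lit 282)) (XT.nd (nat_lit 78) (nat_lit 456) (nat_lit 0) (XT.lf (nat_lit 0) (nat_lit 1526828957) (nat_lit 380) (nat_lit 5736074661) (nat_lit 456) (nat_lit 1471674679) (nat_lit 127) (nat_lit 5) (nat_lit 132) (nat_lit 5) (nat_lit 133) (nat_lit 5) (nat_lit 326) (nat_lit 293) (nat_lit 281)) (XT.lf (nat_lit 0) (nat_lit 2686033797) (nat_lit 380) (nat_lit 1028826618)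 (nat_lit 456) (nat_lit 5224970879) (nat_lit 121) (nat_lit 5) (nat_lit 126) (nat_lit 5) (nat_lit 127) (nat_lit 5) (nat_lit 327) (nat_lit 293) (nat_lit 280))))) (XT.nd (nat_lit 234) (nat_lit 988) (nat_lit 0) (XT.nd (nat_lit 78) (nat_lit 836) (nat_lit 0) (XT.lf (nat_lit 0) (nat_lit 3832437526) (nat_lit 380) (nat_lit 5256133363) (nat_lit 456) (nat_lit 67727294) (nat_lit 116) (nat_lit 5) (nat_lit 121) (nat_lit 5) (nat_lit 122) (nat_lit 5) (nat_lit 328) (nat_lit 293) (nat_lit 279)) (XT.nd (nat_lit 78) (nat_lit 456) (nat_lit 0) (XT.lf (nat_lit 0) (nat_lit 4948656585) (nat_lit 304) (nat_lit 230671256) (nat_lit 380) (nat_lit 4204756235) (nat_lit 111) (nat_lit 5) (nat_lit 115) (nat_lit 5) (nat_lit 116) (nat_lit 5) (nat_lit 329) (nat_lit 293) (nat_lit 278)) (XT.lf (nat_lit 0) (nat_lit 1024068384) (nat_lit 456) (nat_lit 3596420167) (nat_lit 76) (nat_lit 5003138693) (nat_lit 105) (nat_lit 5) (nat_lit 111)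 (nat_lit 5) (nat_lit 106) (nat_lit 5) (nat_lit 330) (nat_lit 293) (nat_lit 277)))) (XT.nd (nat_lit 78) (nat_lit 684) (nat_lit 0) (XT.lf (nat_lit 0) (nat_lit 6374924483) (nat_lit 380) (nat_lit 2809162272) (nat_lit 76) (nat_lit 691496839) (nat_lit 101) (nat_lit 5) (nat_lit 106) (nat_lit 5) (nat_lit 102) (nat_lit 5) (nat_lit 331) (nat_lit 293) (nat_lit 276)) (XT.nd (nat_lit 78) (nat_lit 304) (nat_lit 0) (XT.lf (nat_lit 0) (nat_lit 1807207161) (nat_lit 380) (nat_lit 2098029979) (nat_lit 76) (nat_lit 6234763775) (nat_lit 96) (nat_lit 5) (nat_lit 101) (nat_lit 5) (nat_lit 97) (nat_lit 5) (nat_lit 332) (nat_lit 293) (nat_lit 275)) (XT.lf (nat_lit 0) (nat_lit 7273647396) (nat_lit 380) (nat_lit 1462548307) (nat_lit 76) (nat_lit 1681534391) (nat_lit 92) (nat_lit 5) (nat_lit 97) (nat_lit 5) (nat_lit 93) (nat_lit 5) (nat_lit 333) (nat_lit 293) (nat_lit 274))))))))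
noncomputable def xc36 : XT := (XT.nd (nat_lit 1716) (nat_lit 1596) (nat_lit 0) (XT.nd (nat_lit 858) (nat_lit 1596) (nat_lit 0) (XT.nd (nat_lit 390) (nat_lit 1368) (nat_lit 0) (XT.nd (nat_lit 156) (nat_lit 912) (nat_lit 0) (XT.nd (nat_lit 78) (nat_lit 228) (nat_lit 0) (XT.lf (nat_lit 0) (nat_lit 2252336395) (nat_lit 380) (nat_lit 925872769) (nat_lit 76) (nat_lit 7530765916) (nat_lit 87) (nat_lit 5) (nat_lit 92) (nat_lit 5) (nat_lit 88) (nat_lit 5) (nat_lit 334) (nat_lit 293) (nat_lit 273)) (XT.lf (nat_lit 0) (nat_lit 7838673145) (nat_lit 304) (nat_lit 498669597) (nat_lit 76) (nat_lit 2677038511) (nat_lit 84) (nat_lit 5) (nat_lit 88) (nat_lit 5) (nat_lit 85) (nat_lit 5) (nat_lit 335) (nat_lit 293) (nat_lit 272))) (XT.nd (nat_lit 78) (nat_lit 532) (nat_lit 0) (XT.lf (nat_lit 0) (nat_lit 2318208833) (nat_lit 380) (nat_lit 193826951) (nat_lit 76) (nat_lit 8822563465) (nat_lit 79) (nat_lit 5) (nat_lit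 84) (nat_lit 5) (nat_lit 80) (nat_lit 5) (nat_lit 336) (nat_lit 293) (nat_lit 271)) (XT.nd (nat_lit 78) (nat_lit 304) (nat_lit 0) (XT.lf (nat_lit 0) (nat_lit 8024271851) (nat_lit 304) (nat_lit 40567776) (nat_lit 76) (nat_lit 3605027512) (nat_lit 76) (nat_lit 5) (nat_lit 80) (nat_lit 5) (nat_lit 77) (nat_lit 5) (nat_lit 337) (nat_lit 293) (nat_lit 270)) (XT.lf (nat_lit 0) (nat_lit 1951580053) (nat_lit 304) (nat_lit 35281323) (nat_lit 76) (nat_lit 10034630130) (nat_lit 72) (nat_lit 5) (nat_lit 76) (nat_lit 5) (nat_lit 73) (nat_lit 5) (nat_lit 338) (nat_lit 293) (nat_lit 269))))) (XT.nd (nat_lit 234) (nat_lit 684) (nat_lit 0) (XT.nd (nat_lit 78) (nat_lit 456) (nat_lit 0) (XT.lf (nat_lit 0) (nat_lit 7772022043) (nat_lit 304) (nat_lit 232749413) (nat_lit 76) (nat_lit 4384345700) (nat_lit 69) (nat_lit 5) (nat_lit 73) (nat_lit 5) (nat_lit 70) (nat_lit 5) (nat_lit 339) (nat_lit 293) (nat_lit 268))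 (XT.nd (nat_lit 78) (nat_lit 152) (nat_lit 0) (XT.lf (nat_lit 0) (nat_lit 1085478594) (nat_lit 304) (nat_lit 607147362) (nat_lit 76) (nat_lit 11082278159) (nat_lit 65) (nat_lit 5) (nat_lit 69) (nat_lit 5) (nat_lit 66) (nat_lit 5) (nat_lit 340) (nat_lit 293) (nat_lit 267)) (XT.lf (nat_lit 0) (nat_lit 7008916087) (nat_lit 228) (nat_lit 1245506501) (nat_lit 76) (nat_lit 4923308752) (nat_lit 63) (nat_lit 5) (nat_lit 66) (nat_lit 5) (nat_lit 64) (nat_lit 5) (nat_lit 341) (nat_lit 293) (nat_lit 266)))) (XT.nd (nat_lit 78) (nat_lit 456) (nat_lit 0) (XT.lf (nat_lit 0) (nat_lit 11502616762) (nat_lit 228) (nat_lit 1727979849) (nat_lit 304) (nat_lit 370097409) (nat_lit 60) (nat_lit 5) (nat_lit 63) (nat_lit 5) (nat_lit 64) (nat_lit 5) (nat_lit 342) (nat_lit 293) (nat_lit 265)) (XT.nd (nat_lit 78) (nat_lit 228) (nat_lit 0) (XT.lf (nat_lit 0) (nat_lit 5645088829) (nat_lit 228) (nat_lit 3279942129) (nat_lit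 76) (nat_lit 5117033098) (nat_lit 57) (nat_lit 5) (nat_lit 60) (nat_lit 5) (nat_lit 58) (nat_lit 5) (nat_lit 343) (nat_lit 293) (nat_lit 264)) (XT.lf (nat_lit 0) (nat_lit 9764654429) (nat_lit 228) (nat_lit 2196354287) (nat_lit 304) (nat_lit 2544204611) (nat_lit 54) (nat_lit 5) (nat_lit 57) (nat_lit 5) (nat_lit 58) (nat_lit 5) (nat_lit 344) (nat_lit 293) (nat_lit 263)))))) (XT.nd (nat_lit 390) (nat_lit 836) (nat_lit 0) (XT.nd (nat_lit 156) (nat_lit 380) (nat_lit 0) (XT.nd (nat_lit 78) (nat_lit 152) (nat_lit 0) (XT.lf (nat_lit 0) (nat_lit 3571110194) (nat_lit 228) (nat_lit 6573828601) (nat_lit 76) (nat_lit 4844383197) (nat_lit 51) (nat_lit 5) (nat_lit 54) (nat_lit 5) (nat_lit 52) (nat_lit 5) (nat_lit 345) (nat_lit 293) (nat_lit 262)) (XT.lf (nat_lit 0) (nat_lit 6712625193) (nat_lit 152) (nat_lit 3243789389) (nat_lit 228) (nat_lit 5540004154) (nat_lit 49) (nat_lit 5) (nat_lit 51) (nat_lit 5) (nat_lit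 52) (nat_lit 5) (nat_lit 346) (nat_lit 293) (nat_lit 261))) (XT.nd (nat_lit 78) (nat_lit 152) (nat_lit 0) (XT.lf (nat_lit 0) (nat_lit 654771704) (nat_lit 228) (nat_lit 11408446205) (nat_lit 76) (nat_lit 3964460660) (nat_lit 46) (nat_lit 5) (nat_lit 49) (nat_lit 5) (nat_lit 47) (nat_lit 5) (nat_lit 347) (nat_lit 293) (nat_lit 260)) (XT.nd (nat_lit 78) (nat_lit 0) (nat_lit 0) (XT.lf (nat_lit 0) (nat_lit 2047771424) (nat_lit 152) (nat_lit 5027688988) (nat_lit 228) (nat_lit 9507511340) (nat_lit 44) (nat_lit 5) (nat_lit 46) (nat_lit 5) (nat_lit 47) (nat_lit 5) (nat_lit 348) (nat_lit 293) (nat_lit 259)) (XT.lf (nat_lit 0) (nat_lit 13847248005) (nat_lit 228) (nat_lit 963931067) (nat_lit 76) (nat_lit 2353985159) (nat_lit 44) (nat_lit 5) (nat_lit 47) (nat_lit 5) (nat_lit 45) (nat_lit 4) (nat_lit 349) (nat_lit 293) (nat_lit 258))))) (XT.nd (nat_lit 234) (nat_lit 304) (nat_lit 0) (XT.nd (nat_lit 78) (nat_lit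 304) (nat_lit 0) (XT.lf (nat_lit 0) (nat_lit 3192547208) (nat_lit 228) (nat_lit 4494312430) (nat_lit 76) (nat_lit 10086519201) (nat_lit 41) (nat_lit 5) (nat_lit 44) (nat_lit 5) (nat_lit 42) (nat_lit 5) (nat_lit 350) (nat_lit 293) (nat_lit 257)) (XT.nd (nat_lit 78) (nat_lit 152) (nat_lit 0) (XT.lf (nat_lit 0) (nat_lit 9820257848) (nat_lit 152) (nat_lit 141070940) (nat_lit 228) (nat_lit 8449679638) (nat_lit 39) (nat_lit 5) (nat_lit 41) (nat_lit 5) (nat_lit 42) (nat_lit 5) (nat_lit 351) (nat_lit 293) (nat_lit 256)) (XT.lf (nat_lit 0) (nat_lit 5724193991) (nat_lit 152) (nat_lit 11419796614) (nat_lit 228) (nat_lit 1934296324) (nat_lit 37) (nat_lit 5) (nat_lit 39) (nat_lit 5) (nat_lit 40) (nat_lit 4) (nat_lit 352) (nat_lit 293) (nat_lit 255)))) (XT.nd (nat_lit 78) (nat_lit 76) (nat_lit 0) (XT.lf (nat_lit 0) (nat_lit 952763101) (nat_lit 152) (nat_lit 3859281271) (nat_lit 228) (nat_lit 14965470153)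 (nat_lit 34) (nat_lit 5) (nat_lit 36) (nat_lit 5) (nat_lit 37) (nat_lit 5) (nat_lit 353) (nat_lit 293) (nat_lit 254)) (XT.nd (nat_lit 78) (nat_lit 76) (nat_lit 0) (XT.lf (nat_lit 0) (nat_lit 11937533394) (nat_lit 228) (nat_lit 4485339096) (nat_lit 76) (nat_lit 4085828413) (nat_lit 34) (nat_lit 5) (nat_lit 37) (nat_lit 5) (nat_lit 35) (nat_lit 4) (nat_lit 354) (nat_lit 293) (nat_lit 253)) (XT.lf (nat_lit 0) (nat_lit 10574935679) (nat_lit 76) (nat_lit 8892987182) (nat_lit 152) (nat_lit 1807090682) (nat_lit 33) (nat_lit 5) (nat_lit 34) (nat_lit 5) (nat_lit 35) (nat_lit 4) (nat_lit 355) (nat_lit 293) (nat_lit 252))))))) (XT.nd (nat_lit 858) (nat_lit 532) (nat_lit 0) (XT.nd (nat_lit 390) (nat_lit 532) (nat_lit 0) (XT.nd (nat_lit 156) (nat_lit 304) (nat_lit 0) (XT.nd (nat_lit 78) (nat_lit 0) (nat_lit 0) (XT.lf (nat_lit 0) (nat_lit 4275124054) (nat_lit 152) (nat_lit 914429961) (nat_lit 228) (nat_lit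 16888653798) (nat_lit 30) (nat_lit 5) (nat_lit 32) (nat_lit 5) (nat_lit 33) (nat_lit 5) (nat_lit 356) (nat_lit 293) (nat_lit 251)) (XT.lf (nat_lit 0) (nat_lit 12594076355) (nat_lit 228) (nat_lit 2944653845) (nat_lit 76) (nat_lit 7379454927) (nat_lit 30) (nat_lit 5) (nat_lit 33) (nat_lit 5) (nat_lit 31) (nat_lit 4) (nat_lit 357) (nat_lit 293) (nat_lit 250))) (XT.nd (nat_lit 78) (nat_lit 228) (nat_lit 0) (XT.lf (nat_lit 0) (nat_lit 12745693554) (nat_lit 76) (nat_lit 7671159757) (nat_lit 152) (nat_lit 3381888711) (nat_lit 29) (nat_lit 5) (nat_lit 30) (nat_lit 5) (nat_lit 31) (nat_lit 4) (nat_lit 358) (nat_lit 293) (nat_lit 249)) (XT.nd (nat_lit 78) (nat_lit 0) (nat_lit 0) (XT.lf (nat_lit 0) (nat_lit 3828862506) (nat_lit 228) (nat_lit 20267570394) (nat_lit 76) (nat_lit 625856937) (nat_lit 26) (nat_lit 5) (nat_lit 29) (nat_lit 5) (nat_lit 27) (nat_lit 4) (nat_lit 359) (nat_lit 293) (nat_lit 248))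 (XT.lf (nat_lit 0) (nat_lit 11443137282) (nat_lit 228) (nat_lit 4977811694) (nat_lit 76) (nat_lit 9266692683) (nat_lit 26) (nat_lit 5) (nat_lit 29) (nat_lit 5) (nat_lit 27) (nat_lit 4) (nat_lit 360) (nat_lit 293) (nat_lit 247))))) (XT.nd (nat_lit 234) (nat_lit 228) (nat_lit 0) (XT.nd (nat_lit 78) (nat_lit 228) (nat_lit 0) (XT.lf (nat_lit 0) (nat_lit 11155670439) (nat_lit 76) (nat_lit 8313446357) (nat_lit 152) (nat_lit 7231232640) (nat_lit 25) (nat_lit 5) (nat_lit 26) (nat_lit 5) (nat_lit 27) (nat_lit 4) (nat_lit 361) (nat_lit 293) (nat_lit 246)) (XT.nd (nat_lit 78) (nat_lit 0) (nat_lit 0) (XT.lf (nat_lit 0) (nat_lit 112029932) (nat_lit 228) (nat_lit 27460258175) (nat_lit 76) (nat_lit 191925453) (nat_lit 22) (nat_lit 5) (nat_lit 25) (nat_lit 5) (nat_lit 23) (nat_lit 4) (nat_lit 362) (nat_lit 293) (nat_lit 245)) (XT.lf (nat_lit 0) (nat_lit 7846862004) (nat_lit 228) (nat_lit 11898791924) (nat_lit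 76) (nat_lit 9128266223) (nat_lit 22) (nat_lit 5) (nat_lit 25) (nat_lit 5) (nat_lit 23) (nat_lit 4) (nat_lit 363) (nat_lit 293) (nat_lit 244)))) (XT.nd (nat_lit 78) (nat_lit 152) (nat_lit 0) (XT.lf (nat_lit 0) (nat_lit 4399259127) (nat_lit 76) (nat_lit 11541994835) (nat_lit 152) (nat_lit 14098688736) (nat_lit 21) (nat_lit 5) (nat_lit 22) (nat_lit 5) (nat_lit 23) (nat_lit 4) (nat_lit 364) (nat_lit 293) (nat_lit 243)) (XT.nd (nat_lit 78) (nat_lit 152) (nat_lit 0) (XT.lf (nat_lit 0) (nat_lit 21637178584) (nat_lit 76) (nat_lit 2858323586) (nat_lit 152) (nat_lit 6767124556) (nat_lit 21) (nat_lit 5) (nat_lit 22) (nat_lit 5) (nat_lit 23) (nat_lit 4) (nat_lit 365) (nat_lit 293) (nat_lit 242)) (XT.lf (nat_lit 0) (nat_lit 977720823) (nat_lit 152) (nat_lit 25403418839) (nat_lit 76) (nat_lit 6163104054) (nat_lit 19) (nat_lit 5) (nat_lit 21) (nat_lit 5) (nat_lit 20) (nat_lit 4) (nat_lit 366) (nat_lit 293)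 (nat_lit 241)))))) (XT.nd (nat_lit 468) (nat_lit 228) (nat_lit 0) (XT.nd (nat_lit 234) (nat_lit 228) (nat_lit 0) (XT.nd (nat_lit 78) (nat_lit 76) (nat_lit 0) (XT.lf (nat_lit 0) (nat_lit 9036744100) (nat_lit 152) (nat_lit 9155619202) (nat_lit 76) (nat_lit 15693574239) (nat_lit 19) (nat_lit 5) (nat_lit 21) (nat_lit 5) (nat_lit 20) (nat_lit 4) (nat_lit 367) (nat_lit 293) (nat_lit 240)) (XT.nd (nat_lit 78) (nat_lit 0) (nat_lit 0) (XT.lf (nat_lit 0) (nat_lit 7948170431) (nat_lit 76) (nat_lit 9566639224) (nat_lit 152) (nat_lit 17779435789) (nat_lit 18) (nat_lit 5) (nat_lit 19) (nat_lit 5) (nat_lit 20) (nat_lit 4) (nat_lit 368) (nat_lit 293) (nat_lit 239)) (XT.lf (nat_lit 0) (nat_lit 25990173693) (nat_lit 76) (nat_lit 462373175) (nat_lit 152) (nat_lit 10319360366) (nat_lit 18) (nat_lit 5) (nat_lit 19) (nat_lit 5) (nat_lit 20) (nat_lit 4) (nat_lit 369) (nat_lit 293) (nat_lit 238)))) (XT.nd (nat_lit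 78) (nat_lit 152) (nat_lit 0) (XT.lf (nat_lit 0) (nat_lit 6546758974) (nat_lit 76) (nat_lit 29384638416) (nat_lit 76) (nat_lit 2389238923) (nat_lit 17) (nat_lit 4) (nat_lit 18) (nat_lit 5) (nat_lit 18) (nat_lit 4) (nat_lit 370) (nat_lit 293) (nat_lit 237)) (XT.nd (nat_lit 78) (nat_lit 76) (nat_lit 0) (XT.lf (nat_lit 0) (nat_lit 5883280970) (nat_lit 152) (nat_lit 15141812104) (nat_lit 76) (nat_lit 18918154158) (nat_lit 16) (nat_lit 5) (nat_lit 18) (nat_lit 5) (nat_lit 17) (nat_lit 4) (nat_lit 371) (nat_lit 293) (nat_lit 236)) (XT.lf (nat_lit 0) (nat_lit 2243925440) (nat_lit 76) (nat_lit 12245734794) (nat_lit 152) (nat_lit 27157539073) (nat_lit 15) (nat_lit 5) (nat_lit 16) (nat_lit 5) (nat_lit 17) (nat_lit 4) (nat_lit 372) (nat_lit 293) (nat_lit 235))))) (XT.nd (nat_lit 234) (nat_lit 152) (nat_lit 0) (XT.nd (nat_lit 78) (nat_lit 76) (nat_lit 0) (XT.lf (nat_lit 0) (nat_lit 20720564115) (nat_lit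 76) (nat_lit 2910866220) (nat_lit 152) (nat_lit 19801775714) (nat_lit 15) (nat_lit 5) (nat_lit 16) (nat_lit 5) (nat_lit 17) (nat_lit 4) (nat_lit 373) (nat_lit 293) (nat_lit 234)) (XT.nd (nat_lit 78) (nat_lit 76) (nat_lit 0) (XT.lf (nat_lit 0) (nat_lit 33247743454) (nat_lit 152) (nat_lit 5345064367) (nat_lit 0) (nat_lit 6715190453) (nat_lit 15) (nat_lit 5) (nat_lit 17) (nat_lit 4) (nat_lit 15) (nat_lit 4) (nat_lit 374) (nat_lit 293) (nat_lit 233)) (XT.lf (nat_lit 0) (nat_lit 13028751880) (nat_lit 76) (nat_lit 30424280235) (nat_lit 76) (nat_lit 3820261562) (nat_lit 14) (nat_lit 4) (nat_lit 15) (nat_lit 5) (nat_lit 15) (nat_lit 4) (nat_lit 375) (nat_lit 293) (nat_lit 232)))) (XT.nd (nat_lit 78) (nat_lit 76) (nat_lit 0) (XT.lf (nat_lit 0) (nat_lit 4747500001) (nat_lit 152) (nat_lit 17034656216) (nat_lit 76) (nat_lit 27553010406) (nat_lit 13) (nat_lit 5) (nat_lit 15) (nat_lit 5) (nat_lit 14) (nat_lit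 4) (nat_lit 376) (nat_lit 293) (nat_lit 231)) (XT.nd (nat_lit 78) (nat_lit 0) (nat_lit 0) (XT.lf (nat_lit 0) (nat_lit 934041062) (nat_lit 76) (nat_lit 12696965712) (nat_lit 152) (nat_lit 37869008094) (nat_lit 12) (nat_lit 5) (nat_lit 13) (nat_lit 5) (nat_lit 14) (nat_lit 4) (nat_lit 377) (nat_lit 293) (nat_lit 230)) (XT.lf (nat_lit 0) (nat_lit 20078129045) (nat_lit 76) (nat_lit 3013874141) (nat_lit 152) (nat_lit 30677109924) (nat_lit 12) (nat_lit 5) (nat_lit 13) (nat_lit 5) (nat_lit 14) (nat_lit 4) (nat_lit 378) (nat_lit 293) (nat_lit 229))))))))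
noncomputable def xc37 : XT := (XT.nd (nat_lit 42276) (nat_lit 0) (nat_lit 4104) (XT.nd (nat_lit 858) (nat_lit 152) (nat_lit 0) (XT.nd (nat_lit 390) (nat_lit 152) (nat_lit 0) (XT.nd (nat_lit 156) (nat_lit 76) (nat_lit 0) (XT.nd (nat_lit 78) (nat_lit 76) (nat_lit 0) (XT.lf (nat_lit 0) (nat_lit 33054433065) (nat_lit 152) (nat_lit 16117132402) (nat_lit 0) (nat_lit 6979255968) (nat_lit 12) (nat_lit 5) (nat_lit 14) (nat_lit 4) (nat_lit 12) (nat_lit 4) (nat_lit 379) (nat_lit 293) (nat_lit 228)) (XT.lf (nat_lit 0) (nat_lit 2276923075) (nat_lit 76) (nat_lit 41251912166) (nat_lit 76) (nat_lit 15122370773) (nat_lit 11) (nat_lit 4) (nat_lit 12) (nat_lit 5) (nat_lit 12) (nat_lit 4) (nat_lit 380) (nat_lit 293) (nat_lit 227))) (XT.nd (nat_lit 78) (nat_lit 76) (nat_lit 0) (XT.lf (nat_lit 0) (nat_lit 21857060211) (nat_lit 76) (nat_lit 32798507143) (nat_lit 76) (nat_lit 6617190231) (nat_lit 11) (nat_lit 4)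 (nat_lit 12) (nat_lit 5) (nat_lit 12) (nat_lit 4) (nat_lit 381) (nat_lit 293) (nat_lit 226)) (XT.nd (nat_lit 78) (nat_lit 0) (nat_lit 0) (XT.lf (nat_lit 0) (nat_lit 2232226563) (nat_lit 152) (nat_lit 21699207006) (nat_lit 76) (nat_lit 40094368166) (nat_lit 10) (nat_lit 5) (nat_lit 12) (nat_lit 5) (nat_lit 11) (nat_lit 4) (nat_lit 382) (nat_lit 293) (nat_lit 225)) (XT.lf (nat_lit 0) (nat_lit 11354358487) (nat_lit 152) (nat_lit 3228241123) (nat_lit 76) (nat_lit 52332925378) (nat_lit 10) (nat_lit 5) (nat_lit 12) (nat_lit 5) (nat_lit 11) (nat_lit 4) (nat_lit 383) (nat_lit 293) (nat_lit 224))))) (XT.nd (nat_lit 234) (nat_lit 76) (nat_lit 0) (XT.nd (nat_lit 78) (nat_lit 0) (nat_lit 0) (XT.lf (nat_lit 0) (nat_lit 16425304088) (nat_lit 76) (nat_lit 4632636099) (nat_lit 152) (nat_lit 48888039002) (nat_lit 9) (nat_lit 5) (nat_lit 10) (nat_lit 5) (nat_lit 11) (nat_lit 4) (nat_lit 384) (nat_lit 293) (nat_lit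 223)) (XT.nd (nat_lit 78) (nat_lit 0) (nat_lit 0) (XT.lf (nat_lit 0) (nat_lit 31304315805) (nat_lit 152) (nat_lit 36114601216) (nat_lit 0) (nat_lit 5707315473) (nat_lit 9) (nat_lit 5) (nat_lit 11) (nat_lit 4) (nat_lit 9) (nat_lit 4) (nat_lit 385) (nat_lit 293) (nat_lit 222)) (XT.lf (nat_lit 0) (nat_lit 42079443043) (nat_lit 152) (nat_lit 17942510230) (nat_lit 0) (nat_lit 16443056815) (nat_lit 9) (nat_lit 5) (nat_lit 11) (nat_lit 4) (nat_lit 9) (nat_lit 4) (nat_lit 386) (nat_lit 293) (nat_lit 221)))) (XT.nd (nat_lit 78) (nat_lit 0) (nat_lit 0) (XT.lf (nat_lit 0) (nat_lit 1104958185) (nat_lit 76) (nat_lit 52270108585) (nat_lit 76) (nat_lit 26596211978) (nat_lit 8) (nat_lit 4) (nat_lit 9) (nat_lit 5) (nat_lit 9) (nat_lit 4) (nat_lit 387) (nat_lit 293) (nat_lit 220)) (XT.nd (nat_lit 78) (nat_lit 0) (nat_lit 0) (XT.lf (nat_lit 0) (nat_lit 21426527391) (nat_lit 76) (nat_lit 43965628934) (nat_lit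 76) (nat_lit 18256008157) (nat_lit 8) (nat_lit 4) (nat_lit 9) (nat_lit 5) (nat_lit 9) (nat_lit 4) (nat_lit 388) (nat_lit 293) (nat_lit 219)) (XT.lf (nat_lit 0) (nat_lit 42713490941) (nat_lit 76) (nat_lit 35269925922) (nat_lit 76) (nat_lit 9526282126) (nat_lit 8) (nat_lit 4) (nat_lit 9) (nat_lit 5) (nat_lit 9) (nat_lit 4) (nat_lit 389) (nat_lit 293) (nat_lit 218)))))) (XT.nd (nat_lit 40950) (nat_lit 0) (nat_lit 13148) (XT.nd (nat_lit 312) (nat_lit 0) (nat_lit 0) (XT.nd (nat_lit 78) (nat_lit 152) (nat_lit 0) (XT.lf (nat_lit 0) (nat_lit 65016532082) (nat_lit 76) (nat_lit 26162295494) (nat_lit 76) (nat_lit 386248823) (nat_lit 8) (nat_lit 4) (nat_lit 9) (nat_lit 5) (nat_lit 9) (nat_lit 4) (nat_lit 390) (nat_lit 293) (nat_lit 217)) (XT.nd (nat_lit 78) (nat_lit 76) (nat_lit 0) (XT.lf (nat_lit 0) (nat_lit 9006604643) (nat_lit 152) (nat_lit 7523499125) (nat_lit 76) (nat_lit 79291199602) (nat_lit 7)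 (nat_lit 5) (nat_lit 9) (nat_lit 5) (nat_lit 8) (nat_lit 4) (nat_lit 391) (nat_lit 293) (nat_lit 216)) (XT.lf (nat_lit 0) (nat_lit 12651527148) (nat_lit 76) (nat_lit 6307992094) (nat_lit 152) (nat_lit 81327758859) (nat_lit 6) (nat_lit 5) (nat_lit 7) (nat_lit 5) (nat_lit 8) (nat_lit 4) (nat_lit 392) (nat_lit 293) (nat_lit 215)))) (XT.nd (nat_lit 40482) (nat_lit 0) (nat_lit 19152) (XT.lf (nat_lit 0) (nat_lit 40625977480) (nat_lit 152) (nat_lit 53777899460) (nat_lit 0) (nat_lit 15489137031) (nat_lit 6) (nat_lit 5) (nat_lit 8) (nat_lit 4) (nat_lit 6) (nat_lit 4) (nat_lit 394) (nat_lit 293) (nat_lit 213)) (XT.nd (nat_lit 78) (nat_lit 988) (nat_lit 0) (XT.lf (nat_lit 0) (nat_lit 960068472) (nat_lit 836) (nat_lit 1239730703) (nat_lit 836) (nat_lit 1239730703) (nat_lit 271) (nat_lit 4) (nat_lit 282) (nat_lit 5) (nat_lit 282) (nat_lit 4) (nat_lit 312) (nat_lit 294) (nat_lit 294)) (XT.lf (nat_lit 0)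 (nat_lit 2570150706) (nat_lit 912) (nat_lit 229680489) (nat_lit 988) (nat_lit 4157441428) (nat_lit 258) (nat_lit 5) (nat_lit 270) (nat_lit 5) (nat_lit 271) (nat_lit 4) (nat_lit 313) (nat_lit 294) (nat_lit 293))))) (XT.nd (nat_lit 234) (nat_lit 2660) (nat_lit 0) (XT.nd (nat_lit 78) (nat_lit 2280) (nat_lit 0) (XT.lf (nat_lit 0) (nat_lit 1060175525) (nat_lit 1064) (nat_lit 3749543704) (nat_lit 76) (nat_lit 2233961741) (nat_lit 244) (nat_lit 5) (nat_lit 258) (nat_lit 5) (nat_lit 245) (nat_lit 4) (nat_lit 314) (nat_lit 294) (nat_lit 292)) (XT.nd (nat_lit 78) (nat_lit 1216) (nat_lit 0) (XT.lf (nat_lit 0) (nat_lit 4100067689) (nat_lit 1064) (nat_lit 2177546270) (nat_lit 1140) (nat_lit 861124701) (nat_lit 230) (nat_lit 5) (nat_lit 244) (nat_lit 5) (nat_lit 245) (nat_lit 4) (nat_lit 315) (nat_lit 294) (nat_lit 291)) (XT.lf (nat_lit 0) (nat_lit 4267251133) (nat_lit 1216) (nat_lit 2264388853) (nat_lit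 76) (nat_lit 710753769) (nat_lit 214) (nat_lit 5) (nat_lit 230) (nat_lit 5) (nat_lit 215) (nat_lit 4) (nat_lit 316) (nat_lit 294) (nat_lit 290)))) (XT.nd (nat_lit 78) (nat_lit 1748) (nat_lit 0) (XT.lf (nat_lit 0) (nat_lit 2101959391) (nat_lit 912) (nat_lit 1434103485) (nat_lit 76) (nat_lit 3818623221) (nat_lit 202) (nat_lit 5) (nat_lit 214) (nat_lit 5) (nat_lit 203) (nat_lit 5) (nat_lit 317) (nat_lit 294) (nat_lit 289)) (XT.nd (nat_lit 78) (nat_lit 1140) (nat_lit 0) (XT.lf (nat_lit 0) (nat_lit 6945833169) (nat_lit 608) (nat_lit 277206028) (nat_lit 684) (nat_lit 253374191) (nat_lit 194) (nat_lit 5) (nat_lit 202) (nat_lit 5) (nat_lit 203) (nat_lit 5) (nat_lit 318) (nat_lit 294) (nat_lit 288)) (XT.lf (nat_lit 0) (nat_lit 401252892) (nat_lit 532) (nat_lit 4391971822) (nat_lit 608) (nat_lit 2812953101) (nat_lit 179) (nat_lit 5) (nat_lit 186) (nat_lit 5) (nat_lit 187) (nat_lit 5) (nat_lit 319) (nat_lit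 294) (nat_lit 287))))))) (XT.nd (nat_lit 858) (nat_lit 3420) (nat_lit 0) (XT.nd (nat_lit 390) (nat_lit 2964) (nat_lit 0) (XT.nd (nat_lit 156) (nat_lit 1520) (nat_lit 0) (XT.nd (nat_lit 78) (nat_lit 532) (nat_lit 0) (XT.lf (nat_lit 0) (nat_lit 1410892890) (nat_lit 532) (nat_lit 764267948) (nat_lit 608) (nat_lit 5570444491) (nat_lit 171) (nat_lit 5) (nat_lit 178) (nat_lit 5) (nat_lit 179) (nat_lit 5) (nat_lit 320) (nat_lit 294) (nat_lit 286)) (XT.lf (nat_lit 0) (nat_lit 2451786253) (nat_lit 532) (nat_lit 4810271863) (nat_lit 608) (nat_lit 632090481) (nat_lit 164) (nat_lit 5) (nat_lit 171) (nat_lit 5) (nat_lit 172) (nat_lit 5) (nat_lit 321) (nat_lit 294) (nat_lit 285))) (XT.nd (nat_lit 78) (nat_lit 988) (nat_lit 0) (XT.lf (nat_lit 0) (nat_lit 3525412401) (nat_lit 456) (nat_lit 831474874) (nat_lit 532) (nat_lit 3695333024) (nat_lit 157) (nat_lit 5) (nat_lit 163) (nat_lit 5) (nat_lit 164) (nat_lit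 5) (nat_lit 322) (nat_lit 294) (nat_lit 284)) (XT.nd (nat_lit 78) (nat_lit 456) (nat_lit 0) (XT.lf (nat_lit 0) (nat_lit 1262749780) (nat_lit 532) (nat_lit 3594430683) (nat_lit 76) (nat_lit 3362856406) (nat_lit 150) (nat_lit 5) (nat_lit 157) (nat_lit 5) (nat_lit 151) (nat_lit 5) (nat_lit 323) (nat_lit 294) (nat_lit 283)) (XT.lf (nat_lit 0) (nat_lit 5752682645) (nat_lit 456) (nat_lit 549061297) (nat_lit 532) (nat_lit 2096287891) (nat_lit 144) (nat_lit 5) (nat_lit 150) (nat_lit 5) (nat_lit 151) (nat_lit 5) (nat_lit 324) (nat_lit 294) (nat_lit 282))))) (XT.nd (nat_lit 234) (nat_lit 1216) (nat_lit 0) (XT.nd (nat_lit 78) (nat_lit 1216) (nat_lit 0) (XT.lf (nat_lit 0) (nat_lit 2895172883) (nat_lit 532) (nat_lit 1707633034) (nat_lit 76) (nat_lit 3983025629) (nat_lit 137) (nat_lit 5) (nat_lit 144) (nat_lit 5) (nat_lit 138) (nat_lit 5) (nat_lit 325) (nat_lit 294) (nat_lit 281)) (XT.nd (nat_lit 78) (nat_lit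 836) (nat_lit 0) (XT.lf (nat_lit 0) (nat_lit 8013567518) (nat_lit 456) (nat_lit 748379690) (nat_lit 76) (nat_lit 22978001) (nat_lit 132) (nat_lit 5) (nat_lit 138) (nat_lit 5) (nat_lit 133) (nat_lit 5) (nat_lit 326) (nat_lit 294) (nat_lit 280)) (XT.lf (nat_lit 0) (nat_lit 167154553) (nat_lit 380) (nat_lit 4110878274) (nat_lit 456) (nat_lit 4715714584) (nat_lit 121) (nat_lit 5) (nat_lit 126) (nat_lit 5) (nat_lit 127) (nat_lit 5) (nat_lit 327) (nat_lit 294) (nat_lit 279)))) (XT.nd (nat_lit 78) (nat_lit 760) (nat_lit 0) (XT.lf (nat_lit 0) (nat_lit 286753660) (nat_lit 456) (nat_lit 8102509644) (nat_lit 76) (nat_lit 825270213) (nat_lit 115) (nat_lit 5) (nat_lit 121) (nat_lit 5) (nat_lit 116) (nat_lit 5) (nat_lit 328) (nat_lit 294) (nat_lit 278)) (XT.nd (nat_lit 78) (nat_lit 456) (nat_lit 0) (XT.lf (nat_lit 0) (nat_lit 1992034415) (nat_lit 304) (nat_lit 3425308362) (nat_lit 380) (nat_lit 4028470252)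 (nat_lit 111) (nat_lit 5) (nat_lit 115) (nat_lit 5) (nat_lit 116) (nat_lit 5) (nat_lit 329) (nat_lit 294) (nat_lit 277)) (XT.lf (nat_lit 0) (nat_lit 1050238148) (nat_lit 456) (nat_lit 6830730681) (nat_lit 76) (nat_lit 1808791205) (nat_lit 105) (nat_lit 5) (nat_lit 111) (nat_lit 5) (nat_lit 106) (nat_lit 5) (nat_lit 330) (nat_lit 294) (nat_lit 276)))))) (XT.nd (nat_lit 468) (nat_lit 1444) (nat_lit 0) (XT.nd (nat_lit 234) (nat_lit 988) (nat_lit 0) (XT.nd (nat_lit 78) (nat_lit 684) (nat_lit 0) (XT.lf (nat_lit 0) (nat_lit 3655659340) (nat_lit 304) (nat_lit 2623818479) (nat_lit 380) (nat_lit 3665938853) (nat_lit 101) (nat_lit 5) (nat_lit 105) (nat_lit 5) (nat_lit 106) (nat_lit 5) (nat_lit 331) (nat_lit 294) (nat_lit 275)) (XT.nd (nat_lit 78) (nat_lit 304) (nat_lit 0) (XT.lf (nat_lit 0) (nat_lit 1503991944) (nat_lit 380) (nat_lit 5811062827) (nat_lit 76) (nat_lit 2899109599) (nat_lit 96) (nat_lit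 5) (nat_lit 101) (nat_lit 5) (nat_lit 97) (nat_lit 5) (nat_lit 332) (nat_lit 294) (nat_lit 274)) (XT.lf (nat_lit 0) (nat_lit 5069198054) (nat_lit 304) (nat_lit 1769633109) (nat_lit 380) (nat_lit 3657056029) (nat_lit 92) (nat_lit 5) (nat_lit 96) (nat_lit 5) (nat_lit 97) (nat_lit 5) (nat_lit 333) (nat_lit 294) (nat_lit 273)))) (XT.nd (nat_lit 78) (nat_lit 608) (nat_lit 0) (XT.lf (nat_lit 0) (nat_lit 1615905113) (nat_lit 380) (nat_lit 5142180850) (nat_lit 76) (nat_lit 4033240358) (nat_lit 87) (nat_lit 5) (nat_lit 92) (nat_lit 5) (nat_lit 88) (nat_lit 5) (nat_lit 334) (nat_lit 294) (nat_lit 272)) (XT.nd (nat_lit 78) (nat_lit 380) (nat_lit 0) (XT.lf (nat_lit 0) (nat_lit 6129580010) (nat_lit 228) (nat_lit 930462726) (nat_lit 304) (nat_lit 4040995899) (nat_lit 84) (nat_lit 5) (nat_lit 87) (nat_lit 5) (nat_lit 88) (nat_lit 5) (nat_lit 335) (nat_lit 294) (nat_lit 271)) (XT.lf (nat_lit 0) (nat_lit 1343334140)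 (nat_lit 380) (nat_lit 4938966563) (nat_lit 76) (nat_lit 5143036751) (nat_lit 79) (nat_lit 5) (nat_lit 84) (nat_lit 5) (nat_lit 80) (nat_lit 5) (nat_lit 336) (nat_lit 294) (nat_lit 270))))) (XT.nd (nat_lit 234) (nat_lit 684) (nat_lit 0) (XT.nd (nat_lit 78) (nat_lit 532) (nat_lit 0) (XT.lf (nat_lit 0) (nat_lit 6716310193) (nat_lit 228) (nat_lit 180412139) (nat_lit 304) (nat_lit 4868498627) (nat_lit 76) (nat_lit 5) (nat_lit 79) (nat_lit 5) (nat_lit 80) (nat_lit 5) (nat_lit 337) (nat_lit 294) (nat_lit 269)) (XT.nd (nat_lit 78) (nat_lit 228) (nat_lit 0) (XT.lf (nat_lit 0) (nat_lit 631665961) (nat_lit 304) (nat_lit 5335969698) (nat_lit 76) (nat_lit 6153221252) (nat_lit 72) (nat_lit 5) (nat_lit 76) (nat_lit 5) (nat_lit 73) (nat_lit 5) (nat_lit 338) (nat_lit 294) (nat_lit 268)) (XT.lf (nat_lit 0) (nat_lit 6293715881) (nat_lit 304) (nat_lit 5809416910) (nat_lit 76) (nat_lit 390132681) (nat_lit 69)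 (nat_lit 5) (nat_lit 73) (nat_lit 5) (nat_lit 70) (nat_lit 5) (nat_lit 339) (nat_lit 294) (nat_lit 267)))) (XT.nd (nat_lit 78) (nat_lit 456) (nat_lit 0) (XT.lf (nat_lit 0) (nat_lit 6385828646) (nat_lit 228) (nat_lit 5898062310) (nat_lit 304) (nat_lit 599113640) (nat_lit 66) (nat_lit 5) (nat_lit 69) (nat_lit 5) (nat_lit 70) (nat_lit 5) (nat_lit 340) (nat_lit 294) (nat_lit 266)) (XT.nd (nat_lit 78) (nat_lit 228) (nat_lit 0) (XT.lf (nat_lit 0) (nat_lit 5172933329) (nat_lit 228) (nat_lit 7420925564) (nat_lit 76) (nat_lit 697065569) (nat_lit 63) (nat_lit 5) (nat_lit 66) (nat_lit 5) (nat_lit 64) (nat_lit 5) (nat_lit 341) (nat_lit 294) (nat_lit 265)) (XT.lf (nat_lit 0) (nat_lit 5102216625) (nat_lit 228) (nat_lit 6169597386) (nat_lit 304) (nat_lit 2445783251) (nat_lit 60) (nat_lit 5) (nat_lit 63) (nat_lit 5) (nat_lit 64) (nat_lit 5) (nat_lit 342) (nat_lit 294) (nat_lit 264))))))))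
noncomputable def xc38 : XT := (XT.nd (nat_lit 1794) (nat_lit 988) (nat_lit 0) (XT.nd (nat_lit 858) (nat_lit 1140) (nat_lit 0) (XT.nd (nat_lit 390) (nat_lit 988) (nat_lit 0) (XT.nd (nat_lit 156) (nat_lit 380) (nat_lit 0) (XT.nd (nat_lit 78) (nat_lit 228) (nat_lit 0) (XT.lf (nat_lit 0) (nat_lit 3441435462) (nat_lit 228) (nat_lit 10084354697) (nat_lit 76) (nat_lit 638854025) (nat_lit 57) (nat_lit 5) (nat_lit 60) (nat_lit 5) (nat_lit 58) (nat_lit 5) (nat_lit 343) (nat_lit 294) (nat_lit 263)) (XT.lf (nat_lit 0) (nat_lit 2725877678) (nat_lit 228) (nat_lit 6905484897) (nat_lit 304) (nat_lit 5000233667) (nat_lit 54) (nat_lit 5) (nat_lit 57) (nat_lit 5) (nat_lit 58) (nat_lit 5) (nat_lit 344) (nat_lit 294) (nat_lit 262))) (XT.nd (nat_lit 78) (nat_lit 152) (nat_lit 0) (XT.lf (nat_lit 0) (nat_lit 988444494) (nat_lit 228) (nat_lit 14039176907) (nat_lit 76) (nat_lit 94049922) (nat_lit 51) (nat_lit 5) (nat_lit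 54) (nat_lit 5) (nat_lit 52) (nat_lit 5) (nat_lit 345) (nat_lit 294) (nat_lit 261)) (XT.nd (nat_lit 78) (nat_lit 152) (nat_lit 0) (XT.lf (nat_lit 0) (nat_lit 7253648357) (nat_lit 228) (nat_lit 977681090) (nat_lit 76) (nat_lit 7401061894) (nat_lit 51) (nat_lit 5) (nat_lit 54) (nat_lit 5) (nat_lit 52) (nat_lit 5) (nat_lit 346) (nat_lit 294) (nat_lit 260)) (XT.lf (nat_lit 0) (nat_lit 12803261075) (nat_lit 152) (nat_lit 1043421197) (nat_lit 228) (nat_lit 2321567543) (nat_lit 49) (nat_lit 5) (nat_lit 51) (nat_lit 5) (nat_lit 52) (nat_lit 5) (nat_lit 347) (nat_lit 294) (nat_lit 259))))) (XT.nd (nat_lit 234) (nat_lit 456) (nat_lit 0) (XT.nd (nat_lit 78) (nat_lit 304) (nat_lit 0) (XT.lf (nat_lit 0) (nat_lit 4028404147) (nat_lit 228) (nat_lit 6243236514) (nat_lit 76) (nat_lit 6456070240) (nat_lit 46) (nat_lit 5) (nat_lit 49) (nat_lit 5) (nat_lit 47) (nat_lit 5) (nat_lit 348) (nat_lit 294) (nat_lit 258))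 (XT.nd (nat_lit 78) (nat_lit 152) (nat_lit 0) (XT.lf (nat_lit 0) (nat_lit 7721381256) (nat_lit 152) (nat_lit 2943209838) (nat_lit 228) (nat_lit 6649397296) (nat_lit 44) (nat_lit 5) (nat_lit 46) (nat_lit 5) (nat_lit 47) (nat_lit 5) (nat_lit 349) (nat_lit 294) (nat_lit 257)) (XT.lf (nat_lit 0) (nat_lit 4452761275) (nat_lit 152) (nat_lit 13232329330) (nat_lit 228) (nat_lit 242947224) (nat_lit 42) (nat_lit 5) (nat_lit 44) (nat_lit 5) (nat_lit 45) (nat_lit 4) (nat_lit 350) (nat_lit 294) (nat_lit 256)))) (XT.nd (nat_lit 78) (nat_lit 228) (nat_lit 0) (XT.lf (nat_lit 0) (nat_lit 577442889) (nat_lit 152) (nat_lit 5816134732) (nat_lit 228) (nat_lit 12176284741) (nat_lit 39) (nat_lit 5) (nat_lit 41) (nat_lit 5) (nat_lit 42) (nat_lit 5) (nat_lit 351) (nat_lit 294) (nat_lit 255)) (XT.nd (nat_lit 78) (nat_lit 228) (nat_lit 0) (XT.lf (nat_lit 0) (nat_lit 13419688694) (nat_lit 228) (nat_lit 3817124186) (nat_lit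 76) (nat_lit 2005038756) (nat_lit 39) (nat_lit 5) (nat_lit 42) (nat_lit 5) (nat_lit 40) (nat_lit 4) (nat_lit 352) (nat_lit 294) (nat_lit 254)) (XT.lf (nat_lit 0) (nat_lit 907120740) (nat_lit 228) (nat_lit 8891124512) (nat_lit 76) (nat_lit 10146756032) (nat_lit 36) (nat_lit 5) (nat_lit 39) (nat_lit 5) (nat_lit 37) (nat_lit 5) (nat_lit 353) (nat_lit 294) (nat_lit 253)))))) (XT.nd (nat_lit 468) (nat_lit 608) (nat_lit 0) (XT.nd (nat_lit 234) (nat_lit 228) (nat_lit 0) (XT.nd (nat_lit 78) (nat_lit 152) (nat_lit 0) (XT.lf (nat_lit 0) (nat_lit 5965040927) (nat_lit 152) (nat_lit 1895804569) (nat_lit 228) (nat_lit 12820507642) (nat_lit 34) (nat_lit 5) (nat_lit 36) (nat_lit 5) (nat_lit 37) (nat_lit 5) (nat_lit 354) (nat_lit 294) (nat_lit 252)) (XT.nd (nat_lit 78) (nat_lit 76) (nat_lit 0) (XT.lf (nat_lit 0) (nat_lit 81457532) (nat_lit 76) (nat_lit 15147952629) (nat_lit 152) (nat_lit 6223122310) (nat_lit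 33) (nat_lit 5) (nat_lit 34) (nat_lit 5) (nat_lit 35) (nat_lit 4) (nat_lit 355) (nat_lit 294) (nat_lit 251)) (XT.lf (nat_lit 0) (nat_lit 776772965) (nat_lit 152) (nat_lit 6511475623) (nat_lit 76) (nat_lit 14971250355) (nat_lit 32) (nat_lit 5) (nat_lit 34) (nat_lit 5) (nat_lit 33) (nat_lit 5) (nat_lit 356) (nat_lit 294) (nat_lit 250)))) (XT.nd (nat_lit 78) (nat_lit 76) (nat_lit 0) (XT.lf (nat_lit 0) (nat_lit 8014716953) (nat_lit 228) (nat_lit 14055559011) (nat_lit 76) (nat_lit 1034208166) (nat_lit 30) (nat_lit 5) (nat_lit 33) (nat_lit 5) (nat_lit 31) (nat_lit 4) (nat_lit 357) (nat_lit 294) (nat_lit 249)) (XT.nd (nat_lit 78) (nat_lit 0) (nat_lit 0) (XT.lf (nat_lit 0) (nat_lit 1342354659) (nat_lit 76) (nat_lit 14346628856) (nat_lit 152) (nat_lit 8300522846) (nat_lit 29) (nat_lit 5) (nat_lit 30) (nat_lit 5) (nat_lit 31) (nat_lit 4) (nat_lit 358) (nat_lit 294) (nat_lit 248)) (XT.lf (nat_lit 0) (nat_lit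 17664669472) (nat_lit 76) (nat_lit 6149708369) (nat_lit 152) (nat_lit 1102398998) (nat_lit 29) (nat_lit 5) (nat_lit 30) (nat_lit 5) (nat_lit 31) (nat_lit 4) (nat_lit 359) (nat_lit 294) (nat_lit 247))))) (XT.nd (nat_lit 234) (nat_lit 304) (nat_lit 0) (XT.nd (nat_lit 78) (nat_lit 76) (nat_lit 0) (XT.lf (nat_lit 0) (nat_lit 6365277492) (nat_lit 228) (nat_lit 17022711461) (nat_lit 76) (nat_lit 2499509743) (nat_lit 26) (nat_lit 5) (nat_lit 29) (nat_lit 5) (nat_lit 27) (nat_lit 4) (nat_lit 360) (nat_lit 294) (nat_lit 246)) (XT.nd (nat_lit 78) (nat_lit 76) (nat_lit 0) (XT.lf (nat_lit 0) (nat_lit 14248600680) (nat_lit 228) (nat_lit 1171238037) (nat_lit 76) (nat_lit 11484655850) (nat_lit 26) (nat_lit 5) (nat_lit 29) (nat_lit 5) (nat_lit 27) (nat_lit 4) (nat_lit 361) (nat_lit 294) (nat_lit 245)) (XT.lf (nat_lit 0) (nat_lit 15652669134) (nat_lit 76) (nat_lit 6954728252) (nat_lit 152) (nat_lit 5362520038)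 (nat_lit 25) (nat_lit 5) (nat_lit 26) (nat_lit 5) (nat_lit 27) (nat_lit 4) (nat_lit 362) (nat_lit 294) (nat_lit 244)))) (XT.nd (nat_lit 78) (nat_lit 76) (nat_lit 0) (XT.lf (nat_lit 0) (nat_lit 2254260211) (nat_lit 228) (nat_lit 24916977133) (nat_lit 76) (nat_lit 1916621325) (nat_lit 22) (nat_lit 5) (nat_lit 25) (nat_lit 5) (nat_lit 23) (nat_lit 4) (nat_lit 363) (nat_lit 294) (nat_lit 243)) (XT.nd (nat_lit 78) (nat_lit 76) (nat_lit 0) (XT.lf (nat_lit 0) (nat_lit 10274089659) (nat_lit 228) (nat_lit 8763927758) (nat_lit 76) (nat_lit 11218107725) (nat_lit 22) (nat_lit 5) (nat_lit 25) (nat_lit 5) (nat_lit 23) (nat_lit 4) (nat_lit 364) (nat_lit 294) (nat_lit 242)) (XT.lf (nat_lit 0) (nat_lit 8242111769) (nat_lit 76) (nat_lit 10469015613) (nat_lit 152) (nat_lit 12771204814) (nat_lit 21) (nat_lit 5) (nat_lit 22) (nat_lit 5) (nat_lit 23) (nat_lit 4) (nat_lit 365) (nat_lit 294) (nat_lit 241))))))) (XT.nd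 (nat_lit 858) (nat_lit 456) (nat_lit 0) (XT.nd (nat_lit 390) (nat_lit 304) (nat_lit 0) (XT.nd (nat_lit 156) (nat_lit 76) (nat_lit 0) (XT.nd (nat_lit 78) (nat_lit 152) (nat_lit 0) (XT.lf (nat_lit 0) (nat_lit 26169408642) (nat_lit 76) (nat_lit 1429735990) (nat_lit 152) (nat_lit 5169844251) (nat_lit 21) (nat_lit 5) (nat_lit 22) (nat_lit 5) (nat_lit 23) (nat_lit 4) (nat_lit 366) (nat_lit 294) (nat_lit 240)) (XT.lf (nat_lit 0) (nat_lit 2881555158) (nat_lit 152) (nat_lit 23244364301) (nat_lit 76) (nat_lit 7989515219) (nat_lit 19) (nat_lit 5) (nat_lit 21) (nat_lit 5) (nat_lit 20) (nat_lit 4) (nat_lit 367) (nat_lit 294) (nat_lit 239))) (XT.nd (nat_lit 78) (nat_lit 76) (nat_lit 0) (XT.lf (nat_lit 0) (nat_lit 11255198728) (nat_lit 152) (nat_lit 6347471133) (nat_lit 76) (nat_lit 17924211010) (nat_lit 19) (nat_lit 5) (nat_lit 21) (nat_lit 5) (nat_lit 20) (nat_lit 4) (nat_lit 368) (nat_lit 294) (nat_lit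 238)) (XT.nd (nat_lit 78) (nat_lit 0) (nat_lit 0) (XT.lf (nat_lit 0) (nat_lit 11517890782) (nat_lit 76) (nat_lit 8585646342) (nat_lit 152) (nat_lit 16903692864) (nat_lit 18) (nat_lit 5) (nat_lit 19) (nat_lit 5) (nat_lit 20) (nat_lit 4) (nat_lit 369) (nat_lit 294) (nat_lit 237)) (XT.lf (nat_lit 0) (nat_lit 29415283470) (nat_lit 152) (nat_lit 8258999437) (nat_lit 0) (nat_lit 886694393) (nat_lit 18) (nat_lit 5) (nat_lit 20) (nat_lit 4) (nat_lit 18) (nat_lit 4) (nat_lit 370) (nat_lit 294) (nat_lit 236))))) (XT.nd (nat_lit 234) (nat_lit 76) (nat_lit 0) (XT.nd (nat_lit 78) (nat_lit 152) (nat_lit 0) (XT.lf (nat_lit 0) (nat_lit 9843618156) (nat_lit 76) (nat_lit 29479347391) (nat_lit 76) (nat_lit 865545950) (nat_lit 17) (nat_lit 4) (nat_lit 18) (nat_lit 5) (nat_lit 18) (nat_lit 4) (nat_lit 371) (nat_lit 294) (nat_lit 235)) (XT.nd (nat_lit 78) (nat_lit 76) (nat_lit 0) (XT.lf (nat_lit 0) (nat_lit 7711817445)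 (nat_lit 152) (nat_lit 13039966657) (nat_lit 76) (nat_lit 21142310747) (nat_lit 16) (nat_lit 5) (nat_lit 18) (nat_lit 5) (nat_lit 17) (nat_lit 4) (nat_lit 372) (nat_lit 294) (nat_lit 234)) (XT.lf (nat_lit 0) (nat_lit 5133106936) (nat_lit 76) (nat_lit 11569037463) (nat_lit 152) (nat_lit 26982504769) (nat_lit 15) (nat_lit 5) (nat_lit 16) (nat_lit 5) (nat_lit 17) (nat_lit 4) (nat_lit 373) (nat_lit 294) (nat_lit 233)))) (XT.nd (nat_lit 78) (nat_lit 76) (nat_lit 0) (XT.lf (nat_lit 0) (nat_lit 24401340153) (nat_lit 76) (nat_lit 1828805655) (nat_lit 152) (nat_lit 19331949017) (nat_lit 15) (nat_lit 5) (nat_lit 16) (nat_lit 5) (nat_lit 17) (nat_lit 4) (nat_lit 374) (nat_lit 294) (nat_lit 232)) (XT.nd (nat_lit 78) (nat_lit 76) (nat_lit 0) (XT.lf (nat_lit 0) (nat_lit 36271030089) (nat_lit 152) (nat_lit 3064013890) (nat_lit 0) (nat_lit 8197282265) (nat_lit 15) (nat_lit 5) (nat_lit 17) (nat_lit 4) (nat_lit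 15) (nat_lit 4) (nat_lit 375) (nat_lit 294) (nat_lit 231)) (XT.lf (nat_lit 0) (nat_lit 16155446556) (nat_lit 76) (nat_lit 30790125577) (nat_lit 76) (nat_lit 2651556281) (nat_lit 14) (nat_lit 4) (nat_lit 15) (nat_lit 5) (nat_lit 15) (nat_lit 4) (nat_lit 376) (nat_lit 294) (nat_lit 230)))))) (XT.nd (nat_lit 468) (nat_lit 228) (nat_lit 0) (XT.nd (nat_lit 234) (nat_lit 76) (nat_lit 0) (XT.nd (nat_lit 78) (nat_lit 76) (nat_lit 0) (XT.lf (nat_lit 0) (nat_lit 6254575340) (nat_lit 152) (nat_lit 15503516089) (nat_lit 76) (nat_lit 30005526799) (nat_lit 13) (nat_lit 5) (nat_lit 15) (nat_lit 5) (nat_lit 14) (nat_lit 4) (nat_lit 377) (nat_lit 294) (nat_lit 229)) (XT.nd (nat_lit 78) (nat_lit 0) (nat_lit 0) (XT.lf (nat_lit 0) (nat_lit 3295311479) (nat_lit 76) (nat_lit 12248733099) (nat_lit 152) (nat_lit 38493820966) (nat_lit 12) (nat_lit 5) (nat_lit 13) (nat_lit 5) (nat_lit 14) (nat_lit 4) (nat_lit 378) (nat_lit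 294) (nat_lit 228)) (XT.lf (nat_lit 0) (nat_lit 23286386320) (nat_lit 76) (nat_lit 2133062231) (nat_lit 152) (nat_lit 31002739199) (nat_lit 12) (nat_lit 5) (nat_lit 13) (nat_lit 5) (nat_lit 14) (nat_lit 4) (nat_lit 379) (nat_lit 294) (nat_lit 227)))) (XT.nd (nat_lit 78) (nat_lit 76) (nat_lit 0) (XT.lf (nat_lit 0) (nat_lit 35833593450) (nat_lit 152) (nat_lit 14799354379) (nat_lit 0) (nat_lit 8291435173) (nat_lit 12) (nat_lit 5) (nat_lit 14) (nat_lit 4) (nat_lit 12) (nat_lit 4) (nat_lit 380) (nat_lit 294) (nat_lit 226)) (XT.nd (nat_lit 78) (nat_lit 0) (nat_lit 0) (XT.lf (nat_lit 0) (nat_lit 4453530311) (nat_lit 76) (nat_lit 42344374005) (nat_lit 76) (nat_lit 14752905710) (nat_lit 11) (nat_lit 4) (nat_lit 12) (nat_lit 5) (nat_lit 12) (nat_lit 4) (nat_lit 381) (nat_lit 294) (nat_lit 225)) (XT.lf (nat_lit 0) (nat_lit 24914447586) (nat_lit 76) (nat_lit 33514495578) (nat_lit 76) (nat_lit 5876065360)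 (nat_lit 11) (nat_lit 4) (nat_lit 12) (nat_lit 5) (nat_lit 12) (nat_lit 4) (nat_lit 382) (nat_lit 294) (nat_lit 224))))) (XT.nd (nat_lit 234) (nat_lit 76) (nat_lit 0) (XT.nd (nat_lit 78) (nat_lit 76) (nat_lit 0) (XT.lf (nat_lit 0) (nat_lit 3344853231) (nat_lit 152) (nat_lit 20893103798) (nat_lit 76) (nat_lit 42958948052) (nat_lit 10) (nat_lit 5) (nat_lit 12) (nat_lit 5) (nat_lit 11) (nat_lit 4) (nat_lit 383) (nat_lit 294) (nat_lit 223)) (XT.nd (nat_lit 78) (nat_lit 76) (nat_lit 0) (XT.lf (nat_lit 0) (nat_lit 12875424354) (nat_lit 152) (nat_lit 1588640266) (nat_lit 76) (nat_lit 55768487339) (nat_lit 10) (nat_lit 5) (nat_lit 12) (nat_lit 5) (nat_lit 11) (nat_lit 4) (nat_lit 384) (nat_lit 294) (nat_lit 222)) (XT.lf (nat_lit 0) (nat_lit 18995956531) (nat_lit 76) (nat_lit 4039647267) (nat_lit 152) (nat_lit 50379789600) (nat_lit 9) (nat_lit 5) (nat_lit 10) (nat_lit 5) (nat_lit 11) (nat_lit 4) (nat_lit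 385) (nat_lit 294) (nat_lit 221)))) (XT.nd (nat_lit 78) (nat_lit 76) (nat_lit 0) (XT.lf (nat_lit 0) (nat_lit 33757810985) (nat_lit 152) (nat_lit 36235240581) (nat_lit 0) (nat_lit 6762709169) (nat_lit 9) (nat_lit 5) (nat_lit 11) (nat_lit 4) (nat_lit 9) (nat_lit 4) (nat_lit 386) (nat_lit 294) (nat_lit 220)) (XT.nd (nat_lit 78) (nat_lit 76) (nat_lit 0) (XT.lf (nat_lit 0) (nat_lit 45029395567) (nat_lit 152) (nat_lit 17234787460) (nat_lit 0) (nat_lit 17998569582) (nat_lit 9) (nat_lit 5) (nat_lit 11) (nat_lit 4) (nat_lit 9) (nat_lit 4) (nat_lit 387) (nat_lit 294) (nat_lit 219)) (XT.lf (nat_lit 0) (nat_lit 2719051722) (nat_lit 76) (nat_lit 54145448556) (nat_lit 76) (nat_lit 27080599552) (nat_lit 8) (nat_lit 4) (nat_lit 9) (nat_lit 5) (nat_lit 9) (nat_lit 4) (nat_lit 388) (nat_lit 294) (nat_lit 218))))))))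
noncomputable def xc39 : XT := (XT.nd (nat_lit 42120) (nat_lit 0) (nat_lit 2888) (XT.nd (nat_lit 41184) (nat_lit 0) (nat_lit 9120) (XT.nd (nat_lit 40716) (nat_lit 0) (nat_lit 16948) (XT.nd (nat_lit 156) (nat_lit 152) (nat_lit 0) (XT.nd (nat_lit 78) (nat_lit 0) (nat_lit 0) (XT.lf (nat_lit 0) (nat_lit 23982468644) (nat_lit 76) (nat_lit 45460895659) (nat_lit 76) (nat_lit 18363643779) (nat_lit 8) (nat_lit 4) (nat_lit 9) (nat_lit 5) (nat_lit 9) (nat_lit 4) (nat_lit 389) (nat_lit 294) (nat_lit 217)) (XT.lf (nat_lit 0) (nat_lit 46263084425) (nat_lit 76) (nat_lit 36363884387) (nat_lit 76) (nat_lit 9235772627) (nat_lit 8) (nat_lit 4) (nat_lit 9) (nat_lit 5) (nat_lit 9) (nat_lit 4) (nat_lit 390) (nat_lit 294) (nat_lit 216))) (XT.nd (nat_lit 78) (nat_lit 76) (nat_lit 0) (XT.lf (nat_lit 0) (nat_lit 318409949) (nat_lit 152) (nat_lit 26511129926) (nat_lit 76) (nat_lit 69292322884) (nat_lit 7) (nat_lit 5)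 (nat_lit 9) (nat_lit 5) (nat_lit 8) (nat_lit 4) (nat_lit 391) (nat_lit 294) (nat_lit 215)) (XT.nd (nat_lit 156) (nat_lit 76) (nat_lit 0) (XT.lf (nat_lit 0) (nat_lit 10138894164) (nat_lit 152) (nat_lit 6603537792) (nat_lit 76) (nat_lit 83849379998) (nat_lit 7) (nat_lit 5) (nat_lit 9) (nat_lit 5) (nat_lit 8) (nat_lit 4) (nat_lit 392) (nat_lit 294) (nat_lit 214)) (XT.lf (nat_lit 0) (nat_lit 31619004356) (nat_lit 152) (nat_lit 73409345418) (nat_lit 0) (nat_lit 5174791374) (nat_lit 6) (nat_lit 5) (nat_lit 8) (nat_lit 4) (nat_lit 6) (nat_lit 4) (nat_lit 394) (nat_lit 294) (nat_lit 212))))) (XT.nd (nat_lit 234) (nat_lit 3116) (nat_lit 0) (XT.nd (nat_lit 78) (nat_lit 1748) (nat_lit 0) (XT.lf (nat_lit 0) (nat_lit 515502309) (nat_lit 684) (nat_lit 1428301617) (nat_lit 684) (nat_lit 1428301617) (nat_lit 293) (nat_lit 4) (nat_lit 302) (nat_lit 5) (nat_lit 302) (nat_lit 4) (nat_lit 310) (nat_lit 295) (nat_lit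 295)) (XT.nd (nat_lit 78) (nat_lit 912) (nat_lit 0) (XT.lf (nat_lit 0) (nat_lit 1367986793) (nat_lit 760) (nat_lit 964645819) (nat_lit 836) (nat_lit 4476898682) (nat_lit 282) (nat_lit 5) (nat_lit 292) (nat_lit 5) (nat_lit 293) (nat_lit 4) (nat_lit 311) (nat_lit 295) (nat_lit 294)) (XT.lf (nat_lit 0) (nat_lit 636678867) (nat_lit 912) (nat_lit 5090230471) (nat_lit 76) (nat_lit 1156224172) (nat_lit 270) (nat_lit 5) (nat_lit 282) (nat_lit 5) (nat_lit 271) (nat_lit 4) (nat_lit 312) (nat_lit 295) (nat_lit 293)))) (XT.nd (nat_lit 78) (nat_lit 2204) (nat_lit 0) (XT.lf (nat_lit 0) (nat_lit 2291751249) (nat_lit 912) (nat_lit 3442083343) (nat_lit 988) (nat_lit 1230973704) (nat_lit 258) (nat_lit 5) (nat_lit 270) (nat_lit 5) (nat_lit 271) (nat_lit 4) (nat_lit 313) (nat_lit 295) (nat_lit 292)) (XT.nd (nat_lit 78) (nat_lit 1140) (nat_lit 0) (XT.lf (nat_lit 0) (nat_lit 2876914165) (nat_lit 988) (nat_lit 899157912)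 (nat_lit 1064) (nat_lit 3279056543) (nat_lit 244) (nat_lit 5) (nat_lit 257) (nat_lit 5) (nat_lit 258) (nat_lit 5) (nat_lit 314) (nat_lit 295) (nat_lit 291)) (XT.lf (nat_lit 0) (nat_lit 1669665377) (nat_lit 1140) (nat_lit 3619121917) (nat_lit 76) (nat_lit 1865138609) (nat_lit 229) (nat_lit 5) (nat_lit 244) (nat_lit 5) (nat_lit 230) (nat_lit 5) (nat_lit 315) (nat_lit 295) (nat_lit 290)))))) (XT.nd (nat_lit 468) (nat_lit 2812) (nat_lit 0) (XT.nd (nat_lit 234) (nat_lit 2280) (nat_lit 0) (XT.nd (nat_lit 78) (nat_lit 1596) (nat_lit 0) (XT.lf (nat_lit 0) (nat_lit 4265611359) (nat_lit 1140) (nat_lit 2382882596) (nat_lit 1216) (nat_lit 612954830) (nat_lit 214) (nat_lit 5) (nat_lit 229) (nat_lit 5) (nat_lit 230) (nat_lit 5) (nat_lit 316) (nat_lit 295) (nat_lit 289)) (XT.nd (nat_lit 78) (nat_lit 684) (nat_lit 0) (XT.lf (nat_lit 0) (nat_lit 4271208481) (nat_lit 912) (nat_lit 2320901445) (nat_lit 76) (nat_lit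 785479038) (nat_lit 202) (nat_lit 5) (nat_lit 214) (nat_lit 5) (nat_lit 203) (nat_lit 5) (nat_lit 317) (nat_lit 295) (nat_lit 288)) (XT.lf (nat_lit 0) (nat_lit 1733749628) (nat_lit 684) (nat_lit 1596975313) (nat_lit 76) (nat_lit 4171828335) (nat_lit 193) (nat_lit 5) (nat_lit 202) (nat_lit 5) (nat_lit 194) (nat_lit 5) (nat_lit 318) (nat_lit 295) (nat_lit 287)))) (XT.nd (nat_lit 78) (nat_lit 1748) (nat_lit 0) (XT.lf (nat_lit 0) (nat_lit 6622334408) (nat_lit 608) (nat_lit 814152671) (nat_lit 76) (nat_lit 200458606) (nat_lit 186) (nat_lit 5) (nat_lit 194) (nat_lit 5) (nat_lit 187) (nat_lit 5) (nat_lit 319) (nat_lit 295) (nat_lit 286)) (XT.nd (nat_lit 78) (nat_lit 1140) (nat_lit 0) (XT.lf (nat_lit 0) (nat_lit 3810421092) (nat_lit 608) (nat_lit 15749326) (nat_lit 76) (nat_lit 3953624605) (nat_lit 178) (nat_lit 5) (nat_lit 186) (nat_lit 5) (nat_lit 179) (nat_lit 5) (nat_lit 320) (nat_lit 295) (nat_lit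 285)) (XT.lf (nat_lit 0) (nat_lit 801183748) (nat_lit 608) (nat_lit 7070405285) (nat_lit 76) (nat_lit 61029618) (nat_lit 163) (nat_lit 5) (nat_lit 171) (nat_lit 5) (nat_lit 164) (nat_lit 5) (nat_lit 321) (nat_lit 295) (nat_lit 284))))) (XT.nd (nat_lit 234) (nat_lit 1368) (nat_lit 0) (XT.nd (nat_lit 78) (nat_lit 988) (nat_lit 0) (XT.lf (nat_lit 0) (nat_lit 1738857521) (nat_lit 456) (nat_lit 3921957247) (nat_lit 532) (nat_lit 2433292390) (nat_lit 157) (nat_lit 5) (nat_lit 163) (nat_lit 5) (nat_lit 164) (nat_lit 5) (nat_lit 322) (nat_lit 295) (nat_lit 283)) (XT.nd (nat_lit 78) (nat_lit 456) (nat_lit 0) (XT.lf (nat_lit 0) (nat_lit 2353801480) (nat_lit 532) (nat_lit 5605305257) (nat_lit 76) (nat_lit 306925934) (nat_lit 150) (nat_lit 5) (nat_lit 157) (nat_lit 5) (nat_lit 151) (nat_lit 5) (nat_lit 323) (nat_lit 295) (nat_lit 282)) (XT.lf (nat_lit 0) (nat_lit 3583894625) (nat_lit 456) (nat_lit 3694195219)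 (nat_lit 532) (nat_lit 1169457089) (nat_lit 144) (nat_lit 5) (nat_lit 150) (nat_lit 5) (nat_lit 151) (nat_lit 5) (nat_lit 324) (nat_lit 295) (nat_lit 281)))) (XT.nd (nat_lit 78) (nat_lit 836) (nat_lit 0) (XT.lf (nat_lit 0) (nat_lit 3658935966) (nat_lit 532) (nat_lit 4117775933) (nat_lit 76) (nat_lit 862789162) (nat_lit 137) (nat_lit 5) (nat_lit 144) (nat_lit 5) (nat_lit 138) (nat_lit 5) (nat_lit 325) (nat_lit 295) (nat_lit 280)) (XT.nd (nat_lit 78) (nat_lit 456) (nat_lit 0) (XT.lf (nat_lit 0) (nat_lit 5463018322) (nat_lit 380) (nat_lit 3200979253) (nat_lit 456) (nat_lit 178065939) (nat_lit 132) (nat_lit 5) (nat_lit 137) (nat_lit 5) (nat_lit 138) (nat_lit 5) (nat_lit 326) (nat_lit 295) (nat_lit 279)) (XT.lf (nat_lit 0) (nat_lit 4713842509) (nat_lit 456) (nat_lit 2668287370) (nat_lit 76) (nat_lit 1673025499) (nat_lit 126) (nat_lit 5) (nat_lit 132) (nat_lit 5) (nat_lit 127) (nat_lit 5) (nat_lit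 327) (nat_lit 295) (nat_lit 278))))))) (XT.nd (nat_lit 858) (nat_lit 2204) (nat_lit 0) (XT.nd (nat_lit 390) (nat_lit 1748) (nat_lit 0) (XT.nd (nat_lit 156) (nat_lit 1444) (nat_lit 0) (XT.nd (nat_lit 78) (nat_lit 380) (nat_lit 0) (XT.lf (nat_lit 0) (nat_lit 523270565) (nat_lit 456) (nat_lit 1970567793) (nat_lit 76) (nat_lit 6785971343) (nat_lit 120) (nat_lit 5) (nat_lit 126) (nat_lit 5) (nat_lit 121) (nat_lit 5) (nat_lit 328) (nat_lit 295) (nat_lit 277)) (XT.lf (nat_lit 0) (nat_lit 5508634296) (nat_lit 456) (nat_lit 1324270600) (nat_lit 76) (nat_lit 2682597096) (nat_lit 115) (nat_lit 5) (nat_lit 121) (nat_lit 5) (nat_lit 116) (nat_lit 5) (nat_lit 329) (nat_lit 295) (nat_lit 276))) (XT.nd (nat_lit 78) (nat_lit 1064) (nat_lit 0) (XT.lf (nat_lit 0) (nat_lit 932349742) (nat_lit 380) (nat_lit 703990590) (nat_lit 76) (nat_lit 8127326314) (nat_lit 110) (nat_lit 5) (nat_lit 115) (nat_lit 5) (nat_lit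 111) (nat_lit 5) (nat_lit 330) (nat_lit 295) (nat_lit 275)) (XT.nd (nat_lit 78) (nat_lit 684) (nat_lit 0) (XT.lf (nat_lit 0) (nat_lit 6025669658) (nat_lit 456) (nat_lit 162204895) (nat_lit 76) (nat_lit 3835575653) (nat_lit 105) (nat_lit 5) (nat_lit 111) (nat_lit 5) (nat_lit 106) (nat_lit 5) (nat_lit 331) (nat_lit 295) (nat_lit 274)) (XT.lf (nat_lit 0) (nat_lit 347133438) (nat_lit 304) (nat_lit 686001494) (nat_lit 380) (nat_lit 9263569002) (nat_lit 96) (nat_lit 5) (nat_lit 100) (nat_lit 5) (nat_lit 101) (nat_lit 5) (nat_lit 332) (nat_lit 295) (nat_lit 273))))) (XT.nd (nat_lit 234) (nat_lit 836) (nat_lit 0) (XT.nd (nat_lit 78) (nat_lit 608) (nat_lit 0) (XT.lf (nat_lit 0) (nat_lit 744542469) (nat_lit 304) (nat_lit 5501363604) (nat_lit 380) (nat_lit 4336226166) (nat_lit 92) (nat_lit 5) (nat_lit 96) (nat_lit 5) (nat_lit 97) (nat_lit 5) (nat_lit 333) (nat_lit 295) (nat_lit 272)) (XT.nd (nat_lit 78)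 (nat_lit 228) (nat_lit 0) (XT.lf (nat_lit 0) (nat_lit 796912457) (nat_lit 380) (nat_lit 9796320659) (nat_lit 76) (nat_lit 289166543) (nat_lit 87) (nat_lit 5) (nat_lit 92) (nat_lit 5) (nat_lit 88) (nat_lit 5) (nat_lit 334) (nat_lit 295) (nat_lit 271)) (XT.lf (nat_lit 0) (nat_lit 1275248352) (nat_lit 228) (nat_lit 4849108815) (nat_lit 304) (nat_lit 5071293849) (nat_lit 84) (nat_lit 5) (nat_lit 87) (nat_lit 5) (nat_lit 88) (nat_lit 5) (nat_lit 335) (nat_lit 295) (nat_lit 270)))) (XT.nd (nat_lit 78) (nat_lit 456) (nat_lit 0) (XT.lf (nat_lit 0) (nat_lit 176718319) (nat_lit 380) (nat_lit 10142092364) (nat_lit 76) (nat_lit 1206164319) (nat_lit 79) (nat_lit 5) (nat_lit 84) (nat_lit 5) (nat_lit 80) (nat_lit 5) (nat_lit 336) (nat_lit 295) (nat_lit 269)) (XT.nd (nat_lit 78) (nat_lit 228) (nat_lit 0) (XT.lf (nat_lit 0) (nat_lit 1305045620) (nat_lit 228) (nat_lit 4306611339) (nat_lit 304) (nat_lit 6256788723)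 (nat_lit 76) (nat_lit 5) (nat_lit 79) (nat_lit 5) (nat_lit 80) (nat_lit 5) (nat_lit 337) (nat_lit 295) (nat_lit 268)) (XT.lf (nat_lit 0) (nat_lit 1104240840) (nat_lit 228) (nat_lit 10217075880) (nat_lit 304) (nat_lit 907749719) (nat_lit 73) (nat_lit 5) (nat_lit 76) (nat_lit 5) (nat_lit 77) (nat_lit 5) (nat_lit 338) (nat_lit 295) (nat_lit 267)))))) (XT.nd (nat_lit 468) (nat_lit 988) (nat_lit 0) (XT.nd (nat_lit 234) (nat_lit 608) (nat_lit 0) (XT.nd (nat_lit 78) (nat_lit 304) (nat_lit 0) (XT.lf (nat_lit 0) (nat_lit 691031271) (nat_lit 228) (nat_lit 3956427160) (nat_lit 304) (nat_lit 7958044666) (nat_lit 69) (nat_lit 5) (nat_lit 72) (nat_lit 5) (nat_lit 73) (nat_lit 5) (nat_lit 339) (nat_lit 295) (nat_lit 266)) (XT.nd (nat_lit 78) (nat_lit 76) (nat_lit 0) (XT.lf (nat_lit 0) (nat_lit 97835668) (nat_lit 228) (nat_lit 10379966768) (nat_lit 304) (nat_lit 2522262970) (nat_lit 66) (nat_lit 5) (nat_lit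 69) (nat_lit 5) (nat_lit 70) (nat_lit 5) (nat_lit 340) (nat_lit 295) (nat_lit 265)) (XT.lf (nat_lit 0) (nat_lit 3164018605) (nat_lit 304) (nat_lit 720882560) (nat_lit 76) (nat_lit 9527363613) (nat_lit 65) (nat_lit 5) (nat_lit 69) (nat_lit 5) (nat_lit 66) (nat_lit 5) (nat_lit 341) (nat_lit 295) (nat_lit 264)))) (XT.nd (nat_lit 78) (nat_lit 456) (nat_lit 0) (XT.lf (nat_lit 0) (nat_lit 9111014751) (nat_lit 228) (nat_lit 1782032958) (nat_lit 76) (nat_lit 2950471285) (nat_lit 63) (nat_lit 5) (nat_lit 66) (nat_lit 5) (nat_lit 64) (nat_lit 5) (nat_lit 342) (nat_lit 295) (nat_lit 263)) (XT.nd (nat_lit 78) (nat_lit 152) (nat_lit 0) (XT.lf (nat_lit 0) (nat_lit 1079094391) (nat_lit 304) (nat_lit 3110759719) (nat_lit 76) (nat_lit 10105001519) (nat_lit 59) (nat_lit 5) (nat_lit 63) (nat_lit 5) (nat_lit 60) (nat_lit 5) (nat_lit 343) (nat_lit 295) (nat_lit 262)) (XT.lf (nat_lit 0) (nat_lit 7116189617) (nat_lit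 228) (nat_lit 4763215077) (nat_lit 76) (nat_lit 2887009859) (nat_lit 57) (nat_lit 5) (nat_lit 60) (nat_lit 5) (nat_lit 58) (nat_lit 5) (nat_lit 344) (nat_lit 295) (nat_lit 261))))) (XT.nd (nat_lit 234) (nat_lit 380) (nat_lit 0) (XT.nd (nat_lit 78) (nat_lit 380) (nat_lit 0) (XT.lf (nat_lit 0) (nat_lit 8520546219) (nat_lit 228) (nat_lit 4982664227) (nat_lit 304) (nat_lit 1756941627) (nat_lit 54) (nat_lit 5) (nat_lit 57) (nat_lit 5) (nat_lit 58) (nat_lit 5) (nat_lit 345) (nat_lit 295) (nat_lit 260)) (XT.nd (nat_lit 78) (nat_lit 152) (nat_lit 0) (XT.lf (nat_lit 0) (nat_lit 4374993054) (nat_lit 228) (nat_lit 9098431999) (nat_lit 76) (nat_lit 2302999597) (nat_lit 51) (nat_lit 5) (nat_lit 54) (nat_lit 5) (nat_lit 52) (nat_lit 5) (nat_lit 346) (nat_lit 295) (nat_lit 259)) (XT.lf (nat_lit 0) (nat_lit 4433960978) (nat_lit 152) (nat_lit 6403207299) (nat_lit 228) (nat_lit 5479058982) (nat_lit 49) (nat_lit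 5) (nat_lit 51) (nat_lit 5) (nat_lit 52) (nat_lit 5) (nat_lit 347) (nat_lit 295) (nat_lit 258)))) (XT.nd (nat_lit 78) (nat_lit 152) (nat_lit 0) (XT.lf (nat_lit 0) (nat_lit 746210947) (nat_lit 228) (nat_lit 15084444759) (nat_lit 76) (nat_lit 1051549657) (nat_lit 46) (nat_lit 5) (nat_lit 49) (nat_lit 5) (nat_lit 47) (nat_lit 5) (nat_lit 348) (nat_lit 295) (nat_lit 257)) (XT.nd (nat_lit 78) (nat_lit 152) (nat_lit 0) (XT.lf (nat_lit 0) (nat_lit 7260113569) (nat_lit 228) (nat_lit 1353011037) (nat_lit 76) (nat_lit 8859042956) (nat_lit 46) (nat_lit 5) (nat_lit 49) (nat_lit 5) (nat_lit 47) (nat_lit 5) (nat_lit 349) (nat_lit 295) (nat_lit 256)) (XT.lf (nat_lit 0) (nat_lit 13160712234) (nat_lit 152) (nat_lit 971673187) (nat_lit 228) (nat_lit 3958293818) (nat_lit 44) (nat_lit 5) (nat_lit 46) (nat_lit 5) (nat_lit 47) (nat_lit 5) (nat_lit 350) (nat_lit 295) (nat_lit 255))))))))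
noncomputable def xc40 : XT := (XT.nd (nat_lit 1716) (nat_lit 760) (nat_lit 0) (XT.nd (nat_lit 858) (nat_lit 760) (nat_lit 0) (XT.nd (nat_lit 390) (nat_lit 608) (nat_lit 0) (XT.nd (nat_lit 156) (nat_lit 380) (nat_lit 0) (XT.nd (nat_lit 78) (nat_lit 152) (nat_lit 0) (XT.lf (nat_lit 0) (nat_lit 2641171151) (nat_lit 228) (nat_lit 9113061636) (nat_lit 76) (nat_lit 6982643452) (nat_lit 41) (nat_lit 5) (nat_lit 44) (nat_lit 5) (nat_lit 42) (nat_lit 5) (nat_lit 351) (nat_lit 295) (nat_lit 254)) (XT.lf (nat_lit 0) (nat_lit 5495556624) (nat_lit 152) (nat_lit 4018305805) (nat_lit 228) (nat_lit 9899619248) (nat_lit 39) (nat_lit 5) (nat_lit 41) (nat_lit 5) (nat_lit 42) (nat_lit 5) (nat_lit 352) (nat_lit 295) (nat_lit 253))) (XT.nd (nat_lit 78) (nat_lit 228) (nat_lit 0) (XT.lf (nat_lit 0) (nat_lit 724284576) (nat_lit 152) (nat_lit 16059715743) (nat_lit 228) (nat_lit 3338329203) (nat_lit 37) (nat_lit 5)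 (nat_lit 39) (nat_lit 5) (nat_lit 40) (nat_lit 4) (nat_lit 353) (nat_lit 295) (nat_lit 252)) (XT.nd (nat_lit 78) (nat_lit 152) (nat_lit 0) (XT.lf (nat_lit 0) (nat_lit 3581501302) (nat_lit 228) (nat_lit 4699717244) (nat_lit 76) (nat_lit 12581408594) (nat_lit 36) (nat_lit 5) (nat_lit 39) (nat_lit 5) (nat_lit 37) (nat_lit 5) (nat_lit 354) (nat_lit 295) (nat_lit 251)) (XT.lf (nat_lit 0) (nat_lit 10766367504) (nat_lit 152) (nat_lit 34639454) (nat_lit 228) (nat_lit 10837282667) (nat_lit 34) (nat_lit 5) (nat_lit 36) (nat_lit 5) (nat_lit 37) (nat_lit 5) (nat_lit 355) (nat_lit 295) (nat_lit 250))))) (XT.nd (nat_lit 234) (nat_lit 304) (nat_lit 0) (XT.nd (nat_lit 78) (nat_lit 228) (nat_lit 0) (XT.lf (nat_lit 0) (nat_lit 4516182544) (nat_lit 76) (nat_lit 13961022576) (nat_lit 152) (nat_lit 3972680819) (nat_lit 33) (nat_lit 5) (nat_lit 34) (nat_lit 5) (nat_lit 35) (nat_lit 4) (nat_lit 356) (nat_lit 295)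 (nat_lit 249)) (XT.nd (nat_lit 78) (nat_lit 152) (nat_lit 0) (XT.lf (nat_lit 0) (nat_lit 3207622671) (nat_lit 152) (nat_lit 2569143073) (nat_lit 76) (nat_lit 17523315894) (nat_lit 32) (nat_lit 5) (nat_lit 34) (nat_lit 5) (nat_lit 33) (nat_lit 5) (nat_lit 357) (nat_lit 295) (nat_lit 248)) (XT.lf (nat_lit 0) (nat_lit 10750976428) (nat_lit 228) (nat_lit 10560196939) (nat_lit 76) (nat_lit 2877867430) (nat_lit 30) (nat_lit 5) (nat_lit 33) (nat_lit 5) (nat_lit 31) (nat_lit 4) (nat_lit 358) (nat_lit 295) (nat_lit 247)))) (XT.nd (nat_lit 78) (nat_lit 228) (nat_lit 0) (XT.lf (nat_lit 0) (nat_lit 5487273573) (nat_lit 76) (nat_lit 13249665654) (nat_lit 152) (nat_lit 6383564084) (nat_lit 29) (nat_lit 5) (nat_lit 30) (nat_lit 5) (nat_lit 31) (nat_lit 4) (nat_lit 359) (nat_lit 295) (nat_lit 246)) (XT.nd (nat_lit 78) (nat_lit 152) (nat_lit 0) (XT.lf (nat_lit 0) (nat_lit 1042667919) (nat_lit 152) (nat_lit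 3676097305) (nat_lit 76) (nat_lit 21378326297) (nat_lit 28) (nat_lit 5) (nat_lit 30) (nat_lit 5) (nat_lit 29) (nat_lit 5) (nat_lit 360) (nat_lit 295) (nat_lit 245)) (XT.lf (nat_lit 0) (nat_lit 8810499971) (nat_lit 228) (nat_lit 14011500137) (nat_lit 76) (nat_lit 4295560023) (nat_lit 26) (nat_lit 5) (nat_lit 29) (nat_lit 5) (nat_lit 27) (nat_lit 4) (nat_lit 361) (nat_lit 295) (nat_lit 244)))))) (XT.nd (nat_lit 390) (nat_lit 380) (nat_lit 0) (XT.nd (nat_lit 156) (nat_lit 304) (nat_lit 0) (XT.nd (nat_lit 78) (nat_lit 0) (nat_lit 0) (XT.lf (nat_lit 0) (nat_lit 2497358128) (nat_lit 76) (nat_lit 14513353581) (nat_lit 152) (nat_lit 11177036452) (nat_lit 25) (nat_lit 5) (nat_lit 26) (nat_lit 5) (nat_lit 27) (nat_lit 4) (nat_lit 362) (nat_lit 295) (nat_lit 243)) (XT.lf (nat_lit 0) (nat_lit 20008286875) (nat_lit 76) (nat_lit 5693040245) (nat_lit 152) (nat_lit 3607721565) (nat_lit 25) (nat_lit 5) (nat_lit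 26) (nat_lit 5) (nat_lit 27) (nat_lit 4) (nat_lit 363) (nat_lit 295) (nat_lit 242))) (XT.nd (nat_lit 78) (nat_lit 76) (nat_lit 0) (XT.lf (nat_lit 0) (nat_lit 4304958512) (nat_lit 228) (nat_lit 22610631931) (nat_lit 76) (nat_lit 3568098287) (nat_lit 22) (nat_lit 5) (nat_lit 25) (nat_lit 5) (nat_lit 23) (nat_lit 4) (nat_lit 364) (nat_lit 295) (nat_lit 241)) (XT.nd (nat_lit 78) (nat_lit 76) (nat_lit 0) (XT.lf (nat_lit 0) (nat_lit 12633494419) (nat_lit 228) (nat_lit 5819082184) (nat_lit 76) (nat_lit 13260580631) (nat_lit 22) (nat_lit 5) (nat_lit 25) (nat_lit 5) (nat_lit 23) (nat_lit 4) (nat_lit 365) (nat_lit 295) (nat_lit 240)) (XT.lf (nat_lit 0) (nat_lit 11940285101) (nat_lit 76) (nat_lit 9495796132) (nat_lit 152) (nat_lit 11566301691) (nat_lit 21) (nat_lit 5) (nat_lit 22) (nat_lit 5) (nat_lit 23) (nat_lit 4) (nat_lit 366) (nat_lit 295) (nat_lit 239))))) (XT.nd (nat_lit 234) (nat_lit 228) (nat_lit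 0) (XT.nd (nat_lit 78) (nat_lit 152) (nat_lit 0) (XT.lf (nat_lit 0) (nat_lit 30607467401) (nat_lit 76) (nat_lit 75822540) (nat_lit 152) (nat_lit 3672657070) (nat_lit 21) (nat_lit 5) (nat_lit 22) (nat_lit 5) (nat_lit 23) (nat_lit 4) (nat_lit 367) (nat_lit 295) (nat_lit 238)) (XT.nd (nat_lit 78) (nat_lit 0) (nat_lit 0) (XT.lf (nat_lit 0) (nat_lit 4708125699) (nat_lit 152) (nat_lit 21296173917) (nat_lit 76) (nat_lit 9766093893) (nat_lit 19) (nat_lit 5) (nat_lit 21) (nat_lit 5) (nat_lit 20) (nat_lit 4) (nat_lit 368) (nat_lit 295) (nat_lit 237)) (XT.lf (nat_lit 0) (nat_lit 13420332744) (nat_lit 152) (nat_lit 3702550786) (nat_lit 76) (nat_lit 20131948144) (nat_lit 19) (nat_lit 5) (nat_lit 21) (nat_lit 5) (nat_lit 20) (nat_lit 4) (nat_lit 369) (nat_lit 295) (nat_lit 236)))) (XT.nd (nat_lit 78) (nat_lit 152) (nat_lit 0) (XT.lf (nat_lit 0) (nat_lit 14971165664) (nat_lit 76) (nat_lit 7691278007) (nat_lit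 152) (nat_lit 16148229241) (nat_lit 18) (nat_lit 5) (nat_lit 19) (nat_lit 5) (nat_lit 20) (nat_lit 4) (nat_lit 370) (nat_lit 295) (nat_lit 235)) (XT.nd (nat_lit 78) (nat_lit 152) (nat_lit 0) (XT.lf (nat_lit 0) (nat_lit 32377908055) (nat_lit 152) (nat_lit 5899020668) (nat_lit 0) (nat_lit 2167049550) (nat_lit 18) (nat_lit 5) (nat_lit 20) (nat_lit 4) (nat_lit 18) (nat_lit 4) (nat_lit 371) (nat_lit 295) (nat_lit 234)) (XT.lf (nat_lit 0) (nat_lit 570218239) (nat_lit 152) (nat_lit 29130605604) (nat_lit 76) (nat_lit 12453266034) (nat_lit 16) (nat_lit 5) (nat_lit 18) (nat_lit 5) (nat_lit 17) (nat_lit 4) (nat_lit 372) (nat_lit 295) (nat_lit 233))))))) (XT.nd (nat_lit 858) (nat_lit 380) (nat_lit 0) (XT.nd (nat_lit 390) (nat_lit 228) (nat_lit 0) (XT.nd (nat_lit 156) (nat_lit 76) (nat_lit 0) (XT.nd (nat_lit 78) (nat_lit 76) (nat_lit 0) (XT.lf (nat_lit 0) (nat_lit 9489129339) (nat_lit 152) (nat_lit 11098825714)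 (nat_lit 76) (nat_lit 23358835699) (nat_lit 16) (nat_lit 5) (nat_lit 18) (nat_lit 5) (nat_lit 17) (nat_lit 4) (nat_lit 373) (nat_lit 295) (nat_lit 232)) (XT.lf (nat_lit 0) (nat_lit 7908569743) (nat_lit 76) (nat_lit 10978342787) (nat_lit 152) (nat_lit 26941234310) (nat_lit 15) (nat_lit 5) (nat_lit 16) (nat_lit 5) (nat_lit 17) (nat_lit 4) (nat_lit 374) (nat_lit 295) (nat_lit 231))) (XT.nd (nat_lit 78) (nat_lit 76) (nat_lit 0) (XT.lf (nat_lit 0) (nat_lit 28020271408) (nat_lit 76) (nat_lit 806773033) (nat_lit 152) (nat_lit 18974360089) (nat_lit 15) (nat_lit 5) (nat_lit 16) (nat_lit 5) (nat_lit 17) (nat_lit 4) (nat_lit 375) (nat_lit 295) (nat_lit 230)) (XT.nd (nat_lit 78) (nat_lit 76) (nat_lit 0) (XT.lf (nat_lit 0) (nat_lit 39318957523) (nat_lit 152) (nat_lit 905828013) (nat_lit 0) (nat_lit 9646903556) (nat_lit 15) (nat_lit 5) (nat_lit 17) (nat_lit 4) (nat_lit 15) (nat_lit 4) (nat_lit 376) (nat_lit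 295) (nat_lit 229)) (XT.lf (nat_lit 0) (nat_lit 19208350023) (nat_lit 76) (nat_lit 31281678413) (nat_lit 76) (nat_lit 1550829461) (nat_lit 14) (nat_lit 4) (nat_lit 15) (nat_lit 5) (nat_lit 15) (nat_lit 4) (nat_lit 377) (nat_lit 295) (nat_lit 228))))) (XT.nd (nat_lit 234) (nat_lit 76) (nat_lit 0) (XT.nd (nat_lit 78) (nat_lit 76) (nat_lit 0) (XT.lf (nat_lit 0) (nat_lit 7718959744) (nat_lit 152) (nat_lit 14117355895) (nat_lit 76) (nat_lit 32480738172) (nat_lit 13) (nat_lit 5) (nat_lit 15) (nat_lit 5) (nat_lit 14) (nat_lit 4) (nat_lit 378) (nat_lit 295) (nat_lit 227)) (XT.nd (nat_lit 78) (nat_lit 0) (nat_lit 0) (XT.lf (nat_lit 0) (nat_lit 5559458789) (nat_lit 76) (nat_lit 11878783452) (nat_lit 152) (nat_lit 39267820375) (nat_lit 12) (nat_lit 5) (nat_lit 13) (nat_lit 5) (nat_lit 14) (nat_lit 4) (nat_lit 379) (nat_lit 295) (nat_lit 226)) (XT.lf (nat_lit 0) (nat_lit 26450116813) (nat_lit 76) (nat_lit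 1304109341) (nat_lit 152) (nat_lit 31456979359) (nat_lit 12) (nat_lit 5) (nat_lit 13) (nat_lit 5) (nat_lit 14) (nat_lit 4) (nat_lit 380) (nat_lit 295) (nat_lit 225)))) (XT.nd (nat_lit 78) (nat_lit 76) (nat_lit 0) (XT.lf (nat_lit 0) (nat_lit 38646986258) (nat_lit 152) (nat_lit 13613122875) (nat_lit 0) (nat_lit 9579672607) (nat_lit 12) (nat_lit 5) (nat_lit 14) (nat_lit 4) (nat_lit 12) (nat_lit 4) (nat_lit 381) (nat_lit 295) (nat_lit 224)) (XT.nd (nat_lit 78) (nat_lit 0) (nat_lit 0) (XT.lf (nat_lit 0) (nat_lit 6547191936) (nat_lit 76) (nat_lit 43581652779) (nat_lit 76) (nat_lit 14469613487) (nat_lit 11) (nat_lit 4) (nat_lit 12) (nat_lit 5) (nat_lit 12) (nat_lit 4) (nat_lit 382) (nat_lit 295) (nat_lit 223)) (XT.lf (nat_lit 0) (nat_lit 27942060545) (nat_lit 76) (nat_lit 34352182332) (nat_lit 76) (nat_lit 5197547192) (nat_lit 11) (nat_lit 4) (nat_lit 12) (nat_lit 5) (nat_lit 12) (nat_lit 4) (nat_lit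 383) (nat_lit 295) (nat_lit 222)))))) (XT.nd (nat_lit 468) (nat_lit 152) (nat_lit 0) (XT.nd (nat_lit 234) (nat_lit 76) (nat_lit 0) (XT.nd (nat_lit 78) (nat_lit 76) (nat_lit 0) (XT.lf (nat_lit 0) (nat_lit 4420046314) (nat_lit 152) (nat_lit 20222508595) (nat_lit 76) (nat_lit 45886815161) (nat_lit 10) (nat_lit 5) (nat_lit 12) (nat_lit 5) (nat_lit 11) (nat_lit 4) (nat_lit 384) (nat_lit 295) (nat_lit 221)) (XT.nd (nat_lit 78) (nat_lit 76) (nat_lit 0) (XT.lf (nat_lit 0) (nat_lit 14383910258) (nat_lit 152) (nat_lit 34500477) (nat_lit 76) (nat_lit 59299692380) (nat_lit 10) (nat_lit 5) (nat_lit 12) (nat_lit 5) (nat_lit 11) (nat_lit 4) (nat_lit 385) (nat_lit 295) (nat_lit 220)) (XT.lf (nat_lit 0) (nat_lit 21532500153) (nat_lit 76) (nat_lit 3493674404) (nat_lit 152) (nat_lit 52034696222) (nat_lit 9) (nat_lit 5) (nat_lit 10) (nat_lit 5) (nat_lit 11) (nat_lit 4) (nat_lit 386) (nat_lit 295) (nat_lit 219))))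 (XT.nd (nat_lit 78) (nat_lit 76) (nat_lit 0) (XT.lf (nat_lit 0) (nat_lit 36251397126) (nat_lit 152) (nat_lit 36518575675) (nat_lit 0) (nat_lit 7799282653) (nat_lit 9) (nat_lit 5) (nat_lit 11) (nat_lit 4) (nat_lit 9) (nat_lit 4) (nat_lit 387) (nat_lit 295) (nat_lit 218)) (XT.nd (nat_lit 78) (nat_lit 76) (nat_lit 0) (XT.lf (nat_lit 0) (nat_lit 48048194481) (nat_lit 152) (nat_lit 16640882133) (nat_lit 0) (nat_lit 19563677132) (nat_lit 9) (nat_lit 5) (nat_lit 11) (nat_lit 4) (nat_lit 9) (nat_lit 4) (nat_lit 388) (nat_lit 295) (nat_lit 217)) (XT.lf (nat_lit 0) (nat_lit 4268923245) (nat_lit 76) (nat_lit 56183183154) (nat_lit 76) (nat_lit 27667805924) (nat_lit 8) (nat_lit 4) (nat_lit 9) (nat_lit 5) (nat_lit 9) (nat_lit 4) (nat_lit 389) (nat_lit 295) (nat_lit 216))))) (XT.nd (nat_lit 312) (nat_lit 76) (nat_lit 0) (XT.nd (nat_lit 78) (nat_lit 76) (nat_lit 0) (XT.lf (nat_lit 0) (nat_lit 26528181540)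 (nat_lit 76) (nat_lit 47096285365) (nat_lit 76) (nat_lit 18551517772) (nat_lit 8) (nat_lit 4) (nat_lit 9) (nat_lit 5) (nat_lit 9) (nat_lit 4) (nat_lit 390) (nat_lit 295) (nat_lit 215)) (XT.nd (nat_lit 78) (nat_lit 76) (nat_lit 0) (XT.lf (nat_lit 0) (nat_lit 49858704802) (nat_lit 76) (nat_lit 37574788057) (nat_lit 76) (nat_lit 9002029643) (nat_lit 8) (nat_lit 4) (nat_lit 9) (nat_lit 5) (nat_lit 9) (nat_lit 4) (nat_lit 391) (nat_lit 295) (nat_lit 214)) (XT.lf (nat_lit 0) (nat_lit 983815483) (nat_lit 152) (nat_lit 26602270909) (nat_lit 76) (nat_lit 73322291806) (nat_lit 7) (nat_lit 5) (nat_lit 9) (nat_lit 5) (nat_lit 8) (nat_lit 4) (nat_lit 392) (nat_lit 295) (nat_lit 213)))) (XT.nd (nat_lit 40170) (nat_lit 0) (nat_lit 22496) (XT.lf (nat_lit 0) (nat_lit 16412175139) (nat_lit 76) (nat_lit 5785440380) (nat_lit 152) (nat_lit 88330083926) (nat_lit 6) (nat_lit 5) (nat_lit 7) (nat_lit 5) (nat_lit 8)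 (nat_lit 4) (nat_lit 394) (nat_lit 295) (nat_lit 211)) (XT.nd (nat_lit 78) (nat_lit 684) (nat_lit 0) (XT.lf (nat_lit 0) (nat_lit 389086176) (nat_lit 532) (nat_lit 1464119252) (nat_lit 532) (nat_lit 1464119252) (nat_lit 311) (nat_lit 4) (nat_lit 318) (nat_lit 5) (nat_lit 318) (nat_lit 4) (nat_lit 308) (nat_lit 296) (nat_lit 296)) (XT.lf (nat_lit 0) (nat_lit 795219428) (nat_lit 608) (nat_lit 1390449693) (nat_lit 684) (nat_lit 4501704715) (nat_lit 302) (nat_lit 5) (nat_lit 310) (nat_lit 5) (nat_lit 311) (nat_lit 4) (nat_lit 309) (nat_lit 296) (nat_lit 295))))))))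
noncomputable def xc41 : XT := (XT.nd (nat_lit 1794) (nat_lit 4864) (nat_lit 0) (XT.nd (nat_lit 858) (nat_lit 5928) (nat_lit 0) (XT.nd (nat_lit 390) (nat_lit 5016) (nat_lit 0) (XT.nd (nat_lit 156) (nat_lit 2888) (nat_lit 0) (XT.nd (nat_lit 78) (nat_lit 760) (nat_lit 0) (XT.lf (nat_lit 0) (nat_lit 525008688) (nat_lit 760) (nat_lit 5837110054) (nat_lit 76) (nat_lit 386305894) (nat_lit 292) (nat_lit 5) (nat_lit 302) (nat_lit 5) (nat_lit 293) (nat_lit 4) (nat_lit 310) (nat_lit 296) (nat_lit 294)) (XT.lf (nat_lit 0) (nat_lit 1099599487) (nat_lit 760) (nat_lit 4422267014) (nat_lit 836) (nat_lit 1295331347) (nat_lit 282) (nat_lit 5) (nat_lit 292) (nat_lit 5) (nat_lit 293) (nat_lit 4) (nat_lit 311) (nat_lit 296) (nat_lit 293))) (XT.nd (nat_lit 78) (nat_lit 1976) (nat_lit 0) (XT.lf (nat_lit 0) (nat_lit 1378285652) (nat_lit 836) (nat_lit 2232287337) (nat_lit 912) (nat_lit 3283841595) (nat_lit 270) (nat_lit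 5) (nat_lit 281) (nat_lit 5) (nat_lit 282) (nat_lit 5) (nat_lit 312) (nat_lit 296) (nat_lit 292)) (XT.nd (nat_lit 78) (nat_lit 988) (nat_lit 0) (XT.lf (nat_lit 0) (nat_lit 1544837686) (nat_lit 988) (nat_lit 5231118066) (nat_lit 76) (nat_lit 204376534) (nat_lit 257) (nat_lit 5) (nat_lit 270) (nat_lit 5) (nat_lit 258) (nat_lit 5) (nat_lit 313) (nat_lit 296) (nat_lit 291)) (XT.lf (nat_lit 0) (nat_lit 2181902008) (nat_lit 988) (nat_lit 4218007269) (nat_lit 1064) (nat_lit 674371665) (nat_lit 244) (nat_lit 5) (nat_lit 257) (nat_lit 5) (nat_lit 258) (nat_lit 5) (nat_lit 314) (nat_lit 296) (nat_lit 290))))) (XT.nd (nat_lit 234) (nat_lit 1824) (nat_lit 0) (XT.nd (nat_lit 78) (nat_lit 2052) (nat_lit 0) (XT.lf (nat_lit 0) (nat_lit 2686681307) (nat_lit 1064) (nat_lit 1392394481) (nat_lit 1140) (nat_lit 3097718540) (nat_lit 229) (nat_lit 5) (nat_lit 243) (nat_lit 5) (nat_lit 244) (nat_lit 5) (nat_lit 315)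 (nat_lit 296) (nat_lit 289)) (XT.nd (nat_lit 78) (nat_lit 836) (nat_lit 0) (XT.lf (nat_lit 0) (nat_lit 1601424202) (nat_lit 1216) (nat_lit 4026743258) (nat_lit 76) (nat_lit 1659888628) (nat_lit 213) (nat_lit 5) (nat_lit 229) (nat_lit 5) (nat_lit 214) (nat_lit 5) (nat_lit 316) (nat_lit 296) (nat_lit 288)) (XT.lf (nat_lit 0) (nat_lit 3894632656) (nat_lit 836) (nat_lit 2450003014) (nat_lit 912) (nat_lit 1063371393) (nat_lit 202) (nat_lit 5) (nat_lit 213) (nat_lit 5) (nat_lit 214) (nat_lit 5) (nat_lit 317) (nat_lit 296) (nat_lit 287)))) (XT.nd (nat_lit 78) (nat_lit 1140) (nat_lit 0) (XT.lf (nat_lit 0) (nat_lit 3593436069) (nat_lit 684) (nat_lit 2954849341) (nat_lit 76) (nat_lit 988509445) (nat_lit 193) (nat_lit 5) (nat_lit 202) (nat_lit 5) (nat_lit 194) (nat_lit 5) (nat_lit 318) (nat_lit 296) (nat_lit 286)) (XT.nd (nat_lit 78) (nat_lit 532) (nat_lit 0) (XT.lf (nat_lit 0) (nat_lit 674426453) (nat_lit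 608) (nat_lit 2353196575) (nat_lit 76) (nat_lit 4647048697) (nat_lit 185) (nat_lit 5) (nat_lit 193) (nat_lit 5) (nat_lit 186) (nat_lit 5) (nat_lit 319) (nat_lit 296) (nat_lit 285)) (XT.lf (nat_lit 0) (nat_lit 5334017574) (nat_lit 608) (nat_lit 1717708665) (nat_lit 76) (nat_lit 769967454) (nat_lit 178) (nat_lit 5) (nat_lit 186) (nat_lit 5) (nat_lit 179) (nat_lit 5) (nat_lit 320) (nat_lit 296) (nat_lit 284)))))) (XT.nd (nat_lit 468) (nat_lit 2356) (nat_lit 0) (XT.nd (nat_lit 234) (nat_lit 1444) (nat_lit 0) (XT.nd (nat_lit 78) (nat_lit 1520) (nat_lit 0) (XT.lf (nat_lit 0) (nat_lit 2129631529) (nat_lit 608) (nat_lit 1058716805) (nat_lit 76) (nat_lit 4789560516) (nat_lit 170) (nat_lit 5) (nat_lit 178) (nat_lit 5) (nat_lit 171) (nat_lit 5) (nat_lit 321) (nat_lit 296) (nat_lit 283)) (XT.nd (nat_lit 78) (nat_lit 988) (nat_lit 0) (XT.lf (nat_lit 0) (nat_lit 6836332205) (nat_lit 608) (nat_lit 363900055)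 (nat_lit 76) (nat_lit 943837498) (nat_lit 163) (nat_lit 5) (nat_lit 171) (nat_lit 5) (nat_lit 164) (nat_lit 5) (nat_lit 322) (nat_lit 296) (nat_lit 282)) (XT.lf (nat_lit 0) (nat_lit 336879822) (nat_lit 456) (nat_lit 2998944568) (nat_lit 532) (nat_lit 4983571469) (nat_lit 150) (nat_lit 5) (nat_lit 156) (nat_lit 5) (nat_lit 157) (nat_lit 5) (nat_lit 323) (nat_lit 296) (nat_lit 281)))) (XT.nd (nat_lit 78) (nat_lit 988) (nat_lit 0) (XT.lf (nat_lit 0) (nat_lit 1076494965) (nat_lit 456) (nat_lit 7041298792) (nat_lit 532) (nat_lit 387460337) (nat_lit 144) (nat_lit 5) (nat_lit 150) (nat_lit 5) (nat_lit 151) (nat_lit 5) (nat_lit 324) (nat_lit 296) (nat_lit 280)) (XT.nd (nat_lit 78) (nat_lit 456) (nat_lit 0) (XT.lf (nat_lit 0) (nat_lit 1795715043) (nat_lit 456) (nat_lit 2508129064) (nat_lit 532) (nat_lit 4396862272) (nat_lit 137) (nat_lit 5) (nat_lit 143) (nat_lit 5) (nat_lit 144) (nat_lit 5) (nat_lit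 325) (nat_lit 296) (nat_lit 279)) (XT.lf (nat_lit 0) (nat_lit 259889600) (nat_lit 456) (nat_lit 6375196061) (nat_lit 76) (nat_lit 2272264761) (nat_lit 131) (nat_lit 5) (nat_lit 137) (nat_lit 5) (nat_lit 132) (nat_lit 5) (nat_lit 326) (nat_lit 296) (nat_lit 278))))) (XT.nd (nat_lit 234) (nat_lit 1140) (nat_lit 0) (XT.nd (nat_lit 78) (nat_lit 836) (nat_lit 0) (XT.lf (nat_lit 0) (nat_lit 3237524250) (nat_lit 380) (nat_lit 1781936316) (nat_lit 456) (nat_lit 4104856837) (nat_lit 126) (nat_lit 5) (nat_lit 131) (nat_lit 5) (nat_lit 132) (nat_lit 5) (nat_lit 327) (nat_lit 296) (nat_lit 277)) (XT.nd (nat_lit 78) (nat_lit 380) (nat_lit 0) (XT.lf (nat_lit 0) (nat_lit 624879175) (nat_lit 456) (nat_lit 5417577102) (nat_lit 76) (nat_lit 3310410276) (nat_lit 120) (nat_lit 5) (nat_lit 126) (nat_lit 5) (nat_lit 121) (nat_lit 5) (nat_lit 328) (nat_lit 296) (nat_lit 276)) (XT.lf (nat_lit 0) (nat_lit 4596339036)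 (nat_lit 380) (nat_lit 875417810) (nat_lit 456) (nat_lit 4121009931) (nat_lit 115) (nat_lit 5) (nat_lit 120) (nat_lit 5) (nat_lit 121) (nat_lit 5) (nat_lit 329) (nat_lit 296) (nat_lit 275)))) (XT.nd (nat_lit 78) (nat_lit 760) (nat_lit 0) (XT.lf (nat_lit 0) (nat_lit 698932014) (nat_lit 380) (nat_lit 4624679025) (nat_lit 76) (nat_lit 4521047722) (nat_lit 110) (nat_lit 5) (nat_lit 115) (nat_lit 5) (nat_lit 111) (nat_lit 5) (nat_lit 330) (nat_lit 296) (nat_lit 274)) (XT.nd (nat_lit 78) (nat_lit 380) (nat_lit 0) (XT.lf (nat_lit 0) (nat_lit 5643627394) (nat_lit 456) (nat_lit 4313131281) (nat_lit 76) (nat_lit 152189363) (nat_lit 105) (nat_lit 5) (nat_lit 111) (nat_lit 5) (nat_lit 106) (nat_lit 5) (nat_lit 331) (nat_lit 296) (nat_lit 273)) (XT.lf (nat_lit 0) (nat_lit 457719041) (nat_lit 380) (nat_lit 4079340356) (nat_lit 76) (nat_lit 5848830615) (nat_lit 100) (nat_lit 5) (nat_lit 105) (nat_lit 5) (nat_lit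 101) (nat_lit 5) (nat_lit 332) (nat_lit 296) (nat_lit 272))))))) (XT.nd (nat_lit 858) (nat_lit 1824) (nat_lit 0) (XT.nd (nat_lit 390) (nat_lit 1444) (nat_lit 0) (XT.nd (nat_lit 156) (nat_lit 988) (nat_lit 0) (XT.nd (nat_lit 78) (nat_lit 304) (nat_lit 0) (XT.lf (nat_lit 0) (nat_lit 5515541543) (nat_lit 380) (nat_lit 3933811011) (nat_lit 76) (nat_lit 1226655593) (nat_lit 96) (nat_lit 5) (nat_lit 101) (nat_lit 5) (nat_lit 97) (nat_lit 5) (nat_lit 333) (nat_lit 296) (nat_lit 271)) (XT.lf (nat_lit 0) (nat_lit 7101581439) (nat_lit 304) (nat_lit 3743725876) (nat_lit 380) (nat_lit 134834083) (nat_lit 92) (nat_lit 5) (nat_lit 96) (nat_lit 5) (nat_lit 97) (nat_lit 5) (nat_lit 334) (nat_lit 296) (nat_lit 270))) (XT.nd (nat_lit 78) (nat_lit 608) (nat_lit 0) (XT.lf (nat_lit 0) (nat_lit 5041899349) (nat_lit 380) (nat_lit 3953133305) (nat_lit 76) (nat_lit 2303035687) (nat_lit 87) (nat_lit 5) (nat_lit 92)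 (nat_lit 5) (nat_lit 88) (nat_lit 5) (nat_lit 335) (nat_lit 296) (nat_lit 269)) (XT.nd (nat_lit 78) (nat_lit 380) (nat_lit 0) (XT.lf (nat_lit 0) (nat_lit 7490479886) (nat_lit 228) (nat_lit 3004123269) (nat_lit 304) (nat_lit 1136721887) (nat_lit 84) (nat_lit 5) (nat_lit 87) (nat_lit 5) (nat_lit 88) (nat_lit 5) (nat_lit 336) (nat_lit 296) (nat_lit 268)) (XT.lf (nat_lit 0) (nat_lit 4174707773) (nat_lit 380) (nat_lit 4491583296) (nat_lit 76) (nat_lit 3313235256) (nat_lit 79) (nat_lit 5) (nat_lit 84) (nat_lit 5) (nat_lit 80) (nat_lit 5) (nat_lit 337) (nat_lit 296) (nat_lit 267))))) (XT.nd (nat_lit 234) (nat_lit 684) (nat_lit 0) (XT.nd (nat_lit 78) (nat_lit 532) (nat_lit 0) (XT.lf (nat_lit 0) (nat_lit 7351404827) (nat_lit 228) (nat_lit 2397522884) (nat_lit 304) (nat_lit 2595313122) (nat_lit 76) (nat_lit 5) (nat_lit 79) (nat_lit 5) (nat_lit 80) (nat_lit 5) (nat_lit 338) (nat_lit 296) (nat_lit 266))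 (XT.nd (nat_lit 78) (nat_lit 228) (nat_lit 0) (XT.lf (nat_lit 0) (nat_lit 2853620560) (nat_lit 304) (nat_lit 5690652412) (nat_lit 76) (nat_lit 4181095576) (nat_lit 72) (nat_lit 5) (nat_lit 76) (nat_lit 5) (nat_lit 73) (nat_lit 5) (nat_lit 339) (nat_lit 296) (nat_lit 265)) (XT.lf (nat_lit 0) (nat_lit 6535383767) (nat_lit 228) (nat_lit 2008065067) (nat_lit 304) (nat_lit 4580724401) (nat_lit 69) (nat_lit 5) (nat_lit 72) (nat_lit 5) (nat_lit 73) (nat_lit 5) (nat_lit 340) (nat_lit 296) (nat_lit 264)))) (XT.nd (nat_lit 78) (nat_lit 380) (nat_lit 0) (XT.lf (nat_lit 0) (nat_lit 1004077066) (nat_lit 304) (nat_lit 7717021329) (nat_lit 76) (nat_lit 4820142151) (nat_lit 65) (nat_lit 5) (nat_lit 69) (nat_lit 5) (nat_lit 66) (nat_lit 5) (nat_lit 341) (nat_lit 296) (nat_lit 263)) (XT.nd (nat_lit 78) (nat_lit 228) (nat_lit 0) (XT.lf (nat_lit 0) (nat_lit 4866475863) (nat_lit 152) (nat_lit 1931831622) (nat_lit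 228) (nat_lit 7178793942) (nat_lit 63) (nat_lit 5) (nat_lit 65) (nat_lit 5) (nat_lit 66) (nat_lit 5) (nat_lit 342) (nat_lit 296) (nat_lit 262)) (XT.lf (nat_lit 0) (nat_lit 3651307281) (nat_lit 228) (nat_lit 9287712593) (nat_lit 304) (nat_lit 1494078627) (nat_lit 60) (nat_lit 5) (nat_lit 63) (nat_lit 5) (nat_lit 64) (nat_lit 5) (nat_lit 343) (nat_lit 296) (nat_lit 261)))))) (XT.nd (nat_lit 468) (nat_lit 760) (nat_lit 0) (XT.nd (nat_lit 234) (nat_lit 532) (nat_lit 0) (XT.nd (nat_lit 78) (nat_lit 304) (nat_lit 0) (XT.lf (nat_lit 0) (nat_lit 2136577443) (nat_lit 152) (nat_lit 2279644191) (nat_lit 228) (nat_lit 10493566012) (nat_lit 57) (nat_lit 5) (nat_lit 59) (nat_lit 5) (nat_lit 60) (nat_lit 5) (nat_lit 344) (nat_lit 296) (nat_lit 260)) (XT.nd (nat_lit 78) (nat_lit 76) (nat_lit 0) (XT.lf (nat_lit 0) (nat_lit 288015227) (nat_lit 228) (nat_lit 10363788623) (nat_lit 304) (nat_lit 4756284345) (nat_lit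 54) (nat_lit 5) (nat_lit 57) (nat_lit 5) (nat_lit 58) (nat_lit 5) (nat_lit 345) (nat_lit 296) (nat_lit 259)) (XT.lf (nat_lit 0) (nat_lit 1297909796) (nat_lit 304) (nat_lit 1863552350) (nat_lit 76) (nat_lit 12767870003) (nat_lit 53) (nat_lit 5) (nat_lit 57) (nat_lit 5) (nat_lit 54) (nat_lit 5) (nat_lit 346) (nat_lit 296) (nat_lit 258)))) (XT.nd (nat_lit 78) (nat_lit 380) (nat_lit 0) (XT.lf (nat_lit 0) (nat_lit 7620614667) (nat_lit 228) (nat_lit 4435254957) (nat_lit 76) (nat_lit 4417466745) (nat_lit 51) (nat_lit 5) (nat_lit 54) (nat_lit 5) (nat_lit 52) (nat_lit 5) (nat_lit 347) (nat_lit 296) (nat_lit 257)) (XT.nd (nat_lit 78) (nat_lit 228) (nat_lit 0) (XT.lf (nat_lit 0) (nat_lit 9627048399) (nat_lit 152) (nat_lit 4682501527) (nat_lit 228) (nat_lit 2733522184) (nat_lit 49) (nat_lit 5) (nat_lit 51) (nat_lit 5) (nat_lit 52) (nat_lit 5) (nat_lit 348) (nat_lit 296) (nat_lit 256)) (XT.lf (nat_lit 0)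 (nat_lit 3669511222) (nat_lit 228) (nat_lit 10884012423) (nat_lit 76) (nat_lit 3085240667) (nat_lit 46) (nat_lit 5) (nat_lit 49) (nat_lit 5) (nat_lit 47) (nat_lit 5) (nat_lit 349) (nat_lit 296) (nat_lit 255))))) (XT.nd (nat_lit 234) (nat_lit 380) (nat_lit 0) (XT.nd (nat_lit 78) (nat_lit 228) (nat_lit 0) (XT.lf (nat_lit 0) (nat_lit 3363694854) (nat_lit 152) (nat_lit 7040319931) (nat_lit 228) (nat_lit 7857408930) (nat_lit 44) (nat_lit 5) (nat_lit 46) (nat_lit 5) (nat_lit 47) (nat_lit 5) (nat_lit 350) (nat_lit 296) (nat_lit 254)) (XT.nd (nat_lit 78) (nat_lit 228) (nat_lit 0) (XT.lf (nat_lit 0) (nat_lit 17509406871) (nat_lit 228) (nat_lit 520939862) (nat_lit 76) (nat_lit 883873109) (nat_lit 44) (nat_lit 5) (nat_lit 47) (nat_lit 5) (nat_lit 45) (nat_lit 4) (nat_lit 351) (nat_lit 296) (nat_lit 253)) (XT.lf (nat_lit 0) (nat_lit 5395713085) (nat_lit 228) (nat_lit 5003157692) (nat_lit 76) (nat_lit 9195359891)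 (nat_lit 41) (nat_lit 5) (nat_lit 44) (nat_lit 5) (nat_lit 42) (nat_lit 5) (nat_lit 352) (nat_lit 296) (nat_lit 252)))) (XT.nd (nat_lit 78) (nat_lit 228) (nat_lit 0) (XT.lf (nat_lit 0) (nat_lit 10205020705) (nat_lit 152) (nat_lit 2324766978) (nat_lit 228) (nat_lit 7777385036) (nat_lit 39) (nat_lit 5) (nat_lit 41) (nat_lit 5) (nat_lit 42) (nat_lit 5) (nat_lit 353) (nat_lit 296) (nat_lit 251)) (XT.nd (nat_lit 78) (nat_lit 76) (nat_lit 0) (XT.lf (nat_lit 0) (nat_lit 5125153354) (nat_lit 152) (nat_lit 14976614886) (nat_lit 228) (nat_lit 951581598) (nat_lit 37) (nat_lit 5) (nat_lit 39) (nat_lit 5) (nat_lit 40) (nat_lit 4) (nat_lit 354) (nat_lit 296) (nat_lit 250)) (XT.lf (nat_lit 0) (nat_lit 6145179110) (nat_lit 228) (nat_lit 729747556) (nat_lit 76) (nat_lit 14958610325) (nat_lit 36) (nat_lit 5) (nat_lit 39) (nat_lit 5) (nat_lit 37) (nat_lit 5) (nat_lit 355) (nat_lit 296) (nat_lit 249))))))))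
noncomputable def xc42 : XT := (XT.nd (nat_lit 1716) (nat_lit 532) (nat_lit 0) (XT.nd (nat_lit 858) (nat_lit 608) (nat_lit 0) (XT.nd (nat_lit 390) (nat_lit 532) (nat_lit 0) (XT.nd (nat_lit 156) (nat_lit 304) (nat_lit 0) (XT.nd (nat_lit 78) (nat_lit 76) (nat_lit 0) (XT.lf (nat_lit 0) (nat_lit 13668073693) (nat_lit 228) (nat_lit 7277840838) (nat_lit 76) (nat_lit 1703828205) (nat_lit 34) (nat_lit 5) (nat_lit 37) (nat_lit 5) (nat_lit 35) (nat_lit 4) (nat_lit 356) (nat_lit 296) (nat_lit 248)) (XT.lf (nat_lit 0) (nat_lit 8760723767) (nat_lit 76) (nat_lit 12895511179) (nat_lit 152) (nat_lit 1847870319) (nat_lit 33) (nat_lit 5) (nat_lit 34) (nat_lit 5) (nat_lit 35) (nat_lit 4) (nat_lit 357) (nat_lit 296) (nat_lit 247))) (XT.nd (nat_lit 78) (nat_lit 76) (nat_lit 0) (XT.lf (nat_lit 0) (nat_lit 1196871908) (nat_lit 152) (nat_lit 4352261503) (nat_lit 228) (nat_lit 18849945249) (nat_lit 30) (nat_lit 5)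 (nat_lit 32) (nat_lit 5) (nat_lit 33) (nat_lit 5) (nat_lit 358) (nat_lit 296) (nat_lit 246)) (XT.nd (nat_lit 78) (nat_lit 76) (nat_lit 0) (XT.lf (nat_lit 0) (nat_lit 13406914028) (nat_lit 228) (nat_lit 7280370032) (nat_lit 76) (nat_lit 4647111238) (nat_lit 30) (nat_lit 5) (nat_lit 33) (nat_lit 5) (nat_lit 31) (nat_lit 4) (nat_lit 359) (nat_lit 296) (nat_lit 245)) (XT.lf (nat_lit 0) (nat_lit 9460323130) (nat_lit 76) (nat_lit 12266530211) (nat_lit 152) (nat_lit 4587563238) (nat_lit 29) (nat_lit 5) (nat_lit 30) (nat_lit 5) (nat_lit 31) (nat_lit 4) (nat_lit 360) (nat_lit 296) (nat_lit 244))))) (XT.nd (nat_lit 234) (nat_lit 228) (nat_lit 0) (XT.nd (nat_lit 78) (nat_lit 228) (nat_lit 0) (XT.lf (nat_lit 0) (nat_lit 3069948257) (nat_lit 152) (nat_lit 297554188) (nat_lit 76) (nat_lit 23974708538) (nat_lit 28) (nat_lit 5) (nat_lit 30) (nat_lit 5) (nat_lit 29) (nat_lit 5) (nat_lit 361) (nat_lit 296) (nat_lit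 243)) (XT.nd (nat_lit 78) (nat_lit 76) (nat_lit 0) (XT.lf (nat_lit 0) (nat_lit 11180239124) (nat_lit 228) (nat_lit 11208812653) (nat_lit 76) (nat_lit 6026052123) (nat_lit 26) (nat_lit 5) (nat_lit 29) (nat_lit 5) (nat_lit 27) (nat_lit 4) (nat_lit 362) (nat_lit 296) (nat_lit 242)) (XT.lf (nat_lit 0) (nat_lit 6025068209) (nat_lit 76) (nat_lit 13706236099) (nat_lit 152) (nat_lit 9809293536) (nat_lit 25) (nat_lit 5) (nat_lit 26) (nat_lit 5) (nat_lit 27) (nat_lit 4) (nat_lit 363) (nat_lit 296) (nat_lit 241)))) (XT.nd (nat_lit 78) (nat_lit 228) (nat_lit 0) (XT.lf (nat_lit 0) (nat_lit 24249503290) (nat_lit 76) (nat_lit 4517896865) (nat_lit 152) (nat_lit 1953255511) (nat_lit 25) (nat_lit 5) (nat_lit 26) (nat_lit 5) (nat_lit 27) (nat_lit 4) (nat_lit 364) (nat_lit 296) (nat_lit 240)) (XT.nd (nat_lit 78) (nat_lit 0) (nat_lit 0) (XT.lf (nat_lit 0) (nat_lit 6278016225) (nat_lit 228) (nat_lit 20519218802)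 (nat_lit 76) (nat_lit 5157519887) (nat_lit 22) (nat_lit 5) (nat_lit 25) (nat_lit 5) (nat_lit 23) (nat_lit 4) (nat_lit 365) (nat_lit 296) (nat_lit 239)) (XT.lf (nat_lit 0) (nat_lit 14939273699) (nat_lit 228) (nat_lit 3041517508) (nat_lit 76) (nat_lit 15267435077) (nat_lit 22) (nat_lit 5) (nat_lit 25) (nat_lit 5) (nat_lit 23) (nat_lit 4) (nat_lit 366) (nat_lit 296) (nat_lit 238)))))) (XT.nd (nat_lit 390) (nat_lit 304) (nat_lit 0) (XT.nd (nat_lit 156) (nat_lit 228) (nat_lit 0) (XT.nd (nat_lit 78) (nat_lit 0) (nat_lit 0) (XT.lf (nat_lit 0) (nat_lit 15517859666) (nat_lit 76) (nat_lit 8613061892) (nat_lit 152) (nat_lit 10472541162) (nat_lit 21) (nat_lit 5) (nat_lit 22) (nat_lit 5) (nat_lit 23) (nat_lit 4) (nat_lit 367) (nat_lit 296) (nat_lit 237)) (XT.lf (nat_lit 0) (nat_lit 33774865920) (nat_lit 152) (nat_lit 1062233240) (nat_lit 0) (nat_lit 1189591179) (nat_lit 21) (nat_lit 5) (nat_lit 23) (nat_lit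 4) (nat_lit 21) (nat_lit 4) (nat_lit 368) (nat_lit 296) (nat_lit 236))) (XT.nd (nat_lit 78) (nat_lit 76) (nat_lit 0) (XT.lf (nat_lit 0) (nat_lit 6469602536) (nat_lit 152) (nat_lit 19539750324) (nat_lit 76) (nat_lit 11503471525) (nat_lit 19) (nat_lit 5) (nat_lit 21) (nat_lit 5) (nat_lit 20) (nat_lit 4) (nat_lit 369) (nat_lit 296) (nat_lit 235)) (XT.nd (nat_lit 78) (nat_lit 76) (nat_lit 0) (XT.lf (nat_lit 0) (nat_lit 15544749907) (nat_lit 152) (nat_lit 1200790431) (nat_lit 76) (nat_lit 22328138825) (nat_lit 19) (nat_lit 5) (nat_lit 21) (nat_lit 5) (nat_lit 20) (nat_lit 4) (nat_lit 370) (nat_lit 296) (nat_lit 234)) (XT.lf (nat_lit 0) (nat_lit 18329592740) (nat_lit 76) (nat_lit 6875251748) (nat_lit 152) (nat_lit 15503805541) (nat_lit 18) (nat_lit 5) (nat_lit 19) (nat_lit 5) (nat_lit 20) (nat_lit 4) (nat_lit 371) (nat_lit 296) (nat_lit 233))))) (XT.nd (nat_lit 234) (nat_lit 152) (nat_lit 0) (XT.nd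 (nat_lit 78) (nat_lit 152) (nat_lit 0) (XT.lf (nat_lit 0) (nat_lit 35349964829) (nat_lit 152) (nat_lit 3678843592) (nat_lit 0) (nat_lit 3396509001) (nat_lit 18) (nat_lit 5) (nat_lit 20) (nat_lit 4) (nat_lit 18) (nat_lit 4) (nat_lit 372) (nat_lit 296) (nat_lit 232)) (XT.nd (nat_lit 78) (nat_lit 0) (nat_lit 0) (XT.lf (nat_lit 0) (nat_lit 1924177743) (nat_lit 152) (nat_lit 28117479430) (nat_lit 76) (nat_lit 14180128779) (nat_lit 16) (nat_lit 5) (nat_lit 18) (nat_lit 5) (nat_lit 17) (nat_lit 4) (nat_lit 373) (nat_lit 296) (nat_lit 231)) (XT.lf (nat_lit 0) (nat_lit 11225917798) (nat_lit 152) (nat_lit 9301713234) (nat_lit 76) (nat_lit 25578396002) (nat_lit 16) (nat_lit 5) (nat_lit 18) (nat_lit 5) (nat_lit 17) (nat_lit 4) (nat_lit 374) (nat_lit 296) (nat_lit 230)))) (XT.nd (nat_lit 78) (nat_lit 76) (nat_lit 0) (XT.lf (nat_lit 0) (nat_lit 10588630846) (nat_lit 76) (nat_lit 10466809541) (nat_lit 152)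 (nat_lit 27027166140) (nat_lit 15) (nat_lit 5) (nat_lit 16) (nat_lit 5) (nat_lit 17) (nat_lit 4) (nat_lit 375) (nat_lit 296) (nat_lit 229)) (XT.nd (nat_lit 78) (nat_lit 76) (nat_lit 0) (XT.lf (nat_lit 0) (nat_lit 31435849831) (nat_lit 152) (nat_lit 18560726278) (nat_lit 0) (nat_lit 159663446) (nat_lit 15) (nat_lit 5) (nat_lit 17) (nat_lit 4) (nat_lit 15) (nat_lit 4) (nat_lit 376) (nat_lit 296) (nat_lit 228)) (XT.lf (nat_lit 0) (nat_lit 1168171577) (nat_lit 76) (nat_lit 41247578357) (nat_lit 76) (nat_lit 9915396747) (nat_lit 14) (nat_lit 4) (nat_lit 15) (nat_lit 5) (nat_lit 15) (nat_lit 4) (nat_lit 377) (nat_lit 296) (nat_lit 227))))))) (XT.nd (nat_lit 858) (nat_lit 152) (nat_lit 0) (XT.nd (nat_lit 390) (nat_lit 228) (nat_lit 0) (XT.nd (nat_lit 156) (nat_lit 76) (nat_lit 0) (XT.nd (nat_lit 78) (nat_lit 76) (nat_lit 0) (XT.lf (nat_lit 0) (nat_lit 22205167651) (nat_lit 76) (nat_lit 31895237669)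 (nat_lit 76) (nat_lit 509727275) (nat_lit 14) (nat_lit 4) (nat_lit 15) (nat_lit 5) (nat_lit 15) (nat_lit 4) (nat_lit 378) (nat_lit 296) (nat_lit 226)) (XT.lf (nat_lit 0) (nat_lit 9149493343) (nat_lit 152) (nat_lit 12862828226) (nat_lit 76) (nat_lit 34989069895) (nat_lit 13) (nat_lit 5) (nat_lit 15) (nat_lit 5) (nat_lit 14) (nat_lit 4) (nat_lit 379) (nat_lit 296) (nat_lit 225))) (XT.nd (nat_lit 78) (nat_lit 0) (nat_lit 0) (XT.lf (nat_lit 0) (nat_lit 7741632849) (nat_lit 76) (nat_lit 11581669290) (nat_lit 152) (nat_lit 40187500157) (nat_lit 12) (nat_lit 5) (nat_lit 13) (nat_lit 5) (nat_lit 14) (nat_lit 4) (nat_lit 380) (nat_lit 296) (nat_lit 224)) (XT.nd (nat_lit 78) (nat_lit 0) (nat_lit 0) (XT.lf (nat_lit 0) (nat_lit 29586147530) (nat_lit 76) (nat_lit 520692584) (nat_lit 152) (nat_lit 32035817625) (nat_lit 12) (nat_lit 5) (nat_lit 13) (nat_lit 5) (nat_lit 14) (nat_lit 4) (nat_lit 381) (nat_lit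 296) (nat_lit 223)) (XT.lf (nat_lit 0) (nat_lit 41506059504) (nat_lit 152) (nat_lit 12546659542) (nat_lit 0) (nat_lit 10851096759) (nat_lit 12) (nat_lit 5) (nat_lit 14) (nat_lit 4) (nat_lit 12) (nat_lit 4) (nat_lit 382) (nat_lit 296) (nat_lit 222))))) (XT.nd (nat_lit 234) (nat_lit 76) (nat_lit 0) (XT.nd (nat_lit 78) (nat_lit 76) (nat_lit 0) (XT.lf (nat_lit 0) (nat_lit 8571590180) (nat_lit 76) (nat_lit 44962603965) (nat_lit 76) (nat_lit 14267073747) (nat_lit 11) (nat_lit 4) (nat_lit 12) (nat_lit 5) (nat_lit 12) (nat_lit 4) (nat_lit 383) (nat_lit 296) (nat_lit 221)) (XT.nd (nat_lit 78) (nat_lit 76) (nat_lit 0) (XT.lf (nat_lit 0) (nat_lit 30955390855) (nat_lit 76) (nat_lit 35309666255) (nat_lit 76) (nat_lit 4575500347) (nat_lit 11) (nat_lit 4) (nat_lit 12) (nat_lit 5) (nat_lit 12) (nat_lit 4) (nat_lit 384) (nat_lit 296) (nat_lit 220)) (XT.lf (nat_lit 0) (nat_lit 5464586427) (nat_lit 152) (nat_lit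 19677851356) (nat_lit 76) (nat_lit 48888566085) (nat_lit 10) (nat_lit 5) (nat_lit 12) (nat_lit 5) (nat_lit 11) (nat_lit 4) (nat_lit 385) (nat_lit 296) (nat_lit 219)))) (XT.nd (nat_lit 78) (nat_lit 0) (nat_lit 0) (XT.lf (nat_lit 0) (nat_lit 1474240011) (nat_lit 76) (nat_lit 14427358768) (nat_lit 152) (nat_lit 61478332251) (nat_lit 9) (nat_lit 5) (nat_lit 10) (nat_lit 5) (nat_lit 11) (nat_lit 4) (nat_lit 386) (nat_lit 296) (nat_lit 218)) (XT.nd (nat_lit 78) (nat_lit 0) (nat_lit 0) (XT.lf (nat_lit 0) (nat_lit 24048350371) (nat_lit 76) (nat_lit 2989940685) (nat_lit 152) (nat_lit 53852682408) (nat_lit 9) (nat_lit 5) (nat_lit 10) (nat_lit 5) (nat_lit 11) (nat_lit 4) (nat_lit 387) (nat_lit 296) (nat_lit 217)) (XT.lf (nat_lit 0) (nat_lit 38794756635) (nat_lit 152) (nat_lit 36958176173) (nat_lit 0) (nat_lit 8822750663) (nat_lit 9) (nat_lit 5) (nat_lit 11) (nat_lit 4) (nat_lit 9) (nat_lit 4) (nat_lit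 388) (nat_lit 296) (nat_lit 216)))))) (XT.nd (nat_lit 40482) (nat_lit 0) (nat_lit 19988) (XT.nd (nat_lit 234) (nat_lit 76) (nat_lit 0) (XT.nd (nat_lit 78) (nat_lit 76) (nat_lit 0) (XT.lf (nat_lit 0) (nat_lit 51146594350) (nat_lit 152) (nat_lit 16152613587) (nat_lit 0) (nat_lit 21145198015) (nat_lit 9) (nat_lit 5) (nat_lit 11) (nat_lit 4) (nat_lit 9) (nat_lit 4) (nat_lit 389) (nat_lit 296) (nat_lit 215)) (XT.nd (nat_lit 78) (nat_lit 0) (nat_lit 0) (XT.lf (nat_lit 0) (nat_lit 5764835563) (nat_lit 76) (nat_lit 58385051762) (nat_lit 76) (nat_lit 28355664605) (nat_lit 8) (nat_lit 4) (nat_lit 9) (nat_lit 5) (nat_lit 9) (nat_lit 4) (nat_lit 390) (nat_lit 296) (nat_lit 214)) (XT.lf (nat_lit 0) (nat_lit 29075986956) (nat_lit 76) (nat_lit 48872727681) (nat_lit 76) (nat_lit 18816682598) (nat_lit 8) (nat_lit 4) (nat_lit 9) (nat_lit 5) (nat_lit 9) (nat_lit 4) (nat_lit 391) (nat_lit 296) (nat_lit 213))))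 (XT.nd (nat_lit 156) (nat_lit 76) (nat_lit 0) (XT.lf (nat_lit 0) (nat_lit 53514874651) (nat_lit 76) (nat_lit 38902697030) (nat_lit 76) (nat_lit 8821263447) (nat_lit 8) (nat_lit 4) (nat_lit 9) (nat_lit 5) (nat_lit 9) (nat_lit 4) (nat_lit 392) (nat_lit 296) (nat_lit 212)) (XT.nd (nat_lit 40014) (nat_lit 0) (nat_lit 24168) (XT.lf (nat_lit 0) (nat_lit 12388665446) (nat_lit 152) (nat_lit 4979650370) (nat_lit 76) (nat_lit 93497667210) (nat_lit 7) (nat_lit 5) (nat_lit 9) (nat_lit 5) (nat_lit 8) (nat_lit 4) (nat_lit 394) (nat_lit 296) (nat_lit 210)) (XT.lf (nat_lit 0) (nat_lit 588103139) (nat_lit 380) (nat_lit 1343426486) (nat_lit 380) (nat_lit 1343426486) (nat_lit 325) (nat_lit 4) (nat_lit 330) (nat_lit 5) (nat_lit 330) (nat_lit 4) (nat_lit 306) (nat_lit 297) (nat_lit 297))))) (XT.nd (nat_lit 234) (nat_lit 2432) (nat_lit 0) (XT.nd (nat_lit 78) (nat_lit 1216) (nat_lit 0) (XT.lf (nat_lit 0) (nat_lit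 865979657) (nat_lit 456) (nat_lit 1500752456) (nat_lit 532) (nat_lit 4223521390) (nat_lit 318) (nat_lit 5) (nat_lit 324) (nat_lit 5) (nat_lit 325) (nat_lit 4) (nat_lit 307) (nat_lit 297) (nat_lit 296)) (XT.nd (nat_lit 78) (nat_lit 608) (nat_lit 0) (XT.lf (nat_lit 0) (nat_lit 662431787) (nat_lit 532) (nat_lit 72097824) (nat_lit 608) (nat_lit 5904369224) (nat_lit 310) (nat_lit 5) (nat_lit 317) (nat_lit 5) (nat_lit 318) (nat_lit 5) (nat_lit 308) (nat_lit 297) (nat_lit 295)) (XT.lf (nat_lit 0) (nat_lit 537324277) (nat_lit 608) (nat_lit 5113445000) (nat_lit 684) (nat_lit 1044417627) (nat_lit 302) (nat_lit 5) (nat_lit 310) (nat_lit 5) (nat_lit 311) (nat_lit 4) (nat_lit 309) (nat_lit 297) (nat_lit 294)))) (XT.nd (nat_lit 78) (nat_lit 1672) (nat_lit 0) (XT.lf (nat_lit 0) (nat_lit 503003774) (nat_lit 684) (nat_lit 3270794763) (nat_lit 760) (nat_lit 2985850881) (nat_lit 292) (nat_lit 5) (nat_lit 301)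 (nat_lit 5) (nat_lit 302) (nat_lit 5) (nat_lit 310) (nat_lit 297) (nat_lit 293)) (XT.nd (nat_lit 78) (nat_lit 836) (nat_lit 0) (XT.lf (nat_lit 0) (nat_lit 565918677) (nat_lit 760) (nat_lit 1184046089) (nat_lit 836) (nat_lit 5082693167) (nat_lit 281) (nat_lit 5) (nat_lit 291) (nat_lit 5) (nat_lit 292) (nat_lit 5) (nat_lit 311) (nat_lit 297) (nat_lit 292)) (XT.lf (nat_lit 0) (nat_lit 708978770) (nat_lit 836) (nat_lit 5779840045) (nat_lit 912) (nat_lit 425092029) (nat_lit 270) (nat_lit 5) (nat_lit 281) (nat_lit 5) (nat_lit 282) (nat_lit 5) (nat_lit 312) (nat_lit 297) (nat_lit 291))))))))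
noncomputable def xc43 : XT := (XT.nd (nat_lit 1794) (nat_lit 4180) (nat_lit 0) (XT.nd (nat_lit 858) (nat_lit 5244) (nat_lit 0) (XT.nd (nat_lit 390) (nat_lit 3420) (nat_lit 0) (XT.nd (nat_lit 156) (nat_lit 3192) (nat_lit 0) (XT.nd (nat_lit 78) (nat_lit 1064) (nat_lit 0) (XT.lf (nat_lit 0) (nat_lit 913102524) (nat_lit 912) (nat_lit 3304269225) (nat_lit 988) (nat_lit 2785690039) (nat_lit 257) (nat_lit 5) (nat_lit 269) (nat_lit 5) (nat_lit 270) (nat_lit 5) (nat_lit 313) (nat_lit 297) (nat_lit 290)) (XT.lf (nat_lit 0) (nat_lit 1206319291) (nat_lit 988) (nat_lit 578027826) (nat_lit 1064) (nat_lit 5316803602) (nat_lit 243) (nat_lit 5) (nat_lit 256) (nat_lit 5) (nat_lit 257) (nat_lit 5) (nat_lit 314) (nat_lit 297) (nat_lit 289))) (XT.nd (nat_lit 78) (nat_lit 2128) (nat_lit 0) (XT.lf (nat_lit 0) (nat_lit 1555673454) (nat_lit 1064) (nat_lit 4840315983) (nat_lit 1140) (nat_lit 811467002) (nat_lit 229)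 (nat_lit 5) (nat_lit 243) (nat_lit 5) (nat_lit 244) (nat_lit 5) (nat_lit 315) (nat_lit 297) (nat_lit 288)) (XT.nd (nat_lit 78) (nat_lit 912) (nat_lit 0) (XT.lf (nat_lit 0) (nat_lit 1963963154) (nat_lit 1140) (nat_lit 1741147864) (nat_lit 1216) (nat_lit 3617204260) (nat_lit 213) (nat_lit 5) (nat_lit 228) (nat_lit 5) (nat_lit 229) (nat_lit 5) (nat_lit 316) (nat_lit 297) (nat_lit 287)) (XT.lf (nat_lit 0) (nat_lit 849511597) (nat_lit 912) (nat_lit 5008373319) (nat_lit 76) (nat_lit 1588307552) (nat_lit 201) (nat_lit 5) (nat_lit 213) (nat_lit 5) (nat_lit 202) (nat_lit 5) (nat_lit 317) (nat_lit 297) (nat_lit 286))))) (XT.nd (nat_lit 234) (nat_lit 1672) (nat_lit 0) (XT.nd (nat_lit 78) (nat_lit 1140) (nat_lit 0) (XT.lf (nat_lit 0) (nat_lit 2950453882) (nat_lit 608) (nat_lit 2407748064) (nat_lit 684) (nat_lit 2220396433) (nat_lit 193) (nat_lit 5) (nat_lit 201) (nat_lit 5) (nat_lit 202) (nat_lit 5) (nat_lit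 318) (nat_lit 297) (nat_lit 285)) (XT.nd (nat_lit 78) (nat_lit 532) (nat_lit 0) (XT.lf (nat_lit 0) (nat_lit 2223907189) (nat_lit 608) (nat_lit 4203750808) (nat_lit 76) (nat_lit 1292612146) (nat_lit 185) (nat_lit 5) (nat_lit 193) (nat_lit 5) (nat_lit 186) (nat_lit 5) (nat_lit 319) (nat_lit 297) (nat_lit 284)) (XT.lf (nat_lit 0) (nat_lit 4119077196) (nat_lit 532) (nat_lit 2642338104) (nat_lit 608) (nat_lit 1109630677) (nat_lit 178) (nat_lit 5) (nat_lit 185) (nat_lit 5) (nat_lit 186) (nat_lit 5) (nat_lit 320) (nat_lit 297) (nat_lit 283)))) (XT.nd (nat_lit 78) (nat_lit 1064) (nat_lit 0) (XT.lf (nat_lit 0) (nat_lit 3341346991) (nat_lit 608) (nat_lit 3278111088) (nat_lit 76) (nat_lit 1411673327) (nat_lit 170) (nat_lit 5) (nat_lit 178) (nat_lit 5) (nat_lit 171) (nat_lit 5) (nat_lit 321) (nat_lit 297) (nat_lit 282)) (XT.nd (nat_lit 78) (nat_lit 532) (nat_lit 0) (XT.lf (nat_lit 0) (nat_lit 5422156128)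 (nat_lit 532) (nat_lit 2504452904) (nat_lit 608) (nat_lit 274406909) (nat_lit 163) (nat_lit 5) (nat_lit 170) (nat_lit 5) (nat_lit 171) (nat_lit 5) (nat_lit 322) (nat_lit 297) (nat_lit 281)) (XT.lf (nat_lit 0) (nat_lit 4209588663) (nat_lit 532) (nat_lit 2281412161) (nat_lit 76) (nat_lit 1889299703) (nat_lit 156) (nat_lit 5) (nat_lit 163) (nat_lit 5) (nat_lit 157) (nat_lit 5) (nat_lit 323) (nat_lit 297) (nat_lit 280)))))) (XT.nd (nat_lit 468) (nat_lit 2128) (nat_lit 0) (XT.nd (nat_lit 234) (nat_lit 1596) (nat_lit 0) (XT.nd (nat_lit 78) (nat_lit 988) (nat_lit 0) (XT.lf (nat_lit 0) (nat_lit 283792203) (nat_lit 532) (nat_lit 1763328199) (nat_lit 76) (nat_lit 6522983660) (nat_lit 149) (nat_lit 5) (nat_lit 156) (nat_lit 5) (nat_lit 150) (nat_lit 5) (nat_lit 324) (nat_lit 297) (nat_lit 279)) (XT.nd (nat_lit 78) (nat_lit 532) (nat_lit 0) (XT.lf (nat_lit 0) (nat_lit 4830201814) (nat_lit 532) (nat_lit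 1267043035) (nat_lit 76) (nat_lit 2672385306) (nat_lit 143) (nat_lit 5) (nat_lit 150) (nat_lit 5) (nat_lit 144) (nat_lit 5) (nat_lit 325) (nat_lit 297) (nat_lit 278)) (XT.lf (nat_lit 0) (nat_lit 568207975) (nat_lit 532) (nat_lit 758561669) (nat_lit 76) (nat_lit 7653638904) (nat_lit 136) (nat_lit 5) (nat_lit 143) (nat_lit 5) (nat_lit 137) (nat_lit 5) (nat_lit 326) (nat_lit 297) (nat_lit 277)))) (XT.nd (nat_lit 78) (nat_lit 1216) (nat_lit 0) (XT.lf (nat_lit 0) (nat_lit 5198274838) (nat_lit 456) (nat_lit 293433312) (nat_lit 76) (nat_lit 3709610200) (nat_lit 131) (nat_lit 5) (nat_lit 137) (nat_lit 5) (nat_lit 132) (nat_lit 5) (nat_lit 327) (nat_lit 297) (nat_lit 276)) (XT.nd (nat_lit 78) (nat_lit 380) (nat_lit 0) (XT.lf (nat_lit 0) (nat_lit 179773286) (nat_lit 380) (nat_lit 397003928) (nat_lit 456) (nat_lit 8857552132) (nat_lit 120) (nat_lit 5) (nat_lit 125) (nat_lit 5) (nat_lit 126) (nat_lit 5)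 (nat_lit 328) (nat_lit 297) (nat_lit 275)) (XT.lf (nat_lit 0) (nat_lit 585584320) (nat_lit 380) (nat_lit 4722015361) (nat_lit 456) (nat_lit 4370162355) (nat_lit 115) (nat_lit 5) (nat_lit 120) (nat_lit 5) (nat_lit 121) (nat_lit 5) (nat_lit 329) (nat_lit 297) (nat_lit 274))))) (XT.nd (nat_lit 234) (nat_lit 1064) (nat_lit 0) (XT.nd (nat_lit 78) (nat_lit 684) (nat_lit 0) (XT.lf (nat_lit 0) (nat_lit 304037645) (nat_lit 380) (nat_lit 8950252059) (nat_lit 76) (nat_lit 680001261) (nat_lit 110) (nat_lit 5) (nat_lit 115) (nat_lit 5) (nat_lit 111) (nat_lit 5) (nat_lit 330) (nat_lit 297) (nat_lit 273)) (XT.nd (nat_lit 78) (nat_lit 304) (nat_lit 0) (XT.lf (nat_lit 0) (nat_lit 1286735334) (nat_lit 380) (nat_lit 3847550647) (nat_lit 456) (nat_lit 5067772416) (nat_lit 105) (nat_lit 5) (nat_lit 110) (nat_lit 5) (nat_lit 111) (nat_lit 5) (nat_lit 331) (nat_lit 297) (nat_lit 272)) (XT.lf (nat_lit 0) (nat_lit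 1557153222) (nat_lit 304) (nat_lit 8636226897) (nat_lit 380) (nat_lit 290301436) (nat_lit 101) (nat_lit 5) (nat_lit 105) (nat_lit 5) (nat_lit 106) (nat_lit 5) (nat_lit 332) (nat_lit 297) (nat_lit 271)))) (XT.nd (nat_lit 78) (nat_lit 684) (nat_lit 0) (XT.lf (nat_lit 0) (nat_lit 1717250070) (nat_lit 304) (nat_lit 2929670120) (nat_lit 380) (nat_lit 6130790591) (nat_lit 96) (nat_lit 5) (nat_lit 100) (nat_lit 5) (nat_lit 101) (nat_lit 5) (nat_lit 333) (nat_lit 297) (nat_lit 270)) (XT.nd (nat_lit 78) (nat_lit 380) (nat_lit 0) (XT.lf (nat_lit 0) (nat_lit 1806161783) (nat_lit 304) (nat_lit 8027619760) (nat_lit 380) (nat_lit 1252387147) (nat_lit 92) (nat_lit 5) (nat_lit 96) (nat_lit 5) (nat_lit 97) (nat_lit 5) (nat_lit 334) (nat_lit 297) (nat_lit 269)) (XT.lf (nat_lit 0) (nat_lit 1776175461) (nat_lit 304) (nat_lit 2031326204) (nat_lit 380) (nat_lit 7601110506) (nat_lit 87) (nat_lit 5) (nat_lit 91) (nat_lit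 5) (nat_lit 92) (nat_lit 5) (nat_lit 335) (nat_lit 297) (nat_lit 268))))))) (XT.nd (nat_lit 858) (nat_lit 1672) (nat_lit 0) (XT.nd (nat_lit 390) (nat_lit 1368) (nat_lit 0) (XT.nd (nat_lit 156) (nat_lit 532) (nat_lit 0) (XT.nd (nat_lit 78) (nat_lit 380) (nat_lit 0) (XT.lf (nat_lit 0) (nat_lit 1625143185) (nat_lit 228) (nat_lit 7498660092) (nat_lit 304) (nat_lit 2622190706) (nat_lit 84) (nat_lit 5) (nat_lit 87) (nat_lit 5) (nat_lit 88) (nat_lit 5) (nat_lit 336) (nat_lit 297) (nat_lit 267)) (XT.lf (nat_lit 0) (nat_lit 1345458411) (nat_lit 304) (nat_lit 1221843440) (nat_lit 380) (nat_lit 9531880067) (nat_lit 79) (nat_lit 5) (nat_lit 83) (nat_lit 5) (nat_lit 84) (nat_lit 5) (nat_lit 337) (nat_lit 297) (nat_lit 266))) (XT.nd (nat_lit 78) (nat_lit 304) (nat_lit 0) (XT.lf (nat_lit 0) (nat_lit 886268969) (nat_lit 228) (nat_lit 7123973405) (nat_lit 304) (nat_lit 4457621534) (nat_lit 76) (nat_lit 5) (nat_lit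 79) (nat_lit 5) (nat_lit 80) (nat_lit 5) (nat_lit 338) (nat_lit 297) (nat_lit 265)) (XT.nd (nat_lit 78) (nat_lit 0) (nat_lit 0) (XT.lf (nat_lit 0) (nat_lit 286385560) (nat_lit 228) (nat_lit 578942532) (nat_lit 304) (nat_lit 11989097219) (nat_lit 72) (nat_lit 5) (nat_lit 75) (nat_lit 5) (nat_lit 76) (nat_lit 5) (nat_lit 339) (nat_lit 297) (nat_lit 264)) (XT.lf (nat_lit 0) (nat_lit 6432273130) (nat_lit 304) (nat_lit 550012852) (nat_lit 76) (nat_lit 6274656138) (nat_lit 72) (nat_lit 5) (nat_lit 76) (nat_lit 5) (nat_lit 73) (nat_lit 5) (nat_lit 340) (nat_lit 297) (nat_lit 263))))) (XT.nd (nat_lit 234) (nat_lit 684) (nat_lit 0) (XT.nd (nat_lit 78) (nat_lit 456) (nat_lit 0) (XT.lf (nat_lit 0) (nat_lit 12131813665) (nat_lit 228) (nat_lit 161816663) (nat_lit 304) (nat_lit 1385522527) (nat_lit 69) (nat_lit 5) (nat_lit 72) (nat_lit 5) (nat_lit 73) (nat_lit 5) (nat_lit 341) (nat_lit 297) (nat_lit 262))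 (XT.nd (nat_lit 78) (nat_lit 152) (nat_lit 0) (XT.lf (nat_lit 0) (nat_lit 4320288927) (nat_lit 304) (nat_lit 2837691367) (nat_lit 76) (nat_lit 6960919229) (nat_lit 65) (nat_lit 5) (nat_lit 69) (nat_lit 5) (nat_lit 66) (nat_lit 5) (nat_lit 342) (nat_lit 297) (nat_lit 261)) (XT.lf (nat_lit 0) (nat_lit 10224055328) (nat_lit 152) (nat_lit 73812703) (nat_lit 228) (nat_lit 4281944056) (nat_lit 63) (nat_lit 5) (nat_lit 65) (nat_lit 5) (nat_lit 66) (nat_lit 5) (nat_lit 343) (nat_lit 297) (nat_lit 260)))) (XT.nd (nat_lit 78) (nat_lit 380) (nat_lit 0) (XT.lf (nat_lit 0) (nat_lit 1569100928) (nat_lit 304) (nat_lit 6199912277) (nat_lit 76) (nat_lit 7291721554) (nat_lit 59) (nat_lit 5) (nat_lit 63) (nat_lit 5) (nat_lit 60) (nat_lit 5) (nat_lit 344) (nat_lit 297) (nat_lit 259)) (XT.nd (nat_lit 78) (nat_lit 228) (nat_lit 0) (XT.lf (nat_lit 0) (nat_lit 7202935456) (nat_lit 152) (nat_lit 441076896) (nat_lit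 228) (nat_lit 7919862007) (nat_lit 57) (nat_lit 5) (nat_lit 59) (nat_lit 5) (nat_lit 60) (nat_lit 5) (nat_lit 345) (nat_lit 297) (nat_lit 258)) (XT.lf (nat_lit 0) (nat_lit 5190332763) (nat_lit 228) (nat_lit 8922712389) (nat_lit 304) (nat_lit 1976451463) (nat_lit 54) (nat_lit 5) (nat_lit 57) (nat_lit 5) (nat_lit 58) (nat_lit 5) (nat_lit 346) (nat_lit 297) (nat_lit 257)))))) (XT.nd (nat_lit 468) (nat_lit 684) (nat_lit 0) (XT.nd (nat_lit 234) (nat_lit 608) (nat_lit 0) (XT.nd (nat_lit 78) (nat_lit 152) (nat_lit 0) (XT.lf (nat_lit 0) (nat_lit 2810401851) (nat_lit 152) (nat_lit 1397287246) (nat_lit 228) (nat_lit 12431712330) (nat_lit 51) (nat_lit 5) (nat_lit 53) (nat_lit 5) (nat_lit 54) (nat_lit 5) (nat_lit 347) (nat_lit 297) (nat_lit 256)) (XT.nd (nat_lit 78) (nat_lit 152) (nat_lit 0) (XT.lf (nat_lit 0) (nat_lit 10747107495) (nat_lit 228) (nat_lit 14751362) (nat_lit 76) (nat_lit 6451779691) (nat_lit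 51) (nat_lit 5) (nat_lit 54) (nat_lit 5) (nat_lit 52) (nat_lit 5) (nat_lit 348) (nat_lit 297) (nat_lit 255)) (XT.lf (nat_lit 0) (nat_lit 14617597529) (nat_lit 152) (nat_lit 3065500856) (nat_lit 228) (nat_lit 131432082) (nat_lit 49) (nat_lit 5) (nat_lit 51) (nat_lit 5) (nat_lit 52) (nat_lit 5) (nat_lit 349) (nat_lit 297) (nat_lit 254)))) (XT.nd (nat_lit 78) (nat_lit 380) (nat_lit 0) (XT.lf (nat_lit 0) (nat_lit 6470664540) (nat_lit 228) (nat_lit 6934195290) (nat_lit 76) (nat_lit 5036431070) (nat_lit 46) (nat_lit 5) (nat_lit 49) (nat_lit 5) (nat_lit 47) (nat_lit 5) (nat_lit 350) (nat_lit 297) (nat_lit 253)) (XT.nd (nat_lit 78) (nat_lit 228) (nat_lit 0) (XT.lf (nat_lit 0) (nat_lit 7897077234) (nat_lit 152) (nat_lit 5562125676) (nat_lit 228) (nat_lit 5638403041) (nat_lit 44) (nat_lit 5) (nat_lit 46) (nat_lit 5) (nat_lit 47) (nat_lit 5) (nat_lit 351) (nat_lit 297) (nat_lit 252)) (XT.lf (nat_lit 0)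 (nat_lit 1045917492) (nat_lit 228) (nat_lit 16055582920) (nat_lit 76) (nat_lit 2683314093) (nat_lit 41) (nat_lit 5) (nat_lit 44) (nat_lit 5) (nat_lit 42) (nat_lit 5) (nat_lit 352) (nat_lit 297) (nat_lit 251))))) (XT.nd (nat_lit 234) (nat_lit 304) (nat_lit 0) (XT.nd (nat_lit 78) (nat_lit 380) (nat_lit 0) (XT.lf (nat_lit 0) (nat_lit 8044168469) (nat_lit 228) (nat_lit 1112220769) (nat_lit 76) (nat_lit 11345453750) (nat_lit 41) (nat_lit 5) (nat_lit 44) (nat_lit 5) (nat_lit 42) (nat_lit 5) (nat_lit 353) (nat_lit 297) (nat_lit 250)) (XT.nd (nat_lit 78) (nat_lit 228) (nat_lit 0) (XT.lf (nat_lit 0) (nat_lit 14737662897) (nat_lit 152) (nat_lit 722679598) (nat_lit 228) (nat_lit 5792362973) (nat_lit 39) (nat_lit 5) (nat_lit 41) (nat_lit 5) (nat_lit 42) (nat_lit 5) (nat_lit 354) (nat_lit 297) (nat_lit 249)) (XT.lf (nat_lit 0) (nat_lit 1291386776) (nat_lit 228) (nat_lit 12710282194) (nat_lit 76) (nat_lit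 8035854111) (nat_lit 36) (nat_lit 5) (nat_lit 39) (nat_lit 5) (nat_lit 37) (nat_lit 5) (nat_lit 355) (nat_lit 297) (nat_lit 248)))) (XT.nd (nat_lit 78) (nat_lit 152) (nat_lit 0) (XT.lf (nat_lit 0) (nat_lit 3108440576) (nat_lit 152) (nat_lit 5536782704) (nat_lit 228) (nat_lit 14213587119) (nat_lit 34) (nat_lit 5) (nat_lit 36) (nat_lit 5) (nat_lit 37) (nat_lit 5) (nat_lit 356) (nat_lit 297) (nat_lit 247)) (XT.nd (nat_lit 78) (nat_lit 152) (nat_lit 0) (XT.lf (nat_lit 0) (nat_lit 16462466957) (nat_lit 228) (nat_lit 3889054635) (nat_lit 76) (nat_lit 3366788227) (nat_lit 34) (nat_lit 5) (nat_lit 37) (nat_lit 5) (nat_lit 35) (nat_lit 4) (nat_lit 357) (nat_lit 297) (nat_lit 246)) (XT.lf (nat_lit 0) (nat_lit 163906788) (nat_lit 152) (nat_lit 11775121614) (nat_lit 76) (nat_lit 12678306506) (nat_lit 32) (nat_lit 5) (nat_lit 34) (nat_lit 5) (nat_lit 33) (nat_lit 5) (nat_lit 358) (nat_lit 297) (nat_lit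 245))))))))
noncomputable def xc44 : XT := (XT.nd (nat_lit 1716) (nat_lit 380) (nat_lit 0) (XT.nd (nat_lit 858) (nat_lit 532) (nat_lit 0) (XT.nd (nat_lit 390) (nat_lit 456) (nat_lit 0) (XT.nd (nat_lit 156) (nat_lit 304) (nat_lit 0) (XT.nd (nat_lit 78) (nat_lit 0) (nat_lit 0) (XT.lf (nat_lit 0) (nat_lit 4837812710) (nat_lit 152) (nat_lit 2991114486) (nat_lit 228) (nat_lit 17729515401) (nat_lit 30) (nat_lit 5) (nat_lit 32) (nat_lit 5) (nat_lit 33) (nat_lit 5) (nat_lit 359) (nat_lit 297) (nat_lit 244)) (XT.lf (nat_lit 0) (nat_lit 15998700797) (nat_lit 228) (nat_lit 4190568348) (nat_lit 76) (nat_lit 6353707558) (nat_lit 30) (nat_lit 5) (nat_lit 33) (nat_lit 5) (nat_lit 31) (nat_lit 4) (nat_lit 360) (nat_lit 297) (nat_lit 243))) (XT.nd (nat_lit 78) (nat_lit 228) (nat_lit 0) (XT.lf (nat_lit 0) (nat_lit 13288156410) (nat_lit 76) (nat_lit 11387232028) (nat_lit 152) (nat_lit 2898411648) (nat_lit 29)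 (nat_lit 5) (nat_lit 30) (nat_lit 5) (nat_lit 31) (nat_lit 4) (nat_lit 361) (nat_lit 297) (nat_lit 242)) (XT.nd (nat_lit 78) (nat_lit 0) (nat_lit 0) (XT.lf (nat_lit 0) (nat_lit 2976811039) (nat_lit 152) (nat_lit 2066766059) (nat_lit 228) (nat_lit 23610704476) (nat_lit 26) (nat_lit 5) (nat_lit 28) (nat_lit 5) (nat_lit 29) (nat_lit 5) (nat_lit 362) (nat_lit 297) (nat_lit 241)) (XT.lf (nat_lit 0) (nat_lit 13489105187) (nat_lit 228) (nat_lit 8591690935) (nat_lit 76) (nat_lit 7702152097) (nat_lit 26) (nat_lit 5) (nat_lit 29) (nat_lit 5) (nat_lit 27) (nat_lit 4) (nat_lit 363) (nat_lit 297) (nat_lit 240))))) (XT.nd (nat_lit 234) (nat_lit 152) (nat_lit 0) (XT.nd (nat_lit 78) (nat_lit 228) (nat_lit 0) (XT.lf (nat_lit 0) (nat_lit 9412799783) (nat_lit 76) (nat_lit 13001266578) (nat_lit 152) (nat_lit 8552279992) (nat_lit 25) (nat_lit 5) (nat_lit 26) (nat_lit 5) (nat_lit 27) (nat_lit 4) (nat_lit 364) (nat_lit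 297) (nat_lit 239)) (XT.nd (nat_lit 78) (nat_lit 228) (nat_lit 0) (XT.lf (nat_lit 0) (nat_lit 28401481468) (nat_lit 76) (nat_lit 3419714256) (nat_lit 152) (nat_lit 386653315) (nat_lit 25) (nat_lit 5) (nat_lit 26) (nat_lit 5) (nat_lit 27) (nat_lit 4) (nat_lit 365) (nat_lit 297) (nat_lit 238)) (XT.lf (nat_lit 0) (nat_lit 8186302331) (nat_lit 228) (nat_lit 18622780899) (nat_lit 76) (nat_lit 6695229609) (nat_lit 22) (nat_lit 5) (nat_lit 25) (nat_lit 5) (nat_lit 23) (nat_lit 4) (nat_lit 366) (nat_lit 297) (nat_lit 237)))) (XT.nd (nat_lit 78) (nat_lit 152) (nat_lit 0) (XT.lf (nat_lit 0) (nat_lit 17204699569) (nat_lit 228) (nat_lit 410356390) (nat_lit 76) (nat_lit 17249696095) (nat_lit 22) (nat_lit 5) (nat_lit 25) (nat_lit 5) (nat_lit 23) (nat_lit 4) (nat_lit 367) (nat_lit 297) (nat_lit 236)) (XT.nd (nat_lit 78) (nat_lit 76) (nat_lit 0) (XT.lf (nat_lit 0) (nat_lit 18997208714) (nat_lit 76) (nat_lit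 7812400658) (nat_lit 152) (nat_lit 9479546349) (nat_lit 21) (nat_lit 5) (nat_lit 22) (nat_lit 5) (nat_lit 23) (nat_lit 4) (nat_lit 368) (nat_lit 297) (nat_lit 235)) (XT.lf (nat_lit 0) (nat_lit 1520127842) (nat_lit 76) (nat_lit 35371406041) (nat_lit 76) (nat_lit 893352391) (nat_lit 20) (nat_lit 4) (nat_lit 21) (nat_lit 5) (nat_lit 21) (nat_lit 4) (nat_lit 369) (nat_lit 297) (nat_lit 234)))))) (XT.nd (nat_lit 390) (nat_lit 228) (nat_lit 0) (XT.nd (nat_lit 156) (nat_lit 152) (nat_lit 0) (XT.nd (nat_lit 78) (nat_lit 76) (nat_lit 0) (XT.lf (nat_lit 0) (nat_lit 8177273640) (nat_lit 152) (nat_lit 17957796988) (nat_lit 76) (nat_lit 13211591076) (nat_lit 19) (nat_lit 5) (nat_lit 21) (nat_lit 5) (nat_lit 20) (nat_lit 4) (nat_lit 370) (nat_lit 297) (nat_lit 233)) (XT.lf (nat_lit 0) (nat_lit 1199666384) (nat_lit 76) (nat_lit 16452130065) (nat_lit 152) (nat_lit 23335407475) (nat_lit 18) (nat_lit 5) (nat_lit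 19) (nat_lit 5) (nat_lit 20) (nat_lit 4) (nat_lit 371) (nat_lit 297) (nat_lit 232))) (XT.nd (nat_lit 78) (nat_lit 152) (nat_lit 0) (XT.lf (nat_lit 0) (nat_lit 21613300307) (nat_lit 76) (nat_lit 6130043668) (nat_lit 152) (nat_lit 14962138528) (nat_lit 18) (nat_lit 5) (nat_lit 19) (nat_lit 5) (nat_lit 20) (nat_lit 4) (nat_lit 372) (nat_lit 297) (nat_lit 231)) (XT.nd (nat_lit 78) (nat_lit 152) (nat_lit 0) (XT.lf (nat_lit 0) (nat_lit 38344820323) (nat_lit 152) (nat_lit 1581490434) (nat_lit 0) (nat_lit 4583211524) (nat_lit 18) (nat_lit 5) (nat_lit 20) (nat_lit 4) (nat_lit 18) (nat_lit 4) (nat_lit 373) (nat_lit 297) (nat_lit 230)) (XT.lf (nat_lit 0) (nat_lit 3222607575) (nat_lit 152) (nat_lit 27283302197) (nat_lit 76) (nat_lit 15890676663) (nat_lit 16) (nat_lit 5) (nat_lit 18) (nat_lit 5) (nat_lit 17) (nat_lit 4) (nat_lit 374) (nat_lit 297) (nat_lit 229))))) (XT.nd (nat_lit 234) (nat_lit 152) (nat_lit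 0) (XT.nd (nat_lit 78) (nat_lit 76) (nat_lit 0) (XT.lf (nat_lit 0) (nat_lit 12932186017) (nat_lit 152) (nat_lit 7633416795) (nat_lit 76) (nat_lit 27811164798) (nat_lit 16) (nat_lit 5) (nat_lit 18) (nat_lit 5) (nat_lit 17) (nat_lit 4) (nat_lit 375) (nat_lit 297) (nat_lit 228)) (XT.nd (nat_lit 78) (nat_lit 0) (nat_lit 0) (XT.lf (nat_lit 0) (nat_lit 13190291519) (nat_lit 76) (nat_lit 10028290259) (nat_lit 152) (nat_lit 27234642466) (nat_lit 15) (nat_lit 5) (nat_lit 16) (nat_lit 5) (nat_lit 17) (nat_lit 4) (nat_lit 376) (nat_lit 297) (nat_lit 227)) (XT.lf (nat_lit 0) (nat_lit 34073942661) (nat_lit 152) (nat_lit 17492099967) (nat_lit 0) (nat_lit 1065827962) (nat_lit 15) (nat_lit 5) (nat_lit 17) (nat_lit 4) (nat_lit 15) (nat_lit 4) (nat_lit 377) (nat_lit 297) (nat_lit 226)))) (XT.nd (nat_lit 78) (nat_lit 76) (nat_lit 0) (XT.lf (nat_lit 0) (nat_lit 3166008849) (nat_lit 76) (nat_lit 42404695689) (nat_lit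 76) (nat_lit 9345791671) (nat_lit 14) (nat_lit 4) (nat_lit 15) (nat_lit 5) (nat_lit 15) (nat_lit 4) (nat_lit 378) (nat_lit 297) (nat_lit 225)) (XT.nd (nat_lit 78) (nat_lit 0) (nat_lit 0) (XT.lf (nat_lit 0) (nat_lit 470073746) (nat_lit 152) (nat_lit 32153025092) (nat_lit 76) (nat_lit 24687680409) (nat_lit 13) (nat_lit 5) (nat_lit 15) (nat_lit 5) (nat_lit 14) (nat_lit 4) (nat_lit 379) (nat_lit 297) (nat_lit 224)) (XT.lf (nat_lit 0) (nat_lit 10554437952) (nat_lit 152) (nat_lit 11727833163) (nat_lit 76) (nat_lit 37540604854) (nat_lit 13) (nat_lit 5) (nat_lit 15) (nat_lit 5) (nat_lit 14) (nat_lit 4) (nat_lit 380) (nat_lit 297) (nat_lit 223))))))) (XT.nd (nat_lit 858) (nat_lit 0) (nat_lit 0) (XT.nd (nat_lit 390) (nat_lit 228) (nat_lit 0) (XT.nd (nat_lit 156) (nat_lit 76) (nat_lit 0) (XT.nd (nat_lit 78) (nat_lit 0) (nat_lit 0) (XT.lf (nat_lit 0) (nat_lit 9855881041) (nat_lit 76) (nat_lit 11352541112)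 (nat_lit 152) (nat_lit 41250198305) (nat_lit 12) (nat_lit 5) (nat_lit 13) (nat_lit 5) (nat_lit 14) (nat_lit 4) (nat_lit 381) (nat_lit 297) (nat_lit 222)) (XT.lf (nat_lit 0) (nat_lit 32489520865) (nat_lit 152) (nat_lit 32515156932) (nat_lit 0) (nat_lit 218646662) (nat_lit 12) (nat_lit 5) (nat_lit 14) (nat_lit 4) (nat_lit 12) (nat_lit 4) (nat_lit 382) (nat_lit 297) (nat_lit 221))) (XT.nd (nat_lit 78) (nat_lit 76) (nat_lit 0) (XT.lf (nat_lit 0) (nat_lit 44421928404) (nat_lit 152) (nat_lit 11589303651) (nat_lit 0) (nat_lit 12112418510) (nat_lit 12) (nat_lit 5) (nat_lit 14) (nat_lit 4) (nat_lit 12) (nat_lit 4) (nat_lit 383) (nat_lit 297) (nat_lit 220)) (XT.nd (nat_lit 78) (nat_lit 0) (nat_lit 0) (XT.lf (nat_lit 0) (nat_lit 10539433768) (nat_lit 76) (nat_lit 46486805408) (nat_lit 76) (nat_lit 14140499620) (nat_lit 11) (nat_lit 4) (nat_lit 12) (nat_lit 5) (nat_lit 12) (nat_lit 4) (nat_lit 384) (nat_lit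 297) (nat_lit 219)) (XT.lf (nat_lit 0) (nat_lit 33969126188) (nat_lit 76) (nat_lit 36385693611) (nat_lit 76) (nat_lit 4004344113) (nat_lit 11) (nat_lit 4) (nat_lit 12) (nat_lit 5) (nat_lit 12) (nat_lit 4) (nat_lit 385) (nat_lit 297) (nat_lit 218))))) (XT.nd (nat_lit 234) (nat_lit 76) (nat_lit 0) (XT.nd (nat_lit 78) (nat_lit 76) (nat_lit 0) (XT.lf (nat_lit 0) (nat_lit 6484788807) (nat_lit 152) (nat_lit 19250603180) (nat_lit 76) (nat_lit 51974636262) (nat_lit 10) (nat_lit 5) (nat_lit 12) (nat_lit 5) (nat_lit 11) (nat_lit 4) (nat_lit 386) (nat_lit 297) (nat_lit 217)) (XT.nd (nat_lit 78) (nat_lit 0) (nat_lit 0) (XT.lf (nat_lit 0) (nat_lit 2918642688) (nat_lit 76) (nat_lit 14502614860) (nat_lit 152) (nat_lit 63805821602) (nat_lit 9) (nat_lit 5) (nat_lit 10) (nat_lit 5) (nat_lit 11) (nat_lit 4) (nat_lit 387) (nat_lit 297) (nat_lit 216)) (XT.lf (nat_lit 0) (nat_lit 26556187582) (nat_lit 76) (nat_lit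 2524093103) (nat_lit 152) (nat_lit 55834433423) (nat_lit 9) (nat_lit 5) (nat_lit 10) (nat_lit 5) (nat_lit 11) (nat_lit 4) (nat_lit 388) (nat_lit 297) (nat_lit 215)))) (XT.nd (nat_lit 78) (nat_lit 76) (nat_lit 0) (XT.lf (nat_lit 0) (nat_lit 41397342225) (nat_lit 152) (nat_lit 37548644360) (nat_lit 0) (nat_lit 9838494887) (nat_lit 9) (nat_lit 5) (nat_lit 11) (nat_lit 4) (nat_lit 9) (nat_lit 4) (nat_lit 389) (nat_lit 297) (nat_lit 214)) (XT.nd (nat_lit 78) (nat_lit 76) (nat_lit 0) (XT.lf (nat_lit 0) (nat_lit 54335207646) (nat_lit 152) (nat_lit 15762681769) (nat_lit 0) (nat_lit 22749702384) (nat_lit 9) (nat_lit 5) (nat_lit 11) (nat_lit 4) (nat_lit 9) (nat_lit 4) (nat_lit 390) (nat_lit 297) (nat_lit 213)) (XT.lf (nat_lit 0) (nat_lit 7216311950) (nat_lit 76) (nat_lit 60753473920) (nat_lit 76) (nat_lit 29142580157) (nat_lit 8) (nat_lit 4) (nat_lit 9) (nat_lit 5) (nat_lit 9) (nat_lit 4) (nat_lit 391)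 (nat_lit 297) (nat_lit 212)))))) (XT.nd (nat_lit 40404) (nat_lit 0) (nat_lit 18848) (XT.nd (nat_lit 40170) (nat_lit 0) (nat_lit 22952) (XT.nd (nat_lit 40014) (nat_lit 0) (nat_lit 24472) (XT.lf (nat_lit 0) (nat_lit 31637628789) (nat_lit 76) (nat_lit 50791763656) (nat_lit 76) (nat_lit 19156690368) (nat_lit 8) (nat_lit 4) (nat_lit 9) (nat_lit 5) (nat_lit 9) (nat_lit 4) (nat_lit 392) (nat_lit 297) (nat_lit 211)) (XT.nd (nat_lit 78) (nat_lit 380) (nat_lit 0) (XT.lf (nat_lit 0) (nat_lit 1120455719) (nat_lit 228) (nat_lit 1062197400) (nat_lit 228) (nat_lit 1062197400) (nat_lit 335) (nat_lit 4) (nat_lit 338) (nat_lit 5) (nat_lit 338) (nat_lit 4) (nat_lit 304) (nat_lit 298) (nat_lit 298)) (XT.lf (nat_lit 0) (nat_lit 1595391860) (nat_lit 304) (nat_lit 1288778113) (nat_lit 380) (nat_lit 3633620540) (nat_lit 330) (nat_lit 5) (nat_lit 334) (nat_lit 5) (nat_lit 335) (nat_lit 4) (nat_lit 305) (nat_lit 298)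 (nat_lit 297)))) (XT.nd (nat_lit 78) (nat_lit 1064) (nat_lit 0) (XT.lf (nat_lit 0) (nat_lit 1060787474) (nat_lit 380) (nat_lit 213503483) (nat_lit 456) (nat_lit 5279801815) (nat_lit 324) (nat_lit 5) (nat_lit 329) (nat_lit 5) (nat_lit 330) (nat_lit 5) (nat_lit 306) (nat_lit 298) (nat_lit 296)) (XT.nd (nat_lit 78) (nat_lit 608) (nat_lit 0) (XT.lf (nat_lit 0) (nat_lit 619099236) (nat_lit 456) (nat_lit 5510918590) (nat_lit 532) (nat_lit 468212113) (nat_lit 318) (nat_lit 5) (nat_lit 324) (nat_lit 5) (nat_lit 325) (nat_lit 4) (nat_lit 307) (nat_lit 298) (nat_lit 295)) (XT.lf (nat_lit 0) (nat_lit 264947277) (nat_lit 532) (nat_lit 4011048715) (nat_lit 608) (nat_lit 2374205438) (nat_lit 310) (nat_lit 5) (nat_lit 317) (nat_lit 5) (nat_lit 318) (nat_lit 5) (nat_lit 308) (nat_lit 298) (nat_lit 294))))) (XT.nd (nat_lit 234) (nat_lit 2660) (nat_lit 0) (XT.nd (nat_lit 78) (nat_lit 760) (nat_lit 0) (XT.lf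 (nat_lit 0) (nat_lit 11279431) (nat_lit 608) (nat_lit 2272612230) (nat_lit 684) (nat_lit 4426659189) (nat_lit 301) (nat_lit 5) (nat_lit 309) (nat_lit 5) (nat_lit 310) (nat_lit 5) (nat_lit 309) (nat_lit 298) (nat_lit 293)) (XT.nd (nat_lit 78) (nat_lit 684) (nat_lit 0) (XT.lf (nat_lit 0) (nat_lit 148544191) (nat_lit 684) (nat_lit 140882612) (nat_lit 76) (nat_lit 6489935573) (nat_lit 300) (nat_lit 5) (nat_lit 309) (nat_lit 5) (nat_lit 301) (nat_lit 5) (nat_lit 310) (nat_lit 298) (nat_lit 292)) (XT.lf (nat_lit 0) (nat_lit 4693286215) (nat_lit 760) (nat_lit 237426127) (nat_lit 76) (nat_lit 1924938272) (nat_lit 291) (nat_lit 5) (nat_lit 301) (nat_lit 5) (nat_lit 292) (nat_lit 5) (nat_lit 311) (nat_lit 298) (nat_lit 291)))) (XT.nd (nat_lit 78) (nat_lit 1824) (nat_lit 0) (XT.lf (nat_lit 0) (nat_lit 2306575434) (nat_lit 836) (nat_lit 248333293) (nat_lit 76) (nat_lit 4385619045) (nat_lit 280) (nat_lit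 5) (nat_lit 291) (nat_lit 5) (nat_lit 281) (nat_lit 5) (nat_lit 312) (nat_lit 298) (nat_lit 290)) (XT.nd (nat_lit 78) (nat_lit 988) (nat_lit 0) (XT.lf (nat_lit 0) (nat_lit 6790310407) (nat_lit 912) (nat_lit 173673478) (nat_lit 76) (nat_lit 70223079) (nat_lit 269) (nat_lit 5) (nat_lit 281) (nat_lit 5) (nat_lit 270) (nat_lit 5) (nat_lit 313) (nat_lit 298) (nat_lit 289)) (XT.lf (nat_lit 0) (nat_lit 4151888814) (nat_lit 988) (nat_lit 63038530) (nat_lit 76) (nat_lit 2920502557) (nat_lit 256) (nat_lit 5) (nat_lit 269) (nat_lit 5) (nat_lit 257) (nat_lit 5) (nat_lit 314) (nat_lit 298) (nat_lit 288))))))))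
noncomputable def xc45 : XT := (XT.nd (nat_lit 1794) (nat_lit 4028) (nat_lit 0) (XT.nd (nat_lit 858) (nat_lit 4560) (nat_lit 0) (XT.nd (nat_lit 390) (nat_lit 3192) (nat_lit 0) (XT.nd (nat_lit 156) (nat_lit 2128) (nat_lit 0) (XT.nd (nat_lit 78) (nat_lit 1140) (nat_lit 0) (XT.lf (nat_lit 0) (nat_lit 132427870) (nat_lit 1064) (nat_lit 1213783026) (nat_lit 1140) (nat_lit 5899580372) (nat_lit 228) (nat_lit 5) (nat_lit 242) (nat_lit 5) (nat_lit 243) (nat_lit 5) (nat_lit 315) (nat_lit 298) (nat_lit 287)) (XT.lf (nat_lit 0) (nat_lit 375421945) (nat_lit 1140) (nat_lit 5340741094) (nat_lit 1216) (nat_lit 1648289018) (nat_lit 213) (nat_lit 5) (nat_lit 228) (nat_lit 5) (nat_lit 229) (nat_lit 5) (nat_lit 316) (nat_lit 298) (nat_lit 286))) (XT.nd (nat_lit 78) (nat_lit 1216) (nat_lit 0) (XT.lf (nat_lit 0) (nat_lit 670370391) (nat_lit 836) (nat_lit 1975986603) (nat_lit 912) (nat_lit 4845517702) (nat_lit 201)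 (nat_lit 5) (nat_lit 212) (nat_lit 5) (nat_lit 213) (nat_lit 5) (nat_lit 317) (nat_lit 298) (nat_lit 285)) (XT.nd (nat_lit 78) (nat_lit 608) (nat_lit 0) (XT.lf (nat_lit 0) (nat_lit 1019376060) (nat_lit 608) (nat_lit 6001069628) (nat_lit 684) (nat_lit 607971793) (nat_lit 193) (nat_lit 5) (nat_lit 201) (nat_lit 5) (nat_lit 202) (nat_lit 5) (nat_lit 318) (nat_lit 298) (nat_lit 284)) (XT.lf (nat_lit 0) (nat_lit 1393102259) (nat_lit 532) (nat_lit 2284188912) (nat_lit 608) (nat_lit 4096251755) (nat_lit 185) (nat_lit 5) (nat_lit 192) (nat_lit 5) (nat_lit 193) (nat_lit 5) (nat_lit 319) (nat_lit 298) (nat_lit 283))))) (XT.nd (nat_lit 234) (nat_lit 1444) (nat_lit 0) (XT.nd (nat_lit 78) (nat_lit 1140) (nat_lit 0) (XT.lf (nat_lit 0) (nat_lit 148507998) (nat_lit 608) (nat_lit 6108732161) (nat_lit 76) (nat_lit 1671168451) (nat_lit 177) (nat_lit 5) (nat_lit 185) (nat_lit 5) (nat_lit 178) (nat_lit 5) (nat_lit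 320) (nat_lit 298) (nat_lit 282)) (XT.nd (nat_lit 78) (nat_lit 608) (nat_lit 0) (XT.lf (nat_lit 0) (nat_lit 2253442963) (nat_lit 532) (nat_lit 2198008433) (nat_lit 608) (nat_lit 3640594558) (nat_lit 170) (nat_lit 5) (nat_lit 177) (nat_lit 5) (nat_lit 178) (nat_lit 5) (nat_lit 321) (nat_lit 298) (nat_lit 281)) (XT.lf (nat_lit 0) (nat_lit 626135785) (nat_lit 608) (nat_lit 5538884018) (nat_lit 76) (nat_lit 2100767510) (nat_lit 162) (nat_lit 5) (nat_lit 170) (nat_lit 5) (nat_lit 163) (nat_lit 5) (nat_lit 322) (nat_lit 298) (nat_lit 280)))) (XT.nd (nat_lit 78) (nat_lit 988) (nat_lit 0) (XT.lf (nat_lit 0) (nat_lit 3202377337) (nat_lit 456) (nat_lit 1772947189) (nat_lit 532) (nat_lit 3473622664) (nat_lit 156) (nat_lit 5) (nat_lit 162) (nat_lit 5) (nat_lit 163) (nat_lit 5) (nat_lit 323) (nat_lit 298) (nat_lit 279)) (XT.nd (nat_lit 78) (nat_lit 456) (nat_lit 0) (XT.lf (nat_lit 0) (nat_lit 839092111)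 (nat_lit 532) (nat_lit 4945598439) (nat_lit 76) (nat_lit 2857770268) (nat_lit 149) (nat_lit 5) (nat_lit 156) (nat_lit 5) (nat_lit 150) (nat_lit 5) (nat_lit 324) (nat_lit 298) (nat_lit 278)) (XT.lf (nat_lit 0) (nat_lit 4187602221) (nat_lit 456) (nat_lit 1061683223) (nat_lit 532) (nat_lit 3596850356) (nat_lit 143) (nat_lit 5) (nat_lit 149) (nat_lit 5) (nat_lit 150) (nat_lit 5) (nat_lit 325) (nat_lit 298) (nat_lit 277)))))) (XT.nd (nat_lit 468) (nat_lit 2052) (nat_lit 0) (XT.nd (nat_lit 234) (nat_lit 1140) (nat_lit 0) (XT.nd (nat_lit 78) (nat_lit 836) (nat_lit 0) (XT.lf (nat_lit 0) (nat_lit 783358174) (nat_lit 532) (nat_lit 4385198551) (nat_lit 76) (nat_lit 3891938659) (nat_lit 136) (nat_lit 5) (nat_lit 143) (nat_lit 5) (nat_lit 137) (nat_lit 5) (nat_lit 326) (nat_lit 298) (nat_lit 276)) (XT.nd (nat_lit 78) (nat_lit 456) (nat_lit 0) (XT.lf (nat_lit 0) (nat_lit 5151934786) (nat_lit 380) (nat_lit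 115363428) (nat_lit 456) (nat_lit 4018545728) (nat_lit 131) (nat_lit 5) (nat_lit 136) (nat_lit 5) (nat_lit 137) (nat_lit 5) (nat_lit 327) (nat_lit 298) (nat_lit 275)) (XT.lf (nat_lit 0) (nat_lit 448195382) (nat_lit 456) (nat_lit 3920071726) (nat_lit 76) (nat_lit 5154044574) (nat_lit 125) (nat_lit 5) (nat_lit 131) (nat_lit 5) (nat_lit 126) (nat_lit 5) (nat_lit 328) (nat_lit 298) (nat_lit 274)))) (XT.nd (nat_lit 78) (nat_lit 760) (nat_lit 0) (XT.lf (nat_lit 0) (nat_lit 5026225735) (nat_lit 456) (nat_lit 3748883076) (nat_lit 76) (nat_lit 995267714) (nat_lit 120) (nat_lit 5) (nat_lit 126) (nat_lit 5) (nat_lit 121) (nat_lit 5) (nat_lit 329) (nat_lit 298) (nat_lit 273)) (XT.nd (nat_lit 78) (nat_lit 380) (nat_lit 0) (XT.lf (nat_lit 0) (nat_lit 6408289118) (nat_lit 380) (nat_lit 3434301180) (nat_lit 456) (nat_lit 188065807) (nat_lit 115) (nat_lit 5) (nat_lit 120) (nat_lit 5) (nat_lit 121) (nat_lit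 5) (nat_lit 330) (nat_lit 298) (nat_lit 272)) (XT.lf (nat_lit 0) (nat_lit 4498323793) (nat_lit 380) (nat_lit 3571536596) (nat_lit 76) (nat_lit 2233085853) (nat_lit 110) (nat_lit 5) (nat_lit 115) (nat_lit 5) (nat_lit 111) (nat_lit 5) (nat_lit 331) (nat_lit 298) (nat_lit 271))))) (XT.nd (nat_lit 234) (nat_lit 988) (nat_lit 0) (XT.nd (nat_lit 78) (nat_lit 684) (nat_lit 0) (XT.lf (nat_lit 0) (nat_lit 7010292509) (nat_lit 380) (nat_lit 2415187913) (nat_lit 456) (nat_lit 1163087687) (nat_lit 105) (nat_lit 5) (nat_lit 110) (nat_lit 5) (nat_lit 111) (nat_lit 5) (nat_lit 332) (nat_lit 298) (nat_lit 270)) (XT.nd (nat_lit 78) (nat_lit 304) (nat_lit 0) (XT.lf (nat_lit 0) (nat_lit 3653329597) (nat_lit 380) (nat_lit 3687022087) (nat_lit 76) (nat_lit 3546669935) (nat_lit 100) (nat_lit 5) (nat_lit 105) (nat_lit 5) (nat_lit 101) (nat_lit 5) (nat_lit 333) (nat_lit 298) (nat_lit 269)) (XT.lf (nat_lit 0) (nat_lit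 7323115893) (nat_lit 304) (nat_lit 1373210087) (nat_lit 380) (nat_lit 2503505236) (nat_lit 96) (nat_lit 5) (nat_lit 100) (nat_lit 5) (nat_lit 101) (nat_lit 5) (nat_lit 334) (nat_lit 298) (nat_lit 268)))) (XT.nd (nat_lit 78) (nat_lit 608) (nat_lit 0) (XT.lf (nat_lit 0) (nat_lit 2452788403) (nat_lit 380) (nat_lit 4195516201) (nat_lit 76) (nat_lit 4878204203) (nat_lit 91) (nat_lit 5) (nat_lit 96) (nat_lit 5) (nat_lit 92) (nat_lit 5) (nat_lit 335) (nat_lit 298) (nat_lit 267)) (XT.nd (nat_lit 78) (nat_lit 304) (nat_lit 0) (XT.lf (nat_lit 0) (nat_lit 7242150600) (nat_lit 304) (nat_lit 371352281) (nat_lit 380) (nat_lit 4255086824) (nat_lit 87) (nat_lit 5) (nat_lit 91) (nat_lit 5) (nat_lit 92) (nat_lit 5) (nat_lit 336) (nat_lit 298) (nat_lit 266)) (XT.lf (nat_lit 0) (nat_lit 847698799) (nat_lit 304) (nat_lit 5214124193) (nat_lit 76) (nat_lit 6164011758) (nat_lit 83) (nat_lit 5) (nat_lit 87) (nat_lit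 5) (nat_lit 84) (nat_lit 5) (nat_lit 337) (nat_lit 298) (nat_lit 265))))))) (XT.nd (nat_lit 858) (nat_lit 1596) (nat_lit 0) (XT.nd (nat_lit 390) (nat_lit 1064) (nat_lit 0) (XT.nd (nat_lit 156) (nat_lit 836) (nat_lit 0) (XT.nd (nat_lit 78) (nat_lit 228) (nat_lit 0) (XT.lf (nat_lit 0) (nat_lit 6129315395) (nat_lit 380) (nat_lit 5959899101) (nat_lit 76) (nat_lit 510169676) (nat_lit 79) (nat_lit 5) (nat_lit 84) (nat_lit 5) (nat_lit 80) (nat_lit 5) (nat_lit 338) (nat_lit 298) (nat_lit 264)) (XT.lf (nat_lit 0) (nat_lit 6097287461) (nat_lit 228) (nat_lit 5645019050) (nat_lit 304) (nat_lit 1247339853) (nat_lit 76) (nat_lit 5) (nat_lit 79) (nat_lit 5) (nat_lit 80) (nat_lit 5) (nat_lit 339) (nat_lit 298) (nat_lit 263))) (XT.nd (nat_lit 78) (nat_lit 532) (nat_lit 0) (XT.lf (nat_lit 0) (nat_lit 4175104940) (nat_lit 304) (nat_lit 8023767684) (nat_lit 76) (nat_lit 1198739870) (nat_lit 72) (nat_lit 5) (nat_lit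 76) (nat_lit 5) (nat_lit 73) (nat_lit 5) (nat_lit 340) (nat_lit 298) (nat_lit 262)) (XT.nd (nat_lit 78) (nat_lit 304) (nat_lit 0) (XT.lf (nat_lit 0) (nat_lit 4429717338) (nat_lit 228) (nat_lit 5483278078) (nat_lit 304) (nat_lit 3910555057) (nat_lit 69) (nat_lit 5) (nat_lit 72) (nat_lit 5) (nat_lit 73) (nat_lit 5) (nat_lit 341) (nat_lit 298) (nat_lit 261)) (XT.lf (nat_lit 0) (nat_lit 1666354070) (nat_lit 304) (nat_lit 10990395842) (nat_lit 76) (nat_lit 1612642129) (nat_lit 65) (nat_lit 5) (nat_lit 69) (nat_lit 5) (nat_lit 66) (nat_lit 5) (nat_lit 342) (nat_lit 298) (nat_lit 260))))) (XT.nd (nat_lit 234) (nat_lit 608) (nat_lit 0) (XT.nd (nat_lit 78) (nat_lit 304) (nat_lit 0) (XT.lf (nat_lit 0) (nat_lit 1831844348) (nat_lit 152) (nat_lit 5684433374) (nat_lit 228) (nat_lit 7217877016) (nat_lit 63) (nat_lit 5) (nat_lit 65) (nat_lit 5) (nat_lit 66) (nat_lit 5) (nat_lit 343) (nat_lit 298) (nat_lit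 259)) (XT.nd (nat_lit 78) (nat_lit 76) (nat_lit 0) (XT.lf (nat_lit 0) (nat_lit 138854334) (nat_lit 228) (nat_lit 13557430250) (nat_lit 304) (nat_lit 1524783335) (nat_lit 60) (nat_lit 5) (nat_lit 63) (nat_lit 5) (nat_lit 64) (nat_lit 5) (nat_lit 344) (nat_lit 298) (nat_lit 258)) (XT.lf (nat_lit 0) (nat_lit 4465942268) (nat_lit 304) (nat_lit 1878716592) (nat_lit 76) (nat_lit 9383424592) (nat_lit 59) (nat_lit 5) (nat_lit 63) (nat_lit 5) (nat_lit 60) (nat_lit 5) (nat_lit 345) (nat_lit 298) (nat_lit 257)))) (XT.nd (nat_lit 78) (nat_lit 456) (nat_lit 0) (XT.lf (nat_lit 0) (nat_lit 10766204373) (nat_lit 228) (nat_lit 4210214036) (nat_lit 76) (nat_lit 1282367587) (nat_lit 57) (nat_lit 5) (nat_lit 60) (nat_lit 5) (nat_lit 58) (nat_lit 5) (nat_lit 346) (nat_lit 298) (nat_lit 256)) (XT.nd (nat_lit 78) (nat_lit 152) (nat_lit 0) (XT.lf (nat_lit 0) (nat_lit 648906330) (nat_lit 304) (nat_lit 6936277283) (nat_lit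 76) (nat_lit 9227874993) (nat_lit 53) (nat_lit 5) (nat_lit 57) (nat_lit 5) (nat_lit 54) (nat_lit 5) (nat_lit 347) (nat_lit 298) (nat_lit 255)) (XT.lf (nat_lit 0) (nat_lit 7018696198) (nat_lit 228) (nat_lit 10085140357) (nat_lit 76) (nat_lit 288563144) (nat_lit 51) (nat_lit 5) (nat_lit 54) (nat_lit 5) (nat_lit 52) (nat_lit 5) (nat_lit 348) (nat_lit 298) (nat_lit 254)))))) (XT.nd (nat_lit 468) (nat_lit 684) (nat_lit 0) (XT.nd (nat_lit 234) (nat_lit 532) (nat_lit 0) (XT.nd (nat_lit 78) (nat_lit 228) (nat_lit 0) (XT.lf (nat_lit 0) (nat_lit 4278675866) (nat_lit 152) (nat_lit 9537131306) (nat_lit 228) (nat_lit 4181665242) (nat_lit 49) (nat_lit 5) (nat_lit 51) (nat_lit 5) (nat_lit 52) (nat_lit 5) (nat_lit 349) (nat_lit 298) (nat_lit 253)) (XT.nd (nat_lit 78) (nat_lit 0) (nat_lit 0) (XT.lf (nat_lit 0) (nat_lit 799435066) (nat_lit 152) (nat_lit 1508605990) (nat_lit 228) (nat_lit 16323115850) (nat_lit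 46) (nat_lit 5) (nat_lit 48) (nat_lit 5) (nat_lit 49) (nat_lit 5) (nat_lit 350) (nat_lit 298) (nat_lit 252)) (XT.lf (nat_lit 0) (nat_lit 9168508659) (nat_lit 228) (nat_lit 3204698475) (nat_lit 76) (nat_lit 6918119625) (nat_lit 46) (nat_lit 5) (nat_lit 49) (nat_lit 5) (nat_lit 47) (nat_lit 5) (nat_lit 351) (nat_lit 298) (nat_lit 251)))) (XT.nd (nat_lit 78) (nat_lit 380) (nat_lit 0) (XT.lf (nat_lit 0) (nat_lit 12251294032) (nat_lit 152) (nat_lit 4180177310) (nat_lit 228) (nat_lit 3551274362) (nat_lit 44) (nat_lit 5) (nat_lit 46) (nat_lit 5) (nat_lit 47) (nat_lit 5) (nat_lit 352) (nat_lit 298) (nat_lit 250)) (XT.nd (nat_lit 78) (nat_lit 152) (nat_lit 0) (XT.lf (nat_lit 0) (nat_lit 3363613109) (nat_lit 228) (nat_lit 12914462249) (nat_lit 76) (nat_lit 4427313954) (nat_lit 41) (nat_lit 5) (nat_lit 44) (nat_lit 5) (nat_lit 42) (nat_lit 5) (nat_lit 353) (nat_lit 298) (nat_lit 249)) (XT.lf (nat_lit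 0) (nat_lit 2639774769) (nat_lit 152) (nat_lit 7989500817) (nat_lit 228) (nat_lit 10831502186) (nat_lit 39) (nat_lit 5) (nat_lit 41) (nat_lit 5) (nat_lit 42) (nat_lit 5) (nat_lit 354) (nat_lit 298) (nat_lit 248))))) (XT.nd (nat_lit 234) (nat_lit 304) (nat_lit 0) (XT.nd (nat_lit 78) (nat_lit 380) (nat_lit 0) (XT.lf (nat_lit 0) (nat_lit 18330902650) (nat_lit 228) (nat_lit 3136720976) (nat_lit 76) (nat_lit 784152343) (nat_lit 39) (nat_lit 5) (nat_lit 42) (nat_lit 5) (nat_lit 40) (nat_lit 4) (nat_lit 355) (nat_lit 298) (nat_lit 247)) (XT.nd (nat_lit 78) (nat_lit 152) (nat_lit 0) (XT.lf (nat_lit 0) (nat_lit 3415865622) (nat_lit 228) (nat_lit 9713397599) (nat_lit 76) (nat_lit 9947748362) (nat_lit 36) (nat_lit 5) (nat_lit 39) (nat_lit 5) (nat_lit 37) (nat_lit 5) (nat_lit 356) (nat_lit 298) (nat_lit 246)) (XT.lf (nat_lit 0) (nat_lit 6792139330) (nat_lit 152) (nat_lit 4281079648) (nat_lit 228) (nat_lit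 12868097653) (nat_lit 34) (nat_lit 5) (nat_lit 36) (nat_lit 5) (nat_lit 37) (nat_lit 5) (nat_lit 357) (nat_lit 298) (nat_lit 245)))) (XT.nd (nat_lit 78) (nat_lit 304) (nat_lit 0) (XT.lf (nat_lit 0) (nat_lit 19200320081) (nat_lit 228) (nat_lit 679717576) (nat_lit 76) (nat_lit 4966210280) (nat_lit 34) (nat_lit 5) (nat_lit 37) (nat_lit 5) (nat_lit 35) (nat_lit 4) (nat_lit 358) (nat_lit 298) (nat_lit 244)) (XT.nd (nat_lit 78) (nat_lit 152) (nat_lit 0) (XT.lf (nat_lit 0) (nat_lit 2046305381) (nat_lit 152) (nat_lit 9019861408) (nat_lit 76) (nat_lit 14725313640) (nat_lit 32) (nat_lit 5) (nat_lit 34) (nat_lit 5) (nat_lit 33) (nat_lit 5) (nat_lit 359) (nat_lit 298) (nat_lit 243)) (XT.lf (nat_lit 0) (nat_lit 8327864077) (nat_lit 152) (nat_lit 1708688267) (nat_lit 228) (nat_lit 16744855470) (nat_lit 30) (nat_lit 5) (nat_lit 32) (nat_lit 5) (nat_lit 33) (nat_lit 5) (nat_lit 360) (nat_lit 298) (nat_lit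 242))))))))
noncomputable def xc46 : XT := (XT.nd (nat_lit 1794) (nat_lit 304) (nat_lit 0) (XT.nd (nat_lit 858) (nat_lit 532) (nat_lit 0) (XT.nd (nat_lit 390) (nat_lit 456) (nat_lit 0) (XT.nd (nat_lit 156) (nat_lit 304) (nat_lit 0) (XT.nd (nat_lit 78) (nat_lit 76) (nat_lit 0) (XT.lf (nat_lit 0) (nat_lit 18541439528) (nat_lit 228) (nat_lit 1267380044) (nat_lit 76) (nat_lit 8008572762) (nat_lit 30) (nat_lit 5) (nat_lit 33) (nat_lit 5) (nat_lit 31) (nat_lit 4) (nat_lit 361) (nat_lit 298) (nat_lit 241)) (XT.lf (nat_lit 0) (nat_lit 16995482256) (nat_lit 76) (nat_lit 10602739032) (nat_lit 152) (nat_lit 1303169191) (nat_lit 29) (nat_lit 5) (nat_lit 30) (nat_lit 5) (nat_lit 31) (nat_lit 4) (nat_lit 362) (nat_lit 298) (nat_lit 240))) (XT.nd (nat_lit 78) (nat_lit 76) (nat_lit 0) (XT.lf (nat_lit 0) (nat_lit 6114731813) (nat_lit 152) (nat_lit 834715285) (nat_lit 228) (nat_lit 23087542343) (nat_lit 26)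 (nat_lit 5) (nat_lit 28) (nat_lit 5) (nat_lit 29) (nat_lit 5) (nat_lit 363) (nat_lit 298) (nat_lit 239)) (XT.nd (nat_lit 78) (nat_lit 76) (nat_lit 0) (XT.lf (nat_lit 0) (nat_lit 15750729706) (nat_lit 228) (nat_lit 6139132760) (nat_lit 76) (nat_lit 9334241441) (nat_lit 26) (nat_lit 5) (nat_lit 29) (nat_lit 5) (nat_lit 27) (nat_lit 4) (nat_lit 364) (nat_lit 298) (nat_lit 238)) (XT.lf (nat_lit 0) (nat_lit 12682966451) (nat_lit 76) (nat_lit 12390303762) (nat_lit 152) (nat_lit 7394879733) (nat_lit 25) (nat_lit 5) (nat_lit 26) (nat_lit 5) (nat_lit 27) (nat_lit 4) (nat_lit 365) (nat_lit 298) (nat_lit 237))))) (XT.nd (nat_lit 234) (nat_lit 152) (nat_lit 0) (XT.nd (nat_lit 78) (nat_lit 228) (nat_lit 0) (XT.lf (nat_lit 0) (nat_lit 1082017145) (nat_lit 152) (nat_lit 1296779290) (nat_lit 76) (nat_lit 31394828029) (nat_lit 24) (nat_lit 5) (nat_lit 26) (nat_lit 5) (nat_lit 25) (nat_lit 5) (nat_lit 366) (nat_lit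 298) (nat_lit 236)) (XT.nd (nat_lit 78) (nat_lit 76) (nat_lit 0) (XT.lf (nat_lit 0) (nat_lit 10041771909) (nat_lit 228) (nat_lit 16903218045) (nat_lit 76) (nat_lit 8190838009) (nat_lit 22) (nat_lit 5) (nat_lit 25) (nat_lit 5) (nat_lit 23) (nat_lit 4) (nat_lit 367) (nat_lit 298) (nat_lit 235)) (XT.lf (nat_lit 0) (nat_lit 2135270609) (nat_lit 76) (nat_lit 17327479429) (nat_lit 152) (nat_lit 17103004312) (nat_lit 21) (nat_lit 5) (nat_lit 22) (nat_lit 5) (nat_lit 23) (nat_lit 4) (nat_lit 368) (nat_lit 298) (nat_lit 234)))) (XT.nd (nat_lit 78) (nat_lit 152) (nat_lit 0) (XT.lf (nat_lit 0) (nat_lit 22399183493) (nat_lit 76) (nat_lit 7086182297) (nat_lit 152) (nat_lit 8577902921) (nat_lit 21) (nat_lit 5) (nat_lit 22) (nat_lit 5) (nat_lit 23) (nat_lit 4) (nat_lit 369) (nat_lit 298) (nat_lit 233)) (XT.nd (nat_lit 78) (nat_lit 0) (nat_lit 0) (XT.lf (nat_lit 0) (nat_lit 398561258) (nat_lit 152) (nat_lit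 35631893007) (nat_lit 76) (nat_lit 3604133589) (nat_lit 19) (nat_lit 5) (nat_lit 21) (nat_lit 5) (nat_lit 20) (nat_lit 4) (nat_lit 370) (nat_lit 298) (nat_lit 232)) (XT.lf (nat_lit 0) (nat_lit 9841639342) (nat_lit 152) (nat_lit 16534652051) (nat_lit 76) (nat_lit 14899786026) (nat_lit 19) (nat_lit 5) (nat_lit 21) (nat_lit 5) (nat_lit 20) (nat_lit 4) (nat_lit 371) (nat_lit 298) (nat_lit 231)))))) (XT.nd (nat_lit 468) (nat_lit 228) (nat_lit 0) (XT.nd (nat_lit 234) (nat_lit 152) (nat_lit 0) (XT.nd (nat_lit 78) (nat_lit 76) (nat_lit 0) (XT.lf (nat_lit 0) (nat_lit 3514152494) (nat_lit 76) (nat_lit 16237621648) (nat_lit 152) (nat_lit 23248028049) (nat_lit 18) (nat_lit 5) (nat_lit 19) (nat_lit 5) (nat_lit 20) (nat_lit 4) (nat_lit 372) (nat_lit 298) (nat_lit 230)) (XT.nd (nat_lit 78) (nat_lit 76) (nat_lit 0) (XT.lf (nat_lit 0) (nat_lit 24841110836) (nat_lit 76) (nat_lit 5448817356) (nat_lit 152) (nat_lit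 14515817074) (nat_lit 18) (nat_lit 5) (nat_lit 19) (nat_lit 5) (nat_lit 20) (nat_lit 4) (nat_lit 373) (nat_lit 298) (nat_lit 229)) (XT.lf (nat_lit 0) (nat_lit 416769844) (nat_lit 76) (nat_lit 40962546949) (nat_lit 76) (nat_lit 5321945983) (nat_lit 17) (nat_lit 4) (nat_lit 18) (nat_lit 5) (nat_lit 18) (nat_lit 4) (nat_lit 374) (nat_lit 298) (nat_lit 228)))) (XT.nd (nat_lit 78) (nat_lit 76) (nat_lit 0) (XT.lf (nat_lit 0) (nat_lit 4474187791) (nat_lit 152) (nat_lit 26615674830) (nat_lit 76) (nat_lit 17593638111) (nat_lit 16) (nat_lit 5) (nat_lit 18) (nat_lit 5) (nat_lit 17) (nat_lit 4) (nat_lit 375) (nat_lit 298) (nat_lit 227)) (XT.nd (nat_lit 78) (nat_lit 76) (nat_lit 0) (XT.lf (nat_lit 0) (nat_lit 14617318972) (nat_lit 152) (nat_lit 6080047182) (nat_lit 76) (nat_lit 30066892194) (nat_lit 16) (nat_lit 5) (nat_lit 18) (nat_lit 5) (nat_lit 17) (nat_lit 4) (nat_lit 376) (nat_lit 298) (nat_lit 226))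 (XT.lf (nat_lit 0) (nat_lit 15729379003) (nat_lit 76) (nat_lit 9657269616) (nat_lit 152) (nat_lit 27558839912) (nat_lit 15) (nat_lit 5) (nat_lit 16) (nat_lit 5) (nat_lit 17) (nat_lit 4) (nat_lit 377) (nat_lit 298) (nat_lit 225))))) (XT.nd (nat_lit 234) (nat_lit 76) (nat_lit 0) (XT.nd (nat_lit 78) (nat_lit 152) (nat_lit 0) (XT.lf (nat_lit 0) (nat_lit 36744805634) (nat_lit 152) (nat_lit 16555673105) (nat_lit 0) (nat_lit 1933796316) (nat_lit 15) (nat_lit 5) (nat_lit 17) (nat_lit 4) (nat_lit 15) (nat_lit 4) (nat_lit 378) (nat_lit 298) (nat_lit 224)) (XT.nd (nat_lit 78) (nat_lit 76) (nat_lit 0) (XT.lf (nat_lit 0) (nat_lit 5083428286) (nat_lit 76) (nat_lit 43703831530) (nat_lit 76) (nat_lit 8846754802) (nat_lit 14) (nat_lit 4) (nat_lit 15) (nat_lit 5) (nat_lit 15) (nat_lit 4) (nat_lit 379) (nat_lit 298) (nat_lit 223)) (XT.lf (nat_lit 0) (nat_lit 1395929759) (nat_lit 152) (nat_lit 32067213038) (nat_lit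 76) (nat_lit 26685951538) (nat_lit 13) (nat_lit 5) (nat_lit 15) (nat_lit 5) (nat_lit 14) (nat_lit 4) (nat_lit 380) (nat_lit 298) (nat_lit 222)))) (XT.nd (nat_lit 78) (nat_lit 76) (nat_lit 0) (XT.lf (nat_lit 0) (nat_lit 11941543018) (nat_lit 152) (nat_lit 10701402622) (nat_lit 76) (nat_lit 40145146628) (nat_lit 13) (nat_lit 5) (nat_lit 15) (nat_lit 5) (nat_lit 14) (nat_lit 4) (nat_lit 381) (nat_lit 298) (nat_lit 221)) (XT.nd (nat_lit 78) (nat_lit 0) (nat_lit 0) (XT.lf (nat_lit 0) (nat_lit 11915266067) (nat_lit 76) (nat_lit 11187096384) (nat_lit 152) (nat_lit 42454044402) (nat_lit 12) (nat_lit 5) (nat_lit 13) (nat_lit 5) (nat_lit 14) (nat_lit 4) (nat_lit 382) (nat_lit 298) (nat_lit 220)) (XT.lf (nat_lit 0) (nat_lit 34914535885) (nat_lit 152) (nat_lit 32631687286) (nat_lit 0) (nat_lit 914118912) (nat_lit 12) (nat_lit 5) (nat_lit 14) (nat_lit 4) (nat_lit 12) (nat_lit 4) (nat_lit 383) (nat_lit 298)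 (nat_lit 219))))))) (XT.nd (nat_lit 40638) (nat_lit 0) (nat_lit 17784) (XT.nd (nat_lit 390) (nat_lit 76) (nat_lit 0) (XT.nd (nat_lit 156) (nat_lit 152) (nat_lit 0) (XT.nd (nat_lit 78) (nat_lit 76) (nat_lit 0) (XT.lf (nat_lit 0) (nat_lit 47405442896) (nat_lit 152) (nat_lit 10731409317) (nat_lit 0) (nat_lit 13369982214) (nat_lit 12) (nat_lit 5) (nat_lit 14) (nat_lit 4) (nat_lit 12) (nat_lit 4) (nat_lit 384) (nat_lit 298) (nat_lit 218)) (XT.lf (nat_lit 0) (nat_lit 12462563352) (nat_lit 76) (nat_lit 48154520958) (nat_lit 76) (nat_lit 14085685314) (nat_lit 11) (nat_lit 4) (nat_lit 12) (nat_lit 5) (nat_lit 12) (nat_lit 4) (nat_lit 385) (nat_lit 298) (nat_lit 217))) (XT.nd (nat_lit 78) (nat_lit 152) (nat_lit 0) (XT.lf (nat_lit 0) (nat_lit 36997256683) (nat_lit 76) (nat_lit 37579621414) (nat_lit 76) (nat_lit 3479000093) (nat_lit 11) (nat_lit 4) (nat_lit 12) (nat_lit 5) (nat_lit 12) (nat_lit 4) (nat_lit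 386) (nat_lit 298) (nat_lit 216)) (XT.nd (nat_lit 78) (nat_lit 76) (nat_lit 0) (XT.lf (nat_lit 0) (nat_lit 7486554831) (nat_lit 152) (nat_lit 18933187087) (nat_lit 76) (nat_lit 55155356169) (nat_lit 10) (nat_lit 5) (nat_lit 12) (nat_lit 5) (nat_lit 11) (nat_lit 4) (nat_lit 387) (nat_lit 298) (nat_lit 215)) (XT.lf (nat_lit 0) (nat_lit 4307831673) (nat_lit 76) (nat_lit 14641703112) (nat_lit 152) (nat_lit 66319081153) (nat_lit 9) (nat_lit 5) (nat_lit 10) (nat_lit 5) (nat_lit 11) (nat_lit 4) (nat_lit 388) (nat_lit 298) (nat_lit 214))))) (XT.nd (nat_lit 234) (nat_lit 76) (nat_lit 0) (XT.nd (nat_lit 78) (nat_lit 0) (nat_lit 0) (XT.lf (nat_lit 0) (nat_lit 29068051104) (nat_lit 76) (nat_lit 2092162052) (nat_lit 152) (nat_lit 57981363161) (nat_lit 9) (nat_lit 5) (nat_lit 10) (nat_lit 5) (nat_lit 11) (nat_lit 4) (nat_lit 389) (nat_lit 298) (nat_lit 213)) (XT.nd (nat_lit 78) (nat_lit 0) (nat_lit 0) (XT.lf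 (nat_lit 0) (nat_lit 44068431792) (nat_lit 152) (nat_lit 38285540866) (nat_lit 0) (nat_lit 10851604840) (nat_lit 9) (nat_lit 5) (nat_lit 11) (nat_lit 4) (nat_lit 9) (nat_lit 4) (nat_lit 390) (nat_lit 298) (nat_lit 212)) (XT.lf (nat_lit 0) (nat_lit 57624560844) (nat_lit 152) (nat_lit 15464591370) (nat_lit 0) (nat_lit 24383554367) (nat_lit 9) (nat_lit 5) (nat_lit 11) (nat_lit 4) (nat_lit 9) (nat_lit 4) (nat_lit 391) (nat_lit 298) (nat_lit 211)))) (XT.nd (nat_lit 39858) (nat_lit 0) (nat_lit 25080) (XT.lf (nat_lit 0) (nat_lit 8632215628) (nat_lit 76) (nat_lit 63291528178) (nat_lit 76) (nat_lit 30027493583) (nat_lit 8) (nat_lit 4) (nat_lit 9) (nat_lit 5) (nat_lit 9) (nat_lit 4) (nat_lit 392) (nat_lit 298) (nat_lit 210)) (XT.nd (nat_lit 78) (nat_lit 228) (nat_lit 0) (XT.lf (nat_lit 0) (nat_lit 1994894150) (nat_lit 76) (nat_lit 616021848) (nat_lit 76) (nat_lit 616021848) (nat_lit 341) (nat_lit 4)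 (nat_lit 342) (nat_lit 5) (nat_lit 342) (nat_lit 4) (nat_lit 302) (nat_lit 299) (nat_lit 299)) (XT.lf (nat_lit 0) (nat_lit 3000053393) (nat_lit 152) (nat_lit 747076481) (nat_lit 228) (nat_lit 2722636136) (nat_lit 338) (nat_lit 5) (nat_lit 340) (nat_lit 5) (nat_lit 341) (nat_lit 4) (nat_lit 303) (nat_lit 299) (nat_lit 298)))))) (XT.nd (nat_lit 468) (nat_lit 5092) (nat_lit 0) (XT.nd (nat_lit 234) (nat_lit 1140) (nat_lit 0) (XT.nd (nat_lit 78) (nat_lit 760) (nat_lit 0) (XT.lf (nat_lit 0) (nat_lit 2126083003) (nat_lit 228) (nat_lit 24106091) (nat_lit 304) (nat_lit 4343632198) (nat_lit 334) (nat_lit 5) (nat_lit 337) (nat_lit 5) (nat_lit 338) (nat_lit 5) (nat_lit 304) (nat_lit 299) (nat_lit 297)) (XT.nd (nat_lit 78) (nat_lit 380) (nat_lit 0) (XT.lf (nat_lit 0) (nat_lit 435171967) (nat_lit 380) (nat_lit 5170120136) (nat_lit 76) (nat_lit 920528400) (nat_lit 329) (nat_lit 5) (nat_lit 334) (nat_lit 5)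 (nat_lit 330) (nat_lit 5) (nat_lit 305) (nat_lit 299) (nat_lit 296)) (XT.lf (nat_lit 0) (nat_lit 678733985) (nat_lit 380) (nat_lit 4449212473) (nat_lit 456) (nat_lit 1437663283) (nat_lit 324) (nat_lit 5) (nat_lit 329) (nat_lit 5) (nat_lit 330) (nat_lit 5) (nat_lit 306) (nat_lit 299) (nat_lit 295)))) (XT.nd (nat_lit 78) (nat_lit 608) (nat_lit 0) (XT.lf (nat_lit 0) (nat_lit 101546254) (nat_lit 456) (nat_lit 3054549521) (nat_lit 532) (nat_lit 3457430172) (nat_lit 317) (nat_lit 5) (nat_lit 323) (nat_lit 5) (nat_lit 324) (nat_lit 5) (nat_lit 307) (nat_lit 299) (nat_lit 294)) (XT.nd (nat_lit 78) (nat_lit 532) (nat_lit 0) (XT.lf (nat_lit 0) (nat_lit 1051830619) (nat_lit 532) (nat_lit 366326181) (nat_lit 76) (nat_lit 5251531482) (nat_lit 316) (nat_lit 5) (nat_lit 323) (nat_lit 5) (nat_lit 317) (nat_lit 5) (nat_lit 308) (nat_lit 299) (nat_lit 293)) (XT.lf (nat_lit 0) (nat_lit 5519915422) (nat_lit 608)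 (nat_lit 750310097) (nat_lit 76) (nat_lit 463607266) (nat_lit 309) (nat_lit 5) (nat_lit 317) (nat_lit 5) (nat_lit 310) (nat_lit 5) (nat_lit 309) (nat_lit 299) (nat_lit 292))))) (XT.nd (nat_lit 234) (nat_lit 2888) (nat_lit 0) (XT.nd (nat_lit 78) (nat_lit 1520) (nat_lit 0) (XT.lf (nat_lit 0) (nat_lit 3168628612) (nat_lit 684) (nat_lit 1065672726) (nat_lit 76) (nat_lit 2571471954) (nat_lit 300) (nat_lit 5) (nat_lit 309) (nat_lit 5) (nat_lit 301) (nat_lit 5) (nat_lit 310) (nat_lit 299) (nat_lit 291)) (XT.nd (nat_lit 78) (nat_lit 760) (nat_lit 0) (XT.lf (nat_lit 0) (nat_lit 667983221) (nat_lit 760) (nat_lit 1289919724) (nat_lit 76) (nat_lit 4928476687) (nat_lit 290) (nat_lit 5) (nat_lit 300) (nat_lit 5) (nat_lit 291) (nat_lit 5) (nat_lit 311) (nat_lit 299) (nat_lit 290)) (XT.lf (nat_lit 0) (nat_lit 4951604407) (nat_lit 836) (nat_lit 1449542541) (nat_lit 76) (nat_lit 573917781) (nat_lit 280) (nat_lit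 5) (nat_lit 291) (nat_lit 5) (nat_lit 281) (nat_lit 5) (nat_lit 312) (nat_lit 299) (nat_lit 289)))) (XT.nd (nat_lit 78) (nat_lit 1976) (nat_lit 0) (XT.lf (nat_lit 0) (nat_lit 2197270223) (nat_lit 912) (nat_lit 1550092197) (nat_lit 76) (nat_lit 3324520795) (nat_lit 268) (nat_lit 5) (nat_lit 280) (nat_lit 5) (nat_lit 269) (nat_lit 5) (nat_lit 313) (nat_lit 299) (nat_lit 288)) (XT.nd (nat_lit 78) (nat_lit 1064) (nat_lit 0) (XT.lf (nat_lit 0) (nat_lit 5603202920) (nat_lit 912) (nat_lit 837458623) (nat_lit 988) (nat_lit 736924685) (nat_lit 256) (nat_lit 5) (nat_lit 268) (nat_lit 5) (nat_lit 269) (nat_lit 5) (nat_lit 314) (nat_lit 299) (nat_lit 287)) (XT.lf (nat_lit 0) (nat_lit 3421703991) (nat_lit 1064) (nat_lit 1562224862) (nat_lit 76) (nat_lit 2307301602) (nat_lit 242) (nat_lit 5) (nat_lit 256) (nat_lit 5) (nat_lit 243) (nat_lit 5) (nat_lit 315) (nat_lit 299) (nat_lit 286))))))))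
noncomputable def xc47 : XT := (XT.nd (nat_lit 1794) (nat_lit 4028) (nat_lit 0) (XT.nd (nat_lit 858) (nat_lit 4028) (nat_lit 0) (XT.nd (nat_lit 390) (nat_lit 3648) (nat_lit 0) (XT.nd (nat_lit 156) (nat_lit 2128) (nat_lit 0) (XT.nd (nat_lit 78) (nat_lit 1140) (nat_lit 0) (XT.lf (nat_lit 0) (nat_lit 235141550) (nat_lit 1140) (nat_lit 1481055438) (nat_lit 76) (nat_lit 5697863139) (nat_lit 227) (nat_lit 5) (nat_lit 242) (nat_lit 5) (nat_lit 228) (nat_lit 5) (nat_lit 316) (nat_lit 299) (nat_lit 285)) (XT.lf (nat_lit 0) (nat_lit 4363891208) (nat_lit 1216) (nat_lit 1372274121) (nat_lit 76) (nat_lit 1808952900) (nat_lit 212) (nat_lit 5) (nat_lit 228) (nat_lit 5) (nat_lit 213) (nat_lit 5) (nat_lit 317) (nat_lit 299) (nat_lit 284))) (XT.nd (nat_lit 78) (nat_lit 1216) (nat_lit 0) (XT.lf (nat_lit 0) (nat_lit 902769946) (nat_lit 912) (nat_lit 1211635497) (nat_lit 76) (nat_lit 5571030418) (nat_lit 200) (nat_lit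 5) (nat_lit 212) (nat_lit 5) (nat_lit 201) (nat_lit 5) (nat_lit 318) (nat_lit 299) (nat_lit 283)) (XT.nd (nat_lit 78) (nat_lit 608) (nat_lit 0) (XT.lf (nat_lit 0) (nat_lit 5040583423) (nat_lit 684) (nat_lit 1025682286) (nat_lit 76) (nat_lit 1768274870) (nat_lit 192) (nat_lit 5) (nat_lit 201) (nat_lit 5) (nat_lit 193) (nat_lit 5) (nat_lit 319) (nat_lit 299) (nat_lit 282)) (XT.lf (nat_lit 0) (nat_lit 1293791153) (nat_lit 608) (nat_lit 805034041) (nat_lit 76) (nat_lit 5894233952) (nat_lit 184) (nat_lit 5) (nat_lit 192) (nat_lit 5) (nat_lit 185) (nat_lit 5) (nat_lit 320) (nat_lit 299) (nat_lit 281))))) (XT.nd (nat_lit 234) (nat_lit 1976) (nat_lit 0) (XT.nd (nat_lit 78) (nat_lit 1140) (nat_lit 0) (XT.lf (nat_lit 0) (nat_lit 5462758731) (nat_lit 608) (nat_lit 568609127) (nat_lit 76) (nat_lit 2129424543) (nat_lit 177) (nat_lit 5) (nat_lit 185) (nat_lit 5) (nat_lit 178) (nat_lit 5) (nat_lit 321) (nat_lit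 299) (nat_lit 280)) (XT.nd (nat_lit 78) (nat_lit 532) (nat_lit 0) (XT.lf (nat_lit 0) (nat_lit 1415761813) (nat_lit 608) (nat_lit 308552528) (nat_lit 76) (nat_lit 6614054728) (nat_lit 169) (nat_lit 5) (nat_lit 177) (nat_lit 5) (nat_lit 170) (nat_lit 5) (nat_lit 322) (nat_lit 299) (nat_lit 279)) (XT.lf (nat_lit 0) (nat_lit 5635581785) (nat_lit 608) (nat_lit 49237199) (nat_lit 76) (nat_lit 2840658512) (nat_lit 162) (nat_lit 5) (nat_lit 170) (nat_lit 5) (nat_lit 163) (nat_lit 5) (nat_lit 323) (nat_lit 299) (nat_lit 278)))) (XT.nd (nat_lit 78) (nat_lit 988) (nat_lit 0) (XT.lf (nat_lit 0) (nat_lit 232375842) (nat_lit 456) (nat_lit 1040101993) (nat_lit 532) (nat_lit 7450575873) (nat_lit 149) (nat_lit 5) (nat_lit 155) (nat_lit 5) (nat_lit 156) (nat_lit 5) (nat_lit 324) (nat_lit 299) (nat_lit 277)) (XT.nd (nat_lit 78) (nat_lit 532) (nat_lit 0) (XT.lf (nat_lit 0) (nat_lit 490387656) (nat_lit 456) (nat_lit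 5072563287) (nat_lit 532) (nat_lit 3367428783) (nat_lit 143) (nat_lit 5) (nat_lit 149) (nat_lit 5) (nat_lit 150) (nat_lit 5) (nat_lit 325) (nat_lit 299) (nat_lit 276)) (XT.lf (nat_lit 0) (nat_lit 764961597) (nat_lit 456) (nat_lit 94965440) (nat_lit 532) (nat_lit 8289252340) (nat_lit 136) (nat_lit 5) (nat_lit 142) (nat_lit 5) (nat_lit 143) (nat_lit 5) (nat_lit 326) (nat_lit 299) (nat_lit 275)))))) (XT.nd (nat_lit 468) (nat_lit 1672) (nat_lit 0) (XT.nd (nat_lit 234) (nat_lit 1140) (nat_lit 0) (XT.nd (nat_lit 78) (nat_lit 836) (nat_lit 0) (XT.lf (nat_lit 0) (nat_lit 984166861) (nat_lit 380) (nat_lit 4248920866) (nat_lit 456) (nat_lit 4144815923) (nat_lit 131) (nat_lit 5) (nat_lit 136) (nat_lit 5) (nat_lit 137) (nat_lit 5) (nat_lit 327) (nat_lit 299) (nat_lit 274)) (XT.nd (nat_lit 78) (nat_lit 380) (nat_lit 0) (XT.lf (nat_lit 0) (nat_lit 173411167) (nat_lit 456) (nat_lit 8407490029) (nat_lit 76)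 (nat_lit 1038084338) (nat_lit 125) (nat_lit 5) (nat_lit 131) (nat_lit 5) (nat_lit 126) (nat_lit 5) (nat_lit 328) (nat_lit 299) (nat_lit 273)) (XT.lf (nat_lit 0) (nat_lit 1366560766) (nat_lit 380) (nat_lit 3264502260) (nat_lit 456) (nat_lit 5239644791) (nat_lit 120) (nat_lit 5) (nat_lit 125) (nat_lit 5) (nat_lit 126) (nat_lit 5) (nat_lit 329) (nat_lit 299) (nat_lit 272)))) (XT.nd (nat_lit 78) (nat_lit 760) (nat_lit 0) (XT.lf (nat_lit 0) (nat_lit 1502880313) (nat_lit 380) (nat_lit 7802361106) (nat_lit 456) (nat_lit 830055454) (nat_lit 115) (nat_lit 5) (nat_lit 120) (nat_lit 5) (nat_lit 121) (nat_lit 5) (nat_lit 330) (nat_lit 299) (nat_lit 271)) (XT.nd (nat_lit 78) (nat_lit 380) (nat_lit 0) (XT.lf (nat_lit 0) (nat_lit 1564190551) (nat_lit 304) (nat_lit 2170819679) (nat_lit 380) (nat_lit 6676818043) (nat_lit 110) (nat_lit 5) (nat_lit 114) (nat_lit 5) (nat_lit 115) (nat_lit 5) (nat_lit 331) (nat_lit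 299) (nat_lit 270)) (XT.lf (nat_lit 0) (nat_lit 1564985686) (nat_lit 380) (nat_lit 6963850519) (nat_lit 456) (nat_lit 2172652507) (nat_lit 105) (nat_lit 5) (nat_lit 110) (nat_lit 5) (nat_lit 111) (nat_lit 5) (nat_lit 332) (nat_lit 299) (nat_lit 269))))) (XT.nd (nat_lit 234) (nat_lit 608) (nat_lit 0) (XT.nd (nat_lit 78) (nat_lit 684) (nat_lit 0) (XT.lf (nat_lit 0) (nat_lit 1492604535) (nat_lit 304) (nat_lit 1022231699) (nat_lit 380) (nat_lit 8489891725) (nat_lit 100) (nat_lit 5) (nat_lit 104) (nat_lit 5) (nat_lit 105) (nat_lit 5) (nat_lit 333) (nat_lit 299) (nat_lit 268)) (XT.nd (nat_lit 78) (nat_lit 380) (nat_lit 0) (XT.lf (nat_lit 0) (nat_lit 1308724909) (nat_lit 304) (nat_lit 6124611557) (nat_lit 380) (nat_lit 3887970012) (nat_lit 96) (nat_lit 5) (nat_lit 100) (nat_lit 5) (nat_lit 101) (nat_lit 5) (nat_lit 334) (nat_lit 299) (nat_lit 267)) (XT.lf (nat_lit 0) (nat_lit 932389418) (nat_lit 380)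 (nat_lit 10600820805) (nat_lit 76) (nat_lit 120093071) (nat_lit 91) (nat_lit 5) (nat_lit 96) (nat_lit 5) (nat_lit 92) (nat_lit 5) (nat_lit 335) (nat_lit 299) (nat_lit 266)))) (XT.nd (nat_lit 78) (nat_lit 304) (nat_lit 0) (XT.lf (nat_lit 0) (nat_lit 628144863) (nat_lit 304) (nat_lit 5347547281) (nat_lit 380) (nat_lit 6023244373) (nat_lit 87) (nat_lit 5) (nat_lit 91) (nat_lit 5) (nat_lit 92) (nat_lit 5) (nat_lit 336) (nat_lit 299) (nat_lit 265)) (XT.nd (nat_lit 78) (nat_lit 76) (nat_lit 0) (XT.lf (nat_lit 0) (nat_lit 110211577) (nat_lit 228) (nat_lit 11176115938) (nat_lit 304) (nat_lit 1075127381) (nat_lit 84) (nat_lit 5) (nat_lit 87) (nat_lit 5) (nat_lit 88) (nat_lit 5) (nat_lit 337) (nat_lit 299) (nat_lit 264)) (XT.lf (nat_lit 0) (nat_lit 4107564226) (nat_lit 304) (nat_lit 589295038) (nat_lit 76) (nat_lit 8042078630) (nat_lit 83) (nat_lit 5) (nat_lit 87) (nat_lit 5) (nat_lit 84) (nat_lit 5)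 (nat_lit 338) (nat_lit 299) (nat_lit 263))))))) (XT.nd (nat_lit 858) (nat_lit 1596) (nat_lit 0) (XT.nd (nat_lit 390) (nat_lit 1064) (nat_lit 0) (XT.nd (nat_lit 156) (nat_lit 760) (nat_lit 0) (XT.nd (nat_lit 78) (nat_lit 304) (nat_lit 0) (XT.lf (nat_lit 0) (nat_lit 9561387344) (nat_lit 380) (nat_lit 1433242610) (nat_lit 76) (nat_lit 2139370309) (nat_lit 79) (nat_lit 5) (nat_lit 84) (nat_lit 5) (nat_lit 80) (nat_lit 5) (nat_lit 339) (nat_lit 299) (nat_lit 262)) (XT.lf (nat_lit 0) (nat_lit 1769065115) (nat_lit 304) (nat_lit 2475802906) (nat_lit 76) (nat_lit 9301576411) (nat_lit 75) (nat_lit 5) (nat_lit 79) (nat_lit 5) (nat_lit 76) (nat_lit 5) (nat_lit 340) (nat_lit 299) (nat_lit 261))) (XT.nd (nat_lit 78) (nat_lit 532) (nat_lit 0) (XT.lf (nat_lit 0) (nat_lit 7351981593) (nat_lit 304) (nat_lit 3738488360) (nat_lit 76) (nat_lit 2886583814) (nat_lit 72) (nat_lit 5) (nat_lit 76) (nat_lit 5) (nat_lit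 73) (nat_lit 5) (nat_lit 341) (nat_lit 299) (nat_lit 260)) (XT.nd (nat_lit 78) (nat_lit 304) (nat_lit 0) (XT.lf (nat_lit 0) (nat_lit 9203334257) (nat_lit 228) (nat_lit 4075851089) (nat_lit 304) (nat_lit 1148097198) (nat_lit 69) (nat_lit 5) (nat_lit 72) (nat_lit 5) (nat_lit 73) (nat_lit 5) (nat_lit 342) (nat_lit 299) (nat_lit 259)) (XT.lf (nat_lit 0) (nat_lit 4570972287) (nat_lit 304) (nat_lit 6991654299) (nat_lit 76) (nat_lit 3334366965) (nat_lit 65) (nat_lit 5) (nat_lit 69) (nat_lit 5) (nat_lit 66) (nat_lit 5) (nat_lit 343) (nat_lit 299) (nat_lit 258))))) (XT.nd (nat_lit 234) (nat_lit 456) (nat_lit 0) (XT.nd (nat_lit 78) (nat_lit 456) (nat_lit 0) (XT.lf (nat_lit 0) (nat_lit 6341322903) (nat_lit 152) (nat_lit 4280189001) (nat_lit 228) (nat_lit 4766297411) (nat_lit 63) (nat_lit 5) (nat_lit 65) (nat_lit 5) (nat_lit 66) (nat_lit 5) (nat_lit 344) (nat_lit 299) (nat_lit 257)) (XT.nd (nat_lit 78)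 (nat_lit 152) (nat_lit 0) (XT.lf (nat_lit 0) (nat_lit 1114396636) (nat_lit 304) (nat_lit 11410275877) (nat_lit 76) (nat_lit 3376302840) (nat_lit 59) (nat_lit 5) (nat_lit 63) (nat_lit 5) (nat_lit 60) (nat_lit 5) (nat_lit 345) (nat_lit 299) (nat_lit 256)) (XT.lf (nat_lit 0) (nat_lit 2272315669) (nat_lit 152) (nat_lit 4995126051) (nat_lit 228) (nat_lit 9168669036) (nat_lit 57) (nat_lit 5) (nat_lit 59) (nat_lit 5) (nat_lit 60) (nat_lit 5) (nat_lit 346) (nat_lit 299) (nat_lit 255)))) (XT.nd (nat_lit 78) (nat_lit 456) (nat_lit 0) (XT.lf (nat_lit 0) (nat_lit 13793805566) (nat_lit 228) (nat_lit 280752024) (nat_lit 76) (nat_lit 2921507263) (nat_lit 57) (nat_lit 5) (nat_lit 60) (nat_lit 5) (nat_lit 58) (nat_lit 5) (nat_lit 347) (nat_lit 299) (nat_lit 254)) (XT.nd (nat_lit 78) (nat_lit 152) (nat_lit 0) (XT.lf (nat_lit 0) (nat_lit 3115532413) (nat_lit 304) (nat_lit 3212437217) (nat_lit 76) (nat_lit 11251808750)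 (nat_lit 53) (nat_lit 5) (nat_lit 57) (nat_lit 5) (nat_lit 54) (nat_lit 5) (nat_lit 348) (nat_lit 299) (nat_lit 253)) (XT.lf (nat_lit 0) (nat_lit 9741264391) (nat_lit 228) (nat_lit 6579233166) (nat_lit 76) (nat_lit 1869508618) (nat_lit 51) (nat_lit 5) (nat_lit 54) (nat_lit 5) (nat_lit 52) (nat_lit 5) (nat_lit 349) (nat_lit 299) (nat_lit 252)))))) (XT.nd (nat_lit 468) (nat_lit 684) (nat_lit 0) (XT.nd (nat_lit 234) (nat_lit 380) (nat_lit 0) (XT.nd (nat_lit 78) (nat_lit 380) (nat_lit 0) (XT.lf (nat_lit 0) (nat_lit 8387823316) (nat_lit 152) (nat_lit 8414915851) (nat_lit 228) (nat_lit 2024899277) (nat_lit 49) (nat_lit 5) (nat_lit 51) (nat_lit 5) (nat_lit 52) (nat_lit 5) (nat_lit 350) (nat_lit 299) (nat_lit 251)) (XT.nd (nat_lit 78) (nat_lit 152) (nat_lit 0) (XT.lf (nat_lit 0) (nat_lit 4668584300) (nat_lit 152) (nat_lit 889098) (nat_lit 228) (nat_lit 14825099150) (nat_lit 46) (nat_lit 5) (nat_lit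 48) (nat_lit 5) (nat_lit 49) (nat_lit 5) (nat_lit 351) (nat_lit 299) (nat_lit 250)) (XT.lf (nat_lit 0) (nat_lit 338919672) (nat_lit 152) (nat_lit 11444842291) (nat_lit 228) (nat_lit 8406701253) (nat_lit 44) (nat_lit 5) (nat_lit 46) (nat_lit 5) (nat_lit 47) (nat_lit 5) (nat_lit 352) (nat_lit 299) (nat_lit 249)))) (XT.nd (nat_lit 78) (nat_lit 380) (nat_lit 0) (XT.lf (nat_lit 0) (nat_lit 16455117633) (nat_lit 152) (nat_lit 2883467672) (nat_lit 228) (nat_lit 1580040955) (nat_lit 44) (nat_lit 5) (nat_lit 46) (nat_lit 5) (nat_lit 47) (nat_lit 5) (nat_lit 353) (nat_lit 299) (nat_lit 248)) (XT.nd (nat_lit 78) (nat_lit 152) (nat_lit 0) (XT.lf (nat_lit 0) (nat_lit 5586578111) (nat_lit 228) (nat_lit 9982951968) (nat_lit 76) (nat_lit 6108846688) (nat_lit 41) (nat_lit 5) (nat_lit 44) (nat_lit 5) (nat_lit 42) (nat_lit 5) (nat_lit 354) (nat_lit 299) (nat_lit 247)) (XT.lf (nat_lit 0) (nat_lit 6246456224) (nat_lit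 152) (nat_lit 6904621486) (nat_lit 228) (nat_lit 9322420723) (nat_lit 39) (nat_lit 5) (nat_lit 41) (nat_lit 5) (nat_lit 42) (nat_lit 5) (nat_lit 355) (nat_lit 299) (nat_lit 246))))) (XT.nd (nat_lit 234) (nat_lit 304) (nat_lit 0) (XT.nd (nat_lit 78) (nat_lit 228) (nat_lit 0) (XT.lf (nat_lit 0) (nat_lit 60715778) (nat_lit 152) (nat_lit 21096465038) (nat_lit 228) (nat_lit 2149312839) (nat_lit 37) (nat_lit 5) (nat_lit 39) (nat_lit 5) (nat_lit 40) (nat_lit 4) (nat_lit 356) (nat_lit 299) (nat_lit 245)) (XT.nd (nat_lit 78) (nat_lit 152) (nat_lit 0) (XT.lf (nat_lit 0) (nat_lit 5455057550) (nat_lit 228) (nat_lit 6904374777) (nat_lit 76) (nat_lit 11814842397) (nat_lit 36) (nat_lit 5) (nat_lit 39) (nat_lit 5) (nat_lit 37) (nat_lit 5) (nat_lit 357) (nat_lit 299) (nat_lit 244)) (XT.lf (nat_lit 0) (nat_lit 10331997293) (nat_lit 152) (nat_lit 3105072685) (nat_lit 228) (nat_lit 11646496801) (nat_lit 34) (nat_lit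 5) (nat_lit 36) (nat_lit 5) (nat_lit 37) (nat_lit 5) (nat_lit 358) (nat_lit 299) (nat_lit 243)))) (XT.nd (nat_lit 78) (nat_lit 228) (nat_lit 0) (XT.lf (nat_lit 0) (nat_lit 2420874199) (nat_lit 76) (nat_lit 19499449161) (nat_lit 152) (nat_lit 4114951661) (nat_lit 33) (nat_lit 5) (nat_lit 34) (nat_lit 5) (nat_lit 35) (nat_lit 4) (nat_lit 359) (nat_lit 299) (nat_lit 242)) (XT.nd (nat_lit 78) (nat_lit 152) (nat_lit 0) (XT.lf (nat_lit 0) (nat_lit 3848578251) (nat_lit 152) (nat_lit 6437733130) (nat_lit 76) (nat_lit 16743295247) (nat_lit 32) (nat_lit 5) (nat_lit 34) (nat_lit 5) (nat_lit 33) (nat_lit 5) (nat_lit 360) (nat_lit 299) (nat_lit 241)) (XT.lf (nat_lit 0) (nat_lit 11690434814) (nat_lit 152) (nat_lit 495272846) (nat_lit 228) (nat_lit 15884923004) (nat_lit 30) (nat_lit 5) (nat_lit 32) (nat_lit 5) (nat_lit 33) (nat_lit 5) (nat_lit 361) (nat_lit 299) (nat_lit 240))))))))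
noncomputable def xc48 : XT := (XT.nd (nat_lit 1716) (nat_lit 228) (nat_lit 0) (XT.nd (nat_lit 858) (nat_lit 532) (nat_lit 0) (XT.nd (nat_lit 390) (nat_lit 456) (nat_lit 0) (XT.nd (nat_lit 156) (nat_lit 228) (nat_lit 0) (XT.nd (nat_lit 78) (nat_lit 76) (nat_lit 0) (XT.lf (nat_lit 0) (nat_lit 1540783605) (nat_lit 76) (nat_lit 19523313175) (nat_lit 152) (nat_lit 8095890270) (nat_lit 29) (nat_lit 5) (nat_lit 30) (nat_lit 5) (nat_lit 31) (nat_lit 4) (nat_lit 362) (nat_lit 299) (nat_lit 239)) (XT.lf (nat_lit 0) (nat_lit 205952661) (nat_lit 152) (nat_lit 9696857574) (nat_lit 76) (nat_lit 20397240339) (nat_lit 28) (nat_lit 5) (nat_lit 30) (nat_lit 5) (nat_lit 29) (nat_lit 5) (nat_lit 363) (nat_lit 299) (nat_lit 238))) (XT.nd (nat_lit 78) (nat_lit 76) (nat_lit 0) (XT.lf (nat_lit 0) (nat_lit 8800084240) (nat_lit 228) (nat_lit 22365047697) (nat_lit 76) (nat_lit 328253323) (nat_lit 26) (nat_lit 5) (nat_lit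 29) (nat_lit 5) (nat_lit 27) (nat_lit 4) (nat_lit 364) (nat_lit 299) (nat_lit 237)) (XT.nd (nat_lit 78) (nat_lit 76) (nat_lit 0) (XT.lf (nat_lit 0) (nat_lit 17977875496) (nat_lit 228) (nat_lit 3831900989) (nat_lit 76) (nat_lit 10932002710) (nat_lit 26) (nat_lit 5) (nat_lit 29) (nat_lit 5) (nat_lit 27) (nat_lit 4) (nat_lit 365) (nat_lit 299) (nat_lit 236)) (XT.lf (nat_lit 0) (nat_lit 15856367998) (nat_lit 76) (nat_lit 11866031063) (nat_lit 152) (nat_lit 6326969063) (nat_lit 25) (nat_lit 5) (nat_lit 26) (nat_lit 5) (nat_lit 27) (nat_lit 4) (nat_lit 366) (nat_lit 299) (nat_lit 235))))) (XT.nd (nat_lit 234) (nat_lit 152) (nat_lit 0) (XT.nd (nat_lit 78) (nat_lit 76) (nat_lit 0) (XT.lf (nat_lit 0) (nat_lit 1105305404) (nat_lit 152) (nat_lit 1383914456) (nat_lit 228) (nat_lit 32932191928) (nat_lit 22) (nat_lit 5) (nat_lit 24) (nat_lit 5) (nat_lit 25) (nat_lit 5) (nat_lit 367) (nat_lit 299) (nat_lit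 234)) (XT.nd (nat_lit 78) (nat_lit 76) (nat_lit 0) (XT.lf (nat_lit 0) (nat_lit 11855565232) (nat_lit 228) (nat_lit 15344114187) (nat_lit 76) (nat_lit 9653302284) (nat_lit 22) (nat_lit 5) (nat_lit 25) (nat_lit 5) (nat_lit 23) (nat_lit 4) (nat_lit 368) (nat_lit 299) (nat_lit 233)) (XT.lf (nat_lit 0) (nat_lit 4577381134) (nat_lit 76) (nat_lit 17130197788) (nat_lit 152) (nat_lit 16648039532) (nat_lit 21) (nat_lit 5) (nat_lit 22) (nat_lit 5) (nat_lit 23) (nat_lit 4) (nat_lit 369) (nat_lit 299) (nat_lit 232)))) (XT.nd (nat_lit 78) (nat_lit 152) (nat_lit 0) (XT.lf (nat_lit 0) (nat_lit 25743282662) (nat_lit 76) (nat_lit 6427486067) (nat_lit 152) (nat_lit 7759069500) (nat_lit 21) (nat_lit 5) (nat_lit 22) (nat_lit 5) (nat_lit 23) (nat_lit 4) (nat_lit 370) (nat_lit 299) (nat_lit 231)) (XT.nd (nat_lit 78) (nat_lit 0) (nat_lit 0) (XT.lf (nat_lit 0) (nat_lit 1614205530) (nat_lit 152) (nat_lit 35202978337)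 (nat_lit 76) (nat_lit 4763021599) (nat_lit 19) (nat_lit 5) (nat_lit 21) (nat_lit 5) (nat_lit 20) (nat_lit 4) (nat_lit 371) (nat_lit 299) (nat_lit 230)) (XT.lf (nat_lit 0) (nat_lit 11472498651) (nat_lit 152) (nat_lit 15256137682) (nat_lit 76) (nat_lit 16576852785) (nat_lit 19) (nat_lit 5) (nat_lit 21) (nat_lit 5) (nat_lit 20) (nat_lit 4) (nat_lit 372) (nat_lit 299) (nat_lit 229)))))) (XT.nd (nat_lit 390) (nat_lit 304) (nat_lit 0) (XT.nd (nat_lit 156) (nat_lit 152) (nat_lit 0) (XT.nd (nat_lit 78) (nat_lit 0) (nat_lit 0) (XT.lf (nat_lit 0) (nat_lit 5734760608) (nat_lit 76) (nat_lit 16108808925) (nat_lit 152) (nat_lit 23272878612) (nat_lit 18) (nat_lit 5) (nat_lit 19) (nat_lit 5) (nat_lit 20) (nat_lit 4) (nat_lit 373) (nat_lit 299) (nat_lit 228)) (XT.lf (nat_lit 0) (nat_lit 28030690654) (nat_lit 76) (nat_lit 4825359361) (nat_lit 152) (nat_lit 14158226176) (nat_lit 18) (nat_lit 5) (nat_lit 19) (nat_lit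 5) (nat_lit 20) (nat_lit 4) (nat_lit 374) (nat_lit 299) (nat_lit 227))) (XT.nd (nat_lit 78) (nat_lit 76) (nat_lit 0) (XT.lf (nat_lit 0) (nat_lit 2351788200) (nat_lit 76) (nat_lit 42124644550) (nat_lit 76) (nat_lit 4528850971) (nat_lit 17) (nat_lit 4) (nat_lit 18) (nat_lit 5) (nat_lit 18) (nat_lit 4) (nat_lit 375) (nat_lit 299) (nat_lit 226)) (XT.nd (nat_lit 78) (nat_lit 0) (nat_lit 0) (XT.lf (nat_lit 0) (nat_lit 5686967327) (nat_lit 152) (nat_lit 26103562902) (nat_lit 76) (nat_lit 19297290642) (nat_lit 16) (nat_lit 5) (nat_lit 18) (nat_lit 5) (nat_lit 17) (nat_lit 4) (nat_lit 376) (nat_lit 299) (nat_lit 225)) (XT.lf (nat_lit 0) (nat_lit 16290156489) (nat_lit 152) (nat_lit 4628910807) (nat_lit 76) (nat_lit 32354970733) (nat_lit 16) (nat_lit 5) (nat_lit 18) (nat_lit 5) (nat_lit 17) (nat_lit 4) (nat_lit 377) (nat_lit 299) (nat_lit 224))))) (XT.nd (nat_lit 234) (nat_lit 152) (nat_lit 0) (XT.nd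 (nat_lit 78) (nat_lit 76) (nat_lit 0) (XT.lf (nat_lit 0) (nat_lit 18220675987) (nat_lit 76) (nat_lit 9348808692) (nat_lit 152) (nat_lit 27995707370) (nat_lit 15) (nat_lit 5) (nat_lit 16) (nat_lit 5) (nat_lit 17) (nat_lit 4) (nat_lit 378) (nat_lit 299) (nat_lit 223)) (XT.nd (nat_lit 78) (nat_lit 76) (nat_lit 0) (XT.lf (nat_lit 0) (nat_lit 39459293843) (nat_lit 152) (nat_lit 15740797477) (nat_lit 0) (nat_lit 2769422146) (nat_lit 15) (nat_lit 5) (nat_lit 17) (nat_lit 4) (nat_lit 15) (nat_lit 4) (nat_lit 379) (nat_lit 299) (nat_lit 222)) (XT.lf (nat_lit 0) (nat_lit 6933172485) (nat_lit 76) (nat_lit 45144262160) (nat_lit 76) (nat_lit 8412605965) (nat_lit 14) (nat_lit 4) (nat_lit 15) (nat_lit 5) (nat_lit 15) (nat_lit 4) (nat_lit 380) (nat_lit 299) (nat_lit 221)))) (XT.nd (nat_lit 78) (nat_lit 76) (nat_lit 0) (XT.lf (nat_lit 0) (nat_lit 2284186407) (nat_lit 152) (nat_lit 32134552548) (nat_lit 76)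 (nat_lit 28713117241) (nat_lit 13) (nat_lit 5) (nat_lit 15) (nat_lit 5) (nat_lit 14) (nat_lit 4) (nat_lit 381) (nat_lit 299) (nat_lit 220)) (XT.nd (nat_lit 78) (nat_lit 76) (nat_lit 0) (XT.lf (nat_lit 0) (nat_lit 13318106035) (nat_lit 152) (nat_lit 9773595475) (nat_lit 76) (nat_lit 42812278365) (nat_lit 13) (nat_lit 5) (nat_lit 15) (nat_lit 5) (nat_lit 14) (nat_lit 4) (nat_lit 382) (nat_lit 299) (nat_lit 219)) (XT.lf (nat_lit 0) (nat_lit 13931973565) (nat_lit 76) (nat_lit 11081533485) (nat_lit 152) (nat_lit 43797913228) (nat_lit 12) (nat_lit 5) (nat_lit 13) (nat_lit 5) (nat_lit 14) (nat_lit 4) (nat_lit 383) (nat_lit 299) (nat_lit 218))))))) (XT.nd (nat_lit 40560) (nat_lit 0) (nat_lit 18696) (XT.nd (nat_lit 390) (nat_lit 76) (nat_lit 0) (XT.nd (nat_lit 156) (nat_lit 152) (nat_lit 0) (XT.nd (nat_lit 78) (nat_lit 0) (nat_lit 0) (XT.lf (nat_lit 0) (nat_lit 37386375129) (nat_lit 152) (nat_lit 32894357825)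 (nat_lit 0) (nat_lit 1580722742) (nat_lit 12) (nat_lit 5) (nat_lit 14) (nat_lit 4) (nat_lit 12) (nat_lit 4) (nat_lit 384) (nat_lit 299) (nat_lit 217)) (XT.lf (nat_lit 0) (nat_lit 50467250708) (nat_lit 152) (nat_lit 9964252330) (nat_lit 0) (nat_lit 14629812643) (nat_lit 12) (nat_lit 5) (nat_lit 14) (nat_lit 4) (nat_lit 12) (nat_lit 4) (nat_lit 385) (nat_lit 299) (nat_lit 216))) (XT.nd (nat_lit 78) (nat_lit 76) (nat_lit 0) (XT.lf (nat_lit 0) (nat_lit 14352047887) (nat_lit 76) (nat_lit 49966669027) (nat_lit 76) (nat_lit 14098958888) (nat_lit 11) (nat_lit 4) (nat_lit 12) (nat_lit 5) (nat_lit 12) (nat_lit 4) (nat_lit 386) (nat_lit 299) (nat_lit 215)) (XT.nd (nat_lit 78) (nat_lit 76) (nat_lit 0) (XT.lf (nat_lit 0) (nat_lit 40053173200) (nat_lit 76) (nat_lit 38891385362) (nat_lit 76) (nat_lit 2994844677) (nat_lit 11) (nat_lit 4) (nat_lit 12) (nat_lit 5) (nat_lit 12) (nat_lit 4) (nat_lit 387) (nat_lit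 299) (nat_lit 214)) (XT.lf (nat_lit 0) (nat_lit 8475419156) (nat_lit 152) (nat_lit 18718897460) (nat_lit 76) (nat_lit 58441004334) (nat_lit 10) (nat_lit 5) (nat_lit 12) (nat_lit 5) (nat_lit 11) (nat_lit 4) (nat_lit 388) (nat_lit 299) (nat_lit 213))))) (XT.nd (nat_lit 39936) (nat_lit 0) (nat_lit 25156) (XT.nd (nat_lit 78) (nat_lit 0) (nat_lit 0) (XT.lf (nat_lit 0) (nat_lit 5650893869) (nat_lit 76) (nat_lit 14842230452) (nat_lit 152) (nat_lit 69020947655) (nat_lit 9) (nat_lit 5) (nat_lit 10) (nat_lit 5) (nat_lit 11) (nat_lit 4) (nat_lit 389) (nat_lit 299) (nat_lit 212)) (XT.nd (nat_lit 78) (nat_lit 0) (nat_lit 0) (XT.lf (nat_lit 0) (nat_lit 31595425671) (nat_lit 76) (nat_lit 1690524617) (nat_lit 152) (nat_lit 60295586028) (nat_lit 9) (nat_lit 5) (nat_lit 10) (nat_lit 5) (nat_lit 11) (nat_lit 4) (nat_lit 390) (nat_lit 299) (nat_lit 211)) (XT.lf (nat_lit 0) (nat_lit 46817179872) (nat_lit 152) (nat_lit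 39165318398) (nat_lit 0) (nat_lit 11866915429) (nat_lit 9) (nat_lit 5) (nat_lit 11) (nat_lit 4) (nat_lit 9) (nat_lit 4) (nat_lit 391) (nat_lit 299) (nat_lit 210)))) (XT.nd (nat_lit 78) (nat_lit 228) (nat_lit 0) (XT.lf (nat_lit 0) (nat_lit 0) (nat_lit 0) (nat_lit 0) (nat_lit 0) (nat_lit 1073741823) (nat_lit 1) (nat_lit 0) (nat_lit 1) (nat_lit 0) (nat_lit 343) (nat_lit 0) (nat_lit 300) (nat_lit 300) (nat_lit 300)) (XT.nd (nat_lit 78) (nat_lit 152) (nat_lit 0) (XT.lf (nat_lit 0) (nat_lit 4967054078) (nat_lit 76) (nat_lit 1348922498) (nat_lit 0) (nat_lit 130102814) (nat_lit 342) (nat_lit 5) (nat_lit 343) (nat_lit 0) (nat_lit 342) (nat_lit 4) (nat_lit 301) (nat_lit 300) (nat_lit 299)) (XT.lf (nat_lit 0) (nat_lit 3377639310) (nat_lit 152) (nat_lit 2586963716) (nat_lit 76) (nat_lit 493196094) (nat_lit 340) (nat_lit 5) (nat_lit 342) (nat_lit 5) (nat_lit 341) (nat_lit 4) (nat_lit 302) (nat_lit 300)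 (nat_lit 298)))))) (XT.nd (nat_lit 468) (nat_lit 4636) (nat_lit 0) (XT.nd (nat_lit 234) (nat_lit 988) (nat_lit 0) (XT.nd (nat_lit 78) (nat_lit 608) (nat_lit 0) (XT.lf (nat_lit 0) (nat_lit 1669817962) (nat_lit 228) (nat_lit 3717538012) (nat_lit 76) (nat_lit 1090278050) (nat_lit 337) (nat_lit 5) (nat_lit 340) (nat_lit 5) (nat_lit 338) (nat_lit 5) (nat_lit 303) (nat_lit 300) (nat_lit 297)) (XT.nd (nat_lit 78) (nat_lit 380) (nat_lit 0) (XT.lf (nat_lit 0) (nat_lit 1760226784) (nat_lit 228) (nat_lit 4581008286) (nat_lit 304) (nat_lit 164342297) (nat_lit 334) (nat_lit 5) (nat_lit 337) (nat_lit 5) (nat_lit 338) (nat_lit 5) (nat_lit 304) (nat_lit 300) (nat_lit 296)) (XT.lf (nat_lit 0) (nat_lit 851906985) (nat_lit 304) (nat_lit 3526801742) (nat_lit 380) (nat_lit 2162496515) (nat_lit 329) (nat_lit 5) (nat_lit 333) (nat_lit 5) (nat_lit 334) (nat_lit 5) (nat_lit 305) (nat_lit 300) (nat_lit 295)))) (XT.nd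 (nat_lit 78) (nat_lit 532) (nat_lit 0) (XT.lf (nat_lit 0) (nat_lit 49433849) (nat_lit 380) (nat_lit 2238681211) (nat_lit 456) (nat_lit 4296966687) (nat_lit 323) (nat_lit 5) (nat_lit 328) (nat_lit 5) (nat_lit 329) (nat_lit 5) (nat_lit 306) (nat_lit 300) (nat_lit 294)) (XT.nd (nat_lit 78) (nat_lit 456) (nat_lit 0) (XT.lf (nat_lit 0) (nat_lit 69839377) (nat_lit 456) (nat_lit 636816995) (nat_lit 76) (nat_lit 5930453325) (nat_lit 322) (nat_lit 5) (nat_lit 328) (nat_lit 5) (nat_lit 323) (nat_lit 5) (nat_lit 307) (nat_lit 300) (nat_lit 293)) (XT.lf (nat_lit 0) (nat_lit 4372727409) (nat_lit 532) (nat_lit 1255495446) (nat_lit 76) (nat_lit 1068388566) (nat_lit 316) (nat_lit 5) (nat_lit 323) (nat_lit 5) (nat_lit 317) (nat_lit 5) (nat_lit 308) (nat_lit 300) (nat_lit 292))))) (XT.nd (nat_lit 234) (nat_lit 2660) (nat_lit 0) (XT.nd (nat_lit 78) (nat_lit 1368) (nat_lit 0) (XT.lf (nat_lit 0) (nat_lit 1904082029)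 (nat_lit 608) (nat_lit 1787721699) (nat_lit 76) (nat_lit 3072570408) (nat_lit 308) (nat_lit 5) (nat_lit 316) (nat_lit 5) (nat_lit 309) (nat_lit 5) (nat_lit 309) (nat_lit 300) (nat_lit 291)) (XT.nd (nat_lit 78) (nat_lit 760) (nat_lit 0) (XT.lf (nat_lit 0) (nat_lit 4605907156) (nat_lit 608) (nat_lit 1509078498) (nat_lit 684) (nat_lit 725566609) (nat_lit 300) (nat_lit 5) (nat_lit 308) (nat_lit 5) (nat_lit 309) (nat_lit 5) (nat_lit 310) (nat_lit 300) (nat_lit 290)) (XT.lf (nat_lit 0) (nat_lit 3383438207) (nat_lit 760) (nat_lit 2619955517) (nat_lit 76) (nat_lit 921242299) (nat_lit 290) (nat_lit 5) (nat_lit 300) (nat_lit 5) (nat_lit 291) (nat_lit 5) (nat_lit 311) (nat_lit 300) (nat_lit 289)))) (XT.nd (nat_lit 78) (nat_lit 1824) (nat_lit 0) (XT.lf (nat_lit 0) (nat_lit 512256200) (nat_lit 836) (nat_lit 2934230638) (nat_lit 76) (nat_lit 3570634952) (nat_lit 279) (nat_lit 5) (nat_lit 290) (nat_lit 5)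 (nat_lit 280) (nat_lit 5) (nat_lit 312) (nat_lit 300) (nat_lit 288)) (XT.nd (nat_lit 78) (nat_lit 988) (nat_lit 0) (XT.lf (nat_lit 0) (nat_lit 3928983771) (nat_lit 836) (nat_lit 617331093) (nat_lit 912) (nat_lit 2571578865) (nat_lit 268) (nat_lit 5) (nat_lit 279) (nat_lit 5) (nat_lit 280) (nat_lit 5) (nat_lit 313) (nat_lit 300) (nat_lit 287)) (XT.lf (nat_lit 0) (nat_lit 1411156760) (nat_lit 988) (nat_lit 3390814795) (nat_lit 76) (nat_lit 2425017544) (nat_lit 255) (nat_lit 5) (nat_lit 268) (nat_lit 5) (nat_lit 256) (nat_lit 5) (nat_lit 314) (nat_lit 300) (nat_lit 286))))))))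
noncomputable def xc49 : XT := (XT.nd (nat_lit 1794) (nat_lit 4104) (nat_lit 0) (XT.nd (nat_lit 858) (nat_lit 4712) (nat_lit 0) (XT.nd (nat_lit 390) (nat_lit 3268) (nat_lit 0) (XT.nd (nat_lit 156) (nat_lit 2660) (nat_lit 0) (XT.nd (nat_lit 78) (nat_lit 1140) (nat_lit 0) (XT.lf (nat_lit 0) (nat_lit 3805520441) (nat_lit 988) (nat_lit 1611186689) (nat_lit 1064) (nat_lit 1927981508) (nat_lit 242) (nat_lit 5) (nat_lit 255) (nat_lit 5) (nat_lit 256) (nat_lit 5) (nat_lit 315) (nat_lit 300) (nat_lit 285)) (XT.lf (nat_lit 0) (nat_lit 2008442724) (nat_lit 1140) (nat_lit 3643917112) (nat_lit 76) (nat_lit 1818608117) (nat_lit 227) (nat_lit 5) (nat_lit 242) (nat_lit 5) (nat_lit 228) (nat_lit 5) (nat_lit 316) (nat_lit 300) (nat_lit 284))) (XT.nd (nat_lit 78) (nat_lit 1520) (nat_lit 0) (XT.lf (nat_lit 0) (nat_lit 3898221110) (nat_lit 1140) (nat_lit 2108437837) (nat_lit 1216) (nat_lit 1599377230) (nat_lit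 212) (nat_lit 5) (nat_lit 227) (nat_lit 5) (nat_lit 228) (nat_lit 5) (nat_lit 317) (nat_lit 300) (nat_lit 283)) (XT.nd (nat_lit 78) (nat_lit 608) (nat_lit 0) (XT.lf (nat_lit 0) (nat_lit 2321371569) (nat_lit 912) (nat_lit 3739125836) (nat_lit 76) (nat_lit 1689458676) (nat_lit 200) (nat_lit 5) (nat_lit 212) (nat_lit 5) (nat_lit 201) (nat_lit 5) (nat_lit 318) (nat_lit 300) (nat_lit 282)) (XT.lf (nat_lit 0) (nat_lit 4162326283) (nat_lit 608) (nat_lit 2169159749) (nat_lit 684) (nat_lit 1571488618) (nat_lit 192) (nat_lit 5) (nat_lit 200) (nat_lit 5) (nat_lit 201) (nat_lit 5) (nat_lit 319) (nat_lit 300) (nat_lit 281))))) (XT.nd (nat_lit 234) (nat_lit 1520) (nat_lit 0) (XT.nd (nat_lit 78) (nat_lit 1140) (nat_lit 0) (XT.lf (nat_lit 0) (nat_lit 2361429308) (nat_lit 608) (nat_lit 3722313978) (nat_lit 76) (nat_lit 1981403301) (nat_lit 184) (nat_lit 5) (nat_lit 192) (nat_lit 5) (nat_lit 185) (nat_lit 5)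 (nat_lit 320) (nat_lit 300) (nat_lit 280)) (XT.nd (nat_lit 78) (nat_lit 608) (nat_lit 0) (XT.lf (nat_lit 0) (nat_lit 4552469236) (nat_lit 532) (nat_lit 1848345146) (nat_lit 608) (nat_lit 1836025921) (nat_lit 177) (nat_lit 5) (nat_lit 184) (nat_lit 5) (nat_lit 185) (nat_lit 5) (nat_lit 321) (nat_lit 300) (nat_lit 279)) (XT.lf (nat_lit 0) (nat_lit 2134332165) (nat_lit 608) (nat_lit 3640891784) (nat_lit 76) (nat_lit 2642810421) (nat_lit 169) (nat_lit 5) (nat_lit 177) (nat_lit 5) (nat_lit 170) (nat_lit 5) (nat_lit 322) (nat_lit 300) (nat_lit 278)))) (XT.nd (nat_lit 78) (nat_lit 988) (nat_lit 0) (XT.lf (nat_lit 0) (nat_lit 5021384007) (nat_lit 532) (nat_lit 1197146920) (nat_lit 608) (nat_lit 2390744777) (nat_lit 162) (nat_lit 5) (nat_lit 169) (nat_lit 5) (nat_lit 170) (nat_lit 5) (nat_lit 323) (nat_lit 300) (nat_lit 277)) (XT.nd (nat_lit 78) (nat_lit 456) (nat_lit 0) (XT.lf (nat_lit 0) (nat_lit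 1639905577) (nat_lit 532) (nat_lit 3545150080) (nat_lit 76) (nat_lit 3625371234) (nat_lit 155) (nat_lit 5) (nat_lit 162) (nat_lit 5) (nat_lit 156) (nat_lit 5) (nat_lit 324) (nat_lit 300) (nat_lit 276)) (XT.lf (nat_lit 0) (nat_lit 5518510905) (nat_lit 456) (nat_lit 264098470) (nat_lit 532) (nat_lit 3239633213) (nat_lit 149) (nat_lit 5) (nat_lit 155) (nat_lit 5) (nat_lit 156) (nat_lit 5) (nat_lit 325) (nat_lit 300) (nat_lit 275)))))) (XT.nd (nat_lit 468) (nat_lit 2052) (nat_lit 0) (XT.nd (nat_lit 234) (nat_lit 1292) (nat_lit 0) (XT.nd (nat_lit 78) (nat_lit 836) (nat_lit 0) (XT.lf (nat_lit 0) (nat_lit 871833834) (nat_lit 532) (nat_lit 3489726430) (nat_lit 76) (nat_lit 4882899306) (nat_lit 142) (nat_lit 5) (nat_lit 149) (nat_lit 5) (nat_lit 143) (nat_lit 5) (nat_lit 326) (nat_lit 300) (nat_lit 274)) (XT.nd (nat_lit 78) (nat_lit 380) (nat_lit 0) (XT.lf (nat_lit 0) (nat_lit 5093489862) (nat_lit 532)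 (nat_lit 3498259970) (nat_lit 76) (nat_lit 886028992) (nat_lit 136) (nat_lit 5) (nat_lit 143) (nat_lit 5) (nat_lit 137) (nat_lit 5) (nat_lit 327) (nat_lit 300) (nat_lit 273)) (XT.lf (nat_lit 0) (nat_lit 6185541274) (nat_lit 380) (nat_lit 3350655164) (nat_lit 456) (nat_lit 186365879) (nat_lit 131) (nat_lit 5) (nat_lit 136) (nat_lit 5) (nat_lit 137) (nat_lit 5) (nat_lit 328) (nat_lit 300) (nat_lit 272)))) (XT.nd (nat_lit 78) (nat_lit 836) (nat_lit 0) (XT.lf (nat_lit 0) (nat_lit 4131911876) (nat_lit 456) (nat_lit 3631703047) (nat_lit 76) (nat_lit 2215057637) (nat_lit 125) (nat_lit 5) (nat_lit 131) (nat_lit 5) (nat_lit 126) (nat_lit 5) (nat_lit 329) (nat_lit 300) (nat_lit 271)) (XT.nd (nat_lit 78) (nat_lit 456) (nat_lit 0) (XT.lf (nat_lit 0) (nat_lit 6482103362) (nat_lit 380) (nat_lit 2190772729) (nat_lit 456) (nat_lit 1574423751) (nat_lit 120) (nat_lit 5) (nat_lit 125) (nat_lit 5) (nat_lit 126)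 (nat_lit 5) (nat_lit 330) (nat_lit 300) (nat_lit 270)) (XT.lf (nat_lit 0) (nat_lit 2872677621) (nat_lit 456) (nat_lit 3974464482) (nat_lit 76) (nat_lit 3680917138) (nat_lit 114) (nat_lit 5) (nat_lit 120) (nat_lit 5) (nat_lit 115) (nat_lit 5) (nat_lit 331) (nat_lit 300) (nat_lit 269))))) (XT.nd (nat_lit 234) (nat_lit 988) (nat_lit 0) (XT.nd (nat_lit 78) (nat_lit 760) (nat_lit 0) (XT.lf (nat_lit 0) (nat_lit 6577943601) (nat_lit 304) (nat_lit 941002137) (nat_lit 380) (nat_lit 3303237489) (nat_lit 110) (nat_lit 5) (nat_lit 114) (nat_lit 5) (nat_lit 115) (nat_lit 5) (nat_lit 332) (nat_lit 300) (nat_lit 268)) (XT.nd (nat_lit 78) (nat_lit 304) (nat_lit 0) (XT.lf (nat_lit 0) (nat_lit 1285040146) (nat_lit 456) (nat_lit 4610514783) (nat_lit 76) (nat_lit 5233865806) (nat_lit 104) (nat_lit 5) (nat_lit 110) (nat_lit 5) (nat_lit 105) (nat_lit 5) (nat_lit 333) (nat_lit 300) (nat_lit 267)) (XT.lf (nat_lit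 0) (nat_lit 6044317677) (nat_lit 380) (nat_lit 5068307045) (nat_lit 76) (nat_lit 338183627) (nat_lit 100) (nat_lit 5) (nat_lit 105) (nat_lit 5) (nat_lit 101) (nat_lit 5) (nat_lit 334) (nat_lit 300) (nat_lit 266)))) (XT.nd (nat_lit 78) (nat_lit 684) (nat_lit 0) (XT.lf (nat_lit 0) (nat_lit 6142547566) (nat_lit 304) (nat_lit 4959775478) (nat_lit 380) (nat_lit 684182671) (nat_lit 96) (nat_lit 5) (nat_lit 100) (nat_lit 5) (nat_lit 101) (nat_lit 5) (nat_lit 335) (nat_lit 300) (nat_lit 265)) (XT.nd (nat_lit 78) (nat_lit 304) (nat_lit 0) (XT.lf (nat_lit 0) (nat_lit 4211605278) (nat_lit 380) (nat_lit 6348786125) (nat_lit 76) (nat_lit 1576799353) (nat_lit 91) (nat_lit 5) (nat_lit 96) (nat_lit 5) (nat_lit 92) (nat_lit 5) (nat_lit 336) (nat_lit 300) (nat_lit 264)) (XT.lf (nat_lit 0) (nat_lit 5304550586) (nat_lit 304) (nat_lit 4093239961) (nat_lit 380) (nat_lit 3105679277) (nat_lit 87) (nat_lit 5) (nat_lit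 91) (nat_lit 5) (nat_lit 92) (nat_lit 5) (nat_lit 337) (nat_lit 300) (nat_lit 263))))))) (XT.nd (nat_lit 858) (nat_lit 1596) (nat_lit 0) (XT.nd (nat_lit 390) (nat_lit 1140) (nat_lit 0) (XT.nd (nat_lit 156) (nat_lit 760) (nat_lit 0) (XT.nd (nat_lit 78) (nat_lit 304) (nat_lit 0) (XT.lf (nat_lit 0) (nat_lit 1957411967) (nat_lit 304) (nat_lit 8200063140) (nat_lit 76) (nat_lit 2728865132) (nat_lit 83) (nat_lit 5) (nat_lit 87) (nat_lit 5) (nat_lit 84) (nat_lit 5) (nat_lit 338) (nat_lit 300) (nat_lit 262)) (XT.lf (nat_lit 0) (nat_lit 3888442318) (nat_lit 304) (nat_lit 3380227853) (nat_lit 380) (nat_lit 6017033325) (nat_lit 79) (nat_lit 5) (nat_lit 83) (nat_lit 5) (nat_lit 84) (nat_lit 5) (nat_lit 339) (nat_lit 300) (nat_lit 261))) (XT.nd (nat_lit 78) (nat_lit 532) (nat_lit 0) (XT.lf (nat_lit 0) (nat_lit 2928338781) (nat_lit 228) (nat_lit 9974283856) (nat_lit 304) (nat_lit 800745080) (nat_lit 76) (nat_lit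 5) (nat_lit 79) (nat_lit 5) (nat_lit 80) (nat_lit 5) (nat_lit 340) (nat_lit 300) (nat_lit 260)) (XT.nd (nat_lit 78) (nat_lit 228) (nat_lit 0) (XT.lf (nat_lit 0) (nat_lit 1741495687) (nat_lit 228) (nat_lit 2902118890) (nat_lit 304) (nat_lit 9495239943) (nat_lit 72) (nat_lit 5) (nat_lit 75) (nat_lit 5) (nat_lit 76) (nat_lit 5) (nat_lit 341) (nat_lit 300) (nat_lit 259)) (XT.lf (nat_lit 0) (nat_lit 331826717) (nat_lit 228) (nat_lit 10083117288) (nat_lit 304) (nat_lit 4178835601) (nat_lit 69) (nat_lit 5) (nat_lit 72) (nat_lit 5) (nat_lit 73) (nat_lit 5) (nat_lit 342) (nat_lit 300) (nat_lit 258))))) (XT.nd (nat_lit 234) (nat_lit 684) (nat_lit 0) (XT.nd (nat_lit 78) (nat_lit 380) (nat_lit 0) (XT.lf (nat_lit 0) (nat_lit 1448647168) (nat_lit 304) (nat_lit 1291115469) (nat_lit 76) (nat_lit 12329142360) (nat_lit 68) (nat_lit 5) (nat_lit 72) (nat_lit 5) (nat_lit 69) (nat_lit 5) (nat_lit 343) (nat_lit 300)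 (nat_lit 257)) (XT.nd (nat_lit 78) (nat_lit 152) (nat_lit 0) (XT.lf (nat_lit 0) (nat_lit 7358523635) (nat_lit 304) (nat_lit 3215829906) (nat_lit 76) (nat_lit 4989604795) (nat_lit 65) (nat_lit 5) (nat_lit 69) (nat_lit 5) (nat_lit 66) (nat_lit 5) (nat_lit 344) (nat_lit 300) (nat_lit 256)) (XT.lf (nat_lit 0) (nat_lit 10665542189) (nat_lit 152) (nat_lit 2962709979) (nat_lit 228) (nat_lit 2453615950) (nat_lit 63) (nat_lit 5) (nat_lit 65) (nat_lit 5) (nat_lit 66) (nat_lit 5) (nat_lit 345) (nat_lit 300) (nat_lit 255)))) (XT.nd (nat_lit 78) (nat_lit 380) (nat_lit 0) (XT.lf (nat_lit 0) (nat_lit 3604744516) (nat_lit 304) (nat_lit 7980192501) (nat_lit 76) (nat_lit 5037066549) (nat_lit 59) (nat_lit 5) (nat_lit 63) (nat_lit 5) (nat_lit 60) (nat_lit 5) (nat_lit 346) (nat_lit 300) (nat_lit 254)) (XT.nd (nat_lit 78) (nat_lit 228) (nat_lit 0) (XT.lf (nat_lit 0) (nat_lit 6271852307) (nat_lit 152) (nat_lit 3715008726)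 (nat_lit 228) (nat_lit 7199438878) (nat_lit 57) (nat_lit 5) (nat_lit 59) (nat_lit 5) (nat_lit 60) (nat_lit 5) (nat_lit 347) (nat_lit 300) (nat_lit 253)) (XT.lf (nat_lit 0) (nat_lit 3529154175) (nat_lit 228) (nat_lit 13246126352) (nat_lit 304) (nat_lit 1000943585) (nat_lit 54) (nat_lit 5) (nat_lit 57) (nat_lit 5) (nat_lit 58) (nat_lit 5) (nat_lit 348) (nat_lit 300) (nat_lit 252)))))) (XT.nd (nat_lit 468) (nat_lit 760) (nat_lit 0) (XT.nd (nat_lit 234) (nat_lit 380) (nat_lit 0) (XT.nd (nat_lit 78) (nat_lit 228) (nat_lit 0) (XT.lf (nat_lit 0) (nat_lit 325495625) (nat_lit 152) (nat_lit 5156815983) (nat_lit 228) (nat_lit 12909302273) (nat_lit 51) (nat_lit 5) (nat_lit 53) (nat_lit 5) (nat_lit 54) (nat_lit 5) (nat_lit 349) (nat_lit 300) (nat_lit 251)) (XT.nd (nat_lit 78) (nat_lit 228) (nat_lit 0) (XT.lf (nat_lit 0) (nat_lit 12379469001) (nat_lit 228) (nat_lit 3270857673) (nat_lit 76) (nat_lit 3383861433)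 (nat_lit 51) (nat_lit 5) (nat_lit 54) (nat_lit 5) (nat_lit 52) (nat_lit 5) (nat_lit 350) (nat_lit 300) (nat_lit 250)) (XT.lf (nat_lit 0) (nat_lit 19365340) (nat_lit 228) (nat_lit 7365695290) (nat_lit 76) (nat_lit 12320727201) (nat_lit 48) (nat_lit 5) (nat_lit 51) (nat_lit 5) (nat_lit 49) (nat_lit 5) (nat_lit 351) (nat_lit 300) (nat_lit 249)))) (XT.nd (nat_lit 78) (nat_lit 228) (nat_lit 0) (XT.lf (nat_lit 0) (nat_lit 6953957113) (nat_lit 228) (nat_lit 12046098184) (nat_lit 76) (nat_lit 1407025060) (nat_lit 46) (nat_lit 5) (nat_lit 49) (nat_lit 5) (nat_lit 47) (nat_lit 5) (nat_lit 352) (nat_lit 300) (nat_lit 248)) (XT.nd (nat_lit 78) (nat_lit 76) (nat_lit 0) (XT.lf (nat_lit 0) (nat_lit 3776112227) (nat_lit 152) (nat_lit 10583066784) (nat_lit 228) (nat_lit 6780562864) (nat_lit 44) (nat_lit 5) (nat_lit 46) (nat_lit 5) (nat_lit 47) (nat_lit 5) (nat_lit 353) (nat_lit 300) (nat_lit 247)) (XT.lf (nat_lit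 0) (nat_lit 284320790) (nat_lit 228) (nat_lit 1374718114) (nat_lit 76) (nat_lit 20248059328) (nat_lit 43) (nat_lit 5) (nat_lit 46) (nat_lit 5) (nat_lit 44) (nat_lit 5) (nat_lit 354) (nat_lit 300) (nat_lit 246))))) (XT.nd (nat_lit 234) (nat_lit 304) (nat_lit 0) (XT.nd (nat_lit 78) (nat_lit 304) (nat_lit 0) (XT.lf (nat_lit 0) (nat_lit 7729656991) (nat_lit 228) (nat_lit 7237443427) (nat_lit 76) (nat_lit 7738703567) (nat_lit 41) (nat_lit 5) (nat_lit 44) (nat_lit 5) (nat_lit 42) (nat_lit 5) (nat_lit 355) (nat_lit 300) (nat_lit 245)) (XT.nd (nat_lit 78) (nat_lit 152) (nat_lit 0) (XT.lf (nat_lit 0) (nat_lit 9710427758) (nat_lit 152) (nat_lit 5903499389) (nat_lit 228) (nat_lit 7928535797) (nat_lit 39) (nat_lit 5) (nat_lit 41) (nat_lit 5) (nat_lit 42) (nat_lit 5) (nat_lit 356) (nat_lit 300) (nat_lit 244)) (XT.lf (nat_lit 0) (nat_lit 3165630068) (nat_lit 152) (nat_lit 20810881725) (nat_lit 228) (nat_lit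 441937107) (nat_lit 37) (nat_lit 5) (nat_lit 39) (nat_lit 5) (nat_lit 40) (nat_lit 4) (nat_lit 357) (nat_lit 300) (nat_lit 243)))) (XT.nd (nat_lit 78) (nat_lit 228) (nat_lit 0) (XT.lf (nat_lit 0) (nat_lit 7422503077) (nat_lit 228) (nat_lit 4261210113) (nat_lit 76) (nat_lit 13647948795) (nat_lit 36) (nat_lit 5) (nat_lit 39) (nat_lit 5) (nat_lit 37) (nat_lit 5) (nat_lit 358) (nat_lit 300) (nat_lit 242)) (XT.nd (nat_lit 78) (nat_lit 76) (nat_lit 0) (XT.lf (nat_lit 0) (nat_lit 13751319151) (nat_lit 152) (nat_lit 1999500066) (nat_lit 228) (nat_lit 10537206463) (nat_lit 34) (nat_lit 5) (nat_lit 36) (nat_lit 5) (nat_lit 37) (nat_lit 5) (nat_lit 359) (nat_lit 300) (nat_lit 241)) (XT.lf (nat_lit 0) (nat_lit 5397955780) (nat_lit 76) (nat_lit 19221090657) (nat_lit 152) (nat_lit 2669470587) (nat_lit 33) (nat_lit 5) (nat_lit 34) (nat_lit 5) (nat_lit 35) (nat_lit 4) (nat_lit 360) (nat_lit 300) (nat_lit 240))))))))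
noncomputable def xc50 : XT := (XT.nd (nat_lit 1716) (nat_lit 304) (nat_lit 0) (XT.nd (nat_lit 858) (nat_lit 608) (nat_lit 0) (XT.nd (nat_lit 390) (nat_lit 380) (nat_lit 0) (XT.nd (nat_lit 156) (nat_lit 304) (nat_lit 0) (XT.nd (nat_lit 78) (nat_lit 152) (nat_lit 0) (XT.lf (nat_lit 0) (nat_lit 5582918819) (nat_lit 152) (nat_lit 4008489312) (nat_lit 76) (nat_lit 18743014137) (nat_lit 32) (nat_lit 5) (nat_lit 34) (nat_lit 5) (nat_lit 33) (nat_lit 5) (nat_lit 361) (nat_lit 300) (nat_lit 239)) (XT.lf (nat_lit 0) (nat_lit 14295493489) (nat_lit 228) (nat_lit 14488048245) (nat_lit 76) (nat_lit 645217506) (nat_lit 30) (nat_lit 5) (nat_lit 33) (nat_lit 5) (nat_lit 31) (nat_lit 4) (nat_lit 362) (nat_lit 300) (nat_lit 238))) (XT.nd (nat_lit 78) (nat_lit 228) (nat_lit 0) (XT.lf (nat_lit 0) (nat_lit 4246409785) (nat_lit 76) (nat_lit 19329968330) (nat_lit 152) (nat_lit 6997466522) (nat_lit 29) (nat_lit 5)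 (nat_lit 30) (nat_lit 5) (nat_lit 31) (nat_lit 4) (nat_lit 363) (nat_lit 300) (nat_lit 237)) (XT.nd (nat_lit 78) (nat_lit 152) (nat_lit 0) (XT.lf (nat_lit 0) (nat_lit 1619950350) (nat_lit 152) (nat_lit 7650006250) (nat_lit 76) (nat_lit 22502643873) (nat_lit 28) (nat_lit 5) (nat_lit 30) (nat_lit 5) (nat_lit 29) (nat_lit 5) (nat_lit 364) (nat_lit 300) (nat_lit 236)) (XT.lf (nat_lit 0) (nat_lit 10611144933) (nat_lit 228) (nat_lit 20993596834) (nat_lit 76) (nat_lit 1421855701) (nat_lit 26) (nat_lit 5) (nat_lit 29) (nat_lit 5) (nat_lit 27) (nat_lit 4) (nat_lit 365) (nat_lit 300) (nat_lit 235))))) (XT.nd (nat_lit 234) (nat_lit 76) (nat_lit 0) (XT.nd (nat_lit 78) (nat_lit 304) (nat_lit 0) (XT.lf (nat_lit 0) (nat_lit 20182537348) (nat_lit 228) (nat_lit 1652350089) (nat_lit 76) (nat_lit 12504497809) (nat_lit 26) (nat_lit 5) (nat_lit 29) (nat_lit 5) (nat_lit 27) (nat_lit 4) (nat_lit 366) (nat_lit 300)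 (nat_lit 234)) (XT.nd (nat_lit 78) (nat_lit 228) (nat_lit 0) (XT.lf (nat_lit 0) (nat_lit 18952363924) (nat_lit 76) (nat_lit 11421883285) (nat_lit 152) (nat_lit 5339322362) (nat_lit 25) (nat_lit 5) (nat_lit 26) (nat_lit 5) (nat_lit 27) (nat_lit 4) (nat_lit 367) (nat_lit 300) (nat_lit 233)) (XT.lf (nat_lit 0) (nat_lit 3422722631) (nat_lit 152) (nat_lit 430369612) (nat_lit 228) (nat_lit 33301934921) (nat_lit 22) (nat_lit 5) (nat_lit 24) (nat_lit 5) (nat_lit 25) (nat_lit 5) (nat_lit 368) (nat_lit 300) (nat_lit 232)))) (XT.nd (nat_lit 78) (nat_lit 76) (nat_lit 0) (XT.lf (nat_lit 0) (nat_lit 13638098349) (nat_lit 228) (nat_lit 13930580884) (nat_lit 76) (nat_lit 11090999032) (nat_lit 22) (nat_lit 5) (nat_lit 25) (nat_lit 5) (nat_lit 23) (nat_lit 4) (nat_lit 369) (nat_lit 300) (nat_lit 231)) (XT.nd (nat_lit 78) (nat_lit 0) (nat_lit 0) (XT.lf (nat_lit 0) (nat_lit 6924478757) (nat_lit 76) (nat_lit 17021940682)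 (nat_lit 152) (nat_lit 16292128588) (nat_lit 21) (nat_lit 5) (nat_lit 22) (nat_lit 5) (nat_lit 23) (nat_lit 4) (nat_lit 370) (nat_lit 300) (nat_lit 230)) (XT.lf (nat_lit 0) (nat_lit 29047807335) (nat_lit 76) (nat_lit 5830034660) (nat_lit 152) (nat_lit 7015296383) (nat_lit 21) (nat_lit 5) (nat_lit 22) (nat_lit 5) (nat_lit 23) (nat_lit 4) (nat_lit 371) (nat_lit 300) (nat_lit 229)))))) (XT.nd (nat_lit 390) (nat_lit 304) (nat_lit 0) (XT.nd (nat_lit 156) (nat_lit 152) (nat_lit 0) (XT.nd (nat_lit 78) (nat_lit 0) (nat_lit 0) (XT.lf (nat_lit 0) (nat_lit 2779465657) (nat_lit 152) (nat_lit 34958130138) (nat_lit 76) (nat_lit 5888865495) (nat_lit 19) (nat_lit 5) (nat_lit 21) (nat_lit 5) (nat_lit 20) (nat_lit 4) (nat_lit 372) (nat_lit 300) (nat_lit 228)) (XT.lf (nat_lit 0) (nat_lit 13079028202) (nat_lit 152) (nat_lit 14109423503) (nat_lit 76) (nat_lit 18251117154) (nat_lit 19) (nat_lit 5) (nat_lit 21) (nat_lit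 5) (nat_lit 20) (nat_lit 4) (nat_lit 373) (nat_lit 300) (nat_lit 227))) (XT.nd (nat_lit 78) (nat_lit 76) (nat_lit 0) (XT.lf (nat_lit 0) (nat_lit 7876283664) (nat_lit 76) (nat_lit 16061012359) (nat_lit 152) (nat_lit 23404730399) (nat_lit 18) (nat_lit 5) (nat_lit 19) (nat_lit 5) (nat_lit 20) (nat_lit 4) (nat_lit 374) (nat_lit 300) (nat_lit 226)) (XT.nd (nat_lit 78) (nat_lit 76) (nat_lit 0) (XT.lf (nat_lit 0) (nat_lit 31198687116) (nat_lit 76) (nat_lit 4254020651) (nat_lit 152) (nat_lit 13883478300) (nat_lit 18) (nat_lit 5) (nat_lit 19) (nat_lit 5) (nat_lit 20) (nat_lit 4) (nat_lit 375) (nat_lit 300) (nat_lit 225)) (XT.lf (nat_lit 0) (nat_lit 4205595174) (nat_lit 76) (nat_lit 43427221678) (nat_lit 76) (nat_lit 3794574870) (nat_lit 17) (nat_lit 4) (nat_lit 18) (nat_lit 5) (nat_lit 18) (nat_lit 4) (nat_lit 376) (nat_lit 300) (nat_lit 224))))) (XT.nd (nat_lit 234) (nat_lit 152) (nat_lit 0) (XT.nd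 (nat_lit 78) (nat_lit 76) (nat_lit 0) (XT.lf (nat_lit 0) (nat_lit 6868431473) (nat_lit 152) (nat_lit 25737180348) (nat_lit 76) (nat_lit 21009520821) (nat_lit 16) (nat_lit 5) (nat_lit 18) (nat_lit 5) (nat_lit 17) (nat_lit 4) (nat_lit 377) (nat_lit 300) (nat_lit 223)) (XT.nd (nat_lit 78) (nat_lit 76) (nat_lit 0) (XT.lf (nat_lit 0) (nat_lit 17959060294) (nat_lit 152) (nat_lit 3268393778) (nat_lit 76) (nat_lit 34684496076) (nat_lit 16) (nat_lit 5) (nat_lit 18) (nat_lit 5) (nat_lit 17) (nat_lit 4) (nat_lit 378) (nat_lit 300) (nat_lit 222)) (XT.lf (nat_lit 0) (nat_lit 20678039069) (nat_lit 76) (nat_lit 9098494565) (nat_lit 152) (nat_lit 28541910392) (nat_lit 15) (nat_lit 5) (nat_lit 16) (nat_lit 5) (nat_lit 17) (nat_lit 4) (nat_lit 379) (nat_lit 300) (nat_lit 221)))) (XT.nd (nat_lit 78) (nat_lit 152) (nat_lit 0) (XT.lf (nat_lit 0) (nat_lit 42227948266) (nat_lit 152) (nat_lit 15037896958) (nat_lit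 0) (nat_lit 3578130001) (nat_lit 15) (nat_lit 5) (nat_lit 17) (nat_lit 4) (nat_lit 15) (nat_lit 4) (nat_lit 380) (nat_lit 300) (nat_lit 220)) (XT.nd (nat_lit 78) (nat_lit 76) (nat_lit 0) (XT.lf (nat_lit 0) (nat_lit 8727062660) (nat_lit 76) (nat_lit 46725955135) (nat_lit 76) (nat_lit 8038237099) (nat_lit 14) (nat_lit 4) (nat_lit 15) (nat_lit 5) (nat_lit 15) (nat_lit 4) (nat_lit 381) (nat_lit 300) (nat_lit 219)) (XT.lf (nat_lit 0) (nat_lit 3140763219) (nat_lit 152) (nat_lit 32348063720) (nat_lit 76) (nat_lit 30777224917) (nat_lit 13) (nat_lit 5) (nat_lit 15) (nat_lit 5) (nat_lit 14) (nat_lit 4) (nat_lit 382) (nat_lit 300) (nat_lit 218))))))) (XT.nd (nat_lit 40638) (nat_lit 0) (nat_lit 18696) (XT.nd (nat_lit 390) (nat_lit 152) (nat_lit 0) (XT.nd (nat_lit 156) (nat_lit 76) (nat_lit 0) (XT.nd (nat_lit 78) (nat_lit 76) (nat_lit 0) (XT.lf (nat_lit 0) (nat_lit 14691027996) (nat_lit 152) (nat_lit 8935402435)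 (nat_lit 76) (nat_lit 45551417821) (nat_lit 13) (nat_lit 5) (nat_lit 15) (nat_lit 5) (nat_lit 14) (nat_lit 4) (nat_lit 383) (nat_lit 300) (nat_lit 217)) (XT.lf (nat_lit 0) (nat_lit 15917410515) (nat_lit 76) (nat_lit 11032510189) (nat_lit 152) (nat_lit 45281384041) (nat_lit 12) (nat_lit 5) (nat_lit 13) (nat_lit 5) (nat_lit 14) (nat_lit 4) (nat_lit 384) (nat_lit 300) (nat_lit 216))) (XT.nd (nat_lit 78) (nat_lit 76) (nat_lit 0) (XT.lf (nat_lit 0) (nat_lit 39914299283) (nat_lit 152) (nat_lit 33297430523) (nat_lit 0) (nat_lit 2222931563) (nat_lit 12) (nat_lit 5) (nat_lit 14) (nat_lit 4) (nat_lit 12) (nat_lit 4) (nat_lit 385) (nat_lit 300) (nat_lit 215)) (XT.nd (nat_lit 78) (nat_lit 76) (nat_lit 0) (XT.lf (nat_lit 0) (nat_lit 53617856479) (nat_lit 152) (nat_lit 9279945714) (nat_lit 0) (nat_lit 15897658212) (nat_lit 12) (nat_lit 5) (nat_lit 14) (nat_lit 4) (nat_lit 12) (nat_lit 4) (nat_lit 386) (nat_lit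 300) (nat_lit 214)) (XT.lf (nat_lit 0) (nat_lit 16218272837) (nat_lit 76) (nat_lit 51924795695) (nat_lit 76) (nat_lit 14177139766) (nat_lit 11) (nat_lit 4) (nat_lit 12) (nat_lit 5) (nat_lit 12) (nat_lit 4) (nat_lit 387) (nat_lit 300) (nat_lit 213))))) (XT.nd (nat_lit 234) (nat_lit 0) (nat_lit 0) (XT.nd (nat_lit 78) (nat_lit 152) (nat_lit 0) (XT.lf (nat_lit 0) (nat_lit 43149758104) (nat_lit 76) (nat_lit 40321471980) (nat_lit 76) (nat_lit 2547665895) (nat_lit 11) (nat_lit 4) (nat_lit 12) (nat_lit 5) (nat_lit 12) (nat_lit 4) (nat_lit 388) (nat_lit 300) (nat_lit 212)) (XT.nd (nat_lit 78) (nat_lit 76) (nat_lit 0) (XT.lf (nat_lit 0) (nat_lit 9456592911) (nat_lit 152) (nat_lit 18601827384) (nat_lit 76) (nat_lit 61841857596) (nat_lit 10) (nat_lit 5) (nat_lit 12) (nat_lit 5) (nat_lit 11) (nat_lit 4) (nat_lit 389) (nat_lit 300) (nat_lit 211)) (XT.lf (nat_lit 0) (nat_lit 6956269049) (nat_lit 76) (nat_lit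 15102203367) (nat_lit 152) (nat_lit 71914999523) (nat_lit 9) (nat_lit 5) (nat_lit 10) (nat_lit 5) (nat_lit 11) (nat_lit 4) (nat_lit 390) (nat_lit 300) (nat_lit 210)))) (XT.nd (nat_lit 39858) (nat_lit 0) (nat_lit 24852) (XT.lf (nat_lit 0) (nat_lit 34149321228) (nat_lit 76) (nat_lit 1315871221) (nat_lit 152) (nat_lit 62779893411) (nat_lit 9) (nat_lit 5) (nat_lit 10) (nat_lit 5) (nat_lit 11) (nat_lit 4) (nat_lit 391) (nat_lit 300) (nat_lit 209)) (XT.nd (nat_lit 78) (nat_lit 228) (nat_lit 0) (XT.lf (nat_lit 0) (nat_lit 1628489158) (nat_lit 228) (nat_lit 799190714) (nat_lit 228) (nat_lit 799190714) (nat_lit 339) (nat_lit 3) (nat_lit 342) (nat_lit 3) (nat_lit 342) (nat_lit 5) (nat_lit 301) (nat_lit 301) (nat_lit 298)) (XT.lf (nat_lit 0) (nat_lit 1430071005) (nat_lit 228) (nat_lit 2956995821) (nat_lit 304) (nat_lit 2082478598) (nat_lit 336) (nat_lit 5) (nat_lit 339) (nat_lit 3) (nat_lit 340) (nat_lit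 5) (nat_lit 302) (nat_lit 301) (nat_lit 297)))))) (XT.nd (nat_lit 468) (nat_lit 4560) (nat_lit 0) (XT.nd (nat_lit 234) (nat_lit 912) (nat_lit 0) (XT.nd (nat_lit 78) (nat_lit 684) (nat_lit 0) (XT.lf (nat_lit 76) (nat_lit 2279031392) (nat_lit 0) (nat_lit 3685744298) (nat_lit 304) (nat_lit 528596249) (nat_lit 337) (nat_lit 5) (nat_lit 336) (nat_lit 5) (nat_lit 340) (nat_lit 5) (nat_lit 303) (nat_lit 301) (nat_lit 296)) (XT.nd (nat_lit 78) (nat_lit 380) (nat_lit 0) (XT.lf (nat_lit 76) (nat_lit 1141343828) (nat_lit 0) (nat_lit 2738974611) (nat_lit 380) (nat_lit 2644645967) (nat_lit 333) (nat_lit 5) (nat_lit 332) (nat_lit 5) (nat_lit 337) (nat_lit 5) (nat_lit 304) (nat_lit 301) (nat_lit 295)) (XT.lf (nat_lit 76) (nat_lit 111188520) (nat_lit 0) (nat_lit 1558573656) (nat_lit 456) (nat_lit 4895045680) (nat_lit 328) (nat_lit 5) (nat_lit 327) (nat_lit 5) (nat_lit 333) (nat_lit 5) (nat_lit 305) (nat_lit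 301) (nat_lit 294)))) (XT.nd (nat_lit 78) (nat_lit 912) (nat_lit 0) (XT.lf (nat_lit 76) (nat_lit 5808021050) (nat_lit 0) (nat_lit 126498417) (nat_lit 456) (nat_lit 678034019) (nat_lit 328) (nat_lit 5) (nat_lit 327) (nat_lit 5) (nat_lit 333) (nat_lit 5) (nat_lit 306) (nat_lit 301) (nat_lit 293)) (XT.nd (nat_lit 78) (nat_lit 532) (nat_lit 0) (XT.lf (nat_lit 0) (nat_lit 3483558320) (nat_lit 456) (nat_lit 1649980555) (nat_lit 76) (nat_lit 1534206063) (nat_lit 322) (nat_lit 5) (nat_lit 328) (nat_lit 5) (nat_lit 323) (nat_lit 5) (nat_lit 307) (nat_lit 301) (nat_lit 292)) (XT.lf (nat_lit 0) (nat_lit 896366160) (nat_lit 532) (nat_lit 2401470862) (nat_lit 76) (nat_lit 3433525640) (nat_lit 315) (nat_lit 5) (nat_lit 322) (nat_lit 5) (nat_lit 316) (nat_lit 5) (nat_lit 308) (nat_lit 301) (nat_lit 291))))) (XT.nd (nat_lit 234) (nat_lit 2660) (nat_lit 0) (XT.nd (nat_lit 78) (nat_lit 1368) (nat_lit 0) (XT.lf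 (nat_lit 0) (nat_lit 3725472051) (nat_lit 532) (nat_lit 1205875355) (nat_lit 608) (nat_lit 1871685991) (nat_lit 308) (nat_lit 5) (nat_lit 315) (nat_lit 5) (nat_lit 316) (nat_lit 5) (nat_lit 309) (nat_lit 301) (nat_lit 290)) (XT.nd (nat_lit 78) (nat_lit 684) (nat_lit 0) (XT.lf (nat_lit 0) (nat_lit 2081842286) (nat_lit 684) (nat_lit 3683057978) (nat_lit 76) (nat_lit 1117907587) (nat_lit 299) (nat_lit 5) (nat_lit 308) (nat_lit 5) (nat_lit 300) (nat_lit 5) (nat_lit 310) (nat_lit 301) (nat_lit 289)) (XT.lf (nat_lit 0) (nat_lit 2748206265) (nat_lit 684) (nat_lit 3297090030) (nat_lit 760) (nat_lit 925459109) (nat_lit 290) (nat_lit 5) (nat_lit 299) (nat_lit 5) (nat_lit 300) (nat_lit 5) (nat_lit 311) (nat_lit 301) (nat_lit 288)))) (XT.nd (nat_lit 78) (nat_lit 1824) (nat_lit 0) (XT.lf (nat_lit 0) (nat_lit 2368184966) (nat_lit 760) (nat_lit 561966360) (nat_lit 836) (nat_lit 4136860924) (nat_lit 279) (nat_lit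 5) (nat_lit 289) (nat_lit 5) (nat_lit 290) (nat_lit 5) (nat_lit 312) (nat_lit 301) (nat_lit 287)) (XT.nd (nat_lit 78) (nat_lit 988) (nat_lit 0) (XT.lf (nat_lit 0) (nat_lit 2052388334) (nat_lit 836) (nat_lit 4788721517) (nat_lit 912) (nat_lit 330482931) (nat_lit 268) (nat_lit 5) (nat_lit 279) (nat_lit 5) (nat_lit 280) (nat_lit 5) (nat_lit 313) (nat_lit 301) (nat_lit 286)) (XT.lf (nat_lit 0) (nat_lit 1787879615) (nat_lit 912) (nat_lit 1680218768) (nat_lit 988) (nat_lit 3816263039) (nat_lit 255) (nat_lit 5) (nat_lit 267) (nat_lit 5) (nat_lit 268) (nat_lit 5) (nat_lit 314) (nat_lit 301) (nat_lit 285))))))))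
noncomputable def xc51 : XT := (XT.nd (nat_lit 1794) (nat_lit 4332) (nat_lit 0) (XT.nd (nat_lit 858) (nat_lit 4408) (nat_lit 0) (XT.nd (nat_lit 390) (nat_lit 3268) (nat_lit 0) (XT.nd (nat_lit 156) (nat_lit 2660) (nat_lit 0) (XT.nd (nat_lit 78) (nat_lit 1140) (nat_lit 0) (XT.lf (nat_lit 0) (nat_lit 1591583463) (nat_lit 988) (nat_lit 5751904697) (nat_lit 1064) (nat_lit 62579406) (nat_lit 242) (nat_lit 5) (nat_lit 255) (nat_lit 5) (nat_lit 256) (nat_lit 5) (nat_lit 315) (nat_lit 301) (nat_lit 284)) (XT.lf (nat_lit 0) (nat_lit 1424142706) (nat_lit 1064) (nat_lit 2282149889) (nat_lit 1140) (nat_lit 3829545008) (nat_lit 227) (nat_lit 5) (nat_lit 241) (nat_lit 5) (nat_lit 242) (nat_lit 5) (nat_lit 316) (nat_lit 301) (nat_lit 283))) (XT.nd (nat_lit 78) (nat_lit 1520) (nat_lit 0) (XT.lf (nat_lit 0) (nat_lit 1320862760) (nat_lit 1140) (nat_lit 6250497357) (nat_lit 1216) (nat_lit 103629806) (nat_lit 212)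 (nat_lit 5) (nat_lit 227) (nat_lit 5) (nat_lit 228) (nat_lit 5) (nat_lit 317) (nat_lit 301) (nat_lit 282)) (XT.nd (nat_lit 78) (nat_lit 608) (nat_lit 0) (XT.lf (nat_lit 0) (nat_lit 1231991774) (nat_lit 836) (nat_lit 2428515801) (nat_lit 912) (nat_lit 4161876513) (nat_lit 200) (nat_lit 5) (nat_lit 211) (nat_lit 5) (nat_lit 212) (nat_lit 5) (nat_lit 318) (nat_lit 301) (nat_lit 281)) (XT.lf (nat_lit 0) (nat_lit 1195650829) (nat_lit 608) (nat_lit 6342393848) (nat_lit 684) (nat_lit 441414236) (nat_lit 192) (nat_lit 5) (nat_lit 200) (nat_lit 5) (nat_lit 201) (nat_lit 5) (nat_lit 319) (nat_lit 301) (nat_lit 280))))) (XT.nd (nat_lit 234) (nat_lit 1520) (nat_lit 0) (XT.nd (nat_lit 78) (nat_lit 1140) (nat_lit 0) (XT.lf (nat_lit 0) (nat_lit 1166261852) (nat_lit 532) (nat_lit 2174567817) (nat_lit 608) (nat_lit 4804406945) (nat_lit 184) (nat_lit 5) (nat_lit 191) (nat_lit 5) (nat_lit 192) (nat_lit 5) (nat_lit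 320) (nat_lit 301) (nat_lit 279)) (XT.nd (nat_lit 78) (nat_lit 608) (nat_lit 0) (XT.lf (nat_lit 0) (nat_lit 1170525692) (nat_lit 532) (nat_lit 6080772178) (nat_lit 608) (nat_lit 1069569477) (nat_lit 177) (nat_lit 5) (nat_lit 184) (nat_lit 5) (nat_lit 185) (nat_lit 5) (nat_lit 321) (nat_lit 301) (nat_lit 278)) (XT.lf (nat_lit 0) (nat_lit 1180365356) (nat_lit 532) (nat_lit 1571284169) (nat_lit 608) (nat_lit 5754280614) (nat_lit 169) (nat_lit 5) (nat_lit 176) (nat_lit 5) (nat_lit 177) (nat_lit 5) (nat_lit 322) (nat_lit 301) (nat_lit 277)))) (XT.nd (nat_lit 78) (nat_lit 988) (nat_lit 0) (XT.lf (nat_lit 0) (nat_lit 1197943509) (nat_lit 532) (nat_lit 5515299115) (nat_lit 608) (nat_lit 1987668232) (nat_lit 162) (nat_lit 5) (nat_lit 169) (nat_lit 5) (nat_lit 170) (nat_lit 5) (nat_lit 323) (nat_lit 301) (nat_lit 276)) (XT.nd (nat_lit 78) (nat_lit 456) (nat_lit 0) (XT.lf (nat_lit 0) (nat_lit 1224962858)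 (nat_lit 456) (nat_lit 666570059) (nat_lit 532) (nat_lit 7014776998) (nat_lit 155) (nat_lit 5) (nat_lit 161) (nat_lit 5) (nat_lit 162) (nat_lit 5) (nat_lit 324) (nat_lit 301) (nat_lit 275)) (XT.lf (nat_lit 0) (nat_lit 1226858034) (nat_lit 456) (nat_lit 4693317817) (nat_lit 532) (nat_lit 3201425490) (nat_lit 149) (nat_lit 5) (nat_lit 155) (nat_lit 5) (nat_lit 156) (nat_lit 5) (nat_lit 325) (nat_lit 301) (nat_lit 274)))))) (XT.nd (nat_lit 468) (nat_lit 1748) (nat_lit 0) (XT.nd (nat_lit 234) (nat_lit 1292) (nat_lit 0) (XT.nd (nat_lit 78) (nat_lit 836) (nat_lit 0) (XT.lf (nat_lit 0) (nat_lit 757708397) (nat_lit 532) (nat_lit 8106778283) (nat_lit 76) (nat_lit 483918094) (nat_lit 142) (nat_lit 5) (nat_lit 149) (nat_lit 5) (nat_lit 143) (nat_lit 5) (nat_lit 326) (nat_lit 301) (nat_lit 273)) (XT.nd (nat_lit 78) (nat_lit 380) (nat_lit 0) (XT.lf (nat_lit 0) (nat_lit 1201201593) (nat_lit 456) (nat_lit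 3661043052) (nat_lit 532) (nat_lit 4723040445) (nat_lit 136) (nat_lit 5) (nat_lit 142) (nat_lit 5) (nat_lit 143) (nat_lit 5) (nat_lit 327) (nat_lit 301) (nat_lit 272)) (XT.lf (nat_lit 0) (nat_lit 1160548515) (nat_lit 380) (nat_lit 8000608459) (nat_lit 456) (nat_lit 673270646) (nat_lit 131) (nat_lit 5) (nat_lit 136) (nat_lit 5) (nat_lit 137) (nat_lit 5) (nat_lit 328) (nat_lit 301) (nat_lit 271)))) (XT.nd (nat_lit 78) (nat_lit 836) (nat_lit 0) (XT.lf (nat_lit 0) (nat_lit 1058190395) (nat_lit 380) (nat_lit 2464790018) (nat_lit 456) (nat_lit 6571685502) (nat_lit 125) (nat_lit 5) (nat_lit 130) (nat_lit 5) (nat_lit 131) (nat_lit 5) (nat_lit 329) (nat_lit 301) (nat_lit 270)) (XT.nd (nat_lit 78) (nat_lit 456) (nat_lit 0) (XT.lf (nat_lit 0) (nat_lit 917690894) (nat_lit 380) (nat_lit 7012250362) (nat_lit 456) (nat_lit 2437411853) (nat_lit 120) (nat_lit 5) (nat_lit 125) (nat_lit 5) (nat_lit 126) (nat_lit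 5) (nat_lit 330) (nat_lit 301) (nat_lit 269)) (XT.lf (nat_lit 0) (nat_lit 726412139) (nat_lit 380) (nat_lit 1152264404) (nat_lit 456) (nat_lit 8774157233) (nat_lit 114) (nat_lit 5) (nat_lit 119) (nat_lit 5) (nat_lit 120) (nat_lit 5) (nat_lit 331) (nat_lit 301) (nat_lit 268))))) (XT.nd (nat_lit 234) (nat_lit 988) (nat_lit 0) (XT.nd (nat_lit 78) (nat_lit 456) (nat_lit 0) (XT.lf (nat_lit 0) (nat_lit 444275315) (nat_lit 304) (nat_lit 5957013054) (nat_lit 380) (nat_lit 4549414138) (nat_lit 110) (nat_lit 5) (nat_lit 114) (nat_lit 5) (nat_lit 115) (nat_lit 5) (nat_lit 332) (nat_lit 301) (nat_lit 267)) (XT.nd (nat_lit 78) (nat_lit 76) (nat_lit 0) (XT.lf (nat_lit 0) (nat_lit 120397689) (nat_lit 380) (nat_lit 11040576784) (nat_lit 456) (nat_lit 102230338) (nat_lit 105) (nat_lit 5) (nat_lit 110) (nat_lit 5) (nat_lit 111) (nat_lit 5) (nat_lit 333) (nat_lit 301) (nat_lit 266)) (XT.lf (nat_lit 0) (nat_lit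 4543676905) (nat_lit 456) (nat_lit 341372236) (nat_lit 76) (nat_lit 6703064594) (nat_lit 104) (nat_lit 5) (nat_lit 110) (nat_lit 5) (nat_lit 105) (nat_lit 5) (nat_lit 334) (nat_lit 301) (nat_lit 265)))) (XT.nd (nat_lit 78) (nat_lit 684) (nat_lit 0) (XT.lf (nat_lit 0) (nat_lit 9443184139) (nat_lit 380) (nat_lit 869019524) (nat_lit 76) (nat_lit 1616391783) (nat_lit 100) (nat_lit 5) (nat_lit 105) (nat_lit 5) (nat_lit 101) (nat_lit 5) (nat_lit 335) (nat_lit 301) (nat_lit 264)) (XT.nd (nat_lit 78) (nat_lit 304) (nat_lit 0) (XT.lf (nat_lit 0) (nat_lit 2317735446) (nat_lit 380) (nat_lit 1532323399) (nat_lit 76) (nat_lit 8433601954) (nat_lit 95) (nat_lit 5) (nat_lit 100) (nat_lit 5) (nat_lit 96) (nat_lit 5) (nat_lit 336) (nat_lit 301) (nat_lit 263)) (XT.lf (nat_lit 0) (nat_lit 7354245760) (nat_lit 380) (nat_lit 2328741785) (nat_lit 76) (nat_lit 2971468463) (nat_lit 91) (nat_lit 5) (nat_lit 96) (nat_lit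 5) (nat_lit 92) (nat_lit 5) (nat_lit 337) (nat_lit 301) (nat_lit 262))))))) (XT.nd (nat_lit 858) (nat_lit 1748) (nat_lit 0) (XT.nd (nat_lit 390) (nat_lit 1140) (nat_lit 0) (XT.nd (nat_lit 156) (nat_lit 836) (nat_lit 0) (XT.nd (nat_lit 78) (nat_lit 304) (nat_lit 0) (XT.lf (nat_lit 0) (nat_lit 9782928664) (nat_lit 304) (nat_lit 2917689093) (nat_lit 380) (nat_lit 341482684) (nat_lit 87) (nat_lit 5) (nat_lit 91) (nat_lit 5) (nat_lit 92) (nat_lit 5) (nat_lit 338) (nat_lit 301) (nat_lit 261)) (XT.lf (nat_lit 0) (nat_lit 4834663183) (nat_lit 304) (nat_lit 4389757160) (nat_lit 76) (nat_lit 4221417909) (nat_lit 83) (nat_lit 5) (nat_lit 87) (nat_lit 5) (nat_lit 84) (nat_lit 5) (nat_lit 339) (nat_lit 301) (nat_lit 260))) (XT.nd (nat_lit 78) (nat_lit 532) (nat_lit 0) (XT.lf (nat_lit 0) (nat_lit 8182199257) (nat_lit 304) (nat_lit 2136338896) (nat_lit 380) (nat_lit 3549488359) (nat_lit 79) (nat_lit 5) (nat_lit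 83) (nat_lit 5) (nat_lit 84) (nat_lit 5) (nat_lit 340) (nat_lit 301) (nat_lit 259)) (XT.nd (nat_lit 78) (nat_lit 228) (nat_lit 0) (XT.lf (nat_lit 0) (nat_lit 1813106152) (nat_lit 304) (nat_lit 7203692664) (nat_lit 76) (nat_lit 5291589347) (nat_lit 75) (nat_lit 5) (nat_lit 79) (nat_lit 5) (nat_lit 76) (nat_lit 5) (nat_lit 341) (nat_lit 301) (nat_lit 258)) (XT.lf (nat_lit 0) (nat_lit 5812992909) (nat_lit 228) (nat_lit 1612990527) (nat_lit 304) (nat_lit 7342102499) (nat_lit 72) (nat_lit 5) (nat_lit 75) (nat_lit 5) (nat_lit 76) (nat_lit 5) (nat_lit 342) (nat_lit 301) (nat_lit 257))))) (XT.nd (nat_lit 234) (nat_lit 456) (nat_lit 0) (XT.nd (nat_lit 78) (nat_lit 456) (nat_lit 0) (XT.lf (nat_lit 0) (nat_lit 4280720009) (nat_lit 228) (nat_lit 9134651714) (nat_lit 304) (nat_lit 1832558194) (nat_lit 69) (nat_lit 5) (nat_lit 72) (nat_lit 5) (nat_lit 73) (nat_lit 5) (nat_lit 343) (nat_lit 301) (nat_lit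 256)) (XT.nd (nat_lit 78) (nat_lit 152) (nat_lit 0) (XT.lf (nat_lit 0) (nat_lit 2486446664) (nat_lit 228) (nat_lit 1444589021) (nat_lit 304) (nat_lit 11817954154) (nat_lit 65) (nat_lit 5) (nat_lit 68) (nat_lit 5) (nat_lit 69) (nat_lit 5) (nat_lit 344) (nat_lit 301) (nat_lit 255)) (XT.lf (nat_lit 0) (nat_lit 372513535) (nat_lit 152) (nat_lit 9678608025) (nat_lit 228) (nat_lit 6220283377) (nat_lit 63) (nat_lit 5) (nat_lit 65) (nat_lit 5) (nat_lit 66) (nat_lit 5) (nat_lit 345) (nat_lit 301) (nat_lit 254)))) (XT.nd (nat_lit 78) (nat_lit 456) (nat_lit 0) (XT.lf (nat_lit 0) (nat_lit 14833425322) (nat_lit 152) (nat_lit 1721740287) (nat_lit 228) (nat_lit 262467876) (nat_lit 63) (nat_lit 5) (nat_lit 65) (nat_lit 5) (nat_lit 66) (nat_lit 5) (nat_lit 346) (nat_lit 301) (nat_lit 253)) (XT.nd (nat_lit 78) (nat_lit 152) (nat_lit 0) (XT.lf (nat_lit 0) (nat_lit 5993261150) (nat_lit 304) (nat_lit 4750542561)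 (nat_lit 76) (nat_lit 6642161207) (nat_lit 59) (nat_lit 5) (nat_lit 63) (nat_lit 5) (nat_lit 60) (nat_lit 5) (nat_lit 347) (nat_lit 301) (nat_lit 252)) (XT.lf (nat_lit 0) (nat_lit 10110089689) (nat_lit 152) (nat_lit 2513118684) (nat_lit 228) (nat_lit 5357448364) (nat_lit 57) (nat_lit 5) (nat_lit 59) (nat_lit 5) (nat_lit 60) (nat_lit 5) (nat_lit 348) (nat_lit 301) (nat_lit 251)))))) (XT.nd (nat_lit 468) (nat_lit 760) (nat_lit 0) (XT.nd (nat_lit 234) (nat_lit 532) (nat_lit 0) (XT.nd (nat_lit 78) (nat_lit 152) (nat_lit 0) (XT.lf (nat_lit 0) (nat_lit 1072254718) (nat_lit 304) (nat_lit 11432936753) (nat_lit 76) (nat_lit 6096280690) (nat_lit 53) (nat_lit 5) (nat_lit 57) (nat_lit 5) (nat_lit 54) (nat_lit 5) (nat_lit 349) (nat_lit 301) (nat_lit 250)) (XT.nd (nat_lit 78) (nat_lit 0) (nat_lit 0) (XT.lf (nat_lit 0) (nat_lit 3757357883) (nat_lit 152) (nat_lit 4034508562) (nat_lit 228) (nat_lit 11457518157)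 (nat_lit 51) (nat_lit 5) (nat_lit 53) (nat_lit 5) (nat_lit 54) (nat_lit 5) (nat_lit 350) (nat_lit 301) (nat_lit 249)) (XT.lf (nat_lit 0) (nat_lit 14949591105) (nat_lit 228) (nat_lit 135228537) (nat_lit 76) (nat_lit 4841832178) (nat_lit 51) (nat_lit 5) (nat_lit 54) (nat_lit 5) (nat_lit 52) (nat_lit 5) (nat_lit 351) (nat_lit 301) (nat_lit 248)))) (XT.nd (nat_lit 78) (nat_lit 304) (nat_lit 0) (XT.lf (nat_lit 0) (nat_lit 1928742541) (nat_lit 228) (nat_lit 4490739424) (nat_lit 76) (nat_lit 14213685355) (nat_lit 48) (nat_lit 5) (nat_lit 51) (nat_lit 5) (nat_lit 49) (nat_lit 5) (nat_lit 352) (nat_lit 301) (nat_lit 247)) (XT.nd (nat_lit 78) (nat_lit 152) (nat_lit 0) (XT.lf (nat_lit 0) (nat_lit 9161989679) (nat_lit 228) (nat_lit 9454588578) (nat_lit 76) (nat_lit 2754419756) (nat_lit 46) (nat_lit 5) (nat_lit 49) (nat_lit 5) (nat_lit 47) (nat_lit 5) (nat_lit 353) (nat_lit 301) (nat_lit 246)) (XT.lf (nat_lit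 0) (nat_lit 7067182301) (nat_lit 152) (nat_lit 9811523867) (nat_lit 228) (nat_lit 5263379258) (nat_lit 44) (nat_lit 5) (nat_lit 46) (nat_lit 5) (nat_lit 47) (nat_lit 5) (nat_lit 354) (nat_lit 301) (nat_lit 245))))) (XT.nd (nat_lit 234) (nat_lit 380) (nat_lit 0) (XT.nd (nat_lit 78) (nat_lit 152) (nat_lit 0) (XT.lf (nat_lit 0) (nat_lit 1576902709) (nat_lit 152) (nat_lit 470116437) (nat_lit 228) (nat_lit 20902427984) (nat_lit 41) (nat_lit 5) (nat_lit 43) (nat_lit 5) (nat_lit 44) (nat_lit 5) (nat_lit 355) (nat_lit 301) (nat_lit 244)) (XT.nd (nat_lit 78) (nat_lit 152) (nat_lit 0) (XT.lf (nat_lit 0) (nat_lit 9806616008) (nat_lit 228) (nat_lit 4656316832) (nat_lit 76) (nat_lit 9326921779) (nat_lit 41) (nat_lit 5) (nat_lit 44) (nat_lit 5) (nat_lit 42) (nat_lit 5) (nat_lit 356) (nat_lit 301) (nat_lit 243)) (XT.lf (nat_lit 0) (nat_lit 13054587443) (nat_lit 152) (nat_lit 4977492343) (nat_lit 228) (nat_lit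 6637882350) (nat_lit 39) (nat_lit 5) (nat_lit 41) (nat_lit 5) (nat_lit 42) (nat_lit 5) (nat_lit 357) (nat_lit 301) (nat_lit 242)))) (XT.nd (nat_lit 78) (nat_lit 152) (nat_lit 0) (XT.lf (nat_lit 0) (nat_lit 1159014011) (nat_lit 228) (nat_lit 19464919764) (nat_lit 76) (nat_lit 4966689031) (nat_lit 36) (nat_lit 5) (nat_lit 39) (nat_lit 5) (nat_lit 37) (nat_lit 5) (nat_lit 358) (nat_lit 301) (nat_lit 241)) (XT.nd (nat_lit 78) (nat_lit 152) (nat_lit 0) (XT.lf (nat_lit 0) (nat_lit 9330764421) (nat_lit 228) (nat_lit 1763718779) (nat_lit 76) (nat_lit 15457207259) (nat_lit 36) (nat_lit 5) (nat_lit 39) (nat_lit 5) (nat_lit 37) (nat_lit 5) (nat_lit 359) (nat_lit 301) (nat_lit 240)) (XT.lf (nat_lit 0) (nat_lit 17071739524) (nat_lit 152) (nat_lit 955868489) (nat_lit 228) (nat_lit 9529721953) (nat_lit 34) (nat_lit 5) (nat_lit 36) (nat_lit 5) (nat_lit 37) (nat_lit 5) (nat_lit 360) (nat_lit 301) (nat_lit 239))))))))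
noncomputable def xc52 : XT := (XT.nd (nat_lit 1716) (nat_lit 380) (nat_lit 0) (XT.nd (nat_lit 858) (nat_lit 532) (nat_lit 0) (XT.nd (nat_lit 390) (nat_lit 532) (nat_lit 0) (XT.nd (nat_lit 156) (nat_lit 304) (nat_lit 0) (XT.nd (nat_lit 78) (nat_lit 76) (nat_lit 0) (XT.lf (nat_lit 0) (nat_lit 8258364110) (nat_lit 76) (nat_lit 19045337061) (nat_lit 152) (nat_lit 1305231049) (nat_lit 33) (nat_lit 5) (nat_lit 34) (nat_lit 5) (nat_lit 35) (nat_lit 4) (nat_lit 361) (nat_lit 301) (nat_lit 238)) (XT.lf (nat_lit 0) (nat_lit 7260624084) (nat_lit 152) (nat_lit 1713557338) (nat_lit 76) (nat_lit 20734635708) (nat_lit 32) (nat_lit 5) (nat_lit 34) (nat_lit 5) (nat_lit 33) (nat_lit 5) (nat_lit 362) (nat_lit 301) (nat_lit 237))) (XT.nd (nat_lit 78) (nat_lit 152) (nat_lit 0) (XT.lf (nat_lit 0) (nat_lit 16375800458) (nat_lit 228) (nat_lit 12757885134) (nat_lit 76) (nat_lit 1725193764) (nat_lit 30) (nat_lit 5)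 (nat_lit 33) (nat_lit 5) (nat_lit 31) (nat_lit 4) (nat_lit 363) (nat_lit 301) (nat_lit 236)) (XT.nd (nat_lit 78) (nat_lit 76) (nat_lit 0) (XT.lf (nat_lit 0) (nat_lit 6842936170) (nat_lit 76) (nat_lit 19235686243) (nat_lit 152) (nat_lit 5983876572) (nat_lit 29) (nat_lit 5) (nat_lit 30) (nat_lit 5) (nat_lit 31) (nat_lit 4) (nat_lit 364) (nat_lit 301) (nat_lit 235)) (XT.lf (nat_lit 0) (nat_lit 2974145197) (nat_lit 152) (nat_lit 5736185291) (nat_lit 76) (nat_lit 24612394222) (nat_lit 28) (nat_lit 5) (nat_lit 30) (nat_lit 5) (nat_lit 29) (nat_lit 5) (nat_lit 365) (nat_lit 301) (nat_lit 234))))) (XT.nd (nat_lit 234) (nat_lit 304) (nat_lit 0) (XT.nd (nat_lit 78) (nat_lit 76) (nat_lit 0) (XT.lf (nat_lit 0) (nat_lit 12385290824) (nat_lit 228) (nat_lit 19785042439) (nat_lit 76) (nat_lit 2469991308) (nat_lit 26) (nat_lit 5) (nat_lit 29) (nat_lit 5) (nat_lit 27) (nat_lit 4) (nat_lit 366) (nat_lit 301)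 (nat_lit 233)) (XT.nd (nat_lit 78) (nat_lit 0) (nat_lit 0) (XT.lf (nat_lit 0) (nat_lit 424005555) (nat_lit 76) (nat_lit 21956104598) (nat_lit 152) (nat_lit 13640309918) (nat_lit 25) (nat_lit 5) (nat_lit 26) (nat_lit 5) (nat_lit 27) (nat_lit 4) (nat_lit 367) (nat_lit 301) (nat_lit 232)) (XT.lf (nat_lit 0) (nat_lit 21989032032) (nat_lit 76) (nat_lit 11051980324) (nat_lit 152) (nat_lit 4423526437) (nat_lit 25) (nat_lit 5) (nat_lit 26) (nat_lit 5) (nat_lit 27) (nat_lit 4) (nat_lit 368) (nat_lit 301) (nat_lit 231)))) (XT.nd (nat_lit 78) (nat_lit 76) (nat_lit 0) (XT.lf (nat_lit 0) (nat_lit 5174502893) (nat_lit 228) (nat_lit 33337681639) (nat_lit 76) (nat_lit 466483807) (nat_lit 22) (nat_lit 5) (nat_lit 25) (nat_lit 5) (nat_lit 23) (nat_lit 4) (nat_lit 369) (nat_lit 301) (nat_lit 230)) (XT.nd (nat_lit 78) (nat_lit 76) (nat_lit 0) (XT.lf (nat_lit 0) (nat_lit 15399145992) (nat_lit 228) (nat_lit 12649115359)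 (nat_lit 76) (nat_lit 12511790827) (nat_lit 22) (nat_lit 5) (nat_lit 25) (nat_lit 5) (nat_lit 23) (nat_lit 4) (nat_lit 370) (nat_lit 301) (nat_lit 229)) (XT.lf (nat_lit 0) (nat_lit 9191998446) (nat_lit 76) (nat_lit 16997965611) (nat_lit 152) (nat_lit 16028900168) (nat_lit 21) (nat_lit 5) (nat_lit 22) (nat_lit 5) (nat_lit 23) (nat_lit 4) (nat_lit 371) (nat_lit 301) (nat_lit 228)))))) (XT.nd (nat_lit 390) (nat_lit 304) (nat_lit 0) (XT.nd (nat_lit 156) (nat_lit 76) (nat_lit 0) (XT.nd (nat_lit 78) (nat_lit 152) (nat_lit 0) (XT.lf (nat_lit 0) (nat_lit 32330003179) (nat_lit 76) (nat_lit 5288134389) (nat_lit 152) (nat_lit 6339551822) (nat_lit 21) (nat_lit 5) (nat_lit 22) (nat_lit 5) (nat_lit 23) (nat_lit 4) (nat_lit 372) (nat_lit 301) (nat_lit 227)) (XT.lf (nat_lit 0) (nat_lit 3902157624) (nat_lit 152) (nat_lit 34887445156) (nat_lit 76) (nat_lit 6988472323) (nat_lit 19) (nat_lit 5) (nat_lit 21) (nat_lit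 5) (nat_lit 20) (nat_lit 4) (nat_lit 373) (nat_lit 301) (nat_lit 226))) (XT.nd (nat_lit 78) (nat_lit 76) (nat_lit 0) (XT.lf (nat_lit 0) (nat_lit 14669854550) (nat_lit 152) (nat_lit 13082902785) (nat_lit 76) (nat_lit 19930495443) (nat_lit 19) (nat_lit 5) (nat_lit 21) (nat_lit 5) (nat_lit 20) (nat_lit 4) (nat_lit 374) (nat_lit 301) (nat_lit 225)) (XT.nd (nat_lit 78) (nat_lit 0) (nat_lit 0) (XT.lf (nat_lit 0) (nat_lit 9952442541) (nat_lit 76) (nat_lit 16090151855) (nat_lit 152) (nat_lit 23639101028) (nat_lit 18) (nat_lit 5) (nat_lit 19) (nat_lit 5) (nat_lit 20) (nat_lit 4) (nat_lit 375) (nat_lit 301) (nat_lit 224)) (XT.lf (nat_lit 0) (nat_lit 34360854513) (nat_lit 76) (nat_lit 3729663472) (nat_lit 152) (nat_lit 13686351367) (nat_lit 18) (nat_lit 5) (nat_lit 19) (nat_lit 5) (nat_lit 20) (nat_lit 4) (nat_lit 376) (nat_lit 301) (nat_lit 223))))) (XT.nd (nat_lit 234) (nat_lit 152) (nat_lit 0) (XT.nd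 (nat_lit 78) (nat_lit 76) (nat_lit 0) (XT.lf (nat_lit 0) (nat_lit 5990675444) (nat_lit 76) (nat_lit 44869643897) (nat_lit 76) (nat_lit 3112903478) (nat_lit 17) (nat_lit 4) (nat_lit 18) (nat_lit 5) (nat_lit 18) (nat_lit 4) (nat_lit 377) (nat_lit 301) (nat_lit 222)) (XT.nd (nat_lit 78) (nat_lit 0) (nat_lit 0) (XT.lf (nat_lit 0) (nat_lit 8025563505) (nat_lit 152) (nat_lit 25507884537) (nat_lit 76) (nat_lit 22737879535) (nat_lit 16) (nat_lit 5) (nat_lit 18) (nat_lit 5) (nat_lit 17) (nat_lit 4) (nat_lit 378) (nat_lit 301) (nat_lit 221)) (XT.lf (nat_lit 0) (nat_lit 19631975649) (nat_lit 152) (nat_lit 1987856487) (nat_lit 76) (nat_lit 37064323426) (nat_lit 16) (nat_lit 5) (nat_lit 18) (nat_lit 5) (nat_lit 17) (nat_lit 4) (nat_lit 379) (nat_lit 301) (nat_lit 220)))) (XT.nd (nat_lit 78) (nat_lit 76) (nat_lit 0) (XT.lf (nat_lit 0) (nat_lit 23114507265) (nat_lit 76) (nat_lit 8902394747) (nat_lit 152)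 (nat_lit 29194781561) (nat_lit 15) (nat_lit 5) (nat_lit 16) (nat_lit 5) (nat_lit 17) (nat_lit 4) (nat_lit 380) (nat_lit 301) (nat_lit 219)) (XT.nd (nat_lit 78) (nat_lit 76) (nat_lit 0) (XT.lf (nat_lit 0) (nat_lit 45061059720) (nat_lit 152) (nat_lit 14438371949) (nat_lit 0) (nat_lit 4364960989) (nat_lit 15) (nat_lit 5) (nat_lit 17) (nat_lit 4) (nat_lit 15) (nat_lit 4) (nat_lit 381) (nat_lit 301) (nat_lit 218)) (XT.lf (nat_lit 0) (nat_lit 10476097472) (nat_lit 76) (nat_lit 48449536218) (nat_lit 76) (nat_lit 7719061278) (nat_lit 14) (nat_lit 4) (nat_lit 15) (nat_lit 5) (nat_lit 15) (nat_lit 4) (nat_lit 382) (nat_lit 301) (nat_lit 217))))))) (XT.nd (nat_lit 40716) (nat_lit 0) (nat_lit 18620) (XT.nd (nat_lit 390) (nat_lit 228) (nat_lit 0) (XT.nd (nat_lit 156) (nat_lit 76) (nat_lit 0) (XT.nd (nat_lit 78) (nat_lit 0) (nat_lit 0) (XT.lf (nat_lit 0) (nat_lit 3971150579) (nat_lit 152) (nat_lit 32701778511)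 (nat_lit 76) (nat_lit 32886110485) (nat_lit 13) (nat_lit 5) (nat_lit 15) (nat_lit 5) (nat_lit 14) (nat_lit 4) (nat_lit 383) (nat_lit 301) (nat_lit 216)) (XT.lf (nat_lit 0) (nat_lit 16066864347) (nat_lit 152) (nat_lit 8178659799) (nat_lit 76) (nat_lit 48371869019) (nat_lit 13) (nat_lit 5) (nat_lit 15) (nat_lit 5) (nat_lit 14) (nat_lit 4) (nat_lit 384) (nat_lit 301) (nat_lit 215))) (XT.nd (nat_lit 78) (nat_lit 0) (nat_lit 0) (XT.lf (nat_lit 0) (nat_lit 17882295346) (nat_lit 76) (nat_lit 11037106246) (nat_lit 152) (nat_lit 46904705082) (nat_lit 12) (nat_lit 5) (nat_lit 13) (nat_lit 5) (nat_lit 14) (nat_lit 4) (nat_lit 385) (nat_lit 301) (nat_lit 214)) (XT.nd (nat_lit 78) (nat_lit 0) (nat_lit 0) (XT.lf (nat_lit 0) (nat_lit 42507388756) (nat_lit 152) (nat_lit 33836093256) (nat_lit 0) (nat_lit 2844892367) (nat_lit 12) (nat_lit 5) (nat_lit 14) (nat_lit 4) (nat_lit 12) (nat_lit 4) (nat_lit 386) (nat_lit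 301) (nat_lit 213)) (XT.lf (nat_lit 0) (nat_lit 56867677407) (nat_lit 152) (nat_lit 8671363198) (nat_lit 0) (nat_lit 17179030862) (nat_lit 12) (nat_lit 5) (nat_lit 14) (nat_lit 4) (nat_lit 12) (nat_lit 4) (nat_lit 387) (nat_lit 301) (nat_lit 212))))) (XT.nd (nat_lit 234) (nat_lit 76) (nat_lit 0) (XT.nd (nat_lit 78) (nat_lit 76) (nat_lit 0) (XT.lf (nat_lit 0) (nat_lit 18071020996) (nat_lit 76) (nat_lit 54031052003) (nat_lit 76) (nat_lit 14317500548) (nat_lit 11) (nat_lit 4) (nat_lit 12) (nat_lit 5) (nat_lit 12) (nat_lit 4) (nat_lit 388) (nat_lit 301) (nat_lit 211)) (XT.nd (nat_lit 78) (nat_lit 76) (nat_lit 0) (XT.lf (nat_lit 0) (nat_lit 46299469359) (nat_lit 76) (nat_lit 41870894649) (nat_lit 76) (nat_lit 2133624232) (nat_lit 11) (nat_lit 4) (nat_lit 12) (nat_lit 5) (nat_lit 12) (nat_lit 4) (nat_lit 389) (nat_lit 301) (nat_lit 210)) (XT.lf (nat_lit 0) (nat_lit 10435003325) (nat_lit 152) (nat_lit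 18576803153) (nat_lit 76) (nat_lit 65368238952) (nat_lit 10) (nat_lit 5) (nat_lit 12) (nat_lit 5) (nat_lit 11) (nat_lit 4) (nat_lit 390) (nat_lit 301) (nat_lit 209)))) (XT.nd (nat_lit 39936) (nat_lit 0) (nat_lit 24472) (XT.lf (nat_lit 0) (nat_lit 8231819905) (nat_lit 76) (nat_lit 15419999605) (nat_lit 152) (nat_lit 75005538148) (nat_lit 9) (nat_lit 5) (nat_lit 10) (nat_lit 5) (nat_lit 11) (nat_lit 4) (nat_lit 391) (nat_lit 301) (nat_lit 208)) (XT.nd (nat_lit 78) (nat_lit 380) (nat_lit 0) (XT.lf (nat_lit 0) (nat_lit 1459850138) (nat_lit 0) (nat_lit 1459850138) (nat_lit 228) (nat_lit 324952890) (nat_lit 336) (nat_lit 5) (nat_lit 336) (nat_lit 3) (nat_lit 339) (nat_lit 3) (nat_lit 302) (nat_lit 302) (nat_lit 296)) (XT.lf (nat_lit 76) (nat_lit 1550063018) (nat_lit 0) (nat_lit 2081390491) (nat_lit 380) (nat_lit 2885399116) (nat_lit 332) (nat_lit 5) (nat_lit 331) (nat_lit 3) (nat_lit 336) (nat_lit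 5) (nat_lit 303) (nat_lit 302) (nat_lit 295)))))) (XT.nd (nat_lit 468) (nat_lit 4028) (nat_lit 0) (XT.nd (nat_lit 234) (nat_lit 1064) (nat_lit 0) (XT.nd (nat_lit 78) (nat_lit 380) (nat_lit 0) (XT.lf (nat_lit 76) (nat_lit 289669064) (nat_lit 0) (nat_lit 1009734123) (nat_lit 456) (nat_lit 5253257665) (nat_lit 327) (nat_lit 5) (nat_lit 326) (nat_lit 5) (nat_lit 332) (nat_lit 5) (nat_lit 304) (nat_lit 302) (nat_lit 294)) (XT.nd (nat_lit 78) (nat_lit 456) (nat_lit 0) (XT.lf (nat_lit 0) (nat_lit 5422247550) (nat_lit 380) (nat_lit 861634746) (nat_lit 456) (nat_lit 312241122) (nat_lit 327) (nat_lit 5) (nat_lit 332) (nat_lit 5) (nat_lit 333) (nat_lit 5) (nat_lit 305) (nat_lit 302) (nat_lit 293)) (XT.lf (nat_lit 0) (nat_lit 2850089907) (nat_lit 456) (nat_lit 1931301890) (nat_lit 532) (nat_lit 1865778842) (nat_lit 321) (nat_lit 5) (nat_lit 327) (nat_lit 5) (nat_lit 328) (nat_lit 5) (nat_lit 306) (nat_lit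 302) (nat_lit 292)))) (XT.nd (nat_lit 78) (nat_lit 532) (nat_lit 0) (XT.lf (nat_lit 0) (nat_lit 142863564) (nat_lit 532) (nat_lit 2904574255) (nat_lit 608) (nat_lit 3659228996) (nat_lit 314) (nat_lit 5) (nat_lit 321) (nat_lit 5) (nat_lit 322) (nat_lit 5) (nat_lit 307) (nat_lit 302) (nat_lit 291)) (XT.nd (nat_lit 78) (nat_lit 532) (nat_lit 0) (XT.lf (nat_lit 76) (nat_lit 2964033425) (nat_lit 0) (nat_lit 1049857329) (nat_lit 608) (nat_lit 2760046309) (nat_lit 315) (nat_lit 5) (nat_lit 314) (nat_lit 5) (nat_lit 322) (nat_lit 5) (nat_lit 308) (nat_lit 302) (nat_lit 290)) (XT.lf (nat_lit 0) (nat_lit 1043524097) (nat_lit 608) (nat_lit 4636772978) (nat_lit 76) (nat_lit 1169189353) (nat_lit 307) (nat_lit 5) (nat_lit 315) (nat_lit 5) (nat_lit 308) (nat_lit 5) (nat_lit 309) (nat_lit 302) (nat_lit 289))))) (XT.nd (nat_lit 234) (nat_lit 1900) (nat_lit 0) (XT.nd (nat_lit 78) (nat_lit 1520) (nat_lit 0) (XT.lf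 (nat_lit 0) (nat_lit 1526271919) (nat_lit 608) (nat_lit 3300222867) (nat_lit 684) (nat_lit 2106378630) (nat_lit 299) (nat_lit 5) (nat_lit 307) (nat_lit 5) (nat_lit 308) (nat_lit 5) (nat_lit 310) (nat_lit 302) (nat_lit 288)) (XT.nd (nat_lit 78) (nat_lit 760) (nat_lit 0) (XT.lf (nat_lit 0) (nat_lit 922607181) (nat_lit 684) (nat_lit 665520750) (nat_lit 760) (nat_lit 5436698563) (nat_lit 289) (nat_lit 5) (nat_lit 298) (nat_lit 5) (nat_lit 299) (nat_lit 5) (nat_lit 311) (nat_lit 302) (nat_lit 287)) (XT.lf (nat_lit 0) (nat_lit 371102986) (nat_lit 760) (nat_lit 4929851603) (nat_lit 836) (nat_lit 1823719200) (nat_lit 279) (nat_lit 5) (nat_lit 289) (nat_lit 5) (nat_lit 290) (nat_lit 5) (nat_lit 312) (nat_lit 302) (nat_lit 286)))) (XT.nd (nat_lit 78) (nat_lit 1824) (nat_lit 0) (XT.lf (nat_lit 0) (nat_lit 1804479902) (nat_lit 836) (nat_lit 113657206) (nat_lit 76) (nat_lit 5314837037) (nat_lit 278) (nat_lit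 5) (nat_lit 289) (nat_lit 5) (nat_lit 279) (nat_lit 5) (nat_lit 313) (nat_lit 302) (nat_lit 285)) (XT.nd (nat_lit 78) (nat_lit 988) (nat_lit 0) (XT.lf (nat_lit 0) (nat_lit 5467745418) (nat_lit 912) (nat_lit 538122805) (nat_lit 76) (nat_lit 1343747053) (nat_lit 267) (nat_lit 5) (nat_lit 279) (nat_lit 5) (nat_lit 268) (nat_lit 5) (nat_lit 314) (nat_lit 302) (nat_lit 284)) (XT.lf (nat_lit 0) (nat_lit 1708865751) (nat_lit 988) (nat_lit 919502010) (nat_lit 76) (nat_lit 4846300653) (nat_lit 254) (nat_lit 5) (nat_lit 267) (nat_lit 5) (nat_lit 255) (nat_lit 5) (nat_lit 315) (nat_lit 302) (nat_lit 283))))))))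
noncomputable def xc53 : XT := (XT.nd (nat_lit 1794) (nat_lit 4028) (nat_lit 0) (XT.nd (nat_lit 858) (nat_lit 4636) (nat_lit 0) (XT.nd (nat_lit 390) (nat_lit 3268) (nat_lit 0) (XT.nd (nat_lit 156) (nat_lit 2660) (nat_lit 0) (XT.nd (nat_lit 78) (nat_lit 1140) (nat_lit 0) (XT.lf (nat_lit 0) (nat_lit 5342698108) (nat_lit 1064) (nat_lit 1254081846) (nat_lit 76) (nat_lit 1011744641) (nat_lit 241) (nat_lit 5) (nat_lit 255) (nat_lit 5) (nat_lit 242) (nat_lit 5) (nat_lit 316) (nat_lit 302) (nat_lit 282)) (XT.lf (nat_lit 0) (nat_lit 1309086321) (nat_lit 1140) (nat_lit 1557427054) (nat_lit 76) (nat_lit 4884500687) (nat_lit 226) (nat_lit 5) (nat_lit 241) (nat_lit 5) (nat_lit 227) (nat_lit 5) (nat_lit 317) (nat_lit 302) (nat_lit 281))) (XT.nd (nat_lit 78) (nat_lit 1520) (nat_lit 0) (XT.lf (nat_lit 0) (nat_lit 4936398591) (nat_lit 1216) (nat_lit 1827916993) (nat_lit 76) (nat_lit 1138185781) (nat_lit 211)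 (nat_lit 5) (nat_lit 227) (nat_lit 5) (nat_lit 212) (nat_lit 5) (nat_lit 318) (nat_lit 302) (nat_lit 280)) (XT.nd (nat_lit 78) (nat_lit 608) (nat_lit 0) (XT.lf (nat_lit 0) (nat_lit 616110256) (nat_lit 912) (nat_lit 2071716994) (nat_lit 76) (nat_lit 5375310255) (nat_lit 199) (nat_lit 5) (nat_lit 211) (nat_lit 5) (nat_lit 200) (nat_lit 5) (nat_lit 319) (nat_lit 302) (nat_lit 279)) (XT.lf (nat_lit 0) (nat_lit 4257448096) (nat_lit 684) (nat_lit 2303949613) (nat_lit 76) (nat_lit 1671428489) (nat_lit 191) (nat_lit 5) (nat_lit 200) (nat_lit 5) (nat_lit 192) (nat_lit 5) (nat_lit 320) (nat_lit 302) (nat_lit 278))))) (XT.nd (nat_lit 234) (nat_lit 1596) (nat_lit 0) (XT.nd (nat_lit 78) (nat_lit 1140) (nat_lit 0) (XT.lf (nat_lit 0) (nat_lit 5901159161) (nat_lit 532) (nat_lit 2139179307) (nat_lit 608) (nat_lit 372011998) (nat_lit 184) (nat_lit 5) (nat_lit 191) (nat_lit 5) (nat_lit 192) (nat_lit 5) (nat_lit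 321) (nat_lit 302) (nat_lit 277)) (XT.nd (nat_lit 78) (nat_lit 532) (nat_lit 0) (XT.lf (nat_lit 0) (nat_lit 3308877709) (nat_lit 608) (nat_lit 2728120129) (nat_lit 76) (nat_lit 2564076995) (nat_lit 176) (nat_lit 5) (nat_lit 184) (nat_lit 5) (nat_lit 177) (nat_lit 5) (nat_lit 322) (nat_lit 302) (nat_lit 276)) (XT.lf (nat_lit 0) (nat_lit 5871626011) (nat_lit 532) (nat_lit 1262144367) (nat_lit 608) (nat_lit 1666444483) (nat_lit 169) (nat_lit 5) (nat_lit 176) (nat_lit 5) (nat_lit 177) (nat_lit 5) (nat_lit 323) (nat_lit 302) (nat_lit 275)))) (XT.nd (nat_lit 78) (nat_lit 988) (nat_lit 0) (XT.lf (nat_lit 0) (nat_lit 2088012534) (nat_lit 608) (nat_lit 3149277186) (nat_lit 76) (nat_lit 3771839746) (nat_lit 161) (nat_lit 5) (nat_lit 169) (nat_lit 5) (nat_lit 162) (nat_lit 5) (nat_lit 324) (nat_lit 302) (nat_lit 274)) (XT.nd (nat_lit 78) (nat_lit 532) (nat_lit 0) (XT.lf (nat_lit 0) (nat_lit 5860011380)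 (nat_lit 456) (nat_lit 107529384) (nat_lit 532) (nat_lit 3261404907) (nat_lit 155) (nat_lit 5) (nat_lit 161) (nat_lit 5) (nat_lit 162) (nat_lit 5) (nat_lit 325) (nat_lit 302) (nat_lit 273)) (XT.lf (nat_lit 0) (nat_lit 586211451) (nat_lit 532) (nat_lit 3620587690) (nat_lit 76) (nat_lit 5252395367) (nat_lit 148) (nat_lit 5) (nat_lit 155) (nat_lit 5) (nat_lit 149) (nat_lit 5) (nat_lit 326) (nat_lit 302) (nat_lit 272)))))) (XT.nd (nat_lit 468) (nat_lit 2052) (nat_lit 0) (XT.nd (nat_lit 234) (nat_lit 1216) (nat_lit 0) (XT.nd (nat_lit 78) (nat_lit 912) (nat_lit 0) (XT.lf (nat_lit 0) (nat_lit 4543472327) (nat_lit 532) (nat_lit 3900712840) (nat_lit 76) (nat_lit 1256353126) (nat_lit 142) (nat_lit 5) (nat_lit 149) (nat_lit 5) (nat_lit 143) (nat_lit 5) (nat_lit 327) (nat_lit 302) (nat_lit 271)) (XT.nd (nat_lit 78) (nat_lit 456) (nat_lit 0) (XT.lf (nat_lit 0) (nat_lit 5740481051) (nat_lit 456) (nat_lit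 2977340928) (nat_lit 532) (nat_lit 1235638778) (nat_lit 136) (nat_lit 5) (nat_lit 142) (nat_lit 5) (nat_lit 143) (nat_lit 5) (nat_lit 328) (nat_lit 302) (nat_lit 270)) (XT.lf (nat_lit 0) (nat_lit 2835121711) (nat_lit 456) (nat_lit 4577413434) (nat_lit 76) (nat_lit 2805459824) (nat_lit 130) (nat_lit 5) (nat_lit 136) (nat_lit 5) (nat_lit 131) (nat_lit 5) (nat_lit 329) (nat_lit 302) (nat_lit 269)))) (XT.nd (nat_lit 78) (nat_lit 836) (nat_lit 0) (XT.lf (nat_lit 0) (nat_lit 5504802732) (nat_lit 380) (nat_lit 1596810287) (nat_lit 456) (nat_lit 3393321146) (nat_lit 125) (nat_lit 5) (nat_lit 130) (nat_lit 5) (nat_lit 131) (nat_lit 5) (nat_lit 330) (nat_lit 302) (nat_lit 268)) (XT.nd (nat_lit 78) (nat_lit 380) (nat_lit 0) (XT.lf (nat_lit 0) (nat_lit 816924994) (nat_lit 456) (nat_lit 5469160617) (nat_lit 76) (nat_lit 4498374807) (nat_lit 119) (nat_lit 5) (nat_lit 125) (nat_lit 5) (nat_lit 120) (nat_lit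 5) (nat_lit 331) (nat_lit 302) (nat_lit 267)) (XT.lf (nat_lit 0) (nat_lit 5064177348) (nat_lit 380) (nat_lit 117654112) (nat_lit 456) (nat_lit 5905262238) (nat_lit 114) (nat_lit 5) (nat_lit 119) (nat_lit 5) (nat_lit 120) (nat_lit 5) (nat_lit 332) (nat_lit 302) (nat_lit 266))))) (XT.nd (nat_lit 234) (nat_lit 988) (nat_lit 0) (XT.nd (nat_lit 78) (nat_lit 760) (nat_lit 0) (XT.lf (nat_lit 0) (nat_lit 4729997145) (nat_lit 304) (nat_lit 5098739291) (nat_lit 380) (nat_lit 1574274798) (nat_lit 110) (nat_lit 5) (nat_lit 114) (nat_lit 5) (nat_lit 115) (nat_lit 5) (nat_lit 333) (nat_lit 302) (nat_lit 265)) (XT.nd (nat_lit 78) (nat_lit 304) (nat_lit 0) (XT.lf (nat_lit 0) (nat_lit 2937023963) (nat_lit 456) (nat_lit 7413517274) (nat_lit 76) (nat_lit 1382732829) (nat_lit 104) (nat_lit 5) (nat_lit 110) (nat_lit 5) (nat_lit 105) (nat_lit 5) (nat_lit 334) (nat_lit 302) (nat_lit 264)) (XT.lf (nat_lit 0) (nat_lit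 3796983760) (nat_lit 304) (nat_lit 3907777055) (nat_lit 380) (nat_lit 4372976075) (nat_lit 100) (nat_lit 5) (nat_lit 104) (nat_lit 5) (nat_lit 105) (nat_lit 5) (nat_lit 335) (nat_lit 302) (nat_lit 263)))) (XT.nd (nat_lit 78) (nat_lit 608) (nat_lit 0) (XT.lf (nat_lit 0) (nat_lit 310406953) (nat_lit 380) (nat_lit 9252723865) (nat_lit 76) (nat_lit 2874939558) (nat_lit 95) (nat_lit 5) (nat_lit 100) (nat_lit 5) (nat_lit 96) (nat_lit 5) (nat_lit 336) (nat_lit 302) (nat_lit 262)) (XT.nd (nat_lit 78) (nat_lit 304) (nat_lit 0) (XT.lf (nat_lit 0) (nat_lit 2417302857) (nat_lit 304) (nat_lit 2780697759) (nat_lit 380) (nat_lit 7615357127) (nat_lit 91) (nat_lit 5) (nat_lit 95) (nat_lit 5) (nat_lit 96) (nat_lit 5) (nat_lit 337) (nat_lit 302) (nat_lit 261)) (XT.lf (nat_lit 0) (nat_lit 1518681603) (nat_lit 304) (nat_lit 8877339991) (nat_lit 380) (nat_lit 2809454600) (nat_lit 87) (nat_lit 5) (nat_lit 91) (nat_lit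 5) (nat_lit 92) (nat_lit 5) (nat_lit 338) (nat_lit 302) (nat_lit 260))))))) (XT.nd (nat_lit 858) (nat_lit 1748) (nat_lit 0) (XT.nd (nat_lit 390) (nat_lit 1140) (nat_lit 0) (XT.nd (nat_lit 156) (nat_lit 836) (nat_lit 0) (XT.nd (nat_lit 78) (nat_lit 0) (nat_lit 0) (XT.lf (nat_lit 0) (nat_lit 464881776) (nat_lit 228) (nat_lit 1784408704) (nat_lit 304) (nat_lit 11365623742) (nat_lit 83) (nat_lit 5) (nat_lit 86) (nat_lit 5) (nat_lit 87) (nat_lit 5) (nat_lit 339) (nat_lit 302) (nat_lit 259)) (XT.lf (nat_lit 0) (nat_lit 7597376494) (nat_lit 304) (nat_lit 781300223) (nat_lit 76) (nat_lit 5662520116) (nat_lit 83) (nat_lit 5) (nat_lit 87) (nat_lit 5) (nat_lit 84) (nat_lit 5) (nat_lit 340) (nat_lit 302) (nat_lit 258))) (XT.nd (nat_lit 78) (nat_lit 532) (nat_lit 0) (XT.lf (nat_lit 0) (nat_lit 12309526747) (nat_lit 304) (nat_lit 961613574) (nat_lit 380) (nat_lit 1215945424) (nat_lit 79) (nat_lit 5) (nat_lit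 83) (nat_lit 5) (nat_lit 84) (nat_lit 5) (nat_lit 341) (nat_lit 302) (nat_lit 257)) (XT.nd (nat_lit 78) (nat_lit 228) (nat_lit 0) (XT.lf (nat_lit 0) (nat_lit 4296035197) (nat_lit 304) (nat_lit 3843237293) (nat_lit 76) (nat_lit 6811618616) (nat_lit 75) (nat_lit 5) (nat_lit 79) (nat_lit 5) (nat_lit 76) (nat_lit 5) (nat_lit 342) (nat_lit 302) (nat_lit 256)) (XT.lf (nat_lit 0) (nat_lit 9717631161) (nat_lit 228) (nat_lit 392747257) (nat_lit 304) (nat_lit 5325625366) (nat_lit 72) (nat_lit 5) (nat_lit 75) (nat_lit 5) (nat_lit 76) (nat_lit 5) (nat_lit 343) (nat_lit 302) (nat_lit 255))))) (XT.nd (nat_lit 234) (nat_lit 456) (nat_lit 0) (XT.nd (nat_lit 78) (nat_lit 380) (nat_lit 0) (XT.lf (nat_lit 0) (nat_lit 385794947) (nat_lit 304) (nat_lit 7884123115) (nat_lit 76) (nat_lit 7671779083) (nat_lit 68) (nat_lit 5) (nat_lit 72) (nat_lit 5) (nat_lit 69) (nat_lit 5) (nat_lit 344) (nat_lit 302) (nat_lit 254))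 (XT.nd (nat_lit 78) (nat_lit 152) (nat_lit 0) (XT.lf (nat_lit 0) (nat_lit 6120155321) (nat_lit 228) (nat_lit 205388658) (nat_lit 304) (nat_lit 10143993642) (nat_lit 65) (nat_lit 5) (nat_lit 68) (nat_lit 5) (nat_lit 69) (nat_lit 5) (nat_lit 345) (nat_lit 302) (nat_lit 253)) (XT.lf (nat_lit 0) (nat_lit 3852668758) (nat_lit 152) (nat_lit 8839581102) (nat_lit 228) (nat_lit 4327651001) (nat_lit 63) (nat_lit 5) (nat_lit 65) (nat_lit 5) (nat_lit 66) (nat_lit 5) (nat_lit 346) (nat_lit 302) (nat_lit 252)))) (XT.nd (nat_lit 78) (nat_lit 152) (nat_lit 0) (XT.lf (nat_lit 0) (nat_lit 1282758067) (nat_lit 228) (nat_lit 517116680) (nat_lit 304) (nat_lit 15795769198) (nat_lit 59) (nat_lit 5) (nat_lit 62) (nat_lit 5) (nat_lit 63) (nat_lit 5) (nat_lit 347) (nat_lit 302) (nat_lit 251)) (XT.nd (nat_lit 78) (nat_lit 152) (nat_lit 0) (XT.lf (nat_lit 0) (nat_lit 8295898728) (nat_lit 304) (nat_lit 1696768497) (nat_lit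 76) (nat_lit 8201699046) (nat_lit 59) (nat_lit 5) (nat_lit 63) (nat_lit 5) (nat_lit 60) (nat_lit 5) (nat_lit 348) (nat_lit 302) (nat_lit 250)) (XT.lf (nat_lit 0) (nat_lit 13812550878) (nat_lit 152) (nat_lit 1380143799) (nat_lit 228) (nat_lit 3628075923) (nat_lit 57) (nat_lit 5) (nat_lit 59) (nat_lit 5) (nat_lit 60) (nat_lit 5) (nat_lit 349) (nat_lit 302) (nat_lit 249)))))) (XT.nd (nat_lit 468) (nat_lit 760) (nat_lit 0) (XT.nd (nat_lit 234) (nat_lit 380) (nat_lit 0) (XT.nd (nat_lit 78) (nat_lit 304) (nat_lit 0) (XT.lf (nat_lit 0) (nat_lit 3033111778) (nat_lit 304) (nat_lit 8815119721) (nat_lit 76) (nat_lit 7625385707) (nat_lit 53) (nat_lit 5) (nat_lit 57) (nat_lit 5) (nat_lit 54) (nat_lit 5) (nat_lit 350) (nat_lit 302) (nat_lit 248)) (XT.nd (nat_lit 78) (nat_lit 152) (nat_lit 0) (XT.lf (nat_lit 0) (nat_lit 7043264305) (nat_lit 152) (nat_lit 2984398870) (nat_lit 228) (nat_lit 10128127190) (nat_lit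 51) (nat_lit 5) (nat_lit 53) (nat_lit 5) (nat_lit 54) (nat_lit 5) (nat_lit 351) (nat_lit 302) (nat_lit 247)) (XT.lf (nat_lit 0) (nat_lit 2907185980) (nat_lit 152) (nat_lit 14587579675) (nat_lit 228) (nat_lit 3373642797) (nat_lit 49) (nat_lit 5) (nat_lit 51) (nat_lit 5) (nat_lit 52) (nat_lit 5) (nat_lit 352) (nat_lit 302) (nat_lit 246)))) (XT.nd (nat_lit 78) (nat_lit 304) (nat_lit 0) (XT.lf (nat_lit 0) (nat_lit 3756162828) (nat_lit 228) (nat_lit 1773561538) (nat_lit 76) (nat_lit 16082575331) (nat_lit 48) (nat_lit 5) (nat_lit 51) (nat_lit 5) (nat_lit 49) (nat_lit 5) (nat_lit 353) (nat_lit 302) (nat_lit 245)) (XT.nd (nat_lit 78) (nat_lit 152) (nat_lit 0) (XT.lf (nat_lit 0) (nat_lit 11307467585) (nat_lit 228) (nat_lit 7030434093) (nat_lit 76) (nat_lit 4050456793) (nat_lit 46) (nat_lit 5) (nat_lit 49) (nat_lit 5) (nat_lit 47) (nat_lit 5) (nat_lit 354) (nat_lit 302) (nat_lit 244)) (XT.lf (nat_lit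 0) (nat_lit 10234386735) (nat_lit 152) (nat_lit 9122330214) (nat_lit 228) (nat_lit 3842909447) (nat_lit 44) (nat_lit 5) (nat_lit 46) (nat_lit 5) (nat_lit 47) (nat_lit 5) (nat_lit 355) (nat_lit 302) (nat_lit 243))))) (XT.nd (nat_lit 234) (nat_lit 380) (nat_lit 0) (XT.nd (nat_lit 78) (nat_lit 152) (nat_lit 0) (XT.lf (nat_lit 0) (nat_lit 3754602407) (nat_lit 228) (nat_lit 19633570676) (nat_lit 76) (nat_lit 660089168) (nat_lit 41) (nat_lit 5) (nat_lit 44) (nat_lit 5) (nat_lit 42) (nat_lit 5) (nat_lit 356) (nat_lit 302) (nat_lit 242)) (XT.nd (nat_lit 78) (nat_lit 152) (nat_lit 0) (XT.lf (nat_lit 0) (nat_lit 11830258524) (nat_lit 228) (nat_lit 2219746038) (nat_lit 76) (nat_lit 10882866992) (nat_lit 41) (nat_lit 5) (nat_lit 44) (nat_lit 5) (nat_lit 42) (nat_lit 5) (nat_lit 357) (nat_lit 302) (nat_lit 241)) (XT.lf (nat_lit 0) (nat_lit 16300186019) (nat_lit 152) (nat_lit 4118718874) (nat_lit 228) (nat_lit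 5439544960) (nat_lit 39) (nat_lit 5) (nat_lit 41) (nat_lit 5) (nat_lit 42) (nat_lit 5) (nat_lit 358) (nat_lit 302) (nat_lit 240)))) (XT.nd (nat_lit 78) (nat_lit 152) (nat_lit 0) (XT.lf (nat_lit 0) (nat_lit 2680903940) (nat_lit 228) (nat_lit 17856687809) (nat_lit 76) (nat_lit 6288224457) (nat_lit 36) (nat_lit 5) (nat_lit 39) (nat_lit 5) (nat_lit 37) (nat_lit 5) (nat_lit 359) (nat_lit 302) (nat_lit 239)) (XT.nd (nat_lit 78) (nat_lit 0) (nat_lit 0) (XT.lf (nat_lit 0) (nat_lit 618719142) (nat_lit 152) (nat_lit 10578758843) (nat_lit 228) (nat_lit 16639392153) (nat_lit 34) (nat_lit 5) (nat_lit 36) (nat_lit 5) (nat_lit 37) (nat_lit 5) (nat_lit 360) (nat_lit 302) (nat_lit 238)) (XT.lf (nat_lit 0) (nat_lit 20280103307) (nat_lit 228) (nat_lit 8581212296) (nat_lit 76) (nat_lit 32966859) (nat_lit 34) (nat_lit 5) (nat_lit 37) (nat_lit 5) (nat_lit 35) (nat_lit 4) (nat_lit 361) (nat_lit 302) (nat_lit 237))))))))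
noncomputable def xc54 : XT := (XT.nd (nat_lit 1794) (nat_lit 228) (nat_lit 0) (XT.nd (nat_lit 858) (nat_lit 608) (nat_lit 0) (XT.nd (nat_lit 390) (nat_lit 532) (nat_lit 0) (XT.nd (nat_lit 156) (nat_lit 152) (nat_lit 0) (XT.nd (nat_lit 78) (nat_lit 228) (nat_lit 0) (XT.lf (nat_lit 0) (nat_lit 11020951740) (nat_lit 76) (nat_lit 18966485430) (nat_lit 152) (nat_lit 12022699) (nat_lit 33) (nat_lit 5) (nat_lit 34) (nat_lit 5) (nat_lit 35) (nat_lit 4) (nat_lit 362) (nat_lit 302) (nat_lit 236)) (XT.lf (nat_lit 0) (nat_lit 473363675) (nat_lit 152) (nat_lit 8423376410) (nat_lit 228) (nat_lit 22258990238) (nat_lit 30) (nat_lit 5) (nat_lit 32) (nat_lit 5) (nat_lit 33) (nat_lit 5) (nat_lit 363) (nat_lit 302) (nat_lit 235))) (XT.nd (nat_lit 78) (nat_lit 152) (nat_lit 0) (XT.lf (nat_lit 0) (nat_lit 18433168526) (nat_lit 228) (nat_lit 11169416104) (nat_lit 76) (nat_lit 2761762190) (nat_lit 30) (nat_lit 5)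 (nat_lit 33) (nat_lit 5) (nat_lit 31) (nat_lit 4) (nat_lit 364) (nat_lit 302) (nat_lit 234)) (XT.nd (nat_lit 78) (nat_lit 76) (nat_lit 0) (XT.lf (nat_lit 0) (nat_lit 9347628008) (nat_lit 76) (nat_lit 19235311369) (nat_lit 152) (nat_lit 5046369017) (nat_lit 29) (nat_lit 5) (nat_lit 30) (nat_lit 5) (nat_lit 31) (nat_lit 4) (nat_lit 365) (nat_lit 302) (nat_lit 233)) (XT.lf (nat_lit 0) (nat_lit 4277679967) (nat_lit 152) (nat_lit 3940163470) (nat_lit 76) (nat_lit 26736091624) (nat_lit 28) (nat_lit 5) (nat_lit 30) (nat_lit 5) (nat_lit 29) (nat_lit 5) (nat_lit 366) (nat_lit 302) (nat_lit 232))))) (XT.nd (nat_lit 234) (nat_lit 304) (nat_lit 0) (XT.nd (nat_lit 78) (nat_lit 76) (nat_lit 0) (XT.lf (nat_lit 0) (nat_lit 14132526925) (nat_lit 228) (nat_lit 18726009538) (nat_lit 76) (nat_lit 3479697515) (nat_lit 26) (nat_lit 5) (nat_lit 29) (nat_lit 5) (nat_lit 27) (nat_lit 4) (nat_lit 367) (nat_lit 302)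 (nat_lit 231)) (XT.nd (nat_lit 78) (nat_lit 0) (nat_lit 0) (XT.lf (nat_lit 0) (nat_lit 2434777177) (nat_lit 76) (nat_lit 22157722089) (nat_lit 152) (nat_lit 13195885372) (nat_lit 25) (nat_lit 5) (nat_lit 26) (nat_lit 5) (nat_lit 27) (nat_lit 4) (nat_lit 368) (nat_lit 302) (nat_lit 230)) (XT.lf (nat_lit 0) (nat_lit 24983313485) (nat_lit 76) (nat_lit 10751067208) (nat_lit 152) (nat_lit 3571902719) (nat_lit 25) (nat_lit 5) (nat_lit 26) (nat_lit 5) (nat_lit 27) (nat_lit 4) (nat_lit 369) (nat_lit 302) (nat_lit 229)))) (XT.nd (nat_lit 78) (nat_lit 76) (nat_lit 0) (XT.lf (nat_lit 0) (nat_lit 6460983014) (nat_lit 228) (nat_lit 33120761369) (nat_lit 76) (nat_lit 1314800229) (nat_lit 22) (nat_lit 5) (nat_lit 25) (nat_lit 5) (nat_lit 23) (nat_lit 4) (nat_lit 370) (nat_lit 302) (nat_lit 228)) (XT.nd (nat_lit 78) (nat_lit 76) (nat_lit 0) (XT.lf (nat_lit 0) (nat_lit 17147917555) (nat_lit 228) (nat_lit 11487471745)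 (nat_lit 76) (nat_lit 13923087257) (nat_lit 22) (nat_lit 5) (nat_lit 25) (nat_lit 5) (nat_lit 23) (nat_lit 4) (nat_lit 371) (nat_lit 302) (nat_lit 227)) (XT.lf (nat_lit 0) (nat_lit 11394270252) (nat_lit 76) (nat_lit 17054147697) (nat_lit 152) (nat_lit 15852717195) (nat_lit 21) (nat_lit 5) (nat_lit 22) (nat_lit 5) (nat_lit 23) (nat_lit 4) (nat_lit 372) (nat_lit 302) (nat_lit 226)))))) (XT.nd (nat_lit 468) (nat_lit 304) (nat_lit 0) (XT.nd (nat_lit 234) (nat_lit 152) (nat_lit 0) (XT.nd (nat_lit 78) (nat_lit 152) (nat_lit 0) (XT.lf (nat_lit 0) (nat_lit 35606190846) (nat_lit 76) (nat_lit 4796620923) (nat_lit 152) (nat_lit 5725455146) (nat_lit 21) (nat_lit 5) (nat_lit 22) (nat_lit 5) (nat_lit 23) (nat_lit 4) (nat_lit 373) (nat_lit 302) (nat_lit 225)) (XT.nd (nat_lit 78) (nat_lit 0) (nat_lit 0) (XT.lf (nat_lit 0) (nat_lit 4989527351) (nat_lit 152) (nat_lit 34982301325) (nat_lit 76) (nat_lit 8068203016)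 (nat_lit 19) (nat_lit 5) (nat_lit 21) (nat_lit 5) (nat_lit 20) (nat_lit 4) (nat_lit 374) (nat_lit 302) (nat_lit 224)) (XT.lf (nat_lit 0) (nat_lit 16253120464) (nat_lit 152) (nat_lit 12166080220) (nat_lit 76) (nat_lit 21622550764) (nat_lit 19) (nat_lit 5) (nat_lit 21) (nat_lit 5) (nat_lit 20) (nat_lit 4) (nat_lit 375) (nat_lit 302) (nat_lit 223)))) (XT.nd (nat_lit 78) (nat_lit 76) (nat_lit 0) (XT.lf (nat_lit 0) (nat_lit 11976000898) (nat_lit 76) (nat_lit 16192699247) (nat_lit 152) (nat_lit 23972198129) (nat_lit 18) (nat_lit 5) (nat_lit 19) (nat_lit 5) (nat_lit 20) (nat_lit 4) (nat_lit 376) (nat_lit 302) (nat_lit 222)) (XT.nd (nat_lit 78) (nat_lit 76) (nat_lit 0) (XT.lf (nat_lit 0) (nat_lit 37532169839) (nat_lit 76) (nat_lit 3247613121) (nat_lit 152) (nat_lit 13562232792) (nat_lit 18) (nat_lit 5) (nat_lit 19) (nat_lit 5) (nat_lit 20) (nat_lit 4) (nat_lit 377) (nat_lit 302) (nat_lit 221)) (XT.lf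 (nat_lit 0) (nat_lit 7718599702) (nat_lit 76) (nat_lit 46451957053) (nat_lit 76) (nat_lit 2478163041) (nat_lit 17) (nat_lit 4) (nat_lit 18) (nat_lit 5) (nat_lit 18) (nat_lit 4) (nat_lit 378) (nat_lit 302) (nat_lit 220))))) (XT.nd (nat_lit 234) (nat_lit 152) (nat_lit 0) (XT.nd (nat_lit 78) (nat_lit 76) (nat_lit 0) (XT.lf (nat_lit 0) (nat_lit 9164901052) (nat_lit 152) (nat_lit 25408081640) (nat_lit 76) (nat_lit 24489633079) (nat_lit 16) (nat_lit 5) (nat_lit 18) (nat_lit 5) (nat_lit 17) (nat_lit 4) (nat_lit 379) (nat_lit 302) (nat_lit 219)) (XT.nd (nat_lit 78) (nat_lit 76) (nat_lit 0) (XT.lf (nat_lit 0) (nat_lit 21316488119) (nat_lit 152) (nat_lit 777537765) (nat_lit 76) (nat_lit 39503120137) (nat_lit 16) (nat_lit 5) (nat_lit 18) (nat_lit 5) (nat_lit 17) (nat_lit 4) (nat_lit 380) (nat_lit 302) (nat_lit 218)) (XT.lf (nat_lit 0) (nat_lit 25542401556) (nat_lit 76) (nat_lit 8757016030) (nat_lit 152)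 (nat_lit 29952276330) (nat_lit 15) (nat_lit 5) (nat_lit 16) (nat_lit 5) (nat_lit 17) (nat_lit 4) (nat_lit 381) (nat_lit 302) (nat_lit 217)))) (XT.nd (nat_lit 78) (nat_lit 152) (nat_lit 0) (XT.lf (nat_lit 0) (nat_lit 47968728616) (nat_lit 152) (nat_lit 13934512897) (nat_lit 0) (nat_lit 5134614470) (nat_lit 15) (nat_lit 5) (nat_lit 17) (nat_lit 4) (nat_lit 15) (nat_lit 4) (nat_lit 382) (nat_lit 302) (nat_lit 216)) (XT.nd (nat_lit 78) (nat_lit 76) (nat_lit 0) (XT.lf (nat_lit 0) (nat_lit 12190543324) (nat_lit 76) (nat_lit 50316260944) (nat_lit 76) (nat_lit 7450966562) (nat_lit 14) (nat_lit 4) (nat_lit 15) (nat_lit 5) (nat_lit 15) (nat_lit 4) (nat_lit 383) (nat_lit 302) (nat_lit 215)) (XT.lf (nat_lit 0) (nat_lit 4780455681) (nat_lit 152) (nat_lit 33190664811) (nat_lit 76) (nat_lit 35047444873) (nat_lit 13) (nat_lit 5) (nat_lit 15) (nat_lit 5) (nat_lit 14) (nat_lit 4) (nat_lit 384) (nat_lit 302)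 (nat_lit 214))))))) (XT.nd (nat_lit 40794) (nat_lit 0) (nat_lit 15276) (XT.nd (nat_lit 390) (nat_lit 76) (nat_lit 0) (XT.nd (nat_lit 156) (nat_lit 76) (nat_lit 0) (XT.nd (nat_lit 78) (nat_lit 76) (nat_lit 0) (XT.lf (nat_lit 0) (nat_lit 17451871919) (nat_lit 152) (nat_lit 7495971241) (nat_lit 76) (nat_lit 51282870911) (nat_lit 13) (nat_lit 5) (nat_lit 15) (nat_lit 5) (nat_lit 14) (nat_lit 4) (nat_lit 385) (nat_lit 302) (nat_lit 213)) (XT.lf (nat_lit 0) (nat_lit 19836740550) (nat_lit 76) (nat_lit 11092789720) (nat_lit 152) (nat_lit 48668762865) (nat_lit 12) (nat_lit 5) (nat_lit 13) (nat_lit 5) (nat_lit 14) (nat_lit 4) (nat_lit 386) (nat_lit 302) (nat_lit 212))) (XT.nd (nat_lit 78) (nat_lit 76) (nat_lit 0) (XT.lf (nat_lit 0) (nat_lit 45174594484) (nat_lit 152) (nat_lit 34506393346) (nat_lit 0) (nat_lit 3450460546) (nat_lit 12) (nat_lit 5) (nat_lit 14) (nat_lit 4) (nat_lit 12) (nat_lit 4) (nat_lit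 387) (nat_lit 302) (nat_lit 211)) (XT.nd (nat_lit 78) (nat_lit 76) (nat_lit 0) (XT.lf (nat_lit 0) (nat_lit 60227095839) (nat_lit 152) (nat_lit 8132069860) (nat_lit 0) (nat_lit 18479242939) (nat_lit 12) (nat_lit 5) (nat_lit 14) (nat_lit 4) (nat_lit 12) (nat_lit 4) (nat_lit 388) (nat_lit 302) (nat_lit 210)) (XT.lf (nat_lit 0) (nat_lit 19919546665) (nat_lit 76) (nat_lit 56288175146) (nat_lit 76) (nat_lit 14517732759) (nat_lit 11) (nat_lit 4) (nat_lit 12) (nat_lit 5) (nat_lit 12) (nat_lit 4) (nat_lit 389) (nat_lit 302) (nat_lit 209))))) (XT.nd (nat_lit 40170) (nat_lit 0) (nat_lit 23560) (XT.nd (nat_lit 78) (nat_lit 76) (nat_lit 0) (XT.lf (nat_lit 0) (nat_lit 49514418654) (nat_lit 76) (nat_lit 43541173231) (nat_lit 76) (nat_lit 1749217046) (nat_lit 11) (nat_lit 4) (nat_lit 12) (nat_lit 5) (nat_lit 12) (nat_lit 4) (nat_lit 390) (nat_lit 302) (nat_lit 208)) (XT.nd (nat_lit 40014) (nat_lit 0) (nat_lit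 24016) (XT.lf (nat_lit 0) (nat_lit 11415330152) (nat_lit 152) (nat_lit 18639325305) (nat_lit 76) (nat_lit 69030563349) (nat_lit 10) (nat_lit 5) (nat_lit 12) (nat_lit 5) (nat_lit 11) (nat_lit 4) (nat_lit 391) (nat_lit 302) (nat_lit 207)) (XT.lf (nat_lit 0) (nat_lit 294014730) (nat_lit 0) (nat_lit 294014730) (nat_lit 380) (nat_lit 2686277907) (nat_lit 326) (nat_lit 5) (nat_lit 326) (nat_lit 3) (nat_lit 331) (nat_lit 3) (nat_lit 303) (nat_lit 303) (nat_lit 294)))) (XT.nd (nat_lit 78) (nat_lit 456) (nat_lit 0) (XT.lf (nat_lit 0) (nat_lit 5167053853) (nat_lit 380) (nat_lit 801404472) (nat_lit 456) (nat_lit 619440697) (nat_lit 326) (nat_lit 5) (nat_lit 331) (nat_lit 3) (nat_lit 332) (nat_lit 5) (nat_lit 304) (nat_lit 303) (nat_lit 293)) (XT.nd (nat_lit 78) (nat_lit 0) (nat_lit 0) (XT.lf (nat_lit 0) (nat_lit 2470669218) (nat_lit 456) (nat_lit 2096722417) (nat_lit 532) (nat_lit 2067452245) (nat_lit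 320) (nat_lit 5) (nat_lit 326) (nat_lit 5) (nat_lit 327) (nat_lit 5) (nat_lit 305) (nat_lit 303) (nat_lit 292)) (XT.lf (nat_lit 76) (nat_lit 3392187364) (nat_lit 0) (nat_lit 2932422545) (nat_lit 532) (nat_lit 365517430) (nat_lit 321) (nat_lit 5) (nat_lit 320) (nat_lit 5) (nat_lit 327) (nat_lit 5) (nat_lit 306) (nat_lit 303) (nat_lit 291)))))) (XT.nd (nat_lit 468) (nat_lit 5852) (nat_lit 0) (XT.nd (nat_lit 234) (nat_lit 1368) (nat_lit 0) (XT.nd (nat_lit 78) (nat_lit 532) (nat_lit 0) (XT.lf (nat_lit 76) (nat_lit 2323994468) (nat_lit 0) (nat_lit 1036256026) (nat_lit 608) (nat_lit 3392948914) (nat_lit 314) (nat_lit 5) (nat_lit 313) (nat_lit 5) (nat_lit 321) (nat_lit 5) (nat_lit 307) (nat_lit 303) (nat_lit 290)) (XT.nd (nat_lit 78) (nat_lit 0) (nat_lit 0) (XT.lf (nat_lit 0) (nat_lit 265862649) (nat_lit 608) (nat_lit 5478784211) (nat_lit 684) (nat_lit 1079950023) (nat_lit 306) (nat_lit 5) (nat_lit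 314) (nat_lit 5) (nat_lit 315) (nat_lit 5) (nat_lit 308) (nat_lit 303) (nat_lit 289)) (XT.lf (nat_lit 76) (nat_lit 424375204) (nat_lit 0) (nat_lit 3455887383) (nat_lit 684) (nat_lit 3023278342) (nat_lit 307) (nat_lit 5) (nat_lit 306) (nat_lit 5) (nat_lit 315) (nat_lit 5) (nat_lit 309) (nat_lit 303) (nat_lit 288)))) (XT.nd (nat_lit 78) (nat_lit 684) (nat_lit 0) (XT.lf (nat_lit 0) (nat_lit 520790749) (nat_lit 684) (nat_lit 397800998) (nat_lit 760) (nat_lit 6072532030) (nat_lit 297) (nat_lit 5) (nat_lit 306) (nat_lit 5) (nat_lit 307) (nat_lit 5) (nat_lit 310) (nat_lit 303) (nat_lit 287)) (XT.nd (nat_lit 78) (nat_lit 760) (nat_lit 0) (XT.lf (nat_lit 0) (nat_lit 4053866896) (nat_lit 684) (nat_lit 1168304193) (nat_lit 76) (nat_lit 1864023744) (nat_lit 298) (nat_lit 5) (nat_lit 307) (nat_lit 5) (nat_lit 299) (nat_lit 5) (nat_lit 311) (nat_lit 303) (nat_lit 286)) (XT.lf (nat_lit 0) (nat_lit 436755122)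 (nat_lit 760) (nat_lit 1866893649) (nat_lit 76) (nat_lit 4886309757) (nat_lit 288) (nat_lit 5) (nat_lit 298) (nat_lit 5) (nat_lit 289) (nat_lit 5) (nat_lit 312) (nat_lit 303) (nat_lit 285))))) (XT.nd (nat_lit 234) (nat_lit 3268) (nat_lit 0) (XT.nd (nat_lit 78) (nat_lit 1824) (nat_lit 0) (XT.lf (nat_lit 0) (nat_lit 3897149692) (nat_lit 836) (nat_lit 2522025815) (nat_lit 76) (nat_lit 882625763) (nat_lit 278) (nat_lit 5) (nat_lit 289) (nat_lit 5) (nat_lit 279) (nat_lit 5) (nat_lit 313) (nat_lit 303) (nat_lit 284)) (XT.nd (nat_lit 78) (nat_lit 912) (nat_lit 0) (XT.lf (nat_lit 0) (nat_lit 13185808) (nat_lit 912) (nat_lit 3123756340) (nat_lit 76) (nat_lit 4285333925) (nat_lit 266) (nat_lit 5) (nat_lit 278) (nat_lit 5) (nat_lit 267) (nat_lit 5) (nat_lit 314) (nat_lit 303) (nat_lit 283)) (XT.lf (nat_lit 0) (nat_lit 3426285658) (nat_lit 988) (nat_lit 3690405987) (nat_lit 76) (nat_lit 434411924) (nat_lit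 254) (nat_lit 5) (nat_lit 267) (nat_lit 5) (nat_lit 255) (nat_lit 5) (nat_lit 315) (nat_lit 303) (nat_lit 282)))) (XT.nd (nat_lit 78) (nat_lit 2280) (nat_lit 0) (XT.lf (nat_lit 0) (nat_lit 3467987582) (nat_lit 988) (nat_lit 3473262821) (nat_lit 1064) (nat_lit 747360743) (nat_lit 241) (nat_lit 5) (nat_lit 254) (nat_lit 5) (nat_lit 255) (nat_lit 5) (nat_lit 316) (nat_lit 303) (nat_lit 281)) (XT.nd (nat_lit 78) (nat_lit 1140) (nat_lit 0) (XT.lf (nat_lit 0) (nat_lit 2655835530) (nat_lit 1140) (nat_lit 4717714216) (nat_lit 76) (nat_lit 461454485) (nat_lit 226) (nat_lit 5) (nat_lit 241) (nat_lit 5) (nat_lit 227) (nat_lit 5) (nat_lit 317) (nat_lit 303) (nat_lit 280)) (XT.lf (nat_lit 0) (nat_lit 2792157214) (nat_lit 1140) (nat_lit 3372619222) (nat_lit 1216) (nat_lit 1825341413) (nat_lit 211) (nat_lit 5) (nat_lit 226) (nat_lit 5) (nat_lit 227) (nat_lit 5) (nat_lit 318) (nat_lit 303) (nat_lit 279))))))))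
noncomputable def xc55 : XT := (XT.nd (nat_lit 1794) (nat_lit 3724) (nat_lit 0) (XT.nd (nat_lit 858) (nat_lit 4256) (nat_lit 0) (XT.nd (nat_lit 390) (nat_lit 2584) (nat_lit 0) (XT.nd (nat_lit 156) (nat_lit 1672) (nat_lit 0) (XT.nd (nat_lit 78) (nat_lit 608) (nat_lit 0) (XT.lf (nat_lit 0) (nat_lit 1594797289) (nat_lit 912) (nat_lit 5648255964) (nat_lit 76) (nat_lit 911635694) (nat_lit 199) (nat_lit 5) (nat_lit 211) (nat_lit 5) (nat_lit 200) (nat_lit 5) (nat_lit 319) (nat_lit 303) (nat_lit 278)) (XT.lf (nat_lit 0) (nat_lit 2227518355) (nat_lit 608) (nat_lit 2885985859) (nat_lit 684) (nat_lit 3214618554) (nat_lit 191) (nat_lit 5) (nat_lit 199) (nat_lit 5) (nat_lit 200) (nat_lit 5) (nat_lit 320) (nat_lit 303) (nat_lit 277))) (XT.nd (nat_lit 78) (nat_lit 1064) (nat_lit 0) (XT.lf (nat_lit 0) (nat_lit 246625816) (nat_lit 608) (nat_lit 6527525791) (nat_lit 76) (nat_lit 1737480611) (nat_lit 183) (nat_lit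 5) (nat_lit 191) (nat_lit 5) (nat_lit 184) (nat_lit 5) (nat_lit 321) (nat_lit 303) (nat_lit 276)) (XT.nd (nat_lit 78) (nat_lit 532) (nat_lit 0) (XT.lf (nat_lit 0) (nat_lit 1728919300) (nat_lit 532) (nat_lit 2060207059) (nat_lit 608) (nat_lit 4915115139) (nat_lit 176) (nat_lit 5) (nat_lit 183) (nat_lit 5) (nat_lit 184) (nat_lit 5) (nat_lit 322) (nat_lit 303) (nat_lit 275)) (XT.lf (nat_lit 0) (nat_lit 1490123592) (nat_lit 532) (nat_lit 5998531913) (nat_lit 608) (nat_lit 1418542447) (nat_lit 169) (nat_lit 5) (nat_lit 176) (nat_lit 5) (nat_lit 177) (nat_lit 5) (nat_lit 323) (nat_lit 303) (nat_lit 274))))) (XT.nd (nat_lit 234) (nat_lit 988) (nat_lit 0) (XT.nd (nat_lit 78) (nat_lit 988) (nat_lit 0) (XT.lf (nat_lit 0) (nat_lit 1248424663) (nat_lit 532) (nat_lit 939261818) (nat_lit 608) (nat_lit 6932707645) (nat_lit 161) (nat_lit 5) (nat_lit 168) (nat_lit 5) (nat_lit 169) (nat_lit 5) (nat_lit 324)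 (nat_lit 303) (nat_lit 273)) (XT.nd (nat_lit 78) (nat_lit 532) (nat_lit 0) (XT.lf (nat_lit 0) (nat_lit 983448684) (nat_lit 456) (nat_lit 4968384685) (nat_lit 532) (nat_lit 3391887293) (nat_lit 155) (nat_lit 5) (nat_lit 161) (nat_lit 5) (nat_lit 162) (nat_lit 5) (nat_lit 325) (nat_lit 303) (nat_lit 272)) (XT.lf (nat_lit 0) (nat_lit 303490565) (nat_lit 532) (nat_lit 8849077851) (nat_lit 76) (nat_lit 426127459) (nat_lit 148) (nat_lit 5) (nat_lit 155) (nat_lit 5) (nat_lit 149) (nat_lit 5) (nat_lit 326) (nat_lit 303) (nat_lit 271)))) (XT.nd (nat_lit 78) (nat_lit 532) (nat_lit 0) (XT.lf (nat_lit 0) (nat_lit 411936038) (nat_lit 456) (nat_lit 3728736974) (nat_lit 532) (nat_lit 5683012057) (nat_lit 142) (nat_lit 5) (nat_lit 148) (nat_lit 5) (nat_lit 149) (nat_lit 5) (nat_lit 327) (nat_lit 303) (nat_lit 270)) (XT.nd (nat_lit 78) (nat_lit 76) (nat_lit 0) (XT.lf (nat_lit 0) (nat_lit 88661309) (nat_lit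 456) (nat_lit 8082273191) (nat_lit 532) (nat_lit 1910036684) (nat_lit 136) (nat_lit 5) (nat_lit 142) (nat_lit 5) (nat_lit 143) (nat_lit 5) (nat_lit 328) (nat_lit 303) (nat_lit 269)) (XT.lf (nat_lit 0) (nat_lit 2039364882) (nat_lit 532) (nat_lit 280077826) (nat_lit 76) (nat_lit 8030330650) (nat_lit 135) (nat_lit 5) (nat_lit 142) (nat_lit 5) (nat_lit 136) (nat_lit 5) (nat_lit 329) (nat_lit 303) (nat_lit 268)))))) (XT.nd (nat_lit 468) (nat_lit 1900) (nat_lit 0) (XT.nd (nat_lit 234) (nat_lit 1140) (nat_lit 0) (XT.nd (nat_lit 78) (nat_lit 836) (nat_lit 0) (XT.lf (nat_lit 0) (nat_lit 6177114584) (nat_lit 456) (nat_lit 703459487) (nat_lit 76) (nat_lit 3750036841) (nat_lit 130) (nat_lit 5) (nat_lit 136) (nat_lit 5) (nat_lit 131) (nat_lit 5) (nat_lit 330) (nat_lit 303) (nat_lit 267)) (XT.nd (nat_lit 78) (nat_lit 456) (nat_lit 0) (XT.lf (nat_lit 0) (nat_lit 9765260844) (nat_lit 380) (nat_lit 777585738)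 (nat_lit 456) (nat_lit 382081416) (nat_lit 125) (nat_lit 5) (nat_lit 130) (nat_lit 5) (nat_lit 131) (nat_lit 5) (nat_lit 331) (nat_lit 303) (nat_lit 266)) (XT.lf (nat_lit 0) (nat_lit 3874793122) (nat_lit 456) (nat_lit 1725944434) (nat_lit 76) (nat_lit 5630430337) (nat_lit 119) (nat_lit 5) (nat_lit 125) (nat_lit 5) (nat_lit 120) (nat_lit 5) (nat_lit 332) (nat_lit 303) (nat_lit 265)))) (XT.nd (nat_lit 78) (nat_lit 760) (nat_lit 0) (XT.lf (nat_lit 0) (nat_lit 8360116666) (nat_lit 456) (nat_lit 2341625452) (nat_lit 76) (nat_lit 850221038) (nat_lit 114) (nat_lit 5) (nat_lit 120) (nat_lit 5) (nat_lit 115) (nat_lit 5) (nat_lit 333) (nat_lit 303) (nat_lit 264)) (XT.nd (nat_lit 78) (nat_lit 380) (nat_lit 0) (XT.lf (nat_lit 0) (nat_lit 1227444627) (nat_lit 380) (nat_lit 3065197918) (nat_lit 76) (nat_lit 7593785086) (nat_lit 109) (nat_lit 5) (nat_lit 114) (nat_lit 5) (nat_lit 110) (nat_lit 5) (nat_lit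 334) (nat_lit 303) (nat_lit 263)) (XT.lf (nat_lit 0) (nat_lit 5843304814) (nat_lit 456) (nat_lit 3897210491) (nat_lit 76) (nat_lit 2494958120) (nat_lit 104) (nat_lit 5) (nat_lit 110) (nat_lit 5) (nat_lit 105) (nat_lit 5) (nat_lit 335) (nat_lit 303) (nat_lit 262))))) (XT.nd (nat_lit 234) (nat_lit 912) (nat_lit 0) (XT.nd (nat_lit 78) (nat_lit 684) (nat_lit 0) (XT.lf (nat_lit 0) (nat_lit 7762396018) (nat_lit 304) (nat_lit 2991924101) (nat_lit 380) (nat_lit 1845772592) (nat_lit 100) (nat_lit 5) (nat_lit 104) (nat_lit 5) (nat_lit 105) (nat_lit 5) (nat_lit 336) (nat_lit 303) (nat_lit 261)) (XT.nd (nat_lit 78) (nat_lit 304) (nat_lit 0) (XT.lf (nat_lit 0) (nat_lit 2936538543) (nat_lit 380) (nat_lit 5925767543) (nat_lit 76) (nat_lit 4117868764) (nat_lit 95) (nat_lit 5) (nat_lit 100) (nat_lit 5) (nat_lit 96) (nat_lit 5) (nat_lit 337) (nat_lit 303) (nat_lit 260)) (XT.lf (nat_lit 0) (nat_lit 6219132608)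 (nat_lit 304) (nat_lit 1760448144) (nat_lit 380) (nat_lit 5397384277) (nat_lit 91) (nat_lit 5) (nat_lit 95) (nat_lit 5) (nat_lit 96) (nat_lit 5) (nat_lit 338) (nat_lit 303) (nat_lit 259)))) (XT.nd (nat_lit 78) (nat_lit 608) (nat_lit 0) (XT.lf (nat_lit 0) (nat_lit 5234093535) (nat_lit 304) (nat_lit 8128927223) (nat_lit 380) (nat_lit 427970256) (nat_lit 87) (nat_lit 5) (nat_lit 91) (nat_lit 5) (nat_lit 92) (nat_lit 5) (nat_lit 339) (nat_lit 303) (nat_lit 258)) (XT.nd (nat_lit 78) (nat_lit 304) (nat_lit 0) (XT.lf (nat_lit 0) (nat_lit 4072347167) (nat_lit 228) (nat_lit 678856429) (nat_lit 304) (nat_lit 9471531043) (nat_lit 83) (nat_lit 5) (nat_lit 86) (nat_lit 5) (nat_lit 87) (nat_lit 5) (nat_lit 340) (nat_lit 303) (nat_lit 257)) (XT.lf (nat_lit 0) (nat_lit 2704467438) (nat_lit 304) (nat_lit 7585378188) (nat_lit 380) (nat_lit 4382850337) (nat_lit 79) (nat_lit 5) (nat_lit 83) (nat_lit 5) (nat_lit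 84) (nat_lit 5) (nat_lit 341) (nat_lit 303) (nat_lit 256))))))) (XT.nd (nat_lit 858) (nat_lit 1596) (nat_lit 0) (XT.nd (nat_lit 390) (nat_lit 1064) (nat_lit 0) (XT.nd (nat_lit 156) (nat_lit 760) (nat_lit 0) (XT.nd (nat_lit 78) (nat_lit 0) (nat_lit 0) (XT.lf (nat_lit 0) (nat_lit 994183304) (nat_lit 304) (nat_lit 13978386798) (nat_lit 76) (nat_lit 170764175) (nat_lit 75) (nat_lit 5) (nat_lit 79) (nat_lit 5) (nat_lit 76) (nat_lit 5) (nat_lit 342) (nat_lit 303) (nat_lit 255)) (XT.lf (nat_lit 0) (nat_lit 6680699757) (nat_lit 304) (nat_lit 660668994) (nat_lit 76) (nat_lit 8290929525) (nat_lit 75) (nat_lit 5) (nat_lit 79) (nat_lit 5) (nat_lit 76) (nat_lit 5) (nat_lit 343) (nat_lit 303) (nat_lit 254))) (XT.nd (nat_lit 78) (nat_lit 532) (nat_lit 0) (XT.lf (nat_lit 0) (nat_lit 12721321714) (nat_lit 304) (nat_lit 2669742056) (nat_lit 76) (nat_lit 752585566) (nat_lit 72) (nat_lit 5) (nat_lit 76) (nat_lit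 5) (nat_lit 73) (nat_lit 5) (nat_lit 344) (nat_lit 303) (nat_lit 253)) (XT.nd (nat_lit 78) (nat_lit 228) (nat_lit 0) (XT.lf (nat_lit 0) (nat_lit 2466248639) (nat_lit 304) (nat_lit 5001276359) (nat_lit 76) (nat_lit 9208504928) (nat_lit 68) (nat_lit 5) (nat_lit 72) (nat_lit 5) (nat_lit 69) (nat_lit 5) (nat_lit 345) (nat_lit 303) (nat_lit 252)) (XT.lf (nat_lit 0) (nat_lit 8644793744) (nat_lit 304) (nat_lit 7632413962) (nat_lit 76) (nat_lit 954844138) (nat_lit 65) (nat_lit 5) (nat_lit 69) (nat_lit 5) (nat_lit 66) (nat_lit 5) (nat_lit 346) (nat_lit 303) (nat_lit 251))))) (XT.nd (nat_lit 234) (nat_lit 456) (nat_lit 0) (XT.nd (nat_lit 78) (nat_lit 456) (nat_lit 0) (XT.lf (nat_lit 0) (nat_lit 7185011535) (nat_lit 152) (nat_lit 8081598865) (nat_lit 228) (nat_lit 2545261175) (nat_lit 63) (nat_lit 5) (nat_lit 65) (nat_lit 5) (nat_lit 66) (nat_lit 5) (nat_lit 347) (nat_lit 303) (nat_lit 250)) (XT.nd (nat_lit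 78) (nat_lit 152) (nat_lit 0) (XT.lf (nat_lit 0) (nat_lit 3792243882) (nat_lit 304) (nat_lit 13988738224) (nat_lit 76) (nat_lit 636603576) (nat_lit 59) (nat_lit 5) (nat_lit 63) (nat_lit 5) (nat_lit 60) (nat_lit 5) (nat_lit 348) (nat_lit 303) (nat_lit 249)) (XT.lf (nat_lit 0) (nat_lit 1227656277) (nat_lit 152) (nat_lit 9311595305) (nat_lit 228) (nat_lit 8509243695) (nat_lit 57) (nat_lit 5) (nat_lit 59) (nat_lit 5) (nat_lit 60) (nat_lit 5) (nat_lit 349) (nat_lit 303) (nat_lit 248)))) (XT.nd (nat_lit 78) (nat_lit 456) (nat_lit 0) (XT.lf (nat_lit 0) (nat_lit 17402912394) (nat_lit 152) (nat_lit 307535733) (nat_lit 228) (nat_lit 1997919756) (nat_lit 57) (nat_lit 5) (nat_lit 59) (nat_lit 5) (nat_lit 60) (nat_lit 5) (nat_lit 350) (nat_lit 303) (nat_lit 247)) (XT.nd (nat_lit 78) (nat_lit 152) (nat_lit 0) (XT.lf (nat_lit 0) (nat_lit 4914694192) (nat_lit 304) (nat_lit 6362937957) (nat_lit 76) (nat_lit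 9117123003) (nat_lit 53) (nat_lit 5) (nat_lit 57) (nat_lit 5) (nat_lit 54) (nat_lit 5) (nat_lit 351) (nat_lit 303) (nat_lit 246)) (XT.lf (nat_lit 0) (nat_lit 10205439790) (nat_lit 152) (nat_lit 1998167458) (nat_lit 228) (nat_lit 8909121419) (nat_lit 51) (nat_lit 5) (nat_lit 53) (nat_lit 5) (nat_lit 54) (nat_lit 5) (nat_lit 352) (nat_lit 303) (nat_lit 245)))))) (XT.nd (nat_lit 468) (nat_lit 684) (nat_lit 0) (XT.nd (nat_lit 234) (nat_lit 532) (nat_lit 0) (XT.nd (nat_lit 78) (nat_lit 228) (nat_lit 0) (XT.lf (nat_lit 0) (nat_lit 5820800902) (nat_lit 152) (nat_lit 14180528029) (nat_lit 228) (nat_lit 1860960062) (nat_lit 49) (nat_lit 5) (nat_lit 51) (nat_lit 5) (nat_lit 52) (nat_lit 5) (nat_lit 353) (nat_lit 303) (nat_lit 244)) (XT.nd (nat_lit 78) (nat_lit 0) (nat_lit 0) (XT.lf (nat_lit 0) (nat_lit 822023109) (nat_lit 152) (nat_lit 4699902401) (nat_lit 228) (nat_lit 17123109496) (nat_lit 46) (nat_lit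 5) (nat_lit 48) (nat_lit 5) (nat_lit 49) (nat_lit 5) (nat_lit 354) (nat_lit 303) (nat_lit 243)) (XT.lf (nat_lit 0) (nat_lit 13403342935) (nat_lit 228) (nat_lit 4754396692) (nat_lit 76) (nat_lit 5303606434) (nat_lit 46) (nat_lit 5) (nat_lit 49) (nat_lit 5) (nat_lit 47) (nat_lit 5) (nat_lit 355) (nat_lit 303) (nat_lit 242)))) (XT.nd (nat_lit 78) (nat_lit 380) (nat_lit 0) (XT.lf (nat_lit 0) (nat_lit 13298346723) (nat_lit 152) (nat_lit 8508360696) (nat_lit 228) (nat_lit 2507944921) (nat_lit 44) (nat_lit 5) (nat_lit 46) (nat_lit 5) (nat_lit 47) (nat_lit 5) (nat_lit 356) (nat_lit 303) (nat_lit 241)) (XT.nd (nat_lit 78) (nat_lit 152) (nat_lit 0) (XT.lf (nat_lit 0) (nat_lit 5402629400) (nat_lit 228) (nat_lit 18072976224) (nat_lit 76) (nat_lit 1730807077) (nat_lit 41) (nat_lit 5) (nat_lit 44) (nat_lit 5) (nat_lit 42) (nat_lit 5) (nat_lit 357) (nat_lit 303) (nat_lit 240)) (XT.lf (nat_lit 0) (nat_lit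 92279738) (nat_lit 152) (nat_lit 13721137688) (nat_lit 228) (nat_lit 12323916178) (nat_lit 39) (nat_lit 5) (nat_lit 41) (nat_lit 5) (nat_lit 42) (nat_lit 5) (nat_lit 358) (nat_lit 303) (nat_lit 239))))) (XT.nd (nat_lit 234) (nat_lit 304) (nat_lit 0) (XT.nd (nat_lit 78) (nat_lit 380) (nat_lit 0) (XT.lf (nat_lit 0) (nat_lit 19467004121) (nat_lit 152) (nat_lit 3319985352) (nat_lit 228) (nat_lit 4323557121) (nat_lit 39) (nat_lit 5) (nat_lit 41) (nat_lit 5) (nat_lit 42) (nat_lit 5) (nat_lit 359) (nat_lit 303) (nat_lit 238)) (XT.nd (nat_lit 78) (nat_lit 152) (nat_lit 0) (XT.lf (nat_lit 0) (nat_lit 4142785172) (nat_lit 228) (nat_lit 16408045608) (nat_lit 76) (nat_lit 7576060600) (nat_lit 36) (nat_lit 5) (nat_lit 39) (nat_lit 5) (nat_lit 37) (nat_lit 5) (nat_lit 360) (nat_lit 303) (nat_lit 237)) (XT.lf (nat_lit 0) (nat_lit 2924013735) (nat_lit 152) (nat_lit 10119806424) (nat_lit 228) (nat_lit 16145937004)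 (nat_lit 34) (nat_lit 5) (nat_lit 36) (nat_lit 5) (nat_lit 37) (nat_lit 5) (nat_lit 361) (nat_lit 303) (nat_lit 236)))) (XT.nd (nat_lit 78) (nat_lit 304) (nat_lit 0) (XT.lf (nat_lit 0) (nat_lit 22528360359) (nat_lit 228) (nat_lit 6816159662) (nat_lit 76) (nat_lit 957103833) (nat_lit 34) (nat_lit 5) (nat_lit 37) (nat_lit 5) (nat_lit 35) (nat_lit 4) (nat_lit 362) (nat_lit 303) (nat_lit 235)) (XT.nd (nat_lit 78) (nat_lit 152) (nat_lit 0) (XT.lf (nat_lit 0) (nat_lit 1195750630) (nat_lit 152) (nat_lit 17771729474) (nat_lit 76) (nat_lit 12495393392) (nat_lit 32) (nat_lit 5) (nat_lit 34) (nat_lit 5) (nat_lit 33) (nat_lit 5) (nat_lit 363) (nat_lit 303) (nat_lit 234)) (XT.lf (nat_lit 0) (nat_lit 2590825227) (nat_lit 152) (nat_lit 7921476902) (nat_lit 228) (nat_lit 22165788993) (nat_lit 30) (nat_lit 5) (nat_lit 32) (nat_lit 5) (nat_lit 33) (nat_lit 5) (nat_lit 364) (nat_lit 303) (nat_lit 233))))))))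
noncomputable def xc56 : XT := (XT.nd (nat_lit 1716) (nat_lit 152) (nat_lit 0) (XT.nd (nat_lit 858) (nat_lit 456) (nat_lit 0) (XT.nd (nat_lit 390) (nat_lit 456) (nat_lit 0) (XT.nd (nat_lit 156) (nat_lit 304) (nat_lit 0) (XT.nd (nat_lit 78) (nat_lit 76) (nat_lit 0) (XT.lf (nat_lit 0) (nat_lit 20478253750) (nat_lit 228) (nat_lit 9708509778) (nat_lit 76) (nat_lit 3761808338) (nat_lit 30) (nat_lit 5) (nat_lit 33) (nat_lit 5) (nat_lit 31) (nat_lit 4) (nat_lit 365) (nat_lit 303) (nat_lit 232)) (XT.lf (nat_lit 0) (nat_lit 11776501499) (nat_lit 76) (nat_lit 19324370192) (nat_lit 152) (nat_lit 4176962857) (nat_lit 29) (nat_lit 5) (nat_lit 30) (nat_lit 5) (nat_lit 31) (nat_lit 4) (nat_lit 366) (nat_lit 303) (nat_lit 231))) (XT.nd (nat_lit 78) (nat_lit 228) (nat_lit 0) (XT.lf (nat_lit 0) (nat_lit 5539026559) (nat_lit 152) (nat_lit 2247982450) (nat_lit 76) (nat_lit 28882943999) (nat_lit 28) (nat_lit 5)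 (nat_lit 30) (nat_lit 5) (nat_lit 29) (nat_lit 5) (nat_lit 367) (nat_lit 303) (nat_lit 230)) (XT.nd (nat_lit 78) (nat_lit 76) (nat_lit 0) (XT.lf (nat_lit 0) (nat_lit 15862256727) (nat_lit 228) (nat_lit 17804455118) (nat_lit 76) (nat_lit 4457497938) (nat_lit 26) (nat_lit 5) (nat_lit 29) (nat_lit 5) (nat_lit 27) (nat_lit 4) (nat_lit 368) (nat_lit 303) (nat_lit 229)) (XT.lf (nat_lit 0) (nat_lit 4361115894) (nat_lit 76) (nat_lit 22452739497) (nat_lit 152) (nat_lit 12833965317) (nat_lit 25) (nat_lit 5) (nat_lit 26) (nat_lit 5) (nat_lit 27) (nat_lit 4) (nat_lit 369) (nat_lit 303) (nat_lit 228))))) (XT.nd (nat_lit 234) (nat_lit 228) (nat_lit 0) (XT.nd (nat_lit 78) (nat_lit 228) (nat_lit 0) (XT.lf (nat_lit 0) (nat_lit 27951145691) (nat_lit 76) (nat_lit 10514459904) (nat_lit 152) (nat_lit 2777436594) (nat_lit 25) (nat_lit 5) (nat_lit 26) (nat_lit 5) (nat_lit 27) (nat_lit 4) (nat_lit 370) (nat_lit 303)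 (nat_lit 227)) (XT.nd (nat_lit 78) (nat_lit 0) (nat_lit 0) (XT.lf (nat_lit 0) (nat_lit 7716236226) (nat_lit 228) (nat_lit 33068133359) (nat_lit 76) (nat_lit 2128832515) (nat_lit 22) (nat_lit 5) (nat_lit 25) (nat_lit 5) (nat_lit 23) (nat_lit 4) (nat_lit 371) (nat_lit 303) (nat_lit 226)) (XT.lf (nat_lit 0) (nat_lit 18893126824) (nat_lit 228) (nat_lit 10434544305) (nat_lit 76) (nat_lit 15331900928) (nat_lit 22) (nat_lit 5) (nat_lit 25) (nat_lit 5) (nat_lit 23) (nat_lit 4) (nat_lit 372) (nat_lit 303) (nat_lit 225)))) (XT.nd (nat_lit 78) (nat_lit 152) (nat_lit 0) (XT.lf (nat_lit 0) (nat_lit 13544638535) (nat_lit 76) (nat_lit 17186931096) (nat_lit 152) (nat_lit 15758615657) (nat_lit 21) (nat_lit 5) (nat_lit 22) (nat_lit 5) (nat_lit 23) (nat_lit 4) (nat_lit 373) (nat_lit 303) (nat_lit 224)) (XT.nd (nat_lit 78) (nat_lit 152) (nat_lit 0) (XT.lf (nat_lit 0) (nat_lit 38891885884) (nat_lit 76) (nat_lit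 4350810078) (nat_lit 152) (nat_lit 5167216096) (nat_lit 21) (nat_lit 5) (nat_lit 22) (nat_lit 5) (nat_lit 23) (nat_lit 4) (nat_lit 374) (nat_lit 303) (nat_lit 223)) (XT.lf (nat_lit 0) (nat_lit 6048311515) (nat_lit 152) (nat_lit 35235256673) (nat_lit 76) (nat_lit 9134023214) (nat_lit 19) (nat_lit 5) (nat_lit 21) (nat_lit 5) (nat_lit 20) (nat_lit 4) (nat_lit 375) (nat_lit 303) (nat_lit 222)))))) (XT.nd (nat_lit 390) (nat_lit 228) (nat_lit 0) (XT.nd (nat_lit 156) (nat_lit 152) (nat_lit 0) (XT.nd (nat_lit 78) (nat_lit 76) (nat_lit 0) (XT.lf (nat_lit 0) (nat_lit 17836545817) (nat_lit 152) (nat_lit 11349470214) (nat_lit 76) (nat_lit 23334545014) (nat_lit 19) (nat_lit 5) (nat_lit 21) (nat_lit 5) (nat_lit 20) (nat_lit 4) (nat_lit 376) (nat_lit 303) (nat_lit 221)) (XT.lf (nat_lit 0) (nat_lit 13958870086) (nat_lit 76) (nat_lit 16365635614) (nat_lit 152) (nat_lit 24400868852) (nat_lit 18) (nat_lit 5)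 (nat_lit 19) (nat_lit 5) (nat_lit 20) (nat_lit 4) (nat_lit 377) (nat_lit 303) (nat_lit 220))) (XT.nd (nat_lit 78) (nat_lit 152) (nat_lit 0) (XT.lf (nat_lit 0) (nat_lit 40726939419) (nat_lit 76) (nat_lit 2803614162) (nat_lit 152) (nat_lit 13507069019) (nat_lit 18) (nat_lit 5) (nat_lit 19) (nat_lit 5) (nat_lit 20) (nat_lit 4) (nat_lit 378) (nat_lit 303) (nat_lit 219)) (XT.nd (nat_lit 78) (nat_lit 76) (nat_lit 0) (XT.lf (nat_lit 0) (nat_lit 9400121965) (nat_lit 76) (nat_lit 48174855097) (nat_lit 76) (nat_lit 1885168145) (nat_lit 17) (nat_lit 4) (nat_lit 18) (nat_lit 5) (nat_lit 18) (nat_lit 4) (nat_lit 379) (nat_lit 303) (nat_lit 218)) (XT.lf (nat_lit 0) (nat_lit 10292587712) (nat_lit 152) (nat_lit 25431141393) (nat_lit 76) (nat_lit 26271810486) (nat_lit 16) (nat_lit 5) (nat_lit 18) (nat_lit 5) (nat_lit 17) (nat_lit 4) (nat_lit 380) (nat_lit 303) (nat_lit 217))))) (XT.nd (nat_lit 234) (nat_lit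 152) (nat_lit 0) (XT.nd (nat_lit 78) (nat_lit 0) (nat_lit 0) (XT.lf (nat_lit 0) (nat_lit 378926548) (nat_lit 76) (nat_lit 22644591886) (nat_lit 152) (nat_lit 41634130881) (nat_lit 15) (nat_lit 5) (nat_lit 16) (nat_lit 5) (nat_lit 17) (nat_lit 4) (nat_lit 381) (nat_lit 303) (nat_lit 216)) (XT.nd (nat_lit 78) (nat_lit 0) (nat_lit 0) (XT.lf (nat_lit 0) (nat_lit 27973416352) (nat_lit 76) (nat_lit 8659267326) (nat_lit 152) (nat_lit 30812933857) (nat_lit 15) (nat_lit 5) (nat_lit 16) (nat_lit 5) (nat_lit 17) (nat_lit 4) (nat_lit 382) (nat_lit 303) (nat_lit 215)) (XT.lf (nat_lit 0) (nat_lit 50960920974) (nat_lit 152) (nat_lit 13519422081) (nat_lit 0) (nat_lit 5891486174) (nat_lit 15) (nat_lit 5) (nat_lit 17) (nat_lit 4) (nat_lit 15) (nat_lit 4) (nat_lit 383) (nat_lit 303) (nat_lit 214)))) (XT.nd (nat_lit 78) (nat_lit 76) (nat_lit 0) (XT.lf (nat_lit 0) (nat_lit 13880016956) (nat_lit 76) (nat_lit 52327990468)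 (nat_lit 76) (nat_lit 7230274274) (nat_lit 14) (nat_lit 4) (nat_lit 15) (nat_lit 5) (nat_lit 15) (nat_lit 4) (nat_lit 384) (nat_lit 303) (nat_lit 213)) (XT.nd (nat_lit 78) (nat_lit 0) (nat_lit 0) (XT.lf (nat_lit 0) (nat_lit 5573444517) (nat_lit 152) (nat_lit 33810558482) (nat_lit 76) (nat_lit 37268777537) (nat_lit 13) (nat_lit 5) (nat_lit 15) (nat_lit 5) (nat_lit 14) (nat_lit 4) (nat_lit 385) (nat_lit 303) (nat_lit 212)) (XT.lf (nat_lit 0) (nat_lit 18852052232) (nat_lit 152) (nat_lit 6880636879) (nat_lit 76) (nat_lit 54293643428) (nat_lit 13) (nat_lit 5) (nat_lit 15) (nat_lit 5) (nat_lit 14) (nat_lit 4) (nat_lit 386) (nat_lit 303) (nat_lit 211))))))) (XT.nd (nat_lit 40872) (nat_lit 0) (nat_lit 13604) (XT.nd (nat_lit 40404) (nat_lit 0) (nat_lit 22344) (XT.nd (nat_lit 156) (nat_lit 76) (nat_lit 0) (XT.nd (nat_lit 78) (nat_lit 0) (nat_lit 0) (XT.lf (nat_lit 0) (nat_lit 21790328539) (nat_lit 76)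 (nat_lit 11197386722) (nat_lit 152) (nat_lit 50575055910) (nat_lit 12) (nat_lit 5) (nat_lit 13) (nat_lit 5) (nat_lit 14) (nat_lit 4) (nat_lit 387) (nat_lit 303) (nat_lit 210)) (XT.lf (nat_lit 0) (nat_lit 47924785696) (nat_lit 152) (nat_lit 35305178253) (nat_lit 0) (nat_lit 4043231701) (nat_lit 12) (nat_lit 5) (nat_lit 14) (nat_lit 4) (nat_lit 12) (nat_lit 4) (nat_lit 388) (nat_lit 303) (nat_lit 209))) (XT.nd (nat_lit 78) (nat_lit 76) (nat_lit 0) (XT.lf (nat_lit 0) (nat_lit 63706509191) (nat_lit 152) (nat_lit 7656259295) (nat_lit 0) (nat_lit 19803441398) (nat_lit 12) (nat_lit 5) (nat_lit 14) (nat_lit 4) (nat_lit 12) (nat_lit 4) (nat_lit 389) (nat_lit 303) (nat_lit 208)) (XT.nd (nat_lit 78) (nat_lit 0) (nat_lit 0) (XT.lf (nat_lit 0) (nat_lit 21772643834) (nat_lit 76) (nat_lit 58699473285) (nat_lit 76) (nat_lit 14775916161) (nat_lit 11) (nat_lit 4) (nat_lit 12) (nat_lit 5) (nat_lit 12) (nat_lit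 4) (nat_lit 390) (nat_lit 303) (nat_lit 207)) (XT.lf (nat_lit 0) (nat_lit 52806444193) (nat_lit 76) (nat_lit 45334317018) (nat_lit 76) (nat_lit 1391246246) (nat_lit 11) (nat_lit 4) (nat_lit 12) (nat_lit 5) (nat_lit 12) (nat_lit 4) (nat_lit 391) (nat_lit 303) (nat_lit 206))))) (XT.nd (nat_lit 234) (nat_lit 532) (nat_lit 0) (XT.nd (nat_lit 78) (nat_lit 532) (nat_lit 0) (XT.lf (nat_lit 0) (nat_lit 1172152827) (nat_lit 532) (nat_lit 1071608068) (nat_lit 532) (nat_lit 1071608068) (nat_lit 319) (nat_lit 3) (nat_lit 326) (nat_lit 3) (nat_lit 326) (nat_lit 5) (nat_lit 304) (nat_lit 304) (nat_lit 292)) (XT.nd (nat_lit 78) (nat_lit 532) (nat_lit 0) (XT.lf (nat_lit 76) (nat_lit 3107731768) (nat_lit 0) (nat_lit 2953316543) (nat_lit 532) (nat_lit 620797315) (nat_lit 320) (nat_lit 5) (nat_lit 319) (nat_lit 3) (nat_lit 326) (nat_lit 5) (nat_lit 305) (nat_lit 304) (nat_lit 291)) (XT.lf (nat_lit 76) (nat_lit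 1808044294) (nat_lit 0) (nat_lit 1160695828) (nat_lit 608) (nat_lit 3772034842) (nat_lit 313) (nat_lit 5) (nat_lit 312) (nat_lit 5) (nat_lit 320) (nat_lit 5) (nat_lit 306) (nat_lit 304) (nat_lit 290)))) (XT.nd (nat_lit 78) (nat_lit 608) (nat_lit 0) (XT.lf (nat_lit 76) (nat_lit 599008119) (nat_lit 0) (nat_lit 5950867573) (nat_lit 608) (nat_lit 258132885) (nat_lit 314) (nat_lit 5) (nat_lit 313) (nat_lit 5) (nat_lit 321) (nat_lit 5) (nat_lit 307) (nat_lit 304) (nat_lit 289)) (XT.nd (nat_lit 78) (nat_lit 0) (nat_lit 0) (XT.lf (nat_lit 0) (nat_lit 3209570906) (nat_lit 608) (nat_lit 544271698) (nat_lit 684) (nat_lit 3128688780) (nat_lit 305) (nat_lit 5) (nat_lit 313) (nat_lit 5) (nat_lit 314) (nat_lit 5) (nat_lit 308) (nat_lit 304) (nat_lit 288)) (XT.lf (nat_lit 76) (nat_lit 5379974292) (nat_lit 0) (nat_lit 1309560733) (nat_lit 684) (nat_lit 276098490) (nat_lit 306) (nat_lit 5) (nat_lit 305) (nat_lit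 5) (nat_lit 314) (nat_lit 5) (nat_lit 309) (nat_lit 304) (nat_lit 287)))))) (XT.nd (nat_lit 468) (nat_lit 4864) (nat_lit 0) (XT.nd (nat_lit 234) (nat_lit 2584) (nat_lit 0) (XT.nd (nat_lit 78) (nat_lit 684) (nat_lit 0) (XT.lf (nat_lit 0) (nat_lit 3087736960) (nat_lit 684) (nat_lit 2582081041) (nat_lit 760) (nat_lit 1386520512) (nat_lit 297) (nat_lit 5) (nat_lit 306) (nat_lit 5) (nat_lit 307) (nat_lit 5) (nat_lit 310) (nat_lit 304) (nat_lit 286)) (XT.nd (nat_lit 78) (nat_lit 684) (nat_lit 0) (XT.lf (nat_lit 76) (nat_lit 3644403718) (nat_lit 0) (nat_lit 2842443966) (nat_lit 760) (nat_lit 668690930) (nat_lit 298) (nat_lit 5) (nat_lit 297) (nat_lit 5) (nat_lit 307) (nat_lit 5) (nat_lit 311) (nat_lit 304) (nat_lit 285)) (XT.lf (nat_lit 0) (nat_lit 2612606403) (nat_lit 760) (nat_lit 4389309313) (nat_lit 76) (nat_lit 261056642) (nat_lit 288) (nat_lit 5) (nat_lit 298) (nat_lit 5) (nat_lit 289) (nat_lit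 5) (nat_lit 312) (nat_lit 304) (nat_lit 284)))) (XT.nd (nat_lit 78) (nat_lit 1824) (nat_lit 0) (XT.lf (nat_lit 0) (nat_lit 2150258566) (nat_lit 760) (nat_lit 3801924153) (nat_lit 836) (nat_lit 1426353869) (nat_lit 278) (nat_lit 5) (nat_lit 288) (nat_lit 5) (nat_lit 289) (nat_lit 5) (nat_lit 313) (nat_lit 304) (nat_lit 283)) (XT.nd (nat_lit 78) (nat_lit 912) (nat_lit 0) (XT.lf (nat_lit 0) (nat_lit 1487646675) (nat_lit 836) (nat_lit 320336221) (nat_lit 912) (nat_lit 5694894541) (nat_lit 266) (nat_lit 5) (nat_lit 277) (nat_lit 5) (nat_lit 278) (nat_lit 5) (nat_lit 314) (nat_lit 304) (nat_lit 282)) (XT.lf (nat_lit 0) (nat_lit 852624770) (nat_lit 912) (nat_lit 4251557232) (nat_lit 988) (nat_lit 2531115321) (nat_lit 254) (nat_lit 5) (nat_lit 266) (nat_lit 5) (nat_lit 267) (nat_lit 5) (nat_lit 315) (nat_lit 304) (nat_lit 281))))) (XT.nd (nat_lit 234) (nat_lit 2736) (nat_lit 0) (XT.nd (nat_lit 78)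 (nat_lit 1064) (nat_lit 0) (XT.lf (nat_lit 0) (nat_lit 277722017) (nat_lit 988) (nat_lit 405780906) (nat_lit 1064) (nat_lit 7093526557) (nat_lit 240) (nat_lit 5) (nat_lit 253) (nat_lit 5) (nat_lit 254) (nat_lit 5) (nat_lit 316) (nat_lit 304) (nat_lit 280)) (XT.nd (nat_lit 78) (nat_lit 1064) (nat_lit 0) (XT.lf (nat_lit 0) (nat_lit 3958690930) (nat_lit 1064) (nat_lit 286561373) (nat_lit 76) (nat_lit 3681432652) (nat_lit 240) (nat_lit 5) (nat_lit 254) (nat_lit 5) (nat_lit 241) (nat_lit 5) (nat_lit 317) (nat_lit 304) (nat_lit 279)) (XT.lf (nat_lit 0) (nat_lit 7296995326) (nat_lit 1064) (nat_lit 28473183) (nat_lit 1140) (nat_lit 760666561) (nat_lit 226) (nat_lit 5) (nat_lit 240) (nat_lit 5) (nat_lit 241) (nat_lit 5) (nat_lit 318) (nat_lit 304) (nat_lit 278)))) (XT.nd (nat_lit 78) (nat_lit 1520) (nat_lit 0) (XT.lf (nat_lit 0) (nat_lit 2527596259) (nat_lit 1216) (nat_lit 1302204416) (nat_lit 76) (nat_lit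 4423997673) (nat_lit 210) (nat_lit 5) (nat_lit 226) (nat_lit 5) (nat_lit 211) (nat_lit 5) (nat_lit 319) (nat_lit 304) (nat_lit 277)) (XT.nd (nat_lit 78) (nat_lit 684) (nat_lit 0) (XT.lf (nat_lit 0) (nat_lit 5908038274) (nat_lit 912) (nat_lit 1778902770) (nat_lit 76) (nat_lit 744502119) (nat_lit 199) (nat_lit 5) (nat_lit 211) (nat_lit 5) (nat_lit 200) (nat_lit 5) (nat_lit 320) (nat_lit 304) (nat_lit 276)) (XT.lf (nat_lit 0) (nat_lit 805202596) (nat_lit 684) (nat_lit 2254866285) (nat_lit 76) (nat_lit 5558317163) (nat_lit 190) (nat_lit 5) (nat_lit 199) (nat_lit 5) (nat_lit 191) (nat_lit 5) (nat_lit 321) (nat_lit 304) (nat_lit 275))))))))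
noncomputable def xc57 : XT := (XT.nd (nat_lit 1794) (nat_lit 3268) (nat_lit 0) (XT.nd (nat_lit 858) (nat_lit 3572) (nat_lit 0) (XT.nd (nat_lit 390) (nat_lit 2736) (nat_lit 0) (XT.nd (nat_lit 156) (nat_lit 1596) (nat_lit 0) (XT.nd (nat_lit 78) (nat_lit 532) (nat_lit 0) (XT.lf (nat_lit 0) (nat_lit 4216573554) (nat_lit 608) (nat_lit 2731827870) (nat_lit 76) (nat_lit 1866583308) (nat_lit 183) (nat_lit 5) (nat_lit 191) (nat_lit 5) (nat_lit 184) (nat_lit 5) (nat_lit 322) (nat_lit 304) (nat_lit 274)) (XT.lf (nat_lit 0) (nat_lit 5819281046) (nat_lit 532) (nat_lit 1966948240) (nat_lit 608) (nat_lit 1235660980) (nat_lit 176) (nat_lit 5) (nat_lit 183) (nat_lit 5) (nat_lit 184) (nat_lit 5) (nat_lit 323) (nat_lit 304) (nat_lit 273))) (XT.nd (nat_lit 78) (nat_lit 988) (nat_lit 0) (XT.lf (nat_lit 0) (nat_lit 2245603265) (nat_lit 608) (nat_lit 3695265752) (nat_lit 76) (nat_lit 3297855455) (nat_lit 168) (nat_lit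 5) (nat_lit 176) (nat_lit 5) (nat_lit 169) (nat_lit 5) (nat_lit 324) (nat_lit 304) (nat_lit 272)) (XT.nd (nat_lit 78) (nat_lit 456) (nat_lit 0) (XT.lf (nat_lit 0) (nat_lit 5272285600) (nat_lit 532) (nat_lit 592396338) (nat_lit 608) (nat_lit 3601767682) (nat_lit 161) (nat_lit 5) (nat_lit 168) (nat_lit 5) (nat_lit 169) (nat_lit 5) (nat_lit 325) (nat_lit 304) (nat_lit 271)) (XT.lf (nat_lit 0) (nat_lit 4983641854) (nat_lit 456) (nat_lit 4705093150) (nat_lit 532) (nat_lit 16196318) (nat_lit 155) (nat_lit 5) (nat_lit 161) (nat_lit 5) (nat_lit 162) (nat_lit 5) (nat_lit 326) (nat_lit 304) (nat_lit 270))))) (XT.nd (nat_lit 234) (nat_lit 1216) (nat_lit 0) (XT.nd (nat_lit 78) (nat_lit 988) (nat_lit 0) (XT.lf (nat_lit 0) (nat_lit 3672180530) (nat_lit 532) (nat_lit 5286279594) (nat_lit 76) (nat_lit 995979716) (nat_lit 148) (nat_lit 5) (nat_lit 155) (nat_lit 5) (nat_lit 149) (nat_lit 5) (nat_lit 327) (nat_lit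 304) (nat_lit 269)) (XT.nd (nat_lit 78) (nat_lit 532) (nat_lit 0) (XT.lf (nat_lit 0) (nat_lit 4322975240) (nat_lit 456) (nat_lit 3255952959) (nat_lit 532) (nat_lit 2636542223) (nat_lit 142) (nat_lit 5) (nat_lit 148) (nat_lit 5) (nat_lit 149) (nat_lit 5) (nat_lit 328) (nat_lit 304) (nat_lit 268)) (XT.lf (nat_lit 0) (nat_lit 1187376046) (nat_lit 532) (nat_lit 6538285702) (nat_lit 76) (nat_lit 2763046269) (nat_lit 135) (nat_lit 5) (nat_lit 142) (nat_lit 5) (nat_lit 136) (nat_lit 5) (nat_lit 329) (nat_lit 304) (nat_lit 267)))) (XT.nd (nat_lit 78) (nat_lit 836) (nat_lit 0) (XT.lf (nat_lit 0) (nat_lit 3521649010) (nat_lit 380) (nat_lit 1657135680) (nat_lit 456) (nat_lit 5595185502) (nat_lit 130) (nat_lit 5) (nat_lit 135) (nat_lit 5) (nat_lit 136) (nat_lit 5) (nat_lit 330) (nat_lit 304) (nat_lit 266)) (XT.nd (nat_lit 78) (nat_lit 456) (nat_lit 0) (XT.lf (nat_lit 0) (nat_lit 3042112995) (nat_lit 380)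 (nat_lit 6375809073) (nat_lit 456) (nat_lit 1654195801) (nat_lit 125) (nat_lit 5) (nat_lit 130) (nat_lit 5) (nat_lit 131) (nat_lit 5) (nat_lit 331) (nat_lit 304) (nat_lit 265)) (XT.lf (nat_lit 0) (nat_lit 2460092950) (nat_lit 456) (nat_lit 8876189667) (nat_lit 76) (nat_lit 47494560) (nat_lit 119) (nat_lit 5) (nat_lit 125) (nat_lit 5) (nat_lit 120) (nat_lit 5) (nat_lit 332) (nat_lit 304) (nat_lit 264)))))) (XT.nd (nat_lit 468) (nat_lit 1748) (nat_lit 0) (XT.nd (nat_lit 234) (nat_lit 684) (nat_lit 0) (XT.nd (nat_lit 78) (nat_lit 760) (nat_lit 0) (XT.lf (nat_lit 0) (nat_lit 1867440757) (nat_lit 380) (nat_lit 4955570786) (nat_lit 456) (nat_lit 4885261888) (nat_lit 114) (nat_lit 5) (nat_lit 119) (nat_lit 5) (nat_lit 120) (nat_lit 5) (nat_lit 333) (nat_lit 304) (nat_lit 263)) (XT.nd (nat_lit 78) (nat_lit 456) (nat_lit 0) (XT.lf (nat_lit 0) (nat_lit 1175338757) (nat_lit 304) (nat_lit 10262953602)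 (nat_lit 380) (nat_lit 609731960) (nat_lit 110) (nat_lit 5) (nat_lit 114) (nat_lit 5) (nat_lit 115) (nat_lit 5) (nat_lit 334) (nat_lit 304) (nat_lit 262)) (XT.lf (nat_lit 0) (nat_lit 348966137) (nat_lit 380) (nat_lit 3526586064) (nat_lit 456) (nat_lit 8525993366) (nat_lit 104) (nat_lit 5) (nat_lit 109) (nat_lit 5) (nat_lit 110) (nat_lit 5) (nat_lit 335) (nat_lit 304) (nat_lit 261)))) (XT.nd (nat_lit 78) (nat_lit 684) (nat_lit 0) (XT.lf (nat_lit 0) (nat_lit 8638354093) (nat_lit 456) (nat_lit 566463173) (nat_lit 76) (nat_lit 3565818179) (nat_lit 104) (nat_lit 5) (nat_lit 110) (nat_lit 5) (nat_lit 105) (nat_lit 5) (nat_lit 336) (nat_lit 304) (nat_lit 260)) (XT.nd (nat_lit 78) (nat_lit 304) (nat_lit 0) (XT.lf (nat_lit 0) (nat_lit 541726328) (nat_lit 380) (nat_lit 1586394527) (nat_lit 76) (nat_lit 11027866119) (nat_lit 99) (nat_lit 5) (nat_lit 104) (nat_lit 5) (nat_lit 100) (nat_lit 5) (nat_lit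 337) (nat_lit 304) (nat_lit 259)) (XT.lf (nat_lit 0) (nat_lit 5451266824) (nat_lit 380) (nat_lit 2784783796) (nat_lit 76) (nat_lit 5320752885) (nat_lit 95) (nat_lit 5) (nat_lit 100) (nat_lit 5) (nat_lit 96) (nat_lit 5) (nat_lit 338) (nat_lit 304) (nat_lit 258))))) (XT.nd (nat_lit 234) (nat_lit 836) (nat_lit 0) (XT.nd (nat_lit 78) (nat_lit 608) (nat_lit 0) (XT.lf (nat_lit 0) (nat_lit 9868832646) (nat_lit 304) (nat_lit 796965334) (nat_lit 380) (nat_lit 3310119063) (nat_lit 91) (nat_lit 5) (nat_lit 95) (nat_lit 5) (nat_lit 96) (nat_lit 5) (nat_lit 339) (nat_lit 304) (nat_lit 257)) (XT.nd (nat_lit 78) (nat_lit 228) (nat_lit 0) (XT.lf (nat_lit 0) (nat_lit 1802252284) (nat_lit 380) (nat_lit 5633489189) (nat_lit 76) (nat_lit 6976460411) (nat_lit 86) (nat_lit 5) (nat_lit 91) (nat_lit 5) (nat_lit 87) (nat_lit 5) (nat_lit 340) (nat_lit 304) (nat_lit 256)) (XT.lf (nat_lit 0) (nat_lit 7159629354) (nat_lit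 304) (nat_lit 7344332344) (nat_lit 76) (nat_lit 363657323) (nat_lit 83) (nat_lit 5) (nat_lit 87) (nat_lit 5) (nat_lit 84) (nat_lit 5) (nat_lit 341) (nat_lit 304) (nat_lit 255)))) (XT.nd (nat_lit 78) (nat_lit 532) (nat_lit 0) (XT.lf (nat_lit 0) (nat_lit 6051626908) (nat_lit 304) (nat_lit 6857602703) (nat_lit 380) (nat_lit 2432881654) (nat_lit 79) (nat_lit 5) (nat_lit 83) (nat_lit 5) (nat_lit 84) (nat_lit 5) (nat_lit 342) (nat_lit 304) (nat_lit 254)) (XT.nd (nat_lit 78) (nat_lit 228) (nat_lit 0) (XT.lf (nat_lit 0) (nat_lit 3110428470) (nat_lit 304) (nat_lit 11463277411) (nat_lit 76) (nat_lit 1263807125) (nat_lit 75) (nat_lit 5) (nat_lit 79) (nat_lit 5) (nat_lit 76) (nat_lit 5) (nat_lit 343) (nat_lit 304) (nat_lit 253)) (XT.lf (nat_lit 0) (nat_lit 2414390754) (nat_lit 228) (nat_lit 6591682115) (nat_lit 304) (nat_lit 7347155506) (nat_lit 72) (nat_lit 5) (nat_lit 75) (nat_lit 5) (nat_lit 76) (nat_lit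 5) (nat_lit 344) (nat_lit 304) (nat_lit 252))))))) (XT.nd (nat_lit 858) (nat_lit 1292) (nat_lit 0) (XT.nd (nat_lit 390) (nat_lit 988) (nat_lit 0) (XT.nd (nat_lit 156) (nat_lit 684) (nat_lit 0) (XT.nd (nat_lit 78) (nat_lit 76) (nat_lit 0) (XT.lf (nat_lit 0) (nat_lit 222042560) (nat_lit 228) (nat_lit 15050757171) (nat_lit 304) (nat_lit 1619670027) (nat_lit 69) (nat_lit 5) (nat_lit 72) (nat_lit 5) (nat_lit 73) (nat_lit 5) (nat_lit 345) (nat_lit 304) (nat_lit 251)) (XT.lf (nat_lit 0) (nat_lit 4459097529) (nat_lit 304) (nat_lit 2278956584) (nat_lit 76) (nat_lit 10714859328) (nat_lit 68) (nat_lit 5) (nat_lit 72) (nat_lit 5) (nat_lit 69) (nat_lit 5) (nat_lit 346) (nat_lit 304) (nat_lit 250))) (XT.nd (nat_lit 78) (nat_lit 456) (nat_lit 0) (XT.lf (nat_lit 0) (nat_lit 10895668897) (nat_lit 304) (nat_lit 5082184850) (nat_lit 76) (nat_lit 2060449350) (nat_lit 65) (nat_lit 5) (nat_lit 69) (nat_lit 5) (nat_lit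 66) (nat_lit 5) (nat_lit 347) (nat_lit 304) (nat_lit 249)) (XT.nd (nat_lit 78) (nat_lit 304) (nat_lit 0) (XT.lf (nat_lit 0) (nat_lit 10392071036) (nat_lit 152) (nat_lit 7397278543) (nat_lit 228) (nat_lit 859578768) (nat_lit 63) (nat_lit 5) (nat_lit 65) (nat_lit 5) (nat_lit 66) (nat_lit 5) (nat_lit 348) (nat_lit 304) (nat_lit 248)) (XT.lf (nat_lit 0) (nat_lit 5712100776) (nat_lit 304) (nat_lit 11845025418) (nat_lit 76) (nat_lit 1728733747) (nat_lit 59) (nat_lit 5) (nat_lit 63) (nat_lit 5) (nat_lit 60) (nat_lit 5) (nat_lit 349) (nat_lit 304) (nat_lit 247))))) (XT.nd (nat_lit 234) (nat_lit 532) (nat_lit 0) (XT.nd (nat_lit 78) (nat_lit 304) (nat_lit 0) (XT.lf (nat_lit 0) (nat_lit 4050690493) (nat_lit 152) (nat_lit 8689922445) (nat_lit 228) (nat_lit 7209410677) (nat_lit 57) (nat_lit 5) (nat_lit 59) (nat_lit 5) (nat_lit 60) (nat_lit 5) (nat_lit 350) (nat_lit 304) (nat_lit 246)) (XT.nd (nat_lit 78)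 (nat_lit 76) (nat_lit 0) (XT.lf (nat_lit 0) (nat_lit 256035263) (nat_lit 228) (nat_lit 19943911563) (nat_lit 304) (nat_lit 445087341) (nat_lit 54) (nat_lit 5) (nat_lit 57) (nat_lit 5) (nat_lit 58) (nat_lit 5) (nat_lit 351) (nat_lit 304) (nat_lit 245)) (XT.lf (nat_lit 0) (nat_lit 6729523528) (nat_lit 304) (nat_lit 4057105037) (nat_lit 76) (nat_lit 10580206374) (nat_lit 53) (nat_lit 5) (nat_lit 57) (nat_lit 5) (nat_lit 54) (nat_lit 5) (nat_lit 352) (nat_lit 304) (nat_lit 244)))) (XT.nd (nat_lit 78) (nat_lit 380) (nat_lit 0) (XT.lf (nat_lit 0) (nat_lit 13264475744) (nat_lit 152) (nat_lit 1068187980) (nat_lit 228) (nat_lit 7789577824) (nat_lit 51) (nat_lit 5) (nat_lit 53) (nat_lit 5) (nat_lit 54) (nat_lit 5) (nat_lit 353) (nat_lit 304) (nat_lit 243)) (XT.nd (nat_lit 78) (nat_lit 228) (nat_lit 0) (XT.lf (nat_lit 0) (nat_lit 8622730401) (nat_lit 152) (nat_lit 13858778348) (nat_lit 228) (nat_lit 428960559)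 (nat_lit 49) (nat_lit 5) (nat_lit 51) (nat_lit 5) (nat_lit 52) (nat_lit 5) (nat_lit 354) (nat_lit 304) (nat_lit 242)) (XT.lf (nat_lit 0) (nat_lit 3331446210) (nat_lit 152) (nat_lit 3914386726) (nat_lit 228) (nat_lit 16487528748) (nat_lit 46) (nat_lit 5) (nat_lit 48) (nat_lit 5) (nat_lit 49) (nat_lit 5) (nat_lit 355) (nat_lit 304) (nat_lit 241)))))) (XT.nd (nat_lit 468) (nat_lit 532) (nat_lit 0) (XT.nd (nat_lit 234) (nat_lit 380) (nat_lit 0) (XT.nd (nat_lit 78) (nat_lit 380) (nat_lit 0) (XT.lf (nat_lit 0) (nat_lit 15461720486) (nat_lit 228) (nat_lit 2608842962) (nat_lit 76) (nat_lit 6521736236) (nat_lit 46) (nat_lit 5) (nat_lit 49) (nat_lit 5) (nat_lit 47) (nat_lit 5) (nat_lit 356) (nat_lit 304) (nat_lit 240)) (XT.nd (nat_lit 78) (nat_lit 228) (nat_lit 0) (XT.lf (nat_lit 0) (nat_lit 16278221566) (nat_lit 152) (nat_lit 7963179158) (nat_lit 228) (nat_lit 1248208381) (nat_lit 44) (nat_lit 5) (nat_lit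 46) (nat_lit 5) (nat_lit 47) (nat_lit 5) (nat_lit 357) (nat_lit 304) (nat_lit 239)) (XT.lf (nat_lit 0) (nat_lit 6997293181) (nat_lit 228) (nat_lit 16670708494) (nat_lit 76) (nat_lit 2758584122) (nat_lit 41) (nat_lit 5) (nat_lit 44) (nat_lit 5) (nat_lit 42) (nat_lit 5) (nat_lit 358) (nat_lit 304) (nat_lit 238)))) (XT.nd (nat_lit 78) (nat_lit 228) (nat_lit 0) (XT.lf (nat_lit 0) (nat_lit 2336711631) (nat_lit 152) (nat_lit 13450366510) (nat_lit 228) (nat_lit 11618240476) (nat_lit 39) (nat_lit 5) (nat_lit 41) (nat_lit 5) (nat_lit 42) (nat_lit 5) (nat_lit 359) (nat_lit 304) (nat_lit 237)) (XT.nd (nat_lit 78) (nat_lit 228) (nat_lit 0) (XT.lf (nat_lit 0) (nat_lit 22573514238) (nat_lit 152) (nat_lit 2574719798) (nat_lit 228) (nat_lit 3280809729) (nat_lit 39) (nat_lit 5) (nat_lit 41) (nat_lit 5) (nat_lit 42) (nat_lit 5) (nat_lit 360) (nat_lit 304) (nat_lit 236)) (XT.lf (nat_lit 0) (nat_lit 5554310857)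 (nat_lit 228) (nat_lit 15104659596) (nat_lit 76) (nat_lit 8837788728) (nat_lit 36) (nat_lit 5) (nat_lit 39) (nat_lit 5) (nat_lit 37) (nat_lit 5) (nat_lit 361) (nat_lit 304) (nat_lit 235))))) (XT.nd (nat_lit 234) (nat_lit 228) (nat_lit 0) (XT.nd (nat_lit 78) (nat_lit 152) (nat_lit 0) (XT.lf (nat_lit 0) (nat_lit 5133124748) (nat_lit 152) (nat_lit 9729751066) (nat_lit 228) (nat_lit 15751034529) (nat_lit 34) (nat_lit 5) (nat_lit 36) (nat_lit 5) (nat_lit 37) (nat_lit 5) (nat_lit 362) (nat_lit 304) (nat_lit 234)) (XT.nd (nat_lit 78) (nat_lit 152) (nat_lit 0) (XT.lf (nat_lit 0) (nat_lit 24774281222) (nat_lit 228) (nat_lit 5166842250) (nat_lit 76) (nat_lit 1841683406) (nat_lit 34) (nat_lit 5) (nat_lit 37) (nat_lit 5) (nat_lit 35) (nat_lit 4) (nat_lit 363) (nat_lit 304) (nat_lit 233)) (XT.lf (nat_lit 0) (nat_lit 2351345988) (nat_lit 152) (nat_lit 16705138882) (nat_lit 76) (nat_lit 13946368575) (nat_lit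 32) (nat_lit 5) (nat_lit 34) (nat_lit 5) (nat_lit 33) (nat_lit 5) (nat_lit 364) (nat_lit 304) (nat_lit 232)))) (XT.nd (nat_lit 78) (nat_lit 76) (nat_lit 0) (XT.lf (nat_lit 0) (nat_lit 4619498795) (nat_lit 152) (nat_lit 7480300563) (nat_lit 228) (nat_lit 22180064151) (nat_lit 30) (nat_lit 5) (nat_lit 32) (nat_lit 5) (nat_lit 33) (nat_lit 5) (nat_lit 365) (nat_lit 304) (nat_lit 231)) (XT.nd (nat_lit 78) (nat_lit 76) (nat_lit 0) (XT.lf (nat_lit 0) (nat_lit 22521147660) (nat_lit 228) (nat_lit 8362300681) (nat_lit 76) (nat_lit 4731720105) (nat_lit 30) (nat_lit 5) (nat_lit 33) (nat_lit 5) (nat_lit 31) (nat_lit 4) (nat_lit 366) (nat_lit 304) (nat_lit 230)) (XT.lf (nat_lit 0) (nat_lit 14144457722) (nat_lit 76) (nat_lit 19499017958) (nat_lit 152) (nat_lit 3368373711) (nat_lit 29) (nat_lit 5) (nat_lit 30) (nat_lit 5) (nat_lit 31) (nat_lit 4) (nat_lit 367) (nat_lit 304) (nat_lit 229))))))))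
noncomputable def xc58 : XT := (XT.nd (nat_lit 1794) (nat_lit 76) (nat_lit 0) (XT.nd (nat_lit 858) (nat_lit 456) (nat_lit 0) (XT.nd (nat_lit 390) (nat_lit 304) (nat_lit 0) (XT.nd (nat_lit 156) (nat_lit 304) (nat_lit 0) (XT.nd (nat_lit 78) (nat_lit 152) (nat_lit 0) (XT.lf (nat_lit 0) (nat_lit 6766057337) (nat_lit 152) (nat_lit 646831284) (nat_lit 76) (nat_lit 31061828426) (nat_lit 28) (nat_lit 5) (nat_lit 30) (nat_lit 5) (nat_lit 29) (nat_lit 5) (nat_lit 368) (nat_lit 304) (nat_lit 228)) (XT.lf (nat_lit 0) (nat_lit 17583354558) (nat_lit 228) (nat_lit 17009548717) (nat_lit 76) (nat_lit 5409457232) (nat_lit 26) (nat_lit 5) (nat_lit 29) (nat_lit 5) (nat_lit 27) (nat_lit 4) (nat_lit 369) (nat_lit 304) (nat_lit 227))) (XT.nd (nat_lit 78) (nat_lit 228) (nat_lit 0) (XT.lf (nat_lit 0) (nat_lit 6215996957) (nat_lit 76) (nat_lit 22838080601) (nat_lit 152) (nat_lit 12548938572) (nat_lit 25) (nat_lit 5)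 (nat_lit 26) (nat_lit 5) (nat_lit 27) (nat_lit 4) (nat_lit 370) (nat_lit 304) (nat_lit 226)) (XT.nd (nat_lit 78) (nat_lit 228) (nat_lit 0) (XT.lf (nat_lit 0) (nat_lit 30907584183) (nat_lit 76) (nat_lit 10337996356) (nat_lit 152) (nat_lit 2033713176) (nat_lit 25) (nat_lit 5) (nat_lit 26) (nat_lit 5) (nat_lit 27) (nat_lit 4) (nat_lit 371) (nat_lit 304) (nat_lit 225)) (XT.lf (nat_lit 0) (nat_lit 8947584600) (nat_lit 228) (nat_lit 33171729526) (nat_lit 76) (nat_lit 2913997292) (nat_lit 22) (nat_lit 5) (nat_lit 25) (nat_lit 5) (nat_lit 23) (nat_lit 4) (nat_lit 372) (nat_lit 304) (nat_lit 224))))) (XT.nd (nat_lit 234) (nat_lit 228) (nat_lit 0) (XT.nd (nat_lit 78) (nat_lit 76) (nat_lit 0) (XT.lf (nat_lit 0) (nat_lit 20643056082) (nat_lit 228) (nat_lit 9480261519) (nat_lit 76) (nat_lit 16744898976) (nat_lit 22) (nat_lit 5) (nat_lit 25) (nat_lit 5) (nat_lit 23) (nat_lit 4) (nat_lit 373) (nat_lit 304)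 (nat_lit 223)) (XT.nd (nat_lit 78) (nat_lit 0) (nat_lit 0) (XT.lf (nat_lit 0) (nat_lit 15655570933) (nat_lit 76) (nat_lit 17393285373) (nat_lit 152) (nat_lit 15742249481) (nat_lit 21) (nat_lit 5) (nat_lit 22) (nat_lit 5) (nat_lit 23) (nat_lit 4) (nat_lit 374) (nat_lit 304) (nat_lit 222)) (XT.lf (nat_lit 0) (nat_lit 42201909198) (nat_lit 76) (nat_lit 3946453174) (nat_lit 152) (nat_lit 4659579796) (nat_lit 21) (nat_lit 5) (nat_lit 22) (nat_lit 5) (nat_lit 23) (nat_lit 4) (nat_lit 375) (nat_lit 304) (nat_lit 221)))) (XT.nd (nat_lit 78) (nat_lit 76) (nat_lit 0) (XT.lf (nat_lit 0) (nat_lit 7084793119) (nat_lit 152) (nat_lit 35639958538) (nat_lit 76) (nat_lit 10191549814) (nat_lit 19) (nat_lit 5) (nat_lit 21) (nat_lit 5) (nat_lit 20) (nat_lit 4) (nat_lit 376) (nat_lit 304) (nat_lit 220)) (XT.nd (nat_lit 78) (nat_lit 76) (nat_lit 0) (XT.lf (nat_lit 0) (nat_lit 19427483611) (nat_lit 152) (nat_lit 10624504707)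 (nat_lit 76) (nat_lit 25073486969) (nat_lit 19) (nat_lit 5) (nat_lit 21) (nat_lit 5) (nat_lit 20) (nat_lit 4) (nat_lit 377) (nat_lit 304) (nat_lit 219)) (XT.lf (nat_lit 0) (nat_lit 15912205103) (nat_lit 76) (nat_lit 16606412999) (nat_lit 152) (nat_lit 24922554758) (nat_lit 18) (nat_lit 5) (nat_lit 19) (nat_lit 5) (nat_lit 20) (nat_lit 4) (nat_lit 378) (nat_lit 304) (nat_lit 218)))))) (XT.nd (nat_lit 468) (nat_lit 228) (nat_lit 0) (XT.nd (nat_lit 234) (nat_lit 76) (nat_lit 0) (XT.nd (nat_lit 78) (nat_lit 152) (nat_lit 0) (XT.lf (nat_lit 0) (nat_lit 43958897355) (nat_lit 76) (nat_lit 2393790685) (nat_lit 152) (nat_lit 13517320054) (nat_lit 18) (nat_lit 5) (nat_lit 19) (nat_lit 5) (nat_lit 20) (nat_lit 4) (nat_lit 379) (nat_lit 304) (nat_lit 217)) (XT.nd (nat_lit 78) (nat_lit 76) (nat_lit 0) (XT.lf (nat_lit 0) (nat_lit 11045268451) (nat_lit 76) (nat_lit 50039652447) (nat_lit 76) (nat_lit 1329174354)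 (nat_lit 17) (nat_lit 4) (nat_lit 18) (nat_lit 5) (nat_lit 18) (nat_lit 4) (nat_lit 380) (nat_lit 304) (nat_lit 216)) (XT.lf (nat_lit 0) (nat_lit 11414420369) (nat_lit 152) (nat_lit 25571320386) (nat_lit 76) (nat_lit 28091247497) (nat_lit 16) (nat_lit 5) (nat_lit 18) (nat_lit 5) (nat_lit 17) (nat_lit 4) (nat_lit 381) (nat_lit 304) (nat_lit 215)))) (XT.nd (nat_lit 78) (nat_lit 0) (nat_lit 0) (XT.lf (nat_lit 0) (nat_lit 1496820227) (nat_lit 76) (nat_lit 23266726713) (nat_lit 152) (nat_lit 43109212388) (nat_lit 15) (nat_lit 5) (nat_lit 16) (nat_lit 5) (nat_lit 17) (nat_lit 4) (nat_lit 382) (nat_lit 304) (nat_lit 214)) (XT.nd (nat_lit 78) (nat_lit 0) (nat_lit 0) (XT.lf (nat_lit 0) (nat_lit 30418703695) (nat_lit 76) (nat_lit 8606426153) (nat_lit 152) (nat_lit 31775842419) (nat_lit 15) (nat_lit 5) (nat_lit 16) (nat_lit 5) (nat_lit 17) (nat_lit 4) (nat_lit 383) (nat_lit 304) (nat_lit 213)) (XT.lf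 (nat_lit 0) (nat_lit 54047521152) (nat_lit 152) (nat_lit 13186942880) (nat_lit 0) (nat_lit 6639703096) (nat_lit 15) (nat_lit 5) (nat_lit 17) (nat_lit 4) (nat_lit 15) (nat_lit 4) (nat_lit 384) (nat_lit 304) (nat_lit 212))))) (XT.nd (nat_lit 234) (nat_lit 76) (nat_lit 0) (XT.nd (nat_lit 78) (nat_lit 76) (nat_lit 0) (XT.lf (nat_lit 0) (nat_lit 15553561083) (nat_lit 76) (nat_lit 54487171375) (nat_lit 76) (nat_lit 7053701261) (nat_lit 14) (nat_lit 4) (nat_lit 15) (nat_lit 5) (nat_lit 15) (nat_lit 4) (nat_lit 385) (nat_lit 304) (nat_lit 211)) (XT.nd (nat_lit 78) (nat_lit 0) (nat_lit 0) (XT.lf (nat_lit 0) (nat_lit 6354580283) (nat_lit 152) (nat_lit 34558102669) (nat_lit 76) (nat_lit 39557577339) (nat_lit 13) (nat_lit 5) (nat_lit 15) (nat_lit 5) (nat_lit 14) (nat_lit 4) (nat_lit 386) (nat_lit 304) (nat_lit 210)) (XT.lf (nat_lit 0) (nat_lit 20273191548) (nat_lit 152) (nat_lit 6326588974) (nat_lit 76)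 (nat_lit 57413431243) (nat_lit 13) (nat_lit 5) (nat_lit 15) (nat_lit 5) (nat_lit 14) (nat_lit 4) (nat_lit 387) (nat_lit 304) (nat_lit 209)))) (XT.nd (nat_lit 78) (nat_lit 0) (nat_lit 0) (XT.lf (nat_lit 0) (nat_lit 23752181440) (nat_lit 76) (nat_lit 11349054258) (nat_lit 152) (nat_lit 52625672562) (nat_lit 12) (nat_lit 5) (nat_lit 13) (nat_lit 5) (nat_lit 14) (nat_lit 4) (nat_lit 388) (nat_lit 304) (nat_lit 208)) (XT.nd (nat_lit 78) (nat_lit 0) (nat_lit 0) (XT.lf (nat_lit 0) (nat_lit 50766795037) (nat_lit 152) (nat_lit 36230042825) (nat_lit 0) (nat_lit 4626570727) (nat_lit 12) (nat_lit 5) (nat_lit 14) (nat_lit 4) (nat_lit 12) (nat_lit 4) (nat_lit 389) (nat_lit 304) (nat_lit 207)) (XT.lf (nat_lit 0) (nat_lit 67316377561) (nat_lit 152) (nat_lit 7238696697) (nat_lit 0) (nat_lit 21156639602) (nat_lit 12) (nat_lit 5) (nat_lit 14) (nat_lit 4) (nat_lit 12) (nat_lit 4) (nat_lit 390) (nat_lit 304) (nat_lit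 206))))))) (XT.nd (nat_lit 40950) (nat_lit 0) (nat_lit 11400) (XT.nd (nat_lit 40482) (nat_lit 0) (nat_lit 20140) (XT.nd (nat_lit 40248) (nat_lit 0) (nat_lit 22268) (XT.nd (nat_lit 40170) (nat_lit 0) (nat_lit 22876) (XT.lf (nat_lit 0) (nat_lit 23638708983) (nat_lit 76) (nat_lit 61268813734) (nat_lit 76) (nat_lit 15090491348) (nat_lit 11) (nat_lit 4) (nat_lit 12) (nat_lit 5) (nat_lit 12) (nat_lit 4) (nat_lit 391) (nat_lit 304) (nat_lit 205)) (XT.lf (nat_lit 0) (nat_lit 709587225) (nat_lit 0) (nat_lit 709587225) (nat_lit 532) (nat_lit 1949143800) (nat_lit 312) (nat_lit 5) (nat_lit 312) (nat_lit 3) (nat_lit 319) (nat_lit 3) (nat_lit 305) (nat_lit 305) (nat_lit 290))) (XT.nd (nat_lit 78) (nat_lit 608) (nat_lit 0) (XT.lf (nat_lit 0) (nat_lit 6275088088) (nat_lit 532) (nat_lit 21984135) (nat_lit 608) (nat_lit 502677079) (nat_lit 312) (nat_lit 5) (nat_lit 319) (nat_lit 3) (nat_lit 320) (nat_lit 5)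 (nat_lit 306) (nat_lit 305) (nat_lit 289)) (XT.nd (nat_lit 78) (nat_lit 0) (nat_lit 0) (XT.lf (nat_lit 0) (nat_lit 2810283743) (nat_lit 608) (nat_lit 1381997254) (nat_lit 684) (nat_lit 2677589930) (nat_lit 304) (nat_lit 5) (nat_lit 312) (nat_lit 5) (nat_lit 313) (nat_lit 5) (nat_lit 307) (nat_lit 305) (nat_lit 288)) (XT.lf (nat_lit 76) (nat_lit 4292242359) (nat_lit 0) (nat_lit 1843199485) (nat_lit 684) (nat_lit 813127717) (nat_lit 305) (nat_lit 5) (nat_lit 304) (nat_lit 5) (nat_lit 313) (nat_lit 5) (nat_lit 308) (nat_lit 305) (nat_lit 287))))) (XT.nd (nat_lit 234) (nat_lit 760) (nat_lit 0) (XT.nd (nat_lit 78) (nat_lit 760) (nat_lit 0) (XT.lf (nat_lit 0) (nat_lit 2396612007) (nat_lit 684) (nat_lit 3875136371) (nat_lit 760) (nat_lit 763394940) (nat_lit 296) (nat_lit 5) (nat_lit 305) (nat_lit 5) (nat_lit 306) (nat_lit 5) (nat_lit 309) (nat_lit 305) (nat_lit 286)) (XT.nd (nat_lit 78) (nat_lit 760)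 (nat_lit 0) (XT.lf (nat_lit 76) (nat_lit 2090466672) (nat_lit 0) (nat_lit 3534546061) (nat_lit 760) (nat_lit 1504767457) (nat_lit 297) (nat_lit 5) (nat_lit 296) (nat_lit 5) (nat_lit 306) (nat_lit 5) (nat_lit 310) (nat_lit 305) (nat_lit 285)) (XT.lf (nat_lit 76) (nat_lit 1089958274) (nat_lit 0) (nat_lit 526128798) (nat_lit 836) (nat_lit 5616798119) (nat_lit 287) (nat_lit 5) (nat_lit 286) (nat_lit 5) (nat_lit 297) (nat_lit 5) (nat_lit 311) (nat_lit 305) (nat_lit 284)))) (XT.nd (nat_lit 78) (nat_lit 836) (nat_lit 0) (XT.lf (nat_lit 76) (nat_lit 129156172) (nat_lit 0) (nat_lit 4634699783) (nat_lit 836) (nat_lit 2579981481) (nat_lit 288) (nat_lit 5) (nat_lit 287) (nat_lit 5) (nat_lit 298) (nat_lit 5) (nat_lit 312) (nat_lit 305) (nat_lit 283)) (XT.nd (nat_lit 78) (nat_lit 0) (nat_lit 76) (XT.lf (nat_lit 0) (nat_lit 494152437) (nat_lit 836) (nat_lit 750837257) (nat_lit 912) (nat_lit 6218435209) (nat_lit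 276) (nat_lit 5) (nat_lit 287) (nat_lit 5) (nat_lit 288) (nat_lit 5) (nat_lit 313) (nat_lit 305) (nat_lit 282)) (XT.lf (nat_lit 0) (nat_lit 3586776099) (nat_lit 836) (nat_lit 1605576673) (nat_lit 76) (nat_lit 2398503412) (nat_lit 277) (nat_lit 5) (nat_lit 288) (nat_lit 5) (nat_lit 278) (nat_lit 5) (nat_lit 314) (nat_lit 305) (nat_lit 281)))))) (XT.nd (nat_lit 468) (nat_lit 2888) (nat_lit 0) (XT.nd (nat_lit 234) (nat_lit 3116) (nat_lit 0) (XT.nd (nat_lit 78) (nat_lit 1976) (nat_lit 0) (XT.lf (nat_lit 0) (nat_lit 5320823013) (nat_lit 836) (nat_lit 1428188660) (nat_lit 912) (nat_lit 978364606) (nat_lit 266) (nat_lit 5) (nat_lit 277) (nat_lit 5) (nat_lit 278) (nat_lit 5) (nat_lit 315) (nat_lit 305) (nat_lit 280)) (XT.nd (nat_lit 78) (nat_lit 988) (nat_lit 0) (XT.lf (nat_lit 0) (nat_lit 2091231271) (nat_lit 988) (nat_lit 3190468546) (nat_lit 76) (nat_lit 2590477694) (nat_lit 253) (nat_lit 5) (nat_lit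 266) (nat_lit 5) (nat_lit 254) (nat_lit 5) (nat_lit 316) (nat_lit 305) (nat_lit 279)) (XT.lf (nat_lit 0) (nat_lit 4085439892) (nat_lit 988) (nat_lit 1142079784) (nat_lit 1064) (nat_lit 2798551893) (nat_lit 240) (nat_lit 5) (nat_lit 253) (nat_lit 5) (nat_lit 254) (nat_lit 5) (nat_lit 317) (nat_lit 305) (nat_lit 278)))) (XT.nd (nat_lit 78) (nat_lit 1976) (nat_lit 0) (XT.lf (nat_lit 0) (nat_lit 284294013) (nat_lit 1140) (nat_lit 4671144137) (nat_lit 76) (nat_lit 3233526999) (nat_lit 225) (nat_lit 5) (nat_lit 240) (nat_lit 5) (nat_lit 226) (nat_lit 5) (nat_lit 318) (nat_lit 305) (nat_lit 277)) (XT.nd (nat_lit 78) (nat_lit 836) (nat_lit 0) (XT.lf (nat_lit 0) (nat_lit 2969174591) (nat_lit 1140) (nat_lit 440410168) (nat_lit 1216) (nat_lit 4951331219) (nat_lit 210) (nat_lit 5) (nat_lit 225) (nat_lit 5) (nat_lit 226) (nat_lit 5) (nat_lit 319) (nat_lit 305) (nat_lit 276)) (XT.lf (nat_lit 0) (nat_lit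 2432747171) (nat_lit 836) (nat_lit 4241715822) (nat_lit 912) (nat_lit 1867624761) (nat_lit 199) (nat_lit 5) (nat_lit 210) (nat_lit 5) (nat_lit 211) (nat_lit 5) (nat_lit 320) (nat_lit 305) (nat_lit 275))))) (XT.nd (nat_lit 234) (nat_lit 1140) (nat_lit 0) (XT.nd (nat_lit 78) (nat_lit 1064) (nat_lit 0) (XT.lf (nat_lit 0) (nat_lit 1302383459) (nat_lit 684) (nat_lit 6810723954) (nat_lit 76) (nat_lit 620163709) (nat_lit 190) (nat_lit 5) (nat_lit 199) (nat_lit 5) (nat_lit 191) (nat_lit 5) (nat_lit 321) (nat_lit 305) (nat_lit 274)) (XT.nd (nat_lit 78) (nat_lit 532) (nat_lit 0) (XT.lf (nat_lit 0) (nat_lit 1395052745) (nat_lit 532) (nat_lit 3195962351) (nat_lit 608) (nat_lit 4342589771) (nat_lit 183) (nat_lit 5) (nat_lit 190) (nat_lit 5) (nat_lit 191) (nat_lit 5) (nat_lit 322) (nat_lit 305) (nat_lit 273)) (XT.lf (nat_lit 0) (nat_lit 887746693) (nat_lit 532) (nat_lit 7137863886) (nat_lit 608) (nat_lit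 1119001989) (nat_lit 176) (nat_lit 5) (nat_lit 183) (nat_lit 5) (nat_lit 184) (nat_lit 5) (nat_lit 323) (nat_lit 305) (nat_lit 272)))) (XT.nd (nat_lit 78) (nat_lit 532) (nat_lit 0) (XT.lf (nat_lit 0) (nat_lit 360853115) (nat_lit 532) (nat_lit 1861296597) (nat_lit 608) (nat_lit 7143445067) (nat_lit 168) (nat_lit 5) (nat_lit 175) (nat_lit 5) (nat_lit 176) (nat_lit 5) (nat_lit 324) (nat_lit 305) (nat_lit 271)) (XT.nd (nat_lit 78) (nat_lit 532) (nat_lit 0) (XT.lf (nat_lit 0) (nat_lit 5719341860) (nat_lit 608) (nat_lit 180850232) (nat_lit 76) (nat_lit 3696828777) (nat_lit 168) (nat_lit 5) (nat_lit 176) (nat_lit 5) (nat_lit 169) (nat_lit 5) (nat_lit 325) (nat_lit 305) (nat_lit 270)) (XT.lf (nat_lit 0) (nat_lit 9129042469) (nat_lit 532) (nat_lit 264802033) (nat_lit 608) (nat_lit 446186818) (nat_lit 161) (nat_lit 5) (nat_lit 168) (nat_lit 5) (nat_lit 169) (nat_lit 5) (nat_lit 326) (nat_lit 305) (nat_lit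 269))))))))
noncomputable def xc59 : XT := (XT.nd (nat_lit 1794) (nat_lit 2812) (nat_lit 0) (XT.nd (nat_lit 858) (nat_lit 2888) (nat_lit 0) (XT.nd (nat_lit 390) (nat_lit 2280) (nat_lit 0) (XT.nd (nat_lit 156) (nat_lit 1368) (nat_lit 0) (XT.nd (nat_lit 78) (nat_lit 456) (nat_lit 0) (XT.lf (nat_lit 0) (nat_lit 3136254562) (nat_lit 532) (nat_lit 1308286472) (nat_lit 76) (nat_lit 5648591640) (nat_lit 154) (nat_lit 5) (nat_lit 161) (nat_lit 5) (nat_lit 155) (nat_lit 5) (nat_lit 327) (nat_lit 305) (nat_lit 268)) (XT.lf (nat_lit 0) (nat_lit 6897526914) (nat_lit 532) (nat_lit 1917711806) (nat_lit 76) (nat_lit 1543325989) (nat_lit 148) (nat_lit 5) (nat_lit 155) (nat_lit 5) (nat_lit 149) (nat_lit 5) (nat_lit 328) (nat_lit 305) (nat_lit 267))) (XT.nd (nat_lit 78) (nat_lit 836) (nat_lit 0) (XT.lf (nat_lit 0) (nat_lit 247672416) (nat_lit 532) (nat_lit 2570644428) (nat_lit 76) (nat_lit 7817696522) (nat_lit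 141) (nat_lit 5) (nat_lit 148) (nat_lit 5) (nat_lit 142) (nat_lit 5) (nat_lit 329) (nat_lit 305) (nat_lit 266)) (XT.nd (nat_lit 78) (nat_lit 380) (nat_lit 0) (XT.lf (nat_lit 0) (nat_lit 4107315628) (nat_lit 532) (nat_lit 3296618395) (nat_lit 76) (nat_lit 3521327234) (nat_lit 135) (nat_lit 5) (nat_lit 142) (nat_lit 5) (nat_lit 136) (nat_lit 5) (nat_lit 330) (nat_lit 305) (nat_lit 265)) (XT.lf (nat_lit 0) (nat_lit 7164020377) (nat_lit 380) (nat_lit 1031376761) (nat_lit 456) (nat_lit 3032574666) (nat_lit 130) (nat_lit 5) (nat_lit 135) (nat_lit 5) (nat_lit 136) (nat_lit 5) (nat_lit 331) (nat_lit 305) (nat_lit 264))))) (XT.nd (nat_lit 234) (nat_lit 1064) (nat_lit 0) (XT.nd (nat_lit 78) (nat_lit 760) (nat_lit 0) (XT.lf (nat_lit 0) (nat_lit 991154507) (nat_lit 456) (nat_lit 4916790098) (nat_lit 76) (nat_lit 5635636545) (nat_lit 124) (nat_lit 5) (nat_lit 130) (nat_lit 5) (nat_lit 125) (nat_lit 5) (nat_lit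 332) (nat_lit 305) (nat_lit 263)) (XT.nd (nat_lit 78) (nat_lit 380) (nat_lit 0) (XT.lf (nat_lit 0) (nat_lit 5189314532) (nat_lit 456) (nat_lit 5850244943) (nat_lit 76) (nat_lit 833488154) (nat_lit 119) (nat_lit 5) (nat_lit 125) (nat_lit 5) (nat_lit 120) (nat_lit 5) (nat_lit 333) (nat_lit 305) (nat_lit 262)) (XT.lf (nat_lit 0) (nat_lit 5331107194) (nat_lit 380) (nat_lit 4347563624) (nat_lit 456) (nat_lit 2537931596) (nat_lit 114) (nat_lit 5) (nat_lit 119) (nat_lit 5) (nat_lit 120) (nat_lit 5) (nat_lit 334) (nat_lit 305) (nat_lit 261)))) (XT.nd (nat_lit 78) (nat_lit 684) (nat_lit 0) (XT.lf (nat_lit 0) (nat_lit 1832637142) (nat_lit 380) (nat_lit 8019104367) (nat_lit 76) (nat_lit 2723532640) (nat_lit 109) (nat_lit 5) (nat_lit 114) (nat_lit 5) (nat_lit 110) (nat_lit 5) (nat_lit 335) (nat_lit 305) (nat_lit 260)) (XT.nd (nat_lit 78) (nat_lit 304) (nat_lit 0) (XT.lf (nat_lit 0) (nat_lit 3660271654)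 (nat_lit 380) (nat_lit 2783923329) (nat_lit 456) (nat_lit 6504729404) (nat_lit 104) (nat_lit 5) (nat_lit 109) (nat_lit 5) (nat_lit 110) (nat_lit 5) (nat_lit 336) (nat_lit 305) (nat_lit 259)) (XT.lf (nat_lit 0) (nat_lit 2654849589) (nat_lit 304) (nat_lit 8711131851) (nat_lit 380) (nat_lit 1972931151) (nat_lit 100) (nat_lit 5) (nat_lit 104) (nat_lit 5) (nat_lit 105) (nat_lit 5) (nat_lit 337) (nat_lit 305) (nat_lit 258)))))) (XT.nd (nat_lit 468) (nat_lit 1292) (nat_lit 0) (XT.nd (nat_lit 234) (nat_lit 912) (nat_lit 0) (XT.nd (nat_lit 78) (nat_lit 304) (nat_lit 0) (XT.lf (nat_lit 0) (nat_lit 1515382087) (nat_lit 304) (nat_lit 1282935201) (nat_lit 380) (nat_lit 10947304803) (nat_lit 95) (nat_lit 5) (nat_lit 99) (nat_lit 5) (nat_lit 100) (nat_lit 5) (nat_lit 338) (nat_lit 305) (nat_lit 257)) (XT.nd (nat_lit 78) (nat_lit 0) (nat_lit 0) (XT.lf (nat_lit 0) (nat_lit 197538849) (nat_lit 304) (nat_lit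 7675946511) (nat_lit 380) (nat_lit 6295450483) (nat_lit 91) (nat_lit 5) (nat_lit 95) (nat_lit 5) (nat_lit 96) (nat_lit 5) (nat_lit 339) (nat_lit 305) (nat_lit 256)) (XT.lf (nat_lit 0) (nat_lit 13274804371) (nat_lit 380) (nat_lit 1221826006) (nat_lit 76) (nat_lit 114650850) (nat_lit 91) (nat_lit 5) (nat_lit 96) (nat_lit 5) (nat_lit 92) (nat_lit 5) (nat_lit 340) (nat_lit 305) (nat_lit 255)))) (XT.nd (nat_lit 78) (nat_lit 532) (nat_lit 0) (XT.lf (nat_lit 0) (nat_lit 3926698006) (nat_lit 380) (nat_lit 2879396250) (nat_lit 76) (nat_lit 8264614984) (nat_lit 86) (nat_lit 5) (nat_lit 91) (nat_lit 5) (nat_lit 87) (nat_lit 5) (nat_lit 341) (nat_lit 305) (nat_lit 254)) (XT.nd (nat_lit 78) (nat_lit 304) (nat_lit 0) (XT.lf (nat_lit 0) (nat_lit 9492864736) (nat_lit 304) (nat_lit 4712254050) (nat_lit 76) (nat_lit 1345601907) (nat_lit 83) (nat_lit 5) (nat_lit 87) (nat_lit 5) (nat_lit 84) (nat_lit 5) (nat_lit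 342) (nat_lit 305) (nat_lit 253)) (XT.lf (nat_lit 0) (nat_lit 9267528979) (nat_lit 304) (nat_lit 6196360939) (nat_lit 380) (nat_lit 587077936) (nat_lit 79) (nat_lit 5) (nat_lit 83) (nat_lit 5) (nat_lit 84) (nat_lit 5) (nat_lit 343) (nat_lit 305) (nat_lit 252))))) (XT.nd (nat_lit 234) (nat_lit 456) (nat_lit 0) (XT.nd (nat_lit 78) (nat_lit 532) (nat_lit 0) (XT.lf (nat_lit 0) (nat_lit 5140358964) (nat_lit 304) (nat_lit 9121222482) (nat_lit 76) (nat_lit 2310675252) (nat_lit 75) (nat_lit 5) (nat_lit 79) (nat_lit 5) (nat_lit 76) (nat_lit 5) (nat_lit 344) (nat_lit 305) (nat_lit 251)) (XT.nd (nat_lit 78) (nat_lit 304) (nat_lit 0) (XT.lf (nat_lit 0) (nat_lit 5366764930) (nat_lit 228) (nat_lit 5901982675) (nat_lit 304) (nat_lit 5846914212) (nat_lit 72) (nat_lit 5) (nat_lit 75) (nat_lit 5) (nat_lit 76) (nat_lit 5) (nat_lit 345) (nat_lit 305) (nat_lit 250)) (XT.lf (nat_lit 0) (nat_lit 113043259) (nat_lit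 304) (nat_lit 14656759319) (nat_lit 76) (nat_lit 2913573498) (nat_lit 68) (nat_lit 5) (nat_lit 72) (nat_lit 5) (nat_lit 69) (nat_lit 5) (nat_lit 346) (nat_lit 305) (nat_lit 249)))) (XT.nd (nat_lit 78) (nat_lit 228) (nat_lit 0) (XT.lf (nat_lit 0) (nat_lit 309168110) (nat_lit 228) (nat_lit 6071580887) (nat_lit 304) (nat_lit 11893094672) (nat_lit 65) (nat_lit 5) (nat_lit 68) (nat_lit 5) (nat_lit 69) (nat_lit 5) (nat_lit 347) (nat_lit 305) (nat_lit 248)) (XT.nd (nat_lit 78) (nat_lit 228) (nat_lit 0) (XT.lf (nat_lit 0) (nat_lit 13090008321) (nat_lit 304) (nat_lit 2677019888) (nat_lit 76) (nat_lit 3122984748) (nat_lit 65) (nat_lit 5) (nat_lit 69) (nat_lit 5) (nat_lit 66) (nat_lit 5) (nat_lit 348) (nat_lit 305) (nat_lit 247)) (XT.lf (nat_lit 0) (nat_lit 727361356) (nat_lit 228) (nat_lit 6045225066) (nat_lit 76) (nat_lit 12760014950) (nat_lit 62) (nat_lit 5) (nat_lit 65) (nat_lit 5) (nat_lit 63) (nat_lit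 5) (nat_lit 349) (nat_lit 305) (nat_lit 246))))))) (XT.nd (nat_lit 858) (nat_lit 1064) (nat_lit 0) (XT.nd (nat_lit 390) (nat_lit 912) (nat_lit 0) (XT.nd (nat_lit 156) (nat_lit 456) (nat_lit 0) (XT.nd (nat_lit 78) (nat_lit 152) (nat_lit 0) (XT.lf (nat_lit 0) (nat_lit 7567088762) (nat_lit 304) (nat_lit 9858456083) (nat_lit 76) (nat_lit 2776893783) (nat_lit 59) (nat_lit 5) (nat_lit 63) (nat_lit 5) (nat_lit 60) (nat_lit 5) (nat_lit 350) (nat_lit 305) (nat_lit 245)) (XT.lf (nat_lit 0) (nat_lit 6758124249) (nat_lit 152) (nat_lit 8138248387) (nat_lit 228) (nat_lit 6004987603) (nat_lit 57) (nat_lit 5) (nat_lit 59) (nat_lit 5) (nat_lit 60) (nat_lit 5) (nat_lit 351) (nat_lit 305) (nat_lit 244))) (XT.nd (nat_lit 78) (nat_lit 152) (nat_lit 0) (XT.lf (nat_lit 0) (nat_lit 1036153645) (nat_lit 304) (nat_lit 18904928077) (nat_lit 76) (nat_lit 1690950380) (nat_lit 53) (nat_lit 5) (nat_lit 57) (nat_lit 5) (nat_lit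 54) (nat_lit 5) (nat_lit 352) (nat_lit 305) (nat_lit 243)) (XT.nd (nat_lit 78) (nat_lit 152) (nat_lit 0) (XT.lf (nat_lit 0) (nat_lit 8489214785) (nat_lit 304) (nat_lit 1879933242) (nat_lit 76) (nat_lit 12022801473) (nat_lit 53) (nat_lit 5) (nat_lit 57) (nat_lit 5) (nat_lit 54) (nat_lit 5) (nat_lit 353) (nat_lit 305) (nat_lit 242)) (XT.lf (nat_lit 0) (nat_lit 16239503580) (nat_lit 152) (nat_lit 187458738) (nat_lit 228) (nat_lit 6759555885) (nat_lit 51) (nat_lit 5) (nat_lit 53) (nat_lit 5) (nat_lit 54) (nat_lit 5) (nat_lit 354) (nat_lit 305) (nat_lit 241))))) (XT.nd (nat_lit 234) (nat_lit 532) (nat_lit 0) (XT.nd (nat_lit 78) (nat_lit 152) (nat_lit 0) (XT.lf (nat_lit 0) (nat_lit 914651105) (nat_lit 228) (nat_lit 12692885685) (nat_lit 76) (nat_lit 10407430385) (nat_lit 48) (nat_lit 5) (nat_lit 51) (nat_lit 5) (nat_lit 49) (nat_lit 5) (nat_lit 355) (nat_lit 305) (nat_lit 240)) (XT.nd (nat_lit 78)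 (nat_lit 0) (nat_lit 0) (XT.lf (nat_lit 0) (nat_lit 5736859287) (nat_lit 152) (nat_lit 3184472688) (nat_lit 228) (nat_lit 15958856458) (nat_lit 46) (nat_lit 5) (nat_lit 48) (nat_lit 5) (nat_lit 49) (nat_lit 5) (nat_lit 356) (nat_lit 305) (nat_lit 239)) (XT.lf (nat_lit 0) (nat_lit 17493954269) (nat_lit 228) (nat_lit 577585731) (nat_lit 76) (nat_lit 7712176317) (nat_lit 46) (nat_lit 5) (nat_lit 49) (nat_lit 5) (nat_lit 47) (nat_lit 5) (nat_lit 357) (nat_lit 305) (nat_lit 238)))) (XT.nd (nat_lit 78) (nat_lit 380) (nat_lit 0) (XT.lf (nat_lit 0) (nat_lit 19191867344) (nat_lit 152) (nat_lit 7480975692) (nat_lit 228) (nat_lit 54261624) (nat_lit 44) (nat_lit 5) (nat_lit 46) (nat_lit 5) (nat_lit 47) (nat_lit 5) (nat_lit 358) (nat_lit 305) (nat_lit 237)) (XT.nd (nat_lit 78) (nat_lit 152) (nat_lit 0) (XT.lf (nat_lit 0) (nat_lit 8548547691) (nat_lit 228) (nat_lit 15412709641) (nat_lit 76) (nat_lit 3750242752)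 (nat_lit 41) (nat_lit 5) (nat_lit 44) (nat_lit 5) (nat_lit 42) (nat_lit 5) (nat_lit 359) (nat_lit 305) (nat_lit 236)) (XT.lf (nat_lit 0) (nat_lit 4485128080) (nat_lit 152) (nat_lit 13255013576) (nat_lit 228) (nat_lit 11000176073) (nat_lit 39) (nat_lit 5) (nat_lit 41) (nat_lit 5) (nat_lit 42) (nat_lit 5) (nat_lit 360) (nat_lit 305) (nat_lit 235)))))) (XT.nd (nat_lit 468) (nat_lit 380) (nat_lit 0) (XT.nd (nat_lit 234) (nat_lit 304) (nat_lit 0) (XT.nd (nat_lit 78) (nat_lit 380) (nat_lit 0) (XT.lf (nat_lit 0) (nat_lit 25637028872) (nat_lit 152) (nat_lit 1876911732) (nat_lit 228) (nat_lit 2302967904) (nat_lit 39) (nat_lit 5) (nat_lit 41) (nat_lit 5) (nat_lit 42) (nat_lit 5) (nat_lit 361) (nat_lit 305) (nat_lit 234)) (XT.nd (nat_lit 78) (nat_lit 152) (nat_lit 0) (XT.lf (nat_lit 0) (nat_lit 6924440392) (nat_lit 228) (nat_lit 13933553989) (nat_lit 76) (nat_lit 10080517256) (nat_lit 36) (nat_lit 5)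 (nat_lit 39) (nat_lit 5) (nat_lit 37) (nat_lit 5) (nat_lit 362) (nat_lit 305) (nat_lit 233)) (XT.lf (nat_lit 0) (nat_lit 7260901464) (nat_lit 152) (nat_lit 9403498774) (nat_lit 228) (nat_lit 15448156029) (nat_lit 34) (nat_lit 5) (nat_lit 36) (nat_lit 5) (nat_lit 37) (nat_lit 5) (nat_lit 363) (nat_lit 305) (nat_lit 232)))) (XT.nd (nat_lit 78) (nat_lit 304) (nat_lit 0) (XT.lf (nat_lit 0) (nat_lit 27028417364) (nat_lit 228) (nat_lit 3620081963) (nat_lit 76) (nat_lit 2692701256) (nat_lit 34) (nat_lit 5) (nat_lit 37) (nat_lit 5) (nat_lit 35) (nat_lit 4) (nat_lit 364) (nat_lit 305) (nat_lit 231)) (XT.nd (nat_lit 78) (nat_lit 152) (nat_lit 0) (XT.lf (nat_lit 0) (nat_lit 3462843289) (nat_lit 152) (nat_lit 15766992593) (nat_lit 76) (nat_lit 15393079760) (nat_lit 32) (nat_lit 5) (nat_lit 34) (nat_lit 5) (nat_lit 33) (nat_lit 5) (nat_lit 365) (nat_lit 305) (nat_lit 230)) (XT.lf (nat_lit 0) (nat_lit 6573042721)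 (nat_lit 152) (nat_lit 7094904993) (nat_lit 228) (nat_lit 22296764147) (nat_lit 30) (nat_lit 5) (nat_lit 32) (nat_lit 5) (nat_lit 33) (nat_lit 5) (nat_lit 366) (nat_lit 305) (nat_lit 229))))) (XT.nd (nat_lit 234) (nat_lit 76) (nat_lit 0) (XT.nd (nat_lit 78) (nat_lit 304) (nat_lit 0) (XT.lf (nat_lit 0) (nat_lit 24571451050) (nat_lit 228) (nat_lit 7119069153) (nat_lit 76) (nat_lit 5677441121) (nat_lit 30) (nat_lit 5) (nat_lit 33) (nat_lit 5) (nat_lit 31) (nat_lit 4) (nat_lit 367) (nat_lit 305) (nat_lit 228)) (XT.nd (nat_lit 78) (nat_lit 228) (nat_lit 0) (XT.lf (nat_lit 0) (nat_lit 16465405006) (nat_lit 76) (nat_lit 19755990857) (nat_lit 152) (nat_lit 2613946783) (nat_lit 29) (nat_lit 5) (nat_lit 30) (nat_lit 5) (nat_lit 31) (nat_lit 4) (nat_lit 368) (nat_lit 305) (nat_lit 227)) (XT.lf (nat_lit 0) (nat_lit 892483340) (nat_lit 152) (nat_lit 7082206028) (nat_lit 228) (nat_lit 32397443927) (nat_lit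 26) (nat_lit 5) (nat_lit 28) (nat_lit 5) (nat_lit 29) (nat_lit 5) (nat_lit 369) (nat_lit 305) (nat_lit 226)))) (XT.nd (nat_lit 78) (nat_lit 76) (nat_lit 0) (XT.lf (nat_lit 0) (nat_lit 19304232030) (nat_lit 228) (nat_lit 16331564332) (nat_lit 76) (nat_lit 6341231134) (nat_lit 26) (nat_lit 5) (nat_lit 29) (nat_lit 5) (nat_lit 27) (nat_lit 4) (nat_lit 370) (nat_lit 305) (nat_lit 225)) (XT.nd (nat_lit 78) (nat_lit 0) (nat_lit 0) (XT.lf (nat_lit 0) (nat_lit 8011445575) (nat_lit 76) (nat_lit 23311235542) (nat_lit 152) (nat_lit 12335818598) (nat_lit 25) (nat_lit 5) (nat_lit 26) (nat_lit 5) (nat_lit 27) (nat_lit 4) (nat_lit 371) (nat_lit 305) (nat_lit 224)) (XT.lf (nat_lit 0) (nat_lit 33866914601) (nat_lit 76) (nat_lit 10217992280) (nat_lit 152) (nat_lit 1334858927) (nat_lit 25) (nat_lit 5) (nat_lit 26) (nat_lit 5) (nat_lit 27) (nat_lit 4) (nat_lit 372) (nat_lit 305) (nat_lit 223))))))))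
noncomputable def xc60 : XT := (XT.nd (nat_lit 41886) (nat_lit 0) (nat_lit 9348) (XT.nd (nat_lit 858) (nat_lit 228) (nat_lit 0) (XT.nd (nat_lit 390) (nat_lit 304) (nat_lit 0) (XT.nd (nat_lit 156) (nat_lit 228) (nat_lit 0) (XT.nd (nat_lit 78) (nat_lit 0) (nat_lit 0) (XT.lf (nat_lit 0) (nat_lit 10161890418) (nat_lit 228) (nat_lit 33424592191) (nat_lit 76) (nat_lit 3675319063) (nat_lit 22) (nat_lit 5) (nat_lit 25) (nat_lit 5) (nat_lit 23) (nat_lit 4) (nat_lit 373) (nat_lit 305) (nat_lit 222)) (XT.lf (nat_lit 0) (nat_lit 22405615160) (nat_lit 228) (nat_lit 8615490013) (nat_lit 76) (nat_lit 18168450502) (nat_lit 22) (nat_lit 5) (nat_lit 25) (nat_lit 5) (nat_lit 23) (nat_lit 4) (nat_lit 374) (nat_lit 305) (nat_lit 221))) (XT.nd (nat_lit 78) (nat_lit 152) (nat_lit 0) (XT.lf (nat_lit 0) (nat_lit 17738758070) (nat_lit 76) (nat_lit 17670666397) (nat_lit 152) (nat_lit 15799840903) (nat_lit 21) (nat_lit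 5) (nat_lit 22) (nat_lit 5) (nat_lit 23) (nat_lit 4) (nat_lit 375) (nat_lit 305) (nat_lit 220)) (XT.nd (nat_lit 78) (nat_lit 152) (nat_lit 0) (XT.lf (nat_lit 0) (nat_lit 45550489030) (nat_lit 76) (nat_lit 3579696552) (nat_lit 152) (nat_lit 4197776832) (nat_lit 21) (nat_lit 5) (nat_lit 22) (nat_lit 5) (nat_lit 23) (nat_lit 4) (nat_lit 376) (nat_lit 305) (nat_lit 219)) (XT.lf (nat_lit 0) (nat_lit 8104852302) (nat_lit 152) (nat_lit 36191062162) (nat_lit 76) (nat_lit 11246093690) (nat_lit 19) (nat_lit 5) (nat_lit 21) (nat_lit 5) (nat_lit 20) (nat_lit 4) (nat_lit 377) (nat_lit 305) (nat_lit 218))))) (XT.nd (nat_lit 234) (nat_lit 228) (nat_lit 0) (XT.nd (nat_lit 78) (nat_lit 76) (nat_lit 0) (XT.lf (nat_lit 0) (nat_lit 21032971627) (nat_lit 152) (nat_lit 9983449654) (nat_lit 76) (nat_lit 26846176922) (nat_lit 19) (nat_lit 5) (nat_lit 21) (nat_lit 5) (nat_lit 20) (nat_lit 4) (nat_lit 378) (nat_lit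 305) (nat_lit 217)) (XT.nd (nat_lit 78) (nat_lit 0) (nat_lit 0) (XT.lf (nat_lit 0) (nat_lit 17846492467) (nat_lit 76) (nat_lit 16912920139) (nat_lit 152) (nat_lit 25535251624) (nat_lit 18) (nat_lit 5) (nat_lit 19) (nat_lit 5) (nat_lit 20) (nat_lit 4) (nat_lit 379) (nat_lit 305) (nat_lit 216)) (XT.lf (nat_lit 0) (nat_lit 47241296613) (nat_lit 76) (nat_lit 2014610210) (nat_lit 152) (nat_lit 13589918559) (nat_lit 18) (nat_lit 5) (nat_lit 19) (nat_lit 5) (nat_lit 20) (nat_lit 4) (nat_lit 380) (nat_lit 305) (nat_lit 215)))) (XT.nd (nat_lit 78) (nat_lit 152) (nat_lit 0) (XT.lf (nat_lit 0) (nat_lit 12663418847) (nat_lit 76) (nat_lit 52048260553) (nat_lit 76) (nat_lit 805835160) (nat_lit 17) (nat_lit 4) (nat_lit 18) (nat_lit 5) (nat_lit 18) (nat_lit 4) (nat_lit 381) (nat_lit 305) (nat_lit 214)) (XT.nd (nat_lit 78) (nat_lit 76) (nat_lit 0) (XT.lf (nat_lit 0) (nat_lit 12535892655) (nat_lit 152) (nat_lit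 25823693138) (nat_lit 76) (nat_lit 29954627548) (nat_lit 16) (nat_lit 5) (nat_lit 18) (nat_lit 5) (nat_lit 17) (nat_lit 4) (nat_lit 382) (nat_lit 305) (nat_lit 213)) (XT.lf (nat_lit 0) (nat_lit 2568438881) (nat_lit 76) (nat_lit 23967392059) (nat_lit 152) (nat_lit 44714446216) (nat_lit 15) (nat_lit 5) (nat_lit 16) (nat_lit 5) (nat_lit 17) (nat_lit 4) (nat_lit 383) (nat_lit 305) (nat_lit 212)))))) (XT.nd (nat_lit 390) (nat_lit 76) (nat_lit 0) (XT.nd (nat_lit 156) (nat_lit 152) (nat_lit 0) (XT.nd (nat_lit 78) (nat_lit 0) (nat_lit 0) (XT.lf (nat_lit 0) (nat_lit 32888950921) (nat_lit 76) (nat_lit 8596108422) (nat_lit 152) (nat_lit 32840609024) (nat_lit 15) (nat_lit 5) (nat_lit 16) (nat_lit 5) (nat_lit 17) (nat_lit 4) (nat_lit 384) (nat_lit 305) (nat_lit 211)) (XT.lf (nat_lit 0) (nat_lit 57238381681) (nat_lit 152) (nat_lit 12931595870) (nat_lit 0) (nat_lit 7383155473) (nat_lit 15) (nat_lit 5) (nat_lit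 17) (nat_lit 4) (nat_lit 15) (nat_lit 4) (nat_lit 385) (nat_lit 305) (nat_lit 210))) (XT.nd (nat_lit 78) (nat_lit 76) (nat_lit 0) (XT.lf (nat_lit 0) (nat_lit 17219713767) (nat_lit 76) (nat_lit 56796819182) (nat_lit 76) (nat_lit 6918325801) (nat_lit 14) (nat_lit 4) (nat_lit 15) (nat_lit 5) (nat_lit 15) (nat_lit 4) (nat_lit 386) (nat_lit 305) (nat_lit 209)) (XT.nd (nat_lit 78) (nat_lit 0) (nat_lit 0) (XT.lf (nat_lit 0) (nat_lit 7128058539) (nat_lit 152) (nat_lit 35430693756) (nat_lit 76) (nat_lit 41921271104) (nat_lit 13) (nat_lit 5) (nat_lit 15) (nat_lit 5) (nat_lit 14) (nat_lit 4) (nat_lit 387) (nat_lit 305) (nat_lit 208)) (XT.lf (nat_lit 0) (nat_lit 21720898022) (nat_lit 152) (nat_lit 5828333616) (nat_lit 76) (nat_lit 60651545565) (nat_lit 13) (nat_lit 5) (nat_lit 15) (nat_lit 5) (nat_lit 14) (nat_lit 4) (nat_lit 388) (nat_lit 305) (nat_lit 207))))) (XT.nd (nat_lit 40404) (nat_lit 0) (nat_lit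 21432) (XT.nd (nat_lit 78) (nat_lit 0) (nat_lit 0) (XT.lf (nat_lit 0) (nat_lit 25731025409) (nat_lit 76) (nat_lit 11546255906) (nat_lit 152) (nat_lit 54823272613) (nat_lit 12) (nat_lit 5) (nat_lit 13) (nat_lit 5) (nat_lit 14) (nat_lit 4) (nat_lit 389) (nat_lit 305) (nat_lit 206)) (XT.nd (nat_lit 78) (nat_lit 0) (nat_lit 0) (XT.lf (nat_lit 0) (nat_lit 53709461371) (nat_lit 152) (nat_lit 37279282526) (nat_lit 0) (nat_lit 5203638438) (nat_lit 12) (nat_lit 5) (nat_lit 14) (nat_lit 4) (nat_lit 12) (nat_lit 4) (nat_lit 390) (nat_lit 305) (nat_lit 205)) (XT.lf (nat_lit 0) (nat_lit 71067269375) (nat_lit 152) (nat_lit 6874667303) (nat_lit 0) (nat_lit 22543746987) (nat_lit 12) (nat_lit 5) (nat_lit 14) (nat_lit 4) (nat_lit 12) (nat_lit 4) (nat_lit 391) (nat_lit 305) (nat_lit 204)))) (XT.nd (nat_lit 78) (nat_lit 684) (nat_lit 0) (XT.lf (nat_lit 0) (nat_lit 1338650668) (nat_lit 684) (nat_lit 1047088138)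 (nat_lit 684) (nat_lit 1047088138) (nat_lit 303) (nat_lit 3) (nat_lit 312) (nat_lit 3) (nat_lit 312) (nat_lit 5) (nat_lit 306) (nat_lit 306) (nat_lit 288)) (XT.nd (nat_lit 78) (nat_lit 684) (nat_lit 0) (XT.lf (nat_lit 76) (nat_lit 3338112369) (nat_lit 0) (nat_lit 2520634180) (nat_lit 684) (nat_lit 1081300524) (nat_lit 304) (nat_lit 5) (nat_lit 303) (nat_lit 3) (nat_lit 312) (nat_lit 5) (nat_lit 307) (nat_lit 306) (nat_lit 287)) (XT.lf (nat_lit 76) (nat_lit 1977685652) (nat_lit 0) (nat_lit 1125221) (nat_lit 760) (nat_lit 5043748979) (nat_lit 295) (nat_lit 5) (nat_lit 294) (nat_lit 5) (nat_lit 304) (nat_lit 5) (nat_lit 308) (nat_lit 306) (nat_lit 286))))))) (XT.nd (nat_lit 858) (nat_lit 6840) (nat_lit 0) (XT.nd (nat_lit 390) (nat_lit 3876) (nat_lit 0) (XT.nd (nat_lit 156) (nat_lit 684) (nat_lit 0) (XT.nd (nat_lit 78) (nat_lit 760) (nat_lit 0) (XT.lf (nat_lit 76) (nat_lit 668090310) (nat_lit 0)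 (nat_lit 4379832724) (nat_lit 760) (nat_lit 2064828986) (nat_lit 296) (nat_lit 5) (nat_lit 295) (nat_lit 5) (nat_lit 305) (nat_lit 5) (nat_lit 309) (nat_lit 306) (nat_lit 285)) (XT.lf (nat_lit 0) (nat_lit 909649764) (nat_lit 760) (nat_lit 556921398) (nat_lit 836) (nat_lit 5744764051) (nat_lit 285) (nat_lit 5) (nat_lit 295) (nat_lit 5) (nat_lit 296) (nat_lit 5) (nat_lit 310) (nat_lit 306) (nat_lit 284))) (XT.nd (nat_lit 78) (nat_lit 760) (nat_lit 0) (XT.lf (nat_lit 0) (nat_lit 3884865664) (nat_lit 760) (nat_lit 1728087425) (nat_lit 836) (nat_lit 1704638381) (nat_lit 286) (nat_lit 5) (nat_lit 296) (nat_lit 5) (nat_lit 297) (nat_lit 5) (nat_lit 311) (nat_lit 306) (nat_lit 283)) (XT.nd (nat_lit 78) (nat_lit 760) (nat_lit 0) (XT.lf (nat_lit 76) (nat_lit 4590757159) (nat_lit 0) (nat_lit 2314538307) (nat_lit 836) (nat_lit 527160748) (nat_lit 287) (nat_lit 5) (nat_lit 286) (nat_lit 5) (nat_lit 297)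 (nat_lit 5) (nat_lit 312) (nat_lit 306) (nat_lit 282)) (XT.lf (nat_lit 0) (nat_lit 2376708066) (nat_lit 836) (nat_lit 3922435621) (nat_lit 912) (nat_lit 1256299587) (nat_lit 276) (nat_lit 5) (nat_lit 287) (nat_lit 5) (nat_lit 288) (nat_lit 5) (nat_lit 313) (nat_lit 306) (nat_lit 281))))) (XT.nd (nat_lit 234) (nat_lit 2128) (nat_lit 0) (XT.nd (nat_lit 78) (nat_lit 1748) (nat_lit 0) (XT.lf (nat_lit 76) (nat_lit 2718904430) (nat_lit 0) (nat_lit 2619259643) (nat_lit 912) (nat_lit 2348726814) (nat_lit 277) (nat_lit 5) (nat_lit 276) (nat_lit 5) (nat_lit 288) (nat_lit 5) (nat_lit 314) (nat_lit 306) (nat_lit 280)) (XT.nd (nat_lit 78) (nat_lit 912) (nat_lit 0) (XT.lf (nat_lit 0) (nat_lit 531238119) (nat_lit 912) (nat_lit 5972235119) (nat_lit 76) (nat_lit 1323793893) (nat_lit 265) (nat_lit 5) (nat_lit 277) (nat_lit 5) (nat_lit 266) (nat_lit 5) (nat_lit 315) (nat_lit 306) (nat_lit 279)) (XT.lf (nat_lit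 0) (nat_lit 1004975353) (nat_lit 912) (nat_lit 2445232162) (nat_lit 988) (nat_lit 4525596357) (nat_lit 253) (nat_lit 5) (nat_lit 265) (nat_lit 5) (nat_lit 266) (nat_lit 5) (nat_lit 316) (nat_lit 306) (nat_lit 278)))) (XT.nd (nat_lit 78) (nat_lit 1140) (nat_lit 0) (XT.lf (nat_lit 0) (nat_lit 196509735) (nat_lit 988) (nat_lit 6261527286) (nat_lit 1064) (nat_lit 1675582864) (nat_lit 240) (nat_lit 5) (nat_lit 253) (nat_lit 5) (nat_lit 254) (nat_lit 5) (nat_lit 317) (nat_lit 306) (nat_lit 277)) (XT.nd (nat_lit 78) (nat_lit 1064) (nat_lit 0) (XT.lf (nat_lit 0) (nat_lit 1253935255) (nat_lit 1064) (nat_lit 582028256) (nat_lit 76) (nat_lit 6464231600) (nat_lit 239) (nat_lit 5) (nat_lit 253) (nat_lit 5) (nat_lit 240) (nat_lit 5) (nat_lit 318) (nat_lit 306) (nat_lit 276)) (XT.lf (nat_lit 0) (nat_lit 4264373110) (nat_lit 1140) (nat_lit 1350268544) (nat_lit 76) (nat_lit 2861009918) (nat_lit 225) (nat_lit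 5) (nat_lit 240) (nat_lit 5) (nat_lit 226) (nat_lit 5) (nat_lit 319) (nat_lit 306) (nat_lit 275)))))) (XT.nd (nat_lit 468) (nat_lit 2508) (nat_lit 0) (XT.nd (nat_lit 234) (nat_lit 1672) (nat_lit 0) (XT.nd (nat_lit 78) (nat_lit 1520) (nat_lit 0) (XT.lf (nat_lit 0) (nat_lit 6570179018) (nat_lit 1140) (nat_lit 820086670) (nat_lit 1216) (nat_lit 1270784416) (nat_lit 210) (nat_lit 5) (nat_lit 225) (nat_lit 5) (nat_lit 226) (nat_lit 5) (nat_lit 320) (nat_lit 306) (nat_lit 274)) (XT.nd (nat_lit 78) (nat_lit 608) (nat_lit 0) (XT.lf (nat_lit 0) (nat_lit 1775712461) (nat_lit 912) (nat_lit 2847566479) (nat_lit 76) (nat_lit 4232191239) (nat_lit 198) (nat_lit 5) (nat_lit 210) (nat_lit 5) (nat_lit 199) (nat_lit 5) (nat_lit 321) (nat_lit 306) (nat_lit 273)) (XT.lf (nat_lit 0) (nat_lit 4921923842) (nat_lit 684) (nat_lit 3593698397) (nat_lit 76) (nat_lit 544504651) (nat_lit 190) (nat_lit 5) (nat_lit 199) (nat_lit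 5) (nat_lit 191) (nat_lit 5) (nat_lit 322) (nat_lit 306) (nat_lit 272)))) (XT.nd (nat_lit 78) (nat_lit 1140) (nat_lit 0) (XT.lf (nat_lit 0) (nat_lit 4920390342) (nat_lit 532) (nat_lit 3318555761) (nat_lit 608) (nat_lit 1035763645) (nat_lit 183) (nat_lit 5) (nat_lit 190) (nat_lit 5) (nat_lit 191) (nat_lit 5) (nat_lit 323) (nat_lit 306) (nat_lit 271)) (XT.nd (nat_lit 78) (nat_lit 532) (nat_lit 0) (XT.lf (nat_lit 0) (nat_lit 2172553739) (nat_lit 608) (nat_lit 5130720117) (nat_lit 76) (nat_lit 2196374748) (nat_lit 175) (nat_lit 5) (nat_lit 183) (nat_lit 5) (nat_lit 176) (nat_lit 5) (nat_lit 324) (nat_lit 306) (nat_lit 270)) (XT.lf (nat_lit 0) (nat_lit 3805469804) (nat_lit 532) (nat_lit 1726990749) (nat_lit 608) (nat_lit 4202774937) (nat_lit 168) (nat_lit 5) (nat_lit 175) (nat_lit 5) (nat_lit 176) (nat_lit 5) (nat_lit 325) (nat_lit 306) (nat_lit 269))))) (XT.nd (nat_lit 234) (nat_lit 988) (nat_lit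 0) (XT.nd (nat_lit 78) (nat_lit 988) (nat_lit 0) (XT.lf (nat_lit 0) (nat_lit 3228368578) (nat_lit 532) (nat_lit 5856915315) (nat_lit 608) (nat_lit 896652650) (nat_lit 161) (nat_lit 5) (nat_lit 168) (nat_lit 5) (nat_lit 169) (nat_lit 5) (nat_lit 326) (nat_lit 306) (nat_lit 268)) (XT.nd (nat_lit 78) (nat_lit 456) (nat_lit 0) (XT.lf (nat_lit 0) (nat_lit 2533371085) (nat_lit 532) (nat_lit 7611253015) (nat_lit 76) (nat_lit 95417130) (nat_lit 154) (nat_lit 5) (nat_lit 161) (nat_lit 5) (nat_lit 155) (nat_lit 5) (nat_lit 327) (nat_lit 306) (nat_lit 267)) (XT.lf (nat_lit 0) (nat_lit 1974492146) (nat_lit 456) (nat_lit 4197354577) (nat_lit 532) (nat_lit 4337345865) (nat_lit 148) (nat_lit 5) (nat_lit 154) (nat_lit 5) (nat_lit 155) (nat_lit 5) (nat_lit 328) (nat_lit 306) (nat_lit 266)))) (XT.nd (nat_lit 78) (nat_lit 532) (nat_lit 0) (XT.lf (nat_lit 0) (nat_lit 1307038488) (nat_lit 456) (nat_lit 8706874273)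 (nat_lit 532) (nat_lit 777307911) (nat_lit 142) (nat_lit 5) (nat_lit 148) (nat_lit 5) (nat_lit 149) (nat_lit 5) (nat_lit 329) (nat_lit 306) (nat_lit 265)) (XT.nd (nat_lit 78) (nat_lit 0) (nat_lit 0) (XT.lf (nat_lit 0) (nat_lit 568020170) (nat_lit 456) (nat_lit 2384136291) (nat_lit 532) (nat_lit 8132927860) (nat_lit 135) (nat_lit 5) (nat_lit 141) (nat_lit 5) (nat_lit 142) (nat_lit 5) (nat_lit 330) (nat_lit 306) (nat_lit 264)) (XT.lf (nat_lit 0) (nat_lit 6907303432) (nat_lit 532) (nat_lit 224640615) (nat_lit 76) (nat_lit 4259868563) (nat_lit 135) (nat_lit 5) (nat_lit 142) (nat_lit 5) (nat_lit 136) (nat_lit 5) (nat_lit 331) (nat_lit 306) (nat_lit 263))))))))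
noncomputable def xc61 : XT := (XT.nd (nat_lit 1794) (nat_lit 2280) (nat_lit 0) (XT.nd (nat_lit 858) (nat_lit 2660) (nat_lit 0) (XT.nd (nat_lit 390) (nat_lit 1748) (nat_lit 0) (XT.nd (nat_lit 156) (nat_lit 1140) (nat_lit 0) (XT.nd (nat_lit 78) (nat_lit 456) (nat_lit 0) (XT.lf (nat_lit 0) (nat_lit 10666247624) (nat_lit 380) (nat_lit 440210267) (nat_lit 456) (nat_lit 606089920) (nat_lit 130) (nat_lit 5) (nat_lit 135) (nat_lit 5) (nat_lit 136) (nat_lit 5) (nat_lit 332) (nat_lit 306) (nat_lit 262)) (XT.lf (nat_lit 0) (nat_lit 3484400953) (nat_lit 456) (nat_lit 1989823415) (nat_lit 76) (nat_lit 6571575750) (nat_lit 124) (nat_lit 5) (nat_lit 130) (nat_lit 5) (nat_lit 125) (nat_lit 5) (nat_lit 333) (nat_lit 306) (nat_lit 261))) (XT.nd (nat_lit 78) (nat_lit 760) (nat_lit 0) (XT.lf (nat_lit 0) (nat_lit 7812695846) (nat_lit 456) (nat_lit 2995587841) (nat_lit 76) (nat_lit 1585927972) (nat_lit 119) (nat_lit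 5) (nat_lit 125) (nat_lit 5) (nat_lit 120) (nat_lit 5) (nat_lit 334) (nat_lit 306) (nat_lit 260)) (XT.nd (nat_lit 78) (nat_lit 380) (nat_lit 0) (XT.lf (nat_lit 0) (nat_lit 8654618925) (nat_lit 380) (nat_lit 3788718947) (nat_lit 456) (nat_lit 314176578) (nat_lit 114) (nat_lit 5) (nat_lit 119) (nat_lit 5) (nat_lit 120) (nat_lit 5) (nat_lit 335) (nat_lit 306) (nat_lit 259)) (XT.lf (nat_lit 0) (nat_lit 4155890523) (nat_lit 380) (nat_lit 5344267022) (nat_lit 76) (nat_lit 3635548328) (nat_lit 109) (nat_lit 5) (nat_lit 114) (nat_lit 5) (nat_lit 110) (nat_lit 5) (nat_lit 336) (nat_lit 306) (nat_lit 258))))) (XT.nd (nat_lit 234) (nat_lit 684) (nat_lit 0) (XT.nd (nat_lit 78) (nat_lit 684) (nat_lit 0) (XT.lf (nat_lit 0) (nat_lit 6830910823) (nat_lit 380) (nat_lit 2089566626) (nat_lit 456) (nat_lit 4609953511) (nat_lit 104) (nat_lit 5) (nat_lit 109) (nat_lit 5) (nat_lit 110) (nat_lit 5) (nat_lit 337) (nat_lit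 306) (nat_lit 257)) (XT.nd (nat_lit 78) (nat_lit 304) (nat_lit 0) (XT.lf (nat_lit 0) (nat_lit 78310866) (nat_lit 380) (nat_lit 8196899758) (nat_lit 76) (nat_lit 5666742873) (nat_lit 99) (nat_lit 5) (nat_lit 104) (nat_lit 5) (nat_lit 100) (nat_lit 5) (nat_lit 338) (nat_lit 306) (nat_lit 256)) (XT.lf (nat_lit 0) (nat_lit 4506568264) (nat_lit 304) (nat_lit 468703598) (nat_lit 380) (nat_lit 9395359999) (nat_lit 95) (nat_lit 5) (nat_lit 99) (nat_lit 5) (nat_lit 100) (nat_lit 5) (nat_lit 339) (nat_lit 306) (nat_lit 255)))) (XT.nd (nat_lit 78) (nat_lit 380) (nat_lit 0) (XT.lf (nat_lit 0) (nat_lit 3091547879) (nat_lit 304) (nat_lit 7151414095) (nat_lit 380) (nat_lit 4574041664) (nat_lit 91) (nat_lit 5) (nat_lit 95) (nat_lit 5) (nat_lit 96) (nat_lit 5) (nat_lit 340) (nat_lit 306) (nat_lit 254)) (XT.nd (nat_lit 78) (nat_lit 0) (nat_lit 0) (XT.lf (nat_lit 0) (nat_lit 548840701) (nat_lit 380) (nat_lit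 13745851533) (nat_lit 76) (nat_lit 988793335) (nat_lit 86) (nat_lit 5) (nat_lit 91) (nat_lit 5) (nat_lit 87) (nat_lit 5) (nat_lit 341) (nat_lit 306) (nat_lit 253)) (XT.lf (nat_lit 0) (nat_lit 5968233004) (nat_lit 380) (nat_lit 269835543) (nat_lit 76) (nat_lit 9529847141) (nat_lit 86) (nat_lit 5) (nat_lit 91) (nat_lit 5) (nat_lit 87) (nat_lit 5) (nat_lit 342) (nat_lit 306) (nat_lit 252)))))) (XT.nd (nat_lit 468) (nat_lit 1064) (nat_lit 0) (XT.nd (nat_lit 234) (nat_lit 760) (nat_lit 0) (XT.nd (nat_lit 78) (nat_lit 608) (nat_lit 0) (XT.lf (nat_lit 0) (nat_lit 11759121500) (nat_lit 304) (nat_lit 2227417854) (nat_lit 76) (nat_lit 2287042291) (nat_lit 83) (nat_lit 5) (nat_lit 87) (nat_lit 5) (nat_lit 84) (nat_lit 5) (nat_lit 343) (nat_lit 306) (nat_lit 251)) (XT.nd (nat_lit 78) (nat_lit 228) (nat_lit 0) (XT.lf (nat_lit 0) (nat_lit 1145307455) (nat_lit 380) (nat_lit 4438538007) (nat_lit 76) (nat_lit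 11216500390) (nat_lit 78) (nat_lit 5) (nat_lit 83) (nat_lit 5) (nat_lit 79) (nat_lit 5) (nat_lit 344) (nat_lit 306) (nat_lit 250)) (XT.lf (nat_lit 0) (nat_lit 7097521193) (nat_lit 304) (nat_lit 6933094219) (nat_lit 76) (nat_lit 3318433749) (nat_lit 75) (nat_lit 5) (nat_lit 79) (nat_lit 5) (nat_lit 76) (nat_lit 5) (nat_lit 345) (nat_lit 306) (nat_lit 249)))) (XT.nd (nat_lit 78) (nat_lit 532) (nat_lit 0) (XT.lf (nat_lit 0) (nat_lit 8203497406) (nat_lit 228) (nat_lit 5272561586) (nat_lit 304) (nat_lit 4445292513) (nat_lit 72) (nat_lit 5) (nat_lit 75) (nat_lit 5) (nat_lit 76) (nat_lit 5) (nat_lit 346) (nat_lit 306) (nat_lit 248)) (XT.nd (nat_lit 78) (nat_lit 228) (nat_lit 0) (XT.lf (nat_lit 0) (nat_lit 1733671306) (nat_lit 304) (nat_lit 12821940580) (nat_lit 76) (nat_lit 3962765101) (nat_lit 68) (nat_lit 5) (nat_lit 72) (nat_lit 5) (nat_lit 69) (nat_lit 5) (nat_lit 347) (nat_lit 306) (nat_lit 247))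 (XT.lf (nat_lit 0) (nat_lit 2818681856) (nat_lit 228) (nat_lit 5443151247) (nat_lit 304) (nat_lit 10878156953) (nat_lit 65) (nat_lit 5) (nat_lit 68) (nat_lit 5) (nat_lit 69) (nat_lit 5) (nat_lit 348) (nat_lit 306) (nat_lit 246))))) (XT.nd (nat_lit 234) (nat_lit 608) (nat_lit 0) (XT.nd (nat_lit 78) (nat_lit 456) (nat_lit 0) (XT.lf (nat_lit 0) (nat_lit 15240704637) (nat_lit 304) (nat_lit 398830787) (nat_lit 76) (nat_lit 4149440498) (nat_lit 65) (nat_lit 5) (nat_lit 69) (nat_lit 5) (nat_lit 66) (nat_lit 5) (nat_lit 349) (nat_lit 306) (nat_lit 245)) (XT.nd (nat_lit 78) (nat_lit 228) (nat_lit 0) (XT.lf (nat_lit 0) (nat_lit 2226139321) (nat_lit 228) (nat_lit 3974879358) (nat_lit 76) (nat_lit 14263737778) (nat_lit 62) (nat_lit 5) (nat_lit 65) (nat_lit 5) (nat_lit 63) (nat_lit 5) (nat_lit 350) (nat_lit 306) (nat_lit 244)) (XT.lf (nat_lit 0) (nat_lit 9368919796) (nat_lit 304) (nat_lit 8012312578) (nat_lit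 76) (nat_lit 3788049900) (nat_lit 59) (nat_lit 5) (nat_lit 63) (nat_lit 5) (nat_lit 60) (nat_lit 5) (nat_lit 351) (nat_lit 306) (nat_lit 243)))) (XT.nd (nat_lit 78) (nat_lit 456) (nat_lit 0) (XT.lf (nat_lit 0) (nat_lit 9368047904) (nat_lit 152) (nat_lit 7650675381) (nat_lit 228) (nat_lit 4885832349) (nat_lit 57) (nat_lit 5) (nat_lit 59) (nat_lit 5) (nat_lit 60) (nat_lit 5) (nat_lit 352) (nat_lit 306) (nat_lit 242)) (XT.nd (nat_lit 78) (nat_lit 152) (nat_lit 0) (XT.lf (nat_lit 0) (nat_lit 2443404261) (nat_lit 304) (nat_lit 17583482056) (nat_lit 76) (nat_lit 2645578643) (nat_lit 53) (nat_lit 5) (nat_lit 57) (nat_lit 5) (nat_lit 54) (nat_lit 5) (nat_lit 353) (nat_lit 306) (nat_lit 241)) (XT.lf (nat_lit 0) (nat_lit 188503161) (nat_lit 152) (nat_lit 10017882402) (nat_lit 228) (nat_lit 13265898721) (nat_lit 51) (nat_lit 5) (nat_lit 53) (nat_lit 5) (nat_lit 54) (nat_lit 5) (nat_lit 354) (nat_lit 306)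 (nat_lit 240))))))) (XT.nd (nat_lit 858) (nat_lit 988) (nat_lit 0) (XT.nd (nat_lit 390) (nat_lit 684) (nat_lit 0) (XT.nd (nat_lit 156) (nat_lit 380) (nat_lit 0) (XT.nd (nat_lit 78) (nat_lit 228) (nat_lit 0) (XT.lf (nat_lit 0) (nat_lit 18504146187) (nat_lit 228) (nat_lit 5165797589) (nat_lit 76) (nat_lit 637766798) (nat_lit 51) (nat_lit 5) (nat_lit 54) (nat_lit 5) (nat_lit 52) (nat_lit 5) (nat_lit 355) (nat_lit 306) (nat_lit 239)) (XT.lf (nat_lit 0) (nat_lit 2190561075) (nat_lit 228) (nat_lit 11236908141) (nat_lit 76) (nat_lit 11750917077) (nat_lit 48) (nat_lit 5) (nat_lit 51) (nat_lit 5) (nat_lit 49) (nat_lit 5) (nat_lit 356) (nat_lit 306) (nat_lit 238))) (XT.nd (nat_lit 78) (nat_lit 228) (nat_lit 0) (XT.lf (nat_lit 0) (nat_lit 8054396825) (nat_lit 152) (nat_lit 2504119566) (nat_lit 228) (nat_lit 15529544199) (nat_lit 46) (nat_lit 5) (nat_lit 48) (nat_lit 5) (nat_lit 49) (nat_lit 5) (nat_lit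 357) (nat_lit 306) (nat_lit 237)) (XT.nd (nat_lit 78) (nat_lit 76) (nat_lit 0) (XT.lf (nat_lit 0) (nat_lit 1381212472) (nat_lit 152) (nat_lit 18142800703) (nat_lit 228) (nat_lit 7513843615) (nat_lit 44) (nat_lit 5) (nat_lit 46) (nat_lit 5) (nat_lit 47) (nat_lit 5) (nat_lit 358) (nat_lit 306) (nat_lit 236)) (XT.lf (nat_lit 0) (nat_lit 1061453285) (nat_lit 228) (nat_lit 5984337923) (nat_lit 76) (nat_lit 20983810099) (nat_lit 43) (nat_lit 5) (nat_lit 46) (nat_lit 5) (nat_lit 44) (nat_lit 5) (nat_lit 359) (nat_lit 306) (nat_lit 235))))) (XT.nd (nat_lit 234) (nat_lit 380) (nat_lit 0) (XT.nd (nat_lit 78) (nat_lit 152) (nat_lit 0) (XT.lf (nat_lit 0) (nat_lit 10065671085) (nat_lit 228) (nat_lit 14286261878) (nat_lit 76) (nat_lit 4712112644) (nat_lit 41) (nat_lit 5) (nat_lit 44) (nat_lit 5) (nat_lit 42) (nat_lit 5) (nat_lit 360) (nat_lit 306) (nat_lit 234)) (XT.nd (nat_lit 78) (nat_lit 0) (nat_lit 0)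 (XT.lf (nat_lit 0) (nat_lit 6552088219) (nat_lit 152) (nat_lit 13130579440) (nat_lit 228) (nat_lit 10462677913) (nat_lit 39) (nat_lit 5) (nat_lit 41) (nat_lit 5) (nat_lit 42) (nat_lit 5) (nat_lit 361) (nat_lit 306) (nat_lit 233)) (XT.lf (nat_lit 0) (nat_lit 28673836253) (nat_lit 152) (nat_lit 1221057494) (nat_lit 228) (nat_lit 1382395382) (nat_lit 39) (nat_lit 5) (nat_lit 41) (nat_lit 5) (nat_lit 42) (nat_lit 5) (nat_lit 362) (nat_lit 306) (nat_lit 232)))) (XT.nd (nat_lit 78) (nat_lit 152) (nat_lit 0) (XT.lf (nat_lit 0) (nat_lit 8261514105) (nat_lit 228) (nat_lit 12882985805) (nat_lit 76) (nat_lit 11310927782) (nat_lit 36) (nat_lit 5) (nat_lit 39) (nat_lit 5) (nat_lit 37) (nat_lit 5) (nat_lit 363) (nat_lit 306) (nat_lit 231)) (XT.nd (nat_lit 78) (nat_lit 0) (nat_lit 0) (XT.lf (nat_lit 0) (nat_lit 9321107968) (nat_lit 152) (nat_lit 9136494715) (nat_lit 228) (nat_lit 15231511470) (nat_lit 34)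 (nat_lit 5) (nat_lit 36) (nat_lit 5) (nat_lit 37) (nat_lit 5) (nat_lit 364) (nat_lit 306) (nat_lit 230)) (XT.lf (nat_lit 0) (nat_lit 29300855993) (nat_lit 228) (nat_lit 2163804973) (nat_lit 76) (nat_lit 3515711538) (nat_lit 34) (nat_lit 5) (nat_lit 37) (nat_lit 5) (nat_lit 35) (nat_lit 4) (nat_lit 365) (nat_lit 306) (nat_lit 229)))))) (XT.nd (nat_lit 468) (nat_lit 380) (nat_lit 0) (XT.nd (nat_lit 234) (nat_lit 304) (nat_lit 0) (XT.nd (nat_lit 78) (nat_lit 152) (nat_lit 0) (XT.lf (nat_lit 0) (nat_lit 4537509264) (nat_lit 152) (nat_lit 14946813212) (nat_lit 76) (nat_lit 16842455069) (nat_lit 32) (nat_lit 5) (nat_lit 34) (nat_lit 5) (nat_lit 33) (nat_lit 5) (nat_lit 366) (nat_lit 306) (nat_lit 228)) (XT.nd (nat_lit 78) (nat_lit 0) (nat_lit 0) (XT.lf (nat_lit 0) (nat_lit 8464115706) (nat_lit 152) (nat_lit 6760842444) (nat_lit 228) (nat_lit 22511554089) (nat_lit 30) (nat_lit 5) (nat_lit 32) (nat_lit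 5) (nat_lit 33) (nat_lit 5) (nat_lit 367) (nat_lit 306) (nat_lit 227)) (XT.lf (nat_lit 0) (nat_lit 26638341976) (nat_lit 228) (nat_lit 5968132304) (nat_lit 76) (nat_lit 6604519537) (nat_lit 30) (nat_lit 5) (nat_lit 33) (nat_lit 5) (nat_lit 31) (nat_lit 4) (nat_lit 368) (nat_lit 306) (nat_lit 226)))) (XT.nd (nat_lit 78) (nat_lit 228) (nat_lit 0) (XT.lf (nat_lit 0) (nat_lit 18752370854) (nat_lit 76) (nat_lit 20092563190) (nat_lit 152) (nat_lit 1907595947) (nat_lit 29) (nat_lit 5) (nat_lit 30) (nat_lit 5) (nat_lit 31) (nat_lit 4) (nat_lit 369) (nat_lit 306) (nat_lit 225)) (XT.nd (nat_lit 78) (nat_lit 0) (nat_lit 0) (XT.lf (nat_lit 0) (nat_lit 2374906201) (nat_lit 152) (nat_lit 6793971351) (nat_lit 228) (nat_lit 33197808565) (nat_lit 26) (nat_lit 5) (nat_lit 28) (nat_lit 5) (nat_lit 29) (nat_lit 5) (nat_lit 370) (nat_lit 306) (nat_lit 224)) (XT.lf (nat_lit 0) (nat_lit 21032899183) (nat_lit 228)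 (nat_lit 15761782621) (nat_lit 76) (nat_lit 7258112229) (nat_lit 26) (nat_lit 5) (nat_lit 29) (nat_lit 5) (nat_lit 27) (nat_lit 4) (nat_lit 371) (nat_lit 306) (nat_lit 223))))) (XT.nd (nat_lit 234) (nat_lit 76) (nat_lit 0) (XT.nd (nat_lit 78) (nat_lit 228) (nat_lit 0) (XT.lf (nat_lit 0) (nat_lit 9758638052) (nat_lit 76) (nat_lit 23870222182) (nat_lit 152) (nat_lit 12190190569) (nat_lit 25) (nat_lit 5) (nat_lit 26) (nat_lit 5) (nat_lit 27) (nat_lit 4) (nat_lit 372) (nat_lit 306) (nat_lit 222)) (XT.nd (nat_lit 78) (nat_lit 228) (nat_lit 0) (XT.lf (nat_lit 0) (nat_lit 36842755759) (nat_lit 76) (nat_lit 10151201287) (nat_lit 152) (nat_lit 675488579) (nat_lit 25) (nat_lit 5) (nat_lit 26) (nat_lit 5) (nat_lit 27) (nat_lit 4) (nat_lit 373) (nat_lit 306) (nat_lit 221)) (XT.lf (nat_lit 0) (nat_lit 11365609961) (nat_lit 228) (nat_lit 33820788865) (nat_lit 76) (nat_lit 4417472232) (nat_lit 22) (nat_lit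 5) (nat_lit 25) (nat_lit 5) (nat_lit 23) (nat_lit 4) (nat_lit 374) (nat_lit 306) (nat_lit 220)))) (XT.nd (nat_lit 78) (nat_lit 76) (nat_lit 0) (XT.lf (nat_lit 0) (nat_lit 24188395940) (nat_lit 228) (nat_lit 7831947432) (nat_lit 76) (nat_lit 19608670376) (nat_lit 22) (nat_lit 5) (nat_lit 25) (nat_lit 5) (nat_lit 23) (nat_lit 4) (nat_lit 375) (nat_lit 306) (nat_lit 219)) (XT.nd (nat_lit 78) (nat_lit 0) (nat_lit 0) (XT.lf (nat_lit 0) (nat_lit 19805204900) (nat_lit 76) (nat_lit 18016981353) (nat_lit 152) (nat_lit 15928135849) (nat_lit 21) (nat_lit 5) (nat_lit 22) (nat_lit 5) (nat_lit 23) (nat_lit 4) (nat_lit 376) (nat_lit 306) (nat_lit 218)) (XT.lf (nat_lit 0) (nat_lit 48951355316) (nat_lit 76) (nat_lit 3247044843) (nat_lit 152) (nat_lit 3777477961) (nat_lit 21) (nat_lit 5) (nat_lit 22) (nat_lit 5) (nat_lit 23) (nat_lit 4) (nat_lit 377) (nat_lit 306) (nat_lit 217))))))))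
noncomputable def xc62 : XT := (XT.nd (nat_lit 42042) (nat_lit 0) (nat_lit 6992) (XT.nd (nat_lit 858) (nat_lit 76) (nat_lit 0) (XT.nd (nat_lit 390) (nat_lit 304) (nat_lit 0) (XT.nd (nat_lit 156) (nat_lit 152) (nat_lit 0) (XT.nd (nat_lit 78) (nat_lit 0) (nat_lit 0) (XT.lf (nat_lit 0) (nat_lit 9114012855) (nat_lit 152) (nat_lit 36884157853) (nat_lit 76) (nat_lit 12302698950) (nat_lit 19) (nat_lit 5) (nat_lit 21) (nat_lit 5) (nat_lit 20) (nat_lit 4) (nat_lit 378) (nat_lit 306) (nat_lit 216)) (XT.lf (nat_lit 0) (nat_lit 22659780149) (nat_lit 152) (nat_lit 9419329358) (nat_lit 76) (nat_lit 28659248222) (nat_lit 19) (nat_lit 5) (nat_lit 21) (nat_lit 5) (nat_lit 20) (nat_lit 4) (nat_lit 379) (nat_lit 306) (nat_lit 215))) (XT.nd (nat_lit 78) (nat_lit 76) (nat_lit 0) (XT.lf (nat_lit 0) (nat_lit 19771630795) (nat_lit 76) (nat_lit 17283451852) (nat_lit 152) (nat_lit 26237473731) (nat_lit 18) (nat_lit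 5) (nat_lit 19) (nat_lit 5) (nat_lit 20) (nat_lit 4) (nat_lit 380) (nat_lit 306) (nat_lit 214)) (XT.nd (nat_lit 78) (nat_lit 76) (nat_lit 0) (XT.lf (nat_lit 0) (nat_lit 50586993543) (nat_lit 76) (nat_lit 1662850916) (nat_lit 152) (nat_lit 13722233084) (nat_lit 18) (nat_lit 5) (nat_lit 19) (nat_lit 5) (nat_lit 20) (nat_lit 4) (nat_lit 381) (nat_lit 306) (nat_lit 213)) (XT.lf (nat_lit 0) (nat_lit 14263380695) (nat_lit 76) (nat_lit 54203168350) (nat_lit 76) (nat_lit 311162825) (nat_lit 17) (nat_lit 4) (nat_lit 18) (nat_lit 5) (nat_lit 18) (nat_lit 4) (nat_lit 382) (nat_lit 306) (nat_lit 212))))) (XT.nd (nat_lit 234) (nat_lit 152) (nat_lit 0) (XT.nd (nat_lit 78) (nat_lit 76) (nat_lit 0) (XT.lf (nat_lit 0) (nat_lit 13662234922) (nat_lit 152) (nat_lit 26184090251) (nat_lit 76) (nat_lit 31868520083) (nat_lit 16) (nat_lit 5) (nat_lit 18) (nat_lit 5) (nat_lit 17) (nat_lit 4) (nat_lit 383) (nat_lit 306)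 (nat_lit 211)) (XT.nd (nat_lit 78) (nat_lit 0) (nat_lit 0) (XT.lf (nat_lit 0) (nat_lit 3600967531) (nat_lit 76) (nat_lit 24746105435) (nat_lit 152) (nat_lit 46451096607) (nat_lit 15) (nat_lit 5) (nat_lit 16) (nat_lit 5) (nat_lit 17) (nat_lit 4) (nat_lit 384) (nat_lit 306) (nat_lit 210)) (XT.lf (nat_lit 0) (nat_lit 35394452472) (nat_lit 76) (nat_lit 8626241246) (nat_lit 152) (nat_lit 34007332886) (nat_lit 15) (nat_lit 5) (nat_lit 16) (nat_lit 5) (nat_lit 17) (nat_lit 4) (nat_lit 385) (nat_lit 306) (nat_lit 209)))) (XT.nd (nat_lit 78) (nat_lit 152) (nat_lit 0) (XT.lf (nat_lit 0) (nat_lit 60543370580) (nat_lit 152) (nat_lit 12748521101) (nat_lit 0) (nat_lit 8125526147) (nat_lit 15) (nat_lit 5) (nat_lit 17) (nat_lit 4) (nat_lit 15) (nat_lit 4) (nat_lit 386) (nat_lit 306) (nat_lit 208)) (XT.nd (nat_lit 78) (nat_lit 76) (nat_lit 0) (XT.lf (nat_lit 0) (nat_lit 18886572136) (nat_lit 76) (nat_lit 59260505254)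 (nat_lit 76) (nat_lit 6821556810) (nat_lit 14) (nat_lit 4) (nat_lit 15) (nat_lit 5) (nat_lit 15) (nat_lit 4) (nat_lit 387) (nat_lit 306) (nat_lit 207)) (XT.lf (nat_lit 0) (nat_lit 7897839464) (nat_lit 152) (nat_lit 36426433389) (nat_lit 76) (nat_lit 44367280145) (nat_lit 13) (nat_lit 5) (nat_lit 15) (nat_lit 5) (nat_lit 14) (nat_lit 4) (nat_lit 388) (nat_lit 306) (nat_lit 206)))))) (XT.nd (nat_lit 40716) (nat_lit 0) (nat_lit 19152) (XT.nd (nat_lit 40482) (nat_lit 0) (nat_lit 20672) (XT.nd (nat_lit 78) (nat_lit 76) (nat_lit 0) (XT.lf (nat_lit 0) (nat_lit 23200636254) (nat_lit 152) (nat_lit 5380897865) (nat_lit 76) (nat_lit 64017404259) (nat_lit 13) (nat_lit 5) (nat_lit 15) (nat_lit 5) (nat_lit 14) (nat_lit 4) (nat_lit 389) (nat_lit 306) (nat_lit 205)) (XT.nd (nat_lit 78) (nat_lit 0) (nat_lit 0) (XT.lf (nat_lit 0) (nat_lit 27735250055) (nat_lit 76) (nat_lit 11787740070) (nat_lit 152) (nat_lit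 57171072455) (nat_lit 12) (nat_lit 5) (nat_lit 13) (nat_lit 5) (nat_lit 14) (nat_lit 4) (nat_lit 390) (nat_lit 306) (nat_lit 204)) (XT.lf (nat_lit 0) (nat_lit 56761670568) (nat_lit 152) (nat_lit 38451852148) (nat_lit 0) (nat_lit 5777415983) (nat_lit 12) (nat_lit 5) (nat_lit 14) (nat_lit 4) (nat_lit 12) (nat_lit 4) (nat_lit 391) (nat_lit 306) (nat_lit 203)))) (XT.nd (nat_lit 78) (nat_lit 760) (nat_lit 0) (XT.lf (nat_lit 0) (nat_lit 460538492) (nat_lit 0) (nat_lit 460538492) (nat_lit 684) (nat_lit 2588069864) (nat_lit 294) (nat_lit 5) (nat_lit 294) (nat_lit 3) (nat_lit 303) (nat_lit 3) (nat_lit 307) (nat_lit 307) (nat_lit 286)) (XT.nd (nat_lit 78) (nat_lit 760) (nat_lit 0) (XT.lf (nat_lit 0) (nat_lit 4760146661) (nat_lit 684) (nat_lit 607898306) (nat_lit 760) (nat_lit 1736190330) (nat_lit 294) (nat_lit 5) (nat_lit 303) (nat_lit 3) (nat_lit 304) (nat_lit 5) (nat_lit 308) (nat_lit 307) (nat_lit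 285)) (XT.lf (nat_lit 0) (nat_lit 492771685) (nat_lit 760) (nat_lit 2054096171) (nat_lit 836) (nat_lit 4651368481) (nat_lit 284) (nat_lit 5) (nat_lit 294) (nat_lit 5) (nat_lit 295) (nat_lit 5) (nat_lit 309) (nat_lit 307) (nat_lit 284))))) (XT.nd (nat_lit 234) (nat_lit 760) (nat_lit 0) (XT.nd (nat_lit 78) (nat_lit 836) (nat_lit 0) (XT.lf (nat_lit 0) (nat_lit 3296144760) (nat_lit 760) (nat_lit 3453465703) (nat_lit 836) (nat_lit 550634959) (nat_lit 285) (nat_lit 5) (nat_lit 295) (nat_lit 5) (nat_lit 296) (nat_lit 5) (nat_lit 310) (nat_lit 307) (nat_lit 283)) (XT.nd (nat_lit 78) (nat_lit 836) (nat_lit 0) (XT.lf (nat_lit 76) (nat_lit 2601801403) (nat_lit 0) (nat_lit 3542063178) (nat_lit 836) (nat_lit 1266554306) (nat_lit 286) (nat_lit 5) (nat_lit 285) (nat_lit 5) (nat_lit 296) (nat_lit 5) (nat_lit 311) (nat_lit 307) (nat_lit 282)) (XT.lf (nat_lit 76) (nat_lit 1416349060) (nat_lit 0) (nat_lit 47043130)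 (nat_lit 912) (nat_lit 6065813219) (nat_lit 275) (nat_lit 5) (nat_lit 274) (nat_lit 5) (nat_lit 286) (nat_lit 5) (nat_lit 312) (nat_lit 307) (nat_lit 281)))) (XT.nd (nat_lit 78) (nat_lit 836) (nat_lit 0) (XT.lf (nat_lit 76) (nat_lit 252541755) (nat_lit 0) (nat_lit 3983295103) (nat_lit 912) (nat_lit 3419919013) (nat_lit 276) (nat_lit 5) (nat_lit 275) (nat_lit 5) (nat_lit 287) (nat_lit 5) (nat_lit 313) (nat_lit 307) (nat_lit 280)) (XT.nd (nat_lit 78) (nat_lit 836) (nat_lit 0) (XT.lf (nat_lit 76) (nat_lit 6961580660) (nat_lit 0) (nat_lit 99844712) (nat_lit 912) (nat_lit 729931569) (nat_lit 276) (nat_lit 5) (nat_lit 275) (nat_lit 5) (nat_lit 287) (nat_lit 5) (nat_lit 314) (nat_lit 307) (nat_lit 279)) (XT.lf (nat_lit 0) (nat_lit 2008129949) (nat_lit 912) (nat_lit 1904634800) (nat_lit 988) (nat_lit 4021882653) (nat_lit 264) (nat_lit 5) (nat_lit 276) (nat_lit 5) (nat_lit 277) (nat_lit 5) (nat_lit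 315) (nat_lit 307) (nat_lit 278))))))) (XT.nd (nat_lit 858) (nat_lit 4864) (nat_lit 0) (XT.nd (nat_lit 390) (nat_lit 3192) (nat_lit 0) (XT.nd (nat_lit 156) (nat_lit 3268) (nat_lit 0) (XT.nd (nat_lit 78) (nat_lit 912) (nat_lit 0) (XT.lf (nat_lit 0) (nat_lit 4793784718) (nat_lit 912) (nat_lit 2935255709) (nat_lit 76) (nat_lit 358211342) (nat_lit 265) (nat_lit 5) (nat_lit 277) (nat_lit 5) (nat_lit 266) (nat_lit 5) (nat_lit 316) (nat_lit 307) (nat_lit 277)) (XT.lf (nat_lit 0) (nat_lit 4295201235) (nat_lit 912) (nat_lit 3392932434) (nat_lit 988) (nat_lit 560403469) (nat_lit 253) (nat_lit 5) (nat_lit 265) (nat_lit 5) (nat_lit 266) (nat_lit 5) (nat_lit 317) (nat_lit 307) (nat_lit 276))) (XT.nd (nat_lit 78) (nat_lit 2204) (nat_lit 0) (XT.lf (nat_lit 0) (nat_lit 2213135600) (nat_lit 1064) (nat_lit 4957635933) (nat_lit 76) (nat_lit 1248105820) (nat_lit 239) (nat_lit 5) (nat_lit 253) (nat_lit 5) (nat_lit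 240) (nat_lit 5) (nat_lit 318) (nat_lit 307) (nat_lit 275)) (XT.nd (nat_lit 78) (nat_lit 1140) (nat_lit 0) (XT.lf (nat_lit 0) (nat_lit 2639828279) (nat_lit 1064) (nat_lit 2452813781) (nat_lit 1140) (nat_lit 3505676883) (nat_lit 225) (nat_lit 5) (nat_lit 239) (nat_lit 5) (nat_lit 240) (nat_lit 5) (nat_lit 319) (nat_lit 307) (nat_lit 274)) (XT.lf (nat_lit 0) (nat_lit 1842140147) (nat_lit 1140) (nat_lit 6250315310) (nat_lit 1216) (nat_lit 695098857) (nat_lit 210) (nat_lit 5) (nat_lit 225) (nat_lit 5) (nat_lit 226) (nat_lit 5) (nat_lit 320) (nat_lit 307) (nat_lit 273))))) (XT.nd (nat_lit 234) (nat_lit 1672) (nat_lit 0) (XT.nd (nat_lit 78) (nat_lit 608) (nat_lit 0) (XT.lf (nat_lit 0) (nat_lit 1042006159) (nat_lit 836) (nat_lit 1153113383) (nat_lit 912) (nat_lit 6791090534) (nat_lit 198) (nat_lit 5) (nat_lit 209) (nat_lit 5) (nat_lit 210) (nat_lit 5) (nat_lit 321) (nat_lit 307) (nat_lit 272)) (XT.nd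 (nat_lit 78) (nat_lit 0) (nat_lit 0) (XT.lf (nat_lit 0) (nat_lit 233098800) (nat_lit 608) (nat_lit 4988245115) (nat_lit 684) (nat_lit 3973170444) (nat_lit 190) (nat_lit 5) (nat_lit 198) (nat_lit 5) (nat_lit 199) (nat_lit 5) (nat_lit 322) (nat_lit 307) (nat_lit 271)) (XT.lf (nat_lit 0) (nat_lit 8391984850) (nat_lit 684) (nat_lit 546569935) (nat_lit 76) (nat_lit 474979550) (nat_lit 190) (nat_lit 5) (nat_lit 199) (nat_lit 5) (nat_lit 191) (nat_lit 5) (nat_lit 323) (nat_lit 307) (nat_lit 270)))) (XT.nd (nat_lit 78) (nat_lit 1064) (nat_lit 0) (XT.lf (nat_lit 0) (nat_lit 2067629905) (nat_lit 608) (nat_lit 1362228869) (nat_lit 76) (nat_lit 6212218370) (nat_lit 182) (nat_lit 5) (nat_lit 190) (nat_lit 5) (nat_lit 183) (nat_lit 5) (nat_lit 324) (nat_lit 307) (nat_lit 269)) (XT.nd (nat_lit 78) (nat_lit 532) (nat_lit 0) (XT.lf (nat_lit 0) (nat_lit 5296671930) (nat_lit 608) (nat_lit 2187533045) (nat_lit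 76) (nat_lit 2397425222) (nat_lit 175) (nat_lit 5) (nat_lit 183) (nat_lit 5) (nat_lit 176) (nat_lit 5) (nat_lit 325) (nat_lit 307) (nat_lit 268)) (XT.lf (nat_lit 0) (nat_lit 7103746952) (nat_lit 532) (nat_lit 1607108380) (nat_lit 608) (nat_lit 1421673426) (nat_lit 168) (nat_lit 5) (nat_lit 175) (nat_lit 5) (nat_lit 176) (nat_lit 5) (nat_lit 326) (nat_lit 307) (nat_lit 267)))))) (XT.nd (nat_lit 468) (nat_lit 1976) (nat_lit 0) (XT.nd (nat_lit 234) (nat_lit 1368) (nat_lit 0) (XT.nd (nat_lit 78) (nat_lit 912) (nat_lit 0) (XT.lf (nat_lit 0) (nat_lit 1902135012) (nat_lit 608) (nat_lit 3919843245) (nat_lit 76) (nat_lit 4572335826) (nat_lit 160) (nat_lit 5) (nat_lit 168) (nat_lit 5) (nat_lit 161) (nat_lit 5) (nat_lit 327) (nat_lit 307) (nat_lit 266)) (XT.nd (nat_lit 78) (nat_lit 456) (nat_lit 0) (XT.lf (nat_lit 0) (nat_lit 5383658122) (nat_lit 532) (nat_lit 4839755200) (nat_lit 76) (nat_lit 444794428)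 (nat_lit 154) (nat_lit 5) (nat_lit 161) (nat_lit 5) (nat_lit 155) (nat_lit 5) (nat_lit 328) (nat_lit 307) (nat_lit 265)) (XT.lf (nat_lit 0) (nat_lit 5134924039) (nat_lit 456) (nat_lit 3968868388) (nat_lit 532) (nat_lit 1850133488) (nat_lit 148) (nat_lit 5) (nat_lit 154) (nat_lit 5) (nat_lit 155) (nat_lit 5) (nat_lit 329) (nat_lit 307) (nat_lit 264)))) (XT.nd (nat_lit 78) (nat_lit 836) (nat_lit 0) (XT.lf (nat_lit 0) (nat_lit 1758458190) (nat_lit 532) (nat_lit 6849486021) (nat_lit 76) (nat_lit 2644438662) (nat_lit 141) (nat_lit 5) (nat_lit 148) (nat_lit 5) (nat_lit 142) (nat_lit 5) (nat_lit 330) (nat_lit 307) (nat_lit 263)) (XT.nd (nat_lit 78) (nat_lit 380) (nat_lit 0) (XT.lf (nat_lit 0) (nat_lit 3608589640) (nat_lit 456) (nat_lit 1956991370) (nat_lit 532) (nat_lit 5997999169) (nat_lit 135) (nat_lit 5) (nat_lit 141) (nat_lit 5) (nat_lit 142) (nat_lit 5) (nat_lit 331) (nat_lit 307) (nat_lit 262))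 (XT.lf (nat_lit 0) (nat_lit 2753743718) (nat_lit 380) (nat_lit 6878794214) (nat_lit 456) (nat_lit 2255770318) (nat_lit 130) (nat_lit 5) (nat_lit 135) (nat_lit 5) (nat_lit 136) (nat_lit 5) (nat_lit 332) (nat_lit 307) (nat_lit 261))))) (XT.nd (nat_lit 234) (nat_lit 1140) (nat_lit 0) (XT.nd (nat_lit 78) (nat_lit 380) (nat_lit 0) (XT.lf (nat_lit 0) (nat_lit 1688025995) (nat_lit 456) (nat_lit 10386590738) (nat_lit 76) (nat_lit 152811046) (nat_lit 124) (nat_lit 5) (nat_lit 130) (nat_lit 5) (nat_lit 125) (nat_lit 5) (nat_lit 333) (nat_lit 307) (nat_lit 260)) (XT.nd (nat_lit 78) (nat_lit 0) (nat_lit 0) (XT.lf (nat_lit 0) (nat_lit 804207132) (nat_lit 380) (nat_lit 5078642105) (nat_lit 456) (nat_lit 6697017961) (nat_lit 119) (nat_lit 5) (nat_lit 124) (nat_lit 5) (nat_lit 125) (nat_lit 5) (nat_lit 334) (nat_lit 307) (nat_lit 259)) (XT.lf (nat_lit 0) (nat_lit 10347471761) (nat_lit 456) (nat_lit 290791860)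 (nat_lit 76) (nat_lit 2309909551) (nat_lit 119) (nat_lit 5) (nat_lit 125) (nat_lit 5) (nat_lit 120) (nat_lit 5) (nat_lit 335) (nat_lit 307) (nat_lit 258)))) (XT.nd (nat_lit 78) (nat_lit 684) (nat_lit 0) (XT.lf (nat_lit 0) (nat_lit 1767056986) (nat_lit 456) (nat_lit 1489197082) (nat_lit 76) (nat_lit 10075198617) (nat_lit 113) (nat_lit 5) (nat_lit 119) (nat_lit 5) (nat_lit 114) (nat_lit 5) (nat_lit 336) (nat_lit 307) (nat_lit 257)) (XT.nd (nat_lit 78) (nat_lit 380) (nat_lit 0) (XT.lf (nat_lit 0) (nat_lit 6387831557) (nat_lit 380) (nat_lit 2821645848) (nat_lit 76) (nat_lit 4521034638) (nat_lit 109) (nat_lit 5) (nat_lit 114) (nat_lit 5) (nat_lit 110) (nat_lit 5) (nat_lit 337) (nat_lit 307) (nat_lit 256)) (XT.lf (nat_lit 0) (nat_lit 9882320842) (nat_lit 380) (nat_lit 1437987932) (nat_lit 456) (nat_lit 2826834530) (nat_lit 104) (nat_lit 5) (nat_lit 109) (nat_lit 5) (nat_lit 110) (nat_lit 5) (nat_lit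 338) (nat_lit 307) (nat_lit 255))))))))
noncomputable def xc63 : XT := (XT.nd (nat_lit 1794) (nat_lit 1900) (nat_lit 0) (XT.nd (nat_lit 858) (nat_lit 1824) (nat_lit 0) (XT.nd (nat_lit 390) (nat_lit 1368) (nat_lit 0) (XT.nd (nat_lit 156) (nat_lit 912) (nat_lit 0) (XT.nd (nat_lit 78) (nat_lit 304) (nat_lit 0) (XT.lf (nat_lit 0) (nat_lit 1995573016) (nat_lit 380) (nat_lit 5884338285) (nat_lit 76) (nat_lit 6700634546) (nat_lit 99) (nat_lit 5) (nat_lit 104) (nat_lit 5) (nat_lit 100) (nat_lit 5) (nat_lit 339) (nat_lit 307) (nat_lit 254)) (XT.lf (nat_lit 0) (nat_lit 7074617387) (nat_lit 380) (nat_lit 7659343389) (nat_lit 76) (nat_lit 298632909) (nat_lit 95) (nat_lit 5) (nat_lit 100) (nat_lit 5) (nat_lit 96) (nat_lit 5) (nat_lit 340) (nat_lit 307) (nat_lit 253))) (XT.nd (nat_lit 78) (nat_lit 608) (nat_lit 0) (XT.lf (nat_lit 0) (nat_lit 5862118096) (nat_lit 304) (nat_lit 6685102947) (nat_lit 380) (nat_lit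 2955867245) (nat_lit 91) (nat_lit 5) (nat_lit 95) (nat_lit 5) (nat_lit 96) (nat_lit 5) (nat_lit 341) (nat_lit 307) (nat_lit 252)) (XT.nd (nat_lit 78) (nat_lit 228) (nat_lit 0) (XT.lf (nat_lit 0) (nat_lit 2333616163) (nat_lit 380) (nat_lit 11810734091) (nat_lit 76) (nat_lit 1849662914) (nat_lit 86) (nat_lit 5) (nat_lit 91) (nat_lit 5) (nat_lit 87) (nat_lit 5) (nat_lit 342) (nat_lit 307) (nat_lit 251)) (XT.lf (nat_lit 0) (nat_lit 2258273072) (nat_lit 228) (nat_lit 5703730366) (nat_lit 304) (nat_lit 8542564721) (nat_lit 83) (nat_lit 5) (nat_lit 86) (nat_lit 5) (nat_lit 87) (nat_lit 5) (nat_lit 343) (nat_lit 307) (nat_lit 250))))) (XT.nd (nat_lit 234) (nat_lit 760) (nat_lit 0) (XT.nd (nat_lit 78) (nat_lit 304) (nat_lit 0) (XT.lf (nat_lit 0) (nat_lit 131300749) (nat_lit 304) (nat_lit 13842085252) (nat_lit 380) (nat_lit 3064244950) (nat_lit 79) (nat_lit 5) (nat_lit 83) (nat_lit 5) (nat_lit 84) (nat_lit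 5) (nat_lit 344) (nat_lit 307) (nat_lit 249)) (XT.nd (nat_lit 78) (nat_lit 228) (nat_lit 0) (XT.lf (nat_lit 0) (nat_lit 2789611815) (nat_lit 380) (nat_lit 2231306367) (nat_lit 76) (nat_lit 12571056610) (nat_lit 78) (nat_lit 5) (nat_lit 83) (nat_lit 5) (nat_lit 79) (nat_lit 5) (nat_lit 345) (nat_lit 307) (nat_lit 248)) (XT.lf (nat_lit 0) (nat_lit 8994478234) (nat_lit 304) (nat_lit 4881391209) (nat_lit 76) (nat_lit 4293629573) (nat_lit 75) (nat_lit 5) (nat_lit 79) (nat_lit 5) (nat_lit 76) (nat_lit 5) (nat_lit 346) (nat_lit 307) (nat_lit 247)))) (XT.nd (nat_lit 78) (nat_lit 532) (nat_lit 0) (XT.lf (nat_lit 0) (nat_lit 10943281555) (nat_lit 228) (nat_lit 4697622569) (nat_lit 304) (nat_lit 3131078762) (nat_lit 72) (nat_lit 5) (nat_lit 75) (nat_lit 5) (nat_lit 76) (nat_lit 5) (nat_lit 347) (nat_lit 307) (nat_lit 246)) (XT.nd (nat_lit 78) (nat_lit 228) (nat_lit 0) (XT.lf (nat_lit 0) (nat_lit 3285185606)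 (nat_lit 304) (nat_lit 11134097287) (nat_lit 76) (nat_lit 4980416217) (nat_lit 68) (nat_lit 5) (nat_lit 72) (nat_lit 5) (nat_lit 69) (nat_lit 5) (nat_lit 348) (nat_lit 307) (nat_lit 245)) (XT.lf (nat_lit 0) (nat_lit 5221797665) (nat_lit 228) (nat_lit 4869949458) (nat_lit 304) (nat_lit 9962116998) (nat_lit 65) (nat_lit 5) (nat_lit 68) (nat_lit 5) (nat_lit 69) (nat_lit 5) (nat_lit 349) (nat_lit 307) (nat_lit 244)))))) (XT.nd (nat_lit 468) (nat_lit 760) (nat_lit 0) (XT.nd (nat_lit 234) (nat_lit 608) (nat_lit 0) (XT.nd (nat_lit 78) (nat_lit 304) (nat_lit 0) (XT.lf (nat_lit 0) (nat_lit 1804226091) (nat_lit 152) (nat_lit 15572950888) (nat_lit 228) (nat_lit 3359423418) (nat_lit 63) (nat_lit 5) (nat_lit 65) (nat_lit 5) (nat_lit 66) (nat_lit 5) (nat_lit 350) (nat_lit 307) (nat_lit 243)) (XT.nd (nat_lit 78) (nat_lit 228) (nat_lit 0) (XT.lf (nat_lit 0) (nat_lit 3663895174) (nat_lit 228) (nat_lit 2021598871)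 (nat_lit 76) (nat_lit 15762160114) (nat_lit 62) (nat_lit 5) (nat_lit 65) (nat_lit 5) (nat_lit 63) (nat_lit 5) (nat_lit 351) (nat_lit 307) (nat_lit 242)) (XT.lf (nat_lit 0) (nat_lit 11128501021) (nat_lit 304) (nat_lit 6291326112) (nat_lit 76) (nat_lit 4768664574) (nat_lit 59) (nat_lit 5) (nat_lit 63) (nat_lit 5) (nat_lit 60) (nat_lit 5) (nat_lit 352) (nat_lit 307) (nat_lit 241)))) (XT.nd (nat_lit 78) (nat_lit 456) (nat_lit 0) (XT.lf (nat_lit 0) (nat_lit 11897237096) (nat_lit 152) (nat_lit 7221884501) (nat_lit 228) (nat_lit 3842682122) (nat_lit 57) (nat_lit 5) (nat_lit 59) (nat_lit 5) (nat_lit 60) (nat_lit 5) (nat_lit 353) (nat_lit 307) (nat_lit 240)) (XT.nd (nat_lit 78) (nat_lit 152) (nat_lit 0) (XT.lf (nat_lit 0) (nat_lit 3795001171) (nat_lit 304) (nat_lit 16406699311) (nat_lit 76) (nat_lit 3567046458) (nat_lit 53) (nat_lit 5) (nat_lit 57) (nat_lit 5) (nat_lit 54) (nat_lit 5) (nat_lit 354)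 (nat_lit 307) (nat_lit 239)) (XT.lf (nat_lit 0) (nat_lit 2194951577) (nat_lit 152) (nat_lit 9711832443) (nat_lit 228) (nat_lit 12702975468) (nat_lit 51) (nat_lit 5) (nat_lit 53) (nat_lit 5) (nat_lit 54) (nat_lit 5) (nat_lit 355) (nat_lit 307) (nat_lit 238))))) (XT.nd (nat_lit 234) (nat_lit 380) (nat_lit 0) (XT.nd (nat_lit 78) (nat_lit 380) (nat_lit 0) (XT.lf (nat_lit 0) (nat_lit 20570149704) (nat_lit 228) (nat_lit 3495129918) (nat_lit 76) (nat_lit 1423176751) (nat_lit 51) (nat_lit 5) (nat_lit 54) (nat_lit 5) (nat_lit 52) (nat_lit 5) (nat_lit 356) (nat_lit 307) (nat_lit 237)) (XT.nd (nat_lit 78) (nat_lit 152) (nat_lit 0) (XT.lf (nat_lit 0) (nat_lit 3415896308) (nat_lit 228) (nat_lit 9902497922) (nat_lit 76) (nat_lit 13085052657) (nat_lit 48) (nat_lit 5) (nat_lit 51) (nat_lit 5) (nat_lit 49) (nat_lit 5) (nat_lit 357) (nat_lit 307) (nat_lit 236)) (XT.lf (nat_lit 0) (nat_lit 10299016506) (nat_lit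 152) (nat_lit 1867804676) (nat_lit 228) (nat_lit 15192864872) (nat_lit 46) (nat_lit 5) (nat_lit 48) (nat_lit 5) (nat_lit 49) (nat_lit 5) (nat_lit 358) (nat_lit 307) (nat_lit 235)))) (XT.nd (nat_lit 78) (nat_lit 228) (nat_lit 0) (XT.lf (nat_lit 0) (nat_lit 3264102877) (nat_lit 152) (nat_lit 18289450576) (nat_lit 228) (nat_lit 6804247231) (nat_lit 44) (nat_lit 5) (nat_lit 46) (nat_lit 5) (nat_lit 47) (nat_lit 5) (nat_lit 359) (nat_lit 307) (nat_lit 234)) (XT.nd (nat_lit 78) (nat_lit 152) (nat_lit 0) (XT.lf (nat_lit 0) (nat_lit 2127964689) (nat_lit 228) (nat_lit 4535605991) (nat_lit 76) (nat_lit 22736785055) (nat_lit 43) (nat_lit 5) (nat_lit 46) (nat_lit 5) (nat_lit 44) (nat_lit 5) (nat_lit 360) (nat_lit 307) (nat_lit 233)) (XT.lf (nat_lit 0) (nat_lit 11557341043) (nat_lit 228) (nat_lit 13279864546) (nat_lit 76) (nat_lit 5650083587) (nat_lit 41) (nat_lit 5) (nat_lit 44) (nat_lit 5) (nat_lit 42)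 (nat_lit 5) (nat_lit 361) (nat_lit 307) (nat_lit 232))))))) (XT.nd (nat_lit 858) (nat_lit 760) (nat_lit 0) (XT.nd (nat_lit 390) (nat_lit 608) (nat_lit 0) (XT.nd (nat_lit 156) (nat_lit 380) (nat_lit 0) (XT.nd (nat_lit 78) (nat_lit 0) (nat_lit 0) (XT.lf (nat_lit 0) (nat_lit 8551079237) (nat_lit 152) (nat_lit 13073108580) (nat_lit 228) (nat_lit 9999410935) (nat_lit 39) (nat_lit 5) (nat_lit 41) (nat_lit 5) (nat_lit 42) (nat_lit 5) (nat_lit 362) (nat_lit 307) (nat_lit 231)) (XT.lf (nat_lit 0) (nat_lit 31699324834) (nat_lit 152) (nat_lit 602110529) (nat_lit 228) (nat_lit 512085748) (nat_lit 39) (nat_lit 5) (nat_lit 41) (nat_lit 5) (nat_lit 42) (nat_lit 5) (nat_lit 363) (nat_lit 307) (nat_lit 230))) (XT.nd (nat_lit 78) (nat_lit 152) (nat_lit 0) (XT.lf (nat_lit 0) (nat_lit 9573321505) (nat_lit 228) (nat_lit 11942331572) (nat_lit 76) (nat_lit 12535326473) (nat_lit 36) (nat_lit 5) (nat_lit 39) (nat_lit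 5) (nat_lit 37) (nat_lit 5) (nat_lit 364) (nat_lit 307) (nat_lit 229)) (XT.nd (nat_lit 78) (nat_lit 0) (nat_lit 0) (XT.lf (nat_lit 0) (nat_lit 11326538814) (nat_lit 152) (nat_lit 8924676369) (nat_lit 228) (nat_lit 15095987398) (nat_lit 34) (nat_lit 5) (nat_lit 36) (nat_lit 5) (nat_lit 37) (nat_lit 5) (nat_lit 365) (nat_lit 307) (nat_lit 228)) (XT.lf (nat_lit 0) (nat_lit 31601289052) (nat_lit 228) (nat_lit 786933011) (nat_lit 76) (nat_lit 4315873731) (nat_lit 34) (nat_lit 5) (nat_lit 37) (nat_lit 5) (nat_lit 35) (nat_lit 4) (nat_lit 366) (nat_lit 307) (nat_lit 227))))) (XT.nd (nat_lit 234) (nat_lit 304) (nat_lit 0) (XT.nd (nat_lit 78) (nat_lit 152) (nat_lit 0) (XT.lf (nat_lit 0) (nat_lit 5582093399) (nat_lit 152) (nat_lit 14235170643) (nat_lit 76) (nat_lit 18301105097) (nat_lit 32) (nat_lit 5) (nat_lit 34) (nat_lit 5) (nat_lit 33) (nat_lit 5) (nat_lit 367) (nat_lit 307) (nat_lit 226)) (XT.nd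 (nat_lit 78) (nat_lit 0) (nat_lit 0) (XT.lf (nat_lit 0) (nat_lit 10304483260) (nat_lit 152) (nat_lit 6474115587) (nat_lit 228) (nat_lit 22820761485) (nat_lit 30) (nat_lit 5) (nat_lit 32) (nat_lit 5) (nat_lit 33) (nat_lit 5) (nat_lit 368) (nat_lit 307) (nat_lit 225)) (XT.lf (nat_lit 0) (nat_lit 28730638552) (nat_lit 228) (nat_lit 4899744990) (nat_lit 76) (nat_lit 7518152643) (nat_lit 30) (nat_lit 5) (nat_lit 33) (nat_lit 5) (nat_lit 31) (nat_lit 4) (nat_lit 369) (nat_lit 307) (nat_lit 224)))) (XT.nd (nat_lit 78) (nat_lit 228) (nat_lit 0) (XT.lf (nat_lit 0) (nat_lit 21017604452) (nat_lit 76) (nat_lit 20506509073) (nat_lit 152) (nat_lit 1243748374) (nat_lit 29) (nat_lit 5) (nat_lit 30) (nat_lit 5) (nat_lit 31) (nat_lit 4) (nat_lit 370) (nat_lit 307) (nat_lit 223)) (XT.nd (nat_lit 78) (nat_lit 0) (nat_lit 0) (XT.lf (nat_lit 0) (nat_lit 3797777311) (nat_lit 152) (nat_lit 6551044087) (nat_lit 228)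 (nat_lit 34114381479) (nat_lit 26) (nat_lit 5) (nat_lit 28) (nat_lit 5) (nat_lit 29) (nat_lit 5) (nat_lit 371) (nat_lit 307) (nat_lit 222)) (XT.lf (nat_lit 0) (nat_lit 22777020832) (nat_lit 228) (nat_lit 15292402429) (nat_lit 76) (nat_lit 8165071843) (nat_lit 26) (nat_lit 5) (nat_lit 29) (nat_lit 5) (nat_lit 27) (nat_lit 4) (nat_lit 372) (nat_lit 307) (nat_lit 221)))))) (XT.nd (nat_lit 468) (nat_lit 380) (nat_lit 0) (XT.nd (nat_lit 234) (nat_lit 76) (nat_lit 0) (XT.nd (nat_lit 78) (nat_lit 228) (nat_lit 0) (XT.lf (nat_lit 0) (nat_lit 11467994172) (nat_lit 76) (nat_lit 24513551761) (nat_lit 152) (nat_lit 12108163626) (nat_lit 25) (nat_lit 5) (nat_lit 26) (nat_lit 5) (nat_lit 27) (nat_lit 4) (nat_lit 373) (nat_lit 307) (nat_lit 220)) (XT.nd (nat_lit 78) (nat_lit 228) (nat_lit 0) (XT.lf (nat_lit 0) (nat_lit 39848154706) (nat_lit 76) (nat_lit 10134778942) (nat_lit 152) (nat_lit 50656845) (nat_lit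 25) (nat_lit 5) (nat_lit 26) (nat_lit 5) (nat_lit 27) (nat_lit 4) (nat_lit 374) (nat_lit 307) (nat_lit 219)) (XT.lf (nat_lit 0) (nat_lit 12564842861) (nat_lit 228) (nat_lit 34355335850) (nat_lit 76) (nat_lit 5144819509) (nat_lit 22) (nat_lit 5) (nat_lit 25) (nat_lit 5) (nat_lit 23) (nat_lit 4) (nat_lit 375) (nat_lit 307) (nat_lit 218)))) (XT.nd (nat_lit 78) (nat_lit 76) (nat_lit 0) (XT.lf (nat_lit 0) (nat_lit 25998722786) (nat_lit 228) (nat_lit 7122123415) (nat_lit 76) (nat_lit 21071459767) (nat_lit 22) (nat_lit 5) (nat_lit 25) (nat_lit 5) (nat_lit 23) (nat_lit 4) (nat_lit 376) (nat_lit 307) (nat_lit 217)) (XT.nd (nat_lit 78) (nat_lit 0) (nat_lit 0) (XT.lf (nat_lit 0) (nat_lit 21865314510) (nat_lit 76) (nat_lit 18430557530) (nat_lit 152) (nat_lit 16124363867) (nat_lit 21) (nat_lit 5) (nat_lit 22) (nat_lit 5) (nat_lit 23) (nat_lit 4) (nat_lit 377) (nat_lit 307) (nat_lit 216)) (XT.lf (nat_lit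 0) (nat_lit 52417827240) (nat_lit 76) (nat_lit 2945327665) (nat_lit 152) (nat_lit 3394753026) (nat_lit 21) (nat_lit 5) (nat_lit 22) (nat_lit 5) (nat_lit 23) (nat_lit 4) (nat_lit 378) (nat_lit 307) (nat_lit 215))))) (XT.nd (nat_lit 234) (nat_lit 152) (nat_lit 0) (XT.nd (nat_lit 78) (nat_lit 76) (nat_lit 0) (XT.lf (nat_lit 0) (nat_lit 10117484870) (nat_lit 152) (nat_lit 37715705957) (nat_lit 76) (nat_lit 13366179091) (nat_lit 19) (nat_lit 5) (nat_lit 21) (nat_lit 5) (nat_lit 20) (nat_lit 4) (nat_lit 379) (nat_lit 307) (nat_lit 214)) (XT.nd (nat_lit 78) (nat_lit 76) (nat_lit 0) (XT.lf (nat_lit 0) (nat_lit 24314456178) (nat_lit 152) (nat_lit 8925857932) (nat_lit 76) (nat_lit 30519206056) (nat_lit 19) (nat_lit 5) (nat_lit 21) (nat_lit 5) (nat_lit 20) (nat_lit 4) (nat_lit 380) (nat_lit 307) (nat_lit 213)) (XT.lf (nat_lit 0) (nat_lit 21697004811) (nat_lit 76) (nat_lit 17716681773) (nat_lit 152) (nat_lit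 27028222271) (nat_lit 18) (nat_lit 5) (nat_lit 19) (nat_lit 5) (nat_lit 20) (nat_lit 4) (nat_lit 381) (nat_lit 307) (nat_lit 212)))) (XT.nd (nat_lit 78) (nat_lit 152) (nat_lit 0) (XT.lf (nat_lit 0) (nat_lit 54008526530) (nat_lit 76) (nat_lit 1335571870) (nat_lit 152) (nat_lit 13912035075) (nat_lit 18) (nat_lit 5) (nat_lit 19) (nat_lit 5) (nat_lit 20) (nat_lit 4) (nat_lit 382) (nat_lit 307) (nat_lit 211)) (XT.nd (nat_lit 78) (nat_lit 0) (nat_lit 0) (XT.lf (nat_lit 0) (nat_lit 155414187) (nat_lit 152) (nat_lit 56350442766) (nat_lit 76) (nat_lit 15696474014) (nat_lit 16) (nat_lit 5) (nat_lit 18) (nat_lit 5) (nat_lit 17) (nat_lit 4) (nat_lit 383) (nat_lit 307) (nat_lit 210)) (XT.lf (nat_lit 0) (nat_lit 14798451098) (nat_lit 152) (nat_lit 26649043023) (nat_lit 76) (nat_lit 33839416524) (nat_lit 16) (nat_lit 5) (nat_lit 18) (nat_lit 5) (nat_lit 17) (nat_lit 4) (nat_lit 384) (nat_lit 307) (nat_lit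 209))))))))
noncomputable def xc64 : XT := (XT.nd (nat_lit 42042) (nat_lit 0) (nat_lit 5092) (XT.nd (nat_lit 41184) (nat_lit 0) (nat_lit 14136) (XT.nd (nat_lit 390) (nat_lit 76) (nat_lit 0) (XT.nd (nat_lit 156) (nat_lit 152) (nat_lit 0) (XT.nd (nat_lit 78) (nat_lit 0) (nat_lit 0) (XT.lf (nat_lit 0) (nat_lit 4601067341) (nat_lit 76) (nat_lit 25602770138) (nat_lit 152) (nat_lit 48320978495) (nat_lit 15) (nat_lit 5) (nat_lit 16) (nat_lit 5) (nat_lit 17) (nat_lit 4) (nat_lit 385) (nat_lit 307) (nat_lit 208)) (XT.lf (nat_lit 0) (nat_lit 37945176461) (nat_lit 76) (nat_lit 8695038481) (nat_lit 152) (nat_lit 35276582441) (nat_lit 15) (nat_lit 5) (nat_lit 16) (nat_lit 5) (nat_lit 17) (nat_lit 4) (nat_lit 386) (nat_lit 307) (nat_lit 207))) (XT.nd (nat_lit 78) (nat_lit 152) (nat_lit 0) (XT.lf (nat_lit 0) (nat_lit 63972416492) (nat_lit 152) (nat_lit 12633426012) (nat_lit 0) (nat_lit 8870317556) (nat_lit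 15) (nat_lit 5) (nat_lit 17) (nat_lit 4) (nat_lit 15) (nat_lit 4) (nat_lit 387) (nat_lit 307) (nat_lit 206)) (XT.nd (nat_lit 78) (nat_lit 76) (nat_lit 0) (XT.lf (nat_lit 0) (nat_lit 20561851020) (nat_lit 76) (nat_lit 61882346946) (nat_lit 76) (nat_lit 6761106050) (nat_lit 14) (nat_lit 4) (nat_lit 15) (nat_lit 5) (nat_lit 15) (nat_lit 4) (nat_lit 388) (nat_lit 307) (nat_lit 205)) (XT.lf (nat_lit 0) (nat_lit 8667677466) (nat_lit 152) (nat_lit 37544086076) (nat_lit 76) (nat_lit 46903055024) (nat_lit 13) (nat_lit 5) (nat_lit 15) (nat_lit 5) (nat_lit 14) (nat_lit 4) (nat_lit 389) (nat_lit 307) (nat_lit 204))))) (XT.nd (nat_lit 40560) (nat_lit 0) (nat_lit 19836) (XT.nd (nat_lit 78) (nat_lit 76) (nat_lit 0) (XT.lf (nat_lit 0) (nat_lit 24717759524) (nat_lit 152) (nat_lit 4979781821) (nat_lit 76) (nat_lit 67520570540) (nat_lit 13) (nat_lit 5) (nat_lit 15) (nat_lit 5) (nat_lit 14) (nat_lit 4) (nat_lit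 390) (nat_lit 307) (nat_lit 203)) (XT.nd (nat_lit 40404) (nat_lit 0) (nat_lit 20596) (XT.lf (nat_lit 0) (nat_lit 29772963465) (nat_lit 76) (nat_lit 12072520606) (nat_lit 152) (nat_lit 59672833526) (nat_lit 12) (nat_lit 5) (nat_lit 13) (nat_lit 5) (nat_lit 14) (nat_lit 4) (nat_lit 391) (nat_lit 307) (nat_lit 202)) (XT.lf (nat_lit 0) (nat_lit 176964293) (nat_lit 836) (nat_lit 1709986184) (nat_lit 836) (nat_lit 1709986184) (nat_lit 283) (nat_lit 3) (nat_lit 294) (nat_lit 3) (nat_lit 294) (nat_lit 5) (nat_lit 308) (nat_lit 308) (nat_lit 284)))) (XT.nd (nat_lit 78) (nat_lit 760) (nat_lit 0) (XT.lf (nat_lit 76) (nat_lit 2237419805) (nat_lit 0) (nat_lit 764983207) (nat_lit 836) (nat_lit 4289171639) (nat_lit 284) (nat_lit 5) (nat_lit 283) (nat_lit 3) (nat_lit 294) (nat_lit 5) (nat_lit 309) (nat_lit 308) (nat_lit 283)) (XT.nd (nat_lit 78) (nat_lit 836) (nat_lit 0) (XT.lf (nat_lit 76) (nat_lit 753238883)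 (nat_lit 0) (nat_lit 4928205920) (nat_lit 836) (nat_lit 1715961198) (nat_lit 285) (nat_lit 5) (nat_lit 284) (nat_lit 5) (nat_lit 295) (nat_lit 5) (nat_lit 310) (nat_lit 308) (nat_lit 282)) (XT.lf (nat_lit 0) (nat_lit 864606817) (nat_lit 836) (nat_lit 662908237) (nat_lit 912) (nat_lit 5983966482) (nat_lit 273) (nat_lit 5) (nat_lit 284) (nat_lit 5) (nat_lit 285) (nat_lit 5) (nat_lit 311) (nat_lit 308) (nat_lit 281)))))) (XT.nd (nat_lit 390) (nat_lit 4940) (nat_lit 0) (XT.nd (nat_lit 156) (nat_lit 836) (nat_lit 0) (XT.nd (nat_lit 78) (nat_lit 0) (nat_lit 0) (XT.lf (nat_lit 0) (nat_lit 3459427695) (nat_lit 836) (nat_lit 2035470467) (nat_lit 912) (nat_lit 2138398270) (nat_lit 274) (nat_lit 5) (nat_lit 285) (nat_lit 5) (nat_lit 286) (nat_lit 5) (nat_lit 312) (nat_lit 308) (nat_lit 280)) (XT.lf (nat_lit 76) (nat_lit 4401943600) (nat_lit 0) (nat_lit 1699169134) (nat_lit 912) (nat_lit 1662734380) (nat_lit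 275) (nat_lit 5) (nat_lit 274) (nat_lit 5) (nat_lit 286) (nat_lit 5) (nat_lit 313) (nat_lit 308) (nat_lit 279))) (XT.nd (nat_lit 78) (nat_lit 0) (nat_lit 0) (XT.lf (nat_lit 0) (nat_lit 887667166) (nat_lit 912) (nat_lit 4662221609) (nat_lit 988) (nat_lit 2352920982) (nat_lit 263) (nat_lit 5) (nat_lit 275) (nat_lit 5) (nat_lit 276) (nat_lit 5) (nat_lit 314) (nat_lit 308) (nat_lit 278)) (XT.nd (nat_lit 78) (nat_lit 0) (nat_lit 76) (XT.lf (nat_lit 76) (nat_lit 2107353034) (nat_lit 0) (nat_lit 1360013134) (nat_lit 988) (nat_lit 4582915308) (nat_lit 264) (nat_lit 5) (nat_lit 263) (nat_lit 5) (nat_lit 276) (nat_lit 5) (nat_lit 315) (nat_lit 308) (nat_lit 277)) (XT.lf (nat_lit 76) (nat_lit 1002040356) (nat_lit 0) (nat_lit 5130794419) (nat_lit 988) (nat_lit 2073721593) (nat_lit 265) (nat_lit 5) (nat_lit 264) (nat_lit 5) (nat_lit 277) (nat_lit 5) (nat_lit 316) (nat_lit 308) (nat_lit 276))))) (XT.nd (nat_lit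 234) (nat_lit 3116) (nat_lit 0) (XT.nd (nat_lit 78) (nat_lit 912) (nat_lit 0) (XT.lf (nat_lit 0) (nat_lit 498909802) (nat_lit 988) (nat_lit 66917762) (nat_lit 1064) (nat_lit 7806311060) (nat_lit 251) (nat_lit 5) (nat_lit 264) (nat_lit 5) (nat_lit 265) (nat_lit 5) (nat_lit 317) (nat_lit 308) (nat_lit 275)) (XT.nd (nat_lit 78) (nat_lit 988) (nat_lit 0) (XT.lf (nat_lit 0) (nat_lit 3150661321) (nat_lit 988) (nat_lit 1128799434) (nat_lit 76) (nat_lit 4266239225) (nat_lit 252) (nat_lit 5) (nat_lit 265) (nat_lit 5) (nat_lit 253) (nat_lit 5) (nat_lit 318) (nat_lit 308) (nat_lit 274)) (XT.lf (nat_lit 0) (nat_lit 5895825141) (nat_lit 1064) (nat_lit 2158426882) (nat_lit 76) (nat_lit 674974289) (nat_lit 239) (nat_lit 5) (nat_lit 253) (nat_lit 5) (nat_lit 240) (nat_lit 5) (nat_lit 319) (nat_lit 308) (nat_lit 273)))) (XT.nd (nat_lit 78) (nat_lit 2052) (nat_lit 0) (XT.lf (nat_lit 0) (nat_lit 5731566294) (nat_lit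 1064) (nat_lit 3046094727) (nat_lit 1140) (nat_lit 144391858) (nat_lit 225) (nat_lit 5) (nat_lit 239) (nat_lit 5) (nat_lit 240) (nat_lit 5) (nat_lit 320) (nat_lit 308) (nat_lit 272)) (XT.nd (nat_lit 78) (nat_lit 836) (nat_lit 0) (XT.lf (nat_lit 0) (nat_lit 2611425723) (nat_lit 1216) (nat_lit 4233991768) (nat_lit 76) (nat_lit 2278889936) (nat_lit 209) (nat_lit 5) (nat_lit 225) (nat_lit 5) (nat_lit 210) (nat_lit 5) (nat_lit 321) (nat_lit 308) (nat_lit 271)) (XT.lf (nat_lit 0) (nat_lit 4058308057) (nat_lit 836) (nat_lit 1443668273) (nat_lit 912) (nat_lit 3834751270) (nat_lit 198) (nat_lit 5) (nat_lit 209) (nat_lit 5) (nat_lit 210) (nat_lit 5) (nat_lit 322) (nat_lit 308) (nat_lit 270))))))) (XT.nd (nat_lit 858) (nat_lit 3876) (nat_lit 0) (XT.nd (nat_lit 390) (nat_lit 2812) (nat_lit 0) (XT.nd (nat_lit 156) (nat_lit 1140) (nat_lit 0) (XT.nd (nat_lit 78) (nat_lit 608) (nat_lit 0) (XT.lf (nat_lit 0)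 (nat_lit 3222122781) (nat_lit 608) (nat_lit 5331634376) (nat_lit 684) (nat_lit 1005599723) (nat_lit 190) (nat_lit 5) (nat_lit 198) (nat_lit 5) (nat_lit 199) (nat_lit 5) (nat_lit 323) (nat_lit 308) (nat_lit 269)) (XT.lf (nat_lit 0) (nat_lit 1927345198) (nat_lit 608) (nat_lit 7412331344) (nat_lit 76) (nat_lit 452936471) (nat_lit 182) (nat_lit 5) (nat_lit 190) (nat_lit 5) (nat_lit 183) (nat_lit 5) (nat_lit 324) (nat_lit 308) (nat_lit 268))) (XT.nd (nat_lit 78) (nat_lit 608) (nat_lit 0) (XT.lf (nat_lit 0) (nat_lit 1500853588) (nat_lit 532) (nat_lit 3527178749) (nat_lit 608) (nat_lit 5008022683) (nat_lit 175) (nat_lit 5) (nat_lit 182) (nat_lit 5) (nat_lit 183) (nat_lit 5) (nat_lit 325) (nat_lit 308) (nat_lit 267)) (XT.nd (nat_lit 78) (nat_lit 76) (nat_lit 0) (XT.lf (nat_lit 0) (nat_lit 617380778) (nat_lit 532) (nat_lit 7685198169) (nat_lit 608) (nat_lit 1988600221) (nat_lit 168) (nat_lit 5) (nat_lit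 175) (nat_lit 5) (nat_lit 176) (nat_lit 5) (nat_lit 326) (nat_lit 308) (nat_lit 266)) (XT.lf (nat_lit 0) (nat_lit 1196571865) (nat_lit 608) (nat_lit 291750484) (nat_lit 76) (nat_lit 9069330342) (nat_lit 167) (nat_lit 5) (nat_lit 175) (nat_lit 5) (nat_lit 168) (nat_lit 5) (nat_lit 327) (nat_lit 308) (nat_lit 265))))) (XT.nd (nat_lit 234) (nat_lit 1292) (nat_lit 0) (XT.nd (nat_lit 78) (nat_lit 988) (nat_lit 0) (XT.lf (nat_lit 0) (nat_lit 4559825460) (nat_lit 608) (nat_lit 1247488026) (nat_lit 76) (nat_lit 5027813087) (nat_lit 160) (nat_lit 5) (nat_lit 168) (nat_lit 5) (nat_lit 161) (nat_lit 5) (nat_lit 328) (nat_lit 308) (nat_lit 264)) (XT.nd (nat_lit 78) (nat_lit 532) (nat_lit 0) (XT.lf (nat_lit 0) (nat_lit 8123243280) (nat_lit 532) (nat_lit 2222731200) (nat_lit 76) (nat_lit 779602351) (nat_lit 154) (nat_lit 5) (nat_lit 161) (nat_lit 5) (nat_lit 155) (nat_lit 5) (nat_lit 329) (nat_lit 308) (nat_lit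 263)) (XT.lf (nat_lit 0) (nat_lit 500087097) (nat_lit 532) (nat_lit 3264574885) (nat_lit 76) (nat_lit 7663592007) (nat_lit 147) (nat_lit 5) (nat_lit 154) (nat_lit 5) (nat_lit 148) (nat_lit 5) (nat_lit 330) (nat_lit 308) (nat_lit 262)))) (XT.nd (nat_lit 78) (nat_lit 836) (nat_lit 0) (XT.lf (nat_lit 0) (nat_lit 4167201976) (nat_lit 532) (nat_lit 4379207745) (nat_lit 76) (nat_lit 3197268759) (nat_lit 141) (nat_lit 5) (nat_lit 148) (nat_lit 5) (nat_lit 142) (nat_lit 5) (nat_lit 331) (nat_lit 308) (nat_lit 261)) (XT.nd (nat_lit 78) (nat_lit 380) (nat_lit 0) (XT.lf (nat_lit 0) (nat_lit 6521144711) (nat_lit 456) (nat_lit 1559283808) (nat_lit 532) (nat_lit 3992615605) (nat_lit 135) (nat_lit 5) (nat_lit 141) (nat_lit 5) (nat_lit 142) (nat_lit 5) (nat_lit 332) (nat_lit 308) (nat_lit 260)) (XT.lf (nat_lit 0) (nat_lit 5607358971) (nat_lit 380) (nat_lit 6667514980) (nat_lit 456) (nat_lit 141487478) (nat_lit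 130) (nat_lit 5) (nat_lit 135) (nat_lit 5) (nat_lit 136) (nat_lit 5) (nat_lit 333) (nat_lit 308) (nat_lit 259)))))) (XT.nd (nat_lit 468) (nat_lit 1900) (nat_lit 0) (XT.nd (nat_lit 234) (nat_lit 760) (nat_lit 0) (XT.nd (nat_lit 78) (nat_lit 760) (nat_lit 0) (XT.lf (nat_lit 0) (nat_lit 3883377491) (nat_lit 456) (nat_lit 8165130997) (nat_lit 76) (nat_lit 725537337) (nat_lit 124) (nat_lit 5) (nat_lit 130) (nat_lit 5) (nat_lit 125) (nat_lit 5) (nat_lit 334) (nat_lit 308) (nat_lit 258)) (XT.nd (nat_lit 78) (nat_lit 380) (nat_lit 0) (XT.lf (nat_lit 0) (nat_lit 3506642592) (nat_lit 380) (nat_lit 4706368801) (nat_lit 456) (nat_lit 4933411586) (nat_lit 119) (nat_lit 5) (nat_lit 124) (nat_lit 5) (nat_lit 125) (nat_lit 5) (nat_lit 335) (nat_lit 308) (nat_lit 257)) (XT.lf (nat_lit 0) (nat_lit 2329305702) (nat_lit 380) (nat_lit 10502729561) (nat_lit 456) (nat_lit 703238500) (nat_lit 114) (nat_lit 5) (nat_lit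 119) (nat_lit 5) (nat_lit 120) (nat_lit 5) (nat_lit 336) (nat_lit 308) (nat_lit 256)))) (XT.nd (nat_lit 78) (nat_lit 380) (nat_lit 0) (XT.lf (nat_lit 0) (nat_lit 1009948444) (nat_lit 304) (nat_lit 2751319421) (nat_lit 380) (nat_lit 10178386735) (nat_lit 109) (nat_lit 5) (nat_lit 113) (nat_lit 5) (nat_lit 114) (nat_lit 5) (nat_lit 337) (nat_lit 308) (nat_lit 255)) (XT.nd (nat_lit 78) (nat_lit 380) (nat_lit 0) (XT.lf (nat_lit 0) (nat_lit 8543183685) (nat_lit 380) (nat_lit 432265987) (nat_lit 76) (nat_lit 5385371082) (nat_lit 109) (nat_lit 5) (nat_lit 114) (nat_lit 5) (nat_lit 110) (nat_lit 5) (nat_lit 338) (nat_lit 308) (nat_lit 254)) (XT.lf (nat_lit 0) (nat_lit 12834363848) (nat_lit 380) (nat_lit 824121320) (nat_lit 456) (nat_lit 1141766592) (nat_lit 104) (nat_lit 5) (nat_lit 109) (nat_lit 5) (nat_lit 110) (nat_lit 5) (nat_lit 339) (nat_lit 308) (nat_lit 253))))) (XT.nd (nat_lit 234) (nat_lit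 912) (nat_lit 0) (XT.nd (nat_lit 78) (nat_lit 608) (nat_lit 0) (XT.lf (nat_lit 0) (nat_lit 3830813441) (nat_lit 380) (nat_lit 3709252287) (nat_lit 76) (nat_lit 7716441356) (nat_lit 99) (nat_lit 5) (nat_lit 104) (nat_lit 5) (nat_lit 100) (nat_lit 5) (nat_lit 340) (nat_lit 308) (nat_lit 252)) (XT.nd (nat_lit 78) (nat_lit 304) (nat_lit 0) (XT.lf (nat_lit 0) (nat_lit 9111171540) (nat_lit 380) (nat_lit 5599505434) (nat_lit 76) (nat_lit 1022107219) (nat_lit 95) (nat_lit 5) (nat_lit 100) (nat_lit 5) (nat_lit 96) (nat_lit 5) (nat_lit 341) (nat_lit 308) (nat_lit 251)) (XT.lf (nat_lit 0) (nat_lit 8528006607) (nat_lit 304) (nat_lit 6272072968) (nat_lit 380) (nat_lit 1428489177) (nat_lit 91) (nat_lit 5) (nat_lit 95) (nat_lit 5) (nat_lit 96) (nat_lit 5) (nat_lit 342) (nat_lit 308) (nat_lit 250)))) (XT.nd (nat_lit 78) (nat_lit 532) (nat_lit 0) (XT.lf (nat_lit 0) (nat_lit 4044250192) (nat_lit 380) (nat_lit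 10022667603) (nat_lit 76) (nat_lit 2678136911) (nat_lit 86) (nat_lit 5) (nat_lit 91) (nat_lit 5) (nat_lit 87) (nat_lit 5) (nat_lit 343) (nat_lit 308) (nat_lit 249)) (XT.nd (nat_lit 78) (nat_lit 304) (nat_lit 0) (XT.lf (nat_lit 0) (nat_lit 4681607735) (nat_lit 228) (nat_lit 5218755743) (nat_lit 304) (nat_lit 7382424795) (nat_lit 83) (nat_lit 5) (nat_lit 86) (nat_lit 5) (nat_lit 87) (nat_lit 5) (nat_lit 344) (nat_lit 308) (nat_lit 248)) (XT.lf (nat_lit 0) (nat_lit 2420528805) (nat_lit 304) (nat_lit 13747433732) (nat_lit 380) (nat_lit 1675910364) (nat_lit 79) (nat_lit 5) (nat_lit 83) (nat_lit 5) (nat_lit 84) (nat_lit 5) (nat_lit 345) (nat_lit 308) (nat_lit 247))))))))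
noncomputable def xc65 : XT := (XT.nd (nat_lit 1794) (nat_lit 1444) (nat_lit 0) (XT.nd (nat_lit 858) (nat_lit 1444) (nat_lit 0) (XT.nd (nat_lit 390) (nat_lit 1064) (nat_lit 0) (XT.nd (nat_lit 156) (nat_lit 760) (nat_lit 0) (XT.nd (nat_lit 78) (nat_lit 228) (nat_lit 0) (XT.lf (nat_lit 0) (nat_lit 4368583550) (nat_lit 380) (nat_lit 139553281) (nat_lit 76) (nat_lit 13919547038) (nat_lit 78) (nat_lit 5) (nat_lit 83) (nat_lit 5) (nat_lit 79) (nat_lit 5) (nat_lit 346) (nat_lit 308) (nat_lit 246)) (XT.lf (nat_lit 0) (nat_lit 10842915054) (nat_lit 304) (nat_lit 2950079616) (nat_lit 76) (nat_lit 5242346549) (nat_lit 75) (nat_lit 5) (nat_lit 79) (nat_lit 5) (nat_lit 76) (nat_lit 5) (nat_lit 347) (nat_lit 308) (nat_lit 245))) (XT.nd (nat_lit 78) (nat_lit 532) (nat_lit 0) (XT.lf (nat_lit 0) (nat_lit 13603469922) (nat_lit 228) (nat_lit 4171898622) (nat_lit 304) (nat_lit 1894001519) (nat_lit 72) (nat_lit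 5) (nat_lit 75) (nat_lit 5) (nat_lit 76) (nat_lit 5) (nat_lit 348) (nat_lit 308) (nat_lit 244)) (XT.nd (nat_lit 78) (nat_lit 228) (nat_lit 0) (XT.lf (nat_lit 0) (nat_lit 4778089543) (nat_lit 304) (nat_lit 9578384626) (nat_lit 76) (nat_lit 5972759349) (nat_lit 68) (nat_lit 5) (nat_lit 72) (nat_lit 5) (nat_lit 69) (nat_lit 5) (nat_lit 349) (nat_lit 308) (nat_lit 243)) (XT.lf (nat_lit 0) (nat_lit 7534753049) (nat_lit 228) (nat_lit 4346681080) (nat_lit 304) (nat_lit 9136007154) (nat_lit 65) (nat_lit 5) (nat_lit 68) (nat_lit 5) (nat_lit 69) (nat_lit 5) (nat_lit 350) (nat_lit 308) (nat_lit 242))))) (XT.nd (nat_lit 234) (nat_lit 608) (nat_lit 0) (XT.nd (nat_lit 78) (nat_lit 304) (nat_lit 0) (XT.lf (nat_lit 0) (nat_lit 3918322030) (nat_lit 152) (nat_lit 15578092684) (nat_lit 228) (nat_lit 2238968094) (nat_lit 63) (nat_lit 5) (nat_lit 65) (nat_lit 5) (nat_lit 66) (nat_lit 5) (nat_lit 351) (nat_lit 308)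 (nat_lit 241)) (XT.nd (nat_lit 78) (nat_lit 228) (nat_lit 0) (XT.lf (nat_lit 0) (nat_lit 5050218174) (nat_lit 228) (nat_lit 170729196) (nat_lit 76) (nat_lit 17262499817) (nat_lit 62) (nat_lit 5) (nat_lit 65) (nat_lit 5) (nat_lit 63) (nat_lit 5) (nat_lit 352) (nat_lit 308) (nat_lit 240)) (XT.lf (nat_lit 0) (nat_lit 12856023791) (nat_lit 304) (nat_lit 4681536776) (nat_lit 76) (nat_lit 5724750572) (nat_lit 59) (nat_lit 5) (nat_lit 63) (nat_lit 5) (nat_lit 60) (nat_lit 5) (nat_lit 353) (nat_lit 308) (nat_lit 239)))) (XT.nd (nat_lit 78) (nat_lit 456) (nat_lit 0) (XT.lf (nat_lit 0) (nat_lit 14361293324) (nat_lit 152) (nat_lit 6847083354) (nat_lit 228) (nat_lit 2867068524) (nat_lit 57) (nat_lit 5) (nat_lit 59) (nat_lit 5) (nat_lit 60) (nat_lit 5) (nat_lit 354) (nat_lit 308) (nat_lit 238)) (XT.nd (nat_lit 78) (nat_lit 152) (nat_lit 0) (XT.lf (nat_lit 0) (nat_lit 5099877485) (nat_lit 304) (nat_lit 15362220809)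 (nat_lit 76) (nat_lit 4461216362) (nat_lit 53) (nat_lit 5) (nat_lit 57) (nat_lit 5) (nat_lit 54) (nat_lit 5) (nat_lit 355) (nat_lit 308) (nat_lit 237)) (XT.lf (nat_lit 0) (nat_lit 4116058120) (nat_lit 152) (nat_lit 9465501997) (nat_lit 228) (nat_lit 12225908198) (nat_lit 51) (nat_lit 5) (nat_lit 53) (nat_lit 5) (nat_lit 54) (nat_lit 5) (nat_lit 356) (nat_lit 308) (nat_lit 236)))))) (XT.nd (nat_lit 468) (nat_lit 684) (nat_lit 0) (XT.nd (nat_lit 234) (nat_lit 380) (nat_lit 0) (XT.nd (nat_lit 78) (nat_lit 380) (nat_lit 0) (XT.lf (nat_lit 0) (nat_lit 22633392979) (nat_lit 228) (nat_lit 1920265052) (nat_lit 76) (nat_lit 2177801905) (nat_lit 51) (nat_lit 5) (nat_lit 54) (nat_lit 5) (nat_lit 52) (nat_lit 5) (nat_lit 357) (nat_lit 308) (nat_lit 235)) (XT.nd (nat_lit 78) (nat_lit 152) (nat_lit 0) (XT.lf (nat_lit 0) (nat_lit 4598761127) (nat_lit 228) (nat_lit 8677663067) (nat_lit 76) (nat_lit 14416484180)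 (nat_lit 48) (nat_lit 5) (nat_lit 51) (nat_lit 5) (nat_lit 49) (nat_lit 5) (nat_lit 358) (nat_lit 308) (nat_lit 234)) (XT.lf (nat_lit 0) (nat_lit 12484624782) (nat_lit 152) (nat_lit 1270473035) (nat_lit 228) (nat_lit 14942842323) (nat_lit 46) (nat_lit 5) (nat_lit 48) (nat_lit 5) (nat_lit 49) (nat_lit 5) (nat_lit 359) (nat_lit 308) (nat_lit 233)))) (XT.nd (nat_lit 78) (nat_lit 228) (nat_lit 0) (XT.lf (nat_lit 0) (nat_lit 5072505101) (nat_lit 152) (nat_lit 18514136110) (nat_lit 228) (nat_lit 6160070871) (nat_lit 44) (nat_lit 5) (nat_lit 46) (nat_lit 5) (nat_lit 47) (nat_lit 5) (nat_lit 360) (nat_lit 308) (nat_lit 232)) (XT.nd (nat_lit 78) (nat_lit 152) (nat_lit 0) (XT.lf (nat_lit 0) (nat_lit 3153581735) (nat_lit 228) (nat_lit 3176945176) (nat_lit 76) (nat_lit 24511977550) (nat_lit 43) (nat_lit 5) (nat_lit 46) (nat_lit 5) (nat_lit 44) (nat_lit 5) (nat_lit 361) (nat_lit 308) (nat_lit 231)) (XT.lf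 (nat_lit 0) (nat_lit 13031703700) (nat_lit 228) (nat_lit 12383122692) (nat_lit 76) (nat_lit 6569653807) (nat_lit 41) (nat_lit 5) (nat_lit 44) (nat_lit 5) (nat_lit 42) (nat_lit 5) (nat_lit 362) (nat_lit 308) (nat_lit 230))))) (XT.nd (nat_lit 234) (nat_lit 304) (nat_lit 0) (XT.nd (nat_lit 78) (nat_lit 228) (nat_lit 0) (XT.lf (nat_lit 0) (nat_lit 10494630122) (nat_lit 152) (nat_lit 13079145113) (nat_lit 228) (nat_lit 9604686812) (nat_lit 39) (nat_lit 5) (nat_lit 41) (nat_lit 5) (nat_lit 42) (nat_lit 5) (nat_lit 363) (nat_lit 308) (nat_lit 229)) (XT.nd (nat_lit 78) (nat_lit 0) (nat_lit 0) (XT.lf (nat_lit 0) (nat_lit 301831586) (nat_lit 152) (nat_lit 9334850) (nat_lit 228) (nat_lit 34117789552) (nat_lit 36) (nat_lit 5) (nat_lit 38) (nat_lit 5) (nat_lit 39) (nat_lit 5) (nat_lit 364) (nat_lit 308) (nat_lit 228)) (XT.lf (nat_lit 0) (nat_lit 10867163721) (nat_lit 228) (nat_lit 11101984638) (nat_lit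 76) (nat_lit 13759691257) (nat_lit 36) (nat_lit 5) (nat_lit 39) (nat_lit 5) (nat_lit 37) (nat_lit 5) (nat_lit 365) (nat_lit 308) (nat_lit 227)))) (XT.nd (nat_lit 78) (nat_lit 152) (nat_lit 0) (XT.lf (nat_lit 0) (nat_lit 13289124665) (nat_lit 152) (nat_lit 8764431202) (nat_lit 228) (nat_lit 15037090943) (nat_lit 34) (nat_lit 5) (nat_lit 36) (nat_lit 5) (nat_lit 37) (nat_lit 5) (nat_lit 366) (nat_lit 308) (nat_lit 226)) (XT.nd (nat_lit 78) (nat_lit 76) (nat_lit 0) (XT.lf (nat_lit 0) (nat_lit 531078801) (nat_lit 76) (nat_lit 33413103349) (nat_lit 152) (nat_lit 4572021667) (nat_lit 33) (nat_lit 5) (nat_lit 34) (nat_lit 5) (nat_lit 35) (nat_lit 4) (nat_lit 367) (nat_lit 308) (nat_lit 225)) (XT.lf (nat_lit 0) (nat_lit 6602883939) (nat_lit 152) (nat_lit 13623588378) (nat_lit 76) (nat_lit 19775368765) (nat_lit 32) (nat_lit 5) (nat_lit 34) (nat_lit 5) (nat_lit 33) (nat_lit 5) (nat_lit 368) (nat_lit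 308) (nat_lit 224))))))) (XT.nd (nat_lit 858) (nat_lit 608) (nat_lit 0) (XT.nd (nat_lit 390) (nat_lit 380) (nat_lit 0) (XT.nd (nat_lit 156) (nat_lit 304) (nat_lit 0) (XT.nd (nat_lit 78) (nat_lit 0) (nat_lit 0) (XT.lf (nat_lit 0) (nat_lit 12105114922) (nat_lit 152) (nat_lit 6231137486) (nat_lit 228) (nat_lit 23221327624) (nat_lit 30) (nat_lit 5) (nat_lit 32) (nat_lit 5) (nat_lit 33) (nat_lit 5) (nat_lit 369) (nat_lit 308) (nat_lit 223)) (XT.lf (nat_lit 0) (nat_lit 30856857081) (nat_lit 228) (nat_lit 3905009855) (nat_lit 76) (nat_lit 8423227739) (nat_lit 30) (nat_lit 5) (nat_lit 33) (nat_lit 5) (nat_lit 31) (nat_lit 4) (nat_lit 370) (nat_lit 308) (nat_lit 222))) (XT.nd (nat_lit 78) (nat_lit 228) (nat_lit 0) (XT.lf (nat_lit 0) (nat_lit 23272670666) (nat_lit 76) (nat_lit 20996068290) (nat_lit 152) (nat_lit 617294187) (nat_lit 29) (nat_lit 5) (nat_lit 30) (nat_lit 5) (nat_lit 31) (nat_lit 4) (nat_lit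 371) (nat_lit 308) (nat_lit 221)) (XT.nd (nat_lit 78) (nat_lit 0) (nat_lit 0) (XT.lf (nat_lit 0) (nat_lit 5170546721) (nat_lit 152) (nat_lit 6350137488) (nat_lit 228) (nat_lit 35145889657) (nat_lit 26) (nat_lit 5) (nat_lit 28) (nat_lit 5) (nat_lit 29) (nat_lit 5) (nat_lit 372) (nat_lit 308) (nat_lit 220)) (XT.lf (nat_lit 0) (nat_lit 24543968645) (nat_lit 228) (nat_lit 14916460807) (nat_lit 76) (nat_lit 9066798453) (nat_lit 26) (nat_lit 5) (nat_lit 29) (nat_lit 5) (nat_lit 27) (nat_lit 4) (nat_lit 373) (nat_lit 308) (nat_lit 219))))) (XT.nd (nat_lit 234) (nat_lit 76) (nat_lit 0) (XT.nd (nat_lit 78) (nat_lit 228) (nat_lit 0) (XT.lf (nat_lit 0) (nat_lit 13149261651) (nat_lit 76) (nat_lit 25240198483) (nat_lit 152) (nat_lit 12086327843) (nat_lit 25) (nat_lit 5) (nat_lit 26) (nat_lit 5) (nat_lit 27) (nat_lit 4) (nat_lit 374) (nat_lit 308) (nat_lit 218)) (XT.nd (nat_lit 78) (nat_lit 152) (nat_lit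 0) (XT.lf (nat_lit 0) (nat_lit 533566497) (nat_lit 152) (nat_lit 9627295925) (nat_lit 76) (nat_lit 42356720131) (nat_lit 24) (nat_lit 5) (nat_lit 26) (nat_lit 5) (nat_lit 25) (nat_lit 5) (nat_lit 375) (nat_lit 308) (nat_lit 217)) (XT.lf (nat_lit 0) (nat_lit 13765377432) (nat_lit 228) (nat_lit 35024129891) (nat_lit 76) (nat_lit 5861447030) (nat_lit 22) (nat_lit 5) (nat_lit 25) (nat_lit 5) (nat_lit 23) (nat_lit 4) (nat_lit 376) (nat_lit 308) (nat_lit 216)))) (XT.nd (nat_lit 78) (nat_lit 76) (nat_lit 0) (XT.lf (nat_lit 0) (nat_lit 27843699333) (nat_lit 228) (nat_lit 6479207918) (nat_lit 76) (nat_lit 22562543750) (nat_lit 22) (nat_lit 5) (nat_lit 25) (nat_lit 5) (nat_lit 23) (nat_lit 4) (nat_lit 377) (nat_lit 308) (nat_lit 215)) (XT.nd (nat_lit 78) (nat_lit 0) (nat_lit 0) (XT.lf (nat_lit 0) (nat_lit 23928965148) (nat_lit 76) (nat_lit 18910114529) (nat_lit 152) (nat_lit 16386202220) (nat_lit 21)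 (nat_lit 5) (nat_lit 22) (nat_lit 5) (nat_lit 23) (nat_lit 4) (nat_lit 378) (nat_lit 308) (nat_lit 214)) (XT.lf (nat_lit 0) (nat_lit 55962894709) (nat_lit 76) (nat_lit 2671669404) (nat_lit 152) (nat_lit 3046033686) (nat_lit 21) (nat_lit 5) (nat_lit 22) (nat_lit 5) (nat_lit 23) (nat_lit 4) (nat_lit 379) (nat_lit 308) (nat_lit 213)))))) (XT.nd (nat_lit 468) (nat_lit 228) (nat_lit 0) (XT.nd (nat_lit 234) (nat_lit 152) (nat_lit 0) (XT.nd (nat_lit 78) (nat_lit 76) (nat_lit 0) (XT.lf (nat_lit 0) (nat_lit 11120203896) (nat_lit 152) (nat_lit 38682978974) (nat_lit 76) (nat_lit 14441150353) (nat_lit 19) (nat_lit 5) (nat_lit 21) (nat_lit 5) (nat_lit 20) (nat_lit 4) (nat_lit 380) (nat_lit 308) (nat_lit 212)) (XT.nd (nat_lit 78) (nat_lit 76) (nat_lit 0) (XT.lf (nat_lit 0) (nat_lit 26003364494) (nat_lit 152) (nat_lit 8497377228) (nat_lit 76) (nat_lit 32432463794) (nat_lit 19) (nat_lit 5) (nat_lit 21) (nat_lit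 5) (nat_lit 20) (nat_lit 4) (nat_lit 381) (nat_lit 308) (nat_lit 211)) (XT.lf (nat_lit 0) (nat_lit 23631553442) (nat_lit 76) (nat_lit 18211638156) (nat_lit 152) (nat_lit 27906957516) (nat_lit 18) (nat_lit 5) (nat_lit 19) (nat_lit 5) (nat_lit 20) (nat_lit 4) (nat_lit 382) (nat_lit 308) (nat_lit 210)))) (XT.nd (nat_lit 78) (nat_lit 152) (nat_lit 0) (XT.lf (nat_lit 0) (nat_lit 57518189419) (nat_lit 76) (nat_lit 1030085982) (nat_lit 152) (nat_lit 14157469334) (nat_lit 18) (nat_lit 5) (nat_lit 19) (nat_lit 5) (nat_lit 20) (nat_lit 4) (nat_lit 383) (nat_lit 308) (nat_lit 209)) (XT.nd (nat_lit 78) (nat_lit 0) (nat_lit 0) (XT.lf (nat_lit 0) (nat_lit 594712925) (nat_lit 152) (nat_lit 58363915627) (nat_lit 76) (nat_lit 16840793370) (nat_lit 16) (nat_lit 5) (nat_lit 18) (nat_lit 5) (nat_lit 17) (nat_lit 4) (nat_lit 384) (nat_lit 308) (nat_lit 208)) (XT.lf (nat_lit 0) (nat_lit 15949352728) (nat_lit 152)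 (nat_lit 27215733959) (nat_lit 76) (nat_lit 35873764165) (nat_lit 16) (nat_lit 5) (nat_lit 18) (nat_lit 5) (nat_lit 17) (nat_lit 4) (nat_lit 385) (nat_lit 308) (nat_lit 207))))) (XT.nd (nat_lit 234) (nat_lit 152) (nat_lit 0) (XT.nd (nat_lit 78) (nat_lit 0) (nat_lit 0) (XT.lf (nat_lit 0) (nat_lit 5574931532) (nat_lit 76) (nat_lit 26537656428) (nat_lit 152) (nat_lit 50326439716) (nat_lit 15) (nat_lit 5) (nat_lit 16) (nat_lit 5) (nat_lit 17) (nat_lit 4) (nat_lit 386) (nat_lit 308) (nat_lit 206)) (XT.nd (nat_lit 78) (nat_lit 0) (nat_lit 0) (XT.lf (nat_lit 0) (nat_lit 40550826546) (nat_lit 76) (nat_lit 8800978771) (nat_lit 152) (nat_lit 36649375655) (nat_lit 15) (nat_lit 5) (nat_lit 16) (nat_lit 5) (nat_lit 17) (nat_lit 4) (nat_lit 387) (nat_lit 308) (nat_lit 205)) (XT.lf (nat_lit 0) (nat_lit 67535551950) (nat_lit 152) (nat_lit 12582538452) (nat_lit 0) (nat_lit 9620876611) (nat_lit 15) (nat_lit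 5) (nat_lit 17) (nat_lit 4) (nat_lit 15) (nat_lit 4) (nat_lit 388) (nat_lit 308) (nat_lit 204)))) (XT.nd (nat_lit 78) (nat_lit 76) (nat_lit 0) (XT.lf (nat_lit 0) (nat_lit 22252937019) (nat_lit 76) (nat_lit 64667000737) (nat_lit 76) (nat_lit 6734963076) (nat_lit 14) (nat_lit 4) (nat_lit 15) (nat_lit 5) (nat_lit 15) (nat_lit 4) (nat_lit 389) (nat_lit 308) (nat_lit 203)) (XT.nd (nat_lit 78) (nat_lit 0) (nat_lit 0) (XT.lf (nat_lit 0) (nat_lit 9441148441) (nat_lit 152) (nat_lit 38783041869) (nat_lit 76) (nat_lit 49536108793) (nat_lit 13) (nat_lit 5) (nat_lit 15) (nat_lit 5) (nat_lit 14) (nat_lit 4) (nat_lit 390) (nat_lit 308) (nat_lit 202)) (XT.lf (nat_lit 0) (nat_lit 26277539978) (nat_lit 152) (nat_lit 4620915188) (nat_lit 76) (nat_lit 71170790512) (nat_lit 13) (nat_lit 5) (nat_lit 15) (nat_lit 5) (nat_lit 14) (nat_lit 4) (nat_lit 391) (nat_lit 308) (nat_lit 201))))))))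
noncomputable def xc66 : XT := (XT.nd (nat_lit 1716) (nat_lit 6764) (nat_lit 0) (XT.nd (nat_lit 858) (nat_lit 6916) (nat_lit 0) (XT.nd (nat_lit 390) (nat_lit 1748) (nat_lit 0) (XT.nd (nat_lit 156) (nat_lit 760) (nat_lit 0) (XT.nd (nat_lit 78) (nat_lit 836) (nat_lit 0) (XT.lf (nat_lit 0) (nat_lit 2763055100) (nat_lit 836) (nat_lit 466750279) (nat_lit 836) (nat_lit 466750279) (nat_lit 283) (nat_lit 3) (nat_lit 294) (nat_lit 3) (nat_lit 294) (nat_lit 5) (nat_lit 309) (nat_lit 309) (nat_lit 282)) (XT.lf (nat_lit 0) (nat_lit 572384022) (nat_lit 836) (nat_lit 2577620308) (nat_lit 912) (nat_lit 4352421389) (nat_lit 272) (nat_lit 5) (nat_lit 283) (nat_lit 3) (nat_lit 284) (nat_lit 5) (nat_lit 310) (nat_lit 309) (nat_lit 281))) (XT.nd (nat_lit 78) (nat_lit 836) (nat_lit 0) (XT.lf (nat_lit 0) (nat_lit 2988252686) (nat_lit 836) (nat_lit 4180873034) (nat_lit 912) (nat_lit 450898435) (nat_lit 273) (nat_lit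 5) (nat_lit 284) (nat_lit 5) (nat_lit 285) (nat_lit 5) (nat_lit 311) (nat_lit 309) (nat_lit 280)) (XT.nd (nat_lit 78) (nat_lit 836) (nat_lit 0) (XT.lf (nat_lit 76) (nat_lit 1988640294) (nat_lit 0) (nat_lit 3466744446) (nat_lit 912) (nat_lit 2290362407) (nat_lit 274) (nat_lit 5) (nat_lit 273) (nat_lit 5) (nat_lit 285) (nat_lit 5) (nat_lit 312) (nat_lit 309) (nat_lit 279)) (XT.lf (nat_lit 0) (nat_lit 76588262) (nat_lit 912) (nat_lit 7285076579) (nat_lit 988) (nat_lit 518837187) (nat_lit 262) (nat_lit 5) (nat_lit 274) (nat_lit 5) (nat_lit 275) (nat_lit 5) (nat_lit 313) (nat_lit 309) (nat_lit 278))))) (XT.nd (nat_lit 234) (nat_lit 1748) (nat_lit 0) (XT.nd (nat_lit 78) (nat_lit 0) (nat_lit 76) (XT.lf (nat_lit 0) (nat_lit 2473713034) (nat_lit 912) (nat_lit 781828417) (nat_lit 988) (nat_lit 4767136836) (nat_lit 262) (nat_lit 5) (nat_lit 274) (nat_lit 5) (nat_lit 275) (nat_lit 5) (nat_lit 314) (nat_lit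 309) (nat_lit 277)) (XT.nd (nat_lit 78) (nat_lit 0) (nat_lit 0) (XT.lf (nat_lit 0) (nat_lit 4930699455) (nat_lit 912) (nat_lit 2104733922) (nat_lit 988) (nat_lit 1138462946) (nat_lit 263) (nat_lit 5) (nat_lit 275) (nat_lit 5) (nat_lit 276) (nat_lit 5) (nat_lit 315) (nat_lit 309) (nat_lit 276)) (XT.lf (nat_lit 76) (nat_lit 4923327500) (nat_lit 0) (nat_lit 2551700064) (nat_lit 988) (nat_lit 858839713) (nat_lit 264) (nat_lit 5) (nat_lit 263) (nat_lit 5) (nat_lit 276) (nat_lit 5) (nat_lit 316) (nat_lit 309) (nat_lit 275)))) (XT.nd (nat_lit 78) (nat_lit 912) (nat_lit 0) (XT.lf (nat_lit 0) (nat_lit 1572979881) (nat_lit 988) (nat_lit 4707492198) (nat_lit 1064) (nat_lit 2222197448) (nat_lit 251) (nat_lit 5) (nat_lit 264) (nat_lit 5) (nat_lit 265) (nat_lit 5) (nat_lit 317) (nat_lit 309) (nat_lit 274)) (XT.nd (nat_lit 78) (nat_lit 912) (nat_lit 0) (XT.lf (nat_lit 76) (nat_lit 2683354490) (nat_lit 0)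 (nat_lit 1397626741) (nat_lit 1064) (nat_lit 4599616621) (nat_lit 252) (nat_lit 5) (nat_lit 251) (nat_lit 5) (nat_lit 265) (nat_lit 5) (nat_lit 318) (nat_lit 309) (nat_lit 273)) (XT.lf (nat_lit 0) (nat_lit 1581722733) (nat_lit 988) (nat_lit 5122721673) (nat_lit 1064) (nat_lit 2163382667) (nat_lit 239) (nat_lit 5) (nat_lit 252) (nat_lit 5) (nat_lit 253) (nat_lit 5) (nat_lit 319) (nat_lit 309) (nat_lit 272)))))) (XT.nd (nat_lit 390) (nat_lit 3116) (nat_lit 0) (XT.nd (nat_lit 156) (nat_lit 2660) (nat_lit 0) (XT.nd (nat_lit 78) (nat_lit 0) (nat_lit 0) (XT.lf (nat_lit 0) (nat_lit 362979911) (nat_lit 1140) (nat_lit 8561433816) (nat_lit 76) (nat_lit 140707989) (nat_lit 224) (nat_lit 5) (nat_lit 239) (nat_lit 5) (nat_lit 225) (nat_lit 5) (nat_lit 320) (nat_lit 309) (nat_lit 271)) (XT.lf (nat_lit 0) (nat_lit 2996524061) (nat_lit 1140) (nat_lit 598500971) (nat_lit 76) (nat_lit 5675938945) (nat_lit 224)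 (nat_lit 5) (nat_lit 239) (nat_lit 5) (nat_lit 225) (nat_lit 5) (nat_lit 321) (nat_lit 309) (nat_lit 270))) (XT.nd (nat_lit 78) (nat_lit 1520) (nat_lit 0) (XT.lf (nat_lit 0) (nat_lit 5759718049) (nat_lit 1216) (nat_lit 1677730080) (nat_lit 76) (nat_lit 2049800222) (nat_lit 209) (nat_lit 5) (nat_lit 225) (nat_lit 5) (nat_lit 210) (nat_lit 5) (nat_lit 322) (nat_lit 309) (nat_lit 269)) (XT.nd (nat_lit 78) (nat_lit 684) (nat_lit 0) (XT.lf (nat_lit 0) (nat_lit 6949841682) (nat_lit 836) (nat_lit 1727098147) (nat_lit 912) (nat_lit 1037016006) (nat_lit 198) (nat_lit 5) (nat_lit 209) (nat_lit 5) (nat_lit 210) (nat_lit 5) (nat_lit 323) (nat_lit 309) (nat_lit 268)) (XT.lf (nat_lit 0) (nat_lit 1780547169) (nat_lit 684) (nat_lit 3884928805) (nat_lit 76) (nat_lit 4285263205) (nat_lit 189) (nat_lit 5) (nat_lit 198) (nat_lit 5) (nat_lit 190) (nat_lit 5) (nat_lit 324) (nat_lit 309) (nat_lit 267))))) (XT.nd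 (nat_lit 234) (nat_lit 1444) (nat_lit 0) (XT.nd (nat_lit 78) (nat_lit 1140) (nat_lit 0) (XT.lf (nat_lit 0) (nat_lit 4730944662) (nat_lit 608) (nat_lit 5019227108) (nat_lit 76) (nat_lit 448554590) (nat_lit 182) (nat_lit 5) (nat_lit 190) (nat_lit 5) (nat_lit 183) (nat_lit 5) (nat_lit 325) (nat_lit 309) (nat_lit 266)) (XT.nd (nat_lit 78) (nat_lit 608) (nat_lit 0) (XT.lf (nat_lit 0) (nat_lit 4260395569) (nat_lit 532) (nat_lit 3623159821) (nat_lit 608) (nat_lit 2573987943) (nat_lit 175) (nat_lit 5) (nat_lit 182) (nat_lit 5) (nat_lit 183) (nat_lit 5) (nat_lit 326) (nat_lit 309) (nat_lit 265)) (XT.lf (nat_lit 0) (nat_lit 486238468) (nat_lit 608) (nat_lit 7400158679) (nat_lit 76) (nat_lit 2841911710) (nat_lit 167) (nat_lit 5) (nat_lit 175) (nat_lit 5) (nat_lit 168) (nat_lit 5) (nat_lit 327) (nat_lit 309) (nat_lit 264)))) (XT.nd (nat_lit 78) (nat_lit 912) (nat_lit 0) (XT.lf (nat_lit 0) (nat_lit 2346360514)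 (nat_lit 532) (nat_lit 1345474321) (nat_lit 608) (nat_lit 7318708219) (nat_lit 160) (nat_lit 5) (nat_lit 167) (nat_lit 5) (nat_lit 168) (nat_lit 5) (nat_lit 328) (nat_lit 309) (nat_lit 263)) (XT.nd (nat_lit 78) (nat_lit 456) (nat_lit 0) (XT.lf (nat_lit 0) (nat_lit 1317522816) (nat_lit 456) (nat_lit 5807297708) (nat_lit 532) (nat_lit 4180114894) (nat_lit 154) (nat_lit 5) (nat_lit 160) (nat_lit 5) (nat_lit 161) (nat_lit 5) (nat_lit 329) (nat_lit 309) (nat_lit 262)) (XT.lf (nat_lit 0) (nat_lit 264501564) (nat_lit 456) (nat_lit 10508174097) (nat_lit 532) (nat_lit 840132027) (nat_lit 148) (nat_lit 5) (nat_lit 154) (nat_lit 5) (nat_lit 155) (nat_lit 5) (nat_lit 330) (nat_lit 309) (nat_lit 261))))))) (XT.nd (nat_lit 858) (nat_lit 3040) (nat_lit 0) (XT.nd (nat_lit 390) (nat_lit 1900) (nat_lit 0) (XT.nd (nat_lit 156) (nat_lit 1292) (nat_lit 0) (XT.nd (nat_lit 78) (nat_lit 456) (nat_lit 0) (XT.lf (nat_lit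 0) (nat_lit 2706333496) (nat_lit 532) (nat_lit 863900465) (nat_lit 76) (nat_lit 8362377456) (nat_lit 147) (nat_lit 5) (nat_lit 154) (nat_lit 5) (nat_lit 148) (nat_lit 5) (nat_lit 331) (nat_lit 309) (nat_lit 260)) (XT.lf (nat_lit 0) (nat_lit 6480615024) (nat_lit 532) (nat_lit 2046918629) (nat_lit 76) (nat_lit 3738636201) (nat_lit 141) (nat_lit 5) (nat_lit 148) (nat_lit 5) (nat_lit 142) (nat_lit 5) (nat_lit 332) (nat_lit 309) (nat_lit 259))) (XT.nd (nat_lit 78) (nat_lit 836) (nat_lit 0) (XT.lf (nat_lit 0) (nat_lit 9325320395) (nat_lit 456) (nat_lit 1187763074) (nat_lit 532) (nat_lit 2101286274) (nat_lit 135) (nat_lit 5) (nat_lit 141) (nat_lit 5) (nat_lit 142) (nat_lit 5) (nat_lit 333) (nat_lit 309) (nat_lit 258)) (XT.nd (nat_lit 78) (nat_lit 380) (nat_lit 0) (XT.lf (nat_lit 0) (nat_lit 1834938642) (nat_lit 456) (nat_lit 4643822854) (nat_lit 76) (nat_lit 6497685813) (nat_lit 129) (nat_lit 5) (nat_lit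 135) (nat_lit 5) (nat_lit 130) (nat_lit 5) (nat_lit 334) (nat_lit 309) (nat_lit 257)) (XT.lf (nat_lit 0) (nat_lit 5992240421) (nat_lit 456) (nat_lit 6087410878) (nat_lit 76) (nat_lit 1274363626) (nat_lit 124) (nat_lit 5) (nat_lit 130) (nat_lit 5) (nat_lit 125) (nat_lit 5) (nat_lit 335) (nat_lit 309) (nat_lit 256))))) (XT.nd (nat_lit 234) (nat_lit 760) (nat_lit 0) (XT.nd (nat_lit 78) (nat_lit 760) (nat_lit 0) (XT.lf (nat_lit 0) (nat_lit 6096691368) (nat_lit 380) (nat_lit 4373700476) (nat_lit 456) (nat_lit 3276719559) (nat_lit 119) (nat_lit 5) (nat_lit 124) (nat_lit 5) (nat_lit 125) (nat_lit 5) (nat_lit 336) (nat_lit 309) (nat_lit 255)) (XT.nd (nat_lit 78) (nat_lit 304) (nat_lit 0) (XT.lf (nat_lit 0) (nat_lit 1081865367) (nat_lit 456) (nat_lit 9326885032) (nat_lit 76) (nat_lit 3748186207) (nat_lit 113) (nat_lit 5) (nat_lit 119) (nat_lit 5) (nat_lit 114) (nat_lit 5) (nat_lit 337) (nat_lit 309)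 (nat_lit 254)) (XT.lf (nat_lit 0) (nat_lit 3423008425) (nat_lit 304) (nat_lit 2268896984) (nat_lit 380) (nat_lit 8891370816) (nat_lit 109) (nat_lit 5) (nat_lit 113) (nat_lit 5) (nat_lit 114) (nat_lit 5) (nat_lit 338) (nat_lit 309) (nat_lit 253)))) (XT.nd (nat_lit 78) (nat_lit 380) (nat_lit 0) (XT.lf (nat_lit 0) (nat_lit 1877970448) (nat_lit 380) (nat_lit 8775694963) (nat_lit 456) (nat_lit 4373664437) (nat_lit 104) (nat_lit 5) (nat_lit 109) (nat_lit 5) (nat_lit 110) (nat_lit 5) (nat_lit 339) (nat_lit 309) (nat_lit 252)) (XT.nd (nat_lit 78) (nat_lit 0) (nat_lit 0) (XT.lf (nat_lit 0) (nat_lit 214214991) (nat_lit 304) (nat_lit 236664258) (nat_lit 380) (nat_lit 15039986140) (nat_lit 99) (nat_lit 5) (nat_lit 103) (nat_lit 5) (nat_lit 104) (nat_lit 5) (nat_lit 340) (nat_lit 309) (nat_lit 251)) (XT.lf (nat_lit 0) (nat_lit 5596469101) (nat_lit 380) (nat_lit 1654984368) (nat_lit 76) (nat_lit 8719746493)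 (nat_lit 99) (nat_lit 5) (nat_lit 104) (nat_lit 5) (nat_lit 100) (nat_lit 5) (nat_lit 341) (nat_lit 309) (nat_lit 250)))))) (XT.nd (nat_lit 468) (nat_lit 1216) (nat_lit 0) (XT.nd (nat_lit 234) (nat_lit 836) (nat_lit 0) (XT.nd (nat_lit 78) (nat_lit 684) (nat_lit 0) (XT.lf (nat_lit 0) (nat_lit 11093100443) (nat_lit 380) (nat_lit 3663784448) (nat_lit 76) (nat_lit 1715881663) (nat_lit 95) (nat_lit 5) (nat_lit 100) (nat_lit 5) (nat_lit 96) (nat_lit 5) (nat_lit 342) (nat_lit 309) (nat_lit 249)) (XT.nd (nat_lit 78) (nat_lit 304) (nat_lit 0) (XT.lf (nat_lit 0) (nat_lit 19135400) (nat_lit 380) (nat_lit 5888538348) (nat_lit 76) (nat_lit 11087262077) (nat_lit 90) (nat_lit 5) (nat_lit 95) (nat_lit 5) (nat_lit 91) (nat_lit 5) (nat_lit 343) (nat_lit 309) (nat_lit 248)) (XT.lf (nat_lit 0) (nat_lit 5692225261) (nat_lit 380) (nat_lit 8366337771) (nat_lit 76) (nat_lit 3479609154) (nat_lit 86) (nat_lit 5) (nat_lit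 91) (nat_lit 5) (nat_lit 87) (nat_lit 5) (nat_lit 344) (nat_lit 309) (nat_lit 247)))) (XT.nd (nat_lit 78) (nat_lit 608) (nat_lit 0) (XT.lf (nat_lit 0) (nat_lit 7011308085) (nat_lit 228) (nat_lit 4781134671) (nat_lit 304) (nat_lit 6311847022) (nat_lit 83) (nat_lit 5) (nat_lit 86) (nat_lit 5) (nat_lit 87) (nat_lit 5) (nat_lit 345) (nat_lit 309) (nat_lit 246)) (XT.nd (nat_lit 78) (nat_lit 304) (nat_lit 0) (XT.lf (nat_lit 0) (nat_lit 4611997893) (nat_lit 304) (nat_lit 13721194732) (nat_lit 380) (nat_lit 361477462) (nat_lit 79) (nat_lit 5) (nat_lit 83) (nat_lit 5) (nat_lit 84) (nat_lit 5) (nat_lit 346) (nat_lit 309) (nat_lit 245)) (XT.lf (nat_lit 0) (nat_lit 1888801111) (nat_lit 228) (nat_lit 4022028831) (nat_lit 304) (nat_lit 13397884214) (nat_lit 75) (nat_lit 5) (nat_lit 78) (nat_lit 5) (nat_lit 79) (nat_lit 5) (nat_lit 347) (nat_lit 309) (nat_lit 244))))) (XT.nd (nat_lit 234) (nat_lit 684) (nat_lit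 0) (XT.nd (nat_lit 78) (nat_lit 532) (nat_lit 0) (XT.lf (nat_lit 0) (nat_lit 12653734646) (nat_lit 304) (nat_lit 1124448764) (nat_lit 76) (nat_lit 6170255711) (nat_lit 75) (nat_lit 5) (nat_lit 79) (nat_lit 5) (nat_lit 76) (nat_lit 5) (nat_lit 348) (nat_lit 309) (nat_lit 243)) (XT.nd (nat_lit 78) (nat_lit 304) (nat_lit 0) (XT.lf (nat_lit 0) (nat_lit 16200218737) (nat_lit 228) (nat_lit 3690602329) (nat_lit 304) (nat_lit 724637033) (nat_lit 72) (nat_lit 5) (nat_lit 75) (nat_lit 5) (nat_lit 76) (nat_lit 5) (nat_lit 349) (nat_lit 309) (nat_lit 242)) (XT.lf (nat_lit 0) (nat_lit 6222113890) (nat_lit 304) (nat_lit 8141278890) (nat_lit 76) (nat_lit 6945612575) (nat_lit 68) (nat_lit 5) (nat_lit 72) (nat_lit 5) (nat_lit 69) (nat_lit 5) (nat_lit 350) (nat_lit 309) (nat_lit 241)))) (XT.nd (nat_lit 78) (nat_lit 456) (nat_lit 0) (XT.lf (nat_lit 0) (nat_lit 9772593197) (nat_lit 228) (nat_lit 3868535904) (nat_lit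 304) (nat_lit 8391704841) (nat_lit 65) (nat_lit 5) (nat_lit 68) (nat_lit 5) (nat_lit 69) (nat_lit 5) (nat_lit 351) (nat_lit 309) (nat_lit 240)) (XT.nd (nat_lit 78) (nat_lit 304) (nat_lit 0) (XT.lf (nat_lit 0) (nat_lit 5949961155) (nat_lit 152) (nat_lit 15655404804) (nat_lit 228) (nat_lit 1182275687) (nat_lit 63) (nat_lit 5) (nat_lit 65) (nat_lit 5) (nat_lit 66) (nat_lit 5) (nat_lit 352) (nat_lit 309) (nat_lit 239)) (XT.lf (nat_lit 0) (nat_lit 1622878390) (nat_lit 228) (nat_lit 4786723573) (nat_lit 304) (nat_lit 17164361663) (nat_lit 59) (nat_lit 5) (nat_lit 62) (nat_lit 5) (nat_lit 63) (nat_lit 5) (nat_lit 353) (nat_lit 309) (nat_lit 238))))))))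
noncomputable def xc67 : XT := (XT.nd (nat_lit 1794) (nat_lit 760) (nat_lit 0) (XT.nd (nat_lit 858) (nat_lit 1140) (nat_lit 0) (XT.nd (nat_lit 390) (nat_lit 912) (nat_lit 0) (XT.nd (nat_lit 156) (nat_lit 456) (nat_lit 0) (XT.nd (nat_lit 78) (nat_lit 152) (nat_lit 0) (XT.lf (nat_lit 0) (nat_lit 14561045133) (nat_lit 304) (nat_lit 3170166321) (nat_lit 76) (nat_lit 6661920319) (nat_lit 59) (nat_lit 5) (nat_lit 63) (nat_lit 5) (nat_lit 60) (nat_lit 5) (nat_lit 354) (nat_lit 309) (nat_lit 237)) (XT.lf (nat_lit 0) (nat_lit 16774772388) (nat_lit 152) (nat_lit 6521958725) (nat_lit 228) (nat_lit 1951240358) (nat_lit 57) (nat_lit 5) (nat_lit 59) (nat_lit 5) (nat_lit 60) (nat_lit 5) (nat_lit 355) (nat_lit 309) (nat_lit 236))) (XT.nd (nat_lit 78) (nat_lit 152) (nat_lit 0) (XT.lf (nat_lit 0) (nat_lit 6366323746) (nat_lit 304) (nat_lit 14438891062) (nat_lit 76) (nat_lit 5333544828) (nat_lit 53) (nat_lit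 5) (nat_lit 57) (nat_lit 5) (nat_lit 54) (nat_lit 5) (nat_lit 356) (nat_lit 309) (nat_lit 235)) (XT.nd (nat_lit 78) (nat_lit 0) (nat_lit 0) (XT.lf (nat_lit 0) (nat_lit 5964817002) (nat_lit 152) (nat_lit 9274902205) (nat_lit 228) (nat_lit 11828390869) (nat_lit 51) (nat_lit 5) (nat_lit 53) (nat_lit 5) (nat_lit 54) (nat_lit 5) (nat_lit 357) (nat_lit 309) (nat_lit 234)) (XT.lf (nat_lit 0) (nat_lit 24703598491) (nat_lit 228) (nat_lit 429320154) (nat_lit 76) (nat_lit 2906616097) (nat_lit 51) (nat_lit 5) (nat_lit 54) (nat_lit 5) (nat_lit 52) (nat_lit 5) (nat_lit 358) (nat_lit 309) (nat_lit 233))))) (XT.nd (nat_lit 234) (nat_lit 380) (nat_lit 0) (XT.nd (nat_lit 78) (nat_lit 304) (nat_lit 0) (XT.lf (nat_lit 0) (nat_lit 5746676510) (nat_lit 228) (nat_lit 7551492023) (nat_lit 76) (nat_lit 15751529605) (nat_lit 48) (nat_lit 5) (nat_lit 51) (nat_lit 5) (nat_lit 49) (nat_lit 5) (nat_lit 359) (nat_lit 309)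 (nat_lit 232)) (XT.nd (nat_lit 78) (nat_lit 152) (nat_lit 0) (XT.lf (nat_lit 0) (nat_lit 14624191577) (nat_lit 152) (nat_lit 707491584) (nat_lit 228) (nat_lit 14774187801) (nat_lit 46) (nat_lit 5) (nat_lit 48) (nat_lit 5) (nat_lit 49) (nat_lit 5) (nat_lit 360) (nat_lit 309) (nat_lit 231)) (XT.lf (nat_lit 0) (nat_lit 6818372606) (nat_lit 152) (nat_lit 18814185777) (nat_lit 228) (nat_lit 5575204826) (nat_lit 44) (nat_lit 5) (nat_lit 46) (nat_lit 5) (nat_lit 47) (nat_lit 5) (nat_lit 361) (nat_lit 309) (nat_lit 230)))) (XT.nd (nat_lit 78) (nat_lit 304) (nat_lit 0) (XT.lf (nat_lit 0) (nat_lit 4145019381) (nat_lit 228) (nat_lit 1897750608) (nat_lit 76) (nat_lit 26316581637) (nat_lit 43) (nat_lit 5) (nat_lit 46) (nat_lit 5) (nat_lit 44) (nat_lit 5) (nat_lit 362) (nat_lit 309) (nat_lit 229)) (XT.nd (nat_lit 78) (nat_lit 152) (nat_lit 0) (XT.lf (nat_lit 0) (nat_lit 14496436825) (nat_lit 228) (nat_lit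 11586646101) (nat_lit 76) (nat_lit 7475974177) (nat_lit 41) (nat_lit 5) (nat_lit 44) (nat_lit 5) (nat_lit 42) (nat_lit 5) (nat_lit 363) (nat_lit 309) (nat_lit 228)) (XT.lf (nat_lit 0) (nat_lit 12394415526) (nat_lit 152) (nat_lit 13145692940) (nat_lit 228) (nat_lit 9273406713) (nat_lit 39) (nat_lit 5) (nat_lit 41) (nat_lit 5) (nat_lit 42) (nat_lit 5) (nat_lit 364) (nat_lit 309) (nat_lit 227)))))) (XT.nd (nat_lit 468) (nat_lit 456) (nat_lit 0) (XT.nd (nat_lit 234) (nat_lit 304) (nat_lit 0) (XT.nd (nat_lit 78) (nat_lit 152) (nat_lit 0) (XT.lf (nat_lit 0) (nat_lit 1102988769) (nat_lit 228) (nat_lit 34464373535) (nat_lit 76) (nat_lit 559531061) (nat_lit 36) (nat_lit 5) (nat_lit 39) (nat_lit 5) (nat_lit 37) (nat_lit 5) (nat_lit 365) (nat_lit 309) (nat_lit 226)) (XT.nd (nat_lit 78) (nat_lit 152) (nat_lit 0) (XT.lf (nat_lit 0) (nat_lit 12149910696) (nat_lit 228) (nat_lit 10353262090) (nat_lit 76) (nat_lit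 14989715239) (nat_lit 36) (nat_lit 5) (nat_lit 39) (nat_lit 5) (nat_lit 37) (nat_lit 5) (nat_lit 366) (nat_lit 309) (nat_lit 225)) (XT.lf (nat_lit 0) (nat_lit 15220028889) (nat_lit 152) (nat_lit 8652558444) (nat_lit 228) (nat_lit 15050899391) (nat_lit 34) (nat_lit 5) (nat_lit 36) (nat_lit 5) (nat_lit 37) (nat_lit 5) (nat_lit 367) (nat_lit 309) (nat_lit 224)))) (XT.nd (nat_lit 78) (nat_lit 228) (nat_lit 0) (XT.lf (nat_lit 0) (nat_lit 1803712604) (nat_lit 76) (nat_lit 34536934369) (nat_lit 152) (nat_lit 4080197157) (nat_lit 33) (nat_lit 5) (nat_lit 34) (nat_lit 5) (nat_lit 35) (nat_lit 4) (nat_lit 368) (nat_lit 309) (nat_lit 223)) (XT.nd (nat_lit 78) (nat_lit 152) (nat_lit 0) (XT.lf (nat_lit 0) (nat_lit 7605759084) (nat_lit 152) (nat_lit 13104458684) (nat_lit 76) (nat_lit 21271355719) (nat_lit 32) (nat_lit 5) (nat_lit 34) (nat_lit 5) (nat_lit 33) (nat_lit 5) (nat_lit 369) (nat_lit 309) (nat_lit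 222)) (XT.lf (nat_lit 0) (nat_lit 13876273162) (nat_lit 152) (nat_lit 6028695376) (nat_lit 228) (nat_lit 23710764132) (nat_lit 30) (nat_lit 5) (nat_lit 32) (nat_lit 5) (nat_lit 33) (nat_lit 5) (nat_lit 370) (nat_lit 309) (nat_lit 221))))) (XT.nd (nat_lit 234) (nat_lit 152) (nat_lit 0) (XT.nd (nat_lit 78) (nat_lit 304) (nat_lit 0) (XT.lf (nat_lit 0) (nat_lit 33025266012) (nat_lit 228) (nat_lit 2975795600) (nat_lit 76) (nat_lit 9324359614) (nat_lit 30) (nat_lit 5) (nat_lit 33) (nat_lit 5) (nat_lit 31) (nat_lit 4) (nat_lit 371) (nat_lit 309) (nat_lit 220)) (XT.nd (nat_lit 78) (nat_lit 228) (nat_lit 0) (XT.lf (nat_lit 0) (nat_lit 25528536391) (nat_lit 76) (nat_lit 21559915934) (nat_lit 152) (nat_lit 23540660) (nat_lit 29) (nat_lit 5) (nat_lit 30) (nat_lit 5) (nat_lit 31) (nat_lit 4) (nat_lit 372) (nat_lit 309) (nat_lit 219)) (XT.lf (nat_lit 0) (nat_lit 6501981580) (nat_lit 152) (nat_lit 6188316649)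 (nat_lit 228) (nat_lit 36291654982) (nat_lit 26) (nat_lit 5) (nat_lit 28) (nat_lit 5) (nat_lit 29) (nat_lit 5) (nat_lit 373) (nat_lit 309) (nat_lit 218)))) (XT.nd (nat_lit 78) (nat_lit 152) (nat_lit 0) (XT.lf (nat_lit 0) (nat_lit 26340869364) (nat_lit 228) (nat_lit 14627760724) (nat_lit 76) (nat_lit 9967732950) (nat_lit 26) (nat_lit 5) (nat_lit 29) (nat_lit 5) (nat_lit 27) (nat_lit 4) (nat_lit 374) (nat_lit 309) (nat_lit 217)) (XT.nd (nat_lit 78) (nat_lit 76) (nat_lit 0) (XT.lf (nat_lit 0) (nat_lit 14811593460) (nat_lit 76) (nat_lit 26049572700) (nat_lit 152) (nat_lit 12121715469) (nat_lit 25) (nat_lit 5) (nat_lit 26) (nat_lit 5) (nat_lit 27) (nat_lit 4) (nat_lit 375) (nat_lit 309) (nat_lit 216)) (XT.lf (nat_lit 0) (nat_lit 1091508552) (nat_lit 152) (nat_lit 9140950643) (nat_lit 76) (nat_lit 44894945520) (nat_lit 24) (nat_lit 5) (nat_lit 26) (nat_lit 5) (nat_lit 25) (nat_lit 5) (nat_lit 376)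 (nat_lit 309) (nat_lit 215))))))) (XT.nd (nat_lit 858) (nat_lit 76) (nat_lit 0) (XT.nd (nat_lit 390) (nat_lit 304) (nat_lit 0) (XT.nd (nat_lit 156) (nat_lit 228) (nat_lit 0) (XT.nd (nat_lit 78) (nat_lit 0) (nat_lit 0) (XT.lf (nat_lit 0) (nat_lit 14972732406) (nat_lit 228) (nat_lit 35823887178) (nat_lit 76) (nat_lit 6571196519) (nat_lit 22) (nat_lit 5) (nat_lit 25) (nat_lit 5) (nat_lit 23) (nat_lit 4) (nat_lit 377) (nat_lit 309) (nat_lit 214)) (XT.lf (nat_lit 0) (nat_lit 29730252016) (nat_lit 228) (nat_lit 5897026211) (nat_lit 76) (nat_lit 24087506307) (nat_lit 22) (nat_lit 5) (nat_lit 25) (nat_lit 5) (nat_lit 23) (nat_lit 4) (nat_lit 378) (nat_lit 309) (nat_lit 213))) (XT.nd (nat_lit 78) (nat_lit 152) (nat_lit 0) (XT.lf (nat_lit 0) (nat_lit 26005581127) (nat_lit 76) (nat_lit 19454739642) (nat_lit 152) (nat_lit 16711743768) (nat_lit 21) (nat_lit 5) (nat_lit 22) (nat_lit 5) (nat_lit 23) (nat_lit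 4) (nat_lit 379) (nat_lit 309) (nat_lit 212)) (XT.nd (nat_lit 78) (nat_lit 152) (nat_lit 0) (XT.lf (nat_lit 0) (nat_lit 59599294417) (nat_lit 76) (nat_lit 2423461813) (nat_lit 152) (nat_lit 2728079596) (nat_lit 21) (nat_lit 5) (nat_lit 22) (nat_lit 5) (nat_lit 23) (nat_lit 4) (nat_lit 380) (nat_lit 309) (nat_lit 211)) (XT.lf (nat_lit 0) (nat_lit 12126866955) (nat_lit 152) (nat_lit 39784010208) (nat_lit 76) (nat_lit 15532062571) (nat_lit 19) (nat_lit 5) (nat_lit 21) (nat_lit 5) (nat_lit 20) (nat_lit 4) (nat_lit 381) (nat_lit 309) (nat_lit 210))))) (XT.nd (nat_lit 234) (nat_lit 228) (nat_lit 0) (XT.nd (nat_lit 78) (nat_lit 76) (nat_lit 0) (XT.lf (nat_lit 0) (nat_lit 27732725923) (nat_lit 152) (nat_lit 8128800647) (nat_lit 76) (nat_lit 34405377174) (nat_lit 19) (nat_lit 5) (nat_lit 21) (nat_lit 5) (nat_lit 20) (nat_lit 4) (nat_lit 382) (nat_lit 309) (nat_lit 209)) (XT.nd (nat_lit 78) (nat_lit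 0) (nat_lit 0) (XT.lf (nat_lit 0) (nat_lit 25583832602) (nat_lit 76) (nat_lit 18767682462) (nat_lit 152) (nat_lit 28873574444) (nat_lit 18) (nat_lit 5) (nat_lit 19) (nat_lit 5) (nat_lit 20) (nat_lit 4) (nat_lit 383) (nat_lit 309) (nat_lit 208)) (XT.lf (nat_lit 0) (nat_lit 61128100308) (nat_lit 76) (nat_lit 743935422) (nat_lit 152) (nat_lit 14457027612) (nat_lit 18) (nat_lit 5) (nat_lit 19) (nat_lit 5) (nat_lit 20) (nat_lit 4) (nat_lit 384) (nat_lit 309) (nat_lit 207)))) (XT.nd (nat_lit 78) (nat_lit 76) (nat_lit 0) (XT.lf (nat_lit 0) (nat_lit 1015857215) (nat_lit 152) (nat_lit 60552815013) (nat_lit 76) (nat_lit 18008906194) (nat_lit 16) (nat_lit 5) (nat_lit 18) (nat_lit 5) (nat_lit 17) (nat_lit 4) (nat_lit 385) (nat_lit 309) (nat_lit 206)) (XT.nd (nat_lit 78) (nat_lit 76) (nat_lit 0) (XT.lf (nat_lit 0) (nat_lit 17119590501) (nat_lit 152) (nat_lit 27881952661) (nat_lit 76) (nat_lit 37977998236)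 (nat_lit 16) (nat_lit 5) (nat_lit 18) (nat_lit 5) (nat_lit 17) (nat_lit 4) (nat_lit 386) (nat_lit 309) (nat_lit 205)) (XT.lf (nat_lit 0) (nat_lit 6528336453) (nat_lit 76) (nat_lit 27551385312) (nat_lit 152) (nat_lit 52470346551) (nat_lit 15) (nat_lit 5) (nat_lit 16) (nat_lit 5) (nat_lit 17) (nat_lit 4) (nat_lit 387) (nat_lit 309) (nat_lit 204)))))) (XT.nd (nat_lit 41028) (nat_lit 0) (nat_lit 17860) (XT.nd (nat_lit 40794) (nat_lit 0) (nat_lit 19608) (XT.nd (nat_lit 78) (nat_lit 76) (nat_lit 0) (XT.lf (nat_lit 0) (nat_lit 43220899629) (nat_lit 76) (nat_lit 8942785864) (nat_lit 152) (nat_lit 38127163343) (nat_lit 15) (nat_lit 5) (nat_lit 16) (nat_lit 5) (nat_lit 17) (nat_lit 4) (nat_lit 388) (nat_lit 309) (nat_lit 203)) (XT.nd (nat_lit 78) (nat_lit 76) (nat_lit 0) (XT.lf (nat_lit 0) (nat_lit 71242955065) (nat_lit 152) (nat_lit 12592564367) (nat_lit 0) (nat_lit 10380417654) (nat_lit 15) (nat_lit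 5) (nat_lit 17) (nat_lit 4) (nat_lit 15) (nat_lit 4) (nat_lit 389) (nat_lit 309) (nat_lit 202)) (XT.lf (nat_lit 0) (nat_lit 23966938472) (nat_lit 76) (nat_lit 67619658206) (nat_lit 76) (nat_lit 6741372657) (nat_lit 14) (nat_lit 4) (nat_lit 15) (nat_lit 5) (nat_lit 15) (nat_lit 4) (nat_lit 390) (nat_lit 309) (nat_lit 201)))) (XT.nd (nat_lit 78) (nat_lit 0) (nat_lit 0) (XT.lf (nat_lit 0) (nat_lit 708103291) (nat_lit 0) (nat_lit 708103291) (nat_lit 836) (nat_lit 2391578790) (nat_lit 272) (nat_lit 5) (nat_lit 272) (nat_lit 3) (nat_lit 283) (nat_lit 3) (nat_lit 310) (nat_lit 310) (nat_lit 280)) (XT.nd (nat_lit 78) (nat_lit 0) (nat_lit 0) (XT.lf (nat_lit 0) (nat_lit 5125386168) (nat_lit 836) (nat_lit 270264924) (nat_lit 912) (nat_lit 2341282388) (nat_lit 272) (nat_lit 5) (nat_lit 283) (nat_lit 3) (nat_lit 284) (nat_lit 5) (nat_lit 311) (nat_lit 310) (nat_lit 279)) (XT.lf (nat_lit 76) (nat_lit 5982291700)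 (nat_lit 0) (nat_lit 1482415461) (nat_lit 912) (nat_lit 401857385) (nat_lit 273) (nat_lit 5) (nat_lit 272) (nat_lit 5) (nat_lit 284) (nat_lit 5) (nat_lit 312) (nat_lit 310) (nat_lit 278))))) (XT.nd (nat_lit 234) (nat_lit 912) (nat_lit 0) (XT.nd (nat_lit 78) (nat_lit 0) (nat_lit 0) (XT.lf (nat_lit 0) (nat_lit 1818238915) (nat_lit 912) (nat_lit 3486769961) (nat_lit 988) (nat_lit 2699134219) (nat_lit 261) (nat_lit 5) (nat_lit 273) (nat_lit 5) (nat_lit 274) (nat_lit 5) (nat_lit 313) (nat_lit 310) (nat_lit 277)) (XT.nd (nat_lit 78) (nat_lit 0) (nat_lit 76) (XT.lf (nat_lit 76) (nat_lit 3093105557) (nat_lit 0) (nat_lit 982966613) (nat_lit 988) (nat_lit 4074490870) (nat_lit 262) (nat_lit 5) (nat_lit 261) (nat_lit 5) (nat_lit 274) (nat_lit 5) (nat_lit 314) (nat_lit 310) (nat_lit 276)) (XT.lf (nat_lit 76) (nat_lit 1689497681) (nat_lit 0) (nat_lit 4720527794) (nat_lit 988) (nat_lit 1895508442) (nat_lit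 263) (nat_lit 5) (nat_lit 262) (nat_lit 5) (nat_lit 275) (nat_lit 5) (nat_lit 315) (nat_lit 310) (nat_lit 275)))) (XT.nd (nat_lit 78) (nat_lit 0) (nat_lit 76) (XT.lf (nat_lit 76) (nat_lit 324171893) (nat_lit 0) (nat_lit 6609350) (nat_lit 1064) (nat_lit 8139095689) (nat_lit 250) (nat_lit 5) (nat_lit 249) (nat_lit 5) (nat_lit 263) (nat_lit 5) (nat_lit 316) (nat_lit 310) (nat_lit 274)) (XT.nd (nat_lit 78) (nat_lit 0) (nat_lit 76) (XT.lf (nat_lit 0) (nat_lit 2631533925) (nat_lit 988) (nat_lit 1040394383) (nat_lit 1064) (nat_lit 4969986902) (nat_lit 250) (nat_lit 5) (nat_lit 263) (nat_lit 5) (nat_lit 264) (nat_lit 5) (nat_lit 317) (nat_lit 310) (nat_lit 273)) (XT.lf (nat_lit 0) (nat_lit 5014802106) (nat_lit 988) (nat_lit 2370241827) (nat_lit 1064) (nat_lit 1438593466) (nat_lit 251) (nat_lit 5) (nat_lit 264) (nat_lit 5) (nat_lit 265) (nat_lit 5) (nat_lit 318) (nat_lit 310) (nat_lit 272))))))))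
noncomputable def xc68 : XT := (XT.nd (nat_lit 1716) (nat_lit 4636) (nat_lit 0) (XT.nd (nat_lit 858) (nat_lit 4256) (nat_lit 0) (XT.nd (nat_lit 390) (nat_lit 2888) (nat_lit 0) (XT.nd (nat_lit 156) (nat_lit 3040) (nat_lit 0) (XT.nd (nat_lit 78) (nat_lit 988) (nat_lit 0) (XT.lf (nat_lit 76) (nat_lit 5316403416) (nat_lit 0) (nat_lit 2195669776) (nat_lit 1064) (nat_lit 1502628592) (nat_lit 252) (nat_lit 5) (nat_lit 251) (nat_lit 5) (nat_lit 265) (nat_lit 5) (nat_lit 319) (nat_lit 310) (nat_lit 271)) (XT.lf (nat_lit 0) (nat_lit 897325730) (nat_lit 1064) (nat_lit 5032397586) (nat_lit 76) (nat_lit 3285533680) (nat_lit 238) (nat_lit 5) (nat_lit 252) (nat_lit 5) (nat_lit 239) (nat_lit 5) (nat_lit 320) (nat_lit 310) (nat_lit 270))) (XT.nd (nat_lit 78) (nat_lit 1976) (nat_lit 0) (XT.lf (nat_lit 0) (nat_lit 3052121764) (nat_lit 1064) (nat_lit 327562567) (nat_lit 1140) (nat_lit 6045993994) (nat_lit 224)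 (nat_lit 5) (nat_lit 238) (nat_lit 5) (nat_lit 239) (nat_lit 5) (nat_lit 321) (nat_lit 310) (nat_lit 269)) (XT.nd (nat_lit 78) (nat_lit 836) (nat_lit 0) (XT.lf (nat_lit 0) (nat_lit 1903088838) (nat_lit 1140) (nat_lit 4114323358) (nat_lit 1216) (nat_lit 3628355917) (nat_lit 209) (nat_lit 5) (nat_lit 224) (nat_lit 5) (nat_lit 225) (nat_lit 5) (nat_lit 322) (nat_lit 310) (nat_lit 268)) (XT.lf (nat_lit 0) (nat_lit 763912574) (nat_lit 836) (nat_lit 8028296514) (nat_lit 912) (nat_lit 1084578714) (nat_lit 198) (nat_lit 5) (nat_lit 209) (nat_lit 5) (nat_lit 210) (nat_lit 5) (nat_lit 323) (nat_lit 310) (nat_lit 267))))) (XT.nd (nat_lit 234) (nat_lit 1672) (nat_lit 0) (XT.nd (nat_lit 78) (nat_lit 1140) (nat_lit 0) (XT.lf (nat_lit 0) (nat_lit 1591008973) (nat_lit 912) (nat_lit 397984776) (nat_lit 76) (nat_lit 8128914705) (nat_lit 197) (nat_lit 5) (nat_lit 209) (nat_lit 5) (nat_lit 198) (nat_lit 5) (nat_lit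 324) (nat_lit 310) (nat_lit 266)) (XT.nd (nat_lit 78) (nat_lit 532) (nat_lit 0) (XT.lf (nat_lit 0) (nat_lit 4423608870) (nat_lit 684) (nat_lit 1576665278) (nat_lit 76) (nat_lit 4369190162) (nat_lit 189) (nat_lit 5) (nat_lit 198) (nat_lit 5) (nat_lit 190) (nat_lit 5) (nat_lit 325) (nat_lit 310) (nat_lit 265)) (XT.lf (nat_lit 0) (nat_lit 7423031309) (nat_lit 608) (nat_lit 2763412225) (nat_lit 76) (nat_lit 446466488) (nat_lit 182) (nat_lit 5) (nat_lit 190) (nat_lit 5) (nat_lit 183) (nat_lit 5) (nat_lit 326) (nat_lit 310) (nat_lit 264)))) (XT.nd (nat_lit 78) (nat_lit 1140) (nat_lit 0) (XT.lf (nat_lit 0) (nat_lit 6908335348) (nat_lit 532) (nat_lit 3731412718) (nat_lit 608) (nat_lit 267824869) (nat_lit 175) (nat_lit 5) (nat_lit 182) (nat_lit 5) (nat_lit 183) (nat_lit 5) (nat_lit 327) (nat_lit 310) (nat_lit 263)) (XT.nd (nat_lit 78) (nat_lit 532) (nat_lit 0) (XT.lf (nat_lit 0) (nat_lit 2808531082)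 (nat_lit 608) (nat_lit 5287392728) (nat_lit 76) (nat_lit 3098023698) (nat_lit 167) (nat_lit 5) (nat_lit 175) (nat_lit 5) (nat_lit 168) (nat_lit 5) (nat_lit 328) (nat_lit 310) (nat_lit 262)) (XT.lf (nat_lit 0) (nat_lit 4875284210) (nat_lit 532) (nat_lit 1212877234) (nat_lit 608) (nat_lit 5404806839) (nat_lit 160) (nat_lit 5) (nat_lit 167) (nat_lit 5) (nat_lit 168) (nat_lit 5) (nat_lit 329) (nat_lit 310) (nat_lit 261)))))) (XT.nd (nat_lit 390) (nat_lit 2356) (nat_lit 0) (XT.nd (nat_lit 156) (nat_lit 912) (nat_lit 0) (XT.nd (nat_lit 78) (nat_lit 532) (nat_lit 0) (XT.lf (nat_lit 0) (nat_lit 3790160022) (nat_lit 456) (nat_lit 5822280737) (nat_lit 532) (nat_lit 2192133502) (nat_lit 154) (nat_lit 5) (nat_lit 160) (nat_lit 5) (nat_lit 161) (nat_lit 5) (nat_lit 330) (nat_lit 310) (nat_lit 260)) (XT.lf (nat_lit 0) (nat_lit 1212448448) (nat_lit 532) (nat_lit 9465429237) (nat_lit 76) (nat_lit 1451962614)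 (nat_lit 147) (nat_lit 5) (nat_lit 154) (nat_lit 5) (nat_lit 148) (nat_lit 5) (nat_lit 331) (nat_lit 310) (nat_lit 259))) (XT.nd (nat_lit 78) (nat_lit 456) (nat_lit 0) (XT.lf (nat_lit 0) (nat_lit 1446670003) (nat_lit 456) (nat_lit 3387337278) (nat_lit 532) (nat_lit 7633996412) (nat_lit 141) (nat_lit 5) (nat_lit 147) (nat_lit 5) (nat_lit 148) (nat_lit 5) (nat_lit 332) (nat_lit 310) (nat_lit 258)) (XT.nd (nat_lit 78) (nat_lit 0) (nat_lit 0) (XT.lf (nat_lit 0) (nat_lit 168073667) (nat_lit 456) (nat_lit 8547532813) (nat_lit 532) (nat_lit 4105145348) (nat_lit 135) (nat_lit 5) (nat_lit 141) (nat_lit 5) (nat_lit 142) (nat_lit 5) (nat_lit 333) (nat_lit 310) (nat_lit 257)) (XT.lf (nat_lit 0) (nat_lit 12039312898) (nat_lit 456) (nat_lit 839455150) (nat_lit 532) (nat_lit 309788129) (nat_lit 135) (nat_lit 5) (nat_lit 141) (nat_lit 5) (nat_lit 142) (nat_lit 5) (nat_lit 334) (nat_lit 310) (nat_lit 256)))))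 (XT.nd (nat_lit 234) (nat_lit 1140) (nat_lit 0) (XT.nd (nat_lit 78) (nat_lit 760) (nat_lit 0) (XT.lf (nat_lit 0) (nat_lit 3723149535) (nat_lit 456) (nat_lit 2604629271) (nat_lit 76) (nat_lit 7242366120) (nat_lit 129) (nat_lit 5) (nat_lit 135) (nat_lit 5) (nat_lit 130) (nat_lit 5) (nat_lit 335) (nat_lit 310) (nat_lit 255)) (XT.nd (nat_lit 78) (nat_lit 380) (nat_lit 0) (XT.lf (nat_lit 0) (nat_lit 8028536392) (nat_lit 456) (nat_lit 4136927300) (nat_lit 76) (nat_lit 1802979242) (nat_lit 124) (nat_lit 5) (nat_lit 130) (nat_lit 5) (nat_lit 125) (nat_lit 5) (nat_lit 336) (nat_lit 310) (nat_lit 254)) (XT.lf (nat_lit 0) (nat_lit 8591745117) (nat_lit 380) (nat_lit 4077204761) (nat_lit 456) (nat_lit 1714149544) (nat_lit 119) (nat_lit 5) (nat_lit 124) (nat_lit 5) (nat_lit 125) (nat_lit 5) (nat_lit 337) (nat_lit 310) (nat_lit 253)))) (XT.nd (nat_lit 78) (nat_lit 684) (nat_lit 0) (XT.lf (nat_lit 0) (nat_lit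 2773924115) (nat_lit 456) (nat_lit 7587076471) (nat_lit 76) (nat_lit 4453611619) (nat_lit 113) (nat_lit 5) (nat_lit 119) (nat_lit 5) (nat_lit 114) (nat_lit 5) (nat_lit 338) (nat_lit 310) (nat_lit 252)) (XT.nd (nat_lit 78) (nat_lit 380) (nat_lit 0) (XT.lf (nat_lit 0) (nat_lit 5737072731) (nat_lit 304) (nat_lit 1819994071) (nat_lit 380) (nat_lit 7706973138) (nat_lit 109) (nat_lit 5) (nat_lit 113) (nat_lit 5) (nat_lit 114) (nat_lit 5) (nat_lit 339) (nat_lit 310) (nat_lit 251)) (XT.lf (nat_lit 0) (nat_lit 4095118696) (nat_lit 380) (nat_lit 8622089249) (nat_lit 456) (nat_lit 3014626320) (nat_lit 104) (nat_lit 5) (nat_lit 109) (nat_lit 5) (nat_lit 110) (nat_lit 5) (nat_lit 340) (nat_lit 310) (nat_lit 250))))))) (XT.nd (nat_lit 858) (nat_lit 1900) (nat_lit 0) (XT.nd (nat_lit 390) (nat_lit 1368) (nat_lit 0) (XT.nd (nat_lit 156) (nat_lit 684) (nat_lit 0) (XT.nd (nat_lit 78) (nat_lit 304) (nat_lit 0)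 (XT.lf (nat_lit 0) (nat_lit 1970191634) (nat_lit 380) (nat_lit 13905017511) (nat_lit 76) (nat_lit 344430722) (nat_lit 99) (nat_lit 5) (nat_lit 104) (nat_lit 5) (nat_lit 100) (nat_lit 5) (nat_lit 341) (nat_lit 310) (nat_lit 249)) (XT.lf (nat_lit 0) (nat_lit 299614589) (nat_lit 304) (nat_lit 7007326742) (nat_lit 380) (nat_lit 9419074653) (nat_lit 95) (nat_lit 5) (nat_lit 99) (nat_lit 5) (nat_lit 100) (nat_lit 5) (nat_lit 342) (nat_lit 310) (nat_lit 248))) (XT.nd (nat_lit 78) (nat_lit 684) (nat_lit 0) (XT.lf (nat_lit 0) (nat_lit 13032218345) (nat_lit 380) (nat_lit 1837271849) (nat_lit 76) (nat_lit 2384595550) (nat_lit 95) (nat_lit 5) (nat_lit 100) (nat_lit 5) (nat_lit 96) (nat_lit 5) (nat_lit 343) (nat_lit 310) (nat_lit 247)) (XT.nd (nat_lit 78) (nat_lit 304) (nat_lit 0) (XT.lf (nat_lit 0) (nat_lit 1371366836) (nat_lit 380) (nat_lit 4203252052) (nat_lit 76) (nat_lit 12228799412) (nat_lit 90) (nat_lit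 5) (nat_lit 95) (nat_lit 5) (nat_lit 91) (nat_lit 5) (nat_lit 344) (nat_lit 310) (nat_lit 246)) (XT.lf (nat_lit 0) (nat_lit 7288185784) (nat_lit 380) (nat_lit 6827771926) (nat_lit 76) (nat_lit 4259091105) (nat_lit 86) (nat_lit 5) (nat_lit 91) (nat_lit 5) (nat_lit 87) (nat_lit 5) (nat_lit 345) (nat_lit 310) (nat_lit 245))))) (XT.nd (nat_lit 234) (nat_lit 532) (nat_lit 0) (XT.nd (nat_lit 78) (nat_lit 608) (nat_lit 0) (XT.lf (nat_lit 0) (nat_lit 9262662571) (nat_lit 228) (nat_lit 4386577927) (nat_lit 304) (nat_lit 5321589928) (nat_lit 83) (nat_lit 5) (nat_lit 86) (nat_lit 5) (nat_lit 87) (nat_lit 5) (nat_lit 346) (nat_lit 310) (nat_lit 244)) (XT.nd (nat_lit 78) (nat_lit 228) (nat_lit 0) (XT.lf (nat_lit 0) (nat_lit 871341651) (nat_lit 380) (nat_lit 12879848045) (nat_lit 76) (nat_lit 5840409810) (nat_lit 78) (nat_lit 5) (nat_lit 83) (nat_lit 5) (nat_lit 79) (nat_lit 5) (nat_lit 347) (nat_lit 310)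 (nat_lit 243)) (XT.lf (nat_lit 0) (nat_lit 3831992467) (nat_lit 228) (nat_lit 3576423227) (nat_lit 304) (nat_lit 12829092895) (nat_lit 75) (nat_lit 5) (nat_lit 78) (nat_lit 5) (nat_lit 79) (nat_lit 5) (nat_lit 348) (nat_lit 310) (nat_lit 242)))) (XT.nd (nat_lit 78) (nat_lit 304) (nat_lit 0) (XT.lf (nat_lit 0) (nat_lit 621140952) (nat_lit 228) (nat_lit 13821975784) (nat_lit 304) (nat_lit 6467491152) (nat_lit 72) (nat_lit 5) (nat_lit 75) (nat_lit 5) (nat_lit 76) (nat_lit 5) (nat_lit 349) (nat_lit 310) (nat_lit 241)) (XT.nd (nat_lit 78) (nat_lit 228) (nat_lit 0) (XT.lf (nat_lit 0) (nat_lit 378149029) (nat_lit 304) (nat_lit 2867413174) (nat_lit 76) (nat_lit 18366652392) (nat_lit 71) (nat_lit 5) (nat_lit 75) (nat_lit 5) (nat_lit 72) (nat_lit 5) (nat_lit 350) (nat_lit 310) (nat_lit 240)) (XT.lf (nat_lit 0) (nat_lit 7626298832) (nat_lit 304) (nat_lit 6810451709) (nat_lit 76) (nat_lit 7904426317) (nat_lit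 68) (nat_lit 5) (nat_lit 72) (nat_lit 5) (nat_lit 69) (nat_lit 5) (nat_lit 351) (nat_lit 310) (nat_lit 239)))))) (XT.nd (nat_lit 468) (nat_lit 760) (nat_lit 0) (XT.nd (nat_lit 234) (nat_lit 456) (nat_lit 0) (XT.nd (nat_lit 78) (nat_lit 456) (nat_lit 0) (XT.lf (nat_lit 0) (nat_lit 11949297683) (nat_lit 228) (nat_lit 3431142535) (nat_lit 304) (nat_lit 7721854554) (nat_lit 65) (nat_lit 5) (nat_lit 68) (nat_lit 5) (nat_lit 69) (nat_lit 5) (nat_lit 352) (nat_lit 310) (nat_lit 238)) (XT.nd (nat_lit 78) (nat_lit 304) (nat_lit 0) (XT.lf (nat_lit 0) (nat_lit 7912514110) (nat_lit 152) (nat_lit 15801809951) (nat_lit 228) (nat_lit 181397805) (nat_lit 63) (nat_lit 5) (nat_lit 65) (nat_lit 5) (nat_lit 66) (nat_lit 5) (nat_lit 353) (nat_lit 310) (nat_lit 237)) (XT.lf (nat_lit 0) (nat_lit 3341856128) (nat_lit 228) (nat_lit 4393786376) (nat_lit 304) (nat_lit 16986444568) (nat_lit 59) (nat_lit 5) (nat_lit 62)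 (nat_lit 5) (nat_lit 63) (nat_lit 5) (nat_lit 354) (nat_lit 310) (nat_lit 236)))) (XT.nd (nat_lit 78) (nat_lit 456) (nat_lit 0) (XT.lf (nat_lit 0) (nat_lit 16252562381) (nat_lit 304) (nat_lit 1745502489) (nat_lit 76) (nat_lit 7585431045) (nat_lit 59) (nat_lit 5) (nat_lit 63) (nat_lit 5) (nat_lit 60) (nat_lit 5) (nat_lit 355) (nat_lit 310) (nat_lit 235)) (XT.nd (nat_lit 78) (nat_lit 304) (nat_lit 0) (XT.lf (nat_lit 0) (nat_lit 19151301844) (nat_lit 152) (nat_lit 6242633717) (nat_lit 228) (nat_lit 1088093450) (nat_lit 57) (nat_lit 5) (nat_lit 59) (nat_lit 5) (nat_lit 60) (nat_lit 5) (nat_lit 356) (nat_lit 310) (nat_lit 234)) (XT.lf (nat_lit 0) (nat_lit 7602057063) (nat_lit 304) (nat_lit 13626648960) (nat_lit 76) (nat_lit 6189126964) (nat_lit 53) (nat_lit 5) (nat_lit 57) (nat_lit 5) (nat_lit 54) (nat_lit 5) (nat_lit 357) (nat_lit 310) (nat_lit 233))))) (XT.nd (nat_lit 234) (nat_lit 380) (nat_lit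 0) (XT.nd (nat_lit 78) (nat_lit 228) (nat_lit 0) (XT.lf (nat_lit 0) (nat_lit 7753267354) (nat_lit 152) (nat_lit 9136493219) (nat_lit 228) (nat_lit 11504787521) (nat_lit 51) (nat_lit 5) (nat_lit 53) (nat_lit 5) (nat_lit 54) (nat_lit 5) (nat_lit 358) (nat_lit 310) (nat_lit 232)) (XT.nd (nat_lit 78) (nat_lit 76) (nat_lit 0) (XT.lf (nat_lit 0) (nat_lit 1008307369) (nat_lit 152) (nat_lit 25791443207) (nat_lit 228) (nat_lit 2615621429) (nat_lit 49) (nat_lit 5) (nat_lit 51) (nat_lit 5) (nat_lit 52) (nat_lit 5) (nat_lit 359) (nat_lit 310) (nat_lit 231)) (XT.lf (nat_lit 0) (nat_lit 6866642832) (nat_lit 228) (nat_lit 6514051480) (nat_lit 76) (nat_lit 17096222834) (nat_lit 48) (nat_lit 5) (nat_lit 51) (nat_lit 5) (nat_lit 49) (nat_lit 5) (nat_lit 360) (nat_lit 310) (nat_lit 230)))) (XT.nd (nat_lit 78) (nat_lit 228) (nat_lit 0) (XT.lf (nat_lit 0) (nat_lit 16729855175) (nat_lit 152) (nat_lit 174607566)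 (nat_lit 228) (nat_lit 14682242645) (nat_lit 46) (nat_lit 5) (nat_lit 48) (nat_lit 5) (nat_lit 49) (nat_lit 5) (nat_lit 361) (nat_lit 310) (nat_lit 229)) (XT.nd (nat_lit 78) (nat_lit 76) (nat_lit 0) (XT.lf (nat_lit 0) (nat_lit 8512798945) (nat_lit 152) (nat_lit 19187405598) (nat_lit 228) (nat_lit 5044106030) (nat_lit 44) (nat_lit 5) (nat_lit 46) (nat_lit 5) (nat_lit 47) (nat_lit 5) (nat_lit 362) (nat_lit 310) (nat_lit 228)) (XT.lf (nat_lit 0) (nat_lit 5108513941) (nat_lit 228) (nat_lit 688291810) (nat_lit 76) (nat_lit 28157585512) (nat_lit 43) (nat_lit 5) (nat_lit 46) (nat_lit 5) (nat_lit 44) (nat_lit 5) (nat_lit 363) (nat_lit 310) (nat_lit 227))))))))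
noncomputable def xc69 : XT := (XT.nd (nat_lit 1794) (nat_lit 76) (nat_lit 0) (XT.nd (nat_lit 858) (nat_lit 760) (nat_lit 0) (XT.nd (nat_lit 390) (nat_lit 608) (nat_lit 0) (XT.nd (nat_lit 156) (nat_lit 380) (nat_lit 0) (XT.nd (nat_lit 78) (nat_lit 152) (nat_lit 0) (XT.lf (nat_lit 0) (nat_lit 15958807818) (nat_lit 228) (nat_lit 10881957793) (nat_lit 76) (nat_lit 8373888694) (nat_lit 41) (nat_lit 5) (nat_lit 44) (nat_lit 5) (nat_lit 42) (nat_lit 5) (nat_lit 364) (nat_lit 310) (nat_lit 226)) (XT.lf (nat_lit 0) (nat_lit 14261350722) (nat_lit 152) (nat_lit 13270179918) (nat_lit 228) (nat_lit 9001009529) (nat_lit 39) (nat_lit 5) (nat_lit 41) (nat_lit 5) (nat_lit 42) (nat_lit 5) (nat_lit 365) (nat_lit 310) (nat_lit 225))) (XT.nd (nat_lit 78) (nat_lit 152) (nat_lit 0) (XT.lf (nat_lit 0) (nat_lit 1862318007) (nat_lit 228) (nat_lit 34945857183) (nat_lit 76) (nat_lit 1103735633) (nat_lit 36) (nat_lit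 5) (nat_lit 39) (nat_lit 5) (nat_lit 37) (nat_lit 5) (nat_lit 366) (nat_lit 310) (nat_lit 224)) (XT.nd (nat_lit 78) (nat_lit 152) (nat_lit 0) (XT.lf (nat_lit 0) (nat_lit 13428053659) (nat_lit 228) (nat_lit 9688320406) (nat_lit 76) (nat_lit 16230846733) (nat_lit 36) (nat_lit 5) (nat_lit 39) (nat_lit 5) (nat_lit 37) (nat_lit 5) (nat_lit 367) (nat_lit 310) (nat_lit 223)) (XT.lf (nat_lit 0) (nat_lit 17129735994) (nat_lit 152) (nat_lit 8586234603) (nat_lit 228) (nat_lit 15134014792) (nat_lit 34) (nat_lit 5) (nat_lit 36) (nat_lit 5) (nat_lit 37) (nat_lit 5) (nat_lit 368) (nat_lit 310) (nat_lit 222))))) (XT.nd (nat_lit 234) (nat_lit 304) (nat_lit 0) (XT.nd (nat_lit 78) (nat_lit 228) (nat_lit 0) (XT.lf (nat_lit 0) (nat_lit 3024129402) (nat_lit 76) (nat_lit 35767795467) (nat_lit 152) (nat_lit 3630759764) (nat_lit 33) (nat_lit 5) (nat_lit 34) (nat_lit 5) (nat_lit 35) (nat_lit 4) (nat_lit 369) (nat_lit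 310) (nat_lit 221)) (XT.nd (nat_lit 78) (nat_lit 152) (nat_lit 0) (XT.lf (nat_lit 0) (nat_lit 8596233839) (nat_lit 152) (nat_lit 12670965869) (nat_lit 76) (nat_lit 22794985650) (nat_lit 32) (nat_lit 5) (nat_lit 34) (nat_lit 5) (nat_lit 33) (nat_lit 5) (nat_lit 370) (nat_lit 310) (nat_lit 220)) (XT.lf (nat_lit 0) (nat_lit 15627594750) (nat_lit 152) (nat_lit 5863917914) (nat_lit 228) (nat_lit 24287114245) (nat_lit 30) (nat_lit 5) (nat_lit 32) (nat_lit 5) (nat_lit 33) (nat_lit 5) (nat_lit 371) (nat_lit 310) (nat_lit 219)))) (XT.nd (nat_lit 78) (nat_lit 304) (nat_lit 0) (XT.lf (nat_lit 0) (nat_lit 35243936186) (nat_lit 228) (nat_lit 2104662706) (nat_lit 76) (nat_lit 10225924977) (nat_lit 30) (nat_lit 5) (nat_lit 33) (nat_lit 5) (nat_lit 31) (nat_lit 4) (nat_lit 372) (nat_lit 310) (nat_lit 218)) (XT.nd (nat_lit 78) (nat_lit 152) (nat_lit 0) (XT.lf (nat_lit 0) (nat_lit 531256415) (nat_lit 152) (nat_lit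 21660514458) (nat_lit 76) (nat_lit 27259028942) (nat_lit 28) (nat_lit 5) (nat_lit 30) (nat_lit 5) (nat_lit 29) (nat_lit 5) (nat_lit 373) (nat_lit 310) (nat_lit 217)) (XT.lf (nat_lit 0) (nat_lit 7800239410) (nat_lit 152) (nat_lit 6062968116) (nat_lit 228) (nat_lit 37551562758) (nat_lit 26) (nat_lit 5) (nat_lit 28) (nat_lit 5) (nat_lit 29) (nat_lit 5) (nat_lit 374) (nat_lit 310) (nat_lit 216)))))) (XT.nd (nat_lit 468) (nat_lit 380) (nat_lit 0) (XT.nd (nat_lit 234) (nat_lit 228) (nat_lit 0) (XT.nd (nat_lit 78) (nat_lit 152) (nat_lit 0) (XT.lf (nat_lit 0) (nat_lit 28174649601) (nat_lit 228) (nat_lit 14420805790) (nat_lit 76) (nat_lit 10872101071) (nat_lit 26) (nat_lit 5) (nat_lit 29) (nat_lit 5) (nat_lit 27) (nat_lit 4) (nat_lit 375) (nat_lit 310) (nat_lit 215)) (XT.nd (nat_lit 78) (nat_lit 76) (nat_lit 0) (XT.lf (nat_lit 0) (nat_lit 16463618689) (nat_lit 76) (nat_lit 26941497406) (nat_lit 152)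 (nat_lit 12211766081) (nat_lit 25) (nat_lit 5) (nat_lit 26) (nat_lit 5) (nat_lit 27) (nat_lit 4) (nat_lit 376) (nat_lit 310) (nat_lit 214)) (XT.lf (nat_lit 0) (nat_lit 1627955843) (nat_lit 152) (nat_lit 8720256609) (nat_lit 76) (nat_lit 47520998358) (nat_lit 24) (nat_lit 5) (nat_lit 26) (nat_lit 5) (nat_lit 25) (nat_lit 5) (nat_lit 377) (nat_lit 310) (nat_lit 213)))) (XT.nd (nat_lit 78) (nat_lit 76) (nat_lit 0) (XT.lf (nat_lit 0) (nat_lit 16192195423) (nat_lit 228) (nat_lit 36752089059) (nat_lit 76) (nat_lit 7277694792) (nat_lit 22) (nat_lit 5) (nat_lit 25) (nat_lit 5) (nat_lit 23) (nat_lit 4) (nat_lit 378) (nat_lit 310) (nat_lit 212)) (XT.nd (nat_lit 78) (nat_lit 76) (nat_lit 0) (XT.lf (nat_lit 0) (nat_lit 31665170709) (nat_lit 228) (nat_lit 5369979923) (nat_lit 76) (nat_lit 25651823001) (nat_lit 22) (nat_lit 5) (nat_lit 25) (nat_lit 5) (nat_lit 23) (nat_lit 4) (nat_lit 379) (nat_lit 310)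 (nat_lit 211)) (XT.lf (nat_lit 0) (nat_lit 28104198252) (nat_lit 76) (nat_lit 20063866090) (nat_lit 152) (nat_lit 17099468314) (nat_lit 21) (nat_lit 5) (nat_lit 22) (nat_lit 5) (nat_lit 23) (nat_lit 4) (nat_lit 380) (nat_lit 310) (nat_lit 210))))) (XT.nd (nat_lit 234) (nat_lit 228) (nat_lit 0) (XT.nd (nat_lit 78) (nat_lit 152) (nat_lit 0) (XT.lf (nat_lit 0) (nat_lit 63339581108) (nat_lit 76) (nat_lit 2198339157) (nat_lit 152) (nat_lit 2437947726) (nat_lit 21) (nat_lit 5) (nat_lit 22) (nat_lit 5) (nat_lit 23) (nat_lit 4) (nat_lit 381) (nat_lit 310) (nat_lit 209)) (XT.nd (nat_lit 78) (nat_lit 0) (nat_lit 0) (XT.lf (nat_lit 0) (nat_lit 13141965735) (nat_lit 152) (nat_lit 41017548392) (nat_lit 76) (nat_lit 16643227786) (nat_lit 19) (nat_lit 5) (nat_lit 21) (nat_lit 5) (nat_lit 20) (nat_lit 4) (nat_lit 382) (nat_lit 310) (nat_lit 208)) (XT.lf (nat_lit 0) (nat_lit 29508653106) (nat_lit 152) (nat_lit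 7815562273) (nat_lit 76) (nat_lit 36444276592) (nat_lit 19) (nat_lit 5) (nat_lit 21) (nat_lit 5) (nat_lit 20) (nat_lit 4) (nat_lit 383) (nat_lit 310) (nat_lit 207)))) (XT.nd (nat_lit 78) (nat_lit 152) (nat_lit 0) (XT.lf (nat_lit 0) (nat_lit 27562073201) (nat_lit 76) (nat_lit 19384490529) (nat_lit 152) (nat_lit 29928381558) (nat_lit 18) (nat_lit 5) (nat_lit 19) (nat_lit 5) (nat_lit 20) (nat_lit 4) (nat_lit 384) (nat_lit 310) (nat_lit 206)) (XT.nd (nat_lit 78) (nat_lit 152) (nat_lit 0) (XT.lf (nat_lit 0) (nat_lit 64850266246) (nat_lit 76) (nat_lit 474869282) (nat_lit 152) (nat_lit 14809525081) (nat_lit 18) (nat_lit 5) (nat_lit 19) (nat_lit 5) (nat_lit 20) (nat_lit 4) (nat_lit 385) (nat_lit 310) (nat_lit 205)) (XT.lf (nat_lit 0) (nat_lit 1421669253) (nat_lit 152) (nat_lit 62918962434) (nat_lit 76) (nat_lit 19205109469) (nat_lit 16) (nat_lit 5) (nat_lit 18) (nat_lit 5) (nat_lit 17) (nat_lit 4)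 (nat_lit 386) (nat_lit 310) (nat_lit 204))))))) (XT.nd (nat_lit 41496) (nat_lit 0) (nat_lit 11552) (XT.nd (nat_lit 41028) (nat_lit 0) (nat_lit 17784) (XT.nd (nat_lit 156) (nat_lit 0) (nat_lit 0) (XT.nd (nat_lit 78) (nat_lit 76) (nat_lit 0) (XT.lf (nat_lit 0) (nat_lit 18313683528) (nat_lit 152) (nat_lit 28646056647) (nat_lit 76) (nat_lit 40158572400) (nat_lit 16) (nat_lit 5) (nat_lit 18) (nat_lit 5) (nat_lit 17) (nat_lit 4) (nat_lit 387) (nat_lit 310) (nat_lit 203)) (XT.lf (nat_lit 0) (nat_lit 7466688281) (nat_lit 76) (nat_lit 28644914724) (nat_lit 152) (nat_lit 54756072359) (nat_lit 15) (nat_lit 5) (nat_lit 16) (nat_lit 5) (nat_lit 17) (nat_lit 4) (nat_lit 388) (nat_lit 310) (nat_lit 202))) (XT.nd (nat_lit 78) (nat_lit 0) (nat_lit 0) (XT.lf (nat_lit 0) (nat_lit 45964739854) (nat_lit 76) (nat_lit 9119411011) (nat_lit 152) (nat_lit 39711815300) (nat_lit 15) (nat_lit 5) (nat_lit 16) (nat_lit 5)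 (nat_lit 17) (nat_lit 4) (nat_lit 389) (nat_lit 310) (nat_lit 201)) (XT.nd (nat_lit 40716) (nat_lit 0) (nat_lit 19532) (XT.lf (nat_lit 0) (nat_lit 75104989909) (nat_lit 152) (nat_lit 12660649721) (nat_lit 0) (nat_lit 11152043718) (nat_lit 15) (nat_lit 5) (nat_lit 17) (nat_lit 4) (nat_lit 15) (nat_lit 4) (nat_lit 390) (nat_lit 310) (nat_lit 200)) (XT.lf (nat_lit 0) (nat_lit 1825945011) (nat_lit 0) (nat_lit 1825945011) (nat_lit 836) (nat_lit 279013644) (nat_lit 272) (nat_lit 5) (nat_lit 272) (nat_lit 3) (nat_lit 283) (nat_lit 3) (nat_lit 311) (nat_lit 311) (nat_lit 278))))) (XT.nd (nat_lit 234) (nat_lit 836) (nat_lit 0) (XT.nd (nat_lit 78) (nat_lit 0) (nat_lit 0) (XT.lf (nat_lit 0) (nat_lit 1479174584) (nat_lit 912) (nat_lit 6045884350) (nat_lit 988) (nat_lit 470179095) (nat_lit 260) (nat_lit 5) (nat_lit 272) (nat_lit 5) (nat_lit 273) (nat_lit 5) (nat_lit 312) (nat_lit 311) (nat_lit 277)) (XT.nd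 (nat_lit 78) (nat_lit 0) (nat_lit 76) (XT.lf (nat_lit 76) (nat_lit 260188341) (nat_lit 0) (nat_lit 3300596469) (nat_lit 988) (nat_lit 4575900152) (nat_lit 261) (nat_lit 5) (nat_lit 260) (nat_lit 5) (nat_lit 273) (nat_lit 5) (nat_lit 313) (nat_lit 311) (nat_lit 276)) (XT.lf (nat_lit 0) (nat_lit 5697079717) (nat_lit 912) (nat_lit 1361720656) (nat_lit 988) (nat_lit 1228012531) (nat_lit 261) (nat_lit 5) (nat_lit 273) (nat_lit 5) (nat_lit 274) (nat_lit 5) (nat_lit 314) (nat_lit 311) (nat_lit 275)))) (XT.nd (nat_lit 78) (nat_lit 912) (nat_lit 0) (XT.lf (nat_lit 76) (nat_lit 5481237148) (nat_lit 0) (nat_lit 2427659462) (nat_lit 988) (nat_lit 536610165) (nat_lit 262) (nat_lit 5) (nat_lit 261) (nat_lit 5) (nat_lit 274) (nat_lit 5) (nat_lit 315) (nat_lit 311) (nat_lit 274)) (XT.nd (nat_lit 78) (nat_lit 0) (nat_lit 0) (XT.lf (nat_lit 0) (nat_lit 1551798074) (nat_lit 988) (nat_lit 4562709200) (nat_lit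 1064) (nat_lit 2498346036) (nat_lit 249) (nat_lit 5) (nat_lit 262) (nat_lit 5) (nat_lit 263) (nat_lit 5) (nat_lit 316) (nat_lit 311) (nat_lit 273)) (XT.lf (nat_lit 76) (nat_lit 2637585344) (nat_lit 0) (nat_lit 1068240274) (nat_lit 1064) (nat_lit 5083519596) (nat_lit 250) (nat_lit 5) (nat_lit 249) (nat_lit 5) (nat_lit 263) (nat_lit 5) (nat_lit 317) (nat_lit 311) (nat_lit 272)))))) (XT.nd (nat_lit 468) (nat_lit 3192) (nat_lit 0) (XT.nd (nat_lit 234) (nat_lit 2128) (nat_lit 0) (XT.nd (nat_lit 78) (nat_lit 988) (nat_lit 0) (XT.lf (nat_lit 76) (nat_lit 1228153783) (nat_lit 0) (nat_lit 4735623025) (nat_lit 1064) (nat_lit 3011099505) (nat_lit 251) (nat_lit 5) (nat_lit 250) (nat_lit 5) (nat_lit 264) (nat_lit 5) (nat_lit 318) (nat_lit 311) (nat_lit 271)) (XT.nd (nat_lit 78) (nat_lit 1064) (nat_lit 0) (XT.lf (nat_lit 0) (nat_lit 8316039474) (nat_lit 988) (nat_lit 155307224) (nat_lit 1064) (nat_lit 698991299)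 (nat_lit 251) (nat_lit 5) (nat_lit 264) (nat_lit 5) (nat_lit 265) (nat_lit 5) (nat_lit 319) (nat_lit 311) (nat_lit 270)) (XT.lf (nat_lit 0) (nat_lit 1411801194) (nat_lit 1064) (nat_lit 1539859772) (nat_lit 1140) (nat_lit 6422724881) (nat_lit 237) (nat_lit 5) (nat_lit 251) (nat_lit 5) (nat_lit 252) (nat_lit 5) (nat_lit 320) (nat_lit 311) (nat_lit 269)))) (XT.nd (nat_lit 78) (nat_lit 2204) (nat_lit 0) (XT.lf (nat_lit 0) (nat_lit 3776252219) (nat_lit 1064) (nat_lit 2929208916) (nat_lit 76) (nat_lit 2882924700) (nat_lit 238) (nat_lit 5) (nat_lit 252) (nat_lit 5) (nat_lit 239) (nat_lit 5) (nat_lit 321) (nat_lit 311) (nat_lit 268)) (XT.nd (nat_lit 78) (nat_lit 1140) (nat_lit 0) (XT.lf (nat_lit 0) (nat_lit 5492036287) (nat_lit 1064) (nat_lit 777724223) (nat_lit 1140) (nat_lit 3543081158) (nat_lit 224) (nat_lit 5) (nat_lit 238) (nat_lit 5) (nat_lit 239) (nat_lit 5) (nat_lit 322) (nat_lit 311) (nat_lit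 267)) (XT.lf (nat_lit 0) (nat_lit 4305746018) (nat_lit 1140) (nat_lit 4622262840) (nat_lit 1216) (nat_lit 1119386533) (nat_lit 209) (nat_lit 5) (nat_lit 224) (nat_lit 5) (nat_lit 225) (nat_lit 5) (nat_lit 323) (nat_lit 311) (nat_lit 266))))) (XT.nd (nat_lit 234) (nat_lit 1140) (nat_lit 0) (XT.nd (nat_lit 78) (nat_lit 1140) (nat_lit 0) (XT.lf (nat_lit 0) (nat_lit 1415441320) (nat_lit 912) (nat_lit 7182459472) (nat_lit 76) (nat_lit 1694903208) (nat_lit 197) (nat_lit 5) (nat_lit 209) (nat_lit 5) (nat_lit 198) (nat_lit 5) (nat_lit 324) (nat_lit 311) (nat_lit 265)) (XT.nd (nat_lit 78) (nat_lit 532) (nat_lit 0) (XT.lf (nat_lit 0) (nat_lit 1880829749) (nat_lit 608) (nat_lit 2219263387) (nat_lit 684) (nat_lit 6448738255) (nat_lit 189) (nat_lit 5) (nat_lit 197) (nat_lit 5) (nat_lit 198) (nat_lit 5) (nat_lit 325) (nat_lit 311) (nat_lit 264)) (XT.lf (nat_lit 0) (nat_lit 626578572) (nat_lit 532) (nat_lit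 6340818235) (nat_lit 608) (nat_lit 3848875377) (nat_lit 182) (nat_lit 5) (nat_lit 189) (nat_lit 5) (nat_lit 190) (nat_lit 5) (nat_lit 326) (nat_lit 311) (nat_lit 263)))) (XT.nd (nat_lit 78) (nat_lit 1140) (nat_lit 0) (XT.lf (nat_lit 0) (nat_lit 10021429509) (nat_lit 608) (nat_lit 627862892) (nat_lit 76) (nat_lit 446553231) (nat_lit 182) (nat_lit 5) (nat_lit 190) (nat_lit 5) (nat_lit 183) (nat_lit 5) (nat_lit 327) (nat_lit 311) (nat_lit 262)) (XT.nd (nat_lit 78) (nat_lit 532) (nat_lit 0) (XT.lf (nat_lit 0) (nat_lit 1889667829) (nat_lit 608) (nat_lit 1943106514) (nat_lit 76) (nat_lit 7553546564) (nat_lit 174) (nat_lit 5) (nat_lit 182) (nat_lit 5) (nat_lit 175) (nat_lit 5) (nat_lit 328) (nat_lit 311) (nat_lit 261)) (XT.lf (nat_lit 0) (nat_lit 5033293863) (nat_lit 608) (nat_lit 3299813262) (nat_lit 76) (nat_lit 3356341121) (nat_lit 167) (nat_lit 5) (nat_lit 175) (nat_lit 5) (nat_lit 168) (nat_lit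 5) (nat_lit 329) (nat_lit 311) (nat_lit 260))))))))
noncomputable def xc70 : XT := (XT.nd (nat_lit 1794) (nat_lit 3192) (nat_lit 0) (XT.nd (nat_lit 858) (nat_lit 3116) (nat_lit 0) (XT.nd (nat_lit 390) (nat_lit 1976) (nat_lit 0) (XT.nd (nat_lit 156) (nat_lit 1444) (nat_lit 0) (XT.nd (nat_lit 78) (nat_lit 456) (nat_lit 0) (XT.lf (nat_lit 0) (nat_lit 7306445853) (nat_lit 532) (nat_lit 1092232386) (nat_lit 608) (nat_lit 3607168006) (nat_lit 160) (nat_lit 5) (nat_lit 167) (nat_lit 5) (nat_lit 168) (nat_lit 5) (nat_lit 330) (nat_lit 311) (nat_lit 259)) (XT.lf (nat_lit 0) (nat_lit 6162671258) (nat_lit 456) (nat_lit 5863615313) (nat_lit 532) (nat_lit 309008081) (nat_lit 154) (nat_lit 5) (nat_lit 160) (nat_lit 5) (nat_lit 161) (nat_lit 5) (nat_lit 331) (nat_lit 311) (nat_lit 258))) (XT.nd (nat_lit 78) (nat_lit 912) (nat_lit 0) (XT.lf (nat_lit 0) (nat_lit 3157309759) (nat_lit 532) (nat_lit 7723904747)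 (nat_lit 76) (nat_lit 1797192944) (nat_lit 147) (nat_lit 5) (nat_lit 154) (nat_lit 5) (nat_lit 148) (nat_lit 5) (nat_lit 332) (nat_lit 311) (nat_lit 257)) (XT.nd (nat_lit 78) (nat_lit 456) (nat_lit 0) (XT.lf (nat_lit 0) (nat_lit 3670312774) (nat_lit 456) (nat_lit 3220587799) (nat_lit 532) (nat_lit 6144716376) (nat_lit 141) (nat_lit 5) (nat_lit 147) (nat_lit 5) (nat_lit 148) (nat_lit 5) (nat_lit 333) (nat_lit 311) (nat_lit 256)) (XT.lf (nat_lit 0) (nat_lit 2317169239) (nat_lit 456) (nat_lit 8586627475) (nat_lit 532) (nat_lit 2504152654) (nat_lit 135) (nat_lit 5) (nat_lit 141) (nat_lit 5) (nat_lit 142) (nat_lit 5) (nat_lit 334) (nat_lit 311) (nat_lit 255))))) (XT.nd (nat_lit 234) (nat_lit 1140) (nat_lit 0) (XT.nd (nat_lit 78) (nat_lit 380) (nat_lit 0) (XT.lf (nat_lit 0) (nat_lit 887228789) (nat_lit 380) (nat_lit 489039614) (nat_lit 456) (nat_lit 12419781211) (nat_lit 129) (nat_lit 5) (nat_lit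 134) (nat_lit 5) (nat_lit 135) (nat_lit 5) (nat_lit 335) (nat_lit 311) (nat_lit 254)) (XT.nd (nat_lit 78) (nat_lit 380) (nat_lit 0) (XT.lf (nat_lit 0) (nat_lit 5538752782) (nat_lit 456) (nat_lit 674647832) (nat_lit 76) (nat_lit 7985251789) (nat_lit 129) (nat_lit 5) (nat_lit 135) (nat_lit 5) (nat_lit 130) (nat_lit 5) (nat_lit 336) (nat_lit 311) (nat_lit 253)) (XT.lf (nat_lit 0) (nat_lit 10005186750) (nat_lit 456) (nat_lit 2298554508) (nat_lit 76) (nat_lit 2314803882) (nat_lit 124) (nat_lit 5) (nat_lit 130) (nat_lit 5) (nat_lit 125) (nat_lit 5) (nat_lit 337) (nat_lit 311) (nat_lit 252)))) (XT.nd (nat_lit 78) (nat_lit 760) (nat_lit 0) (XT.lf (nat_lit 0) (nat_lit 11007925735) (nat_lit 380) (nat_lit 3813780881) (nat_lit 456) (nat_lit 233955895) (nat_lit 119) (nat_lit 5) (nat_lit 124) (nat_lit 5) (nat_lit 125) (nat_lit 5) (nat_lit 338) (nat_lit 311) (nat_lit 251)) (XT.nd (nat_lit 78) (nat_lit 304)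 (nat_lit 0) (XT.lf (nat_lit 0) (nat_lit 4398303296) (nat_lit 456) (nat_lit 5965384660) (nat_lit 76) (nat_lit 5146148073) (nat_lit 113) (nat_lit 5) (nat_lit 119) (nat_lit 5) (nat_lit 114) (nat_lit 5) (nat_lit 339) (nat_lit 311) (nat_lit 250)) (XT.lf (nat_lit 0) (nat_lit 7967612431) (nat_lit 304) (nat_lit 1400927777) (nat_lit 380) (nat_lit 6614801416) (nat_lit 109) (nat_lit 5) (nat_lit 113) (nat_lit 5) (nat_lit 114) (nat_lit 5) (nat_lit 340) (nat_lit 311) (nat_lit 249)))))) (XT.nd (nat_lit 468) (nat_lit 1368) (nat_lit 0) (XT.nd (nat_lit 234) (nat_lit 684) (nat_lit 0) (XT.nd (nat_lit 78) (nat_lit 684) (nat_lit 0) (XT.lf (nat_lit 0) (nat_lit 6225724723) (nat_lit 380) (nat_lit 8515878100) (nat_lit 456) (nat_lit 1734317873) (nat_lit 104) (nat_lit 5) (nat_lit 109) (nat_lit 5) (nat_lit 110) (nat_lit 5) (nat_lit 341) (nat_lit 311) (nat_lit 248)) (XT.nd (nat_lit 78) (nat_lit 304) (nat_lit 0) (XT.lf (nat_lit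 0) (nat_lit 3428480927) (nat_lit 380) (nat_lit 12665504941) (nat_lit 76) (nat_lit 895057349) (nat_lit 99) (nat_lit 5) (nat_lit 104) (nat_lit 5) (nat_lit 100) (nat_lit 5) (nat_lit 342) (nat_lit 311) (nat_lit 247)) (XT.lf (nat_lit 0) (nat_lit 2193899157) (nat_lit 304) (nat_lit 6791482555) (nat_lit 380) (nat_lit 8536794413) (nat_lit 95) (nat_lit 5) (nat_lit 99) (nat_lit 5) (nat_lit 100) (nat_lit 5) (nat_lit 343) (nat_lit 311) (nat_lit 246)))) (XT.nd (nat_lit 78) (nat_lit 684) (nat_lit 0) (XT.lf (nat_lit 0) (nat_lit 14939577906) (nat_lit 380) (nat_lit 106276646) (nat_lit 76) (nat_lit 3032550773) (nat_lit 95) (nat_lit 5) (nat_lit 100) (nat_lit 5) (nat_lit 96) (nat_lit 5) (nat_lit 344) (nat_lit 311) (nat_lit 245)) (XT.nd (nat_lit 78) (nat_lit 304) (nat_lit 0) (XT.lf (nat_lit 0) (nat_lit 2665581133) (nat_lit 380) (nat_lit 2617756411) (nat_lit 76) (nat_lit 13372823720) (nat_lit 90) (nat_lit 5) (nat_lit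 95) (nat_lit 5) (nat_lit 91) (nat_lit 5) (nat_lit 345) (nat_lit 311) (nat_lit 244)) (XT.lf (nat_lit 0) (nat_lit 8842027508) (nat_lit 380) (nat_lit 5394210198) (nat_lit 76) (nat_lit 5021253365) (nat_lit 86) (nat_lit 5) (nat_lit 91) (nat_lit 5) (nat_lit 87) (nat_lit 5) (nat_lit 346) (nat_lit 311) (nat_lit 243))))) (XT.nd (nat_lit 234) (nat_lit 532) (nat_lit 0) (XT.nd (nat_lit 78) (nat_lit 608) (nat_lit 0) (XT.lf (nat_lit 0) (nat_lit 11449867429) (nat_lit 228) (nat_lit 4031200721) (nat_lit 304) (nat_lit 4403225483) (nat_lit 83) (nat_lit 5) (nat_lit 86) (nat_lit 5) (nat_lit 87) (nat_lit 5) (nat_lit 347) (nat_lit 311) (nat_lit 242)) (XT.nd (nat_lit 78) (nat_lit 228) (nat_lit 0) (XT.lf (nat_lit 0) (nat_lit 2042787712) (nat_lit 380) (nat_lit 11797482825) (nat_lit 76) (nat_lit 6696520246) (nat_lit 78) (nat_lit 5) (nat_lit 83) (nat_lit 5) (nat_lit 79) (nat_lit 5) (nat_lit 348) (nat_lit 311) (nat_lit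 241)) (XT.lf (nat_lit 0) (nat_lit 5700464019) (nat_lit 228) (nat_lit 3168662035) (nat_lit 304) (nat_lit 12347023250) (nat_lit 75) (nat_lit 5) (nat_lit 78) (nat_lit 5) (nat_lit 79) (nat_lit 5) (nat_lit 349) (nat_lit 311) (nat_lit 240)))) (XT.nd (nat_lit 78) (nat_lit 304) (nat_lit 0) (XT.lf (nat_lit 0) (nat_lit 2307807820) (nat_lit 228) (nat_lit 13917120594) (nat_lit 304) (nat_lit 5698919213) (nat_lit 72) (nat_lit 5) (nat_lit 75) (nat_lit 5) (nat_lit 76) (nat_lit 5) (nat_lit 350) (nat_lit 311) (nat_lit 239)) (XT.nd (nat_lit 78) (nat_lit 228) (nat_lit 0) (XT.lf (nat_lit 0) (nat_lit 1416712373) (nat_lit 304) (nat_lit 1413256197) (nat_lit 76) (nat_lit 19831803852) (nat_lit 71) (nat_lit 5) (nat_lit 75) (nat_lit 5) (nat_lit 72) (nat_lit 5) (nat_lit 351) (nat_lit 311) (nat_lit 238)) (XT.lf (nat_lit 0) (nat_lit 8999068873) (nat_lit 304) (nat_lit 5574655812) (nat_lit 76) (nat_lit 8854326195) (nat_lit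 68) (nat_lit 5) (nat_lit 72) (nat_lit 5) (nat_lit 69) (nat_lit 5) (nat_lit 352) (nat_lit 311) (nat_lit 237))))))) (XT.nd (nat_lit 858) (nat_lit 1368) (nat_lit 0) (XT.nd (nat_lit 390) (nat_lit 988) (nat_lit 0) (XT.nd (nat_lit 156) (nat_lit 380) (nat_lit 0) (XT.nd (nat_lit 78) (nat_lit 228) (nat_lit 0) (XT.lf (nat_lit 0) (nat_lit 14077896196) (nat_lit 228) (nat_lit 3030527178) (nat_lit 304) (nat_lit 7119797143) (nat_lit 65) (nat_lit 5) (nat_lit 68) (nat_lit 5) (nat_lit 69) (nat_lit 5) (nat_lit 353) (nat_lit 311) (nat_lit 236)) (XT.lf (nat_lit 0) (nat_lit 755931474) (nat_lit 228) (nat_lit 15251133650) (nat_lit 76) (nat_lit 9054828791) (nat_lit 62) (nat_lit 5) (nat_lit 65) (nat_lit 5) (nat_lit 63) (nat_lit 5) (nat_lit 354) (nat_lit 311) (nat_lit 235))) (XT.nd (nat_lit 78) (nat_lit 152) (nat_lit 0) (XT.lf (nat_lit 0) (nat_lit 4994512489) (nat_lit 228) (nat_lit 4039985103) (nat_lit 304) (nat_lit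 16895961646) (nat_lit 59) (nat_lit 5) (nat_lit 62) (nat_lit 5) (nat_lit 63) (nat_lit 5) (nat_lit 355) (nat_lit 311) (nat_lit 234)) (XT.nd (nat_lit 78) (nat_lit 152) (nat_lit 0) (XT.lf (nat_lit 0) (nat_lit 17939081649) (nat_lit 304) (nat_lit 396793805) (nat_lit 76) (nat_lit 8500226144) (nat_lit 59) (nat_lit 5) (nat_lit 63) (nat_lit 5) (nat_lit 60) (nat_lit 5) (nat_lit 356) (nat_lit 311) (nat_lit 233)) (XT.lf (nat_lit 0) (nat_lit 21503688557) (nat_lit 152) (nat_lit 6005628945) (nat_lit 228) (nat_lit 271106806) (nat_lit 57) (nat_lit 5) (nat_lit 59) (nat_lit 5) (nat_lit 60) (nat_lit 5) (nat_lit 357) (nat_lit 311) (nat_lit 232))))) (XT.nd (nat_lit 234) (nat_lit 380) (nat_lit 0) (XT.nd (nat_lit 78) (nat_lit 304) (nat_lit 0) (XT.lf (nat_lit 0) (nat_lit 8814284298) (nat_lit 304) (nat_lit 12916428887) (nat_lit 76) (nat_lit 7032737413) (nat_lit 53) (nat_lit 5) (nat_lit 57) (nat_lit 5) (nat_lit 54) (nat_lit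 5) (nat_lit 358) (nat_lit 311) (nat_lit 231)) (XT.nd (nat_lit 78) (nat_lit 152) (nat_lit 0) (XT.lf (nat_lit 0) (nat_lit 9492594670) (nat_lit 152) (nat_lit 9047146364) (nat_lit 228) (nat_lit 11250074161) (nat_lit 51) (nat_lit 5) (nat_lit 53) (nat_lit 5) (nat_lit 54) (nat_lit 5) (nat_lit 359) (nat_lit 311) (nat_lit 230)) (XT.lf (nat_lit 0) (nat_lit 2390301024) (nat_lit 152) (nat_lit 26534372804) (nat_lit 228) (nat_lit 1937637247) (nat_lit 49) (nat_lit 5) (nat_lit 51) (nat_lit 5) (nat_lit 52) (nat_lit 5) (nat_lit 360) (nat_lit 311) (nat_lit 229)))) (XT.nd (nat_lit 78) (nat_lit 304) (nat_lit 0) (XT.lf (nat_lit 0) (nat_lit 7965197193) (nat_lit 228) (nat_lit 5556293606) (nat_lit 76) (nat_lit 18456355289) (nat_lit 48) (nat_lit 5) (nat_lit 51) (nat_lit 5) (nat_lit 49) (nat_lit 5) (nat_lit 361) (nat_lit 311) (nat_lit 228)) (XT.nd (nat_lit 78) (nat_lit 152) (nat_lit 0) (XT.lf (nat_lit 0) (nat_lit 18484121139)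 (nat_lit 228) (nat_lit 14334029510) (nat_lit 76) (nat_lit 325609093) (nat_lit 46) (nat_lit 5) (nat_lit 49) (nat_lit 5) (nat_lit 47) (nat_lit 5) (nat_lit 362) (nat_lit 311) (nat_lit 227)) (XT.lf (nat_lit 0) (nat_lit 10166110284) (nat_lit 152) (nat_lit 19632046201) (nat_lit 228) (nat_lit 4561745311) (nat_lit 44) (nat_lit 5) (nat_lit 46) (nat_lit 5) (nat_lit 47) (nat_lit 5) (nat_lit 363) (nat_lit 311) (nat_lit 226)))))) (XT.nd (nat_lit 468) (nat_lit 608) (nat_lit 0) (XT.nd (nat_lit 234) (nat_lit 380) (nat_lit 0) (XT.nd (nat_lit 78) (nat_lit 152) (nat_lit 0) (XT.lf (nat_lit 0) (nat_lit 469536518) (nat_lit 152) (nat_lit 5584851822) (nat_lit 228) (nat_lit 29576790760) (nat_lit 41) (nat_lit 5) (nat_lit 43) (nat_lit 5) (nat_lit 44) (nat_lit 5) (nat_lit 364) (nat_lit 311) (nat_lit 225)) (XT.nd (nat_lit 78) (nat_lit 152) (nat_lit 0) (XT.lf (nat_lit 0) (nat_lit 17425727032) (nat_lit 228) (nat_lit 10261411135)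 (nat_lit 76) (nat_lit 9267971617) (nat_lit 41) (nat_lit 5) (nat_lit 44) (nat_lit 5) (nat_lit 42) (nat_lit 5) (nat_lit 365) (nat_lit 311) (nat_lit 224)) (XT.lf (nat_lit 0) (nat_lit 16105678504) (nat_lit 152) (nat_lit 13450425723) (nat_lit 228) (nat_lit 8783425067) (nat_lit 39) (nat_lit 5) (nat_lit 41) (nat_lit 5) (nat_lit 42) (nat_lit 5) (nat_lit 366) (nat_lit 311) (nat_lit 223)))) (XT.nd (nat_lit 78) (nat_lit 152) (nat_lit 0) (XT.lf (nat_lit 0) (nat_lit 2594145744) (nat_lit 228) (nat_lit 35566859767) (nat_lit 76) (nat_lit 1627156445) (nat_lit 36) (nat_lit 5) (nat_lit 39) (nat_lit 5) (nat_lit 37) (nat_lit 5) (nat_lit 367) (nat_lit 311) (nat_lit 222)) (XT.nd (nat_lit 78) (nat_lit 152) (nat_lit 0) (XT.lf (nat_lit 0) (nat_lit 14707753329) (nat_lit 228) (nat_lit 9100079021) (nat_lit 76) (nat_lit 17488326242) (nat_lit 36) (nat_lit 5) (nat_lit 39) (nat_lit 5) (nat_lit 37) (nat_lit 5) (nat_lit 368)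 (nat_lit 311) (nat_lit 221)) (XT.lf (nat_lit 0) (nat_lit 19028132689) (nat_lit 152) (nat_lit 8562982376) (nat_lit 228) (nat_lit 15283523180) (nat_lit 34) (nat_lit 5) (nat_lit 36) (nat_lit 5) (nat_lit 37) (nat_lit 5) (nat_lit 369) (nat_lit 311) (nat_lit 220))))) (XT.nd (nat_lit 234) (nat_lit 304) (nat_lit 0) (XT.nd (nat_lit 78) (nat_lit 228) (nat_lit 0) (XT.lf (nat_lit 0) (nat_lit 4200488859) (nat_lit 76) (nat_lit 37106311661) (nat_lit 152) (nat_lit 3219601834) (nat_lit 33) (nat_lit 5) (nat_lit 34) (nat_lit 5) (nat_lit 35) (nat_lit 4) (nat_lit 370) (nat_lit 311) (nat_lit 219)) (XT.nd (nat_lit 78) (nat_lit 152) (nat_lit 0) (XT.lf (nat_lit 0) (nat_lit 9579502946) (nat_lit 152) (nat_lit 12317016884) (nat_lit 76) (nat_lit 24352024860) (nat_lit 32) (nat_lit 5) (nat_lit 34) (nat_lit 5) (nat_lit 33) (nat_lit 5) (nat_lit 371) (nat_lit 311) (nat_lit 218)) (XT.lf (nat_lit 0) (nat_lit 17368165355) (nat_lit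 152) (nat_lit 5734245573) (nat_lit 228) (nat_lit 24948918399) (nat_lit 30) (nat_lit 5) (nat_lit 32) (nat_lit 5) (nat_lit 33) (nat_lit 5) (nat_lit 372) (nat_lit 311) (nat_lit 217)))) (XT.nd (nat_lit 78) (nat_lit 304) (nat_lit 0) (XT.lf (nat_lit 0) (nat_lit 37520787756) (nat_lit 228) (nat_lit 1284795911) (nat_lit 76) (nat_lit 11132094135) (nat_lit 30) (nat_lit 5) (nat_lit 33) (nat_lit 5) (nat_lit 31) (nat_lit 4) (nat_lit 373) (nat_lit 311) (nat_lit 216)) (XT.nd (nat_lit 78) (nat_lit 152) (nat_lit 0) (XT.lf (nat_lit 0) (nat_lit 1061666653) (nat_lit 152) (nat_lit 21834807877) (nat_lit 76) (nat_lit 29011627228) (nat_lit 28) (nat_lit 5) (nat_lit 30) (nat_lit 5) (nat_lit 29) (nat_lit 5) (nat_lit 374) (nat_lit 311) (nat_lit 215)) (XT.lf (nat_lit 0) (nat_lit 9072935055) (nat_lit 152) (nat_lit 5971772426) (nat_lit 228) (nat_lit 38926034344) (nat_lit 26) (nat_lit 5) (nat_lit 28) (nat_lit 5) (nat_lit 29)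 (nat_lit 5) (nat_lit 375) (nat_lit 311) (nat_lit 214))))))))
noncomputable def xc71 : XT := (XT.nd (nat_lit 42510) (nat_lit 0) (nat_lit 6764) (XT.nd (nat_lit 858) (nat_lit 228) (nat_lit 0) (XT.nd (nat_lit 390) (nat_lit 304) (nat_lit 0) (XT.nd (nat_lit 156) (nat_lit 228) (nat_lit 0) (XT.nd (nat_lit 78) (nat_lit 76) (nat_lit 0) (XT.lf (nat_lit 0) (nat_lit 30052077562) (nat_lit 228) (nat_lit 14290741346) (nat_lit 76) (nat_lit 11783943288) (nat_lit 26) (nat_lit 5) (nat_lit 29) (nat_lit 5) (nat_lit 27) (nat_lit 4) (nat_lit 376) (nat_lit 311) (nat_lit 213)) (XT.lf (nat_lit 0) (nat_lit 18113507611) (nat_lit 76) (nat_lit 27916187761) (nat_lit 152) (nat_lit 12354295281) (nat_lit 25) (nat_lit 5) (nat_lit 26) (nat_lit 5) (nat_lit 27) (nat_lit 4) (nat_lit 377) (nat_lit 311) (nat_lit 212))) (XT.nd (nat_lit 78) (nat_lit 152) (nat_lit 0) (XT.lf (nat_lit 0) (nat_lit 2146425621) (nat_lit 152) (nat_lit 8360131963)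 (nat_lit 76) (nat_lit 50242903661) (nat_lit 24) (nat_lit 5) (nat_lit 26) (nat_lit 5) (nat_lit 25) (nat_lit 5) (nat_lit 378) (nat_lit 311) (nat_lit 211)) (XT.nd (nat_lit 78) (nat_lit 0) (nat_lit 0) (XT.lf (nat_lit 0) (nat_lit 17428858615) (nat_lit 228) (nat_lit 37806933894) (nat_lit 76) (nat_lit 7984380845) (nat_lit 22) (nat_lit 5) (nat_lit 25) (nat_lit 5) (nat_lit 23) (nat_lit 4) (nat_lit 379) (nat_lit 311) (nat_lit 210)) (XT.lf (nat_lit 0) (nat_lit 33655146788) (nat_lit 228) (nat_lit 4892993569) (nat_lit 76) (nat_lit 27260891592) (nat_lit 22) (nat_lit 5) (nat_lit 25) (nat_lit 5) (nat_lit 23) (nat_lit 4) (nat_lit 380) (nat_lit 311) (nat_lit 209))))) (XT.nd (nat_lit 234) (nat_lit 76) (nat_lit 0) (XT.nd (nat_lit 78) (nat_lit 152) (nat_lit 0) (XT.lf (nat_lit 0) (nat_lit 30233524327) (nat_lit 76) (nat_lit 20737253922) (nat_lit 152) (nat_lit 17548217111) (nat_lit 21) (nat_lit 5) (nat_lit 22) (nat_lit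 5) (nat_lit 23) (nat_lit 4) (nat_lit 381) (nat_lit 311) (nat_lit 208)) (XT.nd (nat_lit 78) (nat_lit 152) (nat_lit 0) (XT.lf (nat_lit 0) (nat_lit 67196194603) (nat_lit 76) (nat_lit 1994155665) (nat_lit 152) (nat_lit 2172964523) (nat_lit 21) (nat_lit 5) (nat_lit 22) (nat_lit 5) (nat_lit 23) (nat_lit 4) (nat_lit 382) (nat_lit 311) (nat_lit 207)) (XT.lf (nat_lit 0) (nat_lit 14169817248) (nat_lit 152) (nat_lit 42383017806) (nat_lit 76) (nat_lit 17778846851) (nat_lit 19) (nat_lit 5) (nat_lit 21) (nat_lit 5) (nat_lit 20) (nat_lit 4) (nat_lit 383) (nat_lit 311) (nat_lit 206)))) (XT.nd (nat_lit 78) (nat_lit 76) (nat_lit 0) (XT.lf (nat_lit 0) (nat_lit 31337184073) (nat_lit 152) (nat_lit 7553570858) (nat_lit 76) (nat_lit 38555497731) (nat_lit 19) (nat_lit 5) (nat_lit 21) (nat_lit 5) (nat_lit 20) (nat_lit 4) (nat_lit 384) (nat_lit 311) (nat_lit 205)) (XT.nd (nat_lit 78) (nat_lit 0) (nat_lit 0) (XT.lf (nat_lit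 0) (nat_lit 29574234883) (nat_lit 76) (nat_lit 20062036092) (nat_lit 152) (nat_lit 31072082625) (nat_lit 18) (nat_lit 5) (nat_lit 19) (nat_lit 5) (nat_lit 20) (nat_lit 4) (nat_lit 385) (nat_lit 311) (nat_lit 204)) (XT.lf (nat_lit 0) (nat_lit 68696644340) (nat_lit 76) (nat_lit 220823258) (nat_lit 152) (nat_lit 15214079419) (nat_lit 18) (nat_lit 5) (nat_lit 19) (nat_lit 5) (nat_lit 20) (nat_lit 4) (nat_lit 386) (nat_lit 311) (nat_lit 203)))))) (XT.nd (nat_lit 41184) (nat_lit 0) (nat_lit 17632) (XT.nd (nat_lit 234) (nat_lit 0) (nat_lit 0) (XT.nd (nat_lit 78) (nat_lit 76) (nat_lit 0) (XT.lf (nat_lit 0) (nat_lit 1814765575) (nat_lit 152) (nat_lit 65464916606) (nat_lit 76) (nat_lit 20433626135) (nat_lit 16) (nat_lit 5) (nat_lit 18) (nat_lit 5) (nat_lit 17) (nat_lit 4) (nat_lit 387) (nat_lit 311) (nat_lit 202)) (XT.nd (nat_lit 78) (nat_lit 76) (nat_lit 0) (XT.lf (nat_lit 0) (nat_lit 19536046618) (nat_lit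 152) (nat_lit 29506936670) (nat_lit 76) (nat_lit 42421987870) (nat_lit 16) (nat_lit 5) (nat_lit 18) (nat_lit 5) (nat_lit 17) (nat_lit 4) (nat_lit 388) (nat_lit 311) (nat_lit 201)) (XT.lf (nat_lit 0) (nat_lit 8395065785) (nat_lit 76) (nat_lit 29819527941) (nat_lit 152) (nat_lit 57187489111) (nat_lit 15) (nat_lit 5) (nat_lit 16) (nat_lit 5) (nat_lit 17) (nat_lit 4) (nat_lit 389) (nat_lit 311) (nat_lit 200)))) (XT.nd (nat_lit 40794) (nat_lit 0) (nat_lit 18544) (XT.lf (nat_lit 0) (nat_lit 48791589313) (nat_lit 76) (nat_lit 9330017257) (nat_lit 152) (nat_lit 41405609050) (nat_lit 15) (nat_lit 5) (nat_lit 16) (nat_lit 5) (nat_lit 17) (nat_lit 4) (nat_lit 390) (nat_lit 311) (nat_lit 199)) (XT.nd (nat_lit 78) (nat_lit 0) (nat_lit 0) (XT.lf (nat_lit 0) (nat_lit 1697865309) (nat_lit 988) (nat_lit 1184033706) (nat_lit 988) (nat_lit 1184033706) (nat_lit 259) (nat_lit 3) (nat_lit 272) (nat_lit 3) (nat_lit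 272) (nat_lit 5) (nat_lit 312) (nat_lit 312) (nat_lit 276)) (XT.lf (nat_lit 76) (nat_lit 4039851474) (nat_lit 0) (nat_lit 1308719390) (nat_lit 988) (nat_lit 2928666459) (nat_lit 260) (nat_lit 5) (nat_lit 259) (nat_lit 3) (nat_lit 272) (nat_lit 5) (nat_lit 313) (nat_lit 312) (nat_lit 275))))) (XT.nd (nat_lit 234) (nat_lit 0) (nat_lit 152) (XT.nd (nat_lit 78) (nat_lit 988) (nat_lit 0) (XT.lf (nat_lit 76) (nat_lit 2335704629) (nat_lit 0) (nat_lit 5025666776) (nat_lit 988) (nat_lit 1069757593) (nat_lit 261) (nat_lit 5) (nat_lit 260) (nat_lit 5) (nat_lit 273) (nat_lit 5) (nat_lit 314) (nat_lit 312) (nat_lit 274)) (XT.nd (nat_lit 78) (nat_lit 0) (nat_lit 76) (XT.lf (nat_lit 76) (nat_lit 659097644) (nat_lit 0) (nat_lit 155985351) (nat_lit 1064) (nat_lit 7778983560) (nat_lit 248) (nat_lit 5) (nat_lit 247) (nat_lit 5) (nat_lit 261) (nat_lit 5) (nat_lit 315) (nat_lit 312) (nat_lit 273)) (XT.lf (nat_lit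 0) (nat_lit 2775076125) (nat_lit 988) (nat_lit 1011743498) (nat_lit 1064) (nat_lit 4978028908) (nat_lit 248) (nat_lit 5) (nat_lit 261) (nat_lit 5) (nat_lit 262) (nat_lit 5) (nat_lit 316) (nat_lit 312) (nat_lit 272)))) (XT.nd (nat_lit 78) (nat_lit 0) (nat_lit 0) (XT.lf (nat_lit 0) (nat_lit 4806933858) (nat_lit 988) (nat_lit 2645722646) (nat_lit 1064) (nat_lit 1492398425) (nat_lit 249) (nat_lit 5) (nat_lit 262) (nat_lit 5) (nat_lit 263) (nat_lit 5) (nat_lit 317) (nat_lit 312) (nat_lit 271)) (XT.nd (nat_lit 78) (nat_lit 0) (nat_lit 76) (XT.lf (nat_lit 76) (nat_lit 4853097134) (nat_lit 0) (nat_lit 2084283086) (nat_lit 1064) (nat_lit 2197078000) (nat_lit 250) (nat_lit 5) (nat_lit 249) (nat_lit 5) (nat_lit 263) (nat_lit 5) (nat_lit 318) (nat_lit 312) (nat_lit 270)) (XT.lf (nat_lit 76) (nat_lit 3414104845) (nat_lit 0) (nat_lit 5760673620) (nat_lit 1064) (nat_lit 158632180) (nat_lit 251) (nat_lit 5)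 (nat_lit 250) (nat_lit 5) (nat_lit 264) (nat_lit 5) (nat_lit 319) (nat_lit 312) (nat_lit 269))))))) (XT.nd (nat_lit 858) (nat_lit 4788) (nat_lit 0) (XT.nd (nat_lit 390) (nat_lit 3116) (nat_lit 0) (XT.nd (nat_lit 156) (nat_lit 2204) (nat_lit 0) (XT.nd (nat_lit 78) (nat_lit 0) (nat_lit 0) (XT.lf (nat_lit 0) (nat_lit 1936755395) (nat_lit 1064) (nat_lit 7569261372) (nat_lit 1140) (nat_lit 35996658) (nat_lit 237) (nat_lit 5) (nat_lit 251) (nat_lit 5) (nat_lit 252) (nat_lit 5) (nat_lit 320) (nat_lit 312) (nat_lit 268)) (XT.lf (nat_lit 76) (nat_lit 504730703) (nat_lit 0) (nat_lit 3666207058) (nat_lit 1140) (nat_lit 5589023170) (nat_lit 238) (nat_lit 5) (nat_lit 237) (nat_lit 5) (nat_lit 252) (nat_lit 5) (nat_lit 321) (nat_lit 312) (nat_lit 267))) (XT.nd (nat_lit 78) (nat_lit 2280) (nat_lit 0) (XT.lf (nat_lit 0) (nat_lit 6535640977) (nat_lit 1064) (nat_lit 939788592) (nat_lit 76) (nat_lit 2512888926)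 (nat_lit 238) (nat_lit 5) (nat_lit 252) (nat_lit 5) (nat_lit 239) (nat_lit 5) (nat_lit 322) (nat_lit 312) (nat_lit 266)) (XT.nd (nat_lit 78) (nat_lit 1216) (nat_lit 0) (XT.lf (nat_lit 0) (nat_lit 7841294278) (nat_lit 1064) (nat_lit 1210064881) (nat_lit 1140) (nat_lit 1175824753) (nat_lit 224) (nat_lit 5) (nat_lit 238) (nat_lit 5) (nat_lit 239) (nat_lit 5) (nat_lit 323) (nat_lit 312) (nat_lit 265)) (XT.lf (nat_lit 0) (nat_lit 1240221775) (nat_lit 1216) (nat_lit 3874755853) (nat_lit 76) (nat_lit 5361260740) (nat_lit 208) (nat_lit 5) (nat_lit 224) (nat_lit 5) (nat_lit 209) (nat_lit 5) (nat_lit 324) (nat_lit 312) (nat_lit 264))))) (XT.nd (nat_lit 234) (nat_lit 1140) (nat_lit 0) (XT.nd (nat_lit 78) (nat_lit 1140) (nat_lit 0) (XT.lf (nat_lit 0) (nat_lit 3782836271) (nat_lit 912) (nat_lit 5387285301) (nat_lit 76) (nat_lit 1566436824) (nat_lit 197) (nat_lit 5) (nat_lit 209) (nat_lit 5) (nat_lit 198)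 (nat_lit 5) (nat_lit 325) (nat_lit 312) (nat_lit 263)) (XT.nd (nat_lit 78) (nat_lit 532) (nat_lit 0) (XT.lf (nat_lit 0) (nat_lit 4067415886) (nat_lit 608) (nat_lit 2445056618) (nat_lit 684) (nat_lit 4495686724) (nat_lit 189) (nat_lit 5) (nat_lit 197) (nat_lit 5) (nat_lit 198) (nat_lit 5) (nat_lit 326) (nat_lit 312) (nat_lit 262)) (XT.lf (nat_lit 0) (nat_lit 2757703221) (nat_lit 532) (nat_lit 6679458322) (nat_lit 608) (nat_lit 1854480029) (nat_lit 182) (nat_lit 5) (nat_lit 189) (nat_lit 5) (nat_lit 190) (nat_lit 5) (nat_lit 327) (nat_lit 312) (nat_lit 261)))) (XT.nd (nat_lit 78) (nat_lit 532) (nat_lit 0) (XT.lf (nat_lit 0) (nat_lit 949632085) (nat_lit 608) (nat_lit 10166214546) (nat_lit 76) (nat_lit 471777413) (nat_lit 174) (nat_lit 5) (nat_lit 182) (nat_lit 5) (nat_lit 175) (nat_lit 5) (nat_lit 328) (nat_lit 312) (nat_lit 260)) (XT.nd (nat_lit 78) (nat_lit 0) (nat_lit 0) (XT.lf (nat_lit 0)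 (nat_lit 3701296) (nat_lit 532) (nat_lit 3944563873) (nat_lit 608) (nat_lit 7946861175) (nat_lit 167) (nat_lit 5) (nat_lit 174) (nat_lit 5) (nat_lit 175) (nat_lit 5) (nat_lit 329) (nat_lit 312) (nat_lit 259)) (XT.lf (nat_lit 0) (nat_lit 7175512957) (nat_lit 608) (nat_lit 1422219706) (nat_lit 76) (nat_lit 3617959753) (nat_lit 167) (nat_lit 5) (nat_lit 175) (nat_lit 5) (nat_lit 168) (nat_lit 5) (nat_lit 330) (nat_lit 312) (nat_lit 258)))))) (XT.nd (nat_lit 468) (nat_lit 1900) (nat_lit 0) (XT.nd (nat_lit 234) (nat_lit 1368) (nat_lit 0) (XT.nd (nat_lit 78) (nat_lit 988) (nat_lit 0) (XT.lf (nat_lit 0) (nat_lit 9655802099) (nat_lit 532) (nat_lit 982409802) (nat_lit 608) (nat_lit 1911899036) (nat_lit 160) (nat_lit 5) (nat_lit 167) (nat_lit 5) (nat_lit 168) (nat_lit 5) (nat_lit 331) (nat_lit 312) (nat_lit 257)) (XT.nd (nat_lit 78) (nat_lit 456) (nat_lit 0) (XT.lf (nat_lit 0) (nat_lit 1454069435) (nat_lit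 532) (nat_lit 4461486058) (nat_lit 76) (nat_lit 6982100419) (nat_lit 153) (nat_lit 5) (nat_lit 160) (nat_lit 5) (nat_lit 154) (nat_lit 5) (nat_lit 332) (nat_lit 312) (nat_lit 256)) (XT.lf (nat_lit 0) (nat_lit 5024235464) (nat_lit 532) (nat_lit 6101214767) (nat_lit 76) (nat_lit 2134338032) (nat_lit 147) (nat_lit 5) (nat_lit 154) (nat_lit 5) (nat_lit 148) (nat_lit 5) (nat_lit 333) (nat_lit 312) (nat_lit 255)))) (XT.nd (nat_lit 78) (nat_lit 912) (nat_lit 0) (XT.lf (nat_lit 0) (nat_lit 5805129339) (nat_lit 456) (nat_lit 3076749758) (nat_lit 532) (nat_lit 4754918311) (nat_lit 141) (nat_lit 5) (nat_lit 147) (nat_lit 5) (nat_lit 148) (nat_lit 5) (nat_lit 334) (nat_lit 312) (nat_lit 254)) (XT.nd (nat_lit 78) (nat_lit 456) (nat_lit 0) (XT.lf (nat_lit 0) (nat_lit 4374698348) (nat_lit 456) (nat_lit 8663775649) (nat_lit 532) (nat_lit 991038327) (nat_lit 135) (nat_lit 5) (nat_lit 141) (nat_lit 5) (nat_lit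 142) (nat_lit 5) (nat_lit 335) (nat_lit 312) (nat_lit 253)) (XT.lf (nat_lit 0) (nat_lit 2849740834) (nat_lit 380) (nat_lit 143638853) (nat_lit 456) (nat_lit 11444960236) (nat_lit 129) (nat_lit 5) (nat_lit 134) (nat_lit 5) (nat_lit 135) (nat_lit 5) (nat_lit 336) (nat_lit 312) (nat_lit 252))))) (XT.nd (nat_lit 234) (nat_lit 1064) (nat_lit 0) (XT.nd (nat_lit 78) (nat_lit 456) (nat_lit 0) (XT.lf (nat_lit 0) (nat_lit 1183385728) (nat_lit 380) (nat_lit 6121635467) (nat_lit 456) (nat_lit 7557871299) (nat_lit 124) (nat_lit 5) (nat_lit 129) (nat_lit 5) (nat_lit 130) (nat_lit 5) (nat_lit 337) (nat_lit 312) (nat_lit 251)) (XT.nd (nat_lit 78) (nat_lit 456) (nat_lit 0) (XT.lf (nat_lit 0) (nat_lit 11934220271) (nat_lit 456) (nat_lit 558408167) (nat_lit 76) (nat_lit 2813016347) (nat_lit 124) (nat_lit 5) (nat_lit 130) (nat_lit 5) (nat_lit 125) (nat_lit 5) (nat_lit 338) (nat_lit 312) (nat_lit 250)) (XT.lf (nat_lit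 0) (nat_lit 1151742850) (nat_lit 456) (nat_lit 2417256261) (nat_lit 76) (nat_lit 12196847566) (nat_lit 118) (nat_lit 5) (nat_lit 124) (nat_lit 5) (nat_lit 119) (nat_lit 5) (nat_lit 339) (nat_lit 312) (nat_lit 249)))) (XT.nd (nat_lit 78) (nat_lit 684) (nat_lit 0) (XT.lf (nat_lit 0) (nat_lit 5965776714) (nat_lit 456) (nat_lit 4448646514) (nat_lit 76) (nat_lit 5829628606) (nat_lit 113) (nat_lit 5) (nat_lit 119) (nat_lit 5) (nat_lit 114) (nat_lit 5) (nat_lit 340) (nat_lit 312) (nat_lit 248)) (XT.nd (nat_lit 78) (nat_lit 380) (nat_lit 0) (XT.lf (nat_lit 0) (nat_lit 10128973609) (nat_lit 304) (nat_lit 1008329269) (nat_lit 380) (nat_lit 5605386948) (nat_lit 109) (nat_lit 5) (nat_lit 113) (nat_lit 5) (nat_lit 114) (nat_lit 5) (nat_lit 341) (nat_lit 312) (nat_lit 247)) (XT.lf (nat_lit 0) (nat_lit 8283813763) (nat_lit 380) (nat_lit 8454310905) (nat_lit 456) (nat_lit 523038516) (nat_lit 104) (nat_lit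 5) (nat_lit 109) (nat_lit 5) (nat_lit 110) (nat_lit 5) (nat_lit 342) (nat_lit 312) (nat_lit 246))))))))
noncomputable def xc72 : XT := (XT.nd (nat_lit 1716) (nat_lit 1976) (nat_lit 0) (XT.nd (nat_lit 858) (nat_lit 1824) (nat_lit 0) (XT.nd (nat_lit 390) (nat_lit 1368) (nat_lit 0) (XT.nd (nat_lit 156) (nat_lit 684) (nat_lit 0) (XT.nd (nat_lit 78) (nat_lit 304) (nat_lit 0) (XT.lf (nat_lit 0) (nat_lit 4833265255) (nat_lit 380) (nat_lit 11543892710) (nat_lit 76) (nat_lit 1423624358) (nat_lit 99) (nat_lit 5) (nat_lit 104) (nat_lit 5) (nat_lit 100) (nat_lit 5) (nat_lit 343) (nat_lit 312) (nat_lit 245)) (XT.lf (nat_lit 0) (nat_lit 4008178096) (nat_lit 304) (nat_lit 6617487046) (nat_lit 380) (nat_lit 7736211030) (nat_lit 95) (nat_lit 5) (nat_lit 99) (nat_lit 5) (nat_lit 100) (nat_lit 5) (nat_lit 344) (nat_lit 312) (nat_lit 244))) (XT.nd (nat_lit 78) (nat_lit 380) (nat_lit 0) (XT.lf (nat_lit 0) (nat_lit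 1572480950) (nat_lit 304) (nat_lit 15268192538) (nat_lit 380) (nat_lit 2106382576) (nat_lit 91) (nat_lit 5) (nat_lit 95) (nat_lit 5) (nat_lit 96) (nat_lit 5) (nat_lit 345) (nat_lit 312) (nat_lit 243)) (XT.nd (nat_lit 78) (nat_lit 304) (nat_lit 0) (XT.lf (nat_lit 0) (nat_lit 3910557202) (nat_lit 380) (nat_lit 1119929271) (nat_lit 76) (nat_lit 14524534599) (nat_lit 90) (nat_lit 5) (nat_lit 95) (nat_lit 5) (nat_lit 91) (nat_lit 5) (nat_lit 346) (nat_lit 312) (nat_lit 242)) (XT.lf (nat_lit 0) (nat_lit 10362979165) (nat_lit 380) (nat_lit 4053988441) (nat_lit 76) (nat_lit 5770463611) (nat_lit 86) (nat_lit 5) (nat_lit 91) (nat_lit 5) (nat_lit 87) (nat_lit 5) (nat_lit 347) (nat_lit 312) (nat_lit 241))))) (XT.nd (nat_lit 234) (nat_lit 532) (nat_lit 0) (XT.nd (nat_lit 78) (nat_lit 608) (nat_lit 0) (XT.lf (nat_lit 0) (nat_lit 13586144683) (nat_lit 228) (nat_lit 3711485381) (nat_lit 304) (nat_lit 3549061188)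 (nat_lit 83) (nat_lit 5) (nat_lit 86) (nat_lit 5) (nat_lit 87) (nat_lit 5) (nat_lit 348) (nat_lit 312) (nat_lit 240)) (XT.nd (nat_lit 78) (nat_lit 228) (nat_lit 0) (XT.lf (nat_lit 0) (nat_lit 3167946579) (nat_lit 380) (nat_lit 10821499711) (nat_lit 76) (nat_lit 7542992467) (nat_lit 78) (nat_lit 5) (nat_lit 83) (nat_lit 5) (nat_lit 79) (nat_lit 5) (nat_lit 349) (nat_lit 312) (nat_lit 239)) (XT.lf (nat_lit 0) (nat_lit 7506459490) (nat_lit 228) (nat_lit 2795047650) (nat_lit 304) (nat_lit 11945304762) (nat_lit 75) (nat_lit 5) (nat_lit 78) (nat_lit 5) (nat_lit 79) (nat_lit 5) (nat_lit 350) (nat_lit 312) (nat_lit 238)))) (XT.nd (nat_lit 78) (nat_lit 304) (nat_lit 0) (XT.lf (nat_lit 0) (nat_lit 3924885123) (nat_lit 228) (nat_lit 14072428797) (nat_lit 304) (nat_lit 4993437513) (nat_lit 72) (nat_lit 5) (nat_lit 75) (nat_lit 5) (nat_lit 76) (nat_lit 5) (nat_lit 351) (nat_lit 312) (nat_lit 237)) (XT.nd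 (nat_lit 78) (nat_lit 228) (nat_lit 0) (XT.lf (nat_lit 0) (nat_lit 2412405944) (nat_lit 304) (nat_lit 34914349) (nat_lit 76) (nat_lit 21319374852) (nat_lit 71) (nat_lit 5) (nat_lit 75) (nat_lit 5) (nat_lit 72) (nat_lit 5) (nat_lit 352) (nat_lit 312) (nat_lit 236)) (XT.lf (nat_lit 0) (nat_lit 10348301319) (nat_lit 304) (nat_lit 4423621273) (nat_lit 76) (nat_lit 9800152311) (nat_lit 68) (nat_lit 5) (nat_lit 72) (nat_lit 5) (nat_lit 69) (nat_lit 5) (nat_lit 353) (nat_lit 312) (nat_lit 235)))))) (XT.nd (nat_lit 390) (nat_lit 912) (nat_lit 0) (XT.nd (nat_lit 156) (nat_lit 456) (nat_lit 0) (XT.nd (nat_lit 78) (nat_lit 228) (nat_lit 0) (XT.lf (nat_lit 0) (nat_lit 16170574343) (nat_lit 228) (nat_lit 2663076227) (nat_lit 304) (nat_lit 6579505694) (nat_lit 65) (nat_lit 5) (nat_lit 68) (nat_lit 5) (nat_lit 69) (nat_lit 5) (nat_lit 354) (nat_lit 312) (nat_lit 234)) (XT.lf (nat_lit 0) (nat_lit 1648768826)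 (nat_lit 228) (nat_lit 14626476181) (nat_lit 76) (nat_lit 10013740001) (nat_lit 62) (nat_lit 5) (nat_lit 65) (nat_lit 5) (nat_lit 63) (nat_lit 5) (nat_lit 355) (nat_lit 312) (nat_lit 233))) (XT.nd (nat_lit 78) (nat_lit 228) (nat_lit 0) (XT.lf (nat_lit 0) (nat_lit 6591688050) (nat_lit 228) (nat_lit 3721811487) (nat_lit 304) (nat_lit 16888328753) (nat_lit 59) (nat_lit 5) (nat_lit 62) (nat_lit 5) (nat_lit 63) (nat_lit 5) (nat_lit 356) (nat_lit 312) (nat_lit 232)) (XT.nd (nat_lit 78) (nat_lit 76) (nat_lit 0) (XT.lf (nat_lit 0) (nat_lit 903476223) (nat_lit 152) (nat_lit 18733889306) (nat_lit 228) (nat_lit 8516181636) (nat_lit 57) (nat_lit 5) (nat_lit 59) (nat_lit 5) (nat_lit 60) (nat_lit 5) (nat_lit 357) (nat_lit 312) (nat_lit 231)) (XT.lf (nat_lit 0) (nat_lit 495847134) (nat_lit 228) (nat_lit 5306973220) (nat_lit 76) (nat_lit 23343163093) (nat_lit 56) (nat_lit 5) (nat_lit 59) (nat_lit 5) (nat_lit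 57) (nat_lit 5) (nat_lit 358) (nat_lit 312) (nat_lit 230))))) (XT.nd (nat_lit 234) (nat_lit 380) (nat_lit 0) (XT.nd (nat_lit 78) (nat_lit 304) (nat_lit 0) (XT.lf (nat_lit 0) (nat_lit 10009759857) (nat_lit 304) (nat_lit 12300071173) (nat_lit 76) (nat_lit 7868867798) (nat_lit 53) (nat_lit 5) (nat_lit 57) (nat_lit 5) (nat_lit 54) (nat_lit 5) (nat_lit 359) (nat_lit 312) (nat_lit 229)) (XT.nd (nat_lit 78) (nat_lit 152) (nat_lit 0) (XT.lf (nat_lit 0) (nat_lit 11193223449) (nat_lit 152) (nat_lit 9004110016) (nat_lit 228) (nat_lit 11059786271) (nat_lit 51) (nat_lit 5) (nat_lit 53) (nat_lit 5) (nat_lit 54) (nat_lit 5) (nat_lit 360) (nat_lit 312) (nat_lit 228)) (XT.lf (nat_lit 0) (nat_lit 3717596834) (nat_lit 152) (nat_lit 27365270524) (nat_lit 228) (nat_lit 1300945184) (nat_lit 49) (nat_lit 5) (nat_lit 51) (nat_lit 5) (nat_lit 52) (nat_lit 5) (nat_lit 361) (nat_lit 312) (nat_lit 227)))) (XT.nd (nat_lit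 78) (nat_lit 304) (nat_lit 0) (XT.lf (nat_lit 0) (nat_lit 9048465868) (nat_lit 228) (nat_lit 4669971825) (nat_lit 76) (nat_lit 19837514382) (nat_lit 48) (nat_lit 5) (nat_lit 51) (nat_lit 5) (nat_lit 49) (nat_lit 5) (nat_lit 362) (nat_lit 312) (nat_lit 226)) (XT.nd (nat_lit 78) (nat_lit 152) (nat_lit 0) (XT.lf (nat_lit 0) (nat_lit 20076080136) (nat_lit 228) (nat_lit 13904335651) (nat_lit 76) (nat_lit 800274541) (nat_lit 46) (nat_lit 5) (nat_lit 49) (nat_lit 5) (nat_lit 47) (nat_lit 5) (nat_lit 363) (nat_lit 312) (nat_lit 225)) (XT.lf (nat_lit 0) (nat_lit 11787949941) (nat_lit 152) (nat_lit 20146773522) (nat_lit 228) (nat_lit 4123559543) (nat_lit 44) (nat_lit 5) (nat_lit 46) (nat_lit 5) (nat_lit 47) (nat_lit 5) (nat_lit 364) (nat_lit 312) (nat_lit 224))))))) (XT.nd (nat_lit 858) (nat_lit 760) (nat_lit 0) (XT.nd (nat_lit 390) (nat_lit 608) (nat_lit 0) (XT.nd (nat_lit 156) (nat_lit 380) (nat_lit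 0) (XT.nd (nat_lit 78) (nat_lit 0) (nat_lit 0) (XT.lf (nat_lit 0) (nat_lit 1587458870) (nat_lit 152) (nat_lit 5402332840) (nat_lit 228) (nat_lit 30403767854) (nat_lit 41) (nat_lit 5) (nat_lit 43) (nat_lit 5) (nat_lit 44) (nat_lit 5) (nat_lit 365) (nat_lit 312) (nat_lit 223)) (XT.lf (nat_lit 0) (nat_lit 18903796897) (nat_lit 228) (nat_lit 9718114756) (nat_lit 76) (nat_lit 10162561571) (nat_lit 41) (nat_lit 5) (nat_lit 44) (nat_lit 5) (nat_lit 42) (nat_lit 5) (nat_lit 366) (nat_lit 312) (nat_lit 222))) (XT.nd (nat_lit 78) (nat_lit 228) (nat_lit 0) (XT.lf (nat_lit 0) (nat_lit 17937048819) (nat_lit 152) (nat_lit 13684613049) (nat_lit 228) (nat_lit 8617031751) (nat_lit 39) (nat_lit 5) (nat_lit 41) (nat_lit 5) (nat_lit 42) (nat_lit 5) (nat_lit 367) (nat_lit 312) (nat_lit 221)) (XT.nd (nat_lit 78) (nat_lit 0) (nat_lit 0) (XT.lf (nat_lit 0) (nat_lit 3303183495) (nat_lit 228) (nat_lit 36323624274) (nat_lit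 76) (nat_lit 2133216336) (nat_lit 36) (nat_lit 5) (nat_lit 39) (nat_lit 5) (nat_lit 37) (nat_lit 5) (nat_lit 368) (nat_lit 312) (nat_lit 220)) (XT.lf (nat_lit 0) (nat_lit 15994884295) (nat_lit 228) (nat_lit 8582151085) (nat_lit 76) (nat_lit 18767220715) (nat_lit 36) (nat_lit 5) (nat_lit 39) (nat_lit 5) (nat_lit 37) (nat_lit 5) (nat_lit 369) (nat_lit 312) (nat_lit 219))))) (XT.nd (nat_lit 234) (nat_lit 304) (nat_lit 0) (XT.nd (nat_lit 78) (nat_lit 152) (nat_lit 0) (XT.lf (nat_lit 0) (nat_lit 20924582313) (nat_lit 152) (nat_lit 8580642645) (nat_lit 228) (nat_lit 15496957976) (nat_lit 34) (nat_lit 5) (nat_lit 36) (nat_lit 5) (nat_lit 37) (nat_lit 5) (nat_lit 370) (nat_lit 312) (nat_lit 218)) (XT.nd (nat_lit 78) (nat_lit 76) (nat_lit 0) (XT.lf (nat_lit 0) (nat_lit 5340357281) (nat_lit 76) (nat_lit 38553578646) (nat_lit 152) (nat_lit 2842989256) (nat_lit 33) (nat_lit 5) (nat_lit 34) (nat_lit 5)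 (nat_lit 35) (nat_lit 4) (nat_lit 371) (nat_lit 312) (nat_lit 217)) (XT.lf (nat_lit 0) (nat_lit 10560480285) (nat_lit 152) (nat_lit 12037178587) (nat_lit 76) (nat_lit 25948120368) (nat_lit 32) (nat_lit 5) (nat_lit 34) (nat_lit 5) (nat_lit 33) (nat_lit 5) (nat_lit 372) (nat_lit 312) (nat_lit 216)))) (XT.nd (nat_lit 78) (nat_lit 152) (nat_lit 0) (XT.lf (nat_lit 0) (nat_lit 19106588014) (nat_lit 152) (nat_lit 5637403895) (nat_lit 228) (nat_lit 25695183766) (nat_lit 30) (nat_lit 5) (nat_lit 32) (nat_lit 5) (nat_lit 33) (nat_lit 5) (nat_lit 373) (nat_lit 312) (nat_lit 215)) (XT.nd (nat_lit 78) (nat_lit 152) (nat_lit 0) (XT.lf (nat_lit 0) (nat_lit 39863634182) (nat_lit 228) (nat_lit 509942799) (nat_lit 76) (nat_lit 12046860210) (nat_lit 30) (nat_lit 5) (nat_lit 33) (nat_lit 5) (nat_lit 31) (nat_lit 4) (nat_lit 374) (nat_lit 312) (nat_lit 214)) (XT.lf (nat_lit 0) (nat_lit 1571754446) (nat_lit 152)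 (nat_lit 22102301284) (nat_lit 76) (nat_lit 30815629758) (nat_lit 28) (nat_lit 5) (nat_lit 30) (nat_lit 5) (nat_lit 29) (nat_lit 5) (nat_lit 375) (nat_lit 312) (nat_lit 213)))))) (XT.nd (nat_lit 468) (nat_lit 304) (nat_lit 0) (XT.nd (nat_lit 234) (nat_lit 228) (nat_lit 0) (XT.nd (nat_lit 78) (nat_lit 76) (nat_lit 0) (XT.lf (nat_lit 0) (nat_lit 10327201921) (nat_lit 152) (nat_lit 5912679328) (nat_lit 228) (nat_lit 40416003588) (nat_lit 26) (nat_lit 5) (nat_lit 28) (nat_lit 5) (nat_lit 29) (nat_lit 5) (nat_lit 376) (nat_lit 312) (nat_lit 212)) (XT.nd (nat_lit 78) (nat_lit 76) (nat_lit 0) (XT.lf (nat_lit 0) (nat_lit 31979802058) (nat_lit 228) (nat_lit 14233301330) (nat_lit 76) (nat_lit 12707142415) (nat_lit 26) (nat_lit 5) (nat_lit 29) (nat_lit 5) (nat_lit 27) (nat_lit 4) (nat_lit 377) (nat_lit 312) (nat_lit 211)) (XT.lf (nat_lit 0) (nat_lit 19769031507) (nat_lit 76) (nat_lit 28974233416) (nat_lit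 152) (nat_lit 12547466640) (nat_lit 25) (nat_lit 5) (nat_lit 26) (nat_lit 5) (nat_lit 27) (nat_lit 4) (nat_lit 378) (nat_lit 312) (nat_lit 210)))) (XT.nd (nat_lit 78) (nat_lit 152) (nat_lit 0) (XT.lf (nat_lit 0) (nat_lit 2650184078) (nat_lit 152) (nat_lit 8056018402) (nat_lit 76) (nat_lit 53068749873) (nat_lit 24) (nat_lit 5) (nat_lit 26) (nat_lit 5) (nat_lit 25) (nat_lit 5) (nat_lit 379) (nat_lit 312) (nat_lit 209)) (XT.nd (nat_lit 78) (nat_lit 0) (nat_lit 0) (XT.lf (nat_lit 0) (nat_lit 18687651587) (nat_lit 228) (nat_lit 38987294541) (nat_lit 76) (nat_lit 8694530783) (nat_lit 22) (nat_lit 5) (nat_lit 25) (nat_lit 5) (nat_lit 23) (nat_lit 4) (nat_lit 380) (nat_lit 312) (nat_lit 208)) (XT.lf (nat_lit 0) (nat_lit 35706808929) (nat_lit 228) (nat_lit 4461466060) (nat_lit 76) (nat_lit 28920060834) (nat_lit 22) (nat_lit 5) (nat_lit 25) (nat_lit 5) (nat_lit 23) (nat_lit 4) (nat_lit 381) (nat_lit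 312) (nat_lit 207))))) (XT.nd (nat_lit 234) (nat_lit 76) (nat_lit 0) (XT.nd (nat_lit 78) (nat_lit 152) (nat_lit 0) (XT.lf (nat_lit 0) (nat_lit 32401995248) (nat_lit 76) (nat_lit 21474973332) (nat_lit 152) (nat_lit 18057170262) (nat_lit 21) (nat_lit 5) (nat_lit 22) (nat_lit 5) (nat_lit 23) (nat_lit 4) (nat_lit 382) (nat_lit 312) (nat_lit 206)) (XT.nd (nat_lit 78) (nat_lit 152) (nat_lit 0) (XT.lf (nat_lit 0) (nat_lit 71181523100) (nat_lit 76) (nat_lit 1808965080) (nat_lit 152) (nat_lit 1930700649) (nat_lit 21) (nat_lit 5) (nat_lit 22) (nat_lit 5) (nat_lit 23) (nat_lit 4) (nat_lit 383) (nat_lit 312) (nat_lit 205)) (XT.lf (nat_lit 0) (nat_lit 15214592216) (nat_lit 152) (nat_lit 43880483431) (nat_lit 76) (nat_lit 18943034250) (nat_lit 19) (nat_lit 5) (nat_lit 21) (nat_lit 5) (nat_lit 20) (nat_lit 4) (nat_lit 384) (nat_lit 312) (nat_lit 204)))) (XT.nd (nat_lit 78) (nat_lit 76) (nat_lit 0) (XT.lf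 (nat_lit 0) (nat_lit 33224313853) (nat_lit 152) (nat_lit 7339168195) (nat_lit 76) (nat_lit 40745410766) (nat_lit 19) (nat_lit 5) (nat_lit 21) (nat_lit 5) (nat_lit 20) (nat_lit 4) (nat_lit 385) (nat_lit 312) (nat_lit 203)) (XT.nd (nat_lit 78) (nat_lit 0) (nat_lit 0) (XT.lf (nat_lit 0) (nat_lit 31628055944) (nat_lit 76) (nat_lit 20800576480) (nat_lit 152) (nat_lit 32305761122) (nat_lit 18) (nat_lit 5) (nat_lit 19) (nat_lit 5) (nat_lit 20) (nat_lit 4) (nat_lit 386) (nat_lit 312) (nat_lit 202)) (XT.lf (nat_lit 0) (nat_lit 72659294086) (nat_lit 152) (nat_lit 15650186680) (nat_lit 0) (nat_lit 19706632) (nat_lit 18) (nat_lit 5) (nat_lit 20) (nat_lit 4) (nat_lit 18) (nat_lit 4) (nat_lit 387) (nat_lit 312) (nat_lit 201))))))))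
noncomputable def xc73 : XT := (XT.nd (nat_lit 42588) (nat_lit 0) (nat_lit 3800) (XT.nd (nat_lit 41652) (nat_lit 0) (nat_lit 11020) (XT.nd (nat_lit 41184) (nat_lit 0) (nat_lit 16720) (XT.nd (nat_lit 156) (nat_lit 76) (nat_lit 0) (XT.nd (nat_lit 78) (nat_lit 0) (nat_lit 0) (XT.lf (nat_lit 0) (nat_lit 2197579009) (nat_lit 152) (nat_lit 68193950237) (nat_lit 76) (nat_lit 21698628251) (nat_lit 16) (nat_lit 5) (nat_lit 18) (nat_lit 5) (nat_lit 17) (nat_lit 4) (nat_lit 388) (nat_lit 312) (nat_lit 200)) (XT.lf (nat_lit 0) (nat_lit 20791015764) (nat_lit 152) (nat_lit 30463986170) (nat_lit 76) (nat_lit 44774821368) (nat_lit 16) (nat_lit 5) (nat_lit 18) (nat_lit 5) (nat_lit 17) (nat_lit 4) (nat_lit 389) (nat_lit 312) (nat_lit 199))) (XT.nd (nat_lit 40872) (nat_lit 0) (nat_lit 17556) (XT.lf (nat_lit 0) (nat_lit 9318259518) (nat_lit 76) (nat_lit 31076824048) (nat_lit 152) (nat_lit 59768961648) (nat_lit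 15) (nat_lit 5) (nat_lit 16) (nat_lit 5) (nat_lit 17) (nat_lit 4) (nat_lit 390) (nat_lit 312) (nat_lit 198)) (XT.nd (nat_lit 78) (nat_lit 988) (nat_lit 0) (XT.lf (nat_lit 0) (nat_lit 3583314445) (nat_lit 988) (nat_lit 315020670) (nat_lit 988) (nat_lit 315020670) (nat_lit 259) (nat_lit 3) (nat_lit 272) (nat_lit 3) (nat_lit 272) (nat_lit 5) (nat_lit 313) (nat_lit 313) (nat_lit 274)) (XT.lf (nat_lit 0) (nat_lit 469466608) (nat_lit 988) (nat_lit 2543696632) (nat_lit 1064) (nat_lit 5570852012) (nat_lit 246) (nat_lit 5) (nat_lit 259) (nat_lit 3) (nat_lit 260) (nat_lit 5) (nat_lit 314) (nat_lit 313) (nat_lit 273))))) (XT.nd (nat_lit 234) (nat_lit 912) (nat_lit 0) (XT.nd (nat_lit 78) (nat_lit 0) (nat_lit 0) (XT.lf (nat_lit 0) (nat_lit 2220265364) (nat_lit 988) (nat_lit 4449267130) (nat_lit 1064) (nat_lit 2080558700) (nat_lit 247) (nat_lit 5) (nat_lit 260) (nat_lit 5) (nat_lit 261) (nat_lit 5) (nat_lit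 315) (nat_lit 313) (nat_lit 272)) (XT.nd (nat_lit 78) (nat_lit 0) (nat_lit 76) (XT.lf (nat_lit 76) (nat_lit 2576570193) (nat_lit 0) (nat_lit 1460803301) (nat_lit 1064) (nat_lit 4887835626) (nat_lit 248) (nat_lit 5) (nat_lit 247) (nat_lit 5) (nat_lit 261) (nat_lit 5) (nat_lit 316) (nat_lit 313) (nat_lit 271)) (XT.lf (nat_lit 76) (nat_lit 854871099) (nat_lit 0) (nat_lit 5085336960) (nat_lit 1064) (nat_lit 3169125201) (nat_lit 249) (nat_lit 5) (nat_lit 248) (nat_lit 5) (nat_lit 262) (nat_lit 5) (nat_lit 317) (nat_lit 313) (nat_lit 270)))) (XT.nd (nat_lit 78) (nat_lit 1064) (nat_lit 0) (XT.lf (nat_lit 0) (nat_lit 7929408333) (nat_lit 988) (nat_lit 832319875) (nat_lit 1064) (nat_lit 541290533) (nat_lit 249) (nat_lit 5) (nat_lit 262) (nat_lit 5) (nat_lit 263) (nat_lit 5) (nat_lit 318) (nat_lit 313) (nat_lit 269)) (XT.nd (nat_lit 78) (nat_lit 0) (nat_lit 76) (XT.lf (nat_lit 0) (nat_lit 531130287)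 (nat_lit 1064) (nat_lit 2525138090) (nat_lit 1140) (nat_lit 6449174450) (nat_lit 235) (nat_lit 5) (nat_lit 249) (nat_lit 5) (nat_lit 250) (nat_lit 5) (nat_lit 319) (nat_lit 313) (nat_lit 268)) (XT.lf (nat_lit 0) (nat_lit 2507364490) (nat_lit 1064) (nat_lit 4231006967) (nat_lit 1140) (nat_lit 2979149599) (nat_lit 236) (nat_lit 5) (nat_lit 250) (nat_lit 5) (nat_lit 251) (nat_lit 5) (nat_lit 320) (nat_lit 313) (nat_lit 267)))))) (XT.nd (nat_lit 468) (nat_lit 2812) (nat_lit 0) (XT.nd (nat_lit 234) (nat_lit 2052) (nat_lit 0) (XT.nd (nat_lit 78) (nat_lit 912) (nat_lit 0) (XT.lf (nat_lit 76) (nat_lit 3997601700) (nat_lit 0) (nat_lit 597636047) (nat_lit 1140) (nat_lit 5344657665) (nat_lit 237) (nat_lit 5) (nat_lit 236) (nat_lit 5) (nat_lit 251) (nat_lit 5) (nat_lit 321) (nat_lit 313) (nat_lit 266)) (XT.nd (nat_lit 78) (nat_lit 988) (nat_lit 0) (XT.lf (nat_lit 76) (nat_lit 2483492866) (nat_lit 0) (nat_lit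 4348960495) (nat_lit 1140) (nat_lit 3339660034) (nat_lit 238) (nat_lit 5) (nat_lit 237) (nat_lit 5) (nat_lit 252) (nat_lit 5) (nat_lit 322) (nat_lit 313) (nat_lit 265)) (XT.lf (nat_lit 0) (nat_lit 969446186) (nat_lit 1064) (nat_lit 8233884092) (nat_lit 1140) (nat_lit 1212027857) (nat_lit 224) (nat_lit 5) (nat_lit 238) (nat_lit 5) (nat_lit 239) (nat_lit 5) (nat_lit 323) (nat_lit 313) (nat_lit 264)))) (XT.nd (nat_lit 78) (nat_lit 1976) (nat_lit 0) (XT.lf (nat_lit 0) (nat_lit 1052296540) (nat_lit 1140) (nat_lit 564520235) (nat_lit 76) (nat_lit 9052210630) (nat_lit 223) (nat_lit 5) (nat_lit 238) (nat_lit 5) (nat_lit 224) (nat_lit 5) (nat_lit 324) (nat_lit 313) (nat_lit 263)) (XT.nd (nat_lit 78) (nat_lit 836) (nat_lit 0) (XT.lf (nat_lit 0) (nat_lit 3472429879) (nat_lit 1216) (nat_lit 2125021764) (nat_lit 76) (nat_lit 5335600240) (nat_lit 208) (nat_lit 5) (nat_lit 224) (nat_lit 5) (nat_lit 209) (nat_lit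 5) (nat_lit 325) (nat_lit 313) (nat_lit 262)) (XT.lf (nat_lit 0) (nat_lit 6055082742) (nat_lit 912) (nat_lit 3702638551) (nat_lit 76) (nat_lit 1451369509) (nat_lit 197) (nat_lit 5) (nat_lit 209) (nat_lit 5) (nat_lit 198) (nat_lit 5) (nat_lit 326) (nat_lit 313) (nat_lit 261))))) (XT.nd (nat_lit 234) (nat_lit 1064) (nat_lit 0) (XT.nd (nat_lit 78) (nat_lit 1140) (nat_lit 0) (XT.lf (nat_lit 0) (nat_lit 6168786362) (nat_lit 608) (nat_lit 2671463698) (nat_lit 684) (nat_lit 2656535963) (nat_lit 189) (nat_lit 5) (nat_lit 197) (nat_lit 5) (nat_lit 198) (nat_lit 5) (nat_lit 327) (nat_lit 313) (nat_lit 260)) (XT.nd (nat_lit 78) (nat_lit 532) (nat_lit 0) (XT.lf (nat_lit 0) (nat_lit 35614709) (nat_lit 608) (nat_lit 6997047978) (nat_lit 76) (nat_lit 4764190651) (nat_lit 181) (nat_lit 5) (nat_lit 189) (nat_lit 5) (nat_lit 182) (nat_lit 5) (nat_lit 328) (nat_lit 313) (nat_lit 259)) (XT.lf (nat_lit 0) (nat_lit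 2867664518) (nat_lit 608) (nat_lit 8727962500) (nat_lit 76) (nat_lit 513750093) (nat_lit 174) (nat_lit 5) (nat_lit 182) (nat_lit 5) (nat_lit 175) (nat_lit 5) (nat_lit 329) (nat_lit 313) (nat_lit 258)))) (XT.nd (nat_lit 78) (nat_lit 532) (nat_lit 0) (XT.lf (nat_lit 0) (nat_lit 1894651303) (nat_lit 532) (nat_lit 4050679294) (nat_lit 608) (nat_lit 6489122871) (nat_lit 167) (nat_lit 5) (nat_lit 174) (nat_lit 5) (nat_lit 175) (nat_lit 5) (nat_lit 330) (nat_lit 313) (nat_lit 257)) (XT.nd (nat_lit 78) (nat_lit 0) (nat_lit 0) (XT.lf (nat_lit 0) (nat_lit 366505244) (nat_lit 532) (nat_lit 8886095005) (nat_lit 608) (nat_lit 3520956364) (nat_lit 160) (nat_lit 5) (nat_lit 167) (nat_lit 5) (nat_lit 168) (nat_lit 5) (nat_lit 331) (nat_lit 313) (nat_lit 256)) (XT.lf (nat_lit 0) (nat_lit 11938169485) (nat_lit 532) (nat_lit 882383622) (nat_lit 608) (nat_lit 306244673) (nat_lit 160) (nat_lit 5) (nat_lit 167)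 (nat_lit 5) (nat_lit 168) (nat_lit 5) (nat_lit 332) (nat_lit 313) (nat_lit 255))))))) (XT.nd (nat_lit 858) (nat_lit 2888) (nat_lit 0) (XT.nd (nat_lit 390) (nat_lit 1976) (nat_lit 0) (XT.nd (nat_lit 156) (nat_lit 1368) (nat_lit 0) (XT.nd (nat_lit 78) (nat_lit 456) (nat_lit 0) (XT.lf (nat_lit 0) (nat_lit 3134207436) (nat_lit 532) (nat_lit 2855399715) (nat_lit 76) (nat_lit 7503501139) (nat_lit 153) (nat_lit 5) (nat_lit 160) (nat_lit 5) (nat_lit 154) (nat_lit 5) (nat_lit 333) (nat_lit 313) (nat_lit 254)) (XT.lf (nat_lit 0) (nat_lit 6825615234) (nat_lit 532) (nat_lit 4584157394) (nat_lit 76) (nat_lit 2465350119) (nat_lit 147) (nat_lit 5) (nat_lit 154) (nat_lit 5) (nat_lit 148) (nat_lit 5) (nat_lit 334) (nat_lit 313) (nat_lit 253))) (XT.nd (nat_lit 78) (nat_lit 912) (nat_lit 0) (XT.lf (nat_lit 0) (nat_lit 7865273267) (nat_lit 456) (nat_lit 2954063499) (nat_lit 532) (nat_lit 3453404468) (nat_lit 141)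 (nat_lit 5) (nat_lit 147) (nat_lit 5) (nat_lit 148) (nat_lit 5) (nat_lit 335) (nat_lit 313) (nat_lit 252)) (XT.nd (nat_lit 78) (nat_lit 380) (nat_lit 0) (XT.lf (nat_lit 0) (nat_lit 436724397) (nat_lit 532) (nat_lit 8336389429) (nat_lit 76) (nat_lit 5913451323) (nat_lit 134) (nat_lit 5) (nat_lit 141) (nat_lit 5) (nat_lit 135) (nat_lit 5) (nat_lit 336) (nat_lit 313) (nat_lit 251)) (XT.lf (nat_lit 0) (nat_lit 4549175410) (nat_lit 456) (nat_lit 10386889896) (nat_lit 76) (nat_lit 181043425) (nat_lit 129) (nat_lit 5) (nat_lit 135) (nat_lit 5) (nat_lit 130) (nat_lit 5) (nat_lit 337) (nat_lit 313) (nat_lit 250))))) (XT.nd (nat_lit 234) (nat_lit 1140) (nat_lit 0) (XT.nd (nat_lit 78) (nat_lit 456) (nat_lit 0) (XT.lf (nat_lit 0) (nat_lit 2971229943) (nat_lit 380) (nat_lit 6056208461) (nat_lit 456) (nat_lit 6536965268) (nat_lit 124) (nat_lit 5) (nat_lit 129) (nat_lit 5) (nat_lit 130) (nat_lit 5) (nat_lit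 338) (nat_lit 313) (nat_lit 249)) (XT.nd (nat_lit 78) (nat_lit 76) (nat_lit 0) (XT.lf (nat_lit 0) (nat_lit 1118096374) (nat_lit 380) (nat_lit 12719523040) (nat_lit 456) (nat_lit 2193232240) (nat_lit 119) (nat_lit 5) (nat_lit 124) (nat_lit 5) (nat_lit 125) (nat_lit 5) (nat_lit 339) (nat_lit 313) (nat_lit 248)) (XT.lf (nat_lit 0) (nat_lit 2472461923) (nat_lit 456) (nat_lit 877796189) (nat_lit 76) (nat_lit 13165178134) (nat_lit 118) (nat_lit 5) (nat_lit 124) (nat_lit 5) (nat_lit 119) (nat_lit 5) (nat_lit 340) (nat_lit 313) (nat_lit 247)))) (XT.nd (nat_lit 78) (nat_lit 760) (nat_lit 0) (XT.lf (nat_lit 0) (nat_lit 7486340610) (nat_lit 456) (nat_lit 3024813644) (nat_lit 76) (nat_lit 6507661626) (nat_lit 113) (nat_lit 5) (nat_lit 119) (nat_lit 5) (nat_lit 114) (nat_lit 5) (nat_lit 341) (nat_lit 313) (nat_lit 246)) (XT.nd (nat_lit 78) (nat_lit 456) (nat_lit 0) (XT.lf (nat_lit 0) (nat_lit 12234497624)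 (nat_lit 304) (nat_lit 639113174) (nat_lit 380) (nat_lit 4670096623) (nat_lit 109) (nat_lit 5) (nat_lit 113) (nat_lit 5) (nat_lit 114) (nat_lit 5) (nat_lit 342) (nat_lit 313) (nat_lit 245)) (XT.lf (nat_lit 0) (nat_lit 615872443) (nat_lit 456) (nat_lit 7812884020) (nat_lit 76) (nat_lit 9660314541) (nat_lit 103) (nat_lit 5) (nat_lit 109) (nat_lit 5) (nat_lit 104) (nat_lit 5) (nat_lit 343) (nat_lit 313) (nat_lit 244)))))) (XT.nd (nat_lit 468) (nat_lit 1368) (nat_lit 0) (XT.nd (nat_lit 234) (nat_lit 608) (nat_lit 0) (XT.nd (nat_lit 78) (nat_lit 608) (nat_lit 0) (XT.lf (nat_lit 0) (nat_lit 6193622651) (nat_lit 380) (nat_lit 10529352672) (nat_lit 76) (nat_lit 1933639265) (nat_lit 99) (nat_lit 5) (nat_lit 104) (nat_lit 5) (nat_lit 100) (nat_lit 5) (nat_lit 344) (nat_lit 313) (nat_lit 243)) (XT.nd (nat_lit 78) (nat_lit 304) (nat_lit 0) (XT.lf (nat_lit 0) (nat_lit 5754694920) (nat_lit 304) (nat_lit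 6482538599) (nat_lit 380) (nat_lit 7009712643) (nat_lit 95) (nat_lit 5) (nat_lit 99) (nat_lit 5) (nat_lit 100) (nat_lit 5) (nat_lit 345) (nat_lit 313) (nat_lit 242)) (XT.lf (nat_lit 0) (nat_lit 3180621821) (nat_lit 304) (nat_lit 15549895510) (nat_lit 380) (nat_lit 1131871264) (nat_lit 91) (nat_lit 5) (nat_lit 95) (nat_lit 5) (nat_lit 96) (nat_lit 5) (nat_lit 346) (nat_lit 313) (nat_lit 241)))) (XT.nd (nat_lit 78) (nat_lit 228) (nat_lit 0) (XT.lf (nat_lit 0) (nat_lit 307364535) (nat_lit 304) (nat_lit 4810017064) (nat_lit 380) (nat_lit 15384509822) (nat_lit 86) (nat_lit 5) (nat_lit 90) (nat_lit 5) (nat_lit 91) (nat_lit 5) (nat_lit 347) (nat_lit 313) (nat_lit 240)) (XT.nd (nat_lit 78) (nat_lit 228) (nat_lit 0) (XT.lf (nat_lit 0) (nat_lit 11859677131) (nat_lit 380) (nat_lit 2796431839) (nat_lit 76) (nat_lit 6510821329) (nat_lit 86) (nat_lit 5) (nat_lit 91) (nat_lit 5) (nat_lit 87) (nat_lit 5) (nat_lit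 348) (nat_lit 313) (nat_lit 239)) (XT.lf (nat_lit 0) (nat_lit 15683849996) (nat_lit 228) (nat_lit 3424247517) (nat_lit 304) (nat_lit 2752069286) (nat_lit 83) (nat_lit 5) (nat_lit 86) (nat_lit 5) (nat_lit 87) (nat_lit 5) (nat_lit 349) (nat_lit 313) (nat_lit 238))))) (XT.nd (nat_lit 234) (nat_lit 532) (nat_lit 0) (XT.nd (nat_lit 78) (nat_lit 456) (nat_lit 0) (XT.lf (nat_lit 0) (nat_lit 4254252734) (nat_lit 380) (nat_lit 9942296008) (nat_lit 76) (nat_lit 8384220285) (nat_lit 78) (nat_lit 5) (nat_lit 83) (nat_lit 5) (nat_lit 79) (nat_lit 5) (nat_lit 350) (nat_lit 313) (nat_lit 237)) (XT.nd (nat_lit 78) (nat_lit 228) (nat_lit 0) (XT.lf (nat_lit 0) (nat_lit 9261349150) (nat_lit 228) (nat_lit 2452217278) (nat_lit 304) (nat_lit 11618243786) (nat_lit 75) (nat_lit 5) (nat_lit 78) (nat_lit 5) (nat_lit 79) (nat_lit 5) (nat_lit 351) (nat_lit 313) (nat_lit 236)) (XT.lf (nat_lit 0) (nat_lit 5483203676) (nat_lit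 228) (nat_lit 14285757424) (nat_lit 304) (nat_lit 4344762303) (nat_lit 72) (nat_lit 5) (nat_lit 75) (nat_lit 5) (nat_lit 76) (nat_lit 5) (nat_lit 352) (nat_lit 313) (nat_lit 235)))) (XT.nd (nat_lit 78) (nat_lit 228) (nat_lit 0) (XT.lf (nat_lit 0) (nat_lit 1303057212) (nat_lit 228) (nat_lit 2081368238) (nat_lit 304) (nat_lit 21544681378) (nat_lit 68) (nat_lit 5) (nat_lit 71) (nat_lit 5) (nat_lit 72) (nat_lit 5) (nat_lit 353) (nat_lit 313) (nat_lit 234)) (XT.nd (nat_lit 78) (nat_lit 228) (nat_lit 0) (XT.lf (nat_lit 0) (nat_lit 11681388949) (nat_lit 304) (nat_lit 3347961220) (nat_lit 76) (nat_lit 10746495351) (nat_lit 68) (nat_lit 5) (nat_lit 72) (nat_lit 5) (nat_lit 69) (nat_lit 5) (nat_lit 354) (nat_lit 313) (nat_lit 233)) (XT.lf (nat_lit 0) (nat_lit 18238770486) (nat_lit 228) (nat_lit 2325502320) (nat_lit 304) (nat_lit 6095527414) (nat_lit 65) (nat_lit 5) (nat_lit 68) (nat_lit 5) (nat_lit 69)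 (nat_lit 5) (nat_lit 355) (nat_lit 313) (nat_lit 232))))))))
noncomputable def xc74 : XT := (XT.nd (nat_lit 1716) (nat_lit 760) (nat_lit 0) (XT.nd (nat_lit 858) (nat_lit 1140) (nat_lit 0) (XT.nd (nat_lit 390) (nat_lit 912) (nat_lit 0) (XT.nd (nat_lit 156) (nat_lit 456) (nat_lit 0) (XT.nd (nat_lit 78) (nat_lit 228) (nat_lit 0) (XT.lf (nat_lit 0) (nat_lit 2506754460) (nat_lit 228) (nat_lit 14099555862) (nat_lit 76) (nat_lit 10973537904) (nat_lit 62) (nat_lit 5) (nat_lit 65) (nat_lit 5) (nat_lit 63) (nat_lit 5) (nat_lit 356) (nat_lit 313) (nat_lit 231)) (XT.lf (nat_lit 0) (nat_lit 8143449265) (nat_lit 228) (nat_lit 3436089933) (nat_lit 304) (nat_lit 16959565168) (nat_lit 59) (nat_lit 5) (nat_lit 62) (nat_lit 5) (nat_lit 63) (nat_lit 5) (nat_lit 357) (nat_lit 313) (nat_lit 230))) (XT.nd (nat_lit 78) (nat_lit 304) (nat_lit 0) (XT.lf (nat_lit 0) (nat_lit 2153549394) (nat_lit 152) (nat_lit 19196219053)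 (nat_lit 228) (nat_lit 8189250136) (nat_lit 57) (nat_lit 5) (nat_lit 59) (nat_lit 5) (nat_lit 60) (nat_lit 5) (nat_lit 358) (nat_lit 313) (nat_lit 229)) (XT.nd (nat_lit 78) (nat_lit 228) (nat_lit 0) (XT.lf (nat_lit 0) (nat_lit 1223546064) (nat_lit 228) (nat_lit 4410541406) (nat_lit 76) (nat_lit 24947839895) (nat_lit 56) (nat_lit 5) (nat_lit 59) (nat_lit 5) (nat_lit 57) (nat_lit 5) (nat_lit 359) (nat_lit 313) (nat_lit 228)) (XT.lf (nat_lit 0) (nat_lit 11194838637) (nat_lit 304) (nat_lit 11770241029) (nat_lit 76) (nat_lit 8701761088) (nat_lit 53) (nat_lit 5) (nat_lit 57) (nat_lit 5) (nat_lit 54) (nat_lit 5) (nat_lit 360) (nat_lit 313) (nat_lit 227))))) (XT.nd (nat_lit 234) (nat_lit 532) (nat_lit 0) (XT.nd (nat_lit 78) (nat_lit 228) (nat_lit 0) (XT.lf (nat_lit 0) (nat_lit 12864901896) (nat_lit 152) (nat_lit 9004978859) (nat_lit 228) (nat_lit 10929971415) (nat_lit 51) (nat_lit 5) (nat_lit 53) (nat_lit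 5) (nat_lit 54) (nat_lit 5) (nat_lit 361) (nat_lit 313) (nat_lit 226)) (XT.nd (nat_lit 78) (nat_lit 76) (nat_lit 0) (XT.lf (nat_lit 0) (nat_lit 4998969428) (nat_lit 152) (nat_lit 28283809860) (nat_lit 228) (nat_lit 700619268) (nat_lit 49) (nat_lit 5) (nat_lit 51) (nat_lit 5) (nat_lit 52) (nat_lit 5) (nat_lit 362) (nat_lit 313) (nat_lit 225)) (XT.lf (nat_lit 0) (nat_lit 10122212350) (nat_lit 228) (nat_lit 3847564329) (nat_lit 76) (nat_lit 21245119197) (nat_lit 48) (nat_lit 5) (nat_lit 51) (nat_lit 5) (nat_lit 49) (nat_lit 5) (nat_lit 363) (nat_lit 313) (nat_lit 224)))) (XT.nd (nat_lit 78) (nat_lit 380) (nat_lit 0) (XT.lf (nat_lit 0) (nat_lit 21685555744) (nat_lit 228) (nat_lit 13559738071) (nat_lit 76) (nat_lit 1256056970) (nat_lit 46) (nat_lit 5) (nat_lit 49) (nat_lit 5) (nat_lit 47) (nat_lit 5) (nat_lit 364) (nat_lit 313) (nat_lit 223)) (XT.nd (nat_lit 78) (nat_lit 228) (nat_lit 0) (XT.lf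 (nat_lit 0) (nat_lit 13387355730) (nat_lit 152) (nat_lit 20730642819) (nat_lit 228) (nat_lit 3725408237) (nat_lit 44) (nat_lit 5) (nat_lit 46) (nat_lit 5) (nat_lit 47) (nat_lit 5) (nat_lit 365) (nat_lit 313) (nat_lit 222)) (XT.lf (nat_lit 0) (nat_lit 2659526169) (nat_lit 152) (nat_lit 5253618123) (nat_lit 228) (nat_lit 31332697793) (nat_lit 41) (nat_lit 5) (nat_lit 43) (nat_lit 5) (nat_lit 44) (nat_lit 5) (nat_lit 366) (nat_lit 313) (nat_lit 221)))))) (XT.nd (nat_lit 390) (nat_lit 608) (nat_lit 0) (XT.nd (nat_lit 156) (nat_lit 380) (nat_lit 0) (XT.nd (nat_lit 78) (nat_lit 152) (nat_lit 0) (XT.lf (nat_lit 0) (nat_lit 20399357275) (nat_lit 228) (nat_lit 9245864542) (nat_lit 76) (nat_lit 11061792936) (nat_lit 41) (nat_lit 5) (nat_lit 44) (nat_lit 5) (nat_lit 42) (nat_lit 5) (nat_lit 367) (nat_lit 313) (nat_lit 220)) (XT.lf (nat_lit 0) (nat_lit 19764591863) (nat_lit 152) (nat_lit 13971261879) (nat_lit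 228) (nat_lit 8498618423) (nat_lit 39) (nat_lit 5) (nat_lit 41) (nat_lit 5) (nat_lit 42) (nat_lit 5) (nat_lit 368) (nat_lit 313) (nat_lit 219))) (XT.nd (nat_lit 78) (nat_lit 152) (nat_lit 0) (XT.lf (nat_lit 0) (nat_lit 3993812478) (nat_lit 228) (nat_lit 37213203691) (nat_lit 76) (nat_lit 2625094448) (nat_lit 36) (nat_lit 5) (nat_lit 39) (nat_lit 5) (nat_lit 37) (nat_lit 5) (nat_lit 369) (nat_lit 313) (nat_lit 218)) (XT.nd (nat_lit 78) (nat_lit 152) (nat_lit 0) (XT.lf (nat_lit 0) (nat_lit 17295075946) (nat_lit 228) (nat_lit 8128780737) (nat_lit 76) (nat_lit 20072455365) (nat_lit 36) (nat_lit 5) (nat_lit 39) (nat_lit 5) (nat_lit 37) (nat_lit 5) (nat_lit 370) (nat_lit 313) (nat_lit 217)) (XT.lf (nat_lit 0) (nat_lit 22827993279) (nat_lit 152) (nat_lit 8637349290) (nat_lit 228) (nat_lit 15772267224) (nat_lit 34) (nat_lit 5) (nat_lit 36) (nat_lit 5) (nat_lit 37) (nat_lit 5) (nat_lit 371) (nat_lit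 313) (nat_lit 216))))) (XT.nd (nat_lit 234) (nat_lit 304) (nat_lit 0) (XT.nd (nat_lit 78) (nat_lit 228) (nat_lit 0) (XT.lf (nat_lit 0) (nat_lit 6450771045) (nat_lit 76) (nat_lit 40111145472) (nat_lit 152) (nat_lit 2497526319) (nat_lit 33) (nat_lit 5) (nat_lit 34) (nat_lit 5) (nat_lit 35) (nat_lit 4) (nat_lit 372) (nat_lit 313) (nat_lit 215)) (XT.nd (nat_lit 78) (nat_lit 152) (nat_lit 0) (XT.lf (nat_lit 0) (nat_lit 11543835085) (nat_lit 152) (nat_lit 11826621062) (nat_lit 76) (nat_lit 27588831843) (nat_lit 32) (nat_lit 5) (nat_lit 34) (nat_lit 5) (nat_lit 33) (nat_lit 5) (nat_lit 373) (nat_lit 313) (nat_lit 214)) (XT.lf (nat_lit 0) (nat_lit 20851046115) (nat_lit 152) (nat_lit 5571379345) (nat_lit 228) (nat_lit 26525357420) (nat_lit 30) (nat_lit 5) (nat_lit 32) (nat_lit 5) (nat_lit 33) (nat_lit 5) (nat_lit 374) (nat_lit 313) (nat_lit 213)))) (XT.nd (nat_lit 78) (nat_lit 228) (nat_lit 0) (XT.lf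 (nat_lit 0) (nat_lit 230132782) (nat_lit 76) (nat_lit 42052303030) (nat_lit 152) (nat_lit 12746145535) (nat_lit 29) (nat_lit 5) (nat_lit 30) (nat_lit 5) (nat_lit 31) (nat_lit 4) (nat_lit 375) (nat_lit 313) (nat_lit 212)) (XT.nd (nat_lit 78) (nat_lit 152) (nat_lit 0) (XT.lf (nat_lit 0) (nat_lit 2064858685) (nat_lit 152) (nat_lit 22459800033) (nat_lit 76) (nat_lit 32676974665) (nat_lit 28) (nat_lit 5) (nat_lit 30) (nat_lit 5) (nat_lit 29) (nat_lit 5) (nat_lit 376) (nat_lit 313) (nat_lit 211)) (XT.lf (nat_lit 0) (nat_lit 11569748060) (nat_lit 152) (nat_lit 5883885431) (nat_lit 228) (nat_lit 42022896763) (nat_lit 26) (nat_lit 5) (nat_lit 28) (nat_lit 5) (nat_lit 29) (nat_lit 5) (nat_lit 377) (nat_lit 313) (nat_lit 210))))))) (XT.nd (nat_lit 858) (nat_lit 152) (nat_lit 0) (XT.nd (nat_lit 390) (nat_lit 304) (nat_lit 0) (XT.nd (nat_lit 156) (nat_lit 228) (nat_lit 0) (XT.nd (nat_lit 78) (nat_lit 76)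 (nat_lit 0) (XT.lf (nat_lit 0) (nat_lit 33964389093) (nat_lit 228) (nat_lit 14244760426) (nat_lit 76) (nat_lit 13645449162) (nat_lit 26) (nat_lit 5) (nat_lit 29) (nat_lit 5) (nat_lit 27) (nat_lit 4) (nat_lit 378) (nat_lit 313) (nat_lit 209)) (XT.lf (nat_lit 0) (nat_lit 21437617790) (nat_lit 76) (nat_lit 30116583423) (nat_lit 152) (nat_lit 12789766589) (nat_lit 25) (nat_lit 5) (nat_lit 26) (nat_lit 5) (nat_lit 27) (nat_lit 4) (nat_lit 379) (nat_lit 313) (nat_lit 208))) (XT.nd (nat_lit 78) (nat_lit 152) (nat_lit 0) (XT.lf (nat_lit 0) (nat_lit 3142273486) (nat_lit 152) (nat_lit 7803835051) (nat_lit 76) (nat_lit 56006723448) (nat_lit 24) (nat_lit 5) (nat_lit 26) (nat_lit 5) (nat_lit 25) (nat_lit 5) (nat_lit 380) (nat_lit 313) (nat_lit 207)) (XT.nd (nat_lit 78) (nat_lit 0) (nat_lit 0) (XT.lf (nat_lit 0) (nat_lit 19973372073) (nat_lit 228) (nat_lit 40292680993) (nat_lit 76) (nat_lit 9411280810) (nat_lit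 22) (nat_lit 5) (nat_lit 25) (nat_lit 5) (nat_lit 23) (nat_lit 4) (nat_lit 381) (nat_lit 313) (nat_lit 206)) (XT.lf (nat_lit 0) (nat_lit 37826756905) (nat_lit 228) (nat_lit 4071226720) (nat_lit 76) (nat_lit 30634657674) (nat_lit 22) (nat_lit 5) (nat_lit 25) (nat_lit 5) (nat_lit 23) (nat_lit 4) (nat_lit 382) (nat_lit 313) (nat_lit 205))))) (XT.nd (nat_lit 234) (nat_lit 76) (nat_lit 0) (XT.nd (nat_lit 78) (nat_lit 152) (nat_lit 0) (XT.lf (nat_lit 0) (nat_lit 34617827169) (nat_lit 76) (nat_lit 22277390219) (nat_lit 152) (nat_lit 18625826776) (nat_lit 21) (nat_lit 5) (nat_lit 22) (nat_lit 5) (nat_lit 23) (nat_lit 4) (nat_lit 383) (nat_lit 313) (nat_lit 204)) (XT.nd (nat_lit 78) (nat_lit 152) (nat_lit 0) (XT.lf (nat_lit 0) (nat_lit 75307963216) (nat_lit 76) (nat_lit 1641002116) (nat_lit 152) (nat_lit 1708948064) (nat_lit 21) (nat_lit 5) (nat_lit 22) (nat_lit 5) (nat_lit 23) (nat_lit 4) (nat_lit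 384) (nat_lit 313) (nat_lit 203)) (XT.lf (nat_lit 0) (nat_lit 16280341423) (nat_lit 152) (nat_lit 45510620740) (nat_lit 76) (nat_lit 20139841342) (nat_lit 19) (nat_lit 5) (nat_lit 21) (nat_lit 5) (nat_lit 20) (nat_lit 4) (nat_lit 385) (nat_lit 313) (nat_lit 202)))) (XT.nd (nat_lit 78) (nat_lit 76) (nat_lit 0) (XT.lf (nat_lit 0) (nat_lit 35176024400) (nat_lit 152) (nat_lit 7169091498) (nat_lit 76) (nat_lit 43020448333) (nat_lit 19) (nat_lit 5) (nat_lit 21) (nat_lit 5) (nat_lit 20) (nat_lit 4) (nat_lit 386) (nat_lit 313) (nat_lit 201)) (XT.nd (nat_lit 78) (nat_lit 0) (nat_lit 0) (XT.lf (nat_lit 0) (nat_lit 33731099845) (nat_lit 76) (nat_lit 21600640300) (nat_lit 152) (nat_lit 33630867197) (nat_lit 18) (nat_lit 5) (nat_lit 19) (nat_lit 5) (nat_lit 20) (nat_lit 4) (nat_lit 387) (nat_lit 313) (nat_lit 200)) (XT.lf (nat_lit 0) (nat_lit 76562718590) (nat_lit 152) (nat_lit 15929990971) (nat_lit 0)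 (nat_lit 244770461) (nat_lit 18) (nat_lit 5) (nat_lit 20) (nat_lit 4) (nat_lit 18) (nat_lit 4) (nat_lit 388) (nat_lit 313) (nat_lit 199)))))) (XT.nd (nat_lit 41340) (nat_lit 0) (nat_lit 16568) (XT.nd (nat_lit 41106) (nat_lit 0) (nat_lit 17480) (XT.nd (nat_lit 78) (nat_lit 0) (nat_lit 0) (XT.lf (nat_lit 0) (nat_lit 2572378736) (nat_lit 152) (nat_lit 71110031241) (nat_lit 76) (nat_lit 23004258810) (nat_lit 16) (nat_lit 5) (nat_lit 18) (nat_lit 5) (nat_lit 17) (nat_lit 4) (nat_lit 389) (nat_lit 313) (nat_lit 198)) (XT.nd (nat_lit 40950) (nat_lit 0) (nat_lit 17480) (XT.lf (nat_lit 0) (nat_lit 22082872054) (nat_lit 152) (nat_lit 31517074520) (nat_lit 76) (nat_lit 47223752100) (nat_lit 16) (nat_lit 5) (nat_lit 18) (nat_lit 5) (nat_lit 17) (nat_lit 4) (nat_lit 390) (nat_lit 313) (nat_lit 197)) (XT.lf (nat_lit 0) (nat_lit 506135170) (nat_lit 0) (nat_lit 506135170) (nat_lit 988) (nat_lit 3360481667)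 (nat_lit 246) (nat_lit 5) (nat_lit 246) (nat_lit 3) (nat_lit 259) (nat_lit 3) (nat_lit 314) (nat_lit 314) (nat_lit 272)))) (XT.nd (nat_lit 78) (nat_lit 0) (nat_lit 76) (XT.lf (nat_lit 0) (nat_lit 3653538684) (nat_lit 988) (nat_lit 969295278) (nat_lit 1064) (nat_lit 4292449417) (nat_lit 246) (nat_lit 5) (nat_lit 259) (nat_lit 3) (nat_lit 260) (nat_lit 5) (nat_lit 315) (nat_lit 314) (nat_lit 271)) (XT.nd (nat_lit 78) (nat_lit 0) (nat_lit 0) (XT.lf (nat_lit 0) (nat_lit 5344060740) (nat_lit 988) (nat_lit 2911974354) (nat_lit 1064) (nat_lit 838210842) (nat_lit 247) (nat_lit 5) (nat_lit 260) (nat_lit 5) (nat_lit 261) (nat_lit 5) (nat_lit 316) (nat_lit 314) (nat_lit 270)) (XT.lf (nat_lit 76) (nat_lit 4414711779) (nat_lit 0) (nat_lit 2710277646) (nat_lit 1064) (nat_lit 2157082634) (nat_lit 248) (nat_lit 5) (nat_lit 247) (nat_lit 5) (nat_lit 261) (nat_lit 5) (nat_lit 317) (nat_lit 314) (nat_lit 269)))))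 (XT.nd (nat_lit 234) (nat_lit 0) (nat_lit 152) (XT.nd (nat_lit 78) (nat_lit 1064) (nat_lit 0) (XT.lf (nat_lit 76) (nat_lit 2655750015) (nat_lit 0) (nat_lit 6335929339) (nat_lit 1064) (nat_lit 487796171) (nat_lit 249) (nat_lit 5) (nat_lit 248) (nat_lit 5) (nat_lit 262) (nat_lit 5) (nat_lit 318) (nat_lit 314) (nat_lit 268)) (XT.nd (nat_lit 78) (nat_lit 0) (nat_lit 76) (XT.lf (nat_lit 76) (nat_lit 892652558) (nat_lit 0) (nat_lit 347936009) (nat_lit 1140) (nat_lit 8445867167) (nat_lit 235) (nat_lit 5) (nat_lit 234) (nat_lit 5) (nat_lit 249) (nat_lit 5) (nat_lit 319) (nat_lit 314) (nat_lit 267)) (XT.lf (nat_lit 0) (nat_lit 3091061529) (nat_lit 1064) (nat_lit 884396890) (nat_lit 1140) (nat_lit 5926885960) (nat_lit 235) (nat_lit 5) (nat_lit 249) (nat_lit 5) (nat_lit 250) (nat_lit 5) (nat_lit 320) (nat_lit 314) (nat_lit 266)))) (XT.nd (nat_lit 78) (nat_lit 0) (nat_lit 0) (XT.lf (nat_lit 0) (nat_lit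 5055116408) (nat_lit 1064) (nat_lit 2644223518) (nat_lit 1140) (nat_lit 2429129151) (nat_lit 236) (nat_lit 5) (nat_lit 250) (nat_lit 5) (nat_lit 251) (nat_lit 5) (nat_lit 321) (nat_lit 314) (nat_lit 265)) (XT.nd (nat_lit 78) (nat_lit 0) (nat_lit 76) (XT.lf (nat_lit 76) (nat_lit 5944266705) (nat_lit 0) (nat_lit 1204556184) (nat_lit 1140) (nat_lit 3216203529) (nat_lit 237) (nat_lit 5) (nat_lit 236) (nat_lit 5) (nat_lit 251) (nat_lit 5) (nat_lit 322) (nat_lit 314) (nat_lit 264)) (XT.lf (nat_lit 76) (nat_lit 4379572840) (nat_lit 0) (nat_lit 5019418120) (nat_lit 1140) (nat_lit 1212933926) (nat_lit 238) (nat_lit 5) (nat_lit 237) (nat_lit 5) (nat_lit 252) (nat_lit 5) (nat_lit 323) (nat_lit 314) (nat_lit 263))))))))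
noncomputable def xc75 : XT := (XT.nd (nat_lit 1794) (nat_lit 4256) (nat_lit 0) (XT.nd (nat_lit 858) (nat_lit 4408) (nat_lit 0) (XT.nd (nat_lit 390) (nat_lit 2736) (nat_lit 0) (XT.nd (nat_lit 156) (nat_lit 1444) (nat_lit 0) (XT.nd (nat_lit 78) (nat_lit 1140) (nat_lit 0) (XT.lf (nat_lit 0) (nat_lit 907271687) (nat_lit 1140) (nat_lit 8069025688) (nat_lit 76) (nat_lit 1893651152) (nat_lit 223) (nat_lit 5) (nat_lit 238) (nat_lit 5) (nat_lit 224) (nat_lit 5) (nat_lit 324) (nat_lit 314) (nat_lit 262)) (XT.lf (nat_lit 0) (nat_lit 1179749746) (nat_lit 1140) (nat_lit 1988947199) (nat_lit 1216) (nat_lit 7970065888) (nat_lit 208) (nat_lit 5) (nat_lit 223) (nat_lit 5) (nat_lit 224) (nat_lit 5) (nat_lit 325) (nat_lit 314) (nat_lit 261))) (XT.nd (nat_lit 78) (nat_lit 1444) (nat_lit 0) (XT.lf (nat_lit 0) (nat_lit 5614484040) (nat_lit 1216) (nat_lit 468486565) (nat_lit 76) (nat_lit 5335964346) (nat_lit 208)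 (nat_lit 5) (nat_lit 224) (nat_lit 5) (nat_lit 209) (nat_lit 5) (nat_lit 326) (nat_lit 314) (nat_lit 260)) (XT.nd (nat_lit 78) (nat_lit 608) (nat_lit 0) (XT.lf (nat_lit 0) (nat_lit 8247274210) (nat_lit 912) (nat_lit 2115424886) (nat_lit 76) (nat_lit 1348528319) (nat_lit 197) (nat_lit 5) (nat_lit 209) (nat_lit 5) (nat_lit 198) (nat_lit 5) (nat_lit 327) (nat_lit 314) (nat_lit 259)) (XT.lf (nat_lit 0) (nat_lit 8198767342) (nat_lit 608) (nat_lit 2899507858) (nat_lit 684) (nat_lit 917312788) (nat_lit 189) (nat_lit 5) (nat_lit 197) (nat_lit 5) (nat_lit 198) (nat_lit 5) (nat_lit 328) (nat_lit 314) (nat_lit 258))))) (XT.nd (nat_lit 234) (nat_lit 1064) (nat_lit 0) (XT.nd (nat_lit 78) (nat_lit 1064) (nat_lit 0) (XT.lf (nat_lit 0) (nat_lit 1801406126) (nat_lit 608) (nat_lit 5582846342) (nat_lit 76) (nat_lit 4948083589) (nat_lit 181) (nat_lit 5) (nat_lit 189) (nat_lit 5) (nat_lit 182) (nat_lit 5) (nat_lit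 329) (nat_lit 314) (nat_lit 257)) (XT.nd (nat_lit 78) (nat_lit 532) (nat_lit 0) (XT.lf (nat_lit 0) (nat_lit 4707692487) (nat_lit 608) (nat_lit 7398770808) (nat_lit 76) (nat_lit 556112255) (nat_lit 174) (nat_lit 5) (nat_lit 182) (nat_lit 5) (nat_lit 175) (nat_lit 5) (nat_lit 330) (nat_lit 314) (nat_lit 256)) (XT.lf (nat_lit 0) (nat_lit 3704363408) (nat_lit 532) (nat_lit 4170571287) (nat_lit 608) (nat_lit 5130965533) (nat_lit 167) (nat_lit 5) (nat_lit 174) (nat_lit 5) (nat_lit 175) (nat_lit 5) (nat_lit 331) (nat_lit 314) (nat_lit 255)))) (XT.nd (nat_lit 78) (nat_lit 532) (nat_lit 0) (XT.lf (nat_lit 0) (nat_lit 2098713631) (nat_lit 532) (nat_lit 9188355307) (nat_lit 608) (nat_lit 2076766739) (nat_lit 160) (nat_lit 5) (nat_lit 167) (nat_lit 5) (nat_lit 168) (nat_lit 5) (nat_lit 332) (nat_lit 314) (nat_lit 254)) (XT.nd (nat_lit 78) (nat_lit 0) (nat_lit 0) (XT.lf (nat_lit 0) (nat_lit 426892140) (nat_lit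 456) (nat_lit 774901401) (nat_lit 532) (nat_lit 12534774697) (nat_lit 153) (nat_lit 5) (nat_lit 159) (nat_lit 5) (nat_lit 160) (nat_lit 5) (nat_lit 333) (nat_lit 314) (nat_lit 253)) (XT.lf (nat_lit 0) (nat_lit 4748908309) (nat_lit 532) (nat_lit 1339067073) (nat_lit 76) (nat_lit 8034953473) (nat_lit 153) (nat_lit 5) (nat_lit 160) (nat_lit 5) (nat_lit 154) (nat_lit 5) (nat_lit 334) (nat_lit 314) (nat_lit 252)))))) (XT.nd (nat_lit 468) (nat_lit 1824) (nat_lit 0) (XT.nd (nat_lit 234) (nat_lit 1140) (nat_lit 0) (XT.nd (nat_lit 78) (nat_lit 988) (nat_lit 0) (XT.lf (nat_lit 0) (nat_lit 8572944065) (nat_lit 532) (nat_lit 3160650423) (nat_lit 76) (nat_lit 2792059969) (nat_lit 147) (nat_lit 5) (nat_lit 154) (nat_lit 5) (nat_lit 148) (nat_lit 5) (nat_lit 335) (nat_lit 314) (nat_lit 251)) (XT.nd (nat_lit 78) (nat_lit 532) (nat_lit 0) (XT.lf (nat_lit 0) (nat_lit 9863877031) (nat_lit 456) (nat_lit 2850951484)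 (nat_lit 532) (nat_lit 2229920715) (nat_lit 141) (nat_lit 5) (nat_lit 147) (nat_lit 5) (nat_lit 148) (nat_lit 5) (nat_lit 336) (nat_lit 314) (nat_lit 250)) (XT.lf (nat_lit 0) (nat_lit 1780110710) (nat_lit 532) (nat_lit 7128571753) (nat_lit 76) (nat_lit 6471645978) (nat_lit 134) (nat_lit 5) (nat_lit 141) (nat_lit 5) (nat_lit 135) (nat_lit 5) (nat_lit 337) (nat_lit 314) (nat_lit 249)))) (XT.nd (nat_lit 78) (nat_lit 760) (nat_lit 0) (XT.lf (nat_lit 0) (nat_lit 6053347579) (nat_lit 456) (nat_lit 9292003673) (nat_lit 76) (nat_lit 488436787) (nat_lit 129) (nat_lit 5) (nat_lit 135) (nat_lit 5) (nat_lit 130) (nat_lit 5) (nat_lit 338) (nat_lit 314) (nat_lit 248)) (XT.nd (nat_lit 78) (nat_lit 380) (nat_lit 0) (XT.lf (nat_lit 0) (nat_lit 4687750558) (nat_lit 380) (nat_lit 6022049469) (nat_lit 456) (nat_lit 5595061063) (nat_lit 124) (nat_lit 5) (nat_lit 129) (nat_lit 5) (nat_lit 130) (nat_lit 5) (nat_lit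 339) (nat_lit 314) (nat_lit 247)) (XT.lf (nat_lit 0) (nat_lit 2730549073) (nat_lit 380) (nat_lit 12989369859) (nat_lit 456) (nat_lit 1075969346) (nat_lit 119) (nat_lit 5) (nat_lit 124) (nat_lit 5) (nat_lit 125) (nat_lit 5) (nat_lit 340) (nat_lit 314) (nat_lit 246))))) (XT.nd (nat_lit 234) (nat_lit 1064) (nat_lit 0) (XT.nd (nat_lit 78) (nat_lit 304) (nat_lit 0) (XT.lf (nat_lit 0) (nat_lit 595904036) (nat_lit 380) (nat_lit 3151607072) (nat_lit 456) (nat_lit 13558420553) (nat_lit 113) (nat_lit 5) (nat_lit 118) (nat_lit 5) (nat_lit 119) (nat_lit 5) (nat_lit 341) (nat_lit 314) (nat_lit 245)) (XT.nd (nat_lit 78) (nat_lit 304) (nat_lit 0) (XT.lf (nat_lit 0) (nat_lit 8969297150) (nat_lit 456) (nat_lit 1682843264) (nat_lit 76) (nat_lit 7183658395) (nat_lit 113) (nat_lit 5) (nat_lit 119) (nat_lit 5) (nat_lit 114) (nat_lit 5) (nat_lit 342) (nat_lit 314) (nat_lit 244)) (XT.lf (nat_lit 0) (nat_lit 14296630972)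 (nat_lit 304) (nat_lit 290449732) (nat_lit 380) (nat_lit 3801052998) (nat_lit 109) (nat_lit 5) (nat_lit 113) (nat_lit 5) (nat_lit 114) (nat_lit 5) (nat_lit 343) (nat_lit 314) (nat_lit 243)))) (XT.nd (nat_lit 78) (nat_lit 608) (nat_lit 0) (XT.lf (nat_lit 0) (nat_lit 1693692098) (nat_lit 456) (nat_lit 6744976095) (nat_lit 76) (nat_lit 10522830314) (nat_lit 103) (nat_lit 5) (nat_lit 109) (nat_lit 5) (nat_lit 104) (nat_lit 5) (nat_lit 344) (nat_lit 314) (nat_lit 242)) (XT.nd (nat_lit 78) (nat_lit 304) (nat_lit 0) (XT.lf (nat_lit 0) (nat_lit 7517992340) (nat_lit 380) (nat_lit 9612070034) (nat_lit 76) (nat_lit 2428356319) (nat_lit 99) (nat_lit 5) (nat_lit 104) (nat_lit 5) (nat_lit 100) (nat_lit 5) (nat_lit 345) (nat_lit 314) (nat_lit 241)) (XT.lf (nat_lit 0) (nat_lit 7444795126) (nat_lit 304) (nat_lit 6384150517) (nat_lit 380) (nat_lit 6350394250) (nat_lit 95) (nat_lit 5) (nat_lit 99) (nat_lit 5)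 (nat_lit 100) (nat_lit 5) (nat_lit 346) (nat_lit 314) (nat_lit 240))))))) (XT.nd (nat_lit 858) (nat_lit 1748) (nat_lit 0) (XT.nd (nat_lit 390) (nat_lit 1216) (nat_lit 0) (XT.nd (nat_lit 156) (nat_lit 608) (nat_lit 0) (XT.nd (nat_lit 78) (nat_lit 380) (nat_lit 0) (XT.lf (nat_lit 0) (nat_lit 4726969760) (nat_lit 304) (nat_lit 15890468149) (nat_lit 380) (nat_lit 209026786) (nat_lit 91) (nat_lit 5) (nat_lit 95) (nat_lit 5) (nat_lit 96) (nat_lit 5) (nat_lit 347) (nat_lit 314) (nat_lit 239)) (XT.lf (nat_lit 0) (nat_lit 1689348179) (nat_lit 304) (nat_lit 4611635126) (nat_lit 380) (nat_lit 15197679271) (nat_lit 86) (nat_lit 5) (nat_lit 90) (nat_lit 5) (nat_lit 91) (nat_lit 5) (nat_lit 348) (nat_lit 314) (nat_lit 238))) (XT.nd (nat_lit 78) (nat_lit 608) (nat_lit 0) (XT.lf (nat_lit 0) (nat_lit 13340233784) (nat_lit 380) (nat_lit 1611758170) (nat_lit 76) (nat_lit 7246189641) (nat_lit 86) (nat_lit 5) (nat_lit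 91) (nat_lit 5) (nat_lit 87) (nat_lit 5) (nat_lit 349) (nat_lit 314) (nat_lit 237)) (XT.nd (nat_lit 78) (nat_lit 380) (nat_lit 0) (XT.lf (nat_lit 0) (nat_lit 17754571365) (nat_lit 228) (nat_lit 3166605351) (nat_lit 304) (nat_lit 2005822445) (nat_lit 83) (nat_lit 5) (nat_lit 86) (nat_lit 5) (nat_lit 87) (nat_lit 5) (nat_lit 350) (nat_lit 314) (nat_lit 236)) (XT.lf (nat_lit 0) (nat_lit 5308606030) (nat_lit 380) (nat_lit 9151176170) (nat_lit 76) (nat_lit 9224363902) (nat_lit 78) (nat_lit 5) (nat_lit 83) (nat_lit 5) (nat_lit 79) (nat_lit 5) (nat_lit 351) (nat_lit 314) (nat_lit 235))))) (XT.nd (nat_lit 234) (nat_lit 456) (nat_lit 0) (XT.nd (nat_lit 78) (nat_lit 532) (nat_lit 0) (XT.lf (nat_lit 0) (nat_lit 10975724259) (nat_lit 228) (nat_lit 2137111358) (nat_lit 304) (nat_lit 11360764852) (nat_lit 75) (nat_lit 5) (nat_lit 78) (nat_lit 5) (nat_lit 79) (nat_lit 5) (nat_lit 352) (nat_lit 314) (nat_lit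 234)) (XT.nd (nat_lit 78) (nat_lit 304) (nat_lit 0) (XT.lf (nat_lit 0) (nat_lit 6992805399) (nat_lit 228) (nat_lit 14555335260) (nat_lit 304) (nat_lit 3747173131) (nat_lit 72) (nat_lit 5) (nat_lit 75) (nat_lit 5) (nat_lit 76) (nat_lit 5) (nat_lit 353) (nat_lit 314) (nat_lit 233)) (XT.lf (nat_lit 0) (nat_lit 2584034913) (nat_lit 228) (nat_lit 1742181988) (nat_lit 304) (nat_lit 21825822497) (nat_lit 68) (nat_lit 5) (nat_lit 71) (nat_lit 5) (nat_lit 72) (nat_lit 5) (nat_lit 354) (nat_lit 314) (nat_lit 232)))) (XT.nd (nat_lit 78) (nat_lit 456) (nat_lit 0) (XT.lf (nat_lit 0) (nat_lit 13005297457) (nat_lit 304) (nat_lit 2339086160) (nat_lit 76) (nat_lit 11697729801) (nat_lit 68) (nat_lit 5) (nat_lit 72) (nat_lit 5) (nat_lit 69) (nat_lit 5) (nat_lit 355) (nat_lit 314) (nat_lit 231)) (XT.nd (nat_lit 78) (nat_lit 228) (nat_lit 0) (XT.lf (nat_lit 0) (nat_lit 20293264499) (nat_lit 228) (nat_lit 2014813519)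 (nat_lit 304) (nat_lit 5662930937) (nat_lit 65) (nat_lit 5) (nat_lit 68) (nat_lit 5) (nat_lit 69) (nat_lit 5) (nat_lit 356) (nat_lit 314) (nat_lit 230)) (XT.lf (nat_lit 0) (nat_lit 3335536347) (nat_lit 228) (nat_lit 13663269140) (nat_lit 76) (nat_lit 11938641922) (nat_lit 62) (nat_lit 5) (nat_lit 65) (nat_lit 5) (nat_lit 63) (nat_lit 5) (nat_lit 357) (nat_lit 314) (nat_lit 229)))))) (XT.nd (nat_lit 468) (nat_lit 760) (nat_lit 0) (XT.nd (nat_lit 234) (nat_lit 532) (nat_lit 0) (XT.nd (nat_lit 78) (nat_lit 228) (nat_lit 0) (XT.lf (nat_lit 0) (nat_lit 9659172126) (nat_lit 228) (nat_lit 3179946921) (nat_lit 304) (nat_lit 17106246354) (nat_lit 59) (nat_lit 5) (nat_lit 62) (nat_lit 5) (nat_lit 63) (nat_lit 5) (nat_lit 358) (nat_lit 314) (nat_lit 228)) (XT.nd (nat_lit 78) (nat_lit 76) (nat_lit 0) (XT.lf (nat_lit 0) (nat_lit 3354106101) (nat_lit 152) (nat_lit 19725767222) (nat_lit 228) (nat_lit 7915954745)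 (nat_lit 57) (nat_lit 5) (nat_lit 59) (nat_lit 5) (nat_lit 60) (nat_lit 5) (nat_lit 359) (nat_lit 314) (nat_lit 227)) (XT.lf (nat_lit 0) (nat_lit 1922280351) (nat_lit 228) (nat_lit 3577299339) (nat_lit 76) (nat_lit 26592074201) (nat_lit 56) (nat_lit 5) (nat_lit 59) (nat_lit 5) (nat_lit 57) (nat_lit 5) (nat_lit 360) (nat_lit 314) (nat_lit 226)))) (XT.nd (nat_lit 78) (nat_lit 304) (nat_lit 0) (XT.lf (nat_lit 0) (nat_lit 12375524594) (nat_lit 304) (nat_lit 11320355164) (nat_lit 76) (nat_lit 9535443156) (nat_lit 53) (nat_lit 5) (nat_lit 57) (nat_lit 5) (nat_lit 54) (nat_lit 5) (nat_lit 361) (nat_lit 314) (nat_lit 225)) (XT.nd (nat_lit 78) (nat_lit 152) (nat_lit 0) (XT.lf (nat_lit 0) (nat_lit 14516779440) (nat_lit 152) (nat_lit 9047666207) (nat_lit 228) (nat_lit 10857146475) (nat_lit 51) (nat_lit 5) (nat_lit 53) (nat_lit 5) (nat_lit 54) (nat_lit 5) (nat_lit 362) (nat_lit 314) (nat_lit 224)) (XT.lf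 (nat_lit 0) (nat_lit 6242562119) (nat_lit 152) (nat_lit 29290087255) (nat_lit 228) (nat_lit 132137147) (nat_lit 49) (nat_lit 5) (nat_lit 51) (nat_lit 5) (nat_lit 52) (nat_lit 5) (nat_lit 363) (nat_lit 314) (nat_lit 223))))) (XT.nd (nat_lit 234) (nat_lit 380) (nat_lit 0) (XT.nd (nat_lit 78) (nat_lit 304) (nat_lit 0) (XT.lf (nat_lit 0) (nat_lit 11191881415) (nat_lit 228) (nat_lit 3082204598) (nat_lit 76) (nat_lit 22684453701) (nat_lit 48) (nat_lit 5) (nat_lit 51) (nat_lit 5) (nat_lit 49) (nat_lit 5) (nat_lit 364) (nat_lit 314) (nat_lit 222)) (XT.nd (nat_lit 78) (nat_lit 152) (nat_lit 0) (XT.lf (nat_lit 0) (nat_lit 23319195528) (nat_lit 228) (nat_lit 13294582696) (nat_lit 76) (nat_lit 1695974287) (nat_lit 46) (nat_lit 5) (nat_lit 49) (nat_lit 5) (nat_lit 47) (nat_lit 5) (nat_lit 365) (nat_lit 314) (nat_lit 221)) (XT.lf (nat_lit 0) (nat_lit 14972830811) (nat_lit 152) (nat_lit 21383075751) (nat_lit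 228) (nat_lit 3363534175) (nat_lit 44) (nat_lit 5) (nat_lit 46) (nat_lit 5) (nat_lit 47) (nat_lit 5) (nat_lit 366) (nat_lit 314) (nat_lit 220)))) (XT.nd (nat_lit 78) (nat_lit 152) (nat_lit 0) (XT.lf (nat_lit 0) (nat_lit 3692905521) (nat_lit 152) (nat_lit 5136406640) (nat_lit 228) (nat_lit 32363043836) (nat_lit 41) (nat_lit 5) (nat_lit 43) (nat_lit 5) (nat_lit 44) (nat_lit 5) (nat_lit 367) (nat_lit 314) (nat_lit 219)) (XT.nd (nat_lit 78) (nat_lit 152) (nat_lit 0) (XT.lf (nat_lit 0) (nat_lit 21918527436) (nat_lit 228) (nat_lit 8839082077) (nat_lit 76) (nat_lit 11969624792) (nat_lit 41) (nat_lit 5) (nat_lit 44) (nat_lit 5) (nat_lit 42) (nat_lit 5) (nat_lit 368) (nat_lit 314) (nat_lit 218)) (XT.lf (nat_lit 0) (nat_lit 21596985269) (nat_lit 152) (nat_lit 14309206539) (nat_lit 228) (nat_lit 8425349874) (nat_lit 39) (nat_lit 5) (nat_lit 41) (nat_lit 5) (nat_lit 42) (nat_lit 5) (nat_lit 369) (nat_lit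 314) (nat_lit 217))))))))
noncomputable def xc76 : XT := (XT.nd (nat_lit 42666) (nat_lit 0) (nat_lit 8968) (XT.nd (nat_lit 858) (nat_lit 684) (nat_lit 0) (XT.nd (nat_lit 390) (nat_lit 532) (nat_lit 0) (XT.nd (nat_lit 156) (nat_lit 304) (nat_lit 0) (XT.nd (nat_lit 78) (nat_lit 0) (nat_lit 0) (XT.lf (nat_lit 0) (nat_lit 4670119708) (nat_lit 228) (nat_lit 38233408731) (nat_lit 76) (nat_lit 3105752613) (nat_lit 36) (nat_lit 5) (nat_lit 39) (nat_lit 5) (nat_lit 37) (nat_lit 5) (nat_lit 370) (nat_lit 314) (nat_lit 216)) (XT.lf (nat_lit 0) (nat_lit 18613750321) (nat_lit 228) (nat_lit 7734786303) (nat_lit 76) (nat_lit 21408843317) (nat_lit 36) (nat_lit 5) (nat_lit 39) (nat_lit 5) (nat_lit 37) (nat_lit 5) (nat_lit 371) (nat_lit 314) (nat_lit 215))) (XT.nd (nat_lit 78) (nat_lit 152) (nat_lit 0) (XT.lf (nat_lit 0) (nat_lit 24746882149) (nat_lit 152) (nat_lit 8731506562) (nat_lit 228) (nat_lit 16107784303)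 (nat_lit 34) (nat_lit 5) (nat_lit 36) (nat_lit 5) (nat_lit 37) (nat_lit 5) (nat_lit 372) (nat_lit 314) (nat_lit 214)) (XT.nd (nat_lit 78) (nat_lit 76) (nat_lit 0) (XT.lf (nat_lit 0) (nat_lit 7538294540) (nat_lit 76) (nat_lit 41781000154) (nat_lit 152) (nat_lit 2180123815) (nat_lit 33) (nat_lit 5) (nat_lit 34) (nat_lit 5) (nat_lit 35) (nat_lit 4) (nat_lit 373) (nat_lit 314) (nat_lit 213)) (XT.lf (nat_lit 0) (nat_lit 12534025284) (nat_lit 152) (nat_lit 11681066442) (nat_lit 76) (nat_lit 29279661604) (nat_lit 32) (nat_lit 5) (nat_lit 34) (nat_lit 5) (nat_lit 33) (nat_lit 5) (nat_lit 374) (nat_lit 314) (nat_lit 212))))) (XT.nd (nat_lit 234) (nat_lit 228) (nat_lit 0) (XT.nd (nat_lit 78) (nat_lit 152) (nat_lit 0) (XT.lf (nat_lit 0) (nat_lit 22609361414) (nat_lit 152) (nat_lit 5534397523) (nat_lit 228) (nat_lit 27439302810) (nat_lit 30) (nat_lit 5) (nat_lit 32) (nat_lit 5) (nat_lit 33) (nat_lit 5)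 (nat_lit 375) (nat_lit 314) (nat_lit 211)) (XT.nd (nat_lit 78) (nat_lit 76) (nat_lit 0) (XT.lf (nat_lit 0) (nat_lit 945702031) (nat_lit 76) (nat_lit 43841666759) (nat_lit 152) (nat_lit 12980818327) (nat_lit 29) (nat_lit 5) (nat_lit 30) (nat_lit 5) (nat_lit 31) (nat_lit 4) (nat_lit 376) (nat_lit 314) (nat_lit 210)) (XT.lf (nat_lit 0) (nat_lit 2544080320) (nat_lit 152) (nat_lit 22904679998) (nat_lit 76) (nat_lit 34601583868) (nat_lit 28) (nat_lit 5) (nat_lit 30) (nat_lit 5) (nat_lit 29) (nat_lit 5) (nat_lit 377) (nat_lit 314) (nat_lit 209)))) (XT.nd (nat_lit 78) (nat_lit 76) (nat_lit 0) (XT.lf (nat_lit 0) (nat_lit 12806907612) (nat_lit 152) (nat_lit 5883814066) (nat_lit 228) (nat_lit 43748615746) (nat_lit 26) (nat_lit 5) (nat_lit 28) (nat_lit 5) (nat_lit 29) (nat_lit 5) (nat_lit 378) (nat_lit 314) (nat_lit 208)) (XT.nd (nat_lit 78) (nat_lit 76) (nat_lit 0) (XT.lf (nat_lit 0) (nat_lit 36012356332)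 (nat_lit 228) (nat_lit 14321890990) (nat_lit 76) (nat_lit 14602505862) (nat_lit 26) (nat_lit 5) (nat_lit 29) (nat_lit 5) (nat_lit 27) (nat_lit 4) (nat_lit 379) (nat_lit 314) (nat_lit 207)) (XT.lf (nat_lit 0) (nat_lit 23126400908) (nat_lit 76) (nat_lit 31344533535) (nat_lit 152) (nat_lit 13079982008) (nat_lit 25) (nat_lit 5) (nat_lit 26) (nat_lit 5) (nat_lit 27) (nat_lit 4) (nat_lit 380) (nat_lit 314) (nat_lit 206)))))) (XT.nd (nat_lit 390) (nat_lit 380) (nat_lit 0) (XT.nd (nat_lit 156) (nat_lit 76) (nat_lit 0) (XT.nd (nat_lit 78) (nat_lit 152) (nat_lit 0) (XT.lf (nat_lit 0) (nat_lit 3625537005) (nat_lit 152) (nat_lit 7599936761) (nat_lit 76) (nat_lit 59065142234) (nat_lit 24) (nat_lit 5) (nat_lit 26) (nat_lit 5) (nat_lit 25) (nat_lit 5) (nat_lit 381) (nat_lit 314) (nat_lit 205)) (XT.lf (nat_lit 0) (nat_lit 21290714514) (nat_lit 228) (nat_lit 41723207764) (nat_lit 76) (nat_lit 10137648468) (nat_lit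 22) (nat_lit 5) (nat_lit 25) (nat_lit 5) (nat_lit 23) (nat_lit 4) (nat_lit 382) (nat_lit 314) (nat_lit 204))) (XT.nd (nat_lit 78) (nat_lit 76) (nat_lit 0) (XT.lf (nat_lit 0) (nat_lit 40021593644) (nat_lit 228) (nat_lit 3718495410) (nat_lit 76) (nat_lit 32410013051) (nat_lit 22) (nat_lit 5) (nat_lit 25) (nat_lit 5) (nat_lit 23) (nat_lit 4) (nat_lit 383) (nat_lit 314) (nat_lit 203)) (XT.nd (nat_lit 78) (nat_lit 0) (nat_lit 0) (XT.lf (nat_lit 0) (nat_lit 36889065157) (nat_lit 76) (nat_lit 23145153809) (nat_lit 152) (nat_lit 19253987050) (nat_lit 21) (nat_lit 5) (nat_lit 22) (nat_lit 5) (nat_lit 23) (nat_lit 4) (nat_lit 384) (nat_lit 314) (nat_lit 202)) (XT.lf (nat_lit 0) (nat_lit 79587977214) (nat_lit 76) (nat_lit 1488665630) (nat_lit 152) (nat_lit 1505699214) (nat_lit 21) (nat_lit 5) (nat_lit 22) (nat_lit 5) (nat_lit 23) (nat_lit 4) (nat_lit 385) (nat_lit 314) (nat_lit 201))))) (XT.nd (nat_lit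 234) (nat_lit 152) (nat_lit 0) (XT.nd (nat_lit 78) (nat_lit 76) (nat_lit 0) (XT.lf (nat_lit 0) (nat_lit 17371020261) (nat_lit 152) (nat_lit 47274689770) (nat_lit 76) (nat_lit 21373278199) (nat_lit 19) (nat_lit 5) (nat_lit 21) (nat_lit 5) (nat_lit 20) (nat_lit 4) (nat_lit 386) (nat_lit 314) (nat_lit 200)) (XT.nd (nat_lit 78) (nat_lit 76) (nat_lit 0) (XT.lf (nat_lit 0) (nat_lit 37198313016) (nat_lit 152) (nat_lit 7040439400) (nat_lit 76) (nat_lit 45387132454) (nat_lit 19) (nat_lit 5) (nat_lit 21) (nat_lit 5) (nat_lit 20) (nat_lit 4) (nat_lit 387) (nat_lit 314) (nat_lit 199)) (XT.lf (nat_lit 0) (nat_lit 35890798695) (nat_lit 76) (nat_lit 22463016982) (nat_lit 152) (nat_lit 35049206946) (nat_lit 18) (nat_lit 5) (nat_lit 19) (nat_lit 5) (nat_lit 20) (nat_lit 4) (nat_lit 388) (nat_lit 314) (nat_lit 198)))) (XT.nd (nat_lit 78) (nat_lit 152) (nat_lit 0) (XT.lf (nat_lit 0) (nat_lit 80636169530) (nat_lit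 152) (nat_lit 16270522227) (nat_lit 0) (nat_lit 460254788) (nat_lit 18) (nat_lit 5) (nat_lit 20) (nat_lit 4) (nat_lit 18) (nat_lit 4) (nat_lit 389) (nat_lit 314) (nat_lit 197)) (XT.nd (nat_lit 41028) (nat_lit 0) (nat_lit 17480) (XT.lf (nat_lit 0) (nat_lit 2941288626) (nat_lit 152) (nat_lit 74217808080) (nat_lit 76) (nat_lit 24354652383) (nat_lit 16) (nat_lit 5) (nat_lit 18) (nat_lit 5) (nat_lit 17) (nat_lit 4) (nat_lit 390) (nat_lit 314) (nat_lit 196)) (XT.lf (nat_lit 0) (nat_lit 1287599765) (nat_lit 0) (nat_lit 1287599765) (nat_lit 988) (nat_lit 1969337429) (nat_lit 246) (nat_lit 5) (nat_lit 246) (nat_lit 3) (nat_lit 259) (nat_lit 3) (nat_lit 315) (nat_lit 315) (nat_lit 270))))))) (XT.nd (nat_lit 858) (nat_lit 5624) (nat_lit 0) (XT.nd (nat_lit 390) (nat_lit 1900) (nat_lit 0) (XT.nd (nat_lit 156) (nat_lit 988) (nat_lit 0) (XT.nd (nat_lit 78) (nat_lit 0) (nat_lit 0) (XT.lf (nat_lit 76) (nat_lit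 536089831) (nat_lit 0) (nat_lit 6172035243) (nat_lit 1064) (nat_lit 2563940092) (nat_lit 247) (nat_lit 5) (nat_lit 246) (nat_lit 5) (nat_lit 260) (nat_lit 5) (nat_lit 316) (nat_lit 315) (nat_lit 269)) (XT.lf (nat_lit 76) (nat_lit 7999420562) (nat_lit 0) (nat_lit 347869332) (nat_lit 1064) (nat_lit 1116896985) (nat_lit 247) (nat_lit 5) (nat_lit 246) (nat_lit 5) (nat_lit 260) (nat_lit 5) (nat_lit 317) (nat_lit 315) (nat_lit 268))) (XT.nd (nat_lit 78) (nat_lit 0) (nat_lit 76) (XT.lf (nat_lit 0) (nat_lit 425146006) (nat_lit 1064) (nat_lit 3483412862) (nat_lit 1140) (nat_lit 5756405569) (nat_lit 233) (nat_lit 5) (nat_lit 247) (nat_lit 5) (nat_lit 248) (nat_lit 5) (nat_lit 318) (nat_lit 315) (nat_lit 267)) (XT.nd (nat_lit 78) (nat_lit 0) (nat_lit 0) (XT.lf (nat_lit 0) (nat_lit 2023315053) (nat_lit 1064) (nat_lit 5512675864) (nat_lit 1140) (nat_lit 2339471547) (nat_lit 234) (nat_lit 5) (nat_lit 248)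 (nat_lit 5) (nat_lit 249) (nat_lit 5) (nat_lit 319) (nat_lit 315) (nat_lit 266)) (XT.lf (nat_lit 76) (nat_lit 2537377781) (nat_lit 0) (nat_lit 1185865512) (nat_lit 1140) (nat_lit 6372659947) (nat_lit 235) (nat_lit 5) (nat_lit 234) (nat_lit 5) (nat_lit 249) (nat_lit 5) (nat_lit 320) (nat_lit 315) (nat_lit 265))))) (XT.nd (nat_lit 234) (nat_lit 2052) (nat_lit 0) (XT.nd (nat_lit 78) (nat_lit 0) (nat_lit 76) (XT.lf (nat_lit 76) (nat_lit 687518598) (nat_lit 0) (nat_lit 4862550414) (nat_lit 1140) (nat_lit 4776109887) (nat_lit 236) (nat_lit 5) (nat_lit 235) (nat_lit 5) (nat_lit 250) (nat_lit 5) (nat_lit 321) (nat_lit 315) (nat_lit 264)) (XT.nd (nat_lit 78) (nat_lit 0) (nat_lit 0) (XT.lf (nat_lit 0) (nat_lit 7505045645) (nat_lit 1064) (nat_lit 1145292929) (nat_lit 1140) (nat_lit 1916592023) (nat_lit 236) (nat_lit 5) (nat_lit 250) (nat_lit 5) (nat_lit 251) (nat_lit 5) (nat_lit 322) (nat_lit 315) (nat_lit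 263)) (XT.lf (nat_lit 76) (nat_lit 7825865454) (nat_lit 0) (nat_lit 1788174773) (nat_lit 1140) (nat_lit 1204054959) (nat_lit 237) (nat_lit 5) (nat_lit 236) (nat_lit 5) (nat_lit 251) (nat_lit 5) (nat_lit 323) (nat_lit 315) (nat_lit 262)))) (XT.nd (nat_lit 78) (nat_lit 1064) (nat_lit 0) (XT.lf (nat_lit 0) (nat_lit 791135997) (nat_lit 1140) (nat_lit 4882157167) (nat_lit 1216) (nat_lit 5406596930) (nat_lit 222) (nat_lit 5) (nat_lit 237) (nat_lit 5) (nat_lit 238) (nat_lit 5) (nat_lit 324) (nat_lit 315) (nat_lit 261)) (XT.nd (nat_lit 78) (nat_lit 1140) (nat_lit 0) (XT.lf (nat_lit 0) (nat_lit 2907344894) (nat_lit 1140) (nat_lit 6806310470) (nat_lit 76) (nat_lit 1639432754) (nat_lit 223) (nat_lit 5) (nat_lit 238) (nat_lit 5) (nat_lit 224) (nat_lit 5) (nat_lit 325) (nat_lit 315) (nat_lit 260)) (XT.lf (nat_lit 0) (nat_lit 2857143407) (nat_lit 1140) (nat_lit 2347173707) (nat_lit 1216) (nat_lit 6433433495)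 (nat_lit 208) (nat_lit 5) (nat_lit 223) (nat_lit 5) (nat_lit 224) (nat_lit 5) (nat_lit 326) (nat_lit 315) (nat_lit 259)))))) (XT.nd (nat_lit 468) (nat_lit 2508) (nat_lit 0) (XT.nd (nat_lit 234) (nat_lit 1596) (nat_lit 0) (XT.nd (nat_lit 78) (nat_lit 684) (nat_lit 0) (XT.lf (nat_lit 0) (nat_lit 1129019469) (nat_lit 836) (nat_lit 6562468054) (nat_lit 912) (nat_lit 4242948839) (nat_lit 197) (nat_lit 5) (nat_lit 208) (nat_lit 5) (nat_lit 209) (nat_lit 5) (nat_lit 327) (nat_lit 315) (nat_lit 258)) (XT.nd (nat_lit 78) (nat_lit 684) (nat_lit 0) (XT.lf (nat_lit 0) (nat_lit 10373413278) (nat_lit 912) (nat_lit 613626432) (nat_lit 76) (nat_lit 1256852998) (nat_lit 197) (nat_lit 5) (nat_lit 209) (nat_lit 5) (nat_lit 198) (nat_lit 5) (nat_lit 328) (nat_lit 315) (nat_lit 257)) (XT.lf (nat_lit 0) (nat_lit 720486980) (nat_lit 684) (nat_lit 2402408724) (nat_lit 76) (nat_lit 9442432258) (nat_lit 188) (nat_lit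 5) (nat_lit 197) (nat_lit 5) (nat_lit 189) (nat_lit 5) (nat_lit 329) (nat_lit 315) (nat_lit 256)))) (XT.nd (nat_lit 78) (nat_lit 1064) (nat_lit 0) (XT.lf (nat_lit 0) (nat_lit 3491486120) (nat_lit 608) (nat_lit 4261939646) (nat_lit 76) (nat_lit 5146221016) (nat_lit 181) (nat_lit 5) (nat_lit 189) (nat_lit 5) (nat_lit 182) (nat_lit 5) (nat_lit 330) (nat_lit 315) (nat_lit 255)) (XT.nd (nat_lit 78) (nat_lit 532) (nat_lit 0) (XT.lf (nat_lit 0) (nat_lit 6481983907) (nat_lit 608) (nat_lit 6167267338) (nat_lit 76) (nat_lit 599042273) (nat_lit 174) (nat_lit 5) (nat_lit 182) (nat_lit 5) (nat_lit 175) (nat_lit 5) (nat_lit 331) (nat_lit 315) (nat_lit 254)) (XT.lf (nat_lit 0) (nat_lit 5445118575) (nat_lit 532) (nat_lit 4304141148) (nat_lit 608) (nat_lit 3861333782) (nat_lit 167) (nat_lit 5) (nat_lit 174) (nat_lit 5) (nat_lit 175) (nat_lit 5) (nat_lit 332) (nat_lit 315) (nat_lit 253))))) (XT.nd (nat_lit 234)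 (nat_lit 988) (nat_lit 0) (XT.nd (nat_lit 78) (nat_lit 988) (nat_lit 0) (XT.lf (nat_lit 0) (nat_lit 3758191830) (nat_lit 532) (nat_lit 9518934571) (nat_lit 608) (nat_lit 711001953) (nat_lit 160) (nat_lit 5) (nat_lit 167) (nat_lit 5) (nat_lit 168) (nat_lit 5) (nat_lit 333) (nat_lit 315) (nat_lit 252)) (XT.nd (nat_lit 78) (nat_lit 456) (nat_lit 0) (XT.lf (nat_lit 0) (nat_lit 1987137578) (nat_lit 456) (nat_lit 661848851) (nat_lit 532) (nat_lit 11731754141) (nat_lit 153) (nat_lit 5) (nat_lit 159) (nat_lit 5) (nat_lit 160) (nat_lit 5) (nat_lit 334) (nat_lit 315) (nat_lit 251)) (XT.lf (nat_lit 0) (nat_lit 100801564) (nat_lit 456) (nat_lit 6208961491) (nat_lit 532) (nat_lit 8478616645) (nat_lit 147) (nat_lit 5) (nat_lit 153) (nat_lit 5) (nat_lit 154) (nat_lit 5) (nat_lit 335) (nat_lit 315) (nat_lit 250)))) (XT.nd (nat_lit 78) (nat_lit 988) (nat_lit 0) (XT.lf (nat_lit 0) (nat_lit 10276918316) (nat_lit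 532) (nat_lit 1819621865) (nat_lit 76) (nat_lit 3116191171) (nat_lit 147) (nat_lit 5) (nat_lit 154) (nat_lit 5) (nat_lit 148) (nat_lit 5) (nat_lit 336) (nat_lit 315) (nat_lit 249)) (XT.nd (nat_lit 78) (nat_lit 532) (nat_lit 0) (XT.lf (nat_lit 0) (nat_lit 11813161677) (nat_lit 456) (nat_lit 2766002287) (nat_lit 532) (nat_lit 1075063938) (nat_lit 141) (nat_lit 5) (nat_lit 147) (nat_lit 5) (nat_lit 148) (nat_lit 5) (nat_lit 337) (nat_lit 315) (nat_lit 248)) (XT.lf (nat_lit 0) (nat_lit 3067801137) (nat_lit 532) (nat_lit 6011406555) (nat_lit 76) (nat_lit 7033343551) (nat_lit 134) (nat_lit 5) (nat_lit 141) (nat_lit 5) (nat_lit 135) (nat_lit 5) (nat_lit 338) (nat_lit 315) (nat_lit 247))))))))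
noncomputable def xc77 : XT := (XT.nd (nat_lit 1794) (nat_lit 2584) (nat_lit 0) (XT.nd (nat_lit 858) (nat_lit 2280) (nat_lit 0) (XT.nd (nat_lit 390) (nat_lit 2052) (nat_lit 0) (XT.nd (nat_lit 156) (nat_lit 836) (nat_lit 0) (XT.nd (nat_lit 78) (nat_lit 380) (nat_lit 0) (XT.lf (nat_lit 0) (nat_lit 7514031645) (nat_lit 456) (nat_lit 8292449010) (nat_lit 76) (nat_lit 783462882) (nat_lit 129) (nat_lit 5) (nat_lit 135) (nat_lit 5) (nat_lit 130) (nat_lit 5) (nat_lit 339) (nat_lit 315) (nat_lit 246)) (XT.lf (nat_lit 0) (nat_lit 6344323228) (nat_lit 380) (nat_lit 6017510750) (nat_lit 456) (nat_lit 4724018227) (nat_lit 124) (nat_lit 5) (nat_lit 129) (nat_lit 5) (nat_lit 130) (nat_lit 5) (nat_lit 340) (nat_lit 315) (nat_lit 245))) (XT.nd (nat_lit 78) (nat_lit 456) (nat_lit 0) (XT.lf (nat_lit 0) (nat_lit 4278911339) (nat_lit 380) (nat_lit 13306748253) (nat_lit 456) (nat_lit 16911117) (nat_lit 119) (nat_lit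 5) (nat_lit 124) (nat_lit 5) (nat_lit 125) (nat_lit 5) (nat_lit 341) (nat_lit 315) (nat_lit 244)) (XT.nd (nat_lit 78) (nat_lit 0) (nat_lit 0) (XT.lf (nat_lit 0) (nat_lit 2018836103) (nat_lit 380) (nat_lit 2968624009) (nat_lit 456) (nat_lit 13151525520) (nat_lit 113) (nat_lit 5) (nat_lit 118) (nat_lit 5) (nat_lit 119) (nat_lit 5) (nat_lit 342) (nat_lit 315) (nat_lit 243)) (XT.lf (nat_lit 0) (nat_lit 10423330724) (nat_lit 456) (nat_lit 412598976) (nat_lit 76) (nat_lit 7860858265) (nat_lit 113) (nat_lit 5) (nat_lit 119) (nat_lit 5) (nat_lit 114) (nat_lit 5) (nat_lit 343) (nat_lit 315) (nat_lit 242))))) (XT.nd (nat_lit 234) (nat_lit 988) (nat_lit 0) (XT.nd (nat_lit 78) (nat_lit 760) (nat_lit 0) (XT.lf (nat_lit 0) (nat_lit 16287152240) (nat_lit 380) (nat_lit 2951188180) (nat_lit 76) (nat_lit 39474897) (nat_lit 109) (nat_lit 5) (nat_lit 114) (nat_lit 5) (nat_lit 110) (nat_lit 5) (nat_lit 344) (nat_lit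 315) (nat_lit 241)) (XT.nd (nat_lit 78) (nat_lit 304) (nat_lit 0) (XT.lf (nat_lit 0) (nat_lit 2728060180) (nat_lit 456) (nat_lit 5759275126) (nat_lit 76) (nat_lit 11393189559) (nat_lit 103) (nat_lit 5) (nat_lit 109) (nat_lit 5) (nat_lit 104) (nat_lit 5) (nat_lit 345) (nat_lit 315) (nat_lit 240)) (XT.lf (nat_lit 0) (nat_lit 8814244390) (nat_lit 380) (nat_lit 8783149480) (nat_lit 76) (nat_lit 2910803697) (nat_lit 99) (nat_lit 5) (nat_lit 104) (nat_lit 5) (nat_lit 100) (nat_lit 5) (nat_lit 346) (nat_lit 315) (nat_lit 239)))) (XT.nd (nat_lit 78) (nat_lit 684) (nat_lit 0) (XT.lf (nat_lit 0) (nat_lit 9089021693) (nat_lit 304) (nat_lit 6320124473) (nat_lit 380) (nat_lit 5751991945) (nat_lit 95) (nat_lit 5) (nat_lit 99) (nat_lit 5) (nat_lit 100) (nat_lit 5) (nat_lit 347) (nat_lit 315) (nat_lit 238)) (XT.nd (nat_lit 78) (nat_lit 304) (nat_lit 0) (XT.lf (nat_lit 0) (nat_lit 655848380) (nat_lit 380) (nat_lit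 15626219135) (nat_lit 76) (nat_lit 5559184361) (nat_lit 90) (nat_lit 5) (nat_lit 95) (nat_lit 5) (nat_lit 91) (nat_lit 5) (nat_lit 348) (nat_lit 315) (nat_lit 237)) (XT.lf (nat_lit 0) (nat_lit 3013376057) (nat_lit 304) (nat_lit 4444137253) (nat_lit 380) (nat_lit 15090392222) (nat_lit 86) (nat_lit 5) (nat_lit 90) (nat_lit 5) (nat_lit 91) (nat_lit 5) (nat_lit 349) (nat_lit 315) (nat_lit 236)))))) (XT.nd (nat_lit 468) (nat_lit 912) (nat_lit 0) (XT.nd (nat_lit 234) (nat_lit 760) (nat_lit 0) (XT.nd (nat_lit 78) (nat_lit 608) (nat_lit 0) (XT.lf (nat_lit 0) (nat_lit 14812300164) (nat_lit 380) (nat_lit 490989834) (nat_lit 76) (nat_lit 7980224515) (nat_lit 86) (nat_lit 5) (nat_lit 91) (nat_lit 5) (nat_lit 87) (nat_lit 5) (nat_lit 350) (nat_lit 315) (nat_lit 235)) (XT.nd (nat_lit 78) (nat_lit 380) (nat_lit 0) (XT.lf (nat_lit 0) (nat_lit 19809219543) (nat_lit 228) (nat_lit 2935951908) (nat_lit 304) (nat_lit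 1304435286) (nat_lit 83) (nat_lit 5) (nat_lit 86) (nat_lit 5) (nat_lit 87) (nat_lit 5) (nat_lit 351) (nat_lit 315) (nat_lit 234)) (XT.lf (nat_lit 0) (nat_lit 6337429220) (nat_lit 380) (nat_lit 8440268187) (nat_lit 76) (nat_lit 10067380376) (nat_lit 78) (nat_lit 5) (nat_lit 83) (nat_lit 5) (nat_lit 79) (nat_lit 5) (nat_lit 352) (nat_lit 315) (nat_lit 233)))) (XT.nd (nat_lit 78) (nat_lit 532) (nat_lit 0) (XT.lf (nat_lit 0) (nat_lit 12659483398) (nat_lit 228) (nat_lit 1846944900) (nat_lit 304) (nat_lit 11168357631) (nat_lit 75) (nat_lit 5) (nat_lit 78) (nat_lit 5) (nat_lit 79) (nat_lit 5) (nat_lit 353) (nat_lit 315) (nat_lit 232)) (XT.nd (nat_lit 78) (nat_lit 304) (nat_lit 0) (XT.lf (nat_lit 0) (nat_lit 8463027564) (nat_lit 228) (nat_lit 14879736912) (nat_lit 304) (nat_lit 3195459417) (nat_lit 72) (nat_lit 5) (nat_lit 75) (nat_lit 5) (nat_lit 76) (nat_lit 5) (nat_lit 354) (nat_lit 315) (nat_lit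 231)) (XT.lf (nat_lit 0) (nat_lit 3816025629) (nat_lit 228) (nat_lit 1427246043) (nat_lit 304) (nat_lit 22195033848) (nat_lit 68) (nat_lit 5) (nat_lit 71) (nat_lit 5) (nat_lit 72) (nat_lit 5) (nat_lit 355) (nat_lit 315) (nat_lit 230))))) (XT.nd (nat_lit 234) (nat_lit 456) (nat_lit 0) (XT.nd (nat_lit 78) (nat_lit 456) (nat_lit 0) (XT.lf (nat_lit 0) (nat_lit 14326618167) (nat_lit 304) (nat_lit 1389126073) (nat_lit 76) (nat_lit 12658044575) (nat_lit 68) (nat_lit 5) (nat_lit 72) (nat_lit 5) (nat_lit 69) (nat_lit 5) (nat_lit 356) (nat_lit 315) (nat_lit 229)) (XT.nd (nat_lit 78) (nat_lit 228) (nat_lit 0) (XT.lf (nat_lit 0) (nat_lit 22344259232) (nat_lit 228) (nat_lit 1728285336) (nat_lit 304) (nat_lit 5277258573) (nat_lit 65) (nat_lit 5) (nat_lit 68) (nat_lit 5) (nat_lit 69) (nat_lit 5) (nat_lit 357) (nat_lit 315) (nat_lit 228)) (XT.lf (nat_lit 0) (nat_lit 4140357759) (nat_lit 228) (nat_lit 13311272039)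 (nat_lit 76) (nat_lit 12913285694) (nat_lit 62) (nat_lit 5) (nat_lit 65) (nat_lit 5) (nat_lit 63) (nat_lit 5) (nat_lit 358) (nat_lit 315) (nat_lit 227)))) (XT.nd (nat_lit 78) (nat_lit 228) (nat_lit 0) (XT.lf (nat_lit 0) (nat_lit 11147618620) (nat_lit 228) (nat_lit 2950783261) (nat_lit 304) (nat_lit 17325461553) (nat_lit 59) (nat_lit 5) (nat_lit 62) (nat_lit 5) (nat_lit 63) (nat_lit 5) (nat_lit 359) (nat_lit 315) (nat_lit 226)) (XT.nd (nat_lit 78) (nat_lit 76) (nat_lit 0) (XT.lf (nat_lit 0) (nat_lit 4513085090) (nat_lit 152) (nat_lit 20321794555) (nat_lit 228) (nat_lit 7692470942) (nat_lit 57) (nat_lit 5) (nat_lit 59) (nat_lit 5) (nat_lit 60) (nat_lit 5) (nat_lit 360) (nat_lit 315) (nat_lit 225)) (XT.lf (nat_lit 0) (nat_lit 2596677346) (nat_lit 228) (nat_lit 2800364634) (nat_lit 76) (nat_lit 28281625585) (nat_lit 56) (nat_lit 5) (nat_lit 59) (nat_lit 5) (nat_lit 57) (nat_lit 5) (nat_lit 361)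 (nat_lit 315) (nat_lit 224))))))) (XT.nd (nat_lit 858) (nat_lit 1064) (nat_lit 0) (XT.nd (nat_lit 390) (nat_lit 760) (nat_lit 0) (XT.nd (nat_lit 156) (nat_lit 380) (nat_lit 0) (XT.nd (nat_lit 78) (nat_lit 152) (nat_lit 0) (XT.lf (nat_lit 0) (nat_lit 13557515360) (nat_lit 304) (nat_lit 10944515401) (nat_lit 76) (nat_lit 10373751835) (nat_lit 53) (nat_lit 5) (nat_lit 57) (nat_lit 5) (nat_lit 54) (nat_lit 5) (nat_lit 362) (nat_lit 315) (nat_lit 223)) (XT.lf (nat_lit 0) (nat_lit 16157477776) (nat_lit 152) (nat_lit 9130379137) (nat_lit 228) (nat_lit 10838259118) (nat_lit 51) (nat_lit 5) (nat_lit 53) (nat_lit 5) (nat_lit 54) (nat_lit 5) (nat_lit 363) (nat_lit 315) (nat_lit 222))) (XT.nd (nat_lit 78) (nat_lit 152) (nat_lit 0) (XT.lf (nat_lit 0) (nat_lit 400685721) (nat_lit 228) (nat_lit 29979870552) (nat_lit 76) (nat_lit 7051222961) (nat_lit 48) (nat_lit 5) (nat_lit 51) (nat_lit 5) (nat_lit 49) (nat_lit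 5) (nat_lit 364) (nat_lit 315) (nat_lit 221)) (XT.nd (nat_lit 78) (nat_lit 152) (nat_lit 0) (XT.lf (nat_lit 0) (nat_lit 12262639611) (nat_lit 228) (nat_lit 2367618277) (nat_lit 76) (nat_lit 24160697742) (nat_lit 48) (nat_lit 5) (nat_lit 51) (nat_lit 5) (nat_lit 49) (nat_lit 5) (nat_lit 365) (nat_lit 315) (nat_lit 220)) (XT.lf (nat_lit 0) (nat_lit 24983442829) (nat_lit 228) (nat_lit 13103853982) (nat_lit 76) (nat_lit 2122826941) (nat_lit 46) (nat_lit 5) (nat_lit 49) (nat_lit 5) (nat_lit 47) (nat_lit 5) (nat_lit 366) (nat_lit 315) (nat_lit 219))))) (XT.nd (nat_lit 234) (nat_lit 380) (nat_lit 0) (XT.nd (nat_lit 78) (nat_lit 228) (nat_lit 0) (XT.lf (nat_lit 0) (nat_lit 16552408673) (nat_lit 152) (nat_lit 22103840233) (nat_lit 228) (nat_lit 3034527687) (nat_lit 44) (nat_lit 5) (nat_lit 46) (nat_lit 5) (nat_lit 47) (nat_lit 5) (nat_lit 367) (nat_lit 315) (nat_lit 218)) (XT.nd (nat_lit 78) (nat_lit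 0) (nat_lit 0) (XT.lf (nat_lit 0) (nat_lit 4694242900) (nat_lit 152) (nat_lit 5048653377) (nat_lit 228) (nat_lit 33494766235) (nat_lit 41) (nat_lit 5) (nat_lit 43) (nat_lit 5) (nat_lit 44) (nat_lit 5) (nat_lit 368) (nat_lit 315) (nat_lit 217)) (XT.lf (nat_lit 0) (nat_lit 23467245008) (nat_lit 228) (nat_lit 8492758908) (nat_lit 76) (nat_lit 12889867673) (nat_lit 41) (nat_lit 5) (nat_lit 44) (nat_lit 5) (nat_lit 42) (nat_lit 5) (nat_lit 369) (nat_lit 315) (nat_lit 216)))) (XT.nd (nat_lit 78) (nat_lit 228) (nat_lit 0) (XT.lf (nat_lit 0) (nat_lit 23442515995) (nat_lit 152) (nat_lit 14697575316) (nat_lit 228) (nat_lit 8394735762) (nat_lit 39) (nat_lit 5) (nat_lit 41) (nat_lit 5) (nat_lit 42) (nat_lit 5) (nat_lit 370) (nat_lit 315) (nat_lit 215)) (XT.nd (nat_lit 78) (nat_lit 0) (nat_lit 0) (XT.lf (nat_lit 0) (nat_lit 5335931005) (nat_lit 228) (nat_lit 39382761576) (nat_lit 76) (nat_lit 3577959466)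 (nat_lit 36) (nat_lit 5) (nat_lit 39) (nat_lit 5) (nat_lit 37) (nat_lit 5) (nat_lit 371) (nat_lit 315) (nat_lit 214)) (XT.lf (nat_lit 0) (nat_lit 19956157181) (nat_lit 228) (nat_lit 7395508864) (nat_lit 76) (nat_lit 22781113314) (nat_lit 36) (nat_lit 5) (nat_lit 39) (nat_lit 5) (nat_lit 37) (nat_lit 5) (nat_lit 372) (nat_lit 315) (nat_lit 213)))))) (XT.nd (nat_lit 468) (nat_lit 456) (nat_lit 0) (XT.nd (nat_lit 234) (nat_lit 304) (nat_lit 0) (XT.nd (nat_lit 78) (nat_lit 152) (nat_lit 0) (XT.lf (nat_lit 0) (nat_lit 26689431886) (nat_lit 152) (nat_lit 8861768790) (nat_lit 228) (nat_lit 16502201834) (nat_lit 34) (nat_lit 5) (nat_lit 36) (nat_lit 5) (nat_lit 37) (nat_lit 5) (nat_lit 373) (nat_lit 315) (nat_lit 212)) (XT.nd (nat_lit 78) (nat_lit 76) (nat_lit 0) (XT.lf (nat_lit 0) (nat_lit 8609073160) (nat_lit 76) (nat_lit 43565558016) (nat_lit 152) (nat_lit 1887970079) (nat_lit 33) (nat_lit 5) (nat_lit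 34) (nat_lit 5) (nat_lit 35) (nat_lit 4) (nat_lit 374) (nat_lit 315) (nat_lit 211)) (XT.lf (nat_lit 0) (nat_lit 13535328312) (nat_lit 152) (nat_lit 11596742737) (nat_lit 76) (nat_lit 31026082932) (nat_lit 32) (nat_lit 5) (nat_lit 34) (nat_lit 5) (nat_lit 33) (nat_lit 5) (nat_lit 375) (nat_lit 315) (nat_lit 210)))) (XT.nd (nat_lit 78) (nat_lit 152) (nat_lit 0) (XT.lf (nat_lit 0) (nat_lit 24389047619) (nat_lit 152) (nat_lit 5524903532) (nat_lit 228) (nat_lit 28437279306) (nat_lit 30) (nat_lit 5) (nat_lit 32) (nat_lit 5) (nat_lit 33) (nat_lit 5) (nat_lit 376) (nat_lit 315) (nat_lit 209)) (XT.nd (nat_lit 78) (nat_lit 76) (nat_lit 0) (XT.lf (nat_lit 0) (nat_lit 1631592674) (nat_lit 76) (nat_lit 45749621823) (nat_lit 152) (nat_lit 13264657897) (nat_lit 29) (nat_lit 5) (nat_lit 30) (nat_lit 5) (nat_lit 31) (nat_lit 4) (nat_lit 377) (nat_lit 315) (nat_lit 208)) (XT.lf (nat_lit 0) (nat_lit 3012308100)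 (nat_lit 152) (nat_lit 23434848206) (nat_lit 76) (nat_lit 36595391380) (nat_lit 28) (nat_lit 5) (nat_lit 30) (nat_lit 5) (nat_lit 29) (nat_lit 5) (nat_lit 378) (nat_lit 315) (nat_lit 207))))) (XT.nd (nat_lit 234) (nat_lit 228) (nat_lit 0) (XT.nd (nat_lit 78) (nat_lit 76) (nat_lit 0) (XT.lf (nat_lit 0) (nat_lit 14044688047) (nat_lit 152) (nat_lit 5911097163) (nat_lit 228) (nat_lit 45595524216) (nat_lit 26) (nat_lit 5) (nat_lit 28) (nat_lit 5) (nat_lit 29) (nat_lit 5) (nat_lit 379) (nat_lit 315) (nat_lit 206)) (XT.nd (nat_lit 78) (nat_lit 76) (nat_lit 0) (XT.lf (nat_lit 0) (nat_lit 38130205699) (nat_lit 228) (nat_lit 14461924355) (nat_lit 76) (nat_lit 15581868562) (nat_lit 26) (nat_lit 5) (nat_lit 29) (nat_lit 5) (nat_lit 27) (nat_lit 4) (nat_lit 380) (nat_lit 315) (nat_lit 205)) (XT.lf (nat_lit 0) (nat_lit 24842269460) (nat_lit 76) (nat_lit 32659715714) (nat_lit 152) (nat_lit 13417180284) (nat_lit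 25) (nat_lit 5) (nat_lit 26) (nat_lit 5) (nat_lit 27) (nat_lit 4) (nat_lit 381) (nat_lit 315) (nat_lit 204)))) (XT.nd (nat_lit 78) (nat_lit 152) (nat_lit 0) (XT.lf (nat_lit 0) (nat_lit 4102641379) (nat_lit 152) (nat_lit 7441076418) (nat_lit 76) (nat_lit 62252487884) (nat_lit 24) (nat_lit 5) (nat_lit 26) (nat_lit 5) (nat_lit 25) (nat_lit 5) (nat_lit 382) (nat_lit 315) (nat_lit 203)) (XT.nd (nat_lit 78) (nat_lit 0) (nat_lit 0) (XT.lf (nat_lit 0) (nat_lit 22644296805) (nat_lit 228) (nat_lit 43279565632) (nat_lit 76) (nat_lit 10876552313) (nat_lit 22) (nat_lit 5) (nat_lit 25) (nat_lit 5) (nat_lit 23) (nat_lit 4) (nat_lit 383) (nat_lit 315) (nat_lit 202)) (XT.lf (nat_lit 0) (nat_lit 42297955769) (nat_lit 228) (nat_lit 3399846351) (nat_lit 76) (nat_lit 34251486486) (nat_lit 22) (nat_lit 5) (nat_lit 25) (nat_lit 5) (nat_lit 23) (nat_lit 4) (nat_lit 384) (nat_lit 315) (nat_lit 201))))))))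
noncomputable def xc78 : XT := (XT.nd (nat_lit 42822) (nat_lit 0) (nat_lit 4104) (XT.nd (nat_lit 41886) (nat_lit 0) (nat_lit 11856) (XT.nd (nat_lit 390) (nat_lit 0) (nat_lit 0) (XT.nd (nat_lit 156) (nat_lit 228) (nat_lit 0) (XT.nd (nat_lit 78) (nat_lit 0) (nat_lit 0) (XT.lf (nat_lit 0) (nat_lit 39223628736) (nat_lit 76) (nat_lit 24079186173) (nat_lit 152) (nat_lit 19941737590) (nat_lit 21) (nat_lit 5) (nat_lit 22) (nat_lit 5) (nat_lit 23) (nat_lit 4) (nat_lit 385) (nat_lit 315) (nat_lit 200)) (XT.lf (nat_lit 0) (nat_lit 84034147810) (nat_lit 76) (nat_lit 1350503363) (nat_lit 152) (nat_lit 1319128164) (nat_lit 21) (nat_lit 5) (nat_lit 22) (nat_lit 5) (nat_lit 23) (nat_lit 4) (nat_lit 386) (nat_lit 315) (nat_lit 199))) (XT.nd (nat_lit 78) (nat_lit 76) (nat_lit 0) (XT.lf (nat_lit 0) (nat_lit 18490511651) (nat_lit 152) (nat_lit 49174513142) (nat_lit 76) (nat_lit 22647334208) (nat_lit 19) (nat_lit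 5) (nat_lit 21) (nat_lit 5) (nat_lit 20) (nat_lit 4) (nat_lit 387) (nat_lit 315) (nat_lit 198)) (XT.nd (nat_lit 78) (nat_lit 76) (nat_lit 0) (XT.lf (nat_lit 0) (nat_lit 39297219502) (nat_lit 152) (nat_lit 6950641258) (nat_lit 76) (nat_lit 47852100600) (nat_lit 19) (nat_lit 5) (nat_lit 21) (nat_lit 5) (nat_lit 20) (nat_lit 4) (nat_lit 388) (nat_lit 315) (nat_lit 197)) (XT.lf (nat_lit 0) (nat_lit 38114494057) (nat_lit 76) (nat_lit 23388748028) (nat_lit 152) (nat_lit 36562933860) (nat_lit 18) (nat_lit 5) (nat_lit 19) (nat_lit 5) (nat_lit 20) (nat_lit 4) (nat_lit 389) (nat_lit 315) (nat_lit 196))))) (XT.nd (nat_lit 41262) (nat_lit 0) (nat_lit 16264) (XT.nd (nat_lit 41106) (nat_lit 0) (nat_lit 16264) (XT.lf (nat_lit 0) (nat_lit 84890485953) (nat_lit 152) (nat_lit 16670471655) (nat_lit 0) (nat_lit 667617462) (nat_lit 18) (nat_lit 5) (nat_lit 20) (nat_lit 4) (nat_lit 18) (nat_lit 4) (nat_lit 390)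 (nat_lit 315) (nat_lit 195)) (XT.nd (nat_lit 78) (nat_lit 1064) (nat_lit 0) (XT.lf (nat_lit 0) (nat_lit 2037837202) (nat_lit 0) (nat_lit 2037837202) (nat_lit 988) (nat_lit 653592671) (nat_lit 246) (nat_lit 5) (nat_lit 246) (nat_lit 3) (nat_lit 259) (nat_lit 3) (nat_lit 316) (nat_lit 316) (nat_lit 268)) (XT.lf (nat_lit 0) (nat_lit 2746313) (nat_lit 1064) (nat_lit 7664059967) (nat_lit 1140) (nat_lit 1987880181) (nat_lit 232) (nat_lit 5) (nat_lit 246) (nat_lit 5) (nat_lit 247) (nat_lit 5) (nat_lit 317) (nat_lit 316) (nat_lit 267)))) (XT.nd (nat_lit 78) (nat_lit 0) (nat_lit 76) (XT.lf (nat_lit 0) (nat_lit 1366666505) (nat_lit 1064) (nat_lit 114507077) (nat_lit 1140) (nat_lit 8378695770) (nat_lit 232) (nat_lit 5) (nat_lit 246) (nat_lit 5) (nat_lit 247) (nat_lit 5) (nat_lit 318) (nat_lit 316) (nat_lit 266)) (XT.nd (nat_lit 78) (nat_lit 0) (nat_lit 76) (XT.lf (nat_lit 0) (nat_lit 2846299631) (nat_lit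 1064) (nat_lit 2201308243) (nat_lit 1140) (nat_lit 5026351373) (nat_lit 233) (nat_lit 5) (nat_lit 247) (nat_lit 5) (nat_lit 248) (nat_lit 5) (nat_lit 319) (nat_lit 316) (nat_lit 265)) (XT.lf (nat_lit 0) (nat_lit 4415189596) (nat_lit 1064) (nat_lit 4294148680) (nat_lit 1140) (nat_lit 1589026981) (nat_lit 234) (nat_lit 5) (nat_lit 248) (nat_lit 5) (nat_lit 249) (nat_lit 5) (nat_lit 320) (nat_lit 316) (nat_lit 264)))))) (XT.nd (nat_lit 468) (nat_lit 3572) (nat_lit 0) (XT.nd (nat_lit 234) (nat_lit 988) (nat_lit 0) (XT.nd (nat_lit 78) (nat_lit 0) (nat_lit 76) (XT.lf (nat_lit 76) (nat_lit 4115577823) (nat_lit 0) (nat_lit 1989406137) (nat_lit 1140) (nat_lit 4427800357) (nat_lit 235) (nat_lit 5) (nat_lit 234) (nat_lit 5) (nat_lit 249) (nat_lit 5) (nat_lit 321) (nat_lit 316) (nat_lit 263)) (XT.nd (nat_lit 78) (nat_lit 0) (nat_lit 76) (XT.lf (nat_lit 76) (nat_lit 2204539995) (nat_lit 0) (nat_lit 5721498221)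 (nat_lit 1140) (nat_lit 2851546388) (nat_lit 236) (nat_lit 5) (nat_lit 235) (nat_lit 5) (nat_lit 250) (nat_lit 5) (nat_lit 322) (nat_lit 316) (nat_lit 262)) (XT.lf (nat_lit 76) (nat_lit 282447660) (nat_lit 0) (nat_lit 9593466386) (nat_lit 1140) (nat_lit 1157638153) (nat_lit 237) (nat_lit 5) (nat_lit 236) (nat_lit 5) (nat_lit 251) (nat_lit 5) (nat_lit 323) (nat_lit 316) (nat_lit 261)))) (XT.nd (nat_lit 78) (nat_lit 0) (nat_lit 76) (XT.lf (nat_lit 0) (nat_lit 692890060) (nat_lit 1140) (nat_lit 1652427485) (nat_lit 1216) (nat_lit 8954356111) (nat_lit 221) (nat_lit 5) (nat_lit 236) (nat_lit 5) (nat_lit 237) (nat_lit 5) (nat_lit 324) (nat_lit 316) (nat_lit 260)) (XT.nd (nat_lit 78) (nat_lit 0) (nat_lit 76) (XT.lf (nat_lit 0) (nat_lit 2680910008) (nat_lit 1140) (nat_lit 3630056368) (nat_lit 1216) (nat_lit 5265776901) (nat_lit 222) (nat_lit 5) (nat_lit 237) (nat_lit 5) (nat_lit 238) (nat_lit 5) (nat_lit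 325) (nat_lit 316) (nat_lit 259)) (XT.lf (nat_lit 0) (nat_lit 4825691387) (nat_lit 1140) (nat_lit 5635363861) (nat_lit 76) (nat_lit 1404940940) (nat_lit 223) (nat_lit 5) (nat_lit 238) (nat_lit 5) (nat_lit 224) (nat_lit 5) (nat_lit 326) (nat_lit 316) (nat_lit 258))))) (XT.nd (nat_lit 234) (nat_lit 1140) (nat_lit 0) (XT.nd (nat_lit 78) (nat_lit 1444) (nat_lit 0) (XT.lf (nat_lit 0) (nat_lit 4467942685) (nat_lit 1140) (nat_lit 2699252708) (nat_lit 1216) (nat_lit 4999880057) (nat_lit 208) (nat_lit 5) (nat_lit 223) (nat_lit 5) (nat_lit 224) (nat_lit 5) (nat_lit 327) (nat_lit 316) (nat_lit 257)) (XT.nd (nat_lit 78) (nat_lit 608) (nat_lit 0) (XT.lf (nat_lit 0) (nat_lit 2664581875) (nat_lit 836) (nat_lit 7045132575) (nat_lit 912) (nat_lit 2771021947) (nat_lit 197) (nat_lit 5) (nat_lit 208) (nat_lit 5) (nat_lit 209) (nat_lit 5) (nat_lit 328) (nat_lit 316) (nat_lit 256)) (XT.lf (nat_lit 0) (nat_lit 830001672)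 (nat_lit 608) (nat_lit 11624505521) (nat_lit 684) (nat_lit 353362494) (nat_lit 189) (nat_lit 5) (nat_lit 197) (nat_lit 5) (nat_lit 198) (nat_lit 5) (nat_lit 329) (nat_lit 316) (nat_lit 255)))) (XT.nd (nat_lit 78) (nat_lit 1064) (nat_lit 0) (XT.lf (nat_lit 0) (nat_lit 2266597794) (nat_lit 684) (nat_lit 1074915288) (nat_lit 76) (nat_lit 9805535079) (nat_lit 188) (nat_lit 5) (nat_lit 197) (nat_lit 5) (nat_lit 189) (nat_lit 5) (nat_lit 330) (nat_lit 316) (nat_lit 254)) (XT.nd (nat_lit 78) (nat_lit 532) (nat_lit 0) (XT.lf (nat_lit 0) (nat_lit 5117316380) (nat_lit 608) (nat_lit 3023745008) (nat_lit 76) (nat_lit 5358845670) (nat_lit 181) (nat_lit 5) (nat_lit 189) (nat_lit 5) (nat_lit 182) (nat_lit 5) (nat_lit 331) (nat_lit 316) (nat_lit 253)) (XT.lf (nat_lit 0) (nat_lit 8201916931) (nat_lit 608) (nat_lit 5023075593) (nat_lit 76) (nat_lit 642712668) (nat_lit 174) (nat_lit 5) (nat_lit 182) (nat_lit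 5) (nat_lit 175) (nat_lit 5) (nat_lit 332) (nat_lit 316) (nat_lit 252))))))) (XT.nd (nat_lit 858) (nat_lit 3116) (nat_lit 0) (XT.nd (nat_lit 390) (nat_lit 2584) (nat_lit 0) (XT.nd (nat_lit 156) (nat_lit 912) (nat_lit 0) (XT.nd (nat_lit 78) (nat_lit 608) (nat_lit 0) (XT.lf (nat_lit 0) (nat_lit 7128292415) (nat_lit 532) (nat_lit 4451358451) (nat_lit 608) (nat_lit 2670110196) (nat_lit 167) (nat_lit 5) (nat_lit 174) (nat_lit 5) (nat_lit 175) (nat_lit 5) (nat_lit 333) (nat_lit 316) (nat_lit 251)) (XT.lf (nat_lit 0) (nat_lit 574978111) (nat_lit 608) (nat_lit 9297236718) (nat_lit 76) (nat_lit 4775333048) (nat_lit 159) (nat_lit 5) (nat_lit 167) (nat_lit 5) (nat_lit 160) (nat_lit 5) (nat_lit 334) (nat_lit 316) (nat_lit 250))) (XT.nd (nat_lit 78) (nat_lit 456) (nat_lit 0) (XT.lf (nat_lit 0) (nat_lit 3482322876) (nat_lit 456) (nat_lit 557256377) (nat_lit 532) (nat_lit 11021508024) (nat_lit 153) (nat_lit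 5) (nat_lit 159) (nat_lit 5) (nat_lit 160) (nat_lit 5) (nat_lit 335) (nat_lit 316) (nat_lit 249)) (XT.nd (nat_lit 78) (nat_lit 0) (nat_lit 0) (XT.lf (nat_lit 0) (nat_lit 1497954617) (nat_lit 456) (nat_lit 6340170826) (nat_lit 532) (nat_lit 7652386047) (nat_lit 147) (nat_lit 5) (nat_lit 153) (nat_lit 5) (nat_lit 154) (nat_lit 5) (nat_lit 336) (nat_lit 316) (nat_lit 248)) (XT.lf (nat_lit 0) (nat_lit 11947523459) (nat_lit 532) (nat_lit 550910369) (nat_lit 76) (nat_lit 3439373250) (nat_lit 147) (nat_lit 5) (nat_lit 154) (nat_lit 5) (nat_lit 148) (nat_lit 5) (nat_lit 337) (nat_lit 316) (nat_lit 247))))) (XT.nd (nat_lit 234) (nat_lit 1216) (nat_lit 0) (XT.nd (nat_lit 78) (nat_lit 836) (nat_lit 0) (XT.lf (nat_lit 0) (nat_lit 19415783) (nat_lit 532) (nat_lit 2678344279) (nat_lit 76) (nat_lit 13704925190) (nat_lit 140) (nat_lit 5) (nat_lit 147) (nat_lit 5) (nat_lit 141) (nat_lit 5) (nat_lit 338) (nat_lit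 316) (nat_lit 246)) (XT.nd (nat_lit 78) (nat_lit 380) (nat_lit 0) (XT.lf (nat_lit 0) (nat_lit 4308433726) (nat_lit 532) (nat_lit 4975383881) (nat_lit 76) (nat_lit 7600988301) (nat_lit 134) (nat_lit 5) (nat_lit 141) (nat_lit 5) (nat_lit 135) (nat_lit 5) (nat_lit 339) (nat_lit 316) (nat_lit 245)) (XT.lf (nat_lit 0) (nat_lit 8940088499) (nat_lit 456) (nat_lit 7379039854) (nat_lit 76) (nat_lit 1068082063) (nat_lit 129) (nat_lit 5) (nat_lit 135) (nat_lit 5) (nat_lit 130) (nat_lit 5) (nat_lit 340) (nat_lit 316) (nat_lit 244)))) (XT.nd (nat_lit 78) (nat_lit 836) (nat_lit 0) (XT.lf (nat_lit 0) (nat_lit 7951503236) (nat_lit 380) (nat_lit 6041160717) (nat_lit 456) (nat_lit 3916413344) (nat_lit 124) (nat_lit 5) (nat_lit 129) (nat_lit 5) (nat_lit 130) (nat_lit 5) (nat_lit 341) (nat_lit 316) (nat_lit 243)) (XT.nd (nat_lit 78) (nat_lit 380) (nat_lit 0) (XT.lf (nat_lit 0) (nat_lit 972286741) (nat_lit 456)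 (nat_lit 12688765226) (nat_lit 76) (nat_lit 4791327768) (nat_lit 118) (nat_lit 5) (nat_lit 124) (nat_lit 5) (nat_lit 119) (nat_lit 5) (nat_lit 342) (nat_lit 316) (nat_lit 242)) (XT.lf (nat_lit 0) (nat_lit 3383394112) (nat_lit 380) (nat_lit 2808154152) (nat_lit 456) (nat_lit 12825141650) (nat_lit 113) (nat_lit 5) (nat_lit 118) (nat_lit 5) (nat_lit 119) (nat_lit 5) (nat_lit 343) (nat_lit 316) (nat_lit 241)))))) (XT.nd (nat_lit 468) (nat_lit 1368) (nat_lit 0) (XT.nd (nat_lit 234) (nat_lit 988) (nat_lit 0) (XT.nd (nat_lit 78) (nat_lit 456) (nat_lit 0) (XT.lf (nat_lit 0) (nat_lit 811066336) (nat_lit 304) (nat_lit 11053307859) (nat_lit 380) (nat_lit 7739082056) (nat_lit 109) (nat_lit 5) (nat_lit 113) (nat_lit 5) (nat_lit 114) (nat_lit 5) (nat_lit 344) (nat_lit 316) (nat_lit 240)) (XT.nd (nat_lit 78) (nat_lit 456) (nat_lit 0) (XT.lf (nat_lit 0) (nat_lit 17984638268) (nat_lit 380) (nat_lit 1881552027)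 (nat_lit 76) (nat_lit 348474501) (nat_lit 109) (nat_lit 5) (nat_lit 114) (nat_lit 5) (nat_lit 110) (nat_lit 5) (nat_lit 345) (nat_lit 316) (nat_lit 239)) (XT.lf (nat_lit 0) (nat_lit 3725854098) (nat_lit 456) (nat_lit 4847284438) (nat_lit 76) (nat_lit 12275064664) (nat_lit 103) (nat_lit 5) (nat_lit 109) (nat_lit 5) (nat_lit 104) (nat_lit 5) (nat_lit 346) (nat_lit 316) (nat_lit 238)))) (XT.nd (nat_lit 78) (nat_lit 684) (nat_lit 0) (XT.lf (nat_lit 0) (nat_lit 10089743396) (nat_lit 380) (nat_lit 8034530033) (nat_lit 76) (nat_lit 3383808337) (nat_lit 99) (nat_lit 5) (nat_lit 104) (nat_lit 5) (nat_lit 100) (nat_lit 5) (nat_lit 347) (nat_lit 316) (nat_lit 237)) (XT.nd (nat_lit 78) (nat_lit 380) (nat_lit 0) (XT.lf (nat_lit 0) (nat_lit 10697202312) (nat_lit 304) (nat_lit 6288526551) (nat_lit 380) (nat_lit 5208823271) (nat_lit 95) (nat_lit 5) (nat_lit 99) (nat_lit 5) (nat_lit 100) (nat_lit 5) (nat_lit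 348) (nat_lit 316) (nat_lit 236)) (XT.lf (nat_lit 0) (nat_lit 1478703110) (nat_lit 380) (nat_lit 15250032778) (nat_lit 76) (nat_lit 6180452191) (nat_lit 90) (nat_lit 5) (nat_lit 95) (nat_lit 5) (nat_lit 91) (nat_lit 5) (nat_lit 349) (nat_lit 316) (nat_lit 235))))) (XT.nd (nat_lit 234) (nat_lit 836) (nat_lit 0) (XT.nd (nat_lit 78) (nat_lit 228) (nat_lit 0) (XT.lf (nat_lit 0) (nat_lit 4288362747) (nat_lit 304) (nat_lit 4305274157) (nat_lit 380) (nat_lit 15058362161) (nat_lit 86) (nat_lit 5) (nat_lit 90) (nat_lit 5) (nat_lit 91) (nat_lit 5) (nat_lit 350) (nat_lit 316) (nat_lit 234)) (XT.nd (nat_lit 78) (nat_lit 0) (nat_lit 0) (XT.lf (nat_lit 0) (nat_lit 585552439) (nat_lit 228) (nat_lit 15703199757) (nat_lit 304) (nat_lit 8136477878) (nat_lit 83) (nat_lit 5) (nat_lit 86) (nat_lit 5) (nat_lit 87) (nat_lit 5) (nat_lit 351) (nat_lit 316) (nat_lit 233)) (XT.lf (nat_lit 0) (nat_lit 21858111005) (nat_lit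 228) (nat_lit 2729929810) (nat_lit 304) (nat_lit 642511217) (nat_lit 83) (nat_lit 5) (nat_lit 86) (nat_lit 5) (nat_lit 87) (nat_lit 5) (nat_lit 352) (nat_lit 316) (nat_lit 232)))) (XT.nd (nat_lit 78) (nat_lit 456) (nat_lit 0) (XT.lf (nat_lit 0) (nat_lit 7346720534) (nat_lit 380) (nat_lit 7802447771) (nat_lit 76) (nat_lit 10917051689) (nat_lit 78) (nat_lit 5) (nat_lit 83) (nat_lit 5) (nat_lit 79) (nat_lit 5) (nat_lit 353) (nat_lit 316) (nat_lit 231)) (XT.nd (nat_lit 78) (nat_lit 228) (nat_lit 0) (XT.lf (nat_lit 0) (nat_lit 14321911469) (nat_lit 228) (nat_lit 1579181464) (nat_lit 304) (nat_lit 11037029061) (nat_lit 75) (nat_lit 5) (nat_lit 78) (nat_lit 5) (nat_lit 79) (nat_lit 5) (nat_lit 354) (nat_lit 316) (nat_lit 230)) (XT.lf (nat_lit 0) (nat_lit 9902579754) (nat_lit 228) (nat_lit 15257859712) (nat_lit 304) (nat_lit 2684871962) (nat_lit 72) (nat_lit 5) (nat_lit 75) (nat_lit 5) (nat_lit 76)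 (nat_lit 5) (nat_lit 355) (nat_lit 316) (nat_lit 229))))))))
noncomputable def xc79 : XT := (XT.nd (nat_lit 1794) (nat_lit 760) (nat_lit 0) (XT.nd (nat_lit 858) (nat_lit 1444) (nat_lit 0) (XT.nd (nat_lit 390) (nat_lit 836) (nat_lit 0) (XT.nd (nat_lit 156) (nat_lit 684) (nat_lit 0) (XT.nd (nat_lit 78) (nat_lit 0) (nat_lit 0) (XT.lf (nat_lit 0) (nat_lit 5007089015) (nat_lit 228) (nat_lit 1133941638) (nat_lit 304) (nat_lit 22649837900) (nat_lit 68) (nat_lit 5) (nat_lit 71) (nat_lit 5) (nat_lit 72) (nat_lit 5) (nat_lit 356) (nat_lit 316) (nat_lit 228)) (XT.lf (nat_lit 0) (nat_lit 15651616501) (nat_lit 304) (nat_lit 490859568) (nat_lit 76) (nat_lit 13631471324) (nat_lit 68) (nat_lit 5) (nat_lit 72) (nat_lit 5) (nat_lit 69) (nat_lit 5) (nat_lit 357) (nat_lit 316) (nat_lit 227))) (XT.nd (nat_lit 78) (nat_lit 456) (nat_lit 0) (XT.lf (nat_lit 0) (nat_lit 24401455422) (nat_lit 228) (nat_lit 1463435332)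 (nat_lit 304) (nat_lit 4934483035) (nat_lit 65) (nat_lit 5) (nat_lit 68) (nat_lit 5) (nat_lit 69) (nat_lit 5) (nat_lit 358) (nat_lit 316) (nat_lit 226)) (XT.nd (nat_lit 78) (nat_lit 228) (nat_lit 0) (XT.lf (nat_lit 0) (nat_lit 4926100902) (nat_lit 228) (nat_lit 13037914500) (nat_lit 76) (nat_lit 13901545603) (nat_lit 62) (nat_lit 5) (nat_lit 65) (nat_lit 5) (nat_lit 63) (nat_lit 5) (nat_lit 359) (nat_lit 316) (nat_lit 225)) (XT.lf (nat_lit 0) (nat_lit 12617006706) (nat_lit 228) (nat_lit 2746248950) (nat_lit 304) (nat_lit 17614775794) (nat_lit 59) (nat_lit 5) (nat_lit 62) (nat_lit 5) (nat_lit 63) (nat_lit 5) (nat_lit 360) (nat_lit 316) (nat_lit 224))))) (XT.nd (nat_lit 234) (nat_lit 380) (nat_lit 0) (XT.nd (nat_lit 78) (nat_lit 304) (nat_lit 0) (XT.lf (nat_lit 0) (nat_lit 5637853798) (nat_lit 152) (nat_lit 20983906026) (nat_lit 228) (nat_lit 7515387877) (nat_lit 57) (nat_lit 5) (nat_lit 59)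 (nat_lit 5) (nat_lit 60) (nat_lit 5) (nat_lit 361) (nat_lit 316) (nat_lit 223)) (XT.nd (nat_lit 78) (nat_lit 228) (nat_lit 0) (XT.lf (nat_lit 0) (nat_lit 3251030921) (nat_lit 228) (nat_lit 2073444389) (nat_lit 76) (nat_lit 30022190015) (nat_lit 56) (nat_lit 5) (nat_lit 59) (nat_lit 5) (nat_lit 57) (nat_lit 5) (nat_lit 362) (nat_lit 316) (nat_lit 222)) (XT.lf (nat_lit 0) (nat_lit 14746243314) (nat_lit 304) (nat_lit 10637448635) (nat_lit 76) (nat_lit 11220363708) (nat_lit 53) (nat_lit 5) (nat_lit 57) (nat_lit 5) (nat_lit 54) (nat_lit 5) (nat_lit 363) (nat_lit 316) (nat_lit 221)))) (XT.nd (nat_lit 78) (nat_lit 228) (nat_lit 0) (XT.lf (nat_lit 0) (nat_lit 17795156077) (nat_lit 152) (nat_lit 9251596162) (nat_lit 228) (nat_lit 10870653089) (nat_lit 51) (nat_lit 5) (nat_lit 53) (nat_lit 5) (nat_lit 54) (nat_lit 5) (nat_lit 364) (nat_lit 316) (nat_lit 220)) (XT.nd (nat_lit 78) (nat_lit 0) (nat_lit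 0) (XT.lf (nat_lit 0) (nat_lit 907542983) (nat_lit 228) (nat_lit 30651534032) (nat_lit 76) (nat_lit 7729518734) (nat_lit 48) (nat_lit 5) (nat_lit 51) (nat_lit 5) (nat_lit 49) (nat_lit 5) (nat_lit 365) (nat_lit 316) (nat_lit 219)) (XT.lf (nat_lit 0) (nat_lit 13339412521) (nat_lit 228) (nat_lit 1698065811) (nat_lit 76) (nat_lit 25678956081) (nat_lit 48) (nat_lit 5) (nat_lit 51) (nat_lit 5) (nat_lit 49) (nat_lit 5) (nat_lit 366) (nat_lit 316) (nat_lit 218)))))) (XT.nd (nat_lit 468) (nat_lit 532) (nat_lit 0) (XT.nd (nat_lit 234) (nat_lit 380) (nat_lit 0) (XT.nd (nat_lit 78) (nat_lit 380) (nat_lit 0) (XT.lf (nat_lit 0) (nat_lit 26684576444) (nat_lit 228) (nat_lit 12983121194) (nat_lit 76) (nat_lit 2539221295) (nat_lit 46) (nat_lit 5) (nat_lit 49) (nat_lit 5) (nat_lit 47) (nat_lit 5) (nat_lit 367) (nat_lit 316) (nat_lit 217)) (XT.nd (nat_lit 78) (nat_lit 228) (nat_lit 0) (XT.lf (nat_lit 0) (nat_lit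 18133712845) (nat_lit 152) (nat_lit 22893032874) (nat_lit 228) (nat_lit 2735294256) (nat_lit 44) (nat_lit 5) (nat_lit 46) (nat_lit 5) (nat_lit 47) (nat_lit 5) (nat_lit 368) (nat_lit 316) (nat_lit 216)) (XT.lf (nat_lit 0) (nat_lit 5669718857) (nat_lit 152) (nat_lit 4988547638) (nat_lit 228) (nat_lit 34728298386) (nat_lit 41) (nat_lit 5) (nat_lit 43) (nat_lit 5) (nat_lit 44) (nat_lit 5) (nat_lit 369) (nat_lit 316) (nat_lit 215)))) (XT.nd (nat_lit 78) (nat_lit 380) (nat_lit 0) (XT.lf (nat_lit 0) (nat_lit 25051302224) (nat_lit 228) (nat_lit 8202406131) (nat_lit 76) (nat_lit 13826208350) (nat_lit 41) (nat_lit 5) (nat_lit 44) (nat_lit 5) (nat_lit 42) (nat_lit 5) (nat_lit 370) (nat_lit 316) (nat_lit 214)) (XT.nd (nat_lit 78) (nat_lit 228) (nat_lit 0) (XT.lf (nat_lit 0) (nat_lit 25309137452) (nat_lit 152) (nat_lit 15135772404) (nat_lit 228) (nat_lit 8404602613) (nat_lit 39) (nat_lit 5) (nat_lit 41)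 (nat_lit 5) (nat_lit 42) (nat_lit 5) (nat_lit 371) (nat_lit 316) (nat_lit 213)) (XT.lf (nat_lit 0) (nat_lit 5994841217) (nat_lit 228) (nat_lit 40660455127) (nat_lit 76) (nat_lit 4044312517) (nat_lit 36) (nat_lit 5) (nat_lit 39) (nat_lit 5) (nat_lit 37) (nat_lit 5) (nat_lit 372) (nat_lit 316) (nat_lit 212))))) (XT.nd (nat_lit 234) (nat_lit 304) (nat_lit 0) (XT.nd (nat_lit 78) (nat_lit 228) (nat_lit 0) (XT.lf (nat_lit 0) (nat_lit 21327406623) (nat_lit 228) (nat_lit 7106765710) (nat_lit 76) (nat_lit 24193935720) (nat_lit 36) (nat_lit 5) (nat_lit 39) (nat_lit 5) (nat_lit 37) (nat_lit 5) (nat_lit 373) (nat_lit 316) (nat_lit 211)) (XT.nd (nat_lit 78) (nat_lit 76) (nat_lit 0) (XT.lf (nat_lit 0) (nat_lit 28663545775) (nat_lit 152) (nat_lit 9027022219) (nat_lit 228) (nat_lit 16954548493) (nat_lit 34) (nat_lit 5) (nat_lit 36) (nat_lit 5) (nat_lit 37) (nat_lit 5) (nat_lit 374) (nat_lit 316) (nat_lit 210))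 (XT.lf (nat_lit 0) (nat_lit 9668881824) (nat_lit 76) (nat_lit 45467652564) (nat_lit 152) (nat_lit 1618504703) (nat_lit 33) (nat_lit 5) (nat_lit 34) (nat_lit 5) (nat_lit 35) (nat_lit 4) (nat_lit 375) (nat_lit 316) (nat_lit 209)))) (XT.nd (nat_lit 78) (nat_lit 228) (nat_lit 0) (XT.lf (nat_lit 0) (nat_lit 14551869571) (nat_lit 152) (nat_lit 11570342207) (nat_lit 76) (nat_lit 32833566896) (nat_lit 32) (nat_lit 5) (nat_lit 34) (nat_lit 5) (nat_lit 33) (nat_lit 5) (nat_lit 376) (nat_lit 316) (nat_lit 208)) (XT.nd (nat_lit 78) (nat_lit 76) (nat_lit 0) (XT.lf (nat_lit 0) (nat_lit 26197359986) (nat_lit 152) (nat_lit 5541544293) (nat_lit 228) (nat_lit 29519924547) (nat_lit 30) (nat_lit 5) (nat_lit 32) (nat_lit 5) (nat_lit 33) (nat_lit 5) (nat_lit 377) (nat_lit 316) (nat_lit 207)) (XT.lf (nat_lit 0) (nat_lit 2292406358) (nat_lit 76) (nat_lit 47779390193) (nat_lit 152) (nat_lit 13596642405) (nat_lit 29)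 (nat_lit 5) (nat_lit 30) (nat_lit 5) (nat_lit 31) (nat_lit 4) (nat_lit 378) (nat_lit 316) (nat_lit 206))))))) (XT.nd (nat_lit 42042) (nat_lit 0) (nat_lit 14364) (XT.nd (nat_lit 390) (nat_lit 380) (nat_lit 0) (XT.nd (nat_lit 156) (nat_lit 152) (nat_lit 0) (XT.nd (nat_lit 78) (nat_lit 152) (nat_lit 0) (XT.lf (nat_lit 0) (nat_lit 3472242112) (nat_lit 152) (nat_lit 24048707811) (nat_lit 76) (nat_lit 38664370307) (nat_lit 28) (nat_lit 5) (nat_lit 30) (nat_lit 5) (nat_lit 29) (nat_lit 5) (nat_lit 379) (nat_lit 316) (nat_lit 205)) (XT.lf (nat_lit 0) (nat_lit 15288813656) (nat_lit 152) (nat_lit 5964558955) (nat_lit 228) (nat_lit 47566436646) (nat_lit 26) (nat_lit 5) (nat_lit 28) (nat_lit 5) (nat_lit 29) (nat_lit 5) (nat_lit 380) (nat_lit 316) (nat_lit 204))) (XT.nd (nat_lit 78) (nat_lit 152) (nat_lit 0) (XT.lf (nat_lit 0) (nat_lit 40324454352) (nat_lit 228) (nat_lit 14662516096) (nat_lit 76) (nat_lit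 16587027666) (nat_lit 26) (nat_lit 5) (nat_lit 29) (nat_lit 5) (nat_lit 27) (nat_lit 4) (nat_lit 381) (nat_lit 316) (nat_lit 203)) (XT.nd (nat_lit 78) (nat_lit 76) (nat_lit 0) (XT.lf (nat_lit 0) (nat_lit 26591909924) (nat_lit 76) (nat_lit 34064089710) (nat_lit 152) (nat_lit 13800691610) (nat_lit 25) (nat_lit 5) (nat_lit 26) (nat_lit 5) (nat_lit 27) (nat_lit 4) (nat_lit 382) (nat_lit 316) (nat_lit 202)) (XT.lf (nat_lit 0) (nat_lit 4576097733) (nat_lit 152) (nat_lit 7324370891) (nat_lit 76) (nat_lit 65577437483) (nat_lit 24) (nat_lit 5) (nat_lit 26) (nat_lit 5) (nat_lit 25) (nat_lit 5) (nat_lit 383) (nat_lit 316) (nat_lit 201))))) (XT.nd (nat_lit 234) (nat_lit 152) (nat_lit 0) (XT.nd (nat_lit 78) (nat_lit 76) (nat_lit 0) (XT.lf (nat_lit 0) (nat_lit 24038685401) (nat_lit 228) (nat_lit 44962997410) (nat_lit 76) (nat_lit 11630830198) (nat_lit 22) (nat_lit 5) (nat_lit 25) (nat_lit 5) (nat_lit 23)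 (nat_lit 4) (nat_lit 384) (nat_lit 316) (nat_lit 200)) (XT.nd (nat_lit 78) (nat_lit 76) (nat_lit 0) (XT.lf (nat_lit 0) (nat_lit 44662542848) (nat_lit 228) (nat_lit 3112175332) (nat_lit 76) (nat_lit 36164489638) (nat_lit 22) (nat_lit 5) (nat_lit 25) (nat_lit 5) (nat_lit 23) (nat_lit 4) (nat_lit 385) (nat_lit 316) (nat_lit 199)) (XT.lf (nat_lit 0) (nat_lit 41629354682) (nat_lit 76) (nat_lit 25080673531) (nat_lit 152) (nat_lit 20689437792) (nat_lit 21) (nat_lit 5) (nat_lit 22) (nat_lit 5) (nat_lit 23) (nat_lit 4) (nat_lit 386) (nat_lit 316) (nat_lit 198)))) (XT.nd (nat_lit 78) (nat_lit 152) (nat_lit 0) (XT.lf (nat_lit 0) (nat_lit 88659230923) (nat_lit 76) (nat_lit 1225198101) (nat_lit 152) (nat_lit 1147573451) (nat_lit 21) (nat_lit 5) (nat_lit 22) (nat_lit 5) (nat_lit 23) (nat_lit 4) (nat_lit 387) (nat_lit 316) (nat_lit 197)) (XT.nd (nat_lit 78) (nat_lit 0) (nat_lit 0) (XT.lf (nat_lit 0) (nat_lit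 19642647553) (nat_lit 152) (nat_lit 51212457740) (nat_lit 76) (nat_lit 23965997607) (nat_lit 19) (nat_lit 5) (nat_lit 21) (nat_lit 5) (nat_lit 20) (nat_lit 4) (nat_lit 388) (nat_lit 316) (nat_lit 196)) (XT.lf (nat_lit 0) (nat_lit 41478852210) (nat_lit 152) (nat_lit 6897429455) (nat_lit 76) (nat_lit 50422131047) (nat_lit 19) (nat_lit 5) (nat_lit 21) (nat_lit 5) (nat_lit 20) (nat_lit 4) (nat_lit 389) (nat_lit 316) (nat_lit 195)))))) (XT.nd (nat_lit 468) (nat_lit 1748) (nat_lit 0) (XT.nd (nat_lit 234) (nat_lit 0) (nat_lit 152) (XT.nd (nat_lit 78) (nat_lit 0) (nat_lit 76) (XT.lf (nat_lit 0) (nat_lit 584820261) (nat_lit 1140) (nat_lit 2171096187) (nat_lit 1140) (nat_lit 2171096187) (nat_lit 231) (nat_lit 3) (nat_lit 246) (nat_lit 3) (nat_lit 246) (nat_lit 5) (nat_lit 317) (nat_lit 317) (nat_lit 266)) (XT.nd (nat_lit 78) (nat_lit 0) (nat_lit 0) (XT.lf (nat_lit 0) (nat_lit 2399573080) (nat_lit 1064)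 (nat_lit 6702287304) (nat_lit 1140) (nat_lit 961403196) (nat_lit 232) (nat_lit 5) (nat_lit 246) (nat_lit 5) (nat_lit 247) (nat_lit 5) (nat_lit 318) (nat_lit 317) (nat_lit 265)) (XT.lf (nat_lit 76) (nat_lit 1183796912) (nat_lit 0) (nat_lit 2545143680) (nat_lit 1140) (nat_lit 6552954937) (nat_lit 233) (nat_lit 5) (nat_lit 232) (nat_lit 5) (nat_lit 247) (nat_lit 5) (nat_lit 319) (nat_lit 317) (nat_lit 264)))) (XT.nd (nat_lit 78) (nat_lit 0) (nat_lit 76) (XT.lf (nat_lit 0) (nat_lit 5165391325) (nat_lit 1064) (nat_lit 990489065) (nat_lit 1140) (nat_lit 4354426788) (nat_lit 233) (nat_lit 5) (nat_lit 247) (nat_lit 5) (nat_lit 248) (nat_lit 5) (nat_lit 320) (nat_lit 317) (nat_lit 263)) (XT.nd (nat_lit 78) (nat_lit 0) (nat_lit 0) (XT.lf (nat_lit 0) (nat_lit 6713689474) (nat_lit 1064) (nat_lit 3153608062) (nat_lit 1140) (nat_lit 881704503) (nat_lit 234) (nat_lit 5) (nat_lit 248) (nat_lit 5) (nat_lit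 249) (nat_lit 5) (nat_lit 321) (nat_lit 317) (nat_lit 262)) (XT.lf (nat_lit 76) (nat_lit 5637756852) (nat_lit 0) (nat_lit 2763930729) (nat_lit 1140) (nat_lit 2596135874) (nat_lit 235) (nat_lit 5) (nat_lit 234) (nat_lit 5) (nat_lit 249) (nat_lit 5) (nat_lit 322) (nat_lit 317) (nat_lit 261))))) (XT.nd (nat_lit 234) (nat_lit 988) (nat_lit 0) (XT.nd (nat_lit 78) (nat_lit 1064) (nat_lit 0) (XT.lf (nat_lit 76) (nat_lit 3659570139) (nat_lit 0) (nat_lit 6566140285) (nat_lit 1140) (nat_lit 1031884257) (nat_lit 236) (nat_lit 5) (nat_lit 235) (nat_lit 5) (nat_lit 250) (nat_lit 5) (nat_lit 323) (nat_lit 317) (nat_lit 260)) (XT.nd (nat_lit 78) (nat_lit 0) (nat_lit 0) (XT.lf (nat_lit 0) (nat_lit 648653920) (nat_lit 1140) (nat_lit 9870060286) (nat_lit 1216) (nat_lit 1010017682) (nat_lit 221) (nat_lit 5) (nat_lit 236) (nat_lit 5) (nat_lit 237) (nat_lit 5) (nat_lit 324) (nat_lit 317) (nat_lit 259)) (XT.lf (nat_lit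 0) (nat_lit 2480348665) (nat_lit 1140) (nat_lit 395129662) (nat_lit 1216) (nat_lit 8935037631) (nat_lit 221) (nat_lit 5) (nat_lit 236) (nat_lit 5) (nat_lit 237) (nat_lit 5) (nat_lit 325) (nat_lit 317) (nat_lit 258)))) (XT.nd (nat_lit 78) (nat_lit 1064) (nat_lit 0) (XT.lf (nat_lit 0) (nat_lit 4493157061) (nat_lit 1140) (nat_lit 2454453828) (nat_lit 1216) (nat_lit 5156140688) (nat_lit 222) (nat_lit 5) (nat_lit 237) (nat_lit 5) (nat_lit 238) (nat_lit 5) (nat_lit 326) (nat_lit 317) (nat_lit 257)) (XT.nd (nat_lit 78) (nat_lit 1140) (nat_lit 0) (XT.lf (nat_lit 0) (nat_lit 6675120400) (nat_lit 1140) (nat_lit 4546372749) (nat_lit 76) (nat_lit 1188146307) (nat_lit 223) (nat_lit 5) (nat_lit 238) (nat_lit 5) (nat_lit 224) (nat_lit 5) (nat_lit 327) (nat_lit 317) (nat_lit 256)) (XT.lf (nat_lit 0) (nat_lit 6022806583) (nat_lit 1140) (nat_lit 3047113589) (nat_lit 1216) (nat_lit 3657833140) (nat_lit 208) (nat_lit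 5) (nat_lit 223) (nat_lit 5) (nat_lit 224) (nat_lit 5) (nat_lit 328) (nat_lit 317) (nat_lit 255))))))))
noncomputable def xc80 : XT := (XT.nd (nat_lit 1716) (nat_lit 4104) (nat_lit 0) (XT.nd (nat_lit 858) (nat_lit 3800) (nat_lit 0) (XT.nd (nat_lit 390) (nat_lit 2584) (nat_lit 0) (XT.nd (nat_lit 156) (nat_lit 1064) (nat_lit 0) (XT.nd (nat_lit 78) (nat_lit 684) (nat_lit 0) (XT.lf (nat_lit 0) (nat_lit 4139408640) (nat_lit 836) (nat_lit 7537562553) (nat_lit 912) (nat_lit 1382067979) (nat_lit 197) (nat_lit 5) (nat_lit 208) (nat_lit 5) (nat_lit 209) (nat_lit 5) (nat_lit 329) (nat_lit 317) (nat_lit 254)) (XT.lf (nat_lit 0) (nat_lit 1074387110) (nat_lit 684) (nat_lit 11194514965) (nat_lit 76) (nat_lit 1135138380) (nat_lit 188) (nat_lit 5) (nat_lit 197) (nat_lit 5) (nat_lit 189) (nat_lit 5) (nat_lit 330) (nat_lit 317) (nat_lit 253))) (XT.nd (nat_lit 78) (nat_lit 532) (nat_lit 0) (XT.lf (nat_lit 0) (nat_lit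 188036675) (nat_lit 532) (nat_lit 3563391471) (nat_lit 608) (nat_lit 10010699423) (nat_lit 181) (nat_lit 5) (nat_lit 188) (nat_lit 5) (nat_lit 189) (nat_lit 5) (nat_lit 331) (nat_lit 317) (nat_lit 252)) (XT.nd (nat_lit 78) (nat_lit 532) (nat_lit 0) (XT.lf (nat_lit 0) (nat_lit 6689514129) (nat_lit 608) (nat_lit 1858567976) (nat_lit 76) (nat_lit 5586256074) (nat_lit 181) (nat_lit 5) (nat_lit 189) (nat_lit 5) (nat_lit 182) (nat_lit 5) (nat_lit 332) (nat_lit 317) (nat_lit 251)) (XT.lf (nat_lit 0) (nat_lit 9878075207) (nat_lit 608) (nat_lit 3956719067) (nat_lit 76) (nat_lit 687291188) (nat_lit 174) (nat_lit 5) (nat_lit 182) (nat_lit 5) (nat_lit 175) (nat_lit 5) (nat_lit 333) (nat_lit 317) (nat_lit 250))))) (XT.nd (nat_lit 234) (nat_lit 988) (nat_lit 0) (XT.nd (nat_lit 78) (nat_lit 1064) (nat_lit 0) (XT.lf (nat_lit 0) (nat_lit 8764451173) (nat_lit 532) (nat_lit 4612257663) (nat_lit 608) (nat_lit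 1548023620) (nat_lit 167) (nat_lit 5) (nat_lit 174) (nat_lit 5) (nat_lit 175) (nat_lit 5) (nat_lit 334) (nat_lit 317) (nat_lit 249)) (XT.nd (nat_lit 78) (nat_lit 456) (nat_lit 0) (XT.lf (nat_lit 0) (nat_lit 1789180298) (nat_lit 608) (nat_lit 8458678765) (nat_lit 76) (nat_lit 5095601641) (nat_lit 159) (nat_lit 5) (nat_lit 167) (nat_lit 5) (nat_lit 160) (nat_lit 5) (nat_lit 335) (nat_lit 317) (nat_lit 248)) (XT.lf (nat_lit 0) (nat_lit 4922496542) (nat_lit 456) (nat_lit 460234918) (nat_lit 532) (nat_lit 10396316918) (nat_lit 153) (nat_lit 5) (nat_lit 159) (nat_lit 5) (nat_lit 160) (nat_lit 5) (nat_lit 336) (nat_lit 317) (nat_lit 247)))) (XT.nd (nat_lit 78) (nat_lit 532) (nat_lit 0) (XT.lf (nat_lit 0) (nat_lit 2835539854) (nat_lit 456) (nat_lit 6494604547) (nat_lit 532) (nat_lit 6901072078) (nat_lit 147) (nat_lit 5) (nat_lit 153) (nat_lit 5) (nat_lit 154) (nat_lit 5) (nat_lit 337) (nat_lit 317)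 (nat_lit 246)) (XT.nd (nat_lit 78) (nat_lit 76) (nat_lit 0) (XT.lf (nat_lit 0) (nat_lit 667857680) (nat_lit 456) (nat_lit 12932676526) (nat_lit 532) (nat_lit 3101715899) (nat_lit 141) (nat_lit 5) (nat_lit 147) (nat_lit 5) (nat_lit 148) (nat_lit 5) (nat_lit 338) (nat_lit 317) (nat_lit 245)) (XT.lf (nat_lit 0) (nat_lit 1041888278) (nat_lit 532) (nat_lit 1593282466) (nat_lit 76) (nat_lit 14556284080) (nat_lit 140) (nat_lit 5) (nat_lit 147) (nat_lit 5) (nat_lit 141) (nat_lit 5) (nat_lit 339) (nat_lit 317) (nat_lit 244)))))) (XT.nd (nat_lit 390) (nat_lit 1748) (nat_lit 0) (XT.nd (nat_lit 156) (nat_lit 1216) (nat_lit 0) (XT.nd (nat_lit 78) (nat_lit 380) (nat_lit 0) (XT.lf (nat_lit 0) (nat_lit 5510016440) (nat_lit 532) (nat_lit 4011823821) (nat_lit 76) (nat_lit 8176935741) (nat_lit 134) (nat_lit 5) (nat_lit 141) (nat_lit 5) (nat_lit 135) (nat_lit 5) (nat_lit 340) (nat_lit 317) (nat_lit 243)) (XT.lf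 (nat_lit 0) (nat_lit 10339796118) (nat_lit 456) (nat_lit 6543428032) (nat_lit 76) (nat_lit 1344112957) (nat_lit 129) (nat_lit 5) (nat_lit 135) (nat_lit 5) (nat_lit 130) (nat_lit 5) (nat_lit 341) (nat_lit 317) (nat_lit 242))) (XT.nd (nat_lit 78) (nat_lit 836) (nat_lit 0) (XT.lf (nat_lit 0) (nat_lit 9519113633) (nat_lit 380) (nat_lit 6091766987) (nat_lit 456) (nat_lit 3165471385) (nat_lit 124) (nat_lit 5) (nat_lit 129) (nat_lit 5) (nat_lit 130) (nat_lit 5) (nat_lit 342) (nat_lit 317) (nat_lit 241)) (XT.nd (nat_lit 78) (nat_lit 380) (nat_lit 0) (XT.lf (nat_lit 0) (nat_lit 1918585359) (nat_lit 456) (nat_lit 12143243011) (nat_lit 76) (nat_lit 5285665020) (nat_lit 118) (nat_lit 5) (nat_lit 124) (nat_lit 5) (nat_lit 119) (nat_lit 5) (nat_lit 343) (nat_lit 317) (nat_lit 240)) (XT.lf (nat_lit 0) (nat_lit 4698700964) (nat_lit 380) (nat_lit 2668379494) (nat_lit 456) (nat_lit 12573917874) (nat_lit 113)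 (nat_lit 5) (nat_lit 118) (nat_lit 5) (nat_lit 119) (nat_lit 5) (nat_lit 344) (nat_lit 317) (nat_lit 239))))) (XT.nd (nat_lit 234) (nat_lit 988) (nat_lit 0) (XT.nd (nat_lit 78) (nat_lit 456) (nat_lit 0) (XT.lf (nat_lit 0) (nat_lit 1988052639) (nat_lit 304) (nat_lit 11307748227) (nat_lit 380) (nat_lit 7262160593) (nat_lit 109) (nat_lit 5) (nat_lit 113) (nat_lit 5) (nat_lit 114) (nat_lit 5) (nat_lit 345) (nat_lit 317) (nat_lit 238)) (XT.nd (nat_lit 78) (nat_lit 456) (nat_lit 0) (XT.lf (nat_lit 0) (nat_lit 19684893688) (nat_lit 380) (nat_lit 871597373) (nat_lit 76) (nat_lit 644379732) (nat_lit 109) (nat_lit 5) (nat_lit 114) (nat_lit 5) (nat_lit 110) (nat_lit 5) (nat_lit 346) (nat_lit 317) (nat_lit 237)) (XT.lf (nat_lit 0) (nat_lit 4693453750) (nat_lit 456) (nat_lit 4001254607) (nat_lit 76) (nat_lit 13172006675) (nat_lit 103) (nat_lit 5) (nat_lit 109) (nat_lit 5) (nat_lit 104) (nat_lit 5) (nat_lit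 347) (nat_lit 317) (nat_lit 236)))) (XT.nd (nat_lit 78) (nat_lit 684) (nat_lit 0) (XT.lf (nat_lit 0) (nat_lit 11351406789) (nat_lit 380) (nat_lit 7358907853) (nat_lit 76) (nat_lit 3850018667) (nat_lit 99) (nat_lit 5) (nat_lit 104) (nat_lit 5) (nat_lit 100) (nat_lit 5) (nat_lit 348) (nat_lit 317) (nat_lit 235)) (XT.nd (nat_lit 78) (nat_lit 380) (nat_lit 0) (XT.lf (nat_lit 0) (nat_lit 12278529126) (nat_lit 304) (nat_lit 6287665672) (nat_lit 380) (nat_lit 4715733123) (nat_lit 95) (nat_lit 5) (nat_lit 99) (nat_lit 5) (nat_lit 100) (nat_lit 5) (nat_lit 349) (nat_lit 317) (nat_lit 234)) (XT.lf (nat_lit 0) (nat_lit 2269248072) (nat_lit 380) (nat_lit 14962650231) (nat_lit 76) (nat_lit 6800865832) (nat_lit 90) (nat_lit 5) (nat_lit 95) (nat_lit 5) (nat_lit 91) (nat_lit 5) (nat_lit 350) (nat_lit 317) (nat_lit 233))))))) (XT.nd (nat_lit 858) (nat_lit 1748) (nat_lit 0) (XT.nd (nat_lit 390) (nat_lit 1216)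 (nat_lit 0) (XT.nd (nat_lit 156) (nat_lit 608) (nat_lit 0) (XT.nd (nat_lit 78) (nat_lit 228) (nat_lit 0) (XT.lf (nat_lit 0) (nat_lit 5522570350) (nat_lit 304) (nat_lit 4193036769) (nat_lit 380) (nat_lit 15097856530) (nat_lit 86) (nat_lit 5) (nat_lit 90) (nat_lit 5) (nat_lit 91) (nat_lit 5) (nat_lit 351) (nat_lit 317) (nat_lit 232)) (XT.lf (nat_lit 0) (nat_lit 1622859095) (nat_lit 228) (nat_lit 16152340990) (nat_lit 304) (nat_lit 7850781931) (nat_lit 83) (nat_lit 5) (nat_lit 86) (nat_lit 5) (nat_lit 87) (nat_lit 5) (nat_lit 352) (nat_lit 317) (nat_lit 231))) (XT.nd (nat_lit 78) (nat_lit 608) (nat_lit 0) (XT.lf (nat_lit 0) (nat_lit 23911044206) (nat_lit 228) (nat_lit 2546408438) (nat_lit 304) (nat_lit 15094071) (nat_lit 83) (nat_lit 5) (nat_lit 86) (nat_lit 5) (nat_lit 87) (nat_lit 5) (nat_lit 353) (nat_lit 317) (nat_lit 230)) (XT.nd (nat_lit 78) (nat_lit 228) (nat_lit 0) (XT.lf (nat_lit 0) (nat_lit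 8342101779) (nat_lit 380) (nat_lit 7231269638) (nat_lit 76) (nat_lit 11777010662) (nat_lit 78) (nat_lit 5) (nat_lit 83) (nat_lit 5) (nat_lit 79) (nat_lit 5) (nat_lit 354) (nat_lit 317) (nat_lit 229)) (XT.lf (nat_lit 0) (nat_lit 15971752078) (nat_lit 228) (nat_lit 1331509533) (nat_lit 304) (nat_lit 10963260149) (nat_lit 75) (nat_lit 5) (nat_lit 78) (nat_lit 5) (nat_lit 79) (nat_lit 5) (nat_lit 355) (nat_lit 317) (nat_lit 228))))) (XT.nd (nat_lit 234) (nat_lit 456) (nat_lit 0) (XT.nd (nat_lit 78) (nat_lit 532) (nat_lit 0) (XT.lf (nat_lit 0) (nat_lit 11319614240) (nat_lit 228) (nat_lit 15688903223) (nat_lit 304) (nat_lit 2211078892) (nat_lit 72) (nat_lit 5) (nat_lit 75) (nat_lit 5) (nat_lit 76) (nat_lit 5) (nat_lit 356) (nat_lit 317) (nat_lit 227)) (XT.nd (nat_lit 78) (nat_lit 228) (nat_lit 0) (XT.lf (nat_lit 0) (nat_lit 6164710681) (nat_lit 228) (nat_lit 859875267) (nat_lit 304) (nat_lit 23188272978)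 (nat_lit 68) (nat_lit 5) (nat_lit 71) (nat_lit 5) (nat_lit 72) (nat_lit 5) (nat_lit 357) (nat_lit 317) (nat_lit 226)) (XT.lf (nat_lit 0) (nat_lit 369562053) (nat_lit 228) (nat_lit 16620267027) (nat_lit 304) (nat_lit 14255901072) (nat_lit 65) (nat_lit 5) (nat_lit 68) (nat_lit 5) (nat_lit 69) (nat_lit 5) (nat_lit 358) (nat_lit 317) (nat_lit 225)))) (XT.nd (nat_lit 78) (nat_lit 456) (nat_lit 0) (XT.lf (nat_lit 0) (nat_lit 26474120690) (nat_lit 228) (nat_lit 1218000050) (nat_lit 304) (nat_lit 4630968215) (nat_lit 65) (nat_lit 5) (nat_lit 68) (nat_lit 5) (nat_lit 69) (nat_lit 5) (nat_lit 359) (nat_lit 317) (nat_lit 224)) (XT.nd (nat_lit 78) (nat_lit 228) (nat_lit 0) (XT.lf (nat_lit 0) (nat_lit 5697326814) (nat_lit 228) (nat_lit 12838181072) (nat_lit 76) (nat_lit 14907367214) (nat_lit 62) (nat_lit 5) (nat_lit 65) (nat_lit 5) (nat_lit 63) (nat_lit 5) (nat_lit 360) (nat_lit 317) (nat_lit 223)) (XT.lf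 (nat_lit 0) (nat_lit 14075074416) (nat_lit 228) (nat_lit 2564220377) (nat_lit 304) (nat_lit 17972195910) (nat_lit 59) (nat_lit 5) (nat_lit 62) (nat_lit 5) (nat_lit 63) (nat_lit 5) (nat_lit 361) (nat_lit 317) (nat_lit 222)))))) (XT.nd (nat_lit 468) (nat_lit 912) (nat_lit 0) (XT.nd (nat_lit 234) (nat_lit 380) (nat_lit 0) (XT.nd (nat_lit 78) (nat_lit 304) (nat_lit 0) (XT.lf (nat_lit 0) (nat_lit 6735269801) (nat_lit 152) (nat_lit 21712032614) (nat_lit 228) (nat_lit 7381672816) (nat_lit 57) (nat_lit 5) (nat_lit 59) (nat_lit 5) (nat_lit 60) (nat_lit 5) (nat_lit 362) (nat_lit 317) (nat_lit 221)) (XT.nd (nat_lit 78) (nat_lit 228) (nat_lit 0) (XT.lf (nat_lit 0) (nat_lit 3889337304) (nat_lit 228) (nat_lit 1390777853) (nat_lit 76) (nat_lit 31819429358) (nat_lit 56) (nat_lit 5) (nat_lit 59) (nat_lit 5) (nat_lit 57) (nat_lit 5) (nat_lit 363) (nat_lit 317) (nat_lit 220)) (XT.lf (nat_lit 0) (nat_lit 15946913472)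 (nat_lit 304) (nat_lit 10394452554) (nat_lit 76) (nat_lit 12078818883) (nat_lit 53) (nat_lit 5) (nat_lit 57) (nat_lit 5) (nat_lit 54) (nat_lit 5) (nat_lit 364) (nat_lit 317) (nat_lit 219)))) (XT.nd (nat_lit 78) (nat_lit 228) (nat_lit 0) (XT.lf (nat_lit 0) (nat_lit 19437570944) (nat_lit 152) (nat_lit 9410047233) (nat_lit 228) (nat_lit 10952037005) (nat_lit 51) (nat_lit 5) (nat_lit 53) (nat_lit 5) (nat_lit 54) (nat_lit 5) (nat_lit 365) (nat_lit 317) (nat_lit 218)) (XT.nd (nat_lit 78) (nat_lit 0) (nat_lit 0) (XT.lf (nat_lit 0) (nat_lit 1394482922) (nat_lit 228) (nat_lit 31433697991) (nat_lit 76) (nat_lit 8411445577) (nat_lit 48) (nat_lit 5) (nat_lit 51) (nat_lit 5) (nat_lit 49) (nat_lit 5) (nat_lit 366) (nat_lit 317) (nat_lit 217)) (XT.lf (nat_lit 0) (nat_lit 14426919138) (nat_lit 228) (nat_lit 1068290299) (nat_lit 76) (nat_lit 27244285701) (nat_lit 48) (nat_lit 5) (nat_lit 51) (nat_lit 5) (nat_lit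 49) (nat_lit 5) (nat_lit 367) (nat_lit 317) (nat_lit 216))))) (XT.nd (nat_lit 234) (nat_lit 380) (nat_lit 0) (XT.nd (nat_lit 78) (nat_lit 380) (nat_lit 0) (XT.lf (nat_lit 0) (nat_lit 28428747647) (nat_lit 228) (nat_lit 12928489964) (nat_lit 76) (nat_lit 2947590982) (nat_lit 46) (nat_lit 5) (nat_lit 49) (nat_lit 5) (nat_lit 47) (nat_lit 5) (nat_lit 368) (nat_lit 317) (nat_lit 215)) (XT.nd (nat_lit 78) (nat_lit 228) (nat_lit 0) (XT.lf (nat_lit 0) (nat_lit 19724011856) (nat_lit 152) (nat_lit 23751063774) (nat_lit 228) (nat_lit 2463025123) (nat_lit 44) (nat_lit 5) (nat_lit 46) (nat_lit 5) (nat_lit 47) (nat_lit 5) (nat_lit 369) (nat_lit 317) (nat_lit 214)) (XT.lf (nat_lit 0) (nat_lit 6625099414) (nat_lit 152) (nat_lit 4954493470) (nat_lit 228) (nat_lit 36064526311) (nat_lit 41) (nat_lit 5) (nat_lit 43) (nat_lit 5) (nat_lit 44) (nat_lit 5) (nat_lit 370) (nat_lit 317) (nat_lit 213)))) (XT.nd (nat_lit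 78) (nat_lit 380) (nat_lit 0) (XT.lf (nat_lit 0) (nat_lit 26676379775) (nat_lit 228) (nat_lit 7964008774) (nat_lit 76) (nat_lit 14782232866) (nat_lit 41) (nat_lit 5) (nat_lit 44) (nat_lit 5) (nat_lit 42) (nat_lit 5) (nat_lit 371) (nat_lit 317) (nat_lit 212)) (XT.nd (nat_lit 78) (nat_lit 228) (nat_lit 0) (XT.lf (nat_lit 0) (nat_lit 27204522359) (nat_lit 152) (nat_lit 15623461996) (nat_lit 228) (nat_lit 8453068629) (nat_lit 39) (nat_lit 5) (nat_lit 41) (nat_lit 5) (nat_lit 42) (nat_lit 5) (nat_lit 372) (nat_lit 317) (nat_lit 211)) (XT.lf (nat_lit 0) (nat_lit 6650241928) (nat_lit 228) (nat_lit 42066317314) (nat_lit 76) (nat_lit 4507258371) (nat_lit 36) (nat_lit 5) (nat_lit 39) (nat_lit 5) (nat_lit 37) (nat_lit 5) (nat_lit 373) (nat_lit 317) (nat_lit 210))))))))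
noncomputable def xc81 : XT := (XT.nd (nat_lit 43056) (nat_lit 0) (nat_lit 6460) (XT.nd (nat_lit 858) (nat_lit 380) (nat_lit 0) (XT.nd (nat_lit 390) (nat_lit 456) (nat_lit 0) (XT.nd (nat_lit 156) (nat_lit 304) (nat_lit 0) (XT.nd (nat_lit 78) (nat_lit 152) (nat_lit 0) (XT.lf (nat_lit 0) (nat_lit 22732499478) (nat_lit 228) (nat_lit 6864808215) (nat_lit 76) (nat_lit 25651947009) (nat_lit 36) (nat_lit 5) (nat_lit 39) (nat_lit 5) (nat_lit 37) (nat_lit 5) (nat_lit 374) (nat_lit 317) (nat_lit 209)) (XT.lf (nat_lit 0) (nat_lit 30676897480) (nat_lit 152) (nat_lit 9226368784) (nat_lit 228) (nat_lit 17464168496) (nat_lit 34) (nat_lit 5) (nat_lit 36) (nat_lit 5) (nat_lit 37) (nat_lit 5) (nat_lit 375) (nat_lit 317) (nat_lit 208))) (XT.nd (nat_lit 78) (nat_lit 228) (nat_lit 0) (XT.lf (nat_lit 0) (nat_lit 10723169458) (nat_lit 76) (nat_lit 47490528750) (nat_lit 152) (nat_lit 1369394673) (nat_lit 33) (nat_lit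 5) (nat_lit 34) (nat_lit 5) (nat_lit 35) (nat_lit 4) (nat_lit 376) (nat_lit 317) (nat_lit 207)) (XT.nd (nat_lit 78) (nat_lit 152) (nat_lit 0) (XT.lf (nat_lit 0) (nat_lit 15587648848) (nat_lit 152) (nat_lit 11598983883) (nat_lit 76) (nat_lit 34707607887) (nat_lit 32) (nat_lit 5) (nat_lit 34) (nat_lit 5) (nat_lit 33) (nat_lit 5) (nat_lit 377) (nat_lit 317) (nat_lit 206)) (XT.lf (nat_lit 0) (nat_lit 28041341351) (nat_lit 152) (nat_lit 5583152651) (nat_lit 228) (nat_lit 30688239391) (nat_lit 30) (nat_lit 5) (nat_lit 32) (nat_lit 5) (nat_lit 33) (nat_lit 5) (nat_lit 378) (nat_lit 317) (nat_lit 205))))) (XT.nd (nat_lit 234) (nat_lit 152) (nat_lit 0) (XT.nd (nat_lit 78) (nat_lit 228) (nat_lit 0) (XT.lf (nat_lit 0) (nat_lit 2932409035) (nat_lit 76) (nat_lit 49934606668) (nat_lit 152) (nat_lit 13976022474) (nat_lit 29) (nat_lit 5) (nat_lit 30) (nat_lit 5) (nat_lit 31) (nat_lit 4) (nat_lit 379) (nat_lit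 317) (nat_lit 204)) (XT.nd (nat_lit 78) (nat_lit 152) (nat_lit 0) (XT.lf (nat_lit 0) (nat_lit 3926415313) (nat_lit 152) (nat_lit 24745127052) (nat_lit 76) (nat_lit 40814558762) (nat_lit 28) (nat_lit 5) (nat_lit 30) (nat_lit 5) (nat_lit 29) (nat_lit 5) (nat_lit 380) (nat_lit 317) (nat_lit 203)) (XT.lf (nat_lit 0) (nat_lit 16544765637) (nat_lit 152) (nat_lit 6043201354) (nat_lit 228) (nat_lit 49664609926) (nat_lit 26) (nat_lit 5) (nat_lit 28) (nat_lit 5) (nat_lit 29) (nat_lit 5) (nat_lit 381) (nat_lit 317) (nat_lit 202)))) (XT.nd (nat_lit 78) (nat_lit 152) (nat_lit 0) (XT.lf (nat_lit 0) (nat_lit 42601664252) (nat_lit 228) (nat_lit 14921714938) (nat_lit 76) (nat_lit 17621427281) (nat_lit 26) (nat_lit 5) (nat_lit 29) (nat_lit 5) (nat_lit 27) (nat_lit 4) (nat_lit 382) (nat_lit 317) (nat_lit 201)) (XT.nd (nat_lit 78) (nat_lit 76) (nat_lit 0) (XT.lf (nat_lit 0) (nat_lit 28381847362) (nat_lit 76) (nat_lit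 35559936563) (nat_lit 152) (nat_lit 14230093368) (nat_lit 25) (nat_lit 5) (nat_lit 26) (nat_lit 5) (nat_lit 27) (nat_lit 4) (nat_lit 383) (nat_lit 317) (nat_lit 200)) (XT.lf (nat_lit 0) (nat_lit 5048280656) (nat_lit 152) (nat_lit 7247270299) (nat_lit 76) (nat_lit 69048894576) (nat_lit 24) (nat_lit 5) (nat_lit 26) (nat_lit 5) (nat_lit 25) (nat_lit 5) (nat_lit 384) (nat_lit 317) (nat_lit 199)))))) (XT.nd (nat_lit 41730) (nat_lit 0) (nat_lit 15276) (XT.nd (nat_lit 234) (nat_lit 152) (nat_lit 0) (XT.nd (nat_lit 78) (nat_lit 76) (nat_lit 0) (XT.lf (nat_lit 0) (nat_lit 25478418995) (nat_lit 228) (nat_lit 46775277436) (nat_lit 76) (nat_lit 12403256306) (nat_lit 22) (nat_lit 5) (nat_lit 25) (nat_lit 5) (nat_lit 23) (nat_lit 4) (nat_lit 385) (nat_lit 317) (nat_lit 198)) (XT.nd (nat_lit 78) (nat_lit 76) (nat_lit 0) (XT.lf (nat_lit 0) (nat_lit 47122145537) (nat_lit 228) (nat_lit 2852669961) (nat_lit 76)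 (nat_lit 38154508975) (nat_lit 22) (nat_lit 5) (nat_lit 25) (nat_lit 5) (nat_lit 23) (nat_lit 4) (nat_lit 386) (nat_lit 317) (nat_lit 197)) (XT.lf (nat_lit 0) (nat_lit 44114037391) (nat_lit 76) (nat_lit 26151059179) (nat_lit 152) (nat_lit 21497708614) (nat_lit 21) (nat_lit 5) (nat_lit 22) (nat_lit 5) (nat_lit 23) (nat_lit 4) (nat_lit 387) (nat_lit 317) (nat_lit 196)))) (XT.nd (nat_lit 78) (nat_lit 152) (nat_lit 0) (XT.lf (nat_lit 0) (nat_lit 93476206730) (nat_lit 76) (nat_lit 1111555122) (nat_lit 152) (nat_lit 989522535) (nat_lit 21) (nat_lit 5) (nat_lit 22) (nat_lit 5) (nat_lit 23) (nat_lit 4) (nat_lit 388) (nat_lit 317) (nat_lit 195)) (XT.nd (nat_lit 41340) (nat_lit 0) (nat_lit 16112) (XT.lf (nat_lit 0) (nat_lit 20831229200) (nat_lit 152) (nat_lit 53391419803) (nat_lit 76) (nat_lit 25333274075) (nat_lit 19) (nat_lit 5) (nat_lit 21) (nat_lit 5) (nat_lit 20) (nat_lit 4) (nat_lit 389) (nat_lit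 317) (nat_lit 194)) (XT.lf (nat_lit 0) (nat_lit 1754833085) (nat_lit 1140) (nat_lit 1691616246) (nat_lit 1140) (nat_lit 1691616246) (nat_lit 231) (nat_lit 3) (nat_lit 246) (nat_lit 3) (nat_lit 246) (nat_lit 5) (nat_lit 318) (nat_lit 318) (nat_lit 264))))) (XT.nd (nat_lit 234) (nat_lit 836) (nat_lit 0) (XT.nd (nat_lit 78) (nat_lit 0) (nat_lit 76) (XT.lf (nat_lit 76) (nat_lit 4681576495) (nat_lit 0) (nat_lit 11958170) (nat_lit 1140) (nat_lit 5805625875) (nat_lit 232) (nat_lit 5) (nat_lit 231) (nat_lit 3) (nat_lit 246) (nat_lit 5) (nat_lit 319) (nat_lit 318) (nat_lit 263)) (XT.nd (nat_lit 78) (nat_lit 0) (nat_lit 76) (XT.lf (nat_lit 76) (nat_lit 2427950208) (nat_lit 0) (nat_lit 3569178467) (nat_lit 1140) (nat_lit 4734460132) (nat_lit 233) (nat_lit 5) (nat_lit 232) (nat_lit 5) (nat_lit 247) (nat_lit 5) (nat_lit 320) (nat_lit 318) (nat_lit 262)) (XT.lf (nat_lit 76) (nat_lit 161213601) (nat_lit 0)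 (nat_lit 7238397620) (nat_lit 1140) (nat_lit 3575076361) (nat_lit 234) (nat_lit 5) (nat_lit 233) (nat_lit 5) (nat_lit 248) (nat_lit 5) (nat_lit 321) (nat_lit 318) (nat_lit 261)))) (XT.nd (nat_lit 78) (nat_lit 1064) (nat_lit 0) (XT.lf (nat_lit 0) (nat_lit 8933945739) (nat_lit 1064) (nat_lit 2082038532) (nat_lit 1140) (nat_lit 212162675) (nat_lit 234) (nat_lit 5) (nat_lit 248) (nat_lit 5) (nat_lit 249) (nat_lit 5) (nat_lit 322) (nat_lit 318) (nat_lit 260)) (XT.nd (nat_lit 78) (nat_lit 1064) (nat_lit 0) (XT.lf (nat_lit 76) (nat_lit 7113658426) (nat_lit 0) (nat_lit 3514421401) (nat_lit 1140) (nat_lit 863761714) (nat_lit 235) (nat_lit 5) (nat_lit 234) (nat_lit 5) (nat_lit 249) (nat_lit 5) (nat_lit 323) (nat_lit 318) (nat_lit 259)) (XT.lf (nat_lit 0) (nat_lit 682742636) (nat_lit 1140) (nat_lit 6711447175) (nat_lit 1216) (nat_lit 4372687742) (nat_lit 220) (nat_lit 5) (nat_lit 235) (nat_lit 5) (nat_lit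 236) (nat_lit 5) (nat_lit 324) (nat_lit 318) (nat_lit 258))))))) (XT.nd (nat_lit 858) (nat_lit 4788) (nat_lit 0) (XT.nd (nat_lit 390) (nat_lit 3116) (nat_lit 0) (XT.nd (nat_lit 156) (nat_lit 988) (nat_lit 0) (XT.nd (nat_lit 78) (nat_lit 0) (nat_lit 0) (XT.lf (nat_lit 0) (nat_lit 2350433379) (nat_lit 1140) (nat_lit 9087449779) (nat_lit 1216) (nat_lit 615722104) (nat_lit 221) (nat_lit 5) (nat_lit 236) (nat_lit 5) (nat_lit 237) (nat_lit 5) (nat_lit 325) (nat_lit 318) (nat_lit 257)) (XT.lf (nat_lit 76) (nat_lit 816390789) (nat_lit 0) (nat_lit 3385677016) (nat_lit 1216) (nat_lit 8149630692) (nat_lit 222) (nat_lit 5) (nat_lit 221) (nat_lit 5) (nat_lit 237) (nat_lit 5) (nat_lit 326) (nat_lit 318) (nat_lit 256))) (XT.nd (nat_lit 78) (nat_lit 1064) (nat_lit 0) (XT.lf (nat_lit 0) (nat_lit 6239993192) (nat_lit 1140) (nat_lit 1346241953) (nat_lit 1216) (nat_lit 5075693702) (nat_lit 222) (nat_lit 5) (nat_lit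 237) (nat_lit 5) (nat_lit 238) (nat_lit 5) (nat_lit 327) (nat_lit 318) (nat_lit 255)) (XT.nd (nat_lit 78) (nat_lit 1140) (nat_lit 0) (XT.lf (nat_lit 0) (nat_lit 8467510836) (nat_lit 1140) (nat_lit 3530372290) (nat_lit 76) (nat_lit 987198358) (nat_lit 223) (nat_lit 5) (nat_lit 238) (nat_lit 5) (nat_lit 224) (nat_lit 5) (nat_lit 328) (nat_lit 318) (nat_lit 254)) (XT.lf (nat_lit 0) (nat_lit 7531626517) (nat_lit 1140) (nat_lit 3392574253) (nat_lit 1216) (nat_lit 2396696753) (nat_lit 208) (nat_lit 5) (nat_lit 223) (nat_lit 5) (nat_lit 224) (nat_lit 5) (nat_lit 329) (nat_lit 318) (nat_lit 253))))) (XT.nd (nat_lit 234) (nat_lit 1064) (nat_lit 0) (XT.nd (nat_lit 78) (nat_lit 1216) (nat_lit 0) (XT.lf (nat_lit 0) (nat_lit 5563247708) (nat_lit 836) (nat_lit 8041582041) (nat_lit 912) (nat_lit 65679255) (nat_lit 197) (nat_lit 5) (nat_lit 208) (nat_lit 5) (nat_lit 209) (nat_lit 5) (nat_lit 330) (nat_lit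 318) (nat_lit 252)) (XT.nd (nat_lit 78) (nat_lit 532) (nat_lit 0) (XT.lf (nat_lit 0) (nat_lit 2432575931) (nat_lit 684) (nat_lit 10503737422) (nat_lit 76) (nat_lit 1097720768) (nat_lit 188) (nat_lit 5) (nat_lit 197) (nat_lit 5) (nat_lit 189) (nat_lit 5) (nat_lit 331) (nat_lit 318) (nat_lit 251)) (XT.lf (nat_lit 0) (nat_lit 1412096374) (nat_lit 532) (nat_lit 3780931085) (nat_lit 608) (nat_lit 9218562533) (nat_lit 181) (nat_lit 5) (nat_lit 188) (nat_lit 5) (nat_lit 189) (nat_lit 5) (nat_lit 332) (nat_lit 318) (nat_lit 250)))) (XT.nd (nat_lit 78) (nat_lit 1064) (nat_lit 0) (XT.lf (nat_lit 0) (nat_lit 8217941700) (nat_lit 608) (nat_lit 757515167) (nat_lit 76) (nat_lit 5828805268) (nat_lit 181) (nat_lit 5) (nat_lit 189) (nat_lit 5) (nat_lit 182) (nat_lit 5) (nat_lit 333) (nat_lit 318) (nat_lit 249)) (XT.nd (nat_lit 78) (nat_lit 532) (nat_lit 0) (XT.lf (nat_lit 0) (nat_lit 11520334913) (nat_lit 608)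 (nat_lit 2959534335) (nat_lit 76) (nat_lit 732941811) (nat_lit 174) (nat_lit 5) (nat_lit 182) (nat_lit 5) (nat_lit 175) (nat_lit 5) (nat_lit 334) (nat_lit 318) (nat_lit 248)) (XT.lf (nat_lit 0) (nat_lit 10363439389) (nat_lit 532) (nat_lit 4786935207) (nat_lit 608) (nat_lit 486565766) (nat_lit 167) (nat_lit 5) (nat_lit 174) (nat_lit 5) (nat_lit 175) (nat_lit 5) (nat_lit 335) (nat_lit 318) (nat_lit 247)))))) (XT.nd (nat_lit 468) (nat_lit 2280) (nat_lit 0) (XT.nd (nat_lit 234) (nat_lit 988) (nat_lit 0) (XT.nd (nat_lit 78) (nat_lit 912) (nat_lit 0) (XT.lf (nat_lit 0) (nat_lit 2953880384) (nat_lit 608) (nat_lit 7699372532) (nat_lit 76) (nat_lit 5424306386) (nat_lit 159) (nat_lit 5) (nat_lit 167) (nat_lit 5) (nat_lit 160) (nat_lit 5) (nat_lit 336) (nat_lit 318) (nat_lit 246)) (XT.nd (nat_lit 78) (nat_lit 456) (nat_lit 0) (XT.lf (nat_lit 0) (nat_lit 6316972864) (nat_lit 456) (nat_lit 369972942) (nat_lit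 532) (nat_lit 9849224367) (nat_lit 153) (nat_lit 5) (nat_lit 159) (nat_lit 5) (nat_lit 160) (nat_lit 5) (nat_lit 337) (nat_lit 318) (nat_lit 245)) (XT.lf (nat_lit 0) (nat_lit 4122611637) (nat_lit 456) (nat_lit 6671874619) (nat_lit 532) (nat_lit 6217614779) (nat_lit 147) (nat_lit 5) (nat_lit 153) (nat_lit 5) (nat_lit 154) (nat_lit 5) (nat_lit 338) (nat_lit 318) (nat_lit 244)))) (XT.nd (nat_lit 78) (nat_lit 532) (nat_lit 0) (XT.lf (nat_lit 0) (nat_lit 1842135802) (nat_lit 456) (nat_lit 13401060680) (nat_lit 532) (nat_lit 2264581129) (nat_lit 141) (nat_lit 5) (nat_lit 147) (nat_lit 5) (nat_lit 148) (nat_lit 5) (nat_lit 339) (nat_lit 318) (nat_lit 243)) (XT.nd (nat_lit 78) (nat_lit 456) (nat_lit 0) (XT.lf (nat_lit 0) (nat_lit 2020514852) (nat_lit 532) (nat_lit 567296679) (nat_lit 76) (nat_lit 15434767336) (nat_lit 140) (nat_lit 5) (nat_lit 147) (nat_lit 5) (nat_lit 141) (nat_lit 5) (nat_lit 340)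 (nat_lit 318) (nat_lit 242)) (XT.lf (nat_lit 0) (nat_lit 6679994383) (nat_lit 532) (nat_lit 3112796641) (nat_lit 76) (nat_lit 8763467811) (nat_lit 134) (nat_lit 5) (nat_lit 141) (nat_lit 5) (nat_lit 135) (nat_lit 5) (nat_lit 341) (nat_lit 318) (nat_lit 241))))) (XT.nd (nat_lit 234) (nat_lit 1064) (nat_lit 0) (XT.nd (nat_lit 78) (nat_lit 836) (nat_lit 0) (XT.lf (nat_lit 0) (nat_lit 11720915806) (nat_lit 456) (nat_lit 5778024544) (nat_lit 76) (nat_lit 1613247667) (nat_lit 129) (nat_lit 5) (nat_lit 135) (nat_lit 5) (nat_lit 130) (nat_lit 5) (nat_lit 342) (nat_lit 318) (nat_lit 240)) (XT.nd (nat_lit 78) (nat_lit 456) (nat_lit 0) (XT.lf (nat_lit 0) (nat_lit 11056325764) (nat_lit 380) (nat_lit 6168281173) (nat_lit 456) (nat_lit 2465003343) (nat_lit 124) (nat_lit 5) (nat_lit 129) (nat_lit 5) (nat_lit 130) (nat_lit 5) (nat_lit 343) (nat_lit 318) (nat_lit 239)) (XT.lf (nat_lit 0) (nat_lit 2828740731)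 (nat_lit 456) (nat_lit 11680146226) (nat_lit 76) (nat_lit 5781032954) (nat_lit 118) (nat_lit 5) (nat_lit 124) (nat_lit 5) (nat_lit 119) (nat_lit 5) (nat_lit 344) (nat_lit 318) (nat_lit 238)))) (XT.nd (nat_lit 78) (nat_lit 684) (nat_lit 0) (XT.lf (nat_lit 0) (nat_lit 5973216191) (nat_lit 380) (nat_lit 2547664804) (nat_lit 456) (nat_lit 12393107321) (nat_lit 113) (nat_lit 5) (nat_lit 118) (nat_lit 5) (nat_lit 119) (nat_lit 5) (nat_lit 345) (nat_lit 318) (nat_lit 237)) (XT.nd (nat_lit 78) (nat_lit 380) (nat_lit 0) (XT.lf (nat_lit 0) (nat_lit 3118233489) (nat_lit 304) (nat_lit 11602636749) (nat_lit 380) (nat_lit 6841708020) (nat_lit 109) (nat_lit 5) (nat_lit 113) (nat_lit 5) (nat_lit 114) (nat_lit 5) (nat_lit 346) (nat_lit 318) (nat_lit 236)) (XT.lf (nat_lit 0) (nat_lit 87928358) (nat_lit 380) (nat_lit 21308607170) (nat_lit 456) (nat_lit 842106516) (nat_lit 104) (nat_lit 5) (nat_lit 109) (nat_lit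 5) (nat_lit 110) (nat_lit 5) (nat_lit 347) (nat_lit 318) (nat_lit 235))))))))
noncomputable def xc82 : XT := (XT.nd (nat_lit 1716) (nat_lit 1900) (nat_lit 0) (XT.nd (nat_lit 858) (nat_lit 1672) (nat_lit 0) (XT.nd (nat_lit 390) (nat_lit 1368) (nat_lit 0) (XT.nd (nat_lit 156) (nat_lit 988) (nat_lit 0) (XT.nd (nat_lit 78) (nat_lit 304) (nat_lit 0) (XT.lf (nat_lit 0) (nat_lit 5636794870) (nat_lit 456) (nat_lit 3214111847) (nat_lit 76) (nat_lit 14087467579) (nat_lit 103) (nat_lit 5) (nat_lit 109) (nat_lit 5) (nat_lit 104) (nat_lit 5) (nat_lit 348) (nat_lit 318) (nat_lit 234)) (XT.lf (nat_lit 0) (nat_lit 12605758284) (nat_lit 380) (nat_lit 6749666234) (nat_lit 76) (nat_lit 4311925418) (nat_lit 99) (nat_lit 5) (nat_lit 104) (nat_lit 5) (nat_lit 100) (nat_lit 5) (nat_lit 349) (nat_lit 318) (nat_lit 233))) (XT.nd (nat_lit 78) (nat_lit 684) (nat_lit 0) (XT.lf (nat_lit 0) (nat_lit 13841631725) (nat_lit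 304) (nat_lit 6316074165) (nat_lit 380) (nat_lit 4268044667) (nat_lit 95) (nat_lit 5) (nat_lit 99) (nat_lit 5) (nat_lit 100) (nat_lit 5) (nat_lit 350) (nat_lit 318) (nat_lit 232)) (XT.nd (nat_lit 78) (nat_lit 304) (nat_lit 0) (XT.lf (nat_lit 0) (nat_lit 3032696694) (nat_lit 380) (nat_lit 14758506838) (nat_lit 76) (nat_lit 7423349969) (nat_lit 90) (nat_lit 5) (nat_lit 95) (nat_lit 5) (nat_lit 91) (nat_lit 5) (nat_lit 351) (nat_lit 318) (nat_lit 231)) (XT.lf (nat_lit 0) (nat_lit 6723677975) (nat_lit 304) (nat_lit 4105635459) (nat_lit 380) (nat_lit 15205652995) (nat_lit 86) (nat_lit 5) (nat_lit 90) (nat_lit 5) (nat_lit 91) (nat_lit 5) (nat_lit 352) (nat_lit 318) (nat_lit 230))))) (XT.nd (nat_lit 234) (nat_lit 760) (nat_lit 0) (XT.nd (nat_lit 78) (nat_lit 380) (nat_lit 0) (XT.lf (nat_lit 0) (nat_lit 2618314098) (nat_lit 228) (nat_lit 16655179123) (nat_lit 304) (nat_lit 7615185117) (nat_lit 83)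 (nat_lit 5) (nat_lit 86) (nat_lit 5) (nat_lit 87) (nat_lit 5) (nat_lit 353) (nat_lit 318) (nat_lit 229)) (XT.nd (nat_lit 78) (nat_lit 304) (nat_lit 0) (XT.lf (nat_lit 0) (nat_lit 571011649) (nat_lit 304) (nat_lit 1806685478) (nat_lit 76) (nat_lit 25400592048) (nat_lit 82) (nat_lit 5) (nat_lit 86) (nat_lit 5) (nat_lit 83) (nat_lit 5) (nat_lit 354) (nat_lit 318) (nat_lit 228)) (XT.lf (nat_lit 0) (nat_lit 9328862395) (nat_lit 380) (nat_lit 6720905209) (nat_lit 76) (nat_lit 12650764949) (nat_lit 78) (nat_lit 5) (nat_lit 83) (nat_lit 5) (nat_lit 79) (nat_lit 5) (nat_lit 355) (nat_lit 318) (nat_lit 227)))) (XT.nd (nat_lit 78) (nat_lit 532) (nat_lit 0) (XT.lf (nat_lit 0) (nat_lit 17617273954) (nat_lit 228) (nat_lit 1101821061) (nat_lit 304) (nat_lit 10943967043) (nat_lit 75) (nat_lit 5) (nat_lit 78) (nat_lit 5) (nat_lit 79) (nat_lit 5) (nat_lit 356) (nat_lit 318) (nat_lit 226)) (XT.nd (nat_lit 78)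 (nat_lit 304) (nat_lit 0) (XT.lf (nat_lit 0) (nat_lit 12721790415) (nat_lit 228) (nat_lit 16172351128) (nat_lit 304) (nat_lit 1770125655) (nat_lit 72) (nat_lit 5) (nat_lit 75) (nat_lit 5) (nat_lit 76) (nat_lit 5) (nat_lit 357) (nat_lit 318) (nat_lit 225)) (XT.lf (nat_lit 0) (nat_lit 7295864325) (nat_lit 228) (nat_lit 602856828) (nat_lit 304) (nat_lit 23808859582) (nat_lit 68) (nat_lit 5) (nat_lit 71) (nat_lit 5) (nat_lit 72) (nat_lit 5) (nat_lit 358) (nat_lit 318) (nat_lit 224)))))) (XT.nd (nat_lit 390) (nat_lit 836) (nat_lit 0) (XT.nd (nat_lit 156) (nat_lit 608) (nat_lit 0) (XT.nd (nat_lit 78) (nat_lit 0) (nat_lit 0) (XT.lf (nat_lit 0) (nat_lit 1200033009) (nat_lit 228) (nat_lit 17147845094) (nat_lit 304) (nat_lit 14444659009) (nat_lit 65) (nat_lit 5) (nat_lit 68) (nat_lit 5) (nat_lit 69) (nat_lit 5) (nat_lit 359) (nat_lit 318) (nat_lit 223)) (XT.lf (nat_lit 0) (nat_lit 28571153252) (nat_lit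 228) (nat_lit 989914067) (nat_lit 304) (nat_lit 4363433657) (nat_lit 65) (nat_lit 5) (nat_lit 68) (nat_lit 5) (nat_lit 69) (nat_lit 5) (nat_lit 360) (nat_lit 318) (nat_lit 222))) (XT.nd (nat_lit 78) (nat_lit 380) (nat_lit 0) (XT.lf (nat_lit 0) (nat_lit 6458311854) (nat_lit 228) (nat_lit 12707637379) (nat_lit 76) (nat_lit 15934589842) (nat_lit 62) (nat_lit 5) (nat_lit 65) (nat_lit 5) (nat_lit 63) (nat_lit 5) (nat_lit 361) (nat_lit 318) (nat_lit 221)) (XT.nd (nat_lit 78) (nat_lit 152) (nat_lit 0) (XT.lf (nat_lit 0) (nat_lit 15529138680) (nat_lit 228) (nat_lit 2402779677) (nat_lit 304) (nat_lit 18396140242) (nat_lit 59) (nat_lit 5) (nat_lit 62) (nat_lit 5) (nat_lit 63) (nat_lit 5) (nat_lit 362) (nat_lit 318) (nat_lit 220)) (XT.lf (nat_lit 0) (nat_lit 7811736977) (nat_lit 152) (nat_lit 22506415457) (nat_lit 228) (nat_lit 7288639036) (nat_lit 57) (nat_lit 5) (nat_lit 59) (nat_lit 5) (nat_lit 60)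 (nat_lit 5) (nat_lit 363) (nat_lit 318) (nat_lit 219))))) (XT.nd (nat_lit 234) (nat_lit 380) (nat_lit 0) (XT.nd (nat_lit 78) (nat_lit 380) (nat_lit 0) (XT.lf (nat_lit 0) (nat_lit 4515327830) (nat_lit 228) (nat_lit 747084315) (nat_lit 76) (nat_lit 33678999322) (nat_lit 56) (nat_lit 5) (nat_lit 59) (nat_lit 5) (nat_lit 57) (nat_lit 5) (nat_lit 364) (nat_lit 318) (nat_lit 218)) (XT.nd (nat_lit 78) (nat_lit 152) (nat_lit 0) (XT.lf (nat_lit 0) (nat_lit 17164538503) (nat_lit 304) (nat_lit 10211346598) (nat_lit 76) (nat_lit 12952543946) (nat_lit 53) (nat_lit 5) (nat_lit 57) (nat_lit 5) (nat_lit 54) (nat_lit 5) (nat_lit 365) (nat_lit 318) (nat_lit 217)) (XT.lf (nat_lit 0) (nat_lit 21092131634) (nat_lit 152) (nat_lit 9604695865) (nat_lit 228) (nat_lit 11080456326) (nat_lit 51) (nat_lit 5) (nat_lit 53) (nat_lit 5) (nat_lit 54) (nat_lit 5) (nat_lit 366) (nat_lit 318) (nat_lit 216)))) (XT.nd (nat_lit 78)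 (nat_lit 152) (nat_lit 0) (XT.lf (nat_lit 0) (nat_lit 1864717536) (nat_lit 228) (nat_lit 32324736412) (nat_lit 76) (nat_lit 9100000538) (nat_lit 48) (nat_lit 5) (nat_lit 51) (nat_lit 5) (nat_lit 49) (nat_lit 5) (nat_lit 367) (nat_lit 318) (nat_lit 215)) (XT.nd (nat_lit 78) (nat_lit 152) (nat_lit 0) (XT.lf (nat_lit 0) (nat_lit 15529703635) (nat_lit 228) (nat_lit 473470073) (nat_lit 76) (nat_lit 28861721588) (nat_lit 48) (nat_lit 5) (nat_lit 51) (nat_lit 5) (nat_lit 49) (nat_lit 5) (nat_lit 368) (nat_lit 318) (nat_lit 214)) (XT.lf (nat_lit 0) (nat_lit 30222014852) (nat_lit 228) (nat_lit 12936558644) (nat_lit 76) (nat_lit 3350216447) (nat_lit 46) (nat_lit 5) (nat_lit 49) (nat_lit 5) (nat_lit 47) (nat_lit 5) (nat_lit 369) (nat_lit 318) (nat_lit 213))))))) (XT.nd (nat_lit 858) (nat_lit 608) (nat_lit 0) (XT.nd (nat_lit 390) (nat_lit 532) (nat_lit 0) (XT.nd (nat_lit 156) (nat_lit 380) (nat_lit 0)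 (XT.nd (nat_lit 78) (nat_lit 228) (nat_lit 0) (XT.lf (nat_lit 0) (nat_lit 21330269925) (nat_lit 152) (nat_lit 24678643498) (nat_lit 228) (nat_lit 2215170623) (nat_lit 44) (nat_lit 5) (nat_lit 46) (nat_lit 5) (nat_lit 47) (nat_lit 5) (nat_lit 370) (nat_lit 318) (nat_lit 212)) (XT.lf (nat_lit 0) (nat_lit 7565782606) (nat_lit 152) (nat_lit 4945092021) (nat_lit 228) (nat_lit 37504771225) (nat_lit 41) (nat_lit 5) (nat_lit 43) (nat_lit 5) (nat_lit 44) (nat_lit 5) (nat_lit 371) (nat_lit 318) (nat_lit 211))) (XT.nd (nat_lit 78) (nat_lit 380) (nat_lit 0) (XT.lf (nat_lit 0) (nat_lit 28348078529) (nat_lit 228) (nat_lit 7773984576) (nat_lit 76) (nat_lit 15761448000) (nat_lit 41) (nat_lit 5) (nat_lit 44) (nat_lit 5) (nat_lit 42) (nat_lit 5) (nat_lit 372) (nat_lit 318) (nat_lit 210)) (XT.nd (nat_lit 78) (nat_lit 228) (nat_lit 0) (XT.lf (nat_lit 0) (nat_lit 29136111773) (nat_lit 152) (nat_lit 16160554345)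 (nat_lit 228) (nat_lit 8538521048) (nat_lit 39) (nat_lit 5) (nat_lit 41) (nat_lit 5) (nat_lit 42) (nat_lit 5) (nat_lit 373) (nat_lit 318) (nat_lit 209)) (XT.lf (nat_lit 0) (nat_lit 7305346904) (nat_lit 228) (nat_lit 43600780056) (nat_lit 76) (nat_lit 4969111293) (nat_lit 36) (nat_lit 5) (nat_lit 39) (nat_lit 5) (nat_lit 37) (nat_lit 5) (nat_lit 374) (nat_lit 318) (nat_lit 208))))) (XT.nd (nat_lit 234) (nat_lit 304) (nat_lit 0) (XT.nd (nat_lit 78) (nat_lit 228) (nat_lit 0) (XT.lf (nat_lit 0) (nat_lit 24176355766) (nat_lit 228) (nat_lit 6666283746) (nat_lit 76) (nat_lit 27159772934) (nat_lit 36) (nat_lit 5) (nat_lit 39) (nat_lit 5) (nat_lit 37) (nat_lit 5) (nat_lit 375) (nat_lit 318) (nat_lit 207)) (XT.nd (nat_lit 78) (nat_lit 76) (nat_lit 0) (XT.lf (nat_lit 0) (nat_lit 32736977653) (nat_lit 152) (nat_lit 9459111672) (nat_lit 228) (nat_lit 18030703523) (nat_lit 34) (nat_lit 5) (nat_lit 36) (nat_lit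 5) (nat_lit 37) (nat_lit 5) (nat_lit 376) (nat_lit 318) (nat_lit 206)) (XT.lf (nat_lit 0) (nat_lit 11777099851) (nat_lit 76) (nat_lit 49637838460) (nat_lit 152) (nat_lit 1138512692) (nat_lit 33) (nat_lit 5) (nat_lit 34) (nat_lit 5) (nat_lit 35) (nat_lit 4) (nat_lit 377) (nat_lit 318) (nat_lit 205)))) (XT.nd (nat_lit 78) (nat_lit 228) (nat_lit 0) (XT.lf (nat_lit 0) (nat_lit 16646564894) (nat_lit 152) (nat_lit 11680179848) (nat_lit 76) (nat_lit 36653748051) (nat_lit 32) (nat_lit 5) (nat_lit 34) (nat_lit 5) (nat_lit 33) (nat_lit 5) (nat_lit 378) (nat_lit 318) (nat_lit 204)) (XT.nd (nat_lit 78) (nat_lit 76) (nat_lit 0) (XT.lf (nat_lit 0) (nat_lit 29927864986) (nat_lit 152) (nat_lit 5648733088) (nat_lit 228) (nat_lit 31943575275) (nat_lit 30) (nat_lit 5) (nat_lit 32) (nat_lit 5) (nat_lit 33) (nat_lit 5) (nat_lit 379) (nat_lit 318) (nat_lit 203)) (XT.lf (nat_lit 0) (nat_lit 3555566775) (nat_lit 76)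 (nat_lit 52219316109) (nat_lit 152) (nat_lit 14402304730) (nat_lit 29) (nat_lit 5) (nat_lit 30) (nat_lit 5) (nat_lit 31) (nat_lit 4) (nat_lit 380) (nat_lit 318) (nat_lit 202)))))) (XT.nd (nat_lit 468) (nat_lit 76) (nat_lit 0) (XT.nd (nat_lit 234) (nat_lit 304) (nat_lit 0) (XT.nd (nat_lit 78) (nat_lit 152) (nat_lit 0) (XT.lf (nat_lit 0) (nat_lit 4377213262) (nat_lit 152) (nat_lit 25523411840) (nat_lit 76) (nat_lit 43052084831) (nat_lit 28) (nat_lit 5) (nat_lit 30) (nat_lit 5) (nat_lit 29) (nat_lit 5) (nat_lit 381) (nat_lit 318) (nat_lit 201)) (XT.nd (nat_lit 78) (nat_lit 0) (nat_lit 0) (XT.lf (nat_lit 0) (nat_lit 17817819156) (nat_lit 152) (nat_lit 6146190857) (nat_lit 228) (nat_lit 51893737426) (nat_lit 26) (nat_lit 5) (nat_lit 28) (nat_lit 5) (nat_lit 29) (nat_lit 5) (nat_lit 382) (nat_lit 318) (nat_lit 200)) (XT.lf (nat_lit 0) (nat_lit 44968470531) (nat_lit 228) (nat_lit 15237934959) (nat_lit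 76) (nat_lit 18688483435) (nat_lit 26) (nat_lit 5) (nat_lit 29) (nat_lit 5) (nat_lit 27) (nat_lit 4) (nat_lit 383) (nat_lit 318) (nat_lit 199)))) (XT.nd (nat_lit 78) (nat_lit 228) (nat_lit 0) (XT.lf (nat_lit 0) (nat_lit 30218483441) (nat_lit 76) (nat_lit 37149853906) (nat_lit 152) (nat_lit 14705196383) (nat_lit 25) (nat_lit 5) (nat_lit 26) (nat_lit 5) (nat_lit 27) (nat_lit 4) (nat_lit 384) (nat_lit 318) (nat_lit 198)) (XT.nd (nat_lit 78) (nat_lit 152) (nat_lit 0) (XT.lf (nat_lit 0) (nat_lit 5521445742) (nat_lit 152) (nat_lit 7207530289) (nat_lit 76) (nat_lit 72676019777) (nat_lit 24) (nat_lit 5) (nat_lit 26) (nat_lit 5) (nat_lit 25) (nat_lit 5) (nat_lit 385) (nat_lit 318) (nat_lit 197)) (XT.lf (nat_lit 0) (nat_lit 26968030942) (nat_lit 228) (nat_lit 48718694510) (nat_lit 76) (nat_lit 13196557079) (nat_lit 22) (nat_lit 5) (nat_lit 25) (nat_lit 5) (nat_lit 23) (nat_lit 4) (nat_lit 386) (nat_lit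 318) (nat_lit 196))))) (XT.nd (nat_lit 41574) (nat_lit 0) (nat_lit 15960) (XT.nd (nat_lit 78) (nat_lit 76) (nat_lit 0) (XT.lf (nat_lit 0) (nat_lit 49683672812) (nat_lit 228) (nat_lit 2618782700) (nat_lit 76) (nat_lit 40227127717) (nat_lit 22) (nat_lit 5) (nat_lit 25) (nat_lit 5) (nat_lit 23) (nat_lit 4) (nat_lit 387) (nat_lit 318) (nat_lit 195)) (XT.nd (nat_lit 78) (nat_lit 0) (nat_lit 0) (XT.lf (nat_lit 0) (nat_lit 46685467128) (nat_lit 76) (nat_lit 27292037963) (nat_lit 152) (nat_lit 22367423008) (nat_lit 21) (nat_lit 5) (nat_lit 22) (nat_lit 5) (nat_lit 23) (nat_lit 4) (nat_lit 388) (nat_lit 318) (nat_lit 194)) (XT.lf (nat_lit 0) (nat_lit 98498329322) (nat_lit 76) (nat_lit 1008490807) (nat_lit 152) (nat_lit 843597674) (nat_lit 21) (nat_lit 5) (nat_lit 22) (nat_lit 5) (nat_lit 23) (nat_lit 4) (nat_lit 389) (nat_lit 318) (nat_lit 193)))) (XT.nd (nat_lit 78) (nat_lit 0) (nat_lit 0) (XT.lf (nat_lit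 0) (nat_lit 2877288401) (nat_lit 1140) (nat_lit 1242832206) (nat_lit 1140) (nat_lit 1242832206) (nat_lit 231) (nat_lit 3) (nat_lit 246) (nat_lit 3) (nat_lit 246) (nat_lit 5) (nat_lit 319) (nat_lit 319) (nat_lit 262)) (XT.nd (nat_lit 78) (nat_lit 0) (nat_lit 76) (XT.lf (nat_lit 76) (nat_lit 5951807432) (nat_lit 0) (nat_lit 957247258) (nat_lit 1140) (nat_lit 4053782133) (nat_lit 232) (nat_lit 5) (nat_lit 231) (nat_lit 3) (nat_lit 246) (nat_lit 5) (nat_lit 320) (nat_lit 319) (nat_lit 261)) (XT.lf (nat_lit 76) (nat_lit 3624144499) (nat_lit 0) (nat_lit 4561041111) (nat_lit 1140) (nat_lit 3024568579) (nat_lit 233) (nat_lit 5) (nat_lit 232) (nat_lit 5) (nat_lit 247) (nat_lit 5) (nat_lit 321) (nat_lit 319) (nat_lit 260))))))))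
noncomputable def xc83 : XT := (XT.nd (nat_lit 1794) (nat_lit 5548) (nat_lit 0) (XT.nd (nat_lit 858) (nat_lit 4864) (nat_lit 0) (XT.nd (nat_lit 390) (nat_lit 2356) (nat_lit 0) (XT.nd (nat_lit 156) (nat_lit 1064) (nat_lit 0) (XT.nd (nat_lit 78) (nat_lit 0) (nat_lit 0) (XT.lf (nat_lit 76) (nat_lit 1277596664) (nat_lit 0) (nat_lit 8293488578) (nat_lit 1140) (nat_lit 1896608064) (nat_lit 234) (nat_lit 5) (nat_lit 233) (nat_lit 5) (nat_lit 248) (nat_lit 5) (nat_lit 322) (nat_lit 319) (nat_lit 259)) (XT.lf (nat_lit 76) (nat_lit 10661208510) (nat_lit 0) (nat_lit 432958545) (nat_lit 1140) (nat_lit 642377849) (nat_lit 234) (nat_lit 5) (nat_lit 233) (nat_lit 5) (nat_lit 248) (nat_lit 5) (nat_lit 323) (nat_lit 319) (nat_lit 258))) (XT.nd (nat_lit 78) (nat_lit 0) (nat_lit 76) (XT.lf (nat_lit 0) (nat_lit 766841567) (nat_lit 1140) (nat_lit 3470926138) (nat_lit 1216) (nat_lit 7777761835) (nat_lit 219) (nat_lit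 5) (nat_lit 234) (nat_lit 5) (nat_lit 235) (nat_lit 5) (nat_lit 324) (nat_lit 319) (nat_lit 257)) (XT.nd (nat_lit 78) (nat_lit 0) (nat_lit 76) (XT.lf (nat_lit 0) (nat_lit 2299717446) (nat_lit 1140) (nat_lit 5907732878) (nat_lit 1216) (nat_lit 4098873769) (nat_lit 220) (nat_lit 5) (nat_lit 235) (nat_lit 5) (nat_lit 236) (nat_lit 5) (nat_lit 325) (nat_lit 319) (nat_lit 256)) (XT.lf (nat_lit 0) (nat_lit 3982101772) (nat_lit 1140) (nat_lit 8384349687) (nat_lit 1216) (nat_lit 243064706) (nat_lit 221) (nat_lit 5) (nat_lit 236) (nat_lit 5) (nat_lit 237) (nat_lit 5) (nat_lit 326) (nat_lit 319) (nat_lit 255))))) (XT.nd (nat_lit 234) (nat_lit 2508) (nat_lit 0) (XT.nd (nat_lit 78) (nat_lit 0) (nat_lit 76) (XT.lf (nat_lit 76) (nat_lit 1981504191) (nat_lit 0) (nat_lit 3883518903) (nat_lit 1216) (nat_lit 7059393857) (nat_lit 222) (nat_lit 5) (nat_lit 221) (nat_lit 5) (nat_lit 237) (nat_lit 5) (nat_lit 327)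 (nat_lit 319) (nat_lit 254)) (XT.nd (nat_lit 78) (nat_lit 0) (nat_lit 76) (XT.lf (nat_lit 0) (nat_lit 7932653422) (nat_lit 1140) (nat_lit 297060114) (nat_lit 1216) (nat_lit 5022672020) (nat_lit 222) (nat_lit 5) (nat_lit 237) (nat_lit 5) (nat_lit 238) (nat_lit 5) (nat_lit 328) (nat_lit 319) (nat_lit 253)) (XT.lf (nat_lit 0) (nat_lit 10213910791) (nat_lit 1140) (nat_lit 2579163832) (nat_lit 76) (nat_lit 800408376) (nat_lit 223) (nat_lit 5) (nat_lit 238) (nat_lit 5) (nat_lit 224) (nat_lit 5) (nat_lit 329) (nat_lit 319) (nat_lit 252)))) (XT.nd (nat_lit 78) (nat_lit 1520) (nat_lit 0) (XT.lf (nat_lit 0) (nat_lit 9003608845) (nat_lit 1140) (nat_lit 3737354880) (nat_lit 1216) (nat_lit 1206755586) (nat_lit 208) (nat_lit 5) (nat_lit 223) (nat_lit 5) (nat_lit 224) (nat_lit 5) (nat_lit 330) (nat_lit 319) (nat_lit 251)) (XT.nd (nat_lit 78) (nat_lit 608) (nat_lit 0) (XT.lf (nat_lit 0) (nat_lit 1164542303)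 (nat_lit 912) (nat_lit 7382680207) (nat_lit 76) (nat_lit 5768843920) (nat_lit 196) (nat_lit 5) (nat_lit 208) (nat_lit 5) (nat_lit 197) (nat_lit 5) (nat_lit 331) (nat_lit 319) (nat_lit 250)) (XT.lf (nat_lit 0) (nat_lit 3737396987) (nat_lit 684) (nat_lit 9894680945) (nat_lit 76) (nat_lit 1067187730) (nat_lit 188) (nat_lit 5) (nat_lit 197) (nat_lit 5) (nat_lit 189) (nat_lit 5) (nat_lit 332) (nat_lit 319) (nat_lit 249)))))) (XT.nd (nat_lit 468) (nat_lit 2204) (nat_lit 0) (XT.nd (nat_lit 234) (nat_lit 1596) (nat_lit 0) (XT.nd (nat_lit 78) (nat_lit 532) (nat_lit 0) (XT.lf (nat_lit 0) (nat_lit 2584431683) (nat_lit 532) (nat_lit 4005687427) (nat_lit 608) (nat_lit 8506999176) (nat_lit 181) (nat_lit 5) (nat_lit 188) (nat_lit 5) (nat_lit 189) (nat_lit 5) (nat_lit 333) (nat_lit 319) (nat_lit 248)) (XT.nd (nat_lit 78) (nat_lit 0) (nat_lit 0) (XT.lf (nat_lit 0) (nat_lit 293308736) (nat_lit 532) (nat_lit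 9421299047) (nat_lit 608) (nat_lit 5796410581) (nat_lit 174) (nat_lit 5) (nat_lit 181) (nat_lit 5) (nat_lit 182) (nat_lit 5) (nat_lit 334) (nat_lit 319) (nat_lit 247)) (XT.lf (nat_lit 0) (nat_lit 13137944353) (nat_lit 608) (nat_lit 2023592063) (nat_lit 76) (nat_lit 779825695) (nat_lit 174) (nat_lit 5) (nat_lit 182) (nat_lit 5) (nat_lit 175) (nat_lit 5) (nat_lit 335) (nat_lit 319) (nat_lit 246)))) (XT.nd (nat_lit 78) (nat_lit 988) (nat_lit 0) (XT.lf (nat_lit 0) (nat_lit 511896909) (nat_lit 608) (nat_lit 4458480901) (nat_lit 76) (nat_lit 11417393962) (nat_lit 166) (nat_lit 5) (nat_lit 174) (nat_lit 5) (nat_lit 167) (nat_lit 5) (nat_lit 336) (nat_lit 319) (nat_lit 245)) (XT.nd (nat_lit 78) (nat_lit 456) (nat_lit 0) (XT.lf (nat_lit 0) (nat_lit 4076849752) (nat_lit 608) (nat_lit 7012014472) (nat_lit 76) (nat_lit 5762573554) (nat_lit 159) (nat_lit 5) (nat_lit 167) (nat_lit 5) (nat_lit 160) (nat_lit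 5) (nat_lit 337) (nat_lit 319) (nat_lit 244)) (XT.lf (nat_lit 0) (nat_lit 7674410164) (nat_lit 456) (nat_lit 285728985) (nat_lit 532) (nat_lit 9373968219) (nat_lit 153) (nat_lit 5) (nat_lit 159) (nat_lit 5) (nat_lit 160) (nat_lit 5) (nat_lit 338) (nat_lit 319) (nat_lit 243))))) (XT.nd (nat_lit 234) (nat_lit 760) (nat_lit 0) (XT.nd (nat_lit 78) (nat_lit 988) (nat_lit 0) (XT.lf (nat_lit 0) (nat_lit 5367558355) (nat_lit 456) (nat_lit 6871717643) (nat_lit 532) (nat_lit 5595605809) (nat_lit 147) (nat_lit 5) (nat_lit 153) (nat_lit 5) (nat_lit 154) (nat_lit 5) (nat_lit 339) (nat_lit 319) (nat_lit 242)) (XT.nd (nat_lit 78) (nat_lit 532) (nat_lit 0) (XT.lf (nat_lit 0) (nat_lit 2969059135) (nat_lit 456) (nat_lit 13909436006) (nat_lit 532) (nat_lit 1477836884) (nat_lit 141) (nat_lit 5) (nat_lit 147) (nat_lit 5) (nat_lit 148) (nat_lit 5) (nat_lit 340) (nat_lit 319) (nat_lit 241)) (XT.lf (nat_lit 0) (nat_lit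 415299538) (nat_lit 456) (nat_lit 2550625150) (nat_lit 532) (nat_lit 15931859548) (nat_lit 134) (nat_lit 5) (nat_lit 140) (nat_lit 5) (nat_lit 141) (nat_lit 5) (nat_lit 341) (nat_lit 319) (nat_lit 240)))) (XT.nd (nat_lit 78) (nat_lit 760) (nat_lit 0) (XT.lf (nat_lit 0) (nat_lit 7825311220) (nat_lit 532) (nat_lit 2271050196) (nat_lit 76) (nat_lit 9362806992) (nat_lit 134) (nat_lit 5) (nat_lit 141) (nat_lit 5) (nat_lit 135) (nat_lit 5) (nat_lit 342) (nat_lit 319) (nat_lit 239)) (XT.nd (nat_lit 78) (nat_lit 380) (nat_lit 0) (XT.lf (nat_lit 0) (nat_lit 13090752872) (nat_lit 456) (nat_lit 5075928139) (nat_lit 76) (nat_lit 1877065662) (nat_lit 129) (nat_lit 5) (nat_lit 135) (nat_lit 5) (nat_lit 130) (nat_lit 5) (nat_lit 343) (nat_lit 319) (nat_lit 238)) (XT.lf (nat_lit 0) (nat_lit 12571732936) (nat_lit 380) (nat_lit 6269825242) (nat_lit 456) (nat_lit 1809349555) (nat_lit 124) (nat_lit 5) (nat_lit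 129) (nat_lit 5) (nat_lit 130) (nat_lit 5) (nat_lit 344) (nat_lit 319) (nat_lit 237))))))) (XT.nd (nat_lit 858) (nat_lit 2356) (nat_lit 0) (XT.nd (nat_lit 390) (nat_lit 1596) (nat_lit 0) (XT.nd (nat_lit 156) (nat_lit 760) (nat_lit 0) (XT.nd (nat_lit 78) (nat_lit 380) (nat_lit 0) (XT.lf (nat_lit 0) (nat_lit 3708704846) (nat_lit 456) (nat_lit 11293397132) (nat_lit 76) (nat_lit 6279685221) (nat_lit 118) (nat_lit 5) (nat_lit 124) (nat_lit 5) (nat_lit 119) (nat_lit 5) (nat_lit 345) (nat_lit 319) (nat_lit 236)) (XT.lf (nat_lit 0) (nat_lit 7214806867) (nat_lit 380) (nat_lit 2444541319) (nat_lit 456) (nat_lit 12278516476) (nat_lit 113) (nat_lit 5) (nat_lit 118) (nat_lit 5) (nat_lit 119) (nat_lit 5) (nat_lit 346) (nat_lit 319) (nat_lit 235))) (XT.nd (nat_lit 78) (nat_lit 456) (nat_lit 0) (XT.lf (nat_lit 0) (nat_lit 4209091393) (nat_lit 304) (nat_lit 11937418120) (nat_lit 380) (nat_lit 6473080856) (nat_lit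 109) (nat_lit 5) (nat_lit 113) (nat_lit 5) (nat_lit 114) (nat_lit 5) (nat_lit 347) (nat_lit 319) (nat_lit 234)) (XT.nd (nat_lit 78) (nat_lit 76) (nat_lit 0) (XT.lf (nat_lit 0) (nat_lit 1018691598) (nat_lit 380) (nat_lit 22115579532) (nat_lit 456) (nat_lit 195857248) (nat_lit 104) (nat_lit 5) (nat_lit 109) (nat_lit 5) (nat_lit 110) (nat_lit 5) (nat_lit 348) (nat_lit 319) (nat_lit 233)) (XT.lf (nat_lit 0) (nat_lit 6561417773) (nat_lit 456) (nat_lit 2479392958) (nat_lit 76) (nat_lit 15024821066) (nat_lit 103) (nat_lit 5) (nat_lit 109) (nat_lit 5) (nat_lit 104) (nat_lit 5) (nat_lit 349) (nat_lit 319) (nat_lit 232))))) (XT.nd (nat_lit 234) (nat_lit 608) (nat_lit 0) (XT.nd (nat_lit 78) (nat_lit 684) (nat_lit 0) (XT.lf (nat_lit 0) (nat_lit 13858976951) (nat_lit 380) (nat_lit 6200812119) (nat_lit 76) (nat_lit 4771880707) (nat_lit 99) (nat_lit 5) (nat_lit 104) (nat_lit 5) (nat_lit 100) (nat_lit 5) (nat_lit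 350) (nat_lit 319) (nat_lit 231)) (XT.nd (nat_lit 78) (nat_lit 380) (nat_lit 0) (XT.lf (nat_lit 0) (nat_lit 15394644053) (nat_lit 304) (nat_lit 6372490309) (nat_lit 380) (nat_lit 3861514826) (nat_lit 95) (nat_lit 5) (nat_lit 99) (nat_lit 5) (nat_lit 100) (nat_lit 5) (nat_lit 351) (nat_lit 319) (nat_lit 230)) (XT.lf (nat_lit 0) (nat_lit 3773888190) (nat_lit 380) (nat_lit 14632689862) (nat_lit 76) (nat_lit 8050699640) (nat_lit 90) (nat_lit 5) (nat_lit 95) (nat_lit 5) (nat_lit 91) (nat_lit 5) (nat_lit 352) (nat_lit 319) (nat_lit 229)))) (XT.nd (nat_lit 78) (nat_lit 304) (nat_lit 0) (XT.lf (nat_lit 0) (nat_lit 7898845191) (nat_lit 304) (nat_lit 4041481269) (nat_lit 380) (nat_lit 15379000170) (nat_lit 86) (nat_lit 5) (nat_lit 90) (nat_lit 5) (nat_lit 91) (nat_lit 5) (nat_lit 353) (nat_lit 319) (nat_lit 228)) (XT.nd (nat_lit 78) (nat_lit 76) (nat_lit 0) (XT.lf (nat_lit 0) (nat_lit 3578537783) (nat_lit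 228) (nat_lit 17211494618) (nat_lit 304) (nat_lit 7426206585) (nat_lit 83) (nat_lit 5) (nat_lit 86) (nat_lit 5) (nat_lit 87) (nat_lit 5) (nat_lit 354) (nat_lit 319) (nat_lit 227)) (XT.lf (nat_lit 0) (nat_lit 1131581423) (nat_lit 304) (nat_lit 1096348723) (nat_lit 76) (nat_lit 26923047232) (nat_lit 82) (nat_lit 5) (nat_lit 86) (nat_lit 5) (nat_lit 83) (nat_lit 5) (nat_lit 355) (nat_lit 319) (nat_lit 226)))))) (XT.nd (nat_lit 468) (nat_lit 1064) (nat_lit 0) (XT.nd (nat_lit 234) (nat_lit 532) (nat_lit 0) (XT.nd (nat_lit 78) (nat_lit 456) (nat_lit 0) (XT.lf (nat_lit 0) (nat_lit 10311999870) (nat_lit 380) (nat_lit 6266086151) (nat_lit 76) (nat_lit 13541719300) (nat_lit 78) (nat_lit 5) (nat_lit 83) (nat_lit 5) (nat_lit 79) (nat_lit 5) (nat_lit 356) (nat_lit 319) (nat_lit 225)) (XT.nd (nat_lit 78) (nat_lit 228) (nat_lit 0) (XT.lf (nat_lit 0) (nat_lit 19266332003) (nat_lit 228) (nat_lit 888191979)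 (nat_lit 304) (nat_lit 10976465973) (nat_lit 75) (nat_lit 5) (nat_lit 78) (nat_lit 5) (nat_lit 79) (nat_lit 5) (nat_lit 357) (nat_lit 319) (nat_lit 224)) (XT.lf (nat_lit 0) (nat_lit 14116333870) (nat_lit 228) (nat_lit 16707955300) (nat_lit 304) (nat_lit 1358398667) (nat_lit 72) (nat_lit 5) (nat_lit 75) (nat_lit 5) (nat_lit 76) (nat_lit 5) (nat_lit 358) (nat_lit 319) (nat_lit 223)))) (XT.nd (nat_lit 78) (nat_lit 228) (nat_lit 0) (XT.lf (nat_lit 0) (nat_lit 8407068524) (nat_lit 228) (nat_lit 360879758) (nat_lit 304) (nat_lit 24510570548) (nat_lit 68) (nat_lit 5) (nat_lit 71) (nat_lit 5) (nat_lit 72) (nat_lit 5) (nat_lit 359) (nat_lit 319) (nat_lit 222)) (XT.nd (nat_lit 78) (nat_lit 0) (nat_lit 0) (XT.lf (nat_lit 0) (nat_lit 1996536115) (nat_lit 228) (nat_lit 17730012601) (nat_lit 304) (nat_lit 14691574847) (nat_lit 65) (nat_lit 5) (nat_lit 68) (nat_lit 5) (nat_lit 69) (nat_lit 5) (nat_lit 360)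 (nat_lit 319) (nat_lit 221)) (XT.lf (nat_lit 0) (nat_lit 30701140872) (nat_lit 228) (nat_lit 777290963) (nat_lit 304) (nat_lit 4128922376) (nat_lit 65) (nat_lit 5) (nat_lit 68) (nat_lit 5) (nat_lit 69) (nat_lit 5) (nat_lit 361) (nat_lit 319) (nat_lit 220))))) (XT.nd (nat_lit 234) (nat_lit 456) (nat_lit 0) (XT.nd (nat_lit 78) (nat_lit 380) (nat_lit 0) (XT.lf (nat_lit 0) (nat_lit 7213081143) (nat_lit 228) (nat_lit 12642381836) (nat_lit 76) (nat_lit 16986969464) (nat_lit 62) (nat_lit 5) (nat_lit 65) (nat_lit 5) (nat_lit 63) (nat_lit 5) (nat_lit 362) (nat_lit 319) (nat_lit 219)) (XT.nd (nat_lit 78) (nat_lit 152) (nat_lit 0) (XT.lf (nat_lit 0) (nat_lit 16986149395) (nat_lit 228) (nat_lit 2260196014) (nat_lit 304) (nat_lit 18885411687) (nat_lit 59) (nat_lit 5) (nat_lit 62) (nat_lit 5) (nat_lit 63) (nat_lit 5) (nat_lit 363) (nat_lit 319) (nat_lit 218)) (XT.lf (nat_lit 0) (nat_lit 8873256874) (nat_lit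 152) (nat_lit 23367592204) (nat_lit 228) (nat_lit 7233916866) (nat_lit 57) (nat_lit 5) (nat_lit 59) (nat_lit 5) (nat_lit 60) (nat_lit 5) (nat_lit 364) (nat_lit 319) (nat_lit 217)))) (XT.nd (nat_lit 78) (nat_lit 380) (nat_lit 0) (XT.lf (nat_lit 0) (nat_lit 5132498904) (nat_lit 228) (nat_lit 137515691) (nat_lit 76) (nat_lit 35606576042) (nat_lit 56) (nat_lit 5) (nat_lit 59) (nat_lit 5) (nat_lit 57) (nat_lit 5) (nat_lit 365) (nat_lit 319) (nat_lit 216)) (XT.nd (nat_lit 78) (nat_lit 152) (nat_lit 0) (XT.lf (nat_lit 0) (nat_lit 18403971195) (nat_lit 304) (nat_lit 10084427684) (nat_lit 76) (nat_lit 13844873291) (nat_lit 53) (nat_lit 5) (nat_lit 57) (nat_lit 5) (nat_lit 54) (nat_lit 5) (nat_lit 366) (nat_lit 319) (nat_lit 215)) (XT.lf (nat_lit 0) (nat_lit 22765951044) (nat_lit 152) (nat_lit 9834723193) (nat_lit 228) (nat_lit 11254268231) (nat_lit 51) (nat_lit 5) (nat_lit 53) (nat_lit 5) (nat_lit 54)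 (nat_lit 5) (nat_lit 367) (nat_lit 319) (nat_lit 214))))))))
noncomputable def xc84 : XT := (XT.nd (nat_lit 43134) (nat_lit 0) (nat_lit 8588) (XT.nd (nat_lit 858) (nat_lit 912) (nat_lit 0) (XT.nd (nat_lit 390) (nat_lit 608) (nat_lit 0) (XT.nd (nat_lit 156) (nat_lit 380) (nat_lit 0) (XT.nd (nat_lit 78) (nat_lit 152) (nat_lit 0) (XT.lf (nat_lit 0) (nat_lit 2321228213) (nat_lit 228) (nat_lit 33323606812) (nat_lit 76) (nat_lit 9798068757) (nat_lit 48) (nat_lit 5) (nat_lit 51) (nat_lit 5) (nat_lit 49) (nat_lit 5) (nat_lit 368) (nat_lit 319) (nat_lit 213)) (XT.lf (nat_lit 0) (nat_lit 92632026) (nat_lit 152) (nat_lit 16560423226) (nat_lit 228) (nat_lit 30444559593) (nat_lit 46) (nat_lit 5) (nat_lit 48) (nat_lit 5) (nat_lit 49) (nat_lit 5) (nat_lit 369) (nat_lit 319) (nat_lit 212))) (XT.nd (nat_lit 78) (nat_lit 380) (nat_lit 0) (XT.lf (nat_lit 0) (nat_lit 32070376205) (nat_lit 228) (nat_lit 13004379032)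 (nat_lit 76) (nat_lit 3749242840) (nat_lit 46) (nat_lit 5) (nat_lit 49) (nat_lit 5) (nat_lit 47) (nat_lit 5) (nat_lit 370) (nat_lit 319) (nat_lit 211)) (XT.nd (nat_lit 78) (nat_lit 228) (nat_lit 0) (XT.lf (nat_lit 0) (nat_lit 22959193832) (nat_lit 152) (nat_lit 25676772078) (nat_lit 228) (nat_lit 1989415996) (nat_lit 44) (nat_lit 5) (nat_lit 46) (nat_lit 5) (nat_lit 47) (nat_lit 5) (nat_lit 371) (nat_lit 319) (nat_lit 210)) (XT.lf (nat_lit 0) (nat_lit 8496841098) (nat_lit 152) (nat_lit 4959125650) (nat_lit 228) (nat_lit 39050774956) (nat_lit 41) (nat_lit 5) (nat_lit 43) (nat_lit 5) (nat_lit 44) (nat_lit 5) (nat_lit 372) (nat_lit 319) (nat_lit 209))))) (XT.nd (nat_lit 234) (nat_lit 228) (nat_lit 0) (XT.nd (nat_lit 78) (nat_lit 380) (nat_lit 0) (XT.lf (nat_lit 0) (nat_lit 30071949362) (nat_lit 228) (nat_lit 7629146718) (nat_lit 76) (nat_lit 16767301344) (nat_lit 41) (nat_lit 5) (nat_lit 44) (nat_lit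 5) (nat_lit 42) (nat_lit 5) (nat_lit 373) (nat_lit 319) (nat_lit 208)) (XT.nd (nat_lit 78) (nat_lit 228) (nat_lit 0) (XT.lf (nat_lit 0) (nat_lit 31111160714) (nat_lit 152) (nat_lit 16747193627) (nat_lit 228) (nat_lit 8659595843) (nat_lit 39) (nat_lit 5) (nat_lit 41) (nat_lit 5) (nat_lit 42) (nat_lit 5) (nat_lit 374) (nat_lit 319) (nat_lit 207)) (XT.lf (nat_lit 0) (nat_lit 7963215501) (nat_lit 228) (nat_lit 45264852507) (nat_lit 76) (nat_lit 5432070262) (nat_lit 36) (nat_lit 5) (nat_lit 39) (nat_lit 5) (nat_lit 37) (nat_lit 5) (nat_lit 375) (nat_lit 319) (nat_lit 206)))) (XT.nd (nat_lit 78) (nat_lit 228) (nat_lit 0) (XT.lf (nat_lit 0) (nat_lit 25663841413) (nat_lit 228) (nat_lit 6508201217) (nat_lit 76) (nat_lit 28722050537) (nat_lit 36) (nat_lit 5) (nat_lit 39) (nat_lit 5) (nat_lit 37) (nat_lit 5) (nat_lit 376) (nat_lit 319) (nat_lit 205)) (XT.nd (nat_lit 78) (nat_lit 76) (nat_lit 0) (XT.lf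 (nat_lit 0) (nat_lit 34851137463) (nat_lit 152) (nat_lit 9724742493) (nat_lit 228) (nat_lit 18654076886) (nat_lit 34) (nat_lit 5) (nat_lit 36) (nat_lit 5) (nat_lit 37) (nat_lit 5) (nat_lit 377) (nat_lit 319) (nat_lit 204)) (XT.lf (nat_lit 0) (nat_lit 12835589239) (nat_lit 76) (nat_lit 51913638113) (nat_lit 152) (nat_lit 923917497) (nat_lit 33) (nat_lit 5) (nat_lit 34) (nat_lit 5) (nat_lit 35) (nat_lit 4) (nat_lit 378) (nat_lit 319) (nat_lit 203)))))) (XT.nd (nat_lit 390) (nat_lit 380) (nat_lit 0) (XT.nd (nat_lit 156) (nat_lit 304) (nat_lit 0) (XT.nd (nat_lit 78) (nat_lit 152) (nat_lit 0) (XT.lf (nat_lit 0) (nat_lit 17732438358) (nat_lit 152) (nat_lit 11811804959) (nat_lit 76) (nat_lit 38677600777) (nat_lit 32) (nat_lit 5) (nat_lit 34) (nat_lit 5) (nat_lit 33) (nat_lit 5) (nat_lit 379) (nat_lit 319) (nat_lit 202)) (XT.lf (nat_lit 0) (nat_lit 31863674623) (nat_lit 152) (nat_lit 5737448931) (nat_lit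 228) (nat_lit 33287623804) (nat_lit 30) (nat_lit 5) (nat_lit 32) (nat_lit 5) (nat_lit 33) (nat_lit 5) (nat_lit 380) (nat_lit 319) (nat_lit 201))) (XT.nd (nat_lit 78) (nat_lit 228) (nat_lit 0) (XT.lf (nat_lit 0) (nat_lit 4165578480) (nat_lit 76) (nat_lit 54637972714) (nat_lit 152) (nat_lit 14875237320) (nat_lit 29) (nat_lit 5) (nat_lit 30) (nat_lit 5) (nat_lit 31) (nat_lit 4) (nat_lit 381) (nat_lit 319) (nat_lit 200)) (XT.nd (nat_lit 78) (nat_lit 152) (nat_lit 0) (XT.lf (nat_lit 0) (nat_lit 4826892233) (nat_lit 152) (nat_lit 26383281694) (nat_lit 76) (nat_lit 45383190779) (nat_lit 28) (nat_lit 5) (nat_lit 30) (nat_lit 5) (nat_lit 29) (nat_lit 5) (nat_lit 382) (nat_lit 319) (nat_lit 199)) (XT.lf (nat_lit 0) (nat_lit 19113077675) (nat_lit 152) (nat_lit 6272846826) (nat_lit 228) (nat_lit 54257945389) (nat_lit 26) (nat_lit 5) (nat_lit 28) (nat_lit 5) (nat_lit 29) (nat_lit 5) (nat_lit 383) (nat_lit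 319) (nat_lit 198))))) (XT.nd (nat_lit 234) (nat_lit 228) (nat_lit 0) (XT.nd (nat_lit 78) (nat_lit 152) (nat_lit 0) (XT.lf (nat_lit 0) (nat_lit 47431608858) (nat_lit 228) (nat_lit 15609930822) (nat_lit 76) (nat_lit 19791601295) (nat_lit 26) (nat_lit 5) (nat_lit 29) (nat_lit 5) (nat_lit 27) (nat_lit 4) (nat_lit 384) (nat_lit 319) (nat_lit 197)) (XT.nd (nat_lit 78) (nat_lit 76) (nat_lit 0) (XT.lf (nat_lit 0) (nat_lit 32108132067) (nat_lit 76) (nat_lit 38836752964) (nat_lit 152) (nat_lit 15226032934) (nat_lit 25) (nat_lit 5) (nat_lit 26) (nat_lit 5) (nat_lit 27) (nat_lit 4) (nat_lit 385) (nat_lit 319) (nat_lit 196)) (XT.lf (nat_lit 0) (nat_lit 5997745741) (nat_lit 152) (nat_lit 7203187053) (nat_lit 76) (nat_lit 76468261102) (nat_lit 24) (nat_lit 5) (nat_lit 26) (nat_lit 5) (nat_lit 25) (nat_lit 5) (nat_lit 386) (nat_lit 319) (nat_lit 195)))) (XT.nd (nat_lit 78) (nat_lit 76) (nat_lit 0) (XT.lf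 (nat_lit 0) (nat_lit 28512070582) (nat_lit 228) (nat_lit 50796038036) (nat_lit 76) (nat_lit 14013426164) (nat_lit 22) (nat_lit 5) (nat_lit 25) (nat_lit 5) (nat_lit 23) (nat_lit 4) (nat_lit 387) (nat_lit 319) (nat_lit 194)) (XT.nd (nat_lit 78) (nat_lit 76) (nat_lit 0) (XT.lf (nat_lit 0) (nat_lit 52354178445) (nat_lit 228) (nat_lit 2408206406) (nat_lit 76) (nat_lit 42388047180) (nat_lit 22) (nat_lit 5) (nat_lit 25) (nat_lit 5) (nat_lit 23) (nat_lit 4) (nat_lit 388) (nat_lit 319) (nat_lit 193)) (XT.lf (nat_lit 0) (nat_lit 49351466442) (nat_lit 76) (nat_lit 28505552174) (nat_lit 152) (nat_lit 23299697980) (nat_lit 21) (nat_lit 5) (nat_lit 22) (nat_lit 5) (nat_lit 23) (nat_lit 4) (nat_lit 389) (nat_lit 319) (nat_lit 192))))))) (XT.nd (nat_lit 858) (nat_lit 6384) (nat_lit 0) (XT.nd (nat_lit 390) (nat_lit 0) (nat_lit 76) (XT.nd (nat_lit 156) (nat_lit 988) (nat_lit 0) (XT.nd (nat_lit 78) (nat_lit 0)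 (nat_lit 0) (XT.lf (nat_lit 0) (nat_lit 3959668613) (nat_lit 1140) (nat_lit 821196173) (nat_lit 1140) (nat_lit 821196173) (nat_lit 231) (nat_lit 3) (nat_lit 246) (nat_lit 3) (nat_lit 246) (nat_lit 5) (nat_lit 320) (nat_lit 320) (nat_lit 260)) (XT.lf (nat_lit 76) (nat_lit 7189218313) (nat_lit 0) (nat_lit 1861972370) (nat_lit 1140) (nat_lit 2404203633) (nat_lit 232) (nat_lit 5) (nat_lit 231) (nat_lit 3) (nat_lit 246) (nat_lit 5) (nat_lit 321) (nat_lit 320) (nat_lit 259))) (XT.nd (nat_lit 78) (nat_lit 1064) (nat_lit 0) (XT.lf (nat_lit 76) (nat_lit 4780224087) (nat_lit 0) (nat_lit 5526874320) (nat_lit 1140) (nat_lit 1410160219) (nat_lit 233) (nat_lit 5) (nat_lit 232) (nat_lit 5) (nat_lit 247) (nat_lit 5) (nat_lit 322) (nat_lit 320) (nat_lit 258)) (XT.nd (nat_lit 78) (nat_lit 1140) (nat_lit 0) (XT.lf (nat_lit 76) (nat_lit 2346757571) (nat_lit 0) (nat_lit 9336889608) (nat_lit 1140) (nat_lit 306883260)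 (nat_lit 234) (nat_lit 5) (nat_lit 233) (nat_lit 5) (nat_lit 248) (nat_lit 5) (nat_lit 323) (nat_lit 320) (nat_lit 257)) (XT.lf (nat_lit 0) (nat_lit 911696991) (nat_lit 1140) (nat_lit 132490368) (nat_lit 1216) (nat_lit 11230776138) (nat_lit 218) (nat_lit 5) (nat_lit 233) (nat_lit 5) (nat_lit 234) (nat_lit 5) (nat_lit 324) (nat_lit 320) (nat_lit 256))))) (XT.nd (nat_lit 234) (nat_lit 0) (nat_lit 152) (XT.nd (nat_lit 78) (nat_lit 0) (nat_lit 76) (XT.lf (nat_lit 0) (nat_lit 2307309279) (nat_lit 1140) (nat_lit 2630914189) (nat_lit 1216) (nat_lit 7631673821) (nat_lit 219) (nat_lit 5) (nat_lit 234) (nat_lit 5) (nat_lit 235) (nat_lit 5) (nat_lit 325) (nat_lit 320) (nat_lit 255)) (XT.nd (nat_lit 78) (nat_lit 0) (nat_lit 0) (XT.lf (nat_lit 0) (nat_lit 3850383752) (nat_lit 1140) (nat_lit 5169752941) (nat_lit 1216) (nat_lit 3857152279) (nat_lit 220) (nat_lit 5) (nat_lit 235) (nat_lit 5) (nat_lit 236)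 (nat_lit 5) (nat_lit 326) (nat_lit 320) (nat_lit 254)) (XT.lf (nat_lit 76) (nat_lit 5442747338) (nat_lit 0) (nat_lit 112920698) (nat_lit 1216) (nat_lit 7641870183) (nat_lit 221) (nat_lit 5) (nat_lit 220) (nat_lit 5) (nat_lit 236) (nat_lit 5) (nat_lit 327) (nat_lit 320) (nat_lit 253)))) (XT.nd (nat_lit 78) (nat_lit 0) (nat_lit 76) (XT.lf (nat_lit 76) (nat_lit 3100347077) (nat_lit 0) (nat_lit 4375706673) (nat_lit 1216) (nat_lit 6053888838) (nat_lit 222) (nat_lit 5) (nat_lit 221) (nat_lit 5) (nat_lit 237) (nat_lit 5) (nat_lit 328) (nat_lit 320) (nat_lit 252)) (XT.nd (nat_lit 78) (nat_lit 0) (nat_lit 76) (XT.lf (nat_lit 76) (nat_lit 714726685) (nat_lit 0) (nat_lit 8873729635) (nat_lit 1216) (nat_lit 4287666906) (nat_lit 223) (nat_lit 5) (nat_lit 222) (nat_lit 5) (nat_lit 238) (nat_lit 5) (nat_lit 329) (nat_lit 320) (nat_lit 251)) (XT.lf (nat_lit 0) (nat_lit 11924628475) (nat_lit 1140) (nat_lit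 1685240326) (nat_lit 76) (nat_lit 626233874) (nat_lit 223) (nat_lit 5) (nat_lit 238) (nat_lit 5) (nat_lit 224) (nat_lit 5) (nat_lit 330) (nat_lit 320) (nat_lit 250)))))) (XT.nd (nat_lit 468) (nat_lit 3040) (nat_lit 0) (XT.nd (nat_lit 234) (nat_lit 1064) (nat_lit 0) (XT.nd (nat_lit 78) (nat_lit 1520) (nat_lit 0) (XT.lf (nat_lit 0) (nat_lit 10447350287) (nat_lit 1140) (nat_lit 4083090572) (nat_lit 1216) (nat_lit 79087920) (nat_lit 208) (nat_lit 5) (nat_lit 223) (nat_lit 5) (nat_lit 224) (nat_lit 5) (nat_lit 331) (nat_lit 320) (nat_lit 249)) (XT.nd (nat_lit 78) (nat_lit 608) (nat_lit 0) (XT.lf (nat_lit 0) (nat_lit 2340374680) (nat_lit 912) (nat_lit 6727522846) (nat_lit 76) (nat_lit 5929516071) (nat_lit 196) (nat_lit 5) (nat_lit 208) (nat_lit 5) (nat_lit 197) (nat_lit 5) (nat_lit 332) (nat_lit 320) (nat_lit 248)) (XT.lf (nat_lit 0) (nat_lit 4997457093) (nat_lit 684) (nat_lit 9360622840) (nat_lit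 76) (nat_lit 1043069497) (nat_lit 188) (nat_lit 5) (nat_lit 197) (nat_lit 5) (nat_lit 189) (nat_lit 5) (nat_lit 333) (nat_lit 320) (nat_lit 247)))) (XT.nd (nat_lit 78) (nat_lit 532) (nat_lit 0) (XT.lf (nat_lit 0) (nat_lit 3712955299) (nat_lit 532) (nat_lit 4238361629) (nat_lit 608) (nat_lit 7868864796) (nat_lit 181) (nat_lit 5) (nat_lit 188) (nat_lit 5) (nat_lit 189) (nat_lit 5) (nat_lit 334) (nat_lit 320) (nat_lit 246)) (XT.nd (nat_lit 78) (nat_lit 0) (nat_lit 0) (XT.lf (nat_lit 0) (nat_lit 1309814991) (nat_lit 532) (nat_lit 9882420642) (nat_lit 608) (nat_lit 5063775086) (nat_lit 174) (nat_lit 5) (nat_lit 181) (nat_lit 5) (nat_lit 182) (nat_lit 5) (nat_lit 335) (nat_lit 320) (nat_lit 245)) (XT.lf (nat_lit 0) (nat_lit 14739596848) (nat_lit 608) (nat_lit 1141625191) (nat_lit 76) (nat_lit 828102053) (nat_lit 174) (nat_lit 5) (nat_lit 182) (nat_lit 5) (nat_lit 175) (nat_lit 5) (nat_lit 336) (nat_lit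 320) (nat_lit 244))))) (XT.nd (nat_lit 234) (nat_lit 1444) (nat_lit 0) (XT.nd (nat_lit 78) (nat_lit 988) (nat_lit 0) (XT.lf (nat_lit 0) (nat_lit 1456150785) (nat_lit 608) (nat_lit 3707451119) (nat_lit 76) (nat_lit 12015292754) (nat_lit 166) (nat_lit 5) (nat_lit 174) (nat_lit 5) (nat_lit 167) (nat_lit 5) (nat_lit 337) (nat_lit 320) (nat_lit 243)) (XT.nd (nat_lit 78) (nat_lit 456) (nat_lit 0) (XT.lf (nat_lit 0) (nat_lit 5165295730) (nat_lit 608) (nat_lit 6389983281) (nat_lit 76) (nat_lit 6111520234) (nat_lit 159) (nat_lit 5) (nat_lit 167) (nat_lit 5) (nat_lit 160) (nat_lit 5) (nat_lit 338) (nat_lit 320) (nat_lit 242)) (XT.lf (nat_lit 0) (nat_lit 9002882288) (nat_lit 456) (nat_lit 206824863) (nat_lit 532) (nat_lit 8964918452) (nat_lit 153) (nat_lit 5) (nat_lit 159) (nat_lit 5) (nat_lit 160) (nat_lit 5) (nat_lit 339) (nat_lit 320) (nat_lit 241)))) (XT.nd (nat_lit 78) (nat_lit 988) (nat_lit 0) (XT.lf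 (nat_lit 0) (nat_lit 6578173131) (nat_lit 456) (nat_lit 7093987691) (nat_lit 532) (nat_lit 5029227634) (nat_lit 147) (nat_lit 5) (nat_lit 153) (nat_lit 5) (nat_lit 154) (nat_lit 5) (nat_lit 340) (nat_lit 320) (nat_lit 240)) (XT.nd (nat_lit 78) (nat_lit 532) (nat_lit 0) (XT.lf (nat_lit 0) (nat_lit 4056121201) (nat_lit 456) (nat_lit 14458261359) (nat_lit 532) (nat_lit 735426414) (nat_lit 141) (nat_lit 5) (nat_lit 147) (nat_lit 5) (nat_lit 148) (nat_lit 5) (nat_lit 341) (nat_lit 320) (nat_lit 239)) (XT.lf (nat_lit 0) (nat_lit 1363788673) (nat_lit 456) (nat_lit 2521610403) (nat_lit 532) (nat_lit 15933602022) (nat_lit 134) (nat_lit 5) (nat_lit 140) (nat_lit 5) (nat_lit 141) (nat_lit 5) (nat_lit 342) (nat_lit 320) (nat_lit 238))))))))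
noncomputable def xc85 : XT := (XT.nd (nat_lit 1794) (nat_lit 2660) (nat_lit 0) (XT.nd (nat_lit 858) (nat_lit 2508) (nat_lit 0) (XT.nd (nat_lit 390) (nat_lit 1748) (nat_lit 0) (XT.nd (nat_lit 156) (nat_lit 1216) (nat_lit 0) (XT.nd (nat_lit 78) (nat_lit 380) (nat_lit 0) (XT.lf (nat_lit 0) (nat_lit 8952465323) (nat_lit 532) (nat_lit 1479943951) (nat_lit 76) (nat_lit 9977129464) (nat_lit 134) (nat_lit 5) (nat_lit 141) (nat_lit 5) (nat_lit 135) (nat_lit 5) (nat_lit 343) (nat_lit 320) (nat_lit 237)) (XT.lf (nat_lit 0) (nat_lit 14456212307) (nat_lit 456) (nat_lit 4430860481) (nat_lit 76) (nat_lit 2137046484) (nat_lit 129) (nat_lit 5) (nat_lit 135) (nat_lit 5) (nat_lit 130) (nat_lit 5) (nat_lit 344) (nat_lit 320) (nat_lit 236))) (XT.nd (nat_lit 78) (nat_lit 836) (nat_lit 0) (XT.lf (nat_lit 0) (nat_lit 14073417890) (nat_lit 380) (nat_lit 6395679325) (nat_lit 456) (nat_lit 1193328184) (nat_lit 124)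 (nat_lit 5) (nat_lit 129) (nat_lit 5) (nat_lit 130) (nat_lit 5) (nat_lit 345) (nat_lit 320) (nat_lit 235)) (XT.nd (nat_lit 78) (nat_lit 380) (nat_lit 0) (XT.lf (nat_lit 0) (nat_lit 4564005920) (nat_lit 456) (nat_lit 10977562314) (nat_lit 76) (nat_lit 6783783422) (nat_lit 118) (nat_lit 5) (nat_lit 124) (nat_lit 5) (nat_lit 119) (nat_lit 5) (nat_lit 346) (nat_lit 320) (nat_lit 234)) (XT.lf (nat_lit 0) (nat_lit 8430812396) (nat_lit 380) (nat_lit 2357691990) (nat_lit 456) (nat_lit 12226459342) (nat_lit 113) (nat_lit 5) (nat_lit 118) (nat_lit 5) (nat_lit 119) (nat_lit 5) (nat_lit 347) (nat_lit 320) (nat_lit 233))))) (XT.nd (nat_lit 234) (nat_lit 988) (nat_lit 0) (XT.nd (nat_lit 78) (nat_lit 456) (nat_lit 0) (XT.lf (nat_lit 0) (nat_lit 5267569754) (nat_lit 304) (nat_lit 12311748921) (nat_lit 380) (nat_lit 6152097651) (nat_lit 109) (nat_lit 5) (nat_lit 113) (nat_lit 5) (nat_lit 114) (nat_lit 5) (nat_lit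 348) (nat_lit 320) (nat_lit 232)) (XT.nd (nat_lit 78) (nat_lit 0) (nat_lit 0) (XT.lf (nat_lit 0) (nat_lit 410537300) (nat_lit 456) (nat_lit 22572246564) (nat_lit 76) (nat_lit 1495185271) (nat_lit 103) (nat_lit 5) (nat_lit 109) (nat_lit 5) (nat_lit 104) (nat_lit 5) (nat_lit 349) (nat_lit 320) (nat_lit 231)) (XT.lf (nat_lit 0) (nat_lit 7472511935) (nat_lit 456) (nat_lit 1791186206) (nat_lit 76) (nat_lit 15987381945) (nat_lit 103) (nat_lit 5) (nat_lit 109) (nat_lit 5) (nat_lit 104) (nat_lit 5) (nat_lit 350) (nat_lit 320) (nat_lit 230)))) (XT.nd (nat_lit 78) (nat_lit 684) (nat_lit 0) (XT.lf (nat_lit 0) (nat_lit 15116942355) (nat_lit 380) (nat_lit 5706918551) (nat_lit 76) (nat_lit 5232115576) (nat_lit 99) (nat_lit 5) (nat_lit 104) (nat_lit 5) (nat_lit 100) (nat_lit 5) (nat_lit 351) (nat_lit 320) (nat_lit 229)) (XT.nd (nat_lit 78) (nat_lit 380) (nat_lit 0) (XT.lf (nat_lit 0) (nat_lit 16945265818)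 (nat_lit 304) (nat_lit 6455842656) (nat_lit 380) (nat_lit 3492293901) (nat_lit 95) (nat_lit 5) (nat_lit 99) (nat_lit 5) (nat_lit 100) (nat_lit 5) (nat_lit 352) (nat_lit 320) (nat_lit 228)) (XT.lf (nat_lit 0) (nat_lit 4497327870) (nat_lit 380) (nat_lit 14580884611) (nat_lit 76) (nat_lit 8685599404) (nat_lit 90) (nat_lit 5) (nat_lit 95) (nat_lit 5) (nat_lit 91) (nat_lit 5) (nat_lit 353) (nat_lit 320) (nat_lit 227)))))) (XT.nd (nat_lit 468) (nat_lit 1140) (nat_lit 0) (XT.nd (nat_lit 234) (nat_lit 760) (nat_lit 0) (XT.nd (nat_lit 78) (nat_lit 304) (nat_lit 0) (XT.lf (nat_lit 0) (nat_lit 9054770051) (nat_lit 304) (nat_lit 3999168973) (nat_lit 380) (nat_lit 15615582400) (nat_lit 86) (nat_lit 5) (nat_lit 90) (nat_lit 5) (nat_lit 91) (nat_lit 5) (nat_lit 354) (nat_lit 320) (nat_lit 226)) (XT.nd (nat_lit 78) (nat_lit 76) (nat_lit 0) (XT.lf (nat_lit 0) (nat_lit 4509671457) (nat_lit 228) (nat_lit 17821326980)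 (nat_lit 304) (nat_lit 7280747947) (nat_lit 83) (nat_lit 5) (nat_lit 86) (nat_lit 5) (nat_lit 87) (nat_lit 5) (nat_lit 355) (nat_lit 320) (nat_lit 225)) (XT.lf (nat_lit 0) (nat_lit 1670717584) (nat_lit 304) (nat_lit 424933933) (nat_lit 76) (nat_lit 28498157038) (nat_lit 82) (nat_lit 5) (nat_lit 86) (nat_lit 5) (nat_lit 83) (nat_lit 5) (nat_lit 356) (nat_lit 320) (nat_lit 224)))) (XT.nd (nat_lit 78) (nat_lit 456) (nat_lit 0) (XT.lf (nat_lit 0) (nat_lit 11296256875) (nat_lit 380) (nat_lit 5862053209) (nat_lit 76) (nat_lit 14453196289) (nat_lit 78) (nat_lit 5) (nat_lit 83) (nat_lit 5) (nat_lit 79) (nat_lit 5) (nat_lit 357) (nat_lit 320) (nat_lit 223)) (XT.nd (nat_lit 78) (nat_lit 228) (nat_lit 0) (XT.lf (nat_lit 0) (nat_lit 20926423525) (nat_lit 228) (nat_lit 688864494) (nat_lit 304) (nat_lit 11058441723) (nat_lit 75) (nat_lit 5) (nat_lit 78) (nat_lit 5) (nat_lit 79) (nat_lit 5) (nat_lit 358)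 (nat_lit 320) (nat_lit 222)) (XT.lf (nat_lit 0) (nat_lit 15510090641) (nat_lit 228) (nat_lit 17295721877) (nat_lit 304) (nat_lit 972592277) (nat_lit 72) (nat_lit 5) (nat_lit 75) (nat_lit 5) (nat_lit 76) (nat_lit 5) (nat_lit 359) (nat_lit 320) (nat_lit 221))))) (XT.nd (nat_lit 234) (nat_lit 608) (nat_lit 0) (XT.nd (nat_lit 78) (nat_lit 228) (nat_lit 0) (XT.lf (nat_lit 0) (nat_lit 9504438716) (nat_lit 228) (nat_lit 132102964) (nat_lit 304) (nat_lit 25292804733) (nat_lit 68) (nat_lit 5) (nat_lit 71) (nat_lit 5) (nat_lit 72) (nat_lit 5) (nat_lit 360) (nat_lit 320) (nat_lit 220)) (XT.nd (nat_lit 78) (nat_lit 0) (nat_lit 0) (XT.lf (nat_lit 0) (nat_lit 2764391451) (nat_lit 228) (nat_lit 18366876272) (nat_lit 304) (nat_lit 14995026957) (nat_lit 65) (nat_lit 5) (nat_lit 68) (nat_lit 5) (nat_lit 69) (nat_lit 5) (nat_lit 361) (nat_lit 320) (nat_lit 219)) (XT.lf (nat_lit 0) (nat_lit 32872415564) (nat_lit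 228) (nat_lit 578406026) (nat_lit 304) (nat_lit 3924771701) (nat_lit 65) (nat_lit 5) (nat_lit 68) (nat_lit 5) (nat_lit 69) (nat_lit 5) (nat_lit 362) (nat_lit 320) (nat_lit 218)))) (XT.nd (nat_lit 78) (nat_lit 380) (nat_lit 0) (XT.lf (nat_lit 0) (nat_lit 7965439233) (nat_lit 228) (nat_lit 12639002142) (nat_lit 76) (nat_lit 18068200141) (nat_lit 62) (nat_lit 5) (nat_lit 65) (nat_lit 5) (nat_lit 63) (nat_lit 5) (nat_lit 363) (nat_lit 320) (nat_lit 217)) (XT.nd (nat_lit 78) (nat_lit 152) (nat_lit 0) (XT.lf (nat_lit 0) (nat_lit 18452739206) (nat_lit 228) (nat_lit 2134908629) (nat_lit 304) (nat_lit 19439173820) (nat_lit 59) (nat_lit 5) (nat_lit 62) (nat_lit 5) (nat_lit 63) (nat_lit 5) (nat_lit 364) (nat_lit 320) (nat_lit 216)) (XT.lf (nat_lit 0) (nat_lit 9925475771) (nat_lit 152) (nat_lit 24296385397) (nat_lit 228) (nat_lit 7215427564) (nat_lit 57) (nat_lit 5) (nat_lit 59) (nat_lit 5) (nat_lit 60)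 (nat_lit 5) (nat_lit 365) (nat_lit 320) (nat_lit 215))))))) (XT.nd (nat_lit 858) (nat_lit 1064) (nat_lit 0) (XT.nd (nat_lit 390) (nat_lit 760) (nat_lit 0) (XT.nd (nat_lit 156) (nat_lit 532) (nat_lit 0) (XT.nd (nat_lit 78) (nat_lit 0) (nat_lit 0) (XT.lf (nat_lit 0) (nat_lit 451190971) (nat_lit 228) (nat_lit 5297285586) (nat_lit 304) (nat_lit 37161027644) (nat_lit 53) (nat_lit 5) (nat_lit 56) (nat_lit 5) (nat_lit 57) (nat_lit 5) (nat_lit 366) (nat_lit 320) (nat_lit 214)) (XT.lf (nat_lit 0) (nat_lit 19669934623) (nat_lit 304) (nat_lit 10010430254) (nat_lit 76) (nat_lit 14759069017) (nat_lit 53) (nat_lit 5) (nat_lit 57) (nat_lit 5) (nat_lit 54) (nat_lit 5) (nat_lit 367) (nat_lit 320) (nat_lit 213))) (XT.nd (nat_lit 78) (nat_lit 380) (nat_lit 0) (XT.lf (nat_lit 0) (nat_lit 24465892885) (nat_lit 152) (nat_lit 10099513807) (nat_lit 228) (nat_lit 11472119138) (nat_lit 51) (nat_lit 5) (nat_lit 53) (nat_lit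 5) (nat_lit 54) (nat_lit 5) (nat_lit 368) (nat_lit 320) (nat_lit 212)) (XT.nd (nat_lit 78) (nat_lit 152) (nat_lit 0) (XT.lf (nat_lit 0) (nat_lit 2766790576) (nat_lit 228) (nat_lit 34429817610) (nat_lit 76) (nat_lit 10508442210) (nat_lit 48) (nat_lit 5) (nat_lit 51) (nat_lit 5) (nat_lit 49) (nat_lit 5) (nat_lit 369) (nat_lit 320) (nat_lit 211)) (XT.lf (nat_lit 0) (nat_lit 641181755) (nat_lit 152) (nat_lit 17163565164) (nat_lit 228) (nat_lit 31638069362) (nat_lit 46) (nat_lit 5) (nat_lit 48) (nat_lit 5) (nat_lit 49) (nat_lit 5) (nat_lit 370) (nat_lit 320) (nat_lit 210))))) (XT.nd (nat_lit 234) (nat_lit 380) (nat_lit 0) (XT.nd (nat_lit 78) (nat_lit 380) (nat_lit 0) (XT.lf (nat_lit 0) (nat_lit 33979800331) (nat_lit 228) (nat_lit 13129421072) (nat_lit 76) (nat_lit 4146696429) (nat_lit 46) (nat_lit 5) (nat_lit 49) (nat_lit 5) (nat_lit 47) (nat_lit 5) (nat_lit 371) (nat_lit 320) (nat_lit 209)) (XT.nd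 (nat_lit 78) (nat_lit 228) (nat_lit 0) (XT.lf (nat_lit 0) (nat_lit 24617276344) (nat_lit 152) (nat_lit 26746729870) (nat_lit 228) (nat_lit 1783659442) (nat_lit 44) (nat_lit 5) (nat_lit 46) (nat_lit 5) (nat_lit 47) (nat_lit 5) (nat_lit 372) (nat_lit 320) (nat_lit 208)) (XT.lf (nat_lit 0) (nat_lit 9423061259) (nat_lit 152) (nat_lit 4995543636) (nat_lit 228) (nat_lit 40704688007) (nat_lit 41) (nat_lit 5) (nat_lit 43) (nat_lit 5) (nat_lit 44) (nat_lit 5) (nat_lit 373) (nat_lit 320) (nat_lit 207)))) (XT.nd (nat_lit 78) (nat_lit 380) (nat_lit 0) (XT.lf (nat_lit 0) (nat_lit 31853521349) (nat_lit 228) (nat_lit 7526670190) (nat_lit 76) (nat_lit 17803200148) (nat_lit 41) (nat_lit 5) (nat_lit 44) (nat_lit 5) (nat_lit 42) (nat_lit 5) (nat_lit 374) (nat_lit 320) (nat_lit 206)) (XT.nd (nat_lit 78) (nat_lit 228) (nat_lit 0) (XT.lf (nat_lit 0) (nat_lit 33136780748) (nat_lit 152) (nat_lit 17383747470) (nat_lit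 228) (nat_lit 8815159529) (nat_lit 39) (nat_lit 5) (nat_lit 41) (nat_lit 5) (nat_lit 42) (nat_lit 5) (nat_lit 375) (nat_lit 320) (nat_lit 205)) (XT.lf (nat_lit 0) (nat_lit 8626774236) (nat_lit 228) (nat_lit 47060098259) (nat_lit 76) (nat_lit 5898234686) (nat_lit 36) (nat_lit 5) (nat_lit 39) (nat_lit 5) (nat_lit 37) (nat_lit 5) (nat_lit 376) (nat_lit 320) (nat_lit 204)))))) (XT.nd (nat_lit 468) (nat_lit 532) (nat_lit 0) (XT.nd (nat_lit 234) (nat_lit 304) (nat_lit 0) (XT.nd (nat_lit 78) (nat_lit 228) (nat_lit 0) (XT.lf (nat_lit 0) (nat_lit 27199793446) (nat_lit 228) (nat_lit 6387899970) (nat_lit 76) (nat_lit 30343449170) (nat_lit 36) (nat_lit 5) (nat_lit 39) (nat_lit 5) (nat_lit 37) (nat_lit 5) (nat_lit 377) (nat_lit 320) (nat_lit 203)) (XT.nd (nat_lit 78) (nat_lit 76) (nat_lit 0) (XT.lf (nat_lit 0) (nat_lit 37026629419) (nat_lit 152) (nat_lit 10022929946) (nat_lit 228) (nat_lit 19334479767)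 (nat_lit 34) (nat_lit 5) (nat_lit 36) (nat_lit 5) (nat_lit 37) (nat_lit 5) (nat_lit 378) (nat_lit 320) (nat_lit 202)) (XT.lf (nat_lit 0) (nat_lit 13903340941) (nat_lit 76) (nat_lit 54322388254) (nat_lit 152) (nat_lit 723835976) (nat_lit 33) (nat_lit 5) (nat_lit 34) (nat_lit 5) (nat_lit 35) (nat_lit 4) (nat_lit 379) (nat_lit 320) (nat_lit 201)))) (XT.nd (nat_lit 78) (nat_lit 228) (nat_lit 0) (XT.lf (nat_lit 0) (nat_lit 18849033264) (nat_lit 152) (nat_lit 11992069692) (nat_lit 76) (nat_lit 40784873400) (nat_lit 32) (nat_lit 5) (nat_lit 34) (nat_lit 5) (nat_lit 33) (nat_lit 5) (nat_lit 380) (nat_lit 320) (nat_lit 200)) (XT.nd (nat_lit 78) (nat_lit 76) (nat_lit 0) (XT.lf (nat_lit 0) (nat_lit 33855421971) (nat_lit 152) (nat_lit 5848610891) (nat_lit 228) (nat_lit 34722408408) (nat_lit 30) (nat_lit 5) (nat_lit 32) (nat_lit 5) (nat_lit 33) (nat_lit 5) (nat_lit 381) (nat_lit 320) (nat_lit 199)) (XT.lf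 (nat_lit 0) (nat_lit 4765905810) (nat_lit 76) (nat_lit 57195441236) (nat_lit 152) (nat_lit 15394797240) (nat_lit 29) (nat_lit 5) (nat_lit 30) (nat_lit 5) (nat_lit 31) (nat_lit 4) (nat_lit 382) (nat_lit 320) (nat_lit 198))))) (XT.nd (nat_lit 234) (nat_lit 304) (nat_lit 0) (XT.nd (nat_lit 78) (nat_lit 152) (nat_lit 0) (XT.lf (nat_lit 0) (nat_lit 5277595853) (nat_lit 152) (nat_lit 27324848736) (nat_lit 76) (nat_lit 47814256628) (nat_lit 28) (nat_lit 5) (nat_lit 30) (nat_lit 5) (nat_lit 29) (nat_lit 5) (nat_lit 383) (nat_lit 320) (nat_lit 197)) (XT.nd (nat_lit 78) (nat_lit 0) (nat_lit 0) (XT.lf (nat_lit 0) (nat_lit 20435504857) (nat_lit 152) (nat_lit 6422631050) (nat_lit 228) (nat_lit 56761791495) (nat_lit 26) (nat_lit 5) (nat_lit 28) (nat_lit 5) (nat_lit 29) (nat_lit 5) (nat_lit 384) (nat_lit 320) (nat_lit 196)) (XT.lf (nat_lit 0) (nat_lit 49997941954) (nat_lit 228) (nat_lit 16036775767) (nat_lit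 76) (nat_lit 20934191507) (nat_lit 26) (nat_lit 5) (nat_lit 29) (nat_lit 5) (nat_lit 27) (nat_lit 4) (nat_lit 385) (nat_lit 320) (nat_lit 195)))) (XT.nd (nat_lit 78) (nat_lit 228) (nat_lit 0) (XT.lf (nat_lit 0) (nat_lit 34057052915) (nat_lit 76) (nat_lit 40623857154) (nat_lit 152) (nat_lit 15792846355) (nat_lit 25) (nat_lit 5) (nat_lit 26) (nat_lit 5) (nat_lit 27) (nat_lit 4) (nat_lit 386) (nat_lit 320) (nat_lit 194)) (XT.nd (nat_lit 78) (nat_lit 152) (nat_lit 0) (XT.lf (nat_lit 0) (nat_lit 6479245466) (nat_lit 152) (nat_lit 7232534840) (nat_lit 76) (nat_lit 80435384214) (nat_lit 24) (nat_lit 5) (nat_lit 26) (nat_lit 5) (nat_lit 25) (nat_lit 5) (nat_lit 387) (nat_lit 320) (nat_lit 193)) (XT.lf (nat_lit 0) (nat_lit 30115123628) (nat_lit 228) (nat_lit 53010587149) (nat_lit 76) (nat_lit 14856538498) (nat_lit 22) (nat_lit 5) (nat_lit 25) (nat_lit 5) (nat_lit 23) (nat_lit 4) (nat_lit 388) (nat_lit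 320) (nat_lit 192))))))))
noncomputable def xc86 : XT := (XT.nd (nat_lit 43290) (nat_lit 0) (nat_lit 2812) (XT.nd (nat_lit 42354) (nat_lit 0) (nat_lit 9044) (XT.nd (nat_lit 41886) (nat_lit 0) (nat_lit 14896) (XT.nd (nat_lit 41652) (nat_lit 0) (nat_lit 14820) (XT.nd (nat_lit 41574) (nat_lit 0) (nat_lit 15884) (XT.lf (nat_lit 0) (nat_lit 55140886908) (nat_lit 228) (nat_lit 2218852166) (nat_lit 76) (nat_lit 44643107659) (nat_lit 22) (nat_lit 5) (nat_lit 25) (nat_lit 5) (nat_lit 23) (nat_lit 4) (nat_lit 389) (nat_lit 320) (nat_lit 191)) (XT.lf (nat_lit 0) (nat_lit 5008913533) (nat_lit 1140) (nat_lit 423455398) (nat_lit 1140) (nat_lit 423455398) (nat_lit 231) (nat_lit 3) (nat_lit 246) (nat_lit 3) (nat_lit 246) (nat_lit 5) (nat_lit 321) (nat_lit 321) (nat_lit 258))) (XT.nd (nat_lit 78) (nat_lit 1064) (nat_lit 0) (XT.lf (nat_lit 76) (nat_lit 8401124135) (nat_lit 0) (nat_lit 2732270760) (nat_lit 1140)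 (nat_lit 844352494) (nat_lit 232) (nat_lit 5) (nat_lit 231) (nat_lit 3) (nat_lit 246) (nat_lit 5) (nat_lit 322) (nat_lit 321) (nat_lit 257)) (XT.nd (nat_lit 78) (nat_lit 0) (nat_lit 76) (XT.lf (nat_lit 0) (nat_lit 118458822) (nat_lit 1140) (nat_lit 6352752265) (nat_lit 1216) (nat_lit 5783818238) (nat_lit 217) (nat_lit 5) (nat_lit 232) (nat_lit 5) (nat_lit 233) (nat_lit 5) (nat_lit 323) (nat_lit 321) (nat_lit 256)) (XT.lf (nat_lit 0) (nat_lit 1182185987) (nat_lit 1140) (nat_lit 9179883901) (nat_lit 1216) (nat_lit 2181791269) (nat_lit 218) (nat_lit 5) (nat_lit 233) (nat_lit 5) (nat_lit 234) (nat_lit 5) (nat_lit 324) (nat_lit 321) (nat_lit 255))))) (XT.nd (nat_lit 234) (nat_lit 0) (nat_lit 152) (XT.nd (nat_lit 78) (nat_lit 0) (nat_lit 76) (XT.lf (nat_lit 76) (nat_lit 774066281) (nat_lit 0) (nat_lit 1617442638) (nat_lit 1216) (nat_lit 10452895027) (nat_lit 219) (nat_lit 5) (nat_lit 218) (nat_lit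 5) (nat_lit 234) (nat_lit 5) (nat_lit 325) (nat_lit 321) (nat_lit 254)) (XT.nd (nat_lit 78) (nat_lit 0) (nat_lit 76) (XT.lf (nat_lit 0) (nat_lit 3785146973) (nat_lit 1140) (nat_lit 1843132682) (nat_lit 1216) (nat_lit 7528018414) (nat_lit 219) (nat_lit 5) (nat_lit 234) (nat_lit 5) (nat_lit 235) (nat_lit 5) (nat_lit 326) (nat_lit 321) (nat_lit 253)) (XT.lf (nat_lit 0) (nat_lit 5345107414) (nat_lit 1140) (nat_lit 4490946637) (nat_lit 1216) (nat_lit 3644871409) (nat_lit 220) (nat_lit 5) (nat_lit 235) (nat_lit 5) (nat_lit 236) (nat_lit 5) (nat_lit 327) (nat_lit 321) (nat_lit 252)))) (XT.nd (nat_lit 78) (nat_lit 0) (nat_lit 76) (XT.lf (nat_lit 76) (nat_lit 6625311313) (nat_lit 0) (nat_lit 457086440) (nat_lit 1216) (nat_lit 6736442486) (nat_lit 221) (nat_lit 5) (nat_lit 220) (nat_lit 5) (nat_lit 236) (nat_lit 5) (nat_lit 328) (nat_lit 321) (nat_lit 251)) (XT.nd (nat_lit 78) (nat_lit 0) (nat_lit 76)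 (XT.lf (nat_lit 76) (nat_lit 4180323774) (nat_lit 0) (nat_lit 4864797517) (nat_lit 1216) (nat_lit 5124406671) (nat_lit 222) (nat_lit 5) (nat_lit 221) (nat_lit 5) (nat_lit 237) (nat_lit 5) (nat_lit 329) (nat_lit 321) (nat_lit 250)) (XT.lf (nat_lit 76) (nat_lit 1687286137) (nat_lit 0) (nat_lit 9525471183) (nat_lit 1216) (nat_lit 3321822092) (nat_lit 223) (nat_lit 5) (nat_lit 222) (nat_lit 5) (nat_lit 238) (nat_lit 5) (nat_lit 330) (nat_lit 321) (nat_lit 249)))))) (XT.nd (nat_lit 468) (nat_lit 2508) (nat_lit 0) (XT.nd (nat_lit 234) (nat_lit 1672) (nat_lit 0) (XT.nd (nat_lit 78) (nat_lit 2052) (nat_lit 0) (XT.lf (nat_lit 0) (nat_lit 13609315358) (nat_lit 1140) (nat_lit 841718489) (nat_lit 76) (nat_lit 463264461) (nat_lit 223) (nat_lit 5) (nat_lit 238) (nat_lit 5) (nat_lit 224) (nat_lit 5) (nat_lit 331) (nat_lit 321) (nat_lit 248)) (XT.nd (nat_lit 78) (nat_lit 836) (nat_lit 0) (XT.lf (nat_lit 0)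 (nat_lit 975107100) (nat_lit 1216) (nat_lit 3446389243) (nat_lit 76) (nat_lit 10885953146) (nat_lit 207) (nat_lit 5) (nat_lit 223) (nat_lit 5) (nat_lit 208) (nat_lit 5) (nat_lit 332) (nat_lit 321) (nat_lit 247)) (XT.lf (nat_lit 0) (nat_lit 3471094332) (nat_lit 912) (nat_lit 6134836519) (nat_lit 76) (nat_lit 6110100677) (nat_lit 196) (nat_lit 5) (nat_lit 208) (nat_lit 5) (nat_lit 197) (nat_lit 5) (nat_lit 333) (nat_lit 321) (nat_lit 246)))) (XT.nd (nat_lit 78) (nat_lit 1064) (nat_lit 0) (XT.lf (nat_lit 0) (nat_lit 6220745148) (nat_lit 684) (nat_lit 8895509173) (nat_lit 76) (nat_lit 1024948486) (nat_lit 188) (nat_lit 5) (nat_lit 197) (nat_lit 5) (nat_lit 189) (nat_lit 5) (nat_lit 334) (nat_lit 321) (nat_lit 245)) (XT.nd (nat_lit 78) (nat_lit 532) (nat_lit 0) (XT.lf (nat_lit 0) (nat_lit 4804999465) (nat_lit 532) (nat_lit 4479658241) (nat_lit 608) (nat_lit 7297696390) (nat_lit 181) (nat_lit 5)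 (nat_lit 188) (nat_lit 5) (nat_lit 189) (nat_lit 5) (nat_lit 335) (nat_lit 321) (nat_lit 244)) (XT.lf (nat_lit 0) (nat_lit 2284004895) (nat_lit 532) (nat_lit 10367522756) (nat_lit 608) (nat_lit 4389566087) (nat_lit 174) (nat_lit 5) (nat_lit 181) (nat_lit 5) (nat_lit 182) (nat_lit 5) (nat_lit 336) (nat_lit 321) (nat_lit 243))))) (XT.nd (nat_lit 234) (nat_lit 1368) (nat_lit 0) (XT.nd (nat_lit 78) (nat_lit 1140) (nat_lit 0) (XT.lf (nat_lit 0) (nat_lit 16333497578) (nat_lit 608) (nat_lit 306963616) (nat_lit 76) (nat_lit 877928990) (nat_lit 174) (nat_lit 5) (nat_lit 182) (nat_lit 5) (nat_lit 175) (nat_lit 5) (nat_lit 337) (nat_lit 321) (nat_lit 242)) (XT.nd (nat_lit 78) (nat_lit 532) (nat_lit 0) (XT.lf (nat_lit 0) (nat_lit 2362209146) (nat_lit 608) (nat_lit 3009418843) (nat_lit 76) (nat_lit 12640573576) (nat_lit 166) (nat_lit 5) (nat_lit 174) (nat_lit 5) (nat_lit 167) (nat_lit 5) (nat_lit 338) (nat_lit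 321) (nat_lit 241)) (XT.lf (nat_lit 0) (nat_lit 6225921959) (nat_lit 608) (nat_lit 5827276626) (nat_lit 76) (nat_lit 6472259968) (nat_lit 159) (nat_lit 5) (nat_lit 167) (nat_lit 5) (nat_lit 160) (nat_lit 5) (nat_lit 339) (nat_lit 321) (nat_lit 240)))) (XT.nd (nat_lit 78) (nat_lit 912) (nat_lit 0) (XT.lf (nat_lit 0) (nat_lit 10309943969) (nat_lit 456) (nat_lit 132639511) (nat_lit 532) (nat_lit 8617020903) (nat_lit 153) (nat_lit 5) (nat_lit 159) (nat_lit 5) (nat_lit 160) (nat_lit 5) (nat_lit 340) (nat_lit 321) (nat_lit 239)) (XT.nd (nat_lit 78) (nat_lit 456) (nat_lit 0) (XT.lf (nat_lit 0) (nat_lit 7761718394) (nat_lit 456) (nat_lit 7338650038) (nat_lit 532) (nat_lit 4513198344) (nat_lit 147) (nat_lit 5) (nat_lit 153) (nat_lit 5) (nat_lit 154) (nat_lit 5) (nat_lit 341) (nat_lit 321) (nat_lit 238)) (XT.lf (nat_lit 0) (nat_lit 5110273391) (nat_lit 456) (nat_lit 15048161777) (nat_lit 532) (nat_lit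 31787473) (nat_lit 141) (nat_lit 5) (nat_lit 147) (nat_lit 5) (nat_lit 148) (nat_lit 5) (nat_lit 342) (nat_lit 321) (nat_lit 237))))))) (XT.nd (nat_lit 858) (nat_lit 2736) (nat_lit 0) (XT.nd (nat_lit 390) (nat_lit 1748) (nat_lit 0) (XT.nd (nat_lit 156) (nat_lit 1216) (nat_lit 0) (XT.nd (nat_lit 78) (nat_lit 0) (nat_lit 0) (XT.lf (nat_lit 0) (nat_lit 2273451266) (nat_lit 456) (nat_lit 2505699082) (nat_lit 532) (nat_lit 16009329285) (nat_lit 134) (nat_lit 5) (nat_lit 140) (nat_lit 5) (nat_lit 141) (nat_lit 5) (nat_lit 343) (nat_lit 321) (nat_lit 236)) (XT.lf (nat_lit 0) (nat_lit 10067561189) (nat_lit 532) (nat_lit 733388990) (nat_lit 76) (nat_lit 10608577431) (nat_lit 134) (nat_lit 5) (nat_lit 141) (nat_lit 5) (nat_lit 135) (nat_lit 5) (nat_lit 344) (nat_lit 321) (nat_lit 235))) (XT.nd (nat_lit 78) (nat_lit 836) (nat_lit 0) (XT.lf (nat_lit 0) (nat_lit 15823849945) (nat_lit 456) (nat_lit 3837107301)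 (nat_lit 76) (nat_lit 2394581383) (nat_lit 129) (nat_lit 5) (nat_lit 135) (nat_lit 5) (nat_lit 130) (nat_lit 5) (nat_lit 345) (nat_lit 321) (nat_lit 234)) (XT.nd (nat_lit 78) (nat_lit 456) (nat_lit 0) (XT.lf (nat_lit 0) (nat_lit 15569014687) (nat_lit 380) (nat_lit 6545270839) (nat_lit 456) (nat_lit 612188381) (nat_lit 124) (nat_lit 5) (nat_lit 129) (nat_lit 5) (nat_lit 130) (nat_lit 5) (nat_lit 346) (nat_lit 321) (nat_lit 233)) (XT.lf (nat_lit 0) (nat_lit 5399794271) (nat_lit 456) (nat_lit 10727796733) (nat_lit 76) (nat_lit 7295411542) (nat_lit 118) (nat_lit 5) (nat_lit 124) (nat_lit 5) (nat_lit 119) (nat_lit 5) (nat_lit 347) (nat_lit 321) (nat_lit 232))))) (XT.nd (nat_lit 234) (nat_lit 608) (nat_lit 0) (XT.nd (nat_lit 78) (nat_lit 760) (nat_lit 0) (XT.lf (nat_lit 0) (nat_lit 9628103751) (nat_lit 380) (nat_lit 2285938136) (nat_lit 456) (nat_lit 12233716135) (nat_lit 113) (nat_lit 5) (nat_lit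 118) (nat_lit 5) (nat_lit 119) (nat_lit 5) (nat_lit 348) (nat_lit 321) (nat_lit 231)) (XT.nd (nat_lit 78) (nat_lit 456) (nat_lit 0) (XT.lf (nat_lit 0) (nat_lit 6300130819) (nat_lit 304) (nat_lit 12725485932) (nat_lit 380) (nat_lit 5874997547) (nat_lit 109) (nat_lit 5) (nat_lit 113) (nat_lit 5) (nat_lit 114) (nat_lit 5) (nat_lit 349) (nat_lit 321) (nat_lit 230)) (XT.lf (nat_lit 0) (nat_lit 986324425) (nat_lit 456) (nat_lit 22927357559) (nat_lit 76) (nat_lit 1771201512) (nat_lit 103) (nat_lit 5) (nat_lit 109) (nat_lit 5) (nat_lit 104) (nat_lit 5) (nat_lit 350) (nat_lit 321) (nat_lit 229)))) (XT.nd (nat_lit 78) (nat_lit 608) (nat_lit 0) (XT.lf (nat_lit 0) (nat_lit 8374956827) (nat_lit 456) (nat_lit 1144077580) (nat_lit 76) (nat_lit 16978424354) (nat_lit 103) (nat_lit 5) (nat_lit 109) (nat_lit 5) (nat_lit 104) (nat_lit 5) (nat_lit 351) (nat_lit 321) (nat_lit 228)) (XT.nd (nat_lit 78) (nat_lit 304)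 (nat_lit 0) (XT.lf (nat_lit 0) (nat_lit 16385276145) (nat_lit 380) (nat_lit 5263072485) (nat_lit 76) (nat_lit 5694756123) (nat_lit 99) (nat_lit 5) (nat_lit 104) (nat_lit 5) (nat_lit 100) (nat_lit 5) (nat_lit 352) (nat_lit 321) (nat_lit 227)) (XT.lf (nat_lit 0) (nat_lit 18500818961) (nat_lit 304) (nat_lit 6565235997) (nat_lit 380) (nat_lit 3156888944) (nat_lit 95) (nat_lit 5) (nat_lit 99) (nat_lit 5) (nat_lit 100) (nat_lit 5) (nat_lit 353) (nat_lit 321) (nat_lit 226)))))) (XT.nd (nat_lit 468) (nat_lit 1216) (nat_lit 0) (XT.nd (nat_lit 234) (nat_lit 608) (nat_lit 0) (XT.nd (nat_lit 78) (nat_lit 532) (nat_lit 0) (XT.lf (nat_lit 0) (nat_lit 5207223987) (nat_lit 380) (nat_lit 14599325900) (nat_lit 76) (nat_lit 9330641081) (nat_lit 90) (nat_lit 5) (nat_lit 95) (nat_lit 5) (nat_lit 91) (nat_lit 5) (nat_lit 354) (nat_lit 321) (nat_lit 225)) (XT.nd (nat_lit 78) (nat_lit 228) (nat_lit 0) (XT.lf (nat_lit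 0) (nat_lit 10197742205) (nat_lit 304) (nat_lit 3977461788) (nat_lit 380) (nat_lit 15913488252) (nat_lit 86) (nat_lit 5) (nat_lit 90) (nat_lit 5) (nat_lit 91) (nat_lit 5) (nat_lit 355) (nat_lit 321) (nat_lit 224)) (XT.lf (nat_lit 0) (nat_lit 5417428757) (nat_lit 228) (nat_lit 18484962609) (nat_lit 304) (nat_lit 7176060656) (nat_lit 83) (nat_lit 5) (nat_lit 86) (nat_lit 5) (nat_lit 87) (nat_lit 5) (nat_lit 356) (nat_lit 321) (nat_lit 223)))) (XT.nd (nat_lit 78) (nat_lit 228) (nat_lit 0) (XT.lf (nat_lit 0) (nat_lit 216763238) (nat_lit 304) (nat_lit 1977267391) (nat_lit 380) (nat_lit 29916056463) (nat_lit 78) (nat_lit 5) (nat_lit 82) (nat_lit 5) (nat_lit 83) (nat_lit 5) (nat_lit 357) (nat_lit 321) (nat_lit 222)) (XT.nd (nat_lit 78) (nat_lit 228) (nat_lit 0) (XT.lf (nat_lit 0) (nat_lit 12286155444) (nat_lit 380) (nat_lit 5504509837) (nat_lit 76) (nat_lit 15388455671) (nat_lit 78) (nat_lit 5) (nat_lit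 83) (nat_lit 5) (nat_lit 79) (nat_lit 5) (nat_lit 358) (nat_lit 321) (nat_lit 221)) (XT.lf (nat_lit 0) (nat_lit 22604740095) (nat_lit 228) (nat_lit 502230999) (nat_lit 304) (nat_lit 11187919321) (nat_lit 75) (nat_lit 5) (nat_lit 78) (nat_lit 5) (nat_lit 79) (nat_lit 5) (nat_lit 359) (nat_lit 321) (nat_lit 220))))) (XT.nd (nat_lit 234) (nat_lit 456) (nat_lit 0) (XT.nd (nat_lit 78) (nat_lit 532) (nat_lit 0) (XT.lf (nat_lit 0) (nat_lit 16909577102) (nat_lit 228) (nat_lit 17935899184) (nat_lit 304) (nat_lit 609678740) (nat_lit 72) (nat_lit 5) (nat_lit 75) (nat_lit 5) (nat_lit 76) (nat_lit 5) (nat_lit 360) (nat_lit 321) (nat_lit 219)) (XT.nd (nat_lit 78) (nat_lit 228) (nat_lit 0) (XT.lf (nat_lit 0) (nat_lit 10509387867) (nat_lit 304) (nat_lit 26071016985) (nat_lit 76) (nat_lit 83503723) (nat_lit 68) (nat_lit 5) (nat_lit 72) (nat_lit 5) (nat_lit 69) (nat_lit 5) (nat_lit 361) (nat_lit 321) (nat_lit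 218)) (XT.lf (nat_lit 0) (nat_lit 3508532594) (nat_lit 228) (nat_lit 19058792004) (nat_lit 304) (nat_lit 15353733740) (nat_lit 65) (nat_lit 5) (nat_lit 68) (nat_lit 5) (nat_lit 69) (nat_lit 5) (nat_lit 362) (nat_lit 321) (nat_lit 217)))) (XT.nd (nat_lit 78) (nat_lit 456) (nat_lit 0) (XT.lf (nat_lit 0) (nat_lit 35093104503) (nat_lit 228) (nat_lit 391680536) (nat_lit 304) (nat_lit 3748586892) (nat_lit 65) (nat_lit 5) (nat_lit 68) (nat_lit 5) (nat_lit 69) (nat_lit 5) (nat_lit 363) (nat_lit 321) (nat_lit 216)) (XT.nd (nat_lit 78) (nat_lit 228) (nat_lit 0) (XT.lf (nat_lit 0) (nat_lit 8718998299) (nat_lit 228) (nat_lit 12694536117) (nat_lit 76) (nat_lit 19181934143) (nat_lit 62) (nat_lit 5) (nat_lit 65) (nat_lit 5) (nat_lit 63) (nat_lit 5) (nat_lit 364) (nat_lit 321) (nat_lit 215)) (XT.lf (nat_lit 0) (nat_lit 19935269446) (nat_lit 228) (nat_lit 2025511488) (nat_lit 304) (nat_lit 20056929834) (nat_lit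 59) (nat_lit 5) (nat_lit 62) (nat_lit 5) (nat_lit 63) (nat_lit 5) (nat_lit 365) (nat_lit 321) (nat_lit 214))))))))
noncomputable def xc87 : XT := (XT.nd (nat_lit 1794) (nat_lit 152) (nat_lit 0) (XT.nd (nat_lit 858) (nat_lit 1140) (nat_lit 0) (XT.nd (nat_lit 390) (nat_lit 684) (nat_lit 0) (XT.nd (nat_lit 156) (nat_lit 380) (nat_lit 0) (XT.nd (nat_lit 78) (nat_lit 304) (nat_lit 0) (XT.lf (nat_lit 0) (nat_lit 10973727839) (nat_lit 152) (nat_lit 25293892724) (nat_lit 228) (nat_lit 7231359808) (nat_lit 57) (nat_lit 5) (nat_lit 59) (nat_lit 5) (nat_lit 60) (nat_lit 5) (nat_lit 366) (nat_lit 321) (nat_lit 213)) (XT.lf (nat_lit 0) (nat_lit 1016567862) (nat_lit 228) (nat_lit 5346560015) (nat_lit 304) (nat_lit 38681911910) (nat_lit 53) (nat_lit 5) (nat_lit 56) (nat_lit 5) (nat_lit 57) (nat_lit 5) (nat_lit 367) (nat_lit 321) (nat_lit 212))) (XT.nd (nat_lit 78) (nat_lit 380) (nat_lit 0) (XT.lf (nat_lit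 0) (nat_lit 20967050282) (nat_lit 304) (nat_lit 9986490256) (nat_lit 76) (nat_lit 15698339530) (nat_lit 53) (nat_lit 5) (nat_lit 57) (nat_lit 5) (nat_lit 54) (nat_lit 5) (nat_lit 368) (nat_lit 321) (nat_lit 211)) (XT.nd (nat_lit 78) (nat_lit 228) (nat_lit 0) (XT.lf (nat_lit 0) (nat_lit 26198615456) (nat_lit 152) (nat_lit 10398643197) (nat_lit 228) (nat_lit 11732924637) (nat_lit 51) (nat_lit 5) (nat_lit 53) (nat_lit 5) (nat_lit 54) (nat_lit 5) (nat_lit 369) (nat_lit 321) (nat_lit 210)) (XT.lf (nat_lit 0) (nat_lit 3203997182) (nat_lit 228) (nat_lit 35643399609) (nat_lit 76) (nat_lit 11233837124) (nat_lit 48) (nat_lit 5) (nat_lit 51) (nat_lit 5) (nat_lit 49) (nat_lit 5) (nat_lit 370) (nat_lit 321) (nat_lit 209))))) (XT.nd (nat_lit 234) (nat_lit 380) (nat_lit 0) (XT.nd (nat_lit 78) (nat_lit 152) (nat_lit 0) (XT.lf (nat_lit 0) (nat_lit 1166590619) (nat_lit 152) (nat_lit 17817771338) (nat_lit 228)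 (nat_lit 32921815723) (nat_lit 46) (nat_lit 5) (nat_lit 48) (nat_lit 5) (nat_lit 49) (nat_lit 5) (nat_lit 371) (nat_lit 321) (nat_lit 208)) (XT.nd (nat_lit 78) (nat_lit 152) (nat_lit 0) (XT.lf (nat_lit 0) (nat_lit 35956255487) (nat_lit 228) (nat_lit 13309541186) (nat_lit 76) (nat_lit 4544499683) (nat_lit 46) (nat_lit 5) (nat_lit 49) (nat_lit 5) (nat_lit 47) (nat_lit 5) (nat_lit 372) (nat_lit 321) (nat_lit 207)) (XT.lf (nat_lit 0) (nat_lit 26310836597) (nat_lit 152) (nat_lit 27890070162) (nat_lit 228) (nat_lit 1595992207) (nat_lit 44) (nat_lit 5) (nat_lit 46) (nat_lit 5) (nat_lit 47) (nat_lit 5) (nat_lit 373) (nat_lit 321) (nat_lit 206)))) (XT.nd (nat_lit 78) (nat_lit 152) (nat_lit 0) (XT.lf (nat_lit 0) (nat_lit 10348979044) (nat_lit 152) (nat_lit 5053449346) (nat_lit 228) (nat_lit 42469060097) (nat_lit 41) (nat_lit 5) (nat_lit 43) (nat_lit 5) (nat_lit 44) (nat_lit 5) (nat_lit 374) (nat_lit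 321) (nat_lit 205)) (XT.nd (nat_lit 78) (nat_lit 152) (nat_lit 0) (XT.lf (nat_lit 0) (nat_lit 33698328499) (nat_lit 228) (nat_lit 7464061418) (nat_lit 76) (nat_lit 18872529077) (nat_lit 41) (nat_lit 5) (nat_lit 44) (nat_lit 5) (nat_lit 42) (nat_lit 5) (nat_lit 375) (nat_lit 321) (nat_lit 204)) (XT.lf (nat_lit 0) (nat_lit 35219979874) (nat_lit 152) (nat_lit 18070798030) (nat_lit 228) (nat_lit 9004292919) (nat_lit 39) (nat_lit 5) (nat_lit 41) (nat_lit 5) (nat_lit 42) (nat_lit 5) (nat_lit 376) (nat_lit 321) (nat_lit 203)))))) (XT.nd (nat_lit 468) (nat_lit 456) (nat_lit 0) (XT.nd (nat_lit 234) (nat_lit 304) (nat_lit 0) (XT.nd (nat_lit 78) (nat_lit 152) (nat_lit 0) (XT.lf (nat_lit 0) (nat_lit 9298836722) (nat_lit 228) (nat_lit 48988616213) (nat_lit 76) (nat_lit 6369618902) (nat_lit 36) (nat_lit 5) (nat_lit 39) (nat_lit 5) (nat_lit 37) (nat_lit 5) (nat_lit 377) (nat_lit 321) (nat_lit 202)) (XT.nd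 (nat_lit 78) (nat_lit 152) (nat_lit 0) (XT.lf (nat_lit 0) (nat_lit 28789043855) (nat_lit 228) (nat_lit 6303021674) (nat_lit 76) (nat_lit 32028690659) (nat_lit 36) (nat_lit 5) (nat_lit 39) (nat_lit 5) (nat_lit 37) (nat_lit 5) (nat_lit 378) (nat_lit 321) (nat_lit 201)) (XT.lf (nat_lit 0) (nat_lit 39270645772) (nat_lit 152) (nat_lit 10353509847) (nat_lit 228) (nat_lit 20072359343) (nat_lit 34) (nat_lit 5) (nat_lit 36) (nat_lit 5) (nat_lit 37) (nat_lit 5) (nat_lit 379) (nat_lit 321) (nat_lit 200)))) (XT.nd (nat_lit 78) (nat_lit 228) (nat_lit 0) (XT.lf (nat_lit 0) (nat_lit 14984877367) (nat_lit 76) (nat_lit 56868955046) (nat_lit 152) (nat_lit 536646916) (nat_lit 33) (nat_lit 5) (nat_lit 34) (nat_lit 5) (nat_lit 35) (nat_lit 4) (nat_lit 380) (nat_lit 321) (nat_lit 199)) (XT.nd (nat_lit 78) (nat_lit 152) (nat_lit 0) (XT.lf (nat_lit 0) (nat_lit 20000077206) (nat_lit 152) (nat_lit 12219495838) (nat_lit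 76) (nat_lit 42981389255) (nat_lit 32) (nat_lit 5) (nat_lit 34) (nat_lit 5) (nat_lit 33) (nat_lit 5) (nat_lit 381) (nat_lit 321) (nat_lit 198)) (XT.lf (nat_lit 0) (nat_lit 35909702020) (nat_lit 152) (nat_lit 5981666845) (nat_lit 228) (nat_lit 36250277957) (nat_lit 30) (nat_lit 5) (nat_lit 32) (nat_lit 5) (nat_lit 33) (nat_lit 5) (nat_lit 382) (nat_lit 321) (nat_lit 197))))) (XT.nd (nat_lit 234) (nat_lit 152) (nat_lit 0) (XT.nd (nat_lit 78) (nat_lit 228) (nat_lit 0) (XT.lf (nat_lit 0) (nat_lit 5359800561) (nat_lit 76) (nat_lit 59897000043) (nat_lit 152) (nat_lit 15961179327) (nat_lit 29) (nat_lit 5) (nat_lit 30) (nat_lit 5) (nat_lit 31) (nat_lit 4) (nat_lit 383) (nat_lit 321) (nat_lit 196)) (XT.nd (nat_lit 78) (nat_lit 152) (nat_lit 0) (XT.lf (nat_lit 0) (nat_lit 5731370439) (nat_lit 152) (nat_lit 28348599525) (nat_lit 76) (nat_lit 50351823255) (nat_lit 28) (nat_lit 5) (nat_lit 30) (nat_lit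 5) (nat_lit 29) (nat_lit 5) (nat_lit 384) (nat_lit 321) (nat_lit 195)) (XT.lf (nat_lit 0) (nat_lit 21789954294) (nat_lit 152) (nat_lit 6595138460) (nat_lit 228) (nat_lit 59410265501) (nat_lit 26) (nat_lit 5) (nat_lit 28) (nat_lit 5) (nat_lit 29) (nat_lit 5) (nat_lit 385) (nat_lit 321) (nat_lit 194)))) (XT.nd (nat_lit 78) (nat_lit 152) (nat_lit 0) (XT.lf (nat_lit 0) (nat_lit 52674485450) (nat_lit 228) (nat_lit 16517842132) (nat_lit 76) (nat_lit 22119685797) (nat_lit 26) (nat_lit 5) (nat_lit 29) (nat_lit 5) (nat_lit 27) (nat_lit 4) (nat_lit 386) (nat_lit 321) (nat_lit 193)) (XT.nd (nat_lit 78) (nat_lit 76) (nat_lit 0) (XT.lf (nat_lit 0) (nat_lit 36071483107) (nat_lit 76) (nat_lit 42514702204) (nat_lit 152) (nat_lit 16406082119) (nat_lit 25) (nat_lit 5) (nat_lit 26) (nat_lit 5) (nat_lit 27) (nat_lit 4) (nat_lit 387) (nat_lit 321) (nat_lit 192)) (XT.lf (nat_lit 0) (nat_lit 6967935574) (nat_lit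 152) (nat_lit 7294105741) (nat_lit 76) (nat_lit 84587502681) (nat_lit 24) (nat_lit 5) (nat_lit 26) (nat_lit 5) (nat_lit 25) (nat_lit 5) (nat_lit 388) (nat_lit 321) (nat_lit 191))))))) (XT.nd (nat_lit 42432) (nat_lit 0) (nat_lit 8968) (XT.nd (nat_lit 41964) (nat_lit 0) (nat_lit 14896) (XT.nd (nat_lit 41730) (nat_lit 0) (nat_lit 14744) (XT.nd (nat_lit 41652) (nat_lit 0) (nat_lit 15884) (XT.lf (nat_lit 0) (nat_lit 31781831752) (nat_lit 228) (nat_lit 55366102639) (nat_lit 76) (nat_lit 15728563632) (nat_lit 22) (nat_lit 5) (nat_lit 25) (nat_lit 5) (nat_lit 23) (nat_lit 4) (nat_lit 389) (nat_lit 321) (nat_lit 190)) (XT.lf (nat_lit 0) (nat_lit 6031478475) (nat_lit 1140) (nat_lit 46623103) (nat_lit 1140) (nat_lit 46623103) (nat_lit 231) (nat_lit 3) (nat_lit 246) (nat_lit 3) (nat_lit 246) (nat_lit 5) (nat_lit 322) (nat_lit 322) (nat_lit 256))) (XT.nd (nat_lit 78) (nat_lit 0) (nat_lit 76) (XT.lf (nat_lit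 0) (nat_lit 624859103) (nat_lit 1140) (nat_lit 2942658447) (nat_lit 1216) (nat_lit 8963204046) (nat_lit 216) (nat_lit 5) (nat_lit 231) (nat_lit 3) (nat_lit 232) (nat_lit 5) (nat_lit 323) (nat_lit 322) (nat_lit 255)) (XT.nd (nat_lit 78) (nat_lit 0) (nat_lit 76) (XT.lf (nat_lit 0) (nat_lit 1548630183) (nat_lit 1140) (nat_lit 5838733723) (nat_lit 1216) (nat_lit 5436408520) (nat_lit 217) (nat_lit 5) (nat_lit 232) (nat_lit 5) (nat_lit 233) (nat_lit 5) (nat_lit 324) (nat_lit 322) (nat_lit 254)) (XT.lf (nat_lit 0) (nat_lit 2600139362) (nat_lit 1140) (nat_lit 8783567290) (nat_lit 1216) (nat_lit 1745362323) (nat_lit 218) (nat_lit 5) (nat_lit 233) (nat_lit 5) (nat_lit 234) (nat_lit 5) (nat_lit 325) (nat_lit 322) (nat_lit 253))))) (XT.nd (nat_lit 234) (nat_lit 0) (nat_lit 152) (XT.nd (nat_lit 78) (nat_lit 0) (nat_lit 76) (XT.lf (nat_lit 76) (nat_lit 1643563088) (nat_lit 0) (nat_lit 2169644587) (nat_lit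 1216) (nat_lit 9633190943) (nat_lit 219) (nat_lit 5) (nat_lit 218) (nat_lit 5) (nat_lit 234) (nat_lit 5) (nat_lit 326) (nat_lit 322) (nat_lit 252)) (XT.nd (nat_lit 78) (nat_lit 0) (nat_lit 76) (XT.lf (nat_lit 0) (nat_lit 5210206798) (nat_lit 1140) (nat_lit 1101432431) (nat_lit 1216) (nat_lit 7464293168) (nat_lit 219) (nat_lit 5) (nat_lit 234) (nat_lit 5) (nat_lit 235) (nat_lit 5) (nat_lit 327) (nat_lit 322) (nat_lit 251)) (XT.lf (nat_lit 0) (nat_lit 6793500631) (nat_lit 1140) (nat_lit 3865340725) (nat_lit 1216) (nat_lit 3459642431) (nat_lit 220) (nat_lit 5) (nat_lit 235) (nat_lit 5) (nat_lit 236) (nat_lit 5) (nat_lit 328) (nat_lit 322) (nat_lit 250)))) (XT.nd (nat_lit 78) (nat_lit 0) (nat_lit 76) (XT.lf (nat_lit 76) (nat_lit 7782360650) (nat_lit 0) (nat_lit 786988116) (nat_lit 1216) (nat_lit 5905444922) (nat_lit 221) (nat_lit 5) (nat_lit 220) (nat_lit 5) (nat_lit 236) (nat_lit 5) (nat_lit 329)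 (nat_lit 322) (nat_lit 249)) (XT.nd (nat_lit 78) (nat_lit 0) (nat_lit 76) (XT.lf (nat_lit 76) (nat_lit 5228305353) (nat_lit 0) (nat_lit 5353212459) (nat_lit 1216) (nat_lit 4263006497) (nat_lit 222) (nat_lit 5) (nat_lit 221) (nat_lit 5) (nat_lit 237) (nat_lit 5) (nat_lit 330) (nat_lit 322) (nat_lit 248)) (XT.lf (nat_lit 76) (nat_lit 2621376629) (nat_lit 0) (nat_lit 10190456820) (nat_lit 1216) (nat_lit 2417411465) (nat_lit 223) (nat_lit 5) (nat_lit 222) (nat_lit 5) (nat_lit 238) (nat_lit 5) (nat_lit 331) (nat_lit 322) (nat_lit 247)))))) (XT.nd (nat_lit 468) (nat_lit 2584) (nat_lit 0) (XT.nd (nat_lit 234) (nat_lit 1672) (nat_lit 0) (XT.nd (nat_lit 78) (nat_lit 2052) (nat_lit 0) (XT.lf (nat_lit 0) (nat_lit 15277042313) (nat_lit 1140) (nat_lit 42277109) (nat_lit 76) (nat_lit 310208992) (nat_lit 223) (nat_lit 5) (nat_lit 238) (nat_lit 5) (nat_lit 224) (nat_lit 5) (nat_lit 332) (nat_lit 322) (nat_lit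 246)) (XT.nd (nat_lit 78) (nat_lit 836) (nat_lit 0) (XT.lf (nat_lit 0) (nat_lit 1982165369) (nat_lit 1216) (nat_lit 2781429866) (nat_lit 76) (nat_lit 11279676003) (nat_lit 207) (nat_lit 5) (nat_lit 223) (nat_lit 5) (nat_lit 208) (nat_lit 5) (nat_lit 333) (nat_lit 322) (nat_lit 245)) (XT.lf (nat_lit 0) (nat_lit 4564105663) (nat_lit 912) (nat_lit 5598891299) (nat_lit 76) (nat_lit 6310488978) (nat_lit 196) (nat_lit 5) (nat_lit 208) (nat_lit 5) (nat_lit 197) (nat_lit 5) (nat_lit 334) (nat_lit 322) (nat_lit 244)))) (XT.nd (nat_lit 78) (nat_lit 1064) (nat_lit 0) (XT.lf (nat_lit 0) (nat_lit 7414698686) (nat_lit 684) (nat_lit 8493894782) (nat_lit 76) (nat_lit 1012454881) (nat_lit 188) (nat_lit 5) (nat_lit 197) (nat_lit 5) (nat_lit 189) (nat_lit 5) (nat_lit 335) (nat_lit 322) (nat_lit 243)) (XT.nd (nat_lit 78) (nat_lit 532) (nat_lit 0) (XT.lf (nat_lit 0) (nat_lit 5867377693) (nat_lit 532) (nat_lit 4730288347)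 (nat_lit 608) (nat_lit 6787650012) (nat_lit 181) (nat_lit 5) (nat_lit 188) (nat_lit 5) (nat_lit 189) (nat_lit 5) (nat_lit 336) (nat_lit 322) (nat_lit 242)) (XT.lf (nat_lit 0) (nat_lit 3222422060) (nat_lit 532) (nat_lit 10877718469) (nat_lit 608) (nat_lit 3767867291) (nat_lit 174) (nat_lit 5) (nat_lit 181) (nat_lit 5) (nat_lit 182) (nat_lit 5) (nat_lit 337) (nat_lit 322) (nat_lit 241))))) (XT.nd (nat_lit 234) (nat_lit 1444) (nat_lit 0) (XT.nd (nat_lit 78) (nat_lit 608) (nat_lit 0) (XT.lf (nat_lit 0) (nat_lit 496208047) (nat_lit 532) (nat_lit 17435986770) (nat_lit 608) (nat_lit 438026100) (nat_lit 167) (nat_lit 5) (nat_lit 174) (nat_lit 5) (nat_lit 175) (nat_lit 5) (nat_lit 338) (nat_lit 322) (nat_lit 240)) (XT.nd (nat_lit 78) (nat_lit 532) (nat_lit 0) (XT.lf (nat_lit 0) (nat_lit 3236102661) (nat_lit 608) (nat_lit 2358615561) (nat_lit 76) (nat_lit 13294839157) (nat_lit 166) (nat_lit 5) (nat_lit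 174) (nat_lit 5) (nat_lit 167) (nat_lit 5) (nat_lit 339) (nat_lit 322) (nat_lit 239)) (XT.lf (nat_lit 0) (nat_lit 7264983538) (nat_lit 608) (nat_lit 5318453774) (nat_lit 76) (nat_lit 6845908088) (nat_lit 159) (nat_lit 5) (nat_lit 167) (nat_lit 5) (nat_lit 160) (nat_lit 5) (nat_lit 340) (nat_lit 322) (nat_lit 238)))) (XT.nd (nat_lit 78) (nat_lit 988) (nat_lit 0) (XT.lf (nat_lit 0) (nat_lit 11602690660) (nat_lit 456) (nat_lit 62603373) (nat_lit 532) (nat_lit 8325746349) (nat_lit 153) (nat_lit 5) (nat_lit 159) (nat_lit 5) (nat_lit 160) (nat_lit 5) (nat_lit 341) (nat_lit 322) (nat_lit 237)) (XT.nd (nat_lit 78) (nat_lit 532) (nat_lit 0) (XT.lf (nat_lit 0) (nat_lit 8924984908) (nat_lit 456) (nat_lit 7605775703) (nat_lit 532) (nat_lit 4042721598) (nat_lit 147) (nat_lit 5) (nat_lit 153) (nat_lit 5) (nat_lit 154) (nat_lit 5) (nat_lit 342) (nat_lit 322) (nat_lit 236)) (XT.lf (nat_lit 0) (nat_lit 625743563)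 (nat_lit 532) (nat_lit 15047861125) (nat_lit 76) (nat_lit 5505920751) (nat_lit 140) (nat_lit 5) (nat_lit 147) (nat_lit 5) (nat_lit 141) (nat_lit 5) (nat_lit 343) (nat_lit 322) (nat_lit 235))))))))
noncomputable def xc88 : XT := (XT.nd (nat_lit 1716) (nat_lit 2812) (nat_lit 0) (XT.nd (nat_lit 858) (nat_lit 2508) (nat_lit 0) (XT.nd (nat_lit 390) (nat_lit 1748) (nat_lit 0) (XT.nd (nat_lit 156) (nat_lit 1216) (nat_lit 0) (XT.nd (nat_lit 78) (nat_lit 0) (nat_lit 0) (XT.lf (nat_lit 0) (nat_lit 3150364790) (nat_lit 456) (nat_lit 2502193250) (nat_lit 532) (nat_lit 16155870273) (nat_lit 134) (nat_lit 5) (nat_lit 140) (nat_lit 5) (nat_lit 141) (nat_lit 5) (nat_lit 344) (nat_lit 322) (nat_lit 234)) (XT.lf (nat_lit 0) (nat_lit 11176356573) (nat_lit 532) (nat_lit 25793443) (nat_lit 76) (nat_lit 11259270697) (nat_lit 134) (nat_lit 5) (nat_lit 141) (nat_lit 5) (nat_lit 135) (nat_lit 5) (nat_lit 345) (nat_lit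 322) (nat_lit 233))) (XT.nd (nat_lit 78) (nat_lit 836) (nat_lit 0) (XT.lf (nat_lit 0) (nat_lit 17199919560) (nat_lit 456) (nat_lit 3289464975) (nat_lit 76) (nat_lit 2650983989) (nat_lit 129) (nat_lit 5) (nat_lit 135) (nat_lit 5) (nat_lit 130) (nat_lit 5) (nat_lit 346) (nat_lit 322) (nat_lit 232)) (XT.nd (nat_lit 78) (nat_lit 456) (nat_lit 0) (XT.lf (nat_lit 0) (nat_lit 17065765560) (nat_lit 380) (nat_lit 6718164810) (nat_lit 456) (nat_lit 61567676) (nat_lit 124) (nat_lit 5) (nat_lit 129) (nat_lit 5) (nat_lit 130) (nat_lit 5) (nat_lit 347) (nat_lit 322) (nat_lit 231)) (XT.lf (nat_lit 0) (nat_lit 6220884262) (nat_lit 456) (nat_lit 10539793195) (nat_lit 76) (nat_lit 7816589328) (nat_lit 118) (nat_lit 5) (nat_lit 124) (nat_lit 5) (nat_lit 119) (nat_lit 5) (nat_lit 348) (nat_lit 322) (nat_lit 230))))) (XT.nd (nat_lit 234) (nat_lit 608) (nat_lit 0) (XT.nd (nat_lit 78) (nat_lit 760) (nat_lit 0) (XT.lf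 (nat_lit 0) (nat_lit 10813137723) (nat_lit 380) (nat_lit 2228227375) (nat_lit 456) (nat_lit 12297496114) (nat_lit 113) (nat_lit 5) (nat_lit 118) (nat_lit 5) (nat_lit 119) (nat_lit 5) (nat_lit 349) (nat_lit 322) (nat_lit 229)) (XT.nd (nat_lit 78) (nat_lit 456) (nat_lit 0) (XT.lf (nat_lit 0) (nat_lit 7312808632) (nat_lit 304) (nat_lit 13178675933) (nat_lit 380) (nat_lit 5638402766) (nat_lit 109) (nat_lit 5) (nat_lit 113) (nat_lit 5) (nat_lit 114) (nat_lit 5) (nat_lit 350) (nat_lit 322) (nat_lit 228)) (XT.lf (nat_lit 0) (nat_lit 1539278071) (nat_lit 456) (nat_lit 23372136926) (nat_lit 76) (nat_lit 2042307599) (nat_lit 103) (nat_lit 5) (nat_lit 109) (nat_lit 5) (nat_lit 104) (nat_lit 5) (nat_lit 351) (nat_lit 322) (nat_lit 227)))) (XT.nd (nat_lit 78) (nat_lit 608) (nat_lit 0) (XT.lf (nat_lit 0) (nat_lit 9273359358) (nat_lit 456) (nat_lit 533101925) (nat_lit 76) (nat_lit 18001198916) (nat_lit 103)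 (nat_lit 5) (nat_lit 109) (nat_lit 5) (nat_lit 104) (nat_lit 5) (nat_lit 352) (nat_lit 322) (nat_lit 226)) (XT.nd (nat_lit 78) (nat_lit 304) (nat_lit 0) (XT.lf (nat_lit 0) (nat_lit 17669380471) (nat_lit 380) (nat_lit 4864827475) (nat_lit 76) (nat_lit 6161838391) (nat_lit 99) (nat_lit 5) (nat_lit 104) (nat_lit 5) (nat_lit 100) (nat_lit 5) (nat_lit 353) (nat_lit 322) (nat_lit 225)) (XT.lf (nat_lit 0) (nat_lit 20068299684) (nat_lit 304) (nat_lit 6699938802) (nat_lit 380) (nat_lit 2852130533) (nat_lit 95) (nat_lit 5) (nat_lit 99) (nat_lit 5) (nat_lit 100) (nat_lit 5) (nat_lit 354) (nat_lit 322) (nat_lit 224)))))) (XT.nd (nat_lit 390) (nat_lit 1216) (nat_lit 0) (XT.nd (nat_lit 156) (nat_lit 608) (nat_lit 0) (XT.nd (nat_lit 78) (nat_lit 304) (nat_lit 0) (XT.lf (nat_lit 0) (nat_lit 5907521444) (nat_lit 380) (nat_lit 14684754379) (nat_lit 76) (nat_lit 9988340217) (nat_lit 90) (nat_lit 5) (nat_lit 95)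 (nat_lit 5) (nat_lit 91) (nat_lit 5) (nat_lit 355) (nat_lit 322) (nat_lit 223)) (XT.lf (nat_lit 0) (nat_lit 11333691585) (nat_lit 304) (nat_lit 3975277614) (nat_lit 380) (nat_lit 16271182377) (nat_lit 86) (nat_lit 5) (nat_lit 90) (nat_lit 5) (nat_lit 91) (nat_lit 5) (nat_lit 356) (nat_lit 322) (nat_lit 222))) (XT.nd (nat_lit 78) (nat_lit 380) (nat_lit 0) (XT.lf (nat_lit 0) (nat_lit 6307142579) (nat_lit 228) (nat_lit 19202924372) (nat_lit 304) (nat_lit 7109716580) (nat_lit 83) (nat_lit 5) (nat_lit 86) (nat_lit 5) (nat_lit 87) (nat_lit 5) (nat_lit 357) (nat_lit 322) (nat_lit 221)) (XT.nd (nat_lit 78) (nat_lit 0) (nat_lit 0) (XT.lf (nat_lit 0) (nat_lit 836965335) (nat_lit 304) (nat_lit 1869625316) (nat_lit 380) (nat_lit 30996716786) (nat_lit 78) (nat_lit 5) (nat_lit 82) (nat_lit 5) (nat_lit 83) (nat_lit 5) (nat_lit 358) (nat_lit 322) (nat_lit 220)) (XT.lf (nat_lit 0) (nat_lit 13286028500) (nat_lit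 380) (nat_lit 5189580198) (nat_lit 76) (nat_lit 16350712530) (nat_lit 78) (nat_lit 5) (nat_lit 83) (nat_lit 5) (nat_lit 79) (nat_lit 5) (nat_lit 359) (nat_lit 322) (nat_lit 219))))) (XT.nd (nat_lit 234) (nat_lit 456) (nat_lit 0) (XT.nd (nat_lit 78) (nat_lit 532) (nat_lit 0) (XT.lf (nat_lit 0) (nat_lit 24308215552) (nat_lit 228) (nat_lit 326819447) (nat_lit 304) (nat_lit 11363238653) (nat_lit 75) (nat_lit 5) (nat_lit 78) (nat_lit 5) (nat_lit 79) (nat_lit 5) (nat_lit 360) (nat_lit 322) (nat_lit 218)) (XT.nd (nat_lit 78) (nat_lit 304) (nat_lit 0) (XT.lf (nat_lit 0) (nat_lit 18321025961) (nat_lit 228) (nat_lit 18628967352) (nat_lit 304) (nat_lit 266880908) (nat_lit 72) (nat_lit 5) (nat_lit 75) (nat_lit 5) (nat_lit 76) (nat_lit 5) (nat_lit 361) (nat_lit 322) (nat_lit 217)) (XT.lf (nat_lit 0) (nat_lit 11390732498) (nat_lit 304) (nat_lit 26808760350) (nat_lit 76) (nat_lit 286776544) (nat_lit 68) (nat_lit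 5) (nat_lit 72) (nat_lit 5) (nat_lit 69) (nat_lit 5) (nat_lit 362) (nat_lit 322) (nat_lit 216)))) (XT.nd (nat_lit 78) (nat_lit 228) (nat_lit 0) (XT.lf (nat_lit 0) (nat_lit 4233547949) (nat_lit 228) (nat_lit 19806354660) (nat_lit 304) (nat_lit 15766731479) (nat_lit 65) (nat_lit 5) (nat_lit 68) (nat_lit 5) (nat_lit 69) (nat_lit 5) (nat_lit 363) (nat_lit 322) (nat_lit 215)) (XT.nd (nat_lit 78) (nat_lit 228) (nat_lit 0) (XT.lf (nat_lit 0) (nat_lit 37371177562) (nat_lit 228) (nat_lit 215667473) (nat_lit 304) (nat_lit 3598217238) (nat_lit 65) (nat_lit 5) (nat_lit 68) (nat_lit 5) (nat_lit 69) (nat_lit 5) (nat_lit 364) (nat_lit 322) (nat_lit 214)) (XT.lf (nat_lit 0) (nat_lit 9477204091) (nat_lit 228) (nat_lit 12806436498) (nat_lit 76) (nat_lit 20331800913) (nat_lit 62) (nat_lit 5) (nat_lit 65) (nat_lit 5) (nat_lit 63) (nat_lit 5) (nat_lit 365) (nat_lit 322) (nat_lit 213))))))) (XT.nd (nat_lit 858)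 (nat_lit 1216) (nat_lit 0) (XT.nd (nat_lit 390) (nat_lit 760) (nat_lit 0) (XT.nd (nat_lit 156) (nat_lit 456) (nat_lit 0) (XT.nd (nat_lit 78) (nat_lit 152) (nat_lit 0) (XT.lf (nat_lit 0) (nat_lit 21439872628) (nat_lit 228) (nat_lit 1930739378) (nat_lit 304) (nat_lit 20738504056) (nat_lit 59) (nat_lit 5) (nat_lit 62) (nat_lit 5) (nat_lit 63) (nat_lit 5) (nat_lit 366) (nat_lit 322) (nat_lit 212)) (XT.lf (nat_lit 0) (nat_lit 12023074802) (nat_lit 152) (nat_lit 26361479021) (nat_lit 228) (nat_lit 7280148539) (nat_lit 57) (nat_lit 5) (nat_lit 59) (nat_lit 5) (nat_lit 60) (nat_lit 5) (nat_lit 367) (nat_lit 322) (nat_lit 211))) (XT.nd (nat_lit 78) (nat_lit 152) (nat_lit 0) (XT.lf (nat_lit 0) (nat_lit 1559747587) (nat_lit 228) (nat_lit 5418341666) (nat_lit 304) (nat_lit 40310186991) (nat_lit 53) (nat_lit 5) (nat_lit 56) (nat_lit 5) (nat_lit 57) (nat_lit 5) (nat_lit 368) (nat_lit 322) (nat_lit 210))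 (XT.nd (nat_lit 78) (nat_lit 152) (nat_lit 0) (XT.lf (nat_lit 0) (nat_lit 22299864408) (nat_lit 304) (nat_lit 10010112719) (nat_lit 76) (nat_lit 16665857017) (nat_lit 53) (nat_lit 5) (nat_lit 57) (nat_lit 5) (nat_lit 54) (nat_lit 5) (nat_lit 369) (nat_lit 322) (nat_lit 209)) (XT.lf (nat_lit 0) (nat_lit 27970612375) (nat_lit 152) (nat_lit 10731866694) (nat_lit 228) (nat_lit 12035851633) (nat_lit 51) (nat_lit 5) (nat_lit 53) (nat_lit 5) (nat_lit 54) (nat_lit 5) (nat_lit 370) (nat_lit 322) (nat_lit 208))))) (XT.nd (nat_lit 234) (nat_lit 380) (nat_lit 0) (XT.nd (nat_lit 78) (nat_lit 152) (nat_lit 0) (XT.lf (nat_lit 0) (nat_lit 3635278290) (nat_lit 228) (nat_lit 36964881261) (nat_lit 76) (nat_lit 11976910207) (nat_lit 48) (nat_lit 5) (nat_lit 51) (nat_lit 5) (nat_lit 49) (nat_lit 5) (nat_lit 371) (nat_lit 322) (nat_lit 207)) (XT.nd (nat_lit 78) (nat_lit 0) (nat_lit 0) (XT.lf (nat_lit 0) (nat_lit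 1672402940) (nat_lit 152) (nat_lit 18523651212) (nat_lit 228) (nat_lit 34297469223) (nat_lit 46) (nat_lit 5) (nat_lit 48) (nat_lit 5) (nat_lit 49) (nat_lit 5) (nat_lit 372) (nat_lit 322) (nat_lit 206)) (XT.lf (nat_lit 0) (nat_lit 38005737321) (nat_lit 228) (nat_lit 13542953900) (nat_lit 76) (nat_lit 4944485151) (nat_lit 46) (nat_lit 5) (nat_lit 49) (nat_lit 5) (nat_lit 47) (nat_lit 5) (nat_lit 373) (nat_lit 322) (nat_lit 205)))) (XT.nd (nat_lit 78) (nat_lit 228) (nat_lit 0) (XT.lf (nat_lit 0) (nat_lit 28046057734) (nat_lit 152) (nat_lit 29108613396) (nat_lit 228) (nat_lit 1424680518) (nat_lit 44) (nat_lit 5) (nat_lit 46) (nat_lit 5) (nat_lit 47) (nat_lit 5) (nat_lit 374) (nat_lit 322) (nat_lit 204)) (XT.nd (nat_lit 78) (nat_lit 0) (nat_lit 0) (XT.lf (nat_lit 0) (nat_lit 11278913004) (nat_lit 152) (nat_lit 5132088733) (nat_lit 228) (nat_lit 44346833003) (nat_lit 41) (nat_lit 5) (nat_lit 43)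 (nat_lit 5) (nat_lit 44) (nat_lit 5) (nat_lit 375) (nat_lit 322) (nat_lit 203)) (XT.lf (nat_lit 0) (nat_lit 35611935248) (nat_lit 228) (nat_lit 7439130900) (nat_lit 76) (nat_lit 19978667024) (nat_lit 41) (nat_lit 5) (nat_lit 44) (nat_lit 5) (nat_lit 42) (nat_lit 5) (nat_lit 376) (nat_lit 322) (nat_lit 202)))))) (XT.nd (nat_lit 468) (nat_lit 532) (nat_lit 0) (XT.nd (nat_lit 234) (nat_lit 304) (nat_lit 0) (XT.nd (nat_lit 78) (nat_lit 228) (nat_lit 0) (XT.lf (nat_lit 0) (nat_lit 37367700037) (nat_lit 152) (nat_lit 18809134472) (nat_lit 228) (nat_lit 9226276647) (nat_lit 39) (nat_lit 5) (nat_lit 41) (nat_lit 5) (nat_lit 42) (nat_lit 5) (nat_lit 377) (nat_lit 322) (nat_lit 201)) (XT.nd (nat_lit 78) (nat_lit 0) (nat_lit 0) (XT.lf (nat_lit 0) (nat_lit 9982122117) (nat_lit 228) (nat_lit 51053024838) (nat_lit 76) (nat_lit 6848165590) (nat_lit 36) (nat_lit 5) (nat_lit 39) (nat_lit 5) (nat_lit 37) (nat_lit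 5) (nat_lit 378) (nat_lit 322) (nat_lit 200)) (XT.lf (nat_lit 0) (nat_lit 30436442294) (nat_lit 228) (nat_lit 6251484962) (nat_lit 76) (nat_lit 33782568756) (nat_lit 36) (nat_lit 5) (nat_lit 39) (nat_lit 5) (nat_lit 37) (nat_lit 5) (nat_lit 379) (nat_lit 322) (nat_lit 199)))) (XT.nd (nat_lit 78) (nat_lit 152) (nat_lit 0) (XT.lf (nat_lit 0) (nat_lit 41590354824) (nat_lit 152) (nat_lit 10716476409) (nat_lit 228) (nat_lit 20868408683) (nat_lit 34) (nat_lit 5) (nat_lit 36) (nat_lit 5) (nat_lit 37) (nat_lit 5) (nat_lit 380) (nat_lit 322) (nat_lit 198)) (XT.nd (nat_lit 78) (nat_lit 76) (nat_lit 0) (XT.lf (nat_lit 0) (nat_lit 16084569652) (nat_lit 76) (nat_lit 59558613574) (nat_lit 152) (nat_lit 360866239) (nat_lit 33) (nat_lit 5) (nat_lit 34) (nat_lit 5) (nat_lit 35) (nat_lit 4) (nat_lit 381) (nat_lit 322) (nat_lit 197)) (XT.lf (nat_lit 0) (nat_lit 21189280413) (nat_lit 152) (nat_lit 12492894812)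 (nat_lit 76) (nat_lit 45273109226) (nat_lit 32) (nat_lit 5) (nat_lit 34) (nat_lit 5) (nat_lit 33) (nat_lit 5) (nat_lit 382) (nat_lit 322) (nat_lit 196))))) (XT.nd (nat_lit 234) (nat_lit 228) (nat_lit 0) (XT.nd (nat_lit 78) (nat_lit 152) (nat_lit 0) (XT.lf (nat_lit 0) (nat_lit 38033086395) (nat_lit 152) (nat_lit 6136192735) (nat_lit 228) (nat_lit 37873902176) (nat_lit 30) (nat_lit 5) (nat_lit 32) (nat_lit 5) (nat_lit 33) (nat_lit 5) (nat_lit 383) (nat_lit 322) (nat_lit 195)) (XT.nd (nat_lit 78) (nat_lit 76) (nat_lit 0) (XT.lf (nat_lit 0) (nat_lit 5950329783) (nat_lit 76) (nat_lit 62748345960) (nat_lit 152) (nat_lit 16574786797) (nat_lit 29) (nat_lit 5) (nat_lit 30) (nat_lit 5) (nat_lit 31) (nat_lit 4) (nat_lit 384) (nat_lit 322) (nat_lit 194)) (XT.lf (nat_lit 0) (nat_lit 6190179135) (nat_lit 152) (nat_lit 29455379481) (nat_lit 76) (nat_lit 53002615139) (nat_lit 28) (nat_lit 5) (nat_lit 30) (nat_lit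 5) (nat_lit 29) (nat_lit 5) (nat_lit 385) (nat_lit 322) (nat_lit 193)))) (XT.nd (nat_lit 78) (nat_lit 76) (nat_lit 0) (XT.lf (nat_lit 0) (nat_lit 23181197309) (nat_lit 152) (nat_lit 6790088905) (nat_lit 228) (nat_lit 62208791866) (nat_lit 26) (nat_lit 5) (nat_lit 28) (nat_lit 5) (nat_lit 29) (nat_lit 5) (nat_lit 386) (nat_lit 322) (nat_lit 192)) (XT.nd (nat_lit 78) (nat_lit 76) (nat_lit 0) (XT.lf (nat_lit 0) (nat_lit 55468433212) (nat_lit 228) (nat_lit 17052784195) (nat_lit 76) (nat_lit 23351551913) (nat_lit 26) (nat_lit 5) (nat_lit 29) (nat_lit 5) (nat_lit 27) (nat_lit 4) (nat_lit 387) (nat_lit 322) (nat_lit 191)) (XT.lf (nat_lit 0) (nat_lit 38157667281) (nat_lit 76) (nat_lit 44513137715) (nat_lit 152) (nat_lit 17066380281) (nat_lit 25) (nat_lit 5) (nat_lit 26) (nat_lit 5) (nat_lit 27) (nat_lit 4) (nat_lit 388) (nat_lit 322) (nat_lit 190))))))))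
noncomputable def xc89 : XT := (XT.nd (nat_lit 43446) (nat_lit 0) (nat_lit 2660) (XT.nd (nat_lit 42510) (nat_lit 0) (nat_lit 8816) (XT.nd (nat_lit 42042) (nat_lit 0) (nat_lit 14744) (XT.nd (nat_lit 41808) (nat_lit 0) (nat_lit 14592) (XT.nd (nat_lit 41730) (nat_lit 0) (nat_lit 14592) (XT.lf (nat_lit 0) (nat_lit 7465745355) (nat_lit 152) (nat_lit 7386651535) (nat_lit 76) (nat_lit 88935108434) (nat_lit 24) (nat_lit 5) (nat_lit 26) (nat_lit 5) (nat_lit 25) (nat_lit 5) (nat_lit 389) (nat_lit 322) (nat_lit 189)) (XT.lf (nat_lit 0) (nat_lit 308988773) (nat_lit 0) (nat_lit 308988773) (nat_lit 1140) (nat_lit 5790951882) (nat_lit 216) (nat_lit 5) (nat_lit 216) (nat_lit 3) (nat_lit 231) (nat_lit 3) (nat_lit 323) (nat_lit 323) (nat_lit 254))) (XT.nd (nat_lit 78) (nat_lit 0) (nat_lit 76) (XT.lf (nat_lit 0) (nat_lit 2011321148) (nat_lit 1140) (nat_lit 2360291400) (nat_lit 1216) (nat_lit 8743768638) (nat_lit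 216) (nat_lit 5) (nat_lit 231) (nat_lit 3) (nat_lit 232) (nat_lit 5) (nat_lit 324) (nat_lit 323) (nat_lit 253)) (XT.nd (nat_lit 78) (nat_lit 0) (nat_lit 76) (XT.lf (nat_lit 0) (nat_lit 2917896994) (nat_lit 1140) (nat_lit 5376333760) (nat_lit 1216) (nat_lit 5130813408) (nat_lit 217) (nat_lit 5) (nat_lit 232) (nat_lit 5) (nat_lit 233) (nat_lit 5) (nat_lit 325) (nat_lit 323) (nat_lit 252)) (XT.lf (nat_lit 0) (nat_lit 3962657964) (nat_lit 1140) (nat_lit 8446953540) (nat_lit 1216) (nat_lit 1337829070) (nat_lit 218) (nat_lit 5) (nat_lit 233) (nat_lit 5) (nat_lit 234) (nat_lit 5) (nat_lit 326) (nat_lit 323) (nat_lit 251))))) (XT.nd (nat_lit 234) (nat_lit 0) (nat_lit 152) (XT.nd (nat_lit 78) (nat_lit 0) (nat_lit 76) (XT.lf (nat_lit 76) (nat_lit 2479295432) (nat_lit 0) (nat_lit 2705636854) (nat_lit 1216) (nat_lit 8897300525) (nat_lit 219) (nat_lit 5) (nat_lit 218) (nat_lit 5) (nat_lit 234) (nat_lit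 5) (nat_lit 327) (nat_lit 323) (nat_lit 250)) (XT.nd (nat_lit 78) (nat_lit 0) (nat_lit 76) (XT.lf (nat_lit 0) (nat_lit 6591626413) (nat_lit 1140) (nat_lit 400171277) (nat_lit 1216) (nat_lit 7438300420) (nat_lit 219) (nat_lit 5) (nat_lit 234) (nat_lit 5) (nat_lit 235) (nat_lit 5) (nat_lit 328) (nat_lit 323) (nat_lit 249)) (XT.lf (nat_lit 0) (nat_lit 8204502506) (nat_lit 1140) (nat_lit 3287493708) (nat_lit 1216) (nat_lit 3299316119) (nat_lit 220) (nat_lit 5) (nat_lit 235) (nat_lit 5) (nat_lit 236) (nat_lit 5) (nat_lit 329) (nat_lit 323) (nat_lit 248)))) (XT.nd (nat_lit 78) (nat_lit 0) (nat_lit 76) (XT.lf (nat_lit 76) (nat_lit 8920488906) (nat_lit 0) (nat_lit 1104838522) (nat_lit 1216) (nat_lit 5141470286) (nat_lit 221) (nat_lit 5) (nat_lit 220) (nat_lit 5) (nat_lit 236) (nat_lit 5) (nat_lit 330) (nat_lit 323) (nat_lit 247)) (XT.nd (nat_lit 78) (nat_lit 0) (nat_lit 76) (XT.lf (nat_lit 76) (nat_lit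 6250686961) (nat_lit 0) (nat_lit 5843254094) (nat_lit 1216) (nat_lit 3462442076) (nat_lit 222) (nat_lit 5) (nat_lit 221) (nat_lit 5) (nat_lit 237) (nat_lit 5) (nat_lit 331) (nat_lit 323) (nat_lit 246)) (XT.lf (nat_lit 76) (nat_lit 3523172158) (nat_lit 0) (nat_lit 10871147079) (nat_lit 1216) (nat_lit 1567305410) (nat_lit 223) (nat_lit 5) (nat_lit 222) (nat_lit 5) (nat_lit 238) (nat_lit 5) (nat_lit 332) (nat_lit 323) (nat_lit 245)))))) (XT.nd (nat_lit 468) (nat_lit 2584) (nat_lit 0) (XT.nd (nat_lit 234) (nat_lit 1672) (nat_lit 0) (XT.nd (nat_lit 78) (nat_lit 836) (nat_lit 0) (XT.lf (nat_lit 0) (nat_lit 549341706) (nat_lit 1216) (nat_lit 15655321869) (nat_lit 76) (nat_lit 178317628) (nat_lit 207) (nat_lit 5) (nat_lit 223) (nat_lit 5) (nat_lit 208) (nat_lit 5) (nat_lit 333) (nat_lit 323) (nat_lit 244)) (XT.nd (nat_lit 78) (nat_lit 836) (nat_lit 0) (XT.lf (nat_lit 0) (nat_lit 2950482629) (nat_lit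 1216) (nat_lit 2161064770) (nat_lit 76) (nat_lit 11707084020) (nat_lit 207) (nat_lit 5) (nat_lit 223) (nat_lit 5) (nat_lit 208) (nat_lit 5) (nat_lit 334) (nat_lit 323) (nat_lit 243)) (XT.lf (nat_lit 0) (nat_lit 5626285200) (nat_lit 912) (nat_lit 5114493871) (nat_lit 76) (nat_lit 6530669452) (nat_lit 196) (nat_lit 5) (nat_lit 208) (nat_lit 5) (nat_lit 197) (nat_lit 5) (nat_lit 335) (nat_lit 323) (nat_lit 242)))) (XT.nd (nat_lit 78) (nat_lit 1064) (nat_lit 0) (XT.lf (nat_lit 0) (nat_lit 8586264714) (nat_lit 684) (nat_lit 8150888977) (nat_lit 76) (nat_lit 1005262632) (nat_lit 188) (nat_lit 5) (nat_lit 197) (nat_lit 5) (nat_lit 189) (nat_lit 5) (nat_lit 336) (nat_lit 323) (nat_lit 241)) (XT.nd (nat_lit 78) (nat_lit 532) (nat_lit 0) (XT.lf (nat_lit 0) (nat_lit 6906441139) (nat_lit 532) (nat_lit 4990972554) (nat_lit 608) (nat_lit 6333444125) (nat_lit 181) (nat_lit 5) (nat_lit 188) (nat_lit 5) (nat_lit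 189) (nat_lit 5) (nat_lit 337) (nat_lit 323) (nat_lit 240)) (XT.lf (nat_lit 0) (nat_lit 4131132206) (nat_lit 532) (nat_lit 11414184506) (nat_lit 608) (nat_lit 3193288229) (nat_lit 174) (nat_lit 5) (nat_lit 181) (nat_lit 5) (nat_lit 182) (nat_lit 5) (nat_lit 338) (nat_lit 323) (nat_lit 239))))) (XT.nd (nat_lit 234) (nat_lit 1444) (nat_lit 0) (XT.nd (nat_lit 78) (nat_lit 532) (nat_lit 0) (XT.lf (nat_lit 0) (nat_lit 268840823) (nat_lit 608) (nat_lit 18000174102) (nat_lit 76) (nat_lit 997702754) (nat_lit 166) (nat_lit 5) (nat_lit 174) (nat_lit 5) (nat_lit 167) (nat_lit 5) (nat_lit 339) (nat_lit 323) (nat_lit 238)) (XT.nd (nat_lit 78) (nat_lit 532) (nat_lit 0) (XT.lf (nat_lit 0) (nat_lit 4083425307) (nat_lit 608) (nat_lit 1749766998) (nat_lit 76) (nat_lit 13979750641) (nat_lit 166) (nat_lit 5) (nat_lit 174) (nat_lit 5) (nat_lit 167) (nat_lit 5) (nat_lit 340) (nat_lit 323) (nat_lit 237)) (XT.lf (nat_lit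 0) (nat_lit 8288337460) (nat_lit 608) (nat_lit 4858583553) (nat_lit 76) (nat_lit 7233586823) (nat_lit 159) (nat_lit 5) (nat_lit 167) (nat_lit 5) (nat_lit 160) (nat_lit 5) (nat_lit 341) (nat_lit 323) (nat_lit 236)))) (XT.nd (nat_lit 78) (nat_lit 988) (nat_lit 0) (XT.lf (nat_lit 0) (nat_lit 12884043291) (nat_lit 532) (nat_lit 8083274358) (nat_lit 76) (nat_lit 3732414) (nat_lit 153) (nat_lit 5) (nat_lit 160) (nat_lit 5) (nat_lit 154) (nat_lit 5) (nat_lit 342) (nat_lit 323) (nat_lit 235)) (XT.nd (nat_lit 78) (nat_lit 532) (nat_lit 0) (XT.lf (nat_lit 0) (nat_lit 10074345805) (nat_lit 456) (nat_lit 7895536745) (nat_lit 532) (nat_lit 3613441203) (nat_lit 147) (nat_lit 5) (nat_lit 153) (nat_lit 5) (nat_lit 154) (nat_lit 5) (nat_lit 343) (nat_lit 323) (nat_lit 234)) (XT.lf (nat_lit 0) (nat_lit 1254281632) (nat_lit 532) (nat_lit 15087542390) (nat_lit 76) (nat_lit 5878339403) (nat_lit 140) (nat_lit 5)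 (nat_lit 147) (nat_lit 5) (nat_lit 141) (nat_lit 5) (nat_lit 344) (nat_lit 323) (nat_lit 233))))))) (XT.nd (nat_lit 858) (nat_lit 2736) (nat_lit 0) (XT.nd (nat_lit 390) (nat_lit 1748) (nat_lit 0) (XT.nd (nat_lit 156) (nat_lit 836) (nat_lit 0) (XT.nd (nat_lit 78) (nat_lit 380) (nat_lit 0) (XT.lf (nat_lit 0) (nat_lit 4000165080) (nat_lit 456) (nat_lit 2510485874) (nat_lit 532) (nat_lit 16370534103) (nat_lit 134) (nat_lit 5) (nat_lit 140) (nat_lit 5) (nat_lit 141) (nat_lit 5) (nat_lit 345) (nat_lit 323) (nat_lit 232)) (XT.lf (nat_lit 0) (nat_lit 660883391) (nat_lit 380) (nat_lit 11629775186) (nat_lit 456) (nat_lit 11276787006) (nat_lit 129) (nat_lit 5) (nat_lit 134) (nat_lit 5) (nat_lit 135) (nat_lit 5) (nat_lit 346) (nat_lit 323) (nat_lit 231))) (XT.nd (nat_lit 78) (nat_lit 836) (nat_lit 0) (XT.lf (nat_lit 0) (nat_lit 18590416325) (nat_lit 456) (nat_lit 2783192019) (nat_lit 76) (nat_lit 2907500116)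 (nat_lit 129) (nat_lit 5) (nat_lit 135) (nat_lit 5) (nat_lit 130) (nat_lit 5) (nat_lit 347) (nat_lit 323) (nat_lit 230)) (XT.nd (nat_lit 78) (nat_lit 380) (nat_lit 0) (XT.lf (nat_lit 0) (nat_lit 453520841) (nat_lit 456) (nat_lit 6455954785) (nat_lit 76) (nat_lit 18112472725) (nat_lit 123) (nat_lit 5) (nat_lit 129) (nat_lit 5) (nat_lit 124) (nat_lit 5) (nat_lit 348) (nat_lit 323) (nat_lit 229)) (XT.lf (nat_lit 0) (nat_lit 7031792672) (nat_lit 456) (nat_lit 10409736709) (nat_lit 76) (nat_lit 8349284744) (nat_lit 118) (nat_lit 5) (nat_lit 124) (nat_lit 5) (nat_lit 119) (nat_lit 5) (nat_lit 349) (nat_lit 323) (nat_lit 228))))) (XT.nd (nat_lit 234) (nat_lit 608) (nat_lit 0) (XT.nd (nat_lit 78) (nat_lit 760) (nat_lit 0) (XT.lf (nat_lit 0) (nat_lit 11992006659) (nat_lit 380) (nat_lit 2183622719) (nat_lit 456) (nat_lit 12415404183) (nat_lit 113) (nat_lit 5) (nat_lit 118) (nat_lit 5) (nat_lit 119) (nat_lit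 5) (nat_lit 350) (nat_lit 323) (nat_lit 227)) (XT.nd (nat_lit 78) (nat_lit 456) (nat_lit 0) (XT.lf (nat_lit 0) (nat_lit 8311257473) (nat_lit 304) (nat_lit 13671546876) (nat_lit 380) (nat_lit 5439284665) (nat_lit 109) (nat_lit 5) (nat_lit 113) (nat_lit 5) (nat_lit 114) (nat_lit 5) (nat_lit 351) (nat_lit 323) (nat_lit 226)) (XT.lf (nat_lit 0) (nat_lit 2073055965) (nat_lit 456) (nat_lit 23904382311) (nat_lit 76) (nat_lit 2309997592) (nat_lit 103) (nat_lit 5) (nat_lit 109) (nat_lit 5) (nat_lit 104) (nat_lit 5) (nat_lit 352) (nat_lit 323) (nat_lit 225)))) (XT.nd (nat_lit 78) (nat_lit 304) (nat_lit 0) (XT.lf (nat_lit 0) (nat_lit 47223003) (nat_lit 304) (nat_lit 10125319202) (nat_lit 380) (nat_lit 19012179902) (nat_lit 99) (nat_lit 5) (nat_lit 103) (nat_lit 5) (nat_lit 104) (nat_lit 5) (nat_lit 353) (nat_lit 323) (nat_lit 224)) (XT.nd (nat_lit 78) (nat_lit 304) (nat_lit 0) (XT.lf (nat_lit 0) (nat_lit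 18974473548) (nat_lit 380) (nat_lit 4508160791) (nat_lit 76) (nat_lit 6635322113) (nat_lit 99) (nat_lit 5) (nat_lit 104) (nat_lit 5) (nat_lit 100) (nat_lit 5) (nat_lit 354) (nat_lit 323) (nat_lit 223)) (XT.lf (nat_lit 0) (nat_lit 21654426482) (nat_lit 304) (nat_lit 6859372028) (nat_lit 380) (nat_lit 2575142630) (nat_lit 95) (nat_lit 5) (nat_lit 99) (nat_lit 5) (nat_lit 100) (nat_lit 5) (nat_lit 355) (nat_lit 323) (nat_lit 222)))))) (XT.nd (nat_lit 468) (nat_lit 1216) (nat_lit 0) (XT.nd (nat_lit 234) (nat_lit 608) (nat_lit 0) (XT.nd (nat_lit 78) (nat_lit 532) (nat_lit 0) (XT.lf (nat_lit 0) (nat_lit 6601932671) (nat_lit 380) (nat_lit 14834377298) (nat_lit 76) (nat_lit 10661151405) (nat_lit 90) (nat_lit 5) (nat_lit 95) (nat_lit 5) (nat_lit 91) (nat_lit 5) (nat_lit 356) (nat_lit 323) (nat_lit 221)) (XT.nd (nat_lit 78) (nat_lit 228) (nat_lit 0) (XT.lf (nat_lit 0) (nat_lit 12468233097) (nat_lit 304)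 (nat_lit 3991676630) (nat_lit 380) (nat_lit 16687480463) (nat_lit 86) (nat_lit 5) (nat_lit 90) (nat_lit 5) (nat_lit 91) (nat_lit 5) (nat_lit 357) (nat_lit 323) (nat_lit 220)) (XT.lf (nat_lit 0) (nat_lit 7183807992) (nat_lit 228) (nat_lit 19975962775) (nat_lit 304) (nat_lit 7079581449) (nat_lit 83) (nat_lit 5) (nat_lit 86) (nat_lit 5) (nat_lit 87) (nat_lit 5) (nat_lit 358) (nat_lit 323) (nat_lit 219)))) (XT.nd (nat_lit 78) (nat_lit 228) (nat_lit 0) (XT.lf (nat_lit 0) (nat_lit 1431524654) (nat_lit 304) (nat_lit 1775800057) (nat_lit 380) (nat_lit 32170006140) (nat_lit 78) (nat_lit 5) (nat_lit 82) (nat_lit 5) (nat_lit 83) (nat_lit 5) (nat_lit 359) (nat_lit 323) (nat_lit 218)) (XT.nd (nat_lit 78) (nat_lit 228) (nat_lit 0) (XT.lf (nat_lit 0) (nat_lit 14300049002) (nat_lit 380) (nat_lit 4913771108) (nat_lit 76) (nat_lit 17343154347) (nat_lit 78) (nat_lit 5) (nat_lit 83) (nat_lit 5) (nat_lit 79) (nat_lit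 5) (nat_lit 360) (nat_lit 323) (nat_lit 217)) (XT.lf (nat_lit 0) (nat_lit 26043570505) (nat_lit 228) (nat_lit 161280055) (nat_lit 304) (nat_lit 11583031757) (nat_lit 75) (nat_lit 5) (nat_lit 78) (nat_lit 5) (nat_lit 79) (nat_lit 5) (nat_lit 361) (nat_lit 323) (nat_lit 216))))) (XT.nd (nat_lit 234) (nat_lit 456) (nat_lit 0) (XT.nd (nat_lit 78) (nat_lit 456) (nat_lit 0) (XT.lf (nat_lit 0) (nat_lit 57213944) (nat_lit 304) (nat_lit 19317837822) (nat_lit 76) (nat_lit 19692637043) (nat_lit 71) (nat_lit 5) (nat_lit 75) (nat_lit 5) (nat_lit 72) (nat_lit 5) (nat_lit 362) (nat_lit 323) (nat_lit 215)) (XT.nd (nat_lit 78) (nat_lit 228) (nat_lit 0) (XT.lf (nat_lit 0) (nat_lit 12283058454) (nat_lit 304) (nat_lit 27635994302) (nat_lit 76) (nat_lit 481702795) (nat_lit 68) (nat_lit 5) (nat_lit 72) (nat_lit 5) (nat_lit 69) (nat_lit 5) (nat_lit 363) (nat_lit 323) (nat_lit 214)) (XT.lf (nat_lit 0) (nat_lit 4943718521)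 (nat_lit 228) (nat_lit 20610389451) (nat_lit 304) (nat_lit 16233354722) (nat_lit 65) (nat_lit 5) (nat_lit 68) (nat_lit 5) (nat_lit 69) (nat_lit 5) (nat_lit 364) (nat_lit 323) (nat_lit 213)))) (XT.nd (nat_lit 78) (nat_lit 456) (nat_lit 0) (XT.lf (nat_lit 0) (nat_lit 39714491845) (nat_lit 228) (nat_lit 49038520) (nat_lit 304) (nat_lit 3471734452) (nat_lit 65) (nat_lit 5) (nat_lit 68) (nat_lit 5) (nat_lit 69) (nat_lit 5) (nat_lit 365) (nat_lit 323) (nat_lit 212)) (XT.nd (nat_lit 78) (nat_lit 228) (nat_lit 0) (XT.lf (nat_lit 0) (nat_lit 10243359876) (nat_lit 228) (nat_lit 12972539344) (nat_lit 76) (nat_lit 21521425029) (nat_lit 62) (nat_lit 5) (nat_lit 65) (nat_lit 5) (nat_lit 63) (nat_lit 5) (nat_lit 366) (nat_lit 323) (nat_lit 211)) (XT.lf (nat_lit 0) (nat_lit 22972491847) (nat_lit 228) (nat_lit 1849455318) (nat_lit 304) (nat_lit 21484025840) (nat_lit 59) (nat_lit 5) (nat_lit 62) (nat_lit 5)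 (nat_lit 63) (nat_lit 5) (nat_lit 367) (nat_lit 323) (nat_lit 210))))))))
noncomputable def xc90 : XT := (XT.nd (nat_lit 43524) (nat_lit 0) (nat_lit 7828) (XT.nd (nat_lit 858) (nat_lit 988) (nat_lit 0) (XT.nd (nat_lit 390) (nat_lit 684) (nat_lit 0) (XT.nd (nat_lit 156) (nat_lit 380) (nat_lit 0) (XT.nd (nat_lit 78) (nat_lit 304) (nat_lit 0) (XT.lf (nat_lit 0) (nat_lit 13078342438) (nat_lit 152) (nat_lit 27500769899) (nat_lit 228) (nat_lit 7360455957) (nat_lit 57) (nat_lit 5) (nat_lit 59) (nat_lit 5) (nat_lit 60) (nat_lit 5) (nat_lit 368) (nat_lit 323) (nat_lit 209)) (XT.lf (nat_lit 0) (nat_lit 2084312137) (nat_lit 228) (nat_lit 5511892446) (nat_lit 304) (nat_lit 42048308119) (nat_lit 53) (nat_lit 5) (nat_lit 56) (nat_lit 5) (nat_lit 57) (nat_lit 5) (nat_lit 369) (nat_lit 323) (nat_lit 208))) (XT.nd (nat_lit 78) (nat_lit 380) (nat_lit 0) (XT.lf (nat_lit 0) (nat_lit 23672872697) (nat_lit 304)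 (nat_lit 10079142572) (nat_lit 76) (nat_lit 17664773913) (nat_lit 53) (nat_lit 5) (nat_lit 57) (nat_lit 5) (nat_lit 54) (nat_lit 5) (nat_lit 370) (nat_lit 323) (nat_lit 207)) (XT.nd (nat_lit 78) (nat_lit 228) (nat_lit 0) (XT.lf (nat_lit 0) (nat_lit 29788250609) (nat_lit 152) (nat_lit 11099109768) (nat_lit 228) (nat_lit 12380302504) (nat_lit 51) (nat_lit 5) (nat_lit 53) (nat_lit 5) (nat_lit 54) (nat_lit 5) (nat_lit 371) (nat_lit 323) (nat_lit 206)) (XT.lf (nat_lit 0) (nat_lit 4062920889) (nat_lit 228) (nat_lit 38395267430) (nat_lit 76) (nat_lit 12740273838) (nat_lit 48) (nat_lit 5) (nat_lit 51) (nat_lit 5) (nat_lit 49) (nat_lit 5) (nat_lit 372) (nat_lit 323) (nat_lit 205))))) (XT.nd (nat_lit 234) (nat_lit 380) (nat_lit 0) (XT.nd (nat_lit 78) (nat_lit 152) (nat_lit 0) (XT.lf (nat_lit 0) (nat_lit 2161903168) (nat_lit 152) (nat_lit 19282025434) (nat_lit 228) (nat_lit 35767048095) (nat_lit 46) (nat_lit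 5) (nat_lit 48) (nat_lit 5) (nat_lit 49) (nat_lit 5) (nat_lit 373) (nat_lit 323) (nat_lit 204)) (XT.nd (nat_lit 78) (nat_lit 152) (nat_lit 0) (XT.lf (nat_lit 0) (nat_lit 40134295444) (nat_lit 228) (nat_lit 13828206498) (nat_lit 76) (nat_lit 5348408259) (nat_lit 46) (nat_lit 5) (nat_lit 49) (nat_lit 5) (nat_lit 47) (nat_lit 5) (nat_lit 374) (nat_lit 323) (nat_lit 203)) (XT.lf (nat_lit 0) (nat_lit 29829022124) (nat_lit 152) (nat_lit 30404442911) (nat_lit 228) (nat_lit 1268149193) (nat_lit 44) (nat_lit 5) (nat_lit 46) (nat_lit 5) (nat_lit 47) (nat_lit 5) (nat_lit 375) (nat_lit 323) (nat_lit 202)))) (XT.nd (nat_lit 78) (nat_lit 152) (nat_lit 0) (XT.lf (nat_lit 0) (nat_lit 12216994717) (nat_lit 152) (nat_lit 5230840036) (nat_lit 228) (nat_lit 46341335560) (nat_lit 41) (nat_lit 5) (nat_lit 43) (nat_lit 5) (nat_lit 44) (nat_lit 5) (nat_lit 376) (nat_lit 323) (nat_lit 201)) (XT.nd (nat_lit 78) (nat_lit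 152) (nat_lit 0) (XT.lf (nat_lit 0) (nat_lit 37599960876) (nat_lit 228) (nat_lit 7449968545) (nat_lit 76) (nat_lit 21125003091) (nat_lit 41) (nat_lit 5) (nat_lit 44) (nat_lit 5) (nat_lit 42) (nat_lit 5) (nat_lit 377) (nat_lit 323) (nat_lit 200)) (XT.lf (nat_lit 0) (nat_lit 39586852539) (nat_lit 152) (nat_lit 19599746788) (nat_lit 228) (nat_lit 9480578309) (nat_lit 39) (nat_lit 5) (nat_lit 41) (nat_lit 5) (nat_lit 42) (nat_lit 5) (nat_lit 378) (nat_lit 323) (nat_lit 199)))))) (XT.nd (nat_lit 390) (nat_lit 456) (nat_lit 0) (XT.nd (nat_lit 156) (nat_lit 304) (nat_lit 0) (XT.nd (nat_lit 78) (nat_lit 0) (nat_lit 0) (XT.lf (nat_lit 0) (nat_lit 10679272267) (nat_lit 228) (nat_lit 53256449608) (nat_lit 76) (nat_lit 7335758217) (nat_lit 36) (nat_lit 5) (nat_lit 39) (nat_lit 5) (nat_lit 37) (nat_lit 5) (nat_lit 379) (nat_lit 323) (nat_lit 198)) (XT.lf (nat_lit 0) (nat_lit 32146877784) (nat_lit 228) (nat_lit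 6231462570) (nat_lit 76) (nat_lit 35609968001) (nat_lit 36) (nat_lit 5) (nat_lit 39) (nat_lit 5) (nat_lit 37) (nat_lit 5) (nat_lit 380) (nat_lit 323) (nat_lit 197))) (XT.nd (nat_lit 78) (nat_lit 152) (nat_lit 0) (XT.lf (nat_lit 0) (nat_lit 43992935390) (nat_lit 152) (nat_lit 11111974669) (nat_lit 228) (nat_lit 21723558254) (nat_lit 34) (nat_lit 5) (nat_lit 36) (nat_lit 5) (nat_lit 37) (nat_lit 5) (nat_lit 381) (nat_lit 323) (nat_lit 196)) (XT.nd (nat_lit 78) (nat_lit 76) (nat_lit 0) (XT.lf (nat_lit 0) (nat_lit 17206665179) (nat_lit 76) (nat_lit 62397052892) (nat_lit 152) (nat_lit 195133566) (nat_lit 33) (nat_lit 5) (nat_lit 34) (nat_lit 5) (nat_lit 35) (nat_lit 4) (nat_lit 382) (nat_lit 323) (nat_lit 195)) (XT.lf (nat_lit 0) (nat_lit 22420353818) (nat_lit 152) (nat_lit 12811348336) (nat_lit 76) (nat_lit 47666152903) (nat_lit 32) (nat_lit 5) (nat_lit 34) (nat_lit 5) (nat_lit 33) (nat_lit 5)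 (nat_lit 383) (nat_lit 323) (nat_lit 194))))) (XT.nd (nat_lit 234) (nat_lit 152) (nat_lit 0) (XT.nd (nat_lit 78) (nat_lit 152) (nat_lit 0) (XT.lf (nat_lit 0) (nat_lit 40232155022) (nat_lit 152) (nat_lit 6311884501) (nat_lit 228) (nat_lit 39596268778) (nat_lit 30) (nat_lit 5) (nat_lit 32) (nat_lit 5) (nat_lit 33) (nat_lit 5) (nat_lit 384) (nat_lit 323) (nat_lit 193)) (XT.nd (nat_lit 78) (nat_lit 76) (nat_lit 0) (XT.lf (nat_lit 0) (nat_lit 6540398829) (nat_lit 76) (nat_lit 65755600821) (nat_lit 152) (nat_lit 17236223192) (nat_lit 29) (nat_lit 5) (nat_lit 30) (nat_lit 5) (nat_lit 31) (nat_lit 4) (nat_lit 385) (nat_lit 323) (nat_lit 192)) (XT.lf (nat_lit 0) (nat_lit 6655915008) (nat_lit 152) (nat_lit 30646379729) (nat_lit 76) (nat_lit 55773562877) (nat_lit 28) (nat_lit 5) (nat_lit 30) (nat_lit 5) (nat_lit 29) (nat_lit 5) (nat_lit 386) (nat_lit 323) (nat_lit 191)))) (XT.nd (nat_lit 78) (nat_lit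 0) (nat_lit 0) (XT.lf (nat_lit 0) (nat_lit 24613949057) (nat_lit 152) (nat_lit 7007319900) (nat_lit 228) (nat_lit 65163234263) (nat_lit 26) (nat_lit 5) (nat_lit 28) (nat_lit 5) (nat_lit 29) (nat_lit 5) (nat_lit 387) (nat_lit 323) (nat_lit 190)) (XT.nd (nat_lit 41886) (nat_lit 0) (nat_lit 14440) (XT.lf (nat_lit 0) (nat_lit 58387182301) (nat_lit 228) (nat_lit 17641523139) (nat_lit 76) (nat_lit 24633308037) (nat_lit 26) (nat_lit 5) (nat_lit 29) (nat_lit 5) (nat_lit 27) (nat_lit 4) (nat_lit 388) (nat_lit 323) (nat_lit 189)) (XT.lf (nat_lit 0) (nat_lit 648667770) (nat_lit 0) (nat_lit 648667770) (nat_lit 1140) (nat_lit 5412005673) (nat_lit 216) (nat_lit 5) (nat_lit 216) (nat_lit 3) (nat_lit 231) (nat_lit 3) (nat_lit 324) (nat_lit 324) (nat_lit 252))))))) (XT.nd (nat_lit 858) (nat_lit 5928) (nat_lit 0) (XT.nd (nat_lit 390) (nat_lit 684) (nat_lit 0) (XT.nd (nat_lit 156) (nat_lit 0) (nat_lit 152) (XT.nd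 (nat_lit 78) (nat_lit 0) (nat_lit 76) (XT.lf (nat_lit 0) (nat_lit 3341110869) (nat_lit 1140) (nat_lit 1816627993) (nat_lit 1216) (nat_lit 8575428171) (nat_lit 216) (nat_lit 5) (nat_lit 231) (nat_lit 3) (nat_lit 232) (nat_lit 5) (nat_lit 325) (nat_lit 324) (nat_lit 251)) (XT.lf (nat_lit 0) (nat_lit 4235524543) (nat_lit 1140) (nat_lit 4960944870) (nat_lit 1216) (nat_lit 4863621165) (nat_lit 217) (nat_lit 5) (nat_lit 232) (nat_lit 5) (nat_lit 233) (nat_lit 5) (nat_lit 326) (nat_lit 324) (nat_lit 250))) (XT.nd (nat_lit 78) (nat_lit 0) (nat_lit 0) (XT.lf (nat_lit 0) (nat_lit 5278715246) (nat_lit 1140) (nat_lit 8165634900) (nat_lit 1216) (nat_lit 955921096) (nat_lit 218) (nat_lit 5) (nat_lit 233) (nat_lit 5) (nat_lit 234) (nat_lit 5) (nat_lit 327) (nat_lit 324) (nat_lit 249)) (XT.nd (nat_lit 78) (nat_lit 0) (nat_lit 76) (XT.lf (nat_lit 76) (nat_lit 3286756067) (nat_lit 0) (nat_lit 3228682903) (nat_lit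 1216) (nat_lit 8237811842) (nat_lit 219) (nat_lit 5) (nat_lit 218) (nat_lit 5) (nat_lit 234) (nat_lit 5) (nat_lit 328) (nat_lit 324) (nat_lit 248)) (XT.lf (nat_lit 76) (nat_lit 271126945) (nat_lit 0) (nat_lit 7669384781) (nat_lit 1216) (nat_lit 7179601847) (nat_lit 220) (nat_lit 5) (nat_lit 219) (nat_lit 5) (nat_lit 235) (nat_lit 5) (nat_lit 329) (nat_lit 324) (nat_lit 247))))) (XT.nd (nat_lit 234) (nat_lit 988) (nat_lit 0) (XT.nd (nat_lit 78) (nat_lit 0) (nat_lit 0) (XT.lf (nat_lit 0) (nat_lit 9586452660) (nat_lit 1140) (nat_lit 2752445216) (nat_lit 1216) (nat_lit 3161961350) (nat_lit 220) (nat_lit 5) (nat_lit 235) (nat_lit 5) (nat_lit 236) (nat_lit 5) (nat_lit 330) (nat_lit 324) (nat_lit 246)) (XT.nd (nat_lit 78) (nat_lit 0) (nat_lit 76) (XT.lf (nat_lit 76) (nat_lit 10045887704) (nat_lit 0) (nat_lit 1412689066) (nat_lit 1216) (nat_lit 4437775653) (nat_lit 221) (nat_lit 5) (nat_lit 220) (nat_lit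 5) (nat_lit 236) (nat_lit 5) (nat_lit 331) (nat_lit 324) (nat_lit 245)) (XT.lf (nat_lit 76) (nat_lit 7253440212) (nat_lit 0) (nat_lit 6337122932) (nat_lit 1216) (nat_lit 2716095022) (nat_lit 222) (nat_lit 5) (nat_lit 221) (nat_lit 5) (nat_lit 237) (nat_lit 5) (nat_lit 332) (nat_lit 324) (nat_lit 244)))) (XT.nd (nat_lit 78) (nat_lit 1140) (nat_lit 0) (XT.lf (nat_lit 76) (nat_lit 4398402601) (nat_lit 0) (nat_lit 11569958327) (nat_lit 1216) (nat_lit 764966256) (nat_lit 223) (nat_lit 5) (nat_lit 222) (nat_lit 5) (nat_lit 238) (nat_lit 5) (nat_lit 333) (nat_lit 324) (nat_lit 243)) (XT.nd (nat_lit 78) (nat_lit 0) (nat_lit 0) (XT.lf (nat_lit 0) (nat_lit 1404626879) (nat_lit 1216) (nat_lit 15714815020) (nat_lit 76) (nat_lit 57161335) (nat_lit 207) (nat_lit 5) (nat_lit 223) (nat_lit 5) (nat_lit 208) (nat_lit 5) (nat_lit 334) (nat_lit 324) (nat_lit 242)) (XT.lf (nat_lit 0) (nat_lit 3886404939) (nat_lit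 1216) (nat_lit 1580286636) (nat_lit 76) (nat_lit 12168559960) (nat_lit 207) (nat_lit 5) (nat_lit 223) (nat_lit 5) (nat_lit 208) (nat_lit 5) (nat_lit 335) (nat_lit 324) (nat_lit 241)))))) (XT.nd (nat_lit 468) (nat_lit 2812) (nat_lit 0) (XT.nd (nat_lit 234) (nat_lit 1140) (nat_lit 0) (XT.nd (nat_lit 78) (nat_lit 1140) (nat_lit 0) (XT.lf (nat_lit 0) (nat_lit 6664038693) (nat_lit 912) (nat_lit 4676937846) (nat_lit 76) (nat_lit 6770723129) (nat_lit 196) (nat_lit 5) (nat_lit 208) (nat_lit 5) (nat_lit 197) (nat_lit 5) (nat_lit 336) (nat_lit 324) (nat_lit 240)) (XT.nd (nat_lit 78) (nat_lit 532) (nat_lit 0) (XT.lf (nat_lit 0) (nat_lit 9741955359) (nat_lit 684) (nat_lit 7862106402) (nat_lit 76) (nat_lit 1003085860) (nat_lit 188) (nat_lit 5) (nat_lit 197) (nat_lit 5) (nat_lit 189) (nat_lit 5) (nat_lit 337) (nat_lit 324) (nat_lit 239)) (XT.lf (nat_lit 0) (nat_lit 7928130146) (nat_lit 532) (nat_lit 5262443894)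 (nat_lit 608) (nat_lit 5930308270) (nat_lit 181) (nat_lit 5) (nat_lit 188) (nat_lit 5) (nat_lit 189) (nat_lit 5) (nat_lit 338) (nat_lit 324) (nat_lit 238)))) (XT.nd (nat_lit 78) (nat_lit 608) (nat_lit 0) (XT.lf (nat_lit 0) (nat_lit 5015774116) (nat_lit 532) (nat_lit 11978163676) (nat_lit 608) (nat_lit 2660914158) (nat_lit 174) (nat_lit 5) (nat_lit 181) (nat_lit 5) (nat_lit 182) (nat_lit 5) (nat_lit 339) (nat_lit 324) (nat_lit 237)) (XT.nd (nat_lit 78) (nat_lit 0) (nat_lit 0) (XT.lf (nat_lit 0) (nat_lit 935156686) (nat_lit 608) (nat_lit 18208012005) (nat_lit 76) (nat_lit 1066796963) (nat_lit 166) (nat_lit 5) (nat_lit 174) (nat_lit 5) (nat_lit 167) (nat_lit 5) (nat_lit 340) (nat_lit 324) (nat_lit 236)) (XT.lf (nat_lit 0) (nat_lit 4909381165) (nat_lit 608) (nat_lit 1178045060) (nat_lit 76) (nat_lit 14697032527) (nat_lit 166) (nat_lit 5) (nat_lit 174) (nat_lit 5) (nat_lit 167) (nat_lit 5) (nat_lit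 341) (nat_lit 324) (nat_lit 235))))) (XT.nd (nat_lit 234) (nat_lit 1368) (nat_lit 0) (XT.nd (nat_lit 78) (nat_lit 912) (nat_lit 0) (XT.lf (nat_lit 0) (nat_lit 9301488795) (nat_lit 608) (nat_lit 4443197166) (nat_lit 76) (nat_lit 7636430182) (nat_lit 159) (nat_lit 5) (nat_lit 167) (nat_lit 5) (nat_lit 160) (nat_lit 5) (nat_lit 342) (nat_lit 324) (nat_lit 234)) (XT.nd (nat_lit 78) (nat_lit 456) (nat_lit 0) (XT.lf (nat_lit 0) (nat_lit 14105221806) (nat_lit 532) (nat_lit 7830874828) (nat_lit 76) (nat_lit 65763260) (nat_lit 153) (nat_lit 5) (nat_lit 160) (nat_lit 5) (nat_lit 154) (nat_lit 5) (nat_lit 343) (nat_lit 324) (nat_lit 233)) (XT.lf (nat_lit 0) (nat_lit 11215806089) (nat_lit 456) (nat_lit 8208202250) (nat_lit 532) (nat_lit 3221399907) (nat_lit 147) (nat_lit 5) (nat_lit 153) (nat_lit 5) (nat_lit 154) (nat_lit 5) (nat_lit 344) (nat_lit 324) (nat_lit 232)))) (XT.nd (nat_lit 78) (nat_lit 836)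 (nat_lit 0) (XT.lf (nat_lit 0) (nat_lit 1858719878) (nat_lit 532) (nat_lit 15195468906) (nat_lit 76) (nat_lit 6260349447) (nat_lit 140) (nat_lit 5) (nat_lit 147) (nat_lit 5) (nat_lit 141) (nat_lit 5) (nat_lit 345) (nat_lit 324) (nat_lit 231)) (XT.nd (nat_lit 78) (nat_lit 380) (nat_lit 0) (XT.lf (nat_lit 0) (nat_lit 4828093561) (nat_lit 456) (nat_lit 2530053669) (nat_lit 532) (nat_lit 16651074700) (nat_lit 134) (nat_lit 5) (nat_lit 140) (nat_lit 5) (nat_lit 141) (nat_lit 5) (nat_lit 346) (nat_lit 324) (nat_lit 230)) (XT.lf (nat_lit 0) (nat_lit 1318422358) (nat_lit 380) (nat_lit 12090850505) (nat_lit 456) (nat_lit 11321076399) (nat_lit 129) (nat_lit 5) (nat_lit 134) (nat_lit 5) (nat_lit 135) (nat_lit 5) (nat_lit 347) (nat_lit 324) (nat_lit 229))))))))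
noncomputable def xc91 : XT := (XT.nd (nat_lit 1794) (nat_lit 2052) (nat_lit 0) (XT.nd (nat_lit 858) (nat_lit 2508) (nat_lit 0) (XT.nd (nat_lit 390) (nat_lit 1748) (nat_lit 0) (XT.nd (nat_lit 156) (nat_lit 1064) (nat_lit 0) (XT.nd (nat_lit 78) (nat_lit 456) (nat_lit 0) (XT.lf (nat_lit 0) (nat_lit 20001116994) (nat_lit 456) (nat_lit 2313965039) (nat_lit 76) (nat_lit 3165316779) (nat_lit 129) (nat_lit 5) (nat_lit 135) (nat_lit 5) (nat_lit 130) (nat_lit 5) (nat_lit 348) (nat_lit 324) (nat_lit 228)) (XT.lf (nat_lit 0) (nat_lit 945045341) (nat_lit 456) (nat_lit 6178169388) (nat_lit 76) (nat_lit 19135460754) (nat_lit 123) (nat_lit 5) (nat_lit 129) (nat_lit 5) (nat_lit 124) (nat_lit 5) (nat_lit 349) (nat_lit 324) (nat_lit 227))) (XT.nd (nat_lit 78) (nat_lit 684) (nat_lit 0) (XT.lf (nat_lit 0) (nat_lit 7836773867) (nat_lit 456) (nat_lit 10334263322) (nat_lit 76) (nat_lit 8895425580) (nat_lit 118) (nat_lit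 5) (nat_lit 124) (nat_lit 5) (nat_lit 119) (nat_lit 5) (nat_lit 350) (nat_lit 324) (nat_lit 226)) (XT.nd (nat_lit 78) (nat_lit 304) (nat_lit 0) (XT.lf (nat_lit 0) (nat_lit 13170484135) (nat_lit 380) (nat_lit 2151292721) (nat_lit 456) (nat_lit 12585410912) (nat_lit 113) (nat_lit 5) (nat_lit 118) (nat_lit 5) (nat_lit 119) (nat_lit 5) (nat_lit 351) (nat_lit 324) (nat_lit 225)) (XT.lf (nat_lit 0) (nat_lit 9300796229) (nat_lit 304) (nat_lit 14204500317) (nat_lit 380) (nat_lit 5274933035) (nat_lit 109) (nat_lit 5) (nat_lit 113) (nat_lit 5) (nat_lit 114) (nat_lit 5) (nat_lit 352) (nat_lit 324) (nat_lit 224))))) (XT.nd (nat_lit 234) (nat_lit 988) (nat_lit 0) (XT.nd (nat_lit 78) (nat_lit 304) (nat_lit 0) (XT.lf (nat_lit 0) (nat_lit 2591052518) (nat_lit 456) (nat_lit 24522402822) (nat_lit 76) (nat_lit 2575678527) (nat_lit 103) (nat_lit 5) (nat_lit 109) (nat_lit 5) (nat_lit 104) (nat_lit 5) (nat_lit 353)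 (nat_lit 324) (nat_lit 223)) (XT.nd (nat_lit 78) (nat_lit 0) (nat_lit 0) (XT.lf (nat_lit 0) (nat_lit 610237476) (nat_lit 304) (nat_lit 10470934283) (nat_lit 380) (nat_lit 19550554494) (nat_lit 99) (nat_lit 5) (nat_lit 103) (nat_lit 5) (nat_lit 104) (nat_lit 5) (nat_lit 354) (nat_lit 324) (nat_lit 222)) (XT.lf (nat_lit 0) (nat_lit 20305622670) (nat_lit 380) (nat_lit 4189434537) (nat_lit 76) (nat_lit 7117103458) (nat_lit 99) (nat_lit 5) (nat_lit 104) (nat_lit 5) (nat_lit 100) (nat_lit 5) (nat_lit 355) (nat_lit 324) (nat_lit 221)))) (XT.nd (nat_lit 78) (nat_lit 684) (nat_lit 0) (XT.lf (nat_lit 0) (nat_lit 23265684599) (nat_lit 304) (nat_lit 7043099166) (nat_lit 380) (nat_lit 2323315244) (nat_lit 95) (nat_lit 5) (nat_lit 99) (nat_lit 5) (nat_lit 100) (nat_lit 5) (nat_lit 356) (nat_lit 324) (nat_lit 220)) (XT.nd (nat_lit 78) (nat_lit 304) (nat_lit 0) (XT.lf (nat_lit 0) (nat_lit 7293965952) (nat_lit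 380) (nat_lit 15045833307) (nat_lit 76) (nat_lit 11351482607) (nat_lit 90) (nat_lit 5) (nat_lit 95) (nat_lit 5) (nat_lit 91) (nat_lit 5) (nat_lit 357) (nat_lit 324) (nat_lit 219)) (XT.lf (nat_lit 0) (nat_lit 13606707730) (nat_lit 304) (nat_lit 4025850153) (nat_lit 380) (nat_lit 17161527019) (nat_lit 86) (nat_lit 5) (nat_lit 90) (nat_lit 5) (nat_lit 91) (nat_lit 5) (nat_lit 358) (nat_lit 324) (nat_lit 218)))))) (XT.nd (nat_lit 468) (nat_lit 1140) (nat_lit 0) (XT.nd (nat_lit 234) (nat_lit 760) (nat_lit 0) (XT.nd (nat_lit 78) (nat_lit 380) (nat_lit 0) (XT.lf (nat_lit 0) (nat_lit 8052121552) (nat_lit 228) (nat_lit 20805048608) (nat_lit 304) (nat_lit 7083790942) (nat_lit 83) (nat_lit 5) (nat_lit 86) (nat_lit 5) (nat_lit 87) (nat_lit 5) (nat_lit 359) (nat_lit 324) (nat_lit 217)) (XT.nd (nat_lit 78) (nat_lit 0) (nat_lit 0) (XT.lf (nat_lit 0) (nat_lit 2004426104) (nat_lit 304) (nat_lit 1694697520)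 (nat_lit 380) (nat_lit 33436967685) (nat_lit 78) (nat_lit 5) (nat_lit 82) (nat_lit 5) (nat_lit 83) (nat_lit 5) (nat_lit 360) (nat_lit 324) (nat_lit 216)) (XT.lf (nat_lit 0) (nat_lit 15332256965) (nat_lit 380) (nat_lit 4673937576) (nat_lit 76) (nat_lit 18368957136) (nat_lit 78) (nat_lit 5) (nat_lit 83) (nat_lit 5) (nat_lit 79) (nat_lit 5) (nat_lit 361) (nat_lit 324) (nat_lit 215)))) (XT.nd (nat_lit 78) (nat_lit 532) (nat_lit 0) (XT.lf (nat_lit 0) (nat_lit 27817353723) (nat_lit 228) (nat_lit 4373205) (nat_lit 304) (nat_lit 11846202548) (nat_lit 75) (nat_lit 5) (nat_lit 78) (nat_lit 5) (nat_lit 79) (nat_lit 5) (nat_lit 362) (nat_lit 324) (nat_lit 214)) (XT.nd (nat_lit 78) (nat_lit 228) (nat_lit 0) (XT.lf (nat_lit 0) (nat_lit 361181852) (nat_lit 304) (nat_lit 19811975375) (nat_lit 76) (nat_lit 20838746015) (nat_lit 71) (nat_lit 5) (nat_lit 75) (nat_lit 5) (nat_lit 72) (nat_lit 5) (nat_lit 363)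 (nat_lit 324) (nat_lit 213)) (XT.lf (nat_lit 0) (nat_lit 13189990816) (nat_lit 304) (nat_lit 28552302800) (nat_lit 76) (nat_lit 669586051) (nat_lit 68) (nat_lit 5) (nat_lit 72) (nat_lit 5) (nat_lit 69) (nat_lit 5) (nat_lit 364) (nat_lit 324) (nat_lit 212))))) (XT.nd (nat_lit 234) (nat_lit 684) (nat_lit 0) (XT.nd (nat_lit 78) (nat_lit 228) (nat_lit 0) (XT.lf (nat_lit 0) (nat_lit 5643052452) (nat_lit 228) (nat_lit 21471944803) (nat_lit 304) (nat_lit 16753218983) (nat_lit 65) (nat_lit 5) (nat_lit 68) (nat_lit 5) (nat_lit 69) (nat_lit 5) (nat_lit 365) (nat_lit 324) (nat_lit 211)) (XT.nd (nat_lit 78) (nat_lit 228) (nat_lit 0) (XT.lf (nat_lit 0) (nat_lit 42022457708) (nat_lit 304) (nat_lit 3259037226) (nat_lit 76) (nat_lit 107292433) (nat_lit 65) (nat_lit 5) (nat_lit 69) (nat_lit 5) (nat_lit 66) (nat_lit 5) (nat_lit 366) (nat_lit 324) (nat_lit 210)) (XT.lf (nat_lit 0) (nat_lit 11020648577) (nat_lit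 228) (nat_lit 13191035719) (nat_lit 76) (nat_lit 22754443284) (nat_lit 62) (nat_lit 5) (nat_lit 65) (nat_lit 5) (nat_lit 63) (nat_lit 5) (nat_lit 367) (nat_lit 324) (nat_lit 209)))) (XT.nd (nat_lit 78) (nat_lit 456) (nat_lit 0) (XT.lf (nat_lit 0) (nat_lit 24538917425) (nat_lit 228) (nat_lit 1780639168) (nat_lit 304) (nat_lit 22293915641) (nat_lit 59) (nat_lit 5) (nat_lit 62) (nat_lit 5) (nat_lit 63) (nat_lit 5) (nat_lit 368) (nat_lit 324) (nat_lit 208)) (XT.nd (nat_lit 78) (nat_lit 304) (nat_lit 0) (XT.lf (nat_lit 0) (nat_lit 14144154251) (nat_lit 152) (nat_lit 28713646876) (nat_lit 228) (nat_lit 7471154484) (nat_lit 57) (nat_lit 5) (nat_lit 59) (nat_lit 5) (nat_lit 60) (nat_lit 5) (nat_lit 369) (nat_lit 324) (nat_lit 207)) (XT.lf (nat_lit 0) (nat_lit 2593586403) (nat_lit 228) (nat_lit 5626610603) (nat_lit 304) (nat_lit 43899124231) (nat_lit 53) (nat_lit 5) (nat_lit 56) (nat_lit 5) (nat_lit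 57) (nat_lit 5) (nat_lit 370) (nat_lit 324) (nat_lit 206))))))) (XT.nd (nat_lit 858) (nat_lit 760) (nat_lit 0) (XT.nd (nat_lit 390) (nat_lit 760) (nat_lit 0) (XT.nd (nat_lit 156) (nat_lit 380) (nat_lit 0) (XT.nd (nat_lit 78) (nat_lit 152) (nat_lit 0) (XT.lf (nat_lit 0) (nat_lit 25090543604) (nat_lit 304) (nat_lit 10191738447) (nat_lit 76) (nat_lit 18698238501) (nat_lit 53) (nat_lit 5) (nat_lit 57) (nat_lit 5) (nat_lit 54) (nat_lit 5) (nat_lit 371) (nat_lit 324) (nat_lit 205)) (XT.lf (nat_lit 0) (nat_lit 31657806102) (nat_lit 152) (nat_lit 11500459578) (nat_lit 228) (nat_lit 12765901111) (nat_lit 51) (nat_lit 5) (nat_lit 53) (nat_lit 5) (nat_lit 54) (nat_lit 5) (nat_lit 372) (nat_lit 324) (nat_lit 204))) (XT.nd (nat_lit 78) (nat_lit 152) (nat_lit 0) (XT.lf (nat_lit 0) (nat_lit 4489086147) (nat_lit 228) (nat_lit 39936021374) (nat_lit 76) (nat_lit 13526510314) (nat_lit 48) (nat_lit 5) (nat_lit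 51) (nat_lit 5) (nat_lit 49) (nat_lit 5) (nat_lit 373) (nat_lit 324) (nat_lit 203)) (XT.nd (nat_lit 78) (nat_lit 0) (nat_lit 0) (XT.lf (nat_lit 0) (nat_lit 2638143525) (nat_lit 152) (nat_lit 20093919596) (nat_lit 228) (nat_lit 37332911075) (nat_lit 46) (nat_lit 5) (nat_lit 48) (nat_lit 5) (nat_lit 49) (nat_lit 5) (nat_lit 374) (nat_lit 324) (nat_lit 202)) (XT.lf (nat_lit 0) (nat_lit 42348058975) (nat_lit 228) (nat_lit 14164156417) (nat_lit 76) (nat_lit 5757959149) (nat_lit 46) (nat_lit 5) (nat_lit 49) (nat_lit 5) (nat_lit 47) (nat_lit 5) (nat_lit 375) (nat_lit 324) (nat_lit 201))))) (XT.nd (nat_lit 234) (nat_lit 380) (nat_lit 0) (XT.nd (nat_lit 78) (nat_lit 228) (nat_lit 0) (XT.lf (nat_lit 0) (nat_lit 31665744434) (nat_lit 152) (nat_lit 31779902104) (nat_lit 228) (nat_lit 1124966766) (nat_lit 44) (nat_lit 5) (nat_lit 46) (nat_lit 5) (nat_lit 47) (nat_lit 5) (nat_lit 376) (nat_lit 324) (nat_lit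 200)) (XT.nd (nat_lit 78) (nat_lit 0) (nat_lit 0) (XT.lf (nat_lit 0) (nat_lit 13167196890) (nat_lit 152) (nat_lit 5349204592) (nat_lit 228) (nat_lit 48456280712) (nat_lit 41) (nat_lit 5) (nat_lit 43) (nat_lit 5) (nat_lit 44) (nat_lit 5) (nat_lit 377) (nat_lit 324) (nat_lit 199)) (XT.lf (nat_lit 0) (nat_lit 39668103016) (nat_lit 228) (nat_lit 7494921483) (nat_lit 76) (nat_lit 22314951853) (nat_lit 41) (nat_lit 5) (nat_lit 44) (nat_lit 5) (nat_lit 42) (nat_lit 5) (nat_lit 378) (nat_lit 324) (nat_lit 198)))) (XT.nd (nat_lit 78) (nat_lit 228) (nat_lit 0) (XT.lf (nat_lit 0) (nat_lit 41884351628) (nat_lit 152) (nat_lit 20443820832) (nat_lit 228) (nat_lit 9766841084) (nat_lit 39) (nat_lit 5) (nat_lit 41) (nat_lit 5) (nat_lit 42) (nat_lit 5) (nat_lit 379) (nat_lit 324) (nat_lit 197)) (XT.nd (nat_lit 78) (nat_lit 0) (nat_lit 0) (XT.lf (nat_lit 0) (nat_lit 11392867667) (nat_lit 228) (nat_lit 55602513383)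 (nat_lit 76) (nat_lit 7834232611) (nat_lit 36) (nat_lit 5) (nat_lit 39) (nat_lit 5) (nat_lit 37) (nat_lit 5) (nat_lit 380) (nat_lit 324) (nat_lit 196)) (XT.lf (nat_lit 0) (nat_lit 33925299565) (nat_lit 228) (nat_lit 6241360742) (nat_lit 76) (nat_lit 37515882099) (nat_lit 36) (nat_lit 5) (nat_lit 39) (nat_lit 5) (nat_lit 37) (nat_lit 5) (nat_lit 381) (nat_lit 324) (nat_lit 195)))))) (XT.nd (nat_lit 468) (nat_lit 152) (nat_lit 0) (XT.nd (nat_lit 234) (nat_lit 304) (nat_lit 0) (XT.nd (nat_lit 78) (nat_lit 152) (nat_lit 0) (XT.lf (nat_lit 0) (nat_lit 46485609664) (nat_lit 152) (nat_lit 11540293983) (nat_lit 228) (nat_lit 22638968943) (nat_lit 34) (nat_lit 5) (nat_lit 36) (nat_lit 5) (nat_lit 37) (nat_lit 5) (nat_lit 382) (nat_lit 324) (nat_lit 194)) (XT.nd (nat_lit 78) (nat_lit 76) (nat_lit 0) (XT.lf (nat_lit 0) (nat_lit 18355313218) (nat_lit 76) (nat_lit 65390382761) (nat_lit 152) (nat_lit 38200009)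 (nat_lit 33) (nat_lit 5) (nat_lit 34) (nat_lit 5) (nat_lit 35) (nat_lit 4) (nat_lit 383) (nat_lit 324) (nat_lit 193)) (XT.lf (nat_lit 0) (nat_lit 23697026279) (nat_lit 152) (nat_lit 13174191292) (nat_lit 76) (nat_lit 50166819474) (nat_lit 32) (nat_lit 5) (nat_lit 34) (nat_lit 5) (nat_lit 33) (nat_lit 5) (nat_lit 384) (nat_lit 324) (nat_lit 192)))) (XT.nd (nat_lit 78) (nat_lit 152) (nat_lit 0) (XT.lf (nat_lit 0) (nat_lit 42513526318) (nat_lit 152) (nat_lit 6508550953) (nat_lit 228) (nat_lit 41420682210) (nat_lit 30) (nat_lit 5) (nat_lit 32) (nat_lit 5) (nat_lit 33) (nat_lit 5) (nat_lit 385) (nat_lit 324) (nat_lit 191)) (XT.nd (nat_lit 78) (nat_lit 76) (nat_lit 0) (XT.lf (nat_lit 0) (nat_lit 7132772563) (nat_lit 76) (nat_lit 68925319696) (nat_lit 152) (nat_lit 17946285649) (nat_lit 29) (nat_lit 5) (nat_lit 30) (nat_lit 5) (nat_lit 31) (nat_lit 4) (nat_lit 386) (nat_lit 324) (nat_lit 190)) (XT.lf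 (nat_lit 0) (nat_lit 7130413176) (nat_lit 152) (nat_lit 31923126174) (nat_lit 76) (nat_lit 58671825585) (nat_lit 28) (nat_lit 5) (nat_lit 30) (nat_lit 5) (nat_lit 29) (nat_lit 5) (nat_lit 387) (nat_lit 324) (nat_lit 189))))) (XT.nd (nat_lit 42120) (nat_lit 0) (nat_lit 14516) (XT.nd (nat_lit 41964) (nat_lit 0) (nat_lit 14440) (XT.lf (nat_lit 0) (nat_lit 26092893115) (nat_lit 152) (nat_lit 7246780272) (nat_lit 228) (nat_lit 68279901920) (nat_lit 26) (nat_lit 5) (nat_lit 28) (nat_lit 5) (nat_lit 29) (nat_lit 5) (nat_lit 388) (nat_lit 324) (nat_lit 188)) (XT.nd (nat_lit 78) (nat_lit 0) (nat_lit 0) (XT.lf (nat_lit 0) (nat_lit 975186925) (nat_lit 0) (nat_lit 975186925) (nat_lit 1140) (nat_lit 5076262371) (nat_lit 216) (nat_lit 5) (nat_lit 216) (nat_lit 3) (nat_lit 231) (nat_lit 3) (nat_lit 325) (nat_lit 325) (nat_lit 250)) (XT.lf (nat_lit 0) (nat_lit 4623108511) (nat_lit 1140) (nat_lit 1307297963)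 (nat_lit 1216) (nat_lit 8454967019) (nat_lit 216) (nat_lit 5) (nat_lit 231) (nat_lit 3) (nat_lit 232) (nat_lit 5) (nat_lit 326) (nat_lit 325) (nat_lit 249)))) (XT.nd (nat_lit 78) (nat_lit 0) (nat_lit 76) (XT.lf (nat_lit 0) (nat_lit 5510096870) (nat_lit 1140) (nat_lit 4588397486) (nat_lit 1216) (nat_lit 4631761031) (nat_lit 217) (nat_lit 5) (nat_lit 232) (nat_lit 5) (nat_lit 233) (nat_lit 5) (nat_lit 327) (nat_lit 325) (nat_lit 248)) (XT.nd (nat_lit 78) (nat_lit 0) (nat_lit 0) (XT.lf (nat_lit 0) (nat_lit 6556641379) (nat_lit 1140) (nat_lit 7935670553) (nat_lit 1216) (nat_lit 596642840) (nat_lit 218) (nat_lit 5) (nat_lit 233) (nat_lit 5) (nat_lit 234) (nat_lit 5) (nat_lit 328) (nat_lit 325) (nat_lit 247)) (XT.lf (nat_lit 76) (nat_lit 4071044767) (nat_lit 0) (nat_lit 3741830615) (nat_lit 1216) (nat_lit 7648021065) (nat_lit 219) (nat_lit 5) (nat_lit 218) (nat_lit 5) (nat_lit 234) (nat_lit 5) (nat_lit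 329) (nat_lit 325) (nat_lit 246))))))))
noncomputable def xc92 : XT := (XT.nd (nat_lit 1716) (nat_lit 5320) (nat_lit 0) (XT.nd (nat_lit 858) (nat_lit 4256) (nat_lit 0) (XT.nd (nat_lit 390) (nat_lit 3420) (nat_lit 0) (XT.nd (nat_lit 156) (nat_lit 0) (nat_lit 76) (XT.nd (nat_lit 78) (nat_lit 0) (nat_lit 76) (XT.lf (nat_lit 76) (nat_lit 919303872) (nat_lit 0) (nat_lit 8346508637) (nat_lit 1216) (nat_lit 6581632799) (nat_lit 220) (nat_lit 5) (nat_lit 219) (nat_lit 5) (nat_lit 235) (nat_lit 5) (nat_lit 330) (nat_lit 325) (nat_lit 245)) (XT.lf (nat_lit 0) (nat_lit 10947158539) (nat_lit 1140) (nat_lit 2255670037) (nat_lit 1216) (nat_lit 3045845744) (nat_lit 220) (nat_lit 5) (nat_lit 235) (nat_lit 5) (nat_lit 236) (nat_lit 5) (nat_lit 331) (nat_lit 325) (nat_lit 244))) (XT.nd (nat_lit 78) (nat_lit 0) (nat_lit 76) (XT.lf (nat_lit 76) (nat_lit 11164394654) (nat_lit 0) (nat_lit 1712446982) (nat_lit 1216)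 (nat_lit 3788219403) (nat_lit 221) (nat_lit 5) (nat_lit 220) (nat_lit 5) (nat_lit 236) (nat_lit 5) (nat_lit 332) (nat_lit 325) (nat_lit 243)) (XT.nd (nat_lit 78) (nat_lit 0) (nat_lit 76) (XT.lf (nat_lit 76) (nat_lit 8242161115) (nat_lit 0) (nat_lit 6836932487) (nat_lit 1216) (nat_lit 2017914143) (nat_lit 222) (nat_lit 5) (nat_lit 221) (nat_lit 5) (nat_lit 237) (nat_lit 5) (nat_lit 333) (nat_lit 325) (nat_lit 242)) (XT.lf (nat_lit 76) (nat_lit 5252401493) (nat_lit 0) (nat_lit 12289276102) (nat_lit 1216) (nat_lit 4389695) (nat_lit 223) (nat_lit 5) (nat_lit 222) (nat_lit 5) (nat_lit 238) (nat_lit 5) (nat_lit 334) (nat_lit 325) (nat_lit 241))))) (XT.nd (nat_lit 234) (nat_lit 1672) (nat_lit 0) (XT.nd (nat_lit 78) (nat_lit 760) (nat_lit 0) (XT.lf (nat_lit 76) (nat_lit 2167168456) (nat_lit 0) (nat_lit 59113409) (nat_lit 1292) (nat_lit 15785980717) (nat_lit 207) (nat_lit 5) (nat_lit 206) (nat_lit 5)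 (nat_lit 223) (nat_lit 5) (nat_lit 335) (nat_lit 325) (nat_lit 240)) (XT.nd (nat_lit 78) (nat_lit 836) (nat_lit 0) (XT.lf (nat_lit 0) (nat_lit 4795825575) (nat_lit 1216) (nat_lit 1034510606) (nat_lit 76) (nat_lit 12664626723) (nat_lit 207) (nat_lit 5) (nat_lit 223) (nat_lit 5) (nat_lit 208) (nat_lit 5) (nat_lit 336) (nat_lit 325) (nat_lit 239)) (XT.lf (nat_lit 0) (nat_lit 7683353310) (nat_lit 912) (nat_lit 4281958690) (nat_lit 76) (nat_lit 7030819561) (nat_lit 196) (nat_lit 5) (nat_lit 208) (nat_lit 5) (nat_lit 197) (nat_lit 5) (nat_lit 337) (nat_lit 325) (nat_lit 238)))) (XT.nd (nat_lit 78) (nat_lit 1064) (nat_lit 0) (XT.lf (nat_lit 0) (nat_lit 10887898850) (nat_lit 684) (nat_lit 7623622584) (nat_lit 76) (nat_lit 1005675616) (nat_lit 188) (nat_lit 5) (nat_lit 197) (nat_lit 5) (nat_lit 189) (nat_lit 5) (nat_lit 338) (nat_lit 325) (nat_lit 237)) (XT.nd (nat_lit 78) (nat_lit 532) (nat_lit 0)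 (XT.lf (nat_lit 0) (nat_lit 8938021415) (nat_lit 532) (nat_lit 5545450635) (nat_lit 608) (nat_lit 5573936553) (nat_lit 181) (nat_lit 5) (nat_lit 188) (nat_lit 5) (nat_lit 189) (nat_lit 5) (nat_lit 339) (nat_lit 325) (nat_lit 236)) (XT.lf (nat_lit 0) (nat_lit 5881606178) (nat_lit 532) (nat_lit 12570967501) (nat_lit 608) (nat_lit 2166260562) (nat_lit 174) (nat_lit 5) (nat_lit 181) (nat_lit 5) (nat_lit 182) (nat_lit 5) (nat_lit 340) (nat_lit 325) (nat_lit 235)))))) (XT.nd (nat_lit 390) (nat_lit 2204) (nat_lit 0) (XT.nd (nat_lit 156) (nat_lit 1444) (nat_lit 0) (XT.nd (nat_lit 78) (nat_lit 0) (nat_lit 0) (XT.lf (nat_lit 0) (nat_lit 1574090322) (nat_lit 608) (nat_lit 18490593285) (nat_lit 76) (nat_lit 1137560006) (nat_lit 166) (nat_lit 5) (nat_lit 174) (nat_lit 5) (nat_lit 167) (nat_lit 5) (nat_lit 341) (nat_lit 325) (nat_lit 234)) (XT.lf (nat_lit 0) (nat_lit 5718827177) (nat_lit 608) (nat_lit 639024151)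 (nat_lit 76) (nat_lit 15448477672) (nat_lit 166) (nat_lit 5) (nat_lit 174) (nat_lit 5) (nat_lit 167) (nat_lit 5) (nat_lit 342) (nat_lit 325) (nat_lit 233))) (XT.nd (nat_lit 78) (nat_lit 912) (nat_lit 0) (XT.lf (nat_lit 0) (nat_lit 10309633042) (nat_lit 608) (nat_lit 4068245401) (nat_lit 76) (nat_lit 8055588669) (nat_lit 159) (nat_lit 5) (nat_lit 167) (nat_lit 5) (nat_lit 160) (nat_lit 5) (nat_lit 343) (nat_lit 325) (nat_lit 232)) (XT.nd (nat_lit 78) (nat_lit 456) (nat_lit 0) (XT.lf (nat_lit 0) (nat_lit 15333817455) (nat_lit 532) (nat_lit 7626896349) (nat_lit 76) (nat_lit 125145958) (nat_lit 153) (nat_lit 5) (nat_lit 160) (nat_lit 5) (nat_lit 154) (nat_lit 5) (nat_lit 344) (nat_lit 325) (nat_lit 231)) (XT.lf (nat_lit 0) (nat_lit 12355048089) (nat_lit 456) (nat_lit 8544134964) (nat_lit 532) (nat_lit 2863002006) (nat_lit 147) (nat_lit 5) (nat_lit 153) (nat_lit 5) (nat_lit 154) (nat_lit 5) (nat_lit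 345) (nat_lit 325) (nat_lit 230))))) (XT.nd (nat_lit 234) (nat_lit 836) (nat_lit 0) (XT.nd (nat_lit 78) (nat_lit 836) (nat_lit 0) (XT.lf (nat_lit 0) (nat_lit 2443015659) (nat_lit 532) (nat_lit 15368892597) (nat_lit 76) (nat_lit 6653269935) (nat_lit 140) (nat_lit 5) (nat_lit 147) (nat_lit 5) (nat_lit 141) (nat_lit 5) (nat_lit 346) (nat_lit 325) (nat_lit 229)) (XT.nd (nat_lit 78) (nat_lit 380) (nat_lit 0) (XT.lf (nat_lit 0) (nat_lit 5639040395) (nat_lit 456) (nat_lit 2560450686) (nat_lit 532) (nat_lit 16995659176) (nat_lit 134) (nat_lit 5) (nat_lit 140) (nat_lit 5) (nat_lit 141) (nat_lit 5) (nat_lit 347) (nat_lit 325) (nat_lit 228)) (XT.lf (nat_lit 0) (nat_lit 1950778666) (nat_lit 380) (nat_lit 12586174490) (nat_lit 456) (nat_lit 11415883093) (nat_lit 129) (nat_lit 5) (nat_lit 134) (nat_lit 5) (nat_lit 135) (nat_lit 5) (nat_lit 348) (nat_lit 325) (nat_lit 227)))) (XT.nd (nat_lit 78) (nat_lit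 836) (nat_lit 0) (XT.lf (nat_lit 0) (nat_lit 21437617154) (nat_lit 456) (nat_lit 1877838728) (nat_lit 76) (nat_lit 3425570516) (nat_lit 129) (nat_lit 5) (nat_lit 135) (nat_lit 5) (nat_lit 130) (nat_lit 5) (nat_lit 349) (nat_lit 325) (nat_lit 226)) (XT.nd (nat_lit 78) (nat_lit 380) (nat_lit 0) (XT.lf (nat_lit 0) (nat_lit 1417556980) (nat_lit 456) (nat_lit 5942331249) (nat_lit 76) (nat_lit 20198686756) (nat_lit 123) (nat_lit 5) (nat_lit 129) (nat_lit 5) (nat_lit 124) (nat_lit 5) (nat_lit 350) (nat_lit 325) (nat_lit 225)) (XT.lf (nat_lit 0) (nat_lit 8639852073) (nat_lit 456) (nat_lit 10310422998) (nat_lit 76) (nat_lit 9456910327) (nat_lit 118) (nat_lit 5) (nat_lit 124) (nat_lit 5) (nat_lit 119) (nat_lit 5) (nat_lit 351) (nat_lit 325) (nat_lit 224))))))) (XT.nd (nat_lit 858) (nat_lit 2280) (nat_lit 0) (XT.nd (nat_lit 390) (nat_lit 1596) (nat_lit 0) (XT.nd (nat_lit 156) (nat_lit 760) (nat_lit 0)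 (XT.nd (nat_lit 78) (nat_lit 304) (nat_lit 0) (XT.lf (nat_lit 0) (nat_lit 14354066974) (nat_lit 380) (nat_lit 2130502587) (nat_lit 456) (nat_lit 12805825694) (nat_lit 113) (nat_lit 5) (nat_lit 118) (nat_lit 5) (nat_lit 119) (nat_lit 5) (nat_lit 352) (nat_lit 325) (nat_lit 223)) (XT.lf (nat_lit 0) (nat_lit 10286449085) (nat_lit 304) (nat_lit 14778105013) (nat_lit 380) (nat_lit 5142928337) (nat_lit 109) (nat_lit 5) (nat_lit 113) (nat_lit 5) (nat_lit 114) (nat_lit 5) (nat_lit 353) (nat_lit 325) (nat_lit 222))) (XT.nd (nat_lit 78) (nat_lit 304) (nat_lit 0) (XT.lf (nat_lit 0) (nat_lit 3096427145) (nat_lit 456) (nat_lit 25224986815) (nat_lit 76) (nat_lit 2840681097) (nat_lit 103) (nat_lit 5) (nat_lit 109) (nat_lit 5) (nat_lit 104) (nat_lit 5) (nat_lit 354) (nat_lit 325) (nat_lit 221)) (XT.nd (nat_lit 78) (nat_lit 0) (nat_lit 0) (XT.lf (nat_lit 0) (nat_lit 1149278440) (nat_lit 304) (nat_lit 10848765914)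 (nat_lit 380) (nat_lit 20154173463) (nat_lit 99) (nat_lit 5) (nat_lit 103) (nat_lit 5) (nat_lit 104) (nat_lit 5) (nat_lit 355) (nat_lit 325) (nat_lit 220)) (XT.lf (nat_lit 0) (nat_lit 21667774956) (nat_lit 380) (nat_lit 3905360420) (nat_lit 76) (nat_lit 7609026876) (nat_lit 99) (nat_lit 5) (nat_lit 104) (nat_lit 5) (nat_lit 100) (nat_lit 5) (nat_lit 356) (nat_lit 325) (nat_lit 219))))) (XT.nd (nat_lit 234) (nat_lit 608) (nat_lit 0) (XT.nd (nat_lit 78) (nat_lit 684) (nat_lit 0) (XT.lf (nat_lit 0) (nat_lit 24908367281) (nat_lit 304) (nat_lit 7250817422) (nat_lit 380) (nat_lit 2094279631) (nat_lit 95) (nat_lit 5) (nat_lit 99) (nat_lit 5) (nat_lit 100) (nat_lit 5) (nat_lit 357) (nat_lit 325) (nat_lit 218)) (XT.nd (nat_lit 78) (nat_lit 304) (nat_lit 0) (XT.lf (nat_lit 0) (nat_lit 7986951459) (nat_lit 380) (nat_lit 15317160930) (nat_lit 76) (nat_lit 12061708556) (nat_lit 90) (nat_lit 5) (nat_lit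 95) (nat_lit 5) (nat_lit 91) (nat_lit 5) (nat_lit 358) (nat_lit 325) (nat_lit 217)) (XT.lf (nat_lit 0) (nat_lit 14754220421) (nat_lit 304) (nat_lit 4077110635) (nat_lit 380) (nat_lit 17692775735) (nat_lit 86) (nat_lit 5) (nat_lit 90) (nat_lit 5) (nat_lit 91) (nat_lit 5) (nat_lit 359) (nat_lit 325) (nat_lit 216)))) (XT.nd (nat_lit 78) (nat_lit 380) (nat_lit 0) (XT.lf (nat_lit 0) (nat_lit 8916517344) (nat_lit 228) (nat_lit 21691366976) (nat_lit 304) (nat_lit 7120729171) (nat_lit 83) (nat_lit 5) (nat_lit 86) (nat_lit 5) (nat_lit 87) (nat_lit 5) (nat_lit 360) (nat_lit 325) (nat_lit 215)) (XT.nd (nat_lit 78) (nat_lit 0) (nat_lit 0) (XT.lf (nat_lit 0) (nat_lit 2559364159) (nat_lit 304) (nat_lit 1625334854) (nat_lit 380) (nat_lit 34799030344) (nat_lit 78) (nat_lit 5) (nat_lit 82) (nat_lit 5) (nat_lit 83) (nat_lit 5) (nat_lit 361) (nat_lit 325) (nat_lit 214)) (XT.lf (nat_lit 0) (nat_lit 16386584565)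 (nat_lit 380) (nat_lit 4467251610) (nat_lit 76) (nat_lit 19431300748) (nat_lit 78) (nat_lit 5) (nat_lit 83) (nat_lit 5) (nat_lit 79) (nat_lit 5) (nat_lit 362) (nat_lit 325) (nat_lit 213)))))) (XT.nd (nat_lit 468) (nat_lit 1064) (nat_lit 0) (XT.nd (nat_lit 234) (nat_lit 456) (nat_lit 0) (XT.nd (nat_lit 78) (nat_lit 532) (nat_lit 0) (XT.lf (nat_lit 0) (nat_lit 29492333437) (nat_lit 304) (nat_lit 12008261446) (nat_lit 76) (nat_lit 142211276) (nat_lit 75) (nat_lit 5) (nat_lit 79) (nat_lit 5) (nat_lit 76) (nat_lit 5) (nat_lit 363) (nat_lit 325) (nat_lit 212)) (XT.nd (nat_lit 78) (nat_lit 228) (nat_lit 0) (XT.lf (nat_lit 0) (nat_lit 652354062) (nat_lit 304) (nat_lit 20374679051) (nat_lit 76) (nat_lit 22027147822) (nat_lit 71) (nat_lit 5) (nat_lit 75) (nat_lit 5) (nat_lit 72) (nat_lit 5) (nat_lit 364) (nat_lit 325) (nat_lit 211)) (XT.lf (nat_lit 0) (nat_lit 14115049939) (nat_lit 304) (nat_lit 29557703684)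 (nat_lit 76) (nat_lit 851635074) (nat_lit 68) (nat_lit 5) (nat_lit 72) (nat_lit 5) (nat_lit 69) (nat_lit 5) (nat_lit 365) (nat_lit 325) (nat_lit 210)))) (XT.nd (nat_lit 78) (nat_lit 228) (nat_lit 0) (XT.lf (nat_lit 0) (nat_lit 6335316643) (nat_lit 228) (nat_lit 22392286605) (nat_lit 304) (nat_lit 17326205578) (nat_lit 65) (nat_lit 5) (nat_lit 68) (nat_lit 5) (nat_lit 69) (nat_lit 5) (nat_lit 366) (nat_lit 325) (nat_lit 209)) (XT.nd (nat_lit 78) (nat_lit 228) (nat_lit 0) (XT.lf (nat_lit 0) (nat_lit 44369608513) (nat_lit 304) (nat_lit 3025363748) (nat_lit 76) (nat_lit 255766457) (nat_lit 65) (nat_lit 5) (nat_lit 69) (nat_lit 5) (nat_lit 66) (nat_lit 5) (nat_lit 367) (nat_lit 325) (nat_lit 208)) (XT.lf (nat_lit 0) (nat_lit 11812153303) (nat_lit 228) (nat_lit 13460446377) (nat_lit 76) (nat_lit 24034521006) (nat_lit 62) (nat_lit 5) (nat_lit 65) (nat_lit 5) (nat_lit 63) (nat_lit 5) (nat_lit 368)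 (nat_lit 325) (nat_lit 207))))) (XT.nd (nat_lit 234) (nat_lit 380) (nat_lit 0) (XT.nd (nat_lit 78) (nat_lit 456) (nat_lit 0) (XT.lf (nat_lit 0) (nat_lit 26144821107) (nat_lit 228) (nat_lit 1723377326) (nat_lit 304) (nat_lit 23168873109) (nat_lit 59) (nat_lit 5) (nat_lit 62) (nat_lit 5) (nat_lit 63) (nat_lit 5) (nat_lit 369) (nat_lit 325) (nat_lit 206)) (XT.nd (nat_lit 78) (nat_lit 304) (nat_lit 0) (XT.lf (nat_lit 0) (nat_lit 15224962590) (nat_lit 152) (nat_lit 30002243943) (nat_lit 228) (nat_lit 7611311509) (nat_lit 57) (nat_lit 5) (nat_lit 59) (nat_lit 5) (nat_lit 60) (nat_lit 5) (nat_lit 370) (nat_lit 325) (nat_lit 205)) (XT.lf (nat_lit 0) (nat_lit 3090665867) (nat_lit 228) (nat_lit 5762021436) (nat_lit 304) (nat_lit 45865872466) (nat_lit 53) (nat_lit 5) (nat_lit 56) (nat_lit 5) (nat_lit 57) (nat_lit 5) (nat_lit 371) (nat_lit 325) (nat_lit 204)))) (XT.nd (nat_lit 78) (nat_lit 380) (nat_lit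 0) (XT.lf (nat_lit 0) (nat_lit 26557340419) (nat_lit 304) (nat_lit 10346349176) (nat_lit 76) (nat_lit 19769409738) (nat_lit 53) (nat_lit 5) (nat_lit 57) (nat_lit 5) (nat_lit 54) (nat_lit 5) (nat_lit 372) (nat_lit 325) (nat_lit 203)) (XT.nd (nat_lit 78) (nat_lit 228) (nat_lit 0) (XT.lf (nat_lit 0) (nat_lit 33585497280) (nat_lit 152) (nat_lit 11936157679) (nat_lit 228) (nat_lit 13192480505) (nat_lit 51) (nat_lit 5) (nat_lit 53) (nat_lit 5) (nat_lit 54) (nat_lit 5) (nat_lit 373) (nat_lit 325) (nat_lit 202)) (XT.lf (nat_lit 0) (nat_lit 4915825457) (nat_lit 228) (nat_lit 41589049719) (nat_lit 76) (nat_lit 14338185295) (nat_lit 48) (nat_lit 5) (nat_lit 51) (nat_lit 5) (nat_lit 49) (nat_lit 5) (nat_lit 374) (nat_lit 325) (nat_lit 201))))))))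
noncomputable def xc93 : XT := (XT.nd (nat_lit 43758) (nat_lit 0) (nat_lit 5396) (XT.nd (nat_lit 858) (nat_lit 304) (nat_lit 0) (XT.nd (nat_lit 390) (nat_lit 684) (nat_lit 0) (XT.nd (nat_lit 156) (nat_lit 380) (nat_lit 0) (XT.nd (nat_lit 78) (nat_lit 0) (nat_lit 0) (XT.lf (nat_lit 0) (nat_lit 3103969249) (nat_lit 152) (nat_lit 20960559240) (nat_lit 228) (nat_lit 38997752163) (nat_lit 46) (nat_lit 5) (nat_lit 48) (nat_lit 5) (nat_lit 49) (nat_lit 5) (nat_lit 375) (nat_lit 325) (nat_lit 200)) (XT.lf (nat_lit 0) (nat_lit 44653261251) (nat_lit 228) (nat_lit 14549951172) (nat_lit 76) (nat_lit 6174773639) (nat_lit 46) (nat_lit 5) (nat_lit 49) (nat_lit 5) (nat_lit 47) (nat_lit 5) (nat_lit 376) (nat_lit 325) (nat_lit 199))) (XT.nd (nat_lit 78) (nat_lit 228) (nat_lit 0) (XT.lf (nat_lit 0) (nat_lit 33562202817) (nat_lit 152) (nat_lit 33237592944) (nat_lit 228) (nat_lit 993831986) (nat_lit 44) (nat_lit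 5) (nat_lit 46) (nat_lit 5) (nat_lit 47) (nat_lit 5) (nat_lit 377) (nat_lit 325) (nat_lit 198)) (XT.nd (nat_lit 78) (nat_lit 0) (nat_lit 0) (XT.lf (nat_lit 0) (nat_lit 14133359399) (nat_lit 152) (nat_lit 5486798657) (nat_lit 228) (nat_lit 50695764475) (nat_lit 41) (nat_lit 5) (nat_lit 43) (nat_lit 5) (nat_lit 44) (nat_lit 5) (nat_lit 378) (nat_lit 325) (nat_lit 197)) (XT.lf (nat_lit 0) (nat_lit 41822160408) (nat_lit 228) (nat_lit 7572574144) (nat_lit 76) (nat_lit 23551968024) (nat_lit 41) (nat_lit 5) (nat_lit 44) (nat_lit 5) (nat_lit 42) (nat_lit 5) (nat_lit 379) (nat_lit 325) (nat_lit 196))))) (XT.nd (nat_lit 234) (nat_lit 304) (nat_lit 0) (XT.nd (nat_lit 78) (nat_lit 228) (nat_lit 0) (XT.lf (nat_lit 0) (nat_lit 44267146500) (nat_lit 152) (nat_lit 21342734508) (nat_lit 228) (nat_lit 10084873714) (nat_lit 39) (nat_lit 5) (nat_lit 41) (nat_lit 5) (nat_lit 42) (nat_lit 5) (nat_lit 380) (nat_lit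 325) (nat_lit 195)) (XT.nd (nat_lit 78) (nat_lit 0) (nat_lit 0) (XT.lf (nat_lit 0) (nat_lit 12125442375) (nat_lit 228) (nat_lit 58095329570) (nat_lit 76) (nat_lit 8345387763) (nat_lit 36) (nat_lit 5) (nat_lit 39) (nat_lit 5) (nat_lit 37) (nat_lit 5) (nat_lit 381) (nat_lit 325) (nat_lit 194)) (XT.lf (nat_lit 0) (nat_lit 35776737235) (nat_lit 228) (nat_lit 6279800700) (nat_lit 76) (nat_lit 39505431939) (nat_lit 36) (nat_lit 5) (nat_lit 39) (nat_lit 5) (nat_lit 37) (nat_lit 5) (nat_lit 382) (nat_lit 325) (nat_lit 193)))) (XT.nd (nat_lit 78) (nat_lit 152) (nat_lit 0) (XT.lf (nat_lit 0) (nat_lit 49075674732) (nat_lit 152) (nat_lit 12001862496) (nat_lit 228) (nat_lit 23616026484) (nat_lit 34) (nat_lit 5) (nat_lit 36) (nat_lit 5) (nat_lit 37) (nat_lit 5) (nat_lit 383) (nat_lit 325) (nat_lit 192)) (XT.nd (nat_lit 78) (nat_lit 0) (nat_lit 0) (XT.lf (nat_lit 0) (nat_lit 108915319) (nat_lit 152) (nat_lit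 68435126860) (nat_lit 76) (nat_lit 19424573732) (nat_lit 32) (nat_lit 5) (nat_lit 34) (nat_lit 5) (nat_lit 33) (nat_lit 5) (nat_lit 384) (nat_lit 325) (nat_lit 191)) (XT.lf (nat_lit 0) (nat_lit 25023061058) (nat_lit 152) (nat_lit 13580996584) (nat_lit 76) (nat_lit 52781608453) (nat_lit 32) (nat_lit 5) (nat_lit 34) (nat_lit 5) (nat_lit 33) (nat_lit 5) (nat_lit 385) (nat_lit 325) (nat_lit 190)))))) (XT.nd (nat_lit 42432) (nat_lit 0) (nat_lit 14440) (XT.nd (nat_lit 42198) (nat_lit 0) (nat_lit 14288) (XT.nd (nat_lit 78) (nat_lit 152) (nat_lit 0) (XT.lf (nat_lit 0) (nat_lit 44883886121) (nat_lit 152) (nat_lit 6726107504) (nat_lit 228) (nat_lit 43350763934) (nat_lit 30) (nat_lit 5) (nat_lit 32) (nat_lit 5) (nat_lit 33) (nat_lit 5) (nat_lit 386) (nat_lit 325) (nat_lit 189)) (XT.nd (nat_lit 78) (nat_lit 76) (nat_lit 0) (XT.lf (nat_lit 0) (nat_lit 7730094903) (nat_lit 76) (nat_lit 72264500722) (nat_lit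 152) (nat_lit 18705959385) (nat_lit 29) (nat_lit 5) (nat_lit 30) (nat_lit 5) (nat_lit 31) (nat_lit 4) (nat_lit 387) (nat_lit 325) (nat_lit 188)) (XT.lf (nat_lit 0) (nat_lit 7615462105) (nat_lit 152) (nat_lit 33287470654) (nat_lit 76) (nat_lit 61704813293) (nat_lit 28) (nat_lit 5) (nat_lit 30) (nat_lit 5) (nat_lit 29) (nat_lit 5) (nat_lit 388) (nat_lit 325) (nat_lit 187)))) (XT.nd (nat_lit 78) (nat_lit 0) (nat_lit 0) (XT.lf (nat_lit 0) (nat_lit 1290690731) (nat_lit 0) (nat_lit 1290690731) (nat_lit 1140) (nat_lit 4780103983) (nat_lit 216) (nat_lit 5) (nat_lit 216) (nat_lit 3) (nat_lit 231) (nat_lit 3) (nat_lit 326) (nat_lit 326) (nat_lit 248)) (XT.nd (nat_lit 78) (nat_lit 0) (nat_lit 76) (XT.lf (nat_lit 0) (nat_lit 5865549287) (nat_lit 1140) (nat_lit 828298752) (nat_lit 1216) (nat_lit 8379545247) (nat_lit 216) (nat_lit 5) (nat_lit 231) (nat_lit 3) (nat_lit 232) (nat_lit 5) (nat_lit 327) (nat_lit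 326) (nat_lit 247)) (XT.lf (nat_lit 0) (nat_lit 6749589105) (nat_lit 1140) (nat_lit 4254919738) (nat_lit 1216) (nat_lit 4432472719) (nat_lit 217) (nat_lit 5) (nat_lit 232) (nat_lit 5) (nat_lit 233) (nat_lit 5) (nat_lit 328) (nat_lit 326) (nat_lit 246))))) (XT.nd (nat_lit 234) (nat_lit 0) (nat_lit 152) (XT.nd (nat_lit 78) (nat_lit 0) (nat_lit 0) (XT.lf (nat_lit 0) (nat_lit 7804192606) (nat_lit 1140) (nat_lit 7753546060) (nat_lit 1216) (nat_lit 257246582) (nat_lit 218) (nat_lit 5) (nat_lit 233) (nat_lit 5) (nat_lit 234) (nat_lit 5) (nat_lit 329) (nat_lit 326) (nat_lit 245)) (XT.nd (nat_lit 78) (nat_lit 0) (nat_lit 76) (XT.lf (nat_lit 76) (nat_lit 4836910743) (nat_lit 0) (nat_lit 4247936718) (nat_lit 1216) (nat_lit 7121867588) (nat_lit 219) (nat_lit 5) (nat_lit 218) (nat_lit 5) (nat_lit 234) (nat_lit 5) (nat_lit 330) (nat_lit 326) (nat_lit 244)) (XT.lf (nat_lit 76) (nat_lit 1540888640) (nat_lit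 0) (nat_lit 9030187462) (nat_lit 1216) (nat_lit 6042733360) (nat_lit 220) (nat_lit 5) (nat_lit 219) (nat_lit 5) (nat_lit 235) (nat_lit 5) (nat_lit 331) (nat_lit 326) (nat_lit 243)))) (XT.nd (nat_lit 78) (nat_lit 0) (nat_lit 0) (XT.lf (nat_lit 0) (nat_lit 12293957052) (nat_lit 1140) (nat_lit 1793036359) (nat_lit 1216) (nat_lit 2949418146) (nat_lit 220) (nat_lit 5) (nat_lit 235) (nat_lit 5) (nat_lit 236) (nat_lit 5) (nat_lit 332) (nat_lit 326) (nat_lit 242)) (XT.nd (nat_lit 78) (nat_lit 0) (nat_lit 76) (XT.lf (nat_lit 76) (nat_lit 12281537348) (nat_lit 0) (nat_lit 2005891066) (nat_lit 1216) (nat_lit 3187204041) (nat_lit 221) (nat_lit 5) (nat_lit 220) (nat_lit 5) (nat_lit 236) (nat_lit 5) (nat_lit 333) (nat_lit 326) (nat_lit 241)) (XT.lf (nat_lit 76) (nat_lit 9222113970) (nat_lit 0) (nat_lit 7344723247) (nat_lit 1216) (nat_lit 1362360299) (nat_lit 222) (nat_lit 5) (nat_lit 221) (nat_lit 5) (nat_lit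 237) (nat_lit 5) (nat_lit 334) (nat_lit 326) (nat_lit 240))))))) (XT.nd (nat_lit 858) (nat_lit 4104) (nat_lit 0) (XT.nd (nat_lit 390) (nat_lit 2660) (nat_lit 0) (XT.nd (nat_lit 156) (nat_lit 1368) (nat_lit 0) (XT.nd (nat_lit 78) (nat_lit 0) (nat_lit 0) (XT.lf (nat_lit 0) (nat_lit 705899740) (nat_lit 1216) (nat_lit 12318439726) (nat_lit 1292) (nat_lit 5377121752) (nat_lit 206) (nat_lit 5) (nat_lit 222) (nat_lit 5) (nat_lit 223) (nat_lit 5) (nat_lit 335) (nat_lit 326) (nat_lit 239)) (XT.lf (nat_lit 76) (nat_lit 2848483570) (nat_lit 0) (nat_lit 171209502) (nat_lit 1292) (nat_lit 15872150016) (nat_lit 207) (nat_lit 5) (nat_lit 206) (nat_lit 5) (nat_lit 223) (nat_lit 5) (nat_lit 336) (nat_lit 326) (nat_lit 238))) (XT.nd (nat_lit 78) (nat_lit 1444) (nat_lit 0) (XT.lf (nat_lit 0) (nat_lit 5684233986) (nat_lit 1216) (nat_lit 519532861) (nat_lit 76) (nat_lit 13195943107) (nat_lit 207) (nat_lit 5) (nat_lit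 223) (nat_lit 5) (nat_lit 208) (nat_lit 5) (nat_lit 337) (nat_lit 326) (nat_lit 237)) (XT.nd (nat_lit 78) (nat_lit 608) (nat_lit 0) (XT.lf (nat_lit 0) (nat_lit 8689845404) (nat_lit 912) (nat_lit 3925692861) (nat_lit 76) (nat_lit 7311213397) (nat_lit 196) (nat_lit 5) (nat_lit 208) (nat_lit 5) (nat_lit 197) (nat_lit 5) (nat_lit 338) (nat_lit 326) (nat_lit 236)) (XT.lf (nat_lit 0) (nat_lit 12029886284) (nat_lit 684) (nat_lit 7431933747) (nat_lit 76) (nat_lit 1012816958) (nat_lit 188) (nat_lit 5) (nat_lit 197) (nat_lit 5) (nat_lit 189) (nat_lit 5) (nat_lit 339) (nat_lit 326) (nat_lit 235))))) (XT.nd (nat_lit 234) (nat_lit 988) (nat_lit 0) (XT.nd (nat_lit 78) (nat_lit 1140) (nat_lit 0) (XT.lf (nat_lit 0) (nat_lit 9941371249) (nat_lit 532) (nat_lit 5840759036) (nat_lit 608) (nat_lit 5260445507) (nat_lit 181) (nat_lit 5) (nat_lit 188) (nat_lit 5) (nat_lit 189) (nat_lit 5) (nat_lit 340) (nat_lit 326)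 (nat_lit 234)) (XT.nd (nat_lit 78) (nat_lit 608) (nat_lit 0) (XT.lf (nat_lit 0) (nat_lit 6733548941) (nat_lit 532) (nat_lit 13193979043) (nat_lit 608) (nat_lit 1705231818) (nat_lit 174) (nat_lit 5) (nat_lit 181) (nat_lit 5) (nat_lit 182) (nat_lit 5) (nat_lit 341) (nat_lit 326) (nat_lit 233)) (XT.lf (nat_lit 0) (nat_lit 2189915747) (nat_lit 608) (nat_lit 18845672318) (nat_lit 76) (nat_lit 1210241358) (nat_lit 166) (nat_lit 5) (nat_lit 174) (nat_lit 5) (nat_lit 167) (nat_lit 5) (nat_lit 342) (nat_lit 326) (nat_lit 232)))) (XT.nd (nat_lit 78) (nat_lit 988) (nat_lit 0) (XT.lf (nat_lit 0) (nat_lit 6516312259) (nat_lit 608) (nat_lit 128641424) (nat_lit 76) (nat_lit 16235952366) (nat_lit 166) (nat_lit 5) (nat_lit 174) (nat_lit 5) (nat_lit 167) (nat_lit 5) (nat_lit 343) (nat_lit 326) (nat_lit 231)) (XT.nd (nat_lit 78) (nat_lit 456) (nat_lit 0) (XT.lf (nat_lit 0) (nat_lit 11317695018) (nat_lit 608)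 (nat_lit 3730059826) (nat_lit 76) (nat_lit 8492233843) (nat_lit 159) (nat_lit 5) (nat_lit 167) (nat_lit 5) (nat_lit 160) (nat_lit 5) (nat_lit 344) (nat_lit 326) (nat_lit 230)) (XT.lf (nat_lit 0) (nat_lit 16575188199) (nat_lit 532) (nat_lit 7468084958) (nat_lit 76) (nat_lit 182282653) (nat_lit 153) (nat_lit 5) (nat_lit 160) (nat_lit 5) (nat_lit 154) (nat_lit 5) (nat_lit 345) (nat_lit 326) (nat_lit 229)))))) (XT.nd (nat_lit 468) (nat_lit 1824) (nat_lit 0) (XT.nd (nat_lit 234) (nat_lit 836) (nat_lit 0) (XT.nd (nat_lit 78) (nat_lit 988) (nat_lit 0) (XT.lf (nat_lit 0) (nat_lit 13497473232) (nat_lit 456) (nat_lit 8903788516) (nat_lit 532) (nat_lit 2534979411) (nat_lit 147) (nat_lit 5) (nat_lit 153) (nat_lit 5) (nat_lit 154) (nat_lit 5) (nat_lit 346) (nat_lit 326) (nat_lit 228)) (XT.nd (nat_lit 78) (nat_lit 456) (nat_lit 0) (XT.lf (nat_lit 0) (nat_lit 3010844252) (nat_lit 532) (nat_lit 15605500715)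 (nat_lit 76) (nat_lit 7058407822) (nat_lit 140) (nat_lit 5) (nat_lit 147) (nat_lit 5) (nat_lit 141) (nat_lit 5) (nat_lit 347) (nat_lit 326) (nat_lit 227)) (XT.lf (nat_lit 0) (nat_lit 6437583940) (nat_lit 456) (nat_lit 2601302547) (nat_lit 532) (nat_lit 17402839633) (nat_lit 134) (nat_lit 5) (nat_lit 140) (nat_lit 5) (nat_lit 141) (nat_lit 5) (nat_lit 348) (nat_lit 326) (nat_lit 226)))) (XT.nd (nat_lit 78) (nat_lit 456) (nat_lit 0) (XT.lf (nat_lit 0) (nat_lit 2562091015) (nat_lit 380) (nat_lit 13116418779) (nat_lit 456) (nat_lit 11559242212) (nat_lit 129) (nat_lit 5) (nat_lit 134) (nat_lit 5) (nat_lit 135) (nat_lit 5) (nat_lit 349) (nat_lit 326) (nat_lit 225)) (XT.nd (nat_lit 78) (nat_lit 456) (nat_lit 0) (XT.lf (nat_lit 0) (nat_lit 22905365867) (nat_lit 456) (nat_lit 1471209520) (nat_lit 76) (nat_lit 3689355072) (nat_lit 129) (nat_lit 5) (nat_lit 135) (nat_lit 5) (nat_lit 130) (nat_lit 5) (nat_lit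 350) (nat_lit 326) (nat_lit 224)) (XT.lf (nat_lit 0) (nat_lit 1874157616) (nat_lit 456) (nat_lit 5745346579) (nat_lit 76) (nat_lit 21305177071) (nat_lit 123) (nat_lit 5) (nat_lit 129) (nat_lit 5) (nat_lit 124) (nat_lit 5) (nat_lit 351) (nat_lit 326) (nat_lit 223))))) (XT.nd (nat_lit 234) (nat_lit 760) (nat_lit 0) (XT.nd (nat_lit 78) (nat_lit 684) (nat_lit 0) (XT.lf (nat_lit 0) (nat_lit 9444851036) (nat_lit 456) (nat_lit 10335646198) (nat_lit 76) (nat_lit 10035618399) (nat_lit 118) (nat_lit 5) (nat_lit 124) (nat_lit 5) (nat_lit 119) (nat_lit 5) (nat_lit 352) (nat_lit 326) (nat_lit 222)) (XT.nd (nat_lit 78) (nat_lit 304) (nat_lit 0) (XT.lf (nat_lit 0) (nat_lit 15548013980) (nat_lit 380) (nat_lit 2120606156) (nat_lit 456) (nat_lit 13075272748) (nat_lit 113) (nat_lit 5) (nat_lit 118) (nat_lit 5) (nat_lit 119) (nat_lit 5) (nat_lit 353) (nat_lit 326) (nat_lit 221)) (XT.lf (nat_lit 0) (nat_lit 11272982918)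 (nat_lit 304) (nat_lit 15393091606) (nat_lit 380) (nat_lit 5041116614) (nat_lit 109) (nat_lit 5) (nat_lit 113) (nat_lit 5) (nat_lit 114) (nat_lit 5) (nat_lit 354) (nat_lit 326) (nat_lit 220)))) (XT.nd (nat_lit 78) (nat_lit 304) (nat_lit 0) (XT.lf (nat_lit 0) (nat_lit 3592130135) (nat_lit 456) (nat_lit 26011373435) (nat_lit 76) (nat_lit 3106269478) (nat_lit 103) (nat_lit 5) (nat_lit 109) (nat_lit 5) (nat_lit 104) (nat_lit 5) (nat_lit 355) (nat_lit 326) (nat_lit 219)) (XT.nd (nat_lit 78) (nat_lit 0) (nat_lit 0) (XT.lf (nat_lit 0) (nat_lit 1667993238) (nat_lit 304) (nat_lit 11259036334) (nat_lit 380) (nat_lit 20822735872) (nat_lit 99) (nat_lit 5) (nat_lit 103) (nat_lit 5) (nat_lit 104) (nat_lit 5) (nat_lit 356) (nat_lit 326) (nat_lit 218)) (XT.lf (nat_lit 0) (nat_lit 23065786064) (nat_lit 380) (nat_lit 3652967811) (nat_lit 76) (nat_lit 8112896129) (nat_lit 99) (nat_lit 5) (nat_lit 104) (nat_lit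 5) (nat_lit 100) (nat_lit 5) (nat_lit 357) (nat_lit 326) (nat_lit 217))))))))
noncomputable def xc94 : XT := (XT.nd (nat_lit 1794) (nat_lit 912) (nat_lit 0) (XT.nd (nat_lit 858) (nat_lit 1824) (nat_lit 0) (XT.nd (nat_lit 390) (nat_lit 988) (nat_lit 0) (XT.nd (nat_lit 156) (nat_lit 912) (nat_lit 0) (XT.nd (nat_lit 78) (nat_lit 380) (nat_lit 0) (XT.lf (nat_lit 0) (nat_lit 26588614172) (nat_lit 304) (nat_lit 7482349946) (nat_lit 380) (nat_lit 1885885788) (nat_lit 95) (nat_lit 5) (nat_lit 99) (nat_lit 5) (nat_lit 100) (nat_lit 5) (nat_lit 358) (nat_lit 326) (nat_lit 216)) (XT.lf (nat_lit 0) (nat_lit 8684065207) (nat_lit 380) (nat_lit 15646770413) (nat_lit 76) (nat_lit 12794183390) (nat_lit 90) (nat_lit 5) (nat_lit 95) (nat_lit 5) (nat_lit 91) (nat_lit 5) (nat_lit 359) (nat_lit 326) (nat_lit 215))) (XT.nd (nat_lit 78) (nat_lit 608) (nat_lit 0) (XT.lf (nat_lit 0) (nat_lit 15915675029) (nat_lit 304)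 (nat_lit 4144882697) (nat_lit 380) (nat_lit 18280972223) (nat_lit 86) (nat_lit 5) (nat_lit 90) (nat_lit 5) (nat_lit 91) (nat_lit 5) (nat_lit 360) (nat_lit 326) (nat_lit 214)) (XT.nd (nat_lit 78) (nat_lit 380) (nat_lit 0) (XT.lf (nat_lit 0) (nat_lit 9781200096) (nat_lit 228) (nat_lit 22636312591) (nat_lit 304) (nat_lit 7189009332) (nat_lit 83) (nat_lit 5) (nat_lit 86) (nat_lit 5) (nat_lit 87) (nat_lit 5) (nat_lit 361) (nat_lit 326) (nat_lit 213)) (XT.lf (nat_lit 0) (nat_lit 3099773864) (nat_lit 304) (nat_lit 1566830584) (nat_lit 380) (nat_lit 36257997076) (nat_lit 78) (nat_lit 5) (nat_lit 82) (nat_lit 5) (nat_lit 83) (nat_lit 5) (nat_lit 362) (nat_lit 326) (nat_lit 212))))) (XT.nd (nat_lit 234) (nat_lit 456) (nat_lit 0) (XT.nd (nat_lit 78) (nat_lit 532) (nat_lit 0) (XT.lf (nat_lit 0) (nat_lit 17466879553) (nat_lit 380) (nat_lit 4291173969) (nat_lit 76) (nat_lit 20533383478) (nat_lit 78) (nat_lit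 5) (nat_lit 83) (nat_lit 5) (nat_lit 79) (nat_lit 5) (nat_lit 363) (nat_lit 326) (nat_lit 211)) (XT.nd (nat_lit 78) (nat_lit 304) (nat_lit 0) (XT.lf (nat_lit 0) (nat_lit 31220523171) (nat_lit 304) (nat_lit 12214299048) (nat_lit 76) (nat_lit 282395345) (nat_lit 75) (nat_lit 5) (nat_lit 79) (nat_lit 5) (nat_lit 76) (nat_lit 5) (nat_lit 364) (nat_lit 326) (nat_lit 210)) (XT.lf (nat_lit 0) (nat_lit 932693413) (nat_lit 304) (nat_lit 21005299542) (nat_lit 76) (nat_lit 23261352839) (nat_lit 71) (nat_lit 5) (nat_lit 75) (nat_lit 5) (nat_lit 72) (nat_lit 5) (nat_lit 365) (nat_lit 326) (nat_lit 209)))) (XT.nd (nat_lit 78) (nat_lit 228) (nat_lit 0) (XT.lf (nat_lit 0) (nat_lit 15061672805) (nat_lit 304) (nat_lit 30652628093) (nat_lit 76) (nat_lit 1028973944) (nat_lit 68) (nat_lit 5) (nat_lit 72) (nat_lit 5) (nat_lit 69) (nat_lit 5) (nat_lit 366) (nat_lit 326) (nat_lit 208)) (XT.nd (nat_lit 78) (nat_lit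 0) (nat_lit 0) (XT.lf (nat_lit 0) (nat_lit 7024065757) (nat_lit 228) (nat_lit 23372893735) (nat_lit 304) (nat_lit 17952448416) (nat_lit 65) (nat_lit 5) (nat_lit 68) (nat_lit 5) (nat_lit 69) (nat_lit 5) (nat_lit 367) (nat_lit 326) (nat_lit 207)) (XT.lf (nat_lit 0) (nat_lit 46811243515) (nat_lit 304) (nat_lit 2816881060) (nat_lit 76) (nat_lit 398359226) (nat_lit 65) (nat_lit 5) (nat_lit 69) (nat_lit 5) (nat_lit 66) (nat_lit 5) (nat_lit 368) (nat_lit 326) (nat_lit 206)))))) (XT.nd (nat_lit 468) (nat_lit 760) (nat_lit 0) (XT.nd (nat_lit 234) (nat_lit 456) (nat_lit 0) (XT.nd (nat_lit 78) (nat_lit 380) (nat_lit 0) (XT.lf (nat_lit 0) (nat_lit 12620876430) (nat_lit 228) (nat_lit 13779599193) (nat_lit 76) (nat_lit 25365367744) (nat_lit 62) (nat_lit 5) (nat_lit 65) (nat_lit 5) (nat_lit 63) (nat_lit 5) (nat_lit 369) (nat_lit 326) (nat_lit 205)) (XT.nd (nat_lit 78) (nat_lit 152) (nat_lit 0) (XT.lf (nat_lit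 0) (nat_lit 27795788067) (nat_lit 228) (nat_lit 1676853403) (nat_lit 304) (nat_lit 24109867047) (nat_lit 59) (nat_lit 5) (nat_lit 62) (nat_lit 5) (nat_lit 63) (nat_lit 5) (nat_lit 370) (nat_lit 326) (nat_lit 204)) (XT.lf (nat_lit 0) (nat_lit 16325077500) (nat_lit 152) (nat_lit 31368945458) (nat_lit 228) (nat_lit 7780175770) (nat_lit 57) (nat_lit 5) (nat_lit 59) (nat_lit 5) (nat_lit 60) (nat_lit 5) (nat_lit 371) (nat_lit 326) (nat_lit 203)))) (XT.nd (nat_lit 78) (nat_lit 152) (nat_lit 0) (XT.lf (nat_lit 0) (nat_lit 3578441921) (nat_lit 228) (nat_lit 5917769042) (nat_lit 304) (nat_lit 47952174727) (nat_lit 53) (nat_lit 5) (nat_lit 56) (nat_lit 5) (nat_lit 57) (nat_lit 5) (nat_lit 372) (nat_lit 326) (nat_lit 202)) (XT.nd (nat_lit 78) (nat_lit 152) (nat_lit 0) (XT.lf (nat_lit 0) (nat_lit 28077742257) (nat_lit 304) (nat_lit 10541692762) (nat_lit 76) (nat_lit 20881471438) (nat_lit 53) (nat_lit 5)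 (nat_lit 57) (nat_lit 5) (nat_lit 54) (nat_lit 5) (nat_lit 373) (nat_lit 326) (nat_lit 201)) (XT.lf (nat_lit 0) (nat_lit 35577516699) (nat_lit 152) (nat_lit 12406593791) (nat_lit 228) (nat_lit 13660072184) (nat_lit 51) (nat_lit 5) (nat_lit 53) (nat_lit 5) (nat_lit 54) (nat_lit 5) (nat_lit 374) (nat_lit 326) (nat_lit 200))))) (XT.nd (nat_lit 234) (nat_lit 380) (nat_lit 0) (XT.nd (nat_lit 78) (nat_lit 152) (nat_lit 0) (XT.lf (nat_lit 0) (nat_lit 5345095189) (nat_lit 228) (nat_lit 43356690211) (nat_lit 76) (nat_lit 15177860514) (nat_lit 48) (nat_lit 5) (nat_lit 51) (nat_lit 5) (nat_lit 49) (nat_lit 5) (nat_lit 375) (nat_lit 326) (nat_lit 199)) (XT.nd (nat_lit 78) (nat_lit 0) (nat_lit 0) (XT.lf (nat_lit 0) (nat_lit 3562041677) (nat_lit 152) (nat_lit 21883366037) (nat_lit 228) (nat_lit 40764597172) (nat_lit 46) (nat_lit 5) (nat_lit 48) (nat_lit 5) (nat_lit 49) (nat_lit 5) (nat_lit 376) (nat_lit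 326) (nat_lit 198)) (XT.lf (nat_lit 0) (nat_lit 47056263840) (nat_lit 228) (nat_lit 14985010575) (nat_lit 76) (nat_lit 6600443416) (nat_lit 46) (nat_lit 5) (nat_lit 49) (nat_lit 5) (nat_lit 47) (nat_lit 5) (nat_lit 377) (nat_lit 326) (nat_lit 197)))) (XT.nd (nat_lit 78) (nat_lit 228) (nat_lit 0) (XT.lf (nat_lit 0) (nat_lit 35524368432) (nat_lit 152) (nat_lit 34780375752) (nat_lit 228) (nat_lit 873561574) (nat_lit 44) (nat_lit 5) (nat_lit 46) (nat_lit 5) (nat_lit 47) (nat_lit 5) (nat_lit 378) (nat_lit 326) (nat_lit 196)) (XT.nd (nat_lit 78) (nat_lit 0) (nat_lit 0) (XT.lf (nat_lit 0) (nat_lit 15119213459) (nat_lit 152) (nat_lit 5643346151) (nat_lit 228) (nat_lit 53064266736) (nat_lit 41) (nat_lit 5) (nat_lit 43) (nat_lit 5) (nat_lit 44) (nat_lit 5) (nat_lit 379) (nat_lit 326) (nat_lit 195)) (XT.lf (nat_lit 0) (nat_lit 44068055042) (nat_lit 228) (nat_lit 7681730367) (nat_lit 76) (nat_lit 24839560601)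 (nat_lit 41) (nat_lit 5) (nat_lit 44) (nat_lit 5) (nat_lit 42) (nat_lit 5) (nat_lit 380) (nat_lit 326) (nat_lit 194))))))) (XT.nd (nat_lit 42900) (nat_lit 0) (nat_lit 11552) (XT.nd (nat_lit 390) (nat_lit 228) (nat_lit 0) (XT.nd (nat_lit 156) (nat_lit 304) (nat_lit 0) (XT.nd (nat_lit 78) (nat_lit 228) (nat_lit 0) (XT.lf (nat_lit 0) (nat_lit 46742251935) (nat_lit 152) (nat_lit 22298055030) (nat_lit 228) (nat_lit 10434641731) (nat_lit 39) (nat_lit 5) (nat_lit 41) (nat_lit 5) (nat_lit 42) (nat_lit 5) (nat_lit 381) (nat_lit 326) (nat_lit 193)) (XT.lf (nat_lit 0) (nat_lit 12879498009) (nat_lit 228) (nat_lit 60739497878) (nat_lit 76) (nat_lit 8870995947) (nat_lit 36) (nat_lit 5) (nat_lit 39) (nat_lit 5) (nat_lit 37) (nat_lit 5) (nat_lit 382) (nat_lit 326) (nat_lit 192))) (XT.nd (nat_lit 78) (nat_lit 304) (nat_lit 0) (XT.lf (nat_lit 0) (nat_lit 37706320301) (nat_lit 228) (nat_lit 6345602001) (nat_lit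 76) (nat_lit 41583883341) (nat_lit 36) (nat_lit 5) (nat_lit 39) (nat_lit 5) (nat_lit 37) (nat_lit 5) (nat_lit 383) (nat_lit 326) (nat_lit 191)) (XT.nd (nat_lit 78) (nat_lit 152) (nat_lit 0) (XT.lf (nat_lit 0) (nat_lit 51770532922) (nat_lit 152) (nat_lit 12497242527) (nat_lit 228) (nat_lit 24656337191) (nat_lit 34) (nat_lit 5) (nat_lit 36) (nat_lit 5) (nat_lit 37) (nat_lit 5) (nat_lit 384) (nat_lit 326) (nat_lit 190)) (XT.lf (nat_lit 0) (nat_lit 248821528) (nat_lit 152) (nat_lit 71616974373) (nat_lit 76) (nat_lit 20497181471) (nat_lit 32) (nat_lit 5) (nat_lit 34) (nat_lit 5) (nat_lit 33) (nat_lit 5) (nat_lit 385) (nat_lit 326) (nat_lit 189))))) (XT.nd (nat_lit 42276) (nat_lit 0) (nat_lit 14212) (XT.nd (nat_lit 78) (nat_lit 228) (nat_lit 0) (XT.lf (nat_lit 0) (nat_lit 26402271676) (nat_lit 152) (nat_lit 14031561813) (nat_lit 76) (nat_lit 55517240355) (nat_lit 32) (nat_lit 5) (nat_lit 34) (nat_lit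 5) (nat_lit 33) (nat_lit 5) (nat_lit 386) (nat_lit 326) (nat_lit 188)) (XT.nd (nat_lit 78) (nat_lit 76) (nat_lit 0) (XT.lf (nat_lit 0) (nat_lit 47350015562) (nat_lit 152) (nat_lit 6964570705) (nat_lit 228) (nat_lit 45390454161) (nat_lit 30) (nat_lit 5) (nat_lit 32) (nat_lit 5) (nat_lit 33) (nat_lit 5) (nat_lit 387) (nat_lit 326) (nat_lit 187)) (XT.lf (nat_lit 0) (nat_lit 8334906870) (nat_lit 76) (nat_lit 75780596544) (nat_lit 152) (nat_lit 19516413321) (nat_lit 29) (nat_lit 5) (nat_lit 30) (nat_lit 5) (nat_lit 31) (nat_lit 4) (nat_lit 388) (nat_lit 326) (nat_lit 186)))) (XT.nd (nat_lit 78) (nat_lit 0) (nat_lit 0) (XT.lf (nat_lit 0) (nat_lit 1597170356) (nat_lit 0) (nat_lit 1597170356) (nat_lit 1140) (nat_lit 4520268814) (nat_lit 216) (nat_lit 5) (nat_lit 216) (nat_lit 3) (nat_lit 231) (nat_lit 3) (nat_lit 327) (nat_lit 327) (nat_lit 246)) (XT.nd (nat_lit 78) (nat_lit 0) (nat_lit 76) (XT.lf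 (nat_lit 0) (nat_lit 7076092375) (nat_lit 1140) (nat_lit 375959396) (nat_lit 1216) (nat_lit 8346667522) (nat_lit 216) (nat_lit 5) (nat_lit 231) (nat_lit 3) (nat_lit 232) (nat_lit 5) (nat_lit 328) (nat_lit 327) (nat_lit 245)) (XT.lf (nat_lit 0) (nat_lit 7961433541) (nat_lit 1140) (nat_lit 3957100989) (nat_lit 1216) (nat_lit 4263278791) (nat_lit 217) (nat_lit 5) (nat_lit 232) (nat_lit 5) (nat_lit 233) (nat_lit 5) (nat_lit 329) (nat_lit 327) (nat_lit 244)))))) (XT.nd (nat_lit 468) (nat_lit 2736) (nat_lit 0) (XT.nd (nat_lit 234) (nat_lit 0) (nat_lit 228) (XT.nd (nat_lit 78) (nat_lit 0) (nat_lit 76) (XT.lf (nat_lit 76) (nat_lit 8963168218) (nat_lit 0) (nat_lit 66081622) (nat_lit 1216) (nat_lit 7550690318) (nat_lit 218) (nat_lit 5) (nat_lit 217) (nat_lit 5) (nat_lit 233) (nat_lit 5) (nat_lit 330) (nat_lit 327) (nat_lit 243)) (XT.nd (nat_lit 78) (nat_lit 0) (nat_lit 76) (XT.lf (nat_lit 76) (nat_lit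 5588791417) (nat_lit 0) (nat_lit 4749689175) (nat_lit 1216) (nat_lit 6653875226) (nat_lit 219) (nat_lit 5) (nat_lit 218) (nat_lit 5) (nat_lit 234) (nat_lit 5) (nat_lit 331) (nat_lit 327) (nat_lit 242)) (XT.lf (nat_lit 76) (nat_lit 2140036993) (nat_lit 0) (nat_lit 9723287215) (nat_lit 1216) (nat_lit 5557585602) (nat_lit 220) (nat_lit 5) (nat_lit 219) (nat_lit 5) (nat_lit 235) (nat_lit 5) (nat_lit 332) (nat_lit 327) (nat_lit 241)))) (XT.nd (nat_lit 78) (nat_lit 0) (nat_lit 0) (XT.lf (nat_lit 0) (nat_lit 13633771083) (nat_lit 1140) (nat_lit 1360767834) (nat_lit 1216) (nat_lit 2871292786) (nat_lit 220) (nat_lit 5) (nat_lit 235) (nat_lit 5) (nat_lit 236) (nat_lit 5) (nat_lit 333) (nat_lit 327) (nat_lit 240)) (XT.nd (nat_lit 78) (nat_lit 0) (nat_lit 76) (XT.lf (nat_lit 76) (nat_lit 13402573817) (nat_lit 0) (nat_lit 2294686059) (nat_lit 1216) (nat_lit 2629624259) (nat_lit 221) (nat_lit 5) (nat_lit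 220) (nat_lit 5) (nat_lit 236) (nat_lit 5) (nat_lit 334) (nat_lit 327) (nat_lit 239)) (XT.lf (nat_lit 76) (nat_lit 10198271641) (nat_lit 0) (nat_lit 7862475632) (nat_lit 1216) (nat_lit 744356272) (nat_lit 222) (nat_lit 5) (nat_lit 221) (nat_lit 5) (nat_lit 237) (nat_lit 5) (nat_lit 335) (nat_lit 327) (nat_lit 238))))) (XT.nd (nat_lit 234) (nat_lit 1900) (nat_lit 0) (XT.nd (nat_lit 78) (nat_lit 0) (nat_lit 0) (XT.lf (nat_lit 0) (nat_lit 1385565683) (nat_lit 1216) (nat_lit 12399336719) (nat_lit 1292) (nat_lit 5516758167) (nat_lit 206) (nat_lit 5) (nat_lit 222) (nat_lit 5) (nat_lit 223) (nat_lit 5) (nat_lit 336) (nat_lit 327) (nat_lit 237)) (XT.nd (nat_lit 78) (nat_lit 0) (nat_lit 76) (XT.lf (nat_lit 76) (nat_lit 3510596357) (nat_lit 0) (nat_lit 278763558) (nat_lit 1292) (nat_lit 16027998118) (nat_lit 207) (nat_lit 5) (nat_lit 206) (nat_lit 5) (nat_lit 223) (nat_lit 5) (nat_lit 337) (nat_lit 327)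 (nat_lit 236)) (XT.lf (nat_lit 0) (nat_lit 6556760545) (nat_lit 1216) (nat_lit 31492928) (nat_lit 76) (nat_lit 13763300397) (nat_lit 207) (nat_lit 5) (nat_lit 223) (nat_lit 5) (nat_lit 208) (nat_lit 5) (nat_lit 338) (nat_lit 327) (nat_lit 235)))) (XT.nd (nat_lit 78) (nat_lit 1140) (nat_lit 0) (XT.lf (nat_lit 0) (nat_lit 9688804276) (nat_lit 912) (nat_lit 3604640758) (nat_lit 76) (nat_lit 7612241512) (nat_lit 196) (nat_lit 5) (nat_lit 208) (nat_lit 5) (nat_lit 197) (nat_lit 5) (nat_lit 339) (nat_lit 327) (nat_lit 234)) (XT.nd (nat_lit 78) (nat_lit 532) (nat_lit 0) (XT.lf (nat_lit 0) (nat_lit 13173414605) (nat_lit 684) (nat_lit 7283920488) (nat_lit 76) (nat_lit 1024326343) (nat_lit 188) (nat_lit 5) (nat_lit 197) (nat_lit 5) (nat_lit 189) (nat_lit 5) (nat_lit 340) (nat_lit 327) (nat_lit 233)) (XT.lf (nat_lit 0) (nat_lit 10943155243) (nat_lit 532) (nat_lit 6149156053) (nat_lit 608) (nat_lit 4986335924)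 (nat_lit 181) (nat_lit 5) (nat_lit 188) (nat_lit 5) (nat_lit 189) (nat_lit 5) (nat_lit 341) (nat_lit 327) (nat_lit 232))))))))
noncomputable def xc95 : XT := (XT.nd (nat_lit 1794) (nat_lit 3496) (nat_lit 0) (XT.nd (nat_lit 858) (nat_lit 3420) (nat_lit 0) (XT.nd (nat_lit 390) (nat_lit 2280) (nat_lit 0) (XT.nd (nat_lit 156) (nat_lit 988) (nat_lit 0) (XT.nd (nat_lit 78) (nat_lit 608) (nat_lit 0) (XT.lf (nat_lit 0) (nat_lit 7576224079) (nat_lit 532) (nat_lit 13848655924) (nat_lit 608) (nat_lit 1274083638) (nat_lit 174) (nat_lit 5) (nat_lit 181) (nat_lit 5) (nat_lit 182) (nat_lit 5) (nat_lit 342) (nat_lit 327) (nat_lit 231)) (XT.lf (nat_lit 0) (nat_lit 2786596032) (nat_lit 608) (nat_lit 19271447424) (nat_lit 76) (nat_lit 1285087531) (nat_lit 166) (nat_lit 5) (nat_lit 174) (nat_lit 5) (nat_lit 167) (nat_lit 5) (nat_lit 343) (nat_lit 327) (nat_lit 230))) (XT.nd (nat_lit 78) (nat_lit 456) (nat_lit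 0) (XT.lf (nat_lit 0) (nat_lit 363941173) (nat_lit 532) (nat_lit 6945670360) (nat_lit 608) (nat_lit 16700958765) (nat_lit 159) (nat_lit 5) (nat_lit 166) (nat_lit 5) (nat_lit 167) (nat_lit 5) (nat_lit 344) (nat_lit 327) (nat_lit 229)) (XT.nd (nat_lit 78) (nat_lit 456) (nat_lit 0) (XT.lf (nat_lit 0) (nat_lit 12330364643) (nat_lit 608) (nat_lit 3425317607) (nat_lit 76) (nat_lit 8947562759) (nat_lit 159) (nat_lit 5) (nat_lit 167) (nat_lit 5) (nat_lit 160) (nat_lit 5) (nat_lit 345) (nat_lit 327) (nat_lit 228)) (XT.lf (nat_lit 0) (nat_lit 17834496245) (nat_lit 532) (nat_lit 7351551602) (nat_lit 76) (nat_lit 237545899) (nat_lit 153) (nat_lit 5) (nat_lit 160) (nat_lit 5) (nat_lit 154) (nat_lit 5) (nat_lit 346) (nat_lit 327) (nat_lit 227))))) (XT.nd (nat_lit 234) (nat_lit 836) (nat_lit 0) (XT.nd (nat_lit 78) (nat_lit 988) (nat_lit 0) (XT.lf (nat_lit 0) (nat_lit 14648240535) (nat_lit 456) (nat_lit 9287705202)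 (nat_lit 532) (nat_lit 2234360857) (nat_lit 147) (nat_lit 5) (nat_lit 153) (nat_lit 5) (nat_lit 154) (nat_lit 5) (nat_lit 347) (nat_lit 327) (nat_lit 226)) (XT.nd (nat_lit 78) (nat_lit 456) (nat_lit 0) (XT.lf (nat_lit 0) (nat_lit 3565629377) (nat_lit 532) (nat_lit 15903384357) (nat_lit 76) (nat_lit 7477064621) (nat_lit 140) (nat_lit 5) (nat_lit 147) (nat_lit 5) (nat_lit 141) (nat_lit 5) (nat_lit 348) (nat_lit 327) (nat_lit 225)) (XT.lf (nat_lit 0) (nat_lit 7228026878) (nat_lit 456) (nat_lit 2652301304) (nat_lit 532) (nat_lit 17871528098) (nat_lit 134) (nat_lit 5) (nat_lit 140) (nat_lit 5) (nat_lit 141) (nat_lit 5) (nat_lit 349) (nat_lit 327) (nat_lit 224)))) (XT.nd (nat_lit 78) (nat_lit 456) (nat_lit 0) (XT.lf (nat_lit 0) (nat_lit 3156203199) (nat_lit 380) (nat_lit 13682385355) (nat_lit 456) (nat_lit 11749508145) (nat_lit 129) (nat_lit 5) (nat_lit 134) (nat_lit 5) (nat_lit 135) (nat_lit 5)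 (nat_lit 350) (nat_lit 327) (nat_lit 223)) (XT.nd (nat_lit 78) (nat_lit 456) (nat_lit 0) (XT.lf (nat_lit 0) (nat_lit 24409697975) (nat_lit 456) (nat_lit 1090782562) (nat_lit 76) (nat_lit 3957728522) (nat_lit 129) (nat_lit 5) (nat_lit 135) (nat_lit 5) (nat_lit 130) (nat_lit 5) (nat_lit 351) (nat_lit 327) (nat_lit 222)) (XT.lf (nat_lit 0) (nat_lit 2317727435) (nat_lit 456) (nat_lit 5584449524) (nat_lit 76) (nat_lit 22458015042) (nat_lit 123) (nat_lit 5) (nat_lit 129) (nat_lit 5) (nat_lit 124) (nat_lit 5) (nat_lit 352) (nat_lit 327) (nat_lit 221)))))) (XT.nd (nat_lit 468) (nat_lit 1596) (nat_lit 0) (XT.nd (nat_lit 234) (nat_lit 760) (nat_lit 0) (XT.nd (nat_lit 78) (nat_lit 684) (nat_lit 0) (XT.lf (nat_lit 0) (nat_lit 10255421352) (nat_lit 456) (nat_lit 10407713814) (nat_lit 76) (nat_lit 10633419777) (nat_lit 118) (nat_lit 5) (nat_lit 124) (nat_lit 5) (nat_lit 119) (nat_lit 5) (nat_lit 353) (nat_lit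 327) (nat_lit 220)) (XT.nd (nat_lit 78) (nat_lit 304) (nat_lit 0) (XT.lf (nat_lit 0) (nat_lit 16757381716) (nat_lit 380) (nat_lit 2121038677) (nat_lit 456) (nat_lit 13392669736) (nat_lit 113) (nat_lit 5) (nat_lit 118) (nat_lit 5) (nat_lit 119) (nat_lit 5) (nat_lit 354) (nat_lit 327) (nat_lit 219)) (XT.lf (nat_lit 0) (nat_lit 12264941704) (nat_lit 304) (nat_lit 16050348311) (nat_lit 380) (nat_lit 4967586829) (nat_lit 109) (nat_lit 5) (nat_lit 113) (nat_lit 5) (nat_lit 114) (nat_lit 5) (nat_lit 355) (nat_lit 327) (nat_lit 218)))) (XT.nd (nat_lit 78) (nat_lit 304) (nat_lit 0) (XT.lf (nat_lit 0) (nat_lit 4080926331) (nat_lit 456) (nat_lit 26881227621) (nat_lit 76) (nat_lit 3373650367) (nat_lit 103) (nat_lit 5) (nat_lit 109) (nat_lit 5) (nat_lit 104) (nat_lit 5) (nat_lit 356) (nat_lit 327) (nat_lit 217)) (XT.nd (nat_lit 78) (nat_lit 0) (nat_lit 0) (XT.lf (nat_lit 0) (nat_lit 2169761041) (nat_lit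 304) (nat_lit 11702107991) (nat_lit 380) (nat_lit 21556257007) (nat_lit 99) (nat_lit 5) (nat_lit 103) (nat_lit 5) (nat_lit 104) (nat_lit 5) (nat_lit 357) (nat_lit 327) (nat_lit 216)) (XT.lf (nat_lit 0) (nat_lit 24504447123) (nat_lit 380) (nat_lit 3429574814) (nat_lit 76) (nat_lit 8630484617) (nat_lit 99) (nat_lit 5) (nat_lit 104) (nat_lit 5) (nat_lit 100) (nat_lit 5) (nat_lit 358) (nat_lit 327) (nat_lit 215))))) (XT.nd (nat_lit 234) (nat_lit 608) (nat_lit 0) (XT.nd (nat_lit 78) (nat_lit 684) (nat_lit 0) (XT.lf (nat_lit 0) (nat_lit 28312447173) (nat_lit 304) (nat_lit 7737639011) (nat_lit 380) (nat_lit 1696182051) (nat_lit 95) (nat_lit 5) (nat_lit 99) (nat_lit 5) (nat_lit 100) (nat_lit 5) (nat_lit 359) (nat_lit 327) (nat_lit 214)) (XT.nd (nat_lit 78) (nat_lit 304) (nat_lit 0) (XT.lf (nat_lit 0) (nat_lit 9388351167) (nat_lit 380) (nat_lit 16033418626) (nat_lit 76) (nat_lit 13551252564) (nat_lit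 90) (nat_lit 5) (nat_lit 95) (nat_lit 5) (nat_lit 91) (nat_lit 5) (nat_lit 360) (nat_lit 327) (nat_lit 213)) (XT.lf (nat_lit 0) (nat_lit 17095806705) (nat_lit 304) (nat_lit 4228695113) (nat_lit 380) (nat_lit 18926138930) (nat_lit 86) (nat_lit 5) (nat_lit 90) (nat_lit 5) (nat_lit 91) (nat_lit 5) (nat_lit 361) (nat_lit 327) (nat_lit 212)))) (XT.nd (nat_lit 78) (nat_lit 380) (nat_lit 0) (XT.lf (nat_lit 0) (nat_lit 10650175642) (nat_lit 228) (nat_lit 23641486286) (nat_lit 304) (nat_lit 7287456353) (nat_lit 83) (nat_lit 5) (nat_lit 86) (nat_lit 5) (nat_lit 87) (nat_lit 5) (nat_lit 362) (nat_lit 327) (nat_lit 211)) (XT.nd (nat_lit 78) (nat_lit 0) (nat_lit 0) (XT.lf (nat_lit 0) (nat_lit 3628859153) (nat_lit 304) (nat_lit 1518395684) (nat_lit 380) (nat_lit 37816035447) (nat_lit 78) (nat_lit 5) (nat_lit 82) (nat_lit 5) (nat_lit 83) (nat_lit 5) (nat_lit 363) (nat_lit 327) (nat_lit 210)) (XT.lf (nat_lit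 0) (nat_lit 18576927168) (nat_lit 380) (nat_lit 4143428610) (nat_lit 76) (nat_lit 21678436047) (nat_lit 78) (nat_lit 5) (nat_lit 83) (nat_lit 5) (nat_lit 79) (nat_lit 5) (nat_lit 364) (nat_lit 327) (nat_lit 209))))))) (XT.nd (nat_lit 858) (nat_lit 1444) (nat_lit 0) (XT.nd (nat_lit 390) (nat_lit 1064) (nat_lit 0) (XT.nd (nat_lit 156) (nat_lit 456) (nat_lit 0) (XT.nd (nat_lit 78) (nat_lit 304) (nat_lit 0) (XT.lf (nat_lit 0) (nat_lit 33011547572) (nat_lit 304) (nat_lit 12467303824) (nat_lit 76) (nat_lit 417216704) (nat_lit 75) (nat_lit 5) (nat_lit 79) (nat_lit 5) (nat_lit 76) (nat_lit 5) (nat_lit 365) (nat_lit 327) (nat_lit 208)) (XT.lf (nat_lit 0) (nat_lit 1204018921) (nat_lit 304) (nat_lit 21703534168) (nat_lit 76) (nat_lit 24544917194) (nat_lit 71) (nat_lit 5) (nat_lit 75) (nat_lit 5) (nat_lit 72) (nat_lit 5) (nat_lit 366) (nat_lit 327) (nat_lit 207))) (XT.nd (nat_lit 78) (nat_lit 228) (nat_lit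 0) (XT.lf (nat_lit 0) (nat_lit 16033232970) (nat_lit 304) (nat_lit 31837902784) (nat_lit 76) (nat_lit 1202651317) (nat_lit 68) (nat_lit 5) (nat_lit 72) (nat_lit 5) (nat_lit 69) (nat_lit 5) (nat_lit 367) (nat_lit 327) (nat_lit 206)) (XT.nd (nat_lit 78) (nat_lit 0) (nat_lit 0) (XT.lf (nat_lit 0) (nat_lit 7712668848) (nat_lit 228) (nat_lit 24415454794) (nat_lit 304) (nat_lit 18632322591) (nat_lit 65) (nat_lit 5) (nat_lit 68) (nat_lit 5) (nat_lit 69) (nat_lit 5) (nat_lit 368) (nat_lit 327) (nat_lit 205)) (XT.lf (nat_lit 0) (nat_lit 49354213469) (nat_lit 304) (nat_lit 2631420465) (nat_lit 76) (nat_lit 536013647) (nat_lit 65) (nat_lit 5) (nat_lit 69) (nat_lit 5) (nat_lit 66) (nat_lit 5) (nat_lit 369) (nat_lit 327) (nat_lit 204))))) (XT.nd (nat_lit 234) (nat_lit 456) (nat_lit 0) (XT.nd (nat_lit 78) (nat_lit 380) (nat_lit 0) (XT.lf (nat_lit 0) (nat_lit 13449757406) (nat_lit 228) (nat_lit 14147609081)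 (nat_lit 76) (nat_lit 26750752402) (nat_lit 62) (nat_lit 5) (nat_lit 65) (nat_lit 5) (nat_lit 63) (nat_lit 5) (nat_lit 370) (nat_lit 327) (nat_lit 203)) (XT.nd (nat_lit 78) (nat_lit 152) (nat_lit 0) (XT.lf (nat_lit 0) (nat_lit 29497346999) (nat_lit 228) (nat_lit 1640339801) (nat_lit 304) (nat_lit 25118127095) (nat_lit 59) (nat_lit 5) (nat_lit 62) (nat_lit 5) (nat_lit 63) (nat_lit 5) (nat_lit 371) (nat_lit 327) (nat_lit 202)) (XT.lf (nat_lit 0) (nat_lit 17448693535) (nat_lit 152) (nat_lit 32816385309) (nat_lit 228) (nat_lit 7977165226) (nat_lit 57) (nat_lit 5) (nat_lit 59) (nat_lit 5) (nat_lit 60) (nat_lit 5) (nat_lit 372) (nat_lit 327) (nat_lit 201)))) (XT.nd (nat_lit 78) (nat_lit 152) (nat_lit 0) (XT.lf (nat_lit 0) (nat_lit 4059625025) (nat_lit 228) (nat_lit 6093608998) (nat_lit 304) (nat_lit 50162036197) (nat_lit 53) (nat_lit 5) (nat_lit 56) (nat_lit 5) (nat_lit 57) (nat_lit 5) (nat_lit 373)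 (nat_lit 327) (nat_lit 200)) (XT.nd (nat_lit 78) (nat_lit 152) (nat_lit 0) (XT.lf (nat_lit 0) (nat_lit 29656264124) (nat_lit 304) (nat_lit 10776737607) (nat_lit 76) (nat_lit 22037645883) (nat_lit 53) (nat_lit 5) (nat_lit 57) (nat_lit 5) (nat_lit 54) (nat_lit 5) (nat_lit 374) (nat_lit 327) (nat_lit 199)) (XT.lf (nat_lit 0) (nat_lit 37640061066) (nat_lit 152) (nat_lit 12912300558) (nat_lit 228) (nat_lit 14168896793) (nat_lit 51) (nat_lit 5) (nat_lit 53) (nat_lit 5) (nat_lit 54) (nat_lit 5) (nat_lit 375) (nat_lit 327) (nat_lit 198)))))) (XT.nd (nat_lit 468) (nat_lit 684) (nat_lit 0) (XT.nd (nat_lit 234) (nat_lit 380) (nat_lit 0) (XT.nd (nat_lit 78) (nat_lit 152) (nat_lit 0) (XT.lf (nat_lit 0) (nat_lit 5778770320) (nat_lit 228) (nat_lit 45241702051) (nat_lit 76) (nat_lit 16048105879) (nat_lit 48) (nat_lit 5) (nat_lit 51) (nat_lit 5) (nat_lit 49) (nat_lit 5) (nat_lit 376) (nat_lit 327) (nat_lit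 197)) (XT.nd (nat_lit 78) (nat_lit 0) (nat_lit 0) (XT.lf (nat_lit 0) (nat_lit 4014859377) (nat_lit 152) (nat_lit 22863955050) (nat_lit 228) (nat_lit 42636801996) (nat_lit 46) (nat_lit 5) (nat_lit 48) (nat_lit 5) (nat_lit 49) (nat_lit 5) (nat_lit 377) (nat_lit 327) (nat_lit 196)) (XT.lf (nat_lit 0) (nat_lit 49563580004) (nat_lit 228) (nat_lit 15469011076) (nat_lit 76) (nat_lit 7036525537) (nat_lit 46) (nat_lit 5) (nat_lit 49) (nat_lit 5) (nat_lit 47) (nat_lit 5) (nat_lit 378) (nat_lit 327) (nat_lit 195)))) (XT.nd (nat_lit 78) (nat_lit 228) (nat_lit 0) (XT.lf (nat_lit 0) (nat_lit 37558233542) (nat_lit 152) (nat_lit 36411370196) (nat_lit 228) (nat_lit 763079098) (nat_lit 44) (nat_lit 5) (nat_lit 46) (nat_lit 5) (nat_lit 47) (nat_lit 5) (nat_lit 379) (nat_lit 327) (nat_lit 194)) (XT.nd (nat_lit 78) (nat_lit 0) (nat_lit 0) (XT.lf (nat_lit 0) (nat_lit 16128404145) (nat_lit 152) (nat_lit 5818672244)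 (nat_lit 228) (nat_lit 55566653804) (nat_lit 41) (nat_lit 5) (nat_lit 43) (nat_lit 5) (nat_lit 44) (nat_lit 5) (nat_lit 380) (nat_lit 327) (nat_lit 193)) (XT.lf (nat_lit 0) (nat_lit 46411853815) (nat_lit 228) (nat_lit 7821397399) (nat_lit 76) (nat_lit 26181306591) (nat_lit 41) (nat_lit 5) (nat_lit 44) (nat_lit 5) (nat_lit 42) (nat_lit 5) (nat_lit 381) (nat_lit 327) (nat_lit 192))))) (XT.nd (nat_lit 234) (nat_lit 304) (nat_lit 0) (XT.nd (nat_lit 78) (nat_lit 228) (nat_lit 0) (XT.lf (nat_lit 0) (nat_lit 49316777782) (nat_lit 152) (nat_lit 23311537188) (nat_lit 228) (nat_lit 10816259832) (nat_lit 39) (nat_lit 5) (nat_lit 41) (nat_lit 5) (nat_lit 42) (nat_lit 5) (nat_lit 382) (nat_lit 327) (nat_lit 191)) (XT.nd (nat_lit 78) (nat_lit 0) (nat_lit 0) (XT.lf (nat_lit 0) (nat_lit 13657516914) (nat_lit 228) (nat_lit 63540102549) (nat_lit 76) (nat_lit 9412812225) (nat_lit 36) (nat_lit 5) (nat_lit 39)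 (nat_lit 5) (nat_lit 37) (nat_lit 5) (nat_lit 383) (nat_lit 327) (nat_lit 190)) (XT.lf (nat_lit 0) (nat_lit 39719297273) (nat_lit 228) (nat_lit 6437767604) (nat_lit 76) (nat_lit 43756664633) (nat_lit 36) (nat_lit 5) (nat_lit 39) (nat_lit 5) (nat_lit 37) (nat_lit 5) (nat_lit 384) (nat_lit 327) (nat_lit 189)))) (XT.nd (nat_lit 78) (nat_lit 152) (nat_lit 0) (XT.lf (nat_lit 0) (nat_lit 54577721204) (nat_lit 152) (nat_lit 13027126791) (nat_lit 228) (nat_lit 25761724920) (nat_lit 34) (nat_lit 5) (nat_lit 36) (nat_lit 5) (nat_lit 37) (nat_lit 5) (nat_lit 385) (nat_lit 327) (nat_lit 188)) (XT.nd (nat_lit 78) (nat_lit 0) (nat_lit 0) (XT.lf (nat_lit 0) (nat_lit 383222190) (nat_lit 152) (nat_lit 74980218710) (nat_lit 76) (nat_lit 21613994334) (nat_lit 32) (nat_lit 5) (nat_lit 34) (nat_lit 5) (nat_lit 33) (nat_lit 5) (nat_lit 386) (nat_lit 327) (nat_lit 187)) (XT.lf (nat_lit 0) (nat_lit 27838537246) (nat_lit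 152) (nat_lit 14525897635) (nat_lit 76) (nat_lit 58380677410) (nat_lit 32) (nat_lit 5) (nat_lit 34) (nat_lit 5) (nat_lit 33) (nat_lit 5) (nat_lit 387) (nat_lit 327) (nat_lit 186))))))))
noncomputable def xc96 : XT := (XT.nd (nat_lit 43836) (nat_lit 0) (nat_lit 2432) (XT.nd (nat_lit 42978) (nat_lit 0) (nat_lit 8892) (XT.nd (nat_lit 42510) (nat_lit 0) (nat_lit 13376) (XT.nd (nat_lit 42276) (nat_lit 0) (nat_lit 14136) (XT.nd (nat_lit 42198) (nat_lit 0) (nat_lit 14136) (XT.lf (nat_lit 0) (nat_lit 49918818051) (nat_lit 152) (nat_lit 7224053505) (nat_lit 228) (nat_lit 47544014991) (nat_lit 30) (nat_lit 5) (nat_lit 32) (nat_lit 5) (nat_lit 33) (nat_lit 5) (nat_lit 388) (nat_lit 327) (nat_lit 185)) (XT.lf (nat_lit 0) (nat_lit 1896480202) (nat_lit 0) (nat_lit 1896480202) (nat_lit 1140) (nat_lit 4293819336) (nat_lit 216) (nat_lit 5) (nat_lit 216) (nat_lit 3) (nat_lit 231) (nat_lit 3) (nat_lit 328) (nat_lit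 328) (nat_lit 244))) (XT.nd (nat_lit 78) (nat_lit 0) (nat_lit 76) (XT.lf (nat_lit 76) (nat_lit 54148974) (nat_lit 0) (nat_lit 8208255493) (nat_lit 1216) (nat_lit 8300526643) (nat_lit 217) (nat_lit 5) (nat_lit 216) (nat_lit 5) (nat_lit 232) (nat_lit 5) (nat_lit 329) (nat_lit 328) (nat_lit 243)) (XT.nd (nat_lit 78) (nat_lit 0) (nat_lit 0) (XT.lf (nat_lit 0) (nat_lit 9152580031) (nat_lit 1140) (nat_lit 3691858772) (nat_lit 1216) (nat_lit 4121959679) (nat_lit 217) (nat_lit 5) (nat_lit 232) (nat_lit 5) (nat_lit 233) (nat_lit 5) (nat_lit 330) (nat_lit 328) (nat_lit 242)) (XT.lf (nat_lit 76) (nat_lit 9861149306) (nat_lit 0) (nat_lit 379196343) (nat_lit 1216) (nat_lit 7145123222) (nat_lit 218) (nat_lit 5) (nat_lit 217) (nat_lit 5) (nat_lit 233) (nat_lit 5) (nat_lit 331) (nat_lit 328) (nat_lit 241))))) (XT.nd (nat_lit 234) (nat_lit 912) (nat_lit 0) (XT.nd (nat_lit 78) (nat_lit 0) (nat_lit 76) (XT.lf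 (nat_lit 76) (nat_lit 6330847892) (nat_lit 0) (nat_lit 5249627712) (nat_lit 1216) (nat_lit 6239098928) (nat_lit 219) (nat_lit 5) (nat_lit 218) (nat_lit 5) (nat_lit 234) (nat_lit 5) (nat_lit 332) (nat_lit 328) (nat_lit 240)) (XT.nd (nat_lit 78) (nat_lit 0) (nat_lit 76) (XT.lf (nat_lit 76) (nat_lit 2720602491) (nat_lit 0) (nat_lit 10428581171) (nat_lit 1216) (nat_lit 5121374700) (nat_lit 220) (nat_lit 5) (nat_lit 219) (nat_lit 5) (nat_lit 235) (nat_lit 5) (nat_lit 333) (nat_lit 328) (nat_lit 239)) (XT.lf (nat_lit 0) (nat_lit 14973161385) (nat_lit 1140) (nat_lit 955409088) (nat_lit 1216) (nat_lit 2810234961) (nat_lit 220) (nat_lit 5) (nat_lit 235) (nat_lit 5) (nat_lit 236) (nat_lit 5) (nat_lit 334) (nat_lit 328) (nat_lit 238)))) (XT.nd (nat_lit 78) (nat_lit 1064) (nat_lit 0) (XT.lf (nat_lit 76) (nat_lit 14532529812) (nat_lit 0) (nat_lit 2580395818) (nat_lit 1216) (nat_lit 2110819772) (nat_lit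 221) (nat_lit 5) (nat_lit 220) (nat_lit 5) (nat_lit 236) (nat_lit 5) (nat_lit 335) (nat_lit 328) (nat_lit 237)) (XT.nd (nat_lit 78) (nat_lit 1140) (nat_lit 0) (XT.lf (nat_lit 76) (nat_lit 11175352545) (nat_lit 0) (nat_lit 8392122064) (nat_lit 1216) (nat_lit 159241168) (nat_lit 222) (nat_lit 5) (nat_lit 221) (nat_lit 5) (nat_lit 237) (nat_lit 5) (nat_lit 336) (nat_lit 328) (nat_lit 236)) (XT.lf (nat_lit 0) (nat_lit 2039307419) (nat_lit 1216) (nat_lit 12534020115) (nat_lit 1292) (nat_lit 5675390024) (nat_lit 206) (nat_lit 5) (nat_lit 222) (nat_lit 5) (nat_lit 223) (nat_lit 5) (nat_lit 337) (nat_lit 328) (nat_lit 235)))))) (XT.nd (nat_lit 390) (nat_lit 2584) (nat_lit 0) (XT.nd (nat_lit 156) (nat_lit 1140) (nat_lit 0) (XT.nd (nat_lit 78) (nat_lit 760) (nat_lit 0) (XT.lf (nat_lit 76) (nat_lit 4157499063) (nat_lit 0) (nat_lit 382491831) (nat_lit 1292) (nat_lit 16250931449) (nat_lit 207) (nat_lit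 5) (nat_lit 206) (nat_lit 5) (nat_lit 223) (nat_lit 5) (nat_lit 338) (nat_lit 328) (nat_lit 234)) (XT.lf (nat_lit 0) (nat_lit 441781357) (nat_lit 836) (nat_lit 6980682807) (nat_lit 912) (nat_lit 13930085048) (nat_lit 196) (nat_lit 5) (nat_lit 207) (nat_lit 5) (nat_lit 208) (nat_lit 5) (nat_lit 339) (nat_lit 328) (nat_lit 233))) (XT.nd (nat_lit 78) (nat_lit 1140) (nat_lit 0) (XT.lf (nat_lit 0) (nat_lit 10685232338) (nat_lit 912) (nat_lit 3315633116) (nat_lit 76) (nat_lit 7934320658) (nat_lit 196) (nat_lit 5) (nat_lit 208) (nat_lit 5) (nat_lit 197) (nat_lit 5) (nat_lit 340) (nat_lit 328) (nat_lit 232)) (XT.nd (nat_lit 78) (nat_lit 532) (nat_lit 0) (XT.lf (nat_lit 0) (nat_lit 14323726158) (nat_lit 684) (nat_lit 7176814974) (nat_lit 76) (nat_lit 1040049270) (nat_lit 188) (nat_lit 5) (nat_lit 197) (nat_lit 5) (nat_lit 189) (nat_lit 5) (nat_lit 341) (nat_lit 328) (nat_lit 231)) (XT.lf (nat_lit 0)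 (nat_lit 11948104780) (nat_lit 532) (nat_lit 6471452010) (nat_lit 608) (nat_lit 4748458291) (nat_lit 181) (nat_lit 5) (nat_lit 188) (nat_lit 5) (nat_lit 189) (nat_lit 5) (nat_lit 342) (nat_lit 328) (nat_lit 230))))) (XT.nd (nat_lit 234) (nat_lit 912) (nat_lit 0) (XT.nd (nat_lit 78) (nat_lit 1140) (nat_lit 0) (XT.lf (nat_lit 0) (nat_lit 8413990105) (nat_lit 532) (nat_lit 14536533553) (nat_lit 608) (nat_lit 869388935) (nat_lit 174) (nat_lit 5) (nat_lit 181) (nat_lit 5) (nat_lit 182) (nat_lit 5) (nat_lit 343) (nat_lit 328) (nat_lit 229)) (XT.nd (nat_lit 78) (nat_lit 532) (nat_lit 0) (XT.lf (nat_lit 0) (nat_lit 3367816535) (nat_lit 608) (nat_lit 19766531352) (nat_lit 76) (nat_lit 1362343363) (nat_lit 166) (nat_lit 5) (nat_lit 174) (nat_lit 5) (nat_lit 167) (nat_lit 5) (nat_lit 344) (nat_lit 328) (nat_lit 228)) (XT.lf (nat_lit 0) (nat_lit 837197548) (nat_lit 532) (nat_lit 7263117156) (nat_lit 608)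 (nat_lit 17097704034) (nat_lit 159) (nat_lit 5) (nat_lit 166) (nat_lit 5) (nat_lit 167) (nat_lit 5) (nat_lit 345) (nat_lit 328) (nat_lit 227)))) (XT.nd (nat_lit 78) (nat_lit 912) (nat_lit 0) (XT.lf (nat_lit 0) (nat_lit 13352129927) (nat_lit 608) (nat_lit 3151009601) (nat_lit 76) (nat_lit 9422802325) (nat_lit 159) (nat_lit 5) (nat_lit 167) (nat_lit 5) (nat_lit 160) (nat_lit 5) (nat_lit 346) (nat_lit 328) (nat_lit 226)) (XT.nd (nat_lit 78) (nat_lit 456) (nat_lit 0) (XT.lf (nat_lit 0) (nat_lit 19116741363) (nat_lit 532) (nat_lit 7274741332) (nat_lit 76) (nat_lit 291281800) (nat_lit 153) (nat_lit 5) (nat_lit 160) (nat_lit 5) (nat_lit 154) (nat_lit 5) (nat_lit 347) (nat_lit 328) (nat_lit 225)) (XT.lf (nat_lit 0) (nat_lit 15812302123) (nat_lit 456) (nat_lit 9696514281) (nat_lit 532) (nat_lit 1958443958) (nat_lit 147) (nat_lit 5) (nat_lit 153) (nat_lit 5) (nat_lit 154) (nat_lit 5) (nat_lit 348) (nat_lit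 328) (nat_lit 224))))))) (XT.nd (nat_lit 858) (nat_lit 2812) (nat_lit 0) (XT.nd (nat_lit 390) (nat_lit 1824) (nat_lit 0) (XT.nd (nat_lit 156) (nat_lit 836) (nat_lit 0) (XT.nd (nat_lit 78) (nat_lit 456) (nat_lit 0) (XT.lf (nat_lit 0) (nat_lit 4110571084) (nat_lit 532) (nat_lit 16261010360) (nat_lit 76) (nat_lit 7910542713) (nat_lit 140) (nat_lit 5) (nat_lit 147) (nat_lit 5) (nat_lit 141) (nat_lit 5) (nat_lit 349) (nat_lit 328) (nat_lit 223)) (XT.lf (nat_lit 0) (nat_lit 8014429348) (nat_lit 456) (nat_lit 2713200841) (nat_lit 532) (nat_lit 18400974328) (nat_lit 134) (nat_lit 5) (nat_lit 140) (nat_lit 5) (nat_lit 141) (nat_lit 5) (nat_lit 350) (nat_lit 328) (nat_lit 222))) (XT.nd (nat_lit 78) (nat_lit 456) (nat_lit 0) (XT.lf (nat_lit 0) (nat_lit 3736696019) (nat_lit 380) (nat_lit 14285004067) (nat_lit 456) (nat_lit 11985331691) (nat_lit 129) (nat_lit 5) (nat_lit 134) (nat_lit 5) (nat_lit 135) (nat_lit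 5) (nat_lit 351) (nat_lit 328) (nat_lit 221)) (XT.nd (nat_lit 78) (nat_lit 456) (nat_lit 0) (XT.lf (nat_lit 0) (nat_lit 25955864337) (nat_lit 456) (nat_lit 733541705) (nat_lit 76) (nat_lit 4231719887) (nat_lit 129) (nat_lit 5) (nat_lit 135) (nat_lit 5) (nat_lit 130) (nat_lit 5) (nat_lit 352) (nat_lit 328) (nat_lit 220)) (XT.lf (nat_lit 0) (nat_lit 2750948898) (nat_lit 456) (nat_lit 5457173694) (nat_lit 76) (nat_lit 23660352635) (nat_lit 123) (nat_lit 5) (nat_lit 129) (nat_lit 5) (nat_lit 124) (nat_lit 5) (nat_lit 353) (nat_lit 328) (nat_lit 219))))) (XT.nd (nat_lit 234) (nat_lit 760) (nat_lit 0) (XT.nd (nat_lit 78) (nat_lit 684) (nat_lit 0) (XT.lf (nat_lit 0) (nat_lit 11075065675) (nat_lit 456) (nat_lit 10524730168) (nat_lit 76) (nat_lit 11252184153) (nat_lit 118) (nat_lit 5) (nat_lit 124) (nat_lit 5) (nat_lit 119) (nat_lit 5) (nat_lit 354) (nat_lit 328) (nat_lit 218)) (XT.nd (nat_lit 78) (nat_lit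 304) (nat_lit 0) (XT.lf (nat_lit 0) (nat_lit 17987057638) (nat_lit 380) (nat_lit 2131310306) (nat_lit 456) (nat_lit 13757208757) (nat_lit 113) (nat_lit 5) (nat_lit 118) (nat_lit 5) (nat_lit 119) (nat_lit 5) (nat_lit 355) (nat_lit 328) (nat_lit 217)) (XT.lf (nat_lit 0) (nat_lit 13266678259) (nat_lit 304) (nat_lit 16750917540) (nat_lit 380) (nat_lit 4920650420) (nat_lit 109) (nat_lit 5) (nat_lit 113) (nat_lit 5) (nat_lit 114) (nat_lit 5) (nat_lit 356) (nat_lit 328) (nat_lit 216)))) (XT.nd (nat_lit 78) (nat_lit 304) (nat_lit 0) (XT.lf (nat_lit 0) (nat_lit 4565416811) (nat_lit 456) (nat_lit 27834618267) (nat_lit 76) (nat_lit 3643981335) (nat_lit 103) (nat_lit 5) (nat_lit 109) (nat_lit 5) (nat_lit 104) (nat_lit 5) (nat_lit 357) (nat_lit 328) (nat_lit 215)) (XT.nd (nat_lit 78) (nat_lit 0) (nat_lit 0) (XT.lf (nat_lit 0) (nat_lit 2657721330) (nat_lit 304) (nat_lit 12178478552) (nat_lit 380) (nat_lit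 22355053387) (nat_lit 99) (nat_lit 5) (nat_lit 103) (nat_lit 5) (nat_lit 104) (nat_lit 5) (nat_lit 358) (nat_lit 328) (nat_lit 214)) (XT.lf (nat_lit 0) (nat_lit 25988510074) (nat_lit 380) (nat_lit 3232762047) (nat_lit 76) (nat_lit 9163545067) (nat_lit 99) (nat_lit 5) (nat_lit 104) (nat_lit 5) (nat_lit 100) (nat_lit 5) (nat_lit 359) (nat_lit 328) (nat_lit 213)))))) (XT.nd (nat_lit 468) (nat_lit 1216) (nat_lit 0) (XT.nd (nat_lit 234) (nat_lit 608) (nat_lit 0) (XT.nd (nat_lit 78) (nat_lit 684) (nat_lit 0) (XT.lf (nat_lit 0) (nat_lit 30085804038) (nat_lit 304) (nat_lit 8016740071) (nat_lit 380) (nat_lit 1523396572) (nat_lit 95) (nat_lit 5) (nat_lit 99) (nat_lit 5) (nat_lit 100) (nat_lit 5) (nat_lit 360) (nat_lit 328) (nat_lit 212)) (XT.nd (nat_lit 78) (nat_lit 304) (nat_lit 0) (XT.lf (nat_lit 0) (nat_lit 10102741695) (nat_lit 380) (nat_lit 16476186784) (nat_lit 76) (nat_lit 14335264176) (nat_lit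 90) (nat_lit 5) (nat_lit 95) (nat_lit 5) (nat_lit 91) (nat_lit 5) (nat_lit 361) (nat_lit 328) (nat_lit 211)) (XT.lf (nat_lit 0) (nat_lit 18299211937) (nat_lit 304) (nat_lit 4328173661) (nat_lit 380) (nat_lit 19628562064) (nat_lit 86) (nat_lit 5) (nat_lit 90) (nat_lit 5) (nat_lit 91) (nat_lit 5) (nat_lit 362) (nat_lit 328) (nat_lit 210)))) (XT.nd (nat_lit 78) (nat_lit 380) (nat_lit 0) (XT.lf (nat_lit 0) (nat_lit 11527279019) (nat_lit 228) (nat_lit 24708692632) (nat_lit 304) (nat_lit 7415091353) (nat_lit 83) (nat_lit 5) (nat_lit 86) (nat_lit 5) (nat_lit 87) (nat_lit 5) (nat_lit 363) (nat_lit 328) (nat_lit 209)) (XT.nd (nat_lit 78) (nat_lit 0) (nat_lit 0) (XT.lf (nat_lit 0) (nat_lit 4149618751) (nat_lit 304) (nat_lit 1479325510) (nat_lit 380) (nat_lit 39475670341) (nat_lit 78) (nat_lit 5) (nat_lit 82) (nat_lit 5) (nat_lit 83) (nat_lit 5) (nat_lit 364) (nat_lit 328) (nat_lit 208)) (XT.lf (nat_lit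 0) (nat_lit 19720470704) (nat_lit 380) (nat_lit 4021979582) (nat_lit 76) (nat_lit 22869735078) (nat_lit 78) (nat_lit 5) (nat_lit 83) (nat_lit 5) (nat_lit 79) (nat_lit 5) (nat_lit 365) (nat_lit 328) (nat_lit 207))))) (XT.nd (nat_lit 234) (nat_lit 456) (nat_lit 0) (XT.nd (nat_lit 78) (nat_lit 532) (nat_lit 0) (XT.lf (nat_lit 0) (nat_lit 34870740136) (nat_lit 304) (nat_lit 12766215340) (nat_lit 76) (nat_lit 547557441) (nat_lit 75) (nat_lit 5) (nat_lit 79) (nat_lit 5) (nat_lit 76) (nat_lit 5) (nat_lit 366) (nat_lit 328) (nat_lit 206)) (XT.nd (nat_lit 78) (nat_lit 228) (nat_lit 0) (XT.lf (nat_lit 0) (nat_lit 1468021079) (nat_lit 304) (nat_lit 22469408971) (nat_lit 76) (nat_lit 25881457123) (nat_lit 71) (nat_lit 5) (nat_lit 75) (nat_lit 5) (nat_lit 72) (nat_lit 5) (nat_lit 367) (nat_lit 328) (nat_lit 205)) (XT.lf (nat_lit 0) (nat_lit 17033059267) (nat_lit 304) (nat_lit 33114735145) (nat_lit 76) (nat_lit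 1373648896) (nat_lit 68) (nat_lit 5) (nat_lit 72) (nat_lit 5) (nat_lit 69) (nat_lit 5) (nat_lit 368) (nat_lit 328) (nat_lit 204)))) (XT.nd (nat_lit 78) (nat_lit 228) (nat_lit 0) (XT.lf (nat_lit 0) (nat_lit 8404333857) (nat_lit 228) (nat_lit 25521865966) (nat_lit 304) (nat_lit 19366434643) (nat_lit 65) (nat_lit 5) (nat_lit 68) (nat_lit 5) (nat_lit 69) (nat_lit 5) (nat_lit 369) (nat_lit 328) (nat_lit 203)) (XT.nd (nat_lit 78) (nat_lit 228) (nat_lit 0) (XT.lf (nat_lit 0) (nat_lit 52005513964) (nat_lit 304) (nat_lit 2467023553) (nat_lit 76) (nat_lit 669604769) (nat_lit 65) (nat_lit 5) (nat_lit 69) (nat_lit 5) (nat_lit 66) (nat_lit 5) (nat_lit 370) (nat_lit 328) (nat_lit 202)) (XT.lf (nat_lit 0) (nat_lit 14301689407) (nat_lit 228) (nat_lit 14563860219) (nat_lit 76) (nat_lit 28194517931) (nat_lit 62) (nat_lit 5) (nat_lit 65) (nat_lit 5) (nat_lit 63) (nat_lit 5) (nat_lit 371) (nat_lit 328) (nat_lit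 201))))))))
noncomputable def xc97 : XT := (XT.nd (nat_lit 43992) (nat_lit 0) (nat_lit 5852) (XT.nd (nat_lit 858) (nat_lit 684) (nat_lit 0) (XT.nd (nat_lit 390) (nat_lit 760) (nat_lit 0) (XT.nd (nat_lit 156) (nat_lit 456) (nat_lit 0) (XT.nd (nat_lit 78) (nat_lit 152) (nat_lit 0) (XT.lf (nat_lit 0) (nat_lit 31254998502) (nat_lit 228) (nat_lit 1613190104) (nat_lit 304) (nat_lit 26195137029) (nat_lit 59) (nat_lit 5) (nat_lit 62) (nat_lit 5) (nat_lit 63) (nat_lit 5) (nat_lit 372) (nat_lit 328) (nat_lit 200)) (XT.lf (nat_lit 0) (nat_lit 18599914752) (nat_lit 152) (nat_lit 34347447276) (nat_lit 228) (nat_lit 8201856291) (nat_lit 57) (nat_lit 5) (nat_lit 59) (nat_lit 5) (nat_lit 60) (nat_lit 5) (nat_lit 373) (nat_lit 328) (nat_lit 199))) (XT.nd (nat_lit 78) (nat_lit 152) (nat_lit 0) (XT.lf (nat_lit 0) (nat_lit 4536765921) (nat_lit 228) (nat_lit 6289401924) (nat_lit 304) (nat_lit 52499845701) (nat_lit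 53) (nat_lit 5) (nat_lit 56) (nat_lit 5) (nat_lit 57) (nat_lit 5) (nat_lit 374) (nat_lit 328) (nat_lit 198)) (XT.nd (nat_lit 78) (nat_lit 152) (nat_lit 0) (XT.lf (nat_lit 0) (nat_lit 31297476200) (nat_lit 304) (nat_lit 11050685786) (nat_lit 76) (nat_lit 23241206974) (nat_lit 53) (nat_lit 5) (nat_lit 57) (nat_lit 5) (nat_lit 54) (nat_lit 5) (nat_lit 375) (nat_lit 328) (nat_lit 197)) (XT.lf (nat_lit 0) (nat_lit 39779359839) (nat_lit 152) (nat_lit 13453949216) (nat_lit 228) (nat_lit 14719356146) (nat_lit 51) (nat_lit 5) (nat_lit 53) (nat_lit 5) (nat_lit 54) (nat_lit 5) (nat_lit 376) (nat_lit 328) (nat_lit 196))))) (XT.nd (nat_lit 234) (nat_lit 380) (nat_lit 0) (XT.nd (nat_lit 78) (nat_lit 152) (nat_lit 0) (XT.lf (nat_lit 0) (nat_lit 6218657019) (nat_lit 228) (nat_lit 47247258654) (nat_lit 76) (nat_lit 16951511027) (nat_lit 48) (nat_lit 5) (nat_lit 51) (nat_lit 5) (nat_lit 49) (nat_lit 5) (nat_lit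 377) (nat_lit 328) (nat_lit 195)) (XT.nd (nat_lit 78) (nat_lit 0) (nat_lit 0) (XT.lf (nat_lit 0) (nat_lit 4464777507) (nat_lit 152) (nat_lit 23904133039) (nat_lit 228) (nat_lit 44618052496) (nat_lit 46) (nat_lit 5) (nat_lit 48) (nat_lit 5) (nat_lit 49) (nat_lit 5) (nat_lit 378) (nat_lit 328) (nat_lit 194)) (XT.lf (nat_lit 0) (nat_lit 52181897754) (nat_lit 228) (nat_lit 16001872036) (nat_lit 76) (nat_lit 7484551316) (nat_lit 46) (nat_lit 5) (nat_lit 49) (nat_lit 5) (nat_lit 47) (nat_lit 5) (nat_lit 379) (nat_lit 328) (nat_lit 193)))) (XT.nd (nat_lit 78) (nat_lit 228) (nat_lit 0) (XT.lf (nat_lit 0) (nat_lit 39669838361) (nat_lit 152) (nat_lit 38133957441) (nat_lit 228) (nat_lit 661404885) (nat_lit 44) (nat_lit 5) (nat_lit 46) (nat_lit 5) (nat_lit 47) (nat_lit 5) (nat_lit 380) (nat_lit 328) (nat_lit 192)) (XT.nd (nat_lit 78) (nat_lit 0) (nat_lit 0) (XT.lf (nat_lit 0) (nat_lit 17164511440) (nat_lit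 152) (nat_lit 6012697725) (nat_lit 228) (nat_lit 58208182622) (nat_lit 41) (nat_lit 5) (nat_lit 43) (nat_lit 5) (nat_lit 44) (nat_lit 5) (nat_lit 381) (nat_lit 328) (nat_lit 191)) (XT.lf (nat_lit 0) (nat_lit 48859789835) (nat_lit 228) (nat_lit 7990771590) (nat_lit 76) (nat_lit 27580864401) (nat_lit 41) (nat_lit 5) (nat_lit 44) (nat_lit 5) (nat_lit 42) (nat_lit 5) (nat_lit 382) (nat_lit 328) (nat_lit 190)))))) (XT.nd (nat_lit 42666) (nat_lit 0) (nat_lit 13984) (XT.nd (nat_lit 234) (nat_lit 304) (nat_lit 0) (XT.nd (nat_lit 78) (nat_lit 228) (nat_lit 0) (XT.lf (nat_lit 0) (nat_lit 51997957489) (nat_lit 152) (nat_lit 24385122579) (nat_lit 228) (nat_lit 11229985309) (nat_lit 39) (nat_lit 5) (nat_lit 41) (nat_lit 5) (nat_lit 42) (nat_lit 5) (nat_lit 383) (nat_lit 328) (nat_lit 189)) (XT.nd (nat_lit 78) (nat_lit 0) (nat_lit 0) (XT.lf (nat_lit 0) (nat_lit 14461974624) (nat_lit 228) (nat_lit 66502712917)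 (nat_lit 76) (nat_lit 9972583432) (nat_lit 36) (nat_lit 5) (nat_lit 39) (nat_lit 5) (nat_lit 37) (nat_lit 5) (nat_lit 384) (nat_lit 328) (nat_lit 188)) (XT.lf (nat_lit 0) (nat_lit 41821054388) (nat_lit 228) (nat_lit 6555470498) (nat_lit 76) (nat_lit 46029384146) (nat_lit 36) (nat_lit 5) (nat_lit 39) (nat_lit 5) (nat_lit 37) (nat_lit 5) (nat_lit 385) (nat_lit 328) (nat_lit 187)))) (XT.nd (nat_lit 78) (nat_lit 152) (nat_lit 0) (XT.lf (nat_lit 0) (nat_lit 57504939814) (nat_lit 152) (nat_lit 13592335409) (nat_lit 228) (nat_lit 26934229187) (nat_lit 34) (nat_lit 5) (nat_lit 36) (nat_lit 5) (nat_lit 37) (nat_lit 5) (nat_lit 386) (nat_lit 328) (nat_lit 186)) (XT.nd (nat_lit 78) (nat_lit 0) (nat_lit 0) (XT.lf (nat_lit 0) (nat_lit 513004239) (nat_lit 152) (nat_lit 78531856056) (nat_lit 76) (nat_lit 22778098848) (nat_lit 32) (nat_lit 5) (nat_lit 34) (nat_lit 5) (nat_lit 33) (nat_lit 5) (nat_lit 387)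 (nat_lit 328) (nat_lit 185)) (XT.lf (nat_lit 0) (nat_lit 29335817384) (nat_lit 152) (nat_lit 15064217671) (nat_lit 76) (nat_lit 61379144421) (nat_lit 32) (nat_lit 5) (nat_lit 34) (nat_lit 5) (nat_lit 33) (nat_lit 5) (nat_lit 388) (nat_lit 328) (nat_lit 184))))) (XT.nd (nat_lit 234) (nat_lit 0) (nat_lit 76) (XT.nd (nat_lit 78) (nat_lit 0) (nat_lit 0) (XT.lf (nat_lit 0) (nat_lit 2190353035) (nat_lit 0) (nat_lit 2190353035) (nat_lit 1140) (nat_lit 4098113097) (nat_lit 216) (nat_lit 5) (nat_lit 216) (nat_lit 3) (nat_lit 231) (nat_lit 3) (nat_lit 329) (nat_lit 329) (nat_lit 242)) (XT.nd (nat_lit 78) (nat_lit 0) (nat_lit 76) (XT.lf (nat_lit 76) (nat_lit 471153735) (nat_lit 0) (nat_lit 8962990133) (nat_lit 1216) (nat_lit 7933495926) (nat_lit 217) (nat_lit 5) (nat_lit 216) (nat_lit 5) (nat_lit 232) (nat_lit 5) (nat_lit 330) (nat_lit 329) (nat_lit 241)) (XT.lf (nat_lit 0) (nat_lit 10329551267) (nat_lit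 1140) (nat_lit 3456408838) (nat_lit 1216) (nat_lit 4006531086) (nat_lit 217) (nat_lit 5) (nat_lit 232) (nat_lit 5) (nat_lit 233) (nat_lit 5) (nat_lit 331) (nat_lit 329) (nat_lit 240)))) (XT.nd (nat_lit 78) (nat_lit 0) (nat_lit 76) (XT.lf (nat_lit 76) (nat_lit 10762209199) (nat_lit 0) (nat_lit 679163543) (nat_lit 1216) (nat_lit 6792083137) (nat_lit 218) (nat_lit 5) (nat_lit 217) (nat_lit 5) (nat_lit 233) (nat_lit 5) (nat_lit 332) (nat_lit 329) (nat_lit 239)) (XT.nd (nat_lit 78) (nat_lit 0) (nat_lit 76) (XT.lf (nat_lit 76) (nat_lit 7066997456) (nat_lit 0) (nat_lit 5750162684) (nat_lit 1216) (nat_lit 5873076495) (nat_lit 219) (nat_lit 5) (nat_lit 218) (nat_lit 5) (nat_lit 234) (nat_lit 5) (nat_lit 333) (nat_lit 329) (nat_lit 238)) (XT.lf (nat_lit 76) (nat_lit 3286168804) (nat_lit 0) (nat_lit 11148767233) (nat_lit 1216) (nat_lit 4729742589) (nat_lit 220) (nat_lit 5) (nat_lit 219) (nat_lit 5) (nat_lit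 235) (nat_lit 5) (nat_lit 334) (nat_lit 329) (nat_lit 237))))))) (XT.nd (nat_lit 858) (nat_lit 4332) (nat_lit 0) (XT.nd (nat_lit 390) (nat_lit 2964) (nat_lit 0) (XT.nd (nat_lit 156) (nat_lit 1140) (nat_lit 0) (XT.nd (nat_lit 78) (nat_lit 0) (nat_lit 0) (XT.lf (nat_lit 0) (nat_lit 16318374329) (nat_lit 1140) (nat_lit 573794384) (nat_lit 1216) (nat_lit 2765148101) (nat_lit 220) (nat_lit 5) (nat_lit 235) (nat_lit 5) (nat_lit 236) (nat_lit 5) (nat_lit 335) (nat_lit 329) (nat_lit 236)) (XT.lf (nat_lit 76) (nat_lit 15676233221) (nat_lit 0) (nat_lit 2864495387) (nat_lit 1216) (nat_lit 1626532461) (nat_lit 221) (nat_lit 5) (nat_lit 220) (nat_lit 5) (nat_lit 236) (nat_lit 5) (nat_lit 336) (nat_lit 329) (nat_lit 235))) (XT.nd (nat_lit 78) (nat_lit 0) (nat_lit 76) (XT.lf (nat_lit 0) (nat_lit 389518885) (nat_lit 1216) (nat_lit 8542105973) (nat_lit 1292) (nat_lit 11764402442) (nat_lit 205) (nat_lit 5) (nat_lit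 221) (nat_lit 5) (nat_lit 222) (nat_lit 5) (nat_lit 337) (nat_lit 329) (nat_lit 234)) (XT.nd (nat_lit 78) (nat_lit 0) (nat_lit 0) (XT.lf (nat_lit 0) (nat_lit 2671398370) (nat_lit 1216) (nat_lit 12720554735) (nat_lit 1292) (nat_lit 5852850181) (nat_lit 206) (nat_lit 5) (nat_lit 222) (nat_lit 5) (nat_lit 223) (nat_lit 5) (nat_lit 338) (nat_lit 329) (nat_lit 233)) (XT.lf (nat_lit 76) (nat_lit 4792923121) (nat_lit 0) (nat_lit 483058686) (nat_lit 1292) (nat_lit 16538791785) (nat_lit 207) (nat_lit 5) (nat_lit 206) (nat_lit 5) (nat_lit 223) (nat_lit 5) (nat_lit 339) (nat_lit 329) (nat_lit 232))))) (XT.nd (nat_lit 234) (nat_lit 1672) (nat_lit 0) (XT.nd (nat_lit 78) (nat_lit 608) (nat_lit 0) (XT.lf (nat_lit 0) (nat_lit 895169330) (nat_lit 836) (nat_lit 7386572043) (nat_lit 912) (nat_lit 14123385799) (nat_lit 196) (nat_lit 5) (nat_lit 207) (nat_lit 5) (nat_lit 208) (nat_lit 5) (nat_lit 340) (nat_lit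 329) (nat_lit 231)) (XT.nd (nat_lit 78) (nat_lit 608) (nat_lit 0) (XT.lf (nat_lit 0) (nat_lit 11683882025) (nat_lit 912) (nat_lit 3055800550) (nat_lit 76) (nat_lit 8277945598) (nat_lit 196) (nat_lit 5) (nat_lit 208) (nat_lit 5) (nat_lit 197) (nat_lit 5) (nat_lit 341) (nat_lit 329) (nat_lit 230)) (XT.lf (nat_lit 0) (nat_lit 15485845184) (nat_lit 684) (nat_lit 7108171334) (nat_lit 76) (nat_lit 1059858182) (nat_lit 188) (nat_lit 5) (nat_lit 197) (nat_lit 5) (nat_lit 189) (nat_lit 5) (nat_lit 342) (nat_lit 329) (nat_lit 229)))) (XT.nd (nat_lit 78) (nat_lit 1140) (nat_lit 0) (XT.lf (nat_lit 0) (nat_lit 12960740654) (nat_lit 532) (nat_lit 6808483254) (nat_lit 608) (nat_lit 4543981497) (nat_lit 181) (nat_lit 5) (nat_lit 188) (nat_lit 5) (nat_lit 189) (nat_lit 5) (nat_lit 343) (nat_lit 329) (nat_lit 228)) (XT.nd (nat_lit 78) (nat_lit 608) (nat_lit 0) (XT.lf (nat_lit 0) (nat_lit 9250975163) (nat_lit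 532) (nat_lit 15259228561) (nat_lit 608) (nat_lit 488006785) (nat_lit 174) (nat_lit 5) (nat_lit 181) (nat_lit 5) (nat_lit 182) (nat_lit 5) (nat_lit 344) (nat_lit 329) (nat_lit 227)) (XT.lf (nat_lit 0) (nat_lit 3937015254) (nat_lit 608) (nat_lit 20329925091) (nat_lit 76) (nat_lit 1442253236) (nat_lit 166) (nat_lit 5) (nat_lit 174) (nat_lit 5) (nat_lit 167) (nat_lit 5) (nat_lit 345) (nat_lit 329) (nat_lit 226)))))) (XT.nd (nat_lit 468) (nat_lit 1900) (nat_lit 0) (XT.nd (nat_lit 234) (nat_lit 1444) (nat_lit 0) (XT.nd (nat_lit 78) (nat_lit 456) (nat_lit 0) (XT.lf (nat_lit 0) (nat_lit 1291809640) (nat_lit 532) (nat_lit 7599210228) (nat_lit 608) (nat_lit 17555035795) (nat_lit 159) (nat_lit 5) (nat_lit 166) (nat_lit 5) (nat_lit 167) (nat_lit 5) (nat_lit 346) (nat_lit 329) (nat_lit 225)) (XT.nd (nat_lit 78) (nat_lit 456) (nat_lit 0) (XT.lf (nat_lit 0) (nat_lit 14387307445) (nat_lit 608) (nat_lit 2904411431)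 (nat_lit 76) (nat_lit 9919213578) (nat_lit 159) (nat_lit 5) (nat_lit 167) (nat_lit 5) (nat_lit 160) (nat_lit 5) (nat_lit 347) (nat_lit 329) (nat_lit 224)) (XT.lf (nat_lit 0) (nat_lit 20426791860) (nat_lit 532) (nat_lit 7235405519) (nat_lit 76) (nat_lit 343812880) (nat_lit 153) (nat_lit 5) (nat_lit 160) (nat_lit 5) (nat_lit 154) (nat_lit 5) (nat_lit 348) (nat_lit 329) (nat_lit 223)))) (XT.nd (nat_lit 78) (nat_lit 988) (nat_lit 0) (XT.lf (nat_lit 0) (nat_lit 16994436106) (nat_lit 456) (nat_lit 10130930760) (nat_lit 532) (nat_lit 1704769836) (nat_lit 147) (nat_lit 5) (nat_lit 153) (nat_lit 5) (nat_lit 154) (nat_lit 5) (nat_lit 349) (nat_lit 329) (nat_lit 222)) (XT.nd (nat_lit 78) (nat_lit 456) (nat_lit 0) (XT.lf (nat_lit 0) (nat_lit 4648671283) (nat_lit 532) (nat_lit 16677196285) (nat_lit 76) (nat_lit 8360151354) (nat_lit 140) (nat_lit 5) (nat_lit 147) (nat_lit 5) (nat_lit 141) (nat_lit 5) (nat_lit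 350) (nat_lit 329) (nat_lit 221)) (XT.lf (nat_lit 0) (nat_lit 8800639365) (nat_lit 456) (nat_lit 2783812784) (nat_lit 532) (nat_lit 18990746243) (nat_lit 134) (nat_lit 5) (nat_lit 140) (nat_lit 5) (nat_lit 141) (nat_lit 5) (nat_lit 351) (nat_lit 329) (nat_lit 220))))) (XT.nd (nat_lit 234) (nat_lit 1064) (nat_lit 0) (XT.nd (nat_lit 78) (nat_lit 456) (nat_lit 0) (XT.lf (nat_lit 0) (nat_lit 4306916453) (nat_lit 380) (nat_lit 14925330863) (nat_lit 456) (nat_lit 12265639671) (nat_lit 129) (nat_lit 5) (nat_lit 134) (nat_lit 5) (nat_lit 135) (nat_lit 5) (nat_lit 352) (nat_lit 329) (nat_lit 219)) (XT.nd (nat_lit 78) (nat_lit 456) (nat_lit 0) (XT.lf (nat_lit 0) (nat_lit 27549060243) (nat_lit 456) (nat_lit 396722205) (nat_lit 76) (nat_lit 4512335306) (nat_lit 129) (nat_lit 5) (nat_lit 135) (nat_lit 5) (nat_lit 130) (nat_lit 5) (nat_lit 353) (nat_lit 329) (nat_lit 218)) (XT.lf (nat_lit 0) (nat_lit 3176328625)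 (nat_lit 456) (nat_lit 5361326431) (nat_lit 76) (nat_lit 24915421823) (nat_lit 123) (nat_lit 5) (nat_lit 129) (nat_lit 5) (nat_lit 124) (nat_lit 5) (nat_lit 354) (nat_lit 329) (nat_lit 217)))) (XT.nd (nat_lit 78) (nat_lit 684) (nat_lit 0) (XT.lf (nat_lit 0) (nat_lit 11907162048) (nat_lit 456) (nat_lit 10685098797) (nat_lit 76) (nat_lit 11893789630) (nat_lit 118) (nat_lit 5) (nat_lit 124) (nat_lit 5) (nat_lit 119) (nat_lit 5) (nat_lit 355) (nat_lit 329) (nat_lit 216)) (XT.nd (nat_lit 78) (nat_lit 304) (nat_lit 0) (XT.lf (nat_lit 0) (nat_lit 19241790869) (nat_lit 380) (nat_lit 2151000260) (nat_lit 456) (nat_lit 14168339520) (nat_lit 113) (nat_lit 5) (nat_lit 118) (nat_lit 5) (nat_lit 119) (nat_lit 5) (nat_lit 356) (nat_lit 329) (nat_lit 215)) (XT.lf (nat_lit 0) (nat_lit 14282383573) (nat_lit 304) (nat_lit 17495993407) (nat_lit 380) (nat_lit 4898822850) (nat_lit 109) (nat_lit 5) (nat_lit 113)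 (nat_lit 5) (nat_lit 114) (nat_lit 5) (nat_lit 357) (nat_lit 329) (nat_lit 214))))))))
noncomputable def xc98 : XT := (XT.nd (nat_lit 1716) (nat_lit 912) (nat_lit 0) (XT.nd (nat_lit 858) (nat_lit 1900) (nat_lit 0) (XT.nd (nat_lit 390) (nat_lit 1444) (nat_lit 0) (XT.nd (nat_lit 156) (nat_lit 684) (nat_lit 0) (XT.nd (nat_lit 78) (nat_lit 304) (nat_lit 0) (XT.lf (nat_lit 0) (nat_lit 5048058775) (nat_lit 456) (nat_lit 28871999308) (nat_lit 76) (nat_lit 3918378542) (nat_lit 103) (nat_lit 5) (nat_lit 109) (nat_lit 5) (nat_lit 104) (nat_lit 5) (nat_lit 358) (nat_lit 329) (nat_lit 213)) (XT.lf (nat_lit 0) (nat_lit 3134799901) (nat_lit 304) (nat_lit 12688776776) (nat_lit 380) (nat_lit 23219729893) (nat_lit 99) (nat_lit 5) (nat_lit 103) (nat_lit 5) (nat_lit 104) (nat_lit 5) (nat_lit 359) (nat_lit 329) (nat_lit 212))) (XT.nd (nat_lit 78) (nat_lit 684) (nat_lit 0) (XT.lf (nat_lit 0) (nat_lit 27522711627)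 (nat_lit 380) (nat_lit 3060348895) (nat_lit 76) (nat_lit 9713818664) (nat_lit 99) (nat_lit 5) (nat_lit 104) (nat_lit 5) (nat_lit 100) (nat_lit 5) (nat_lit 360) (nat_lit 329) (nat_lit 211)) (XT.nd (nat_lit 78) (nat_lit 380) (nat_lit 0) (XT.lf (nat_lit 0) (nat_lit 31914569982) (nat_lit 304) (nat_lit 8319816629) (nat_lit 380) (nat_lit 1365920522) (nat_lit 95) (nat_lit 5) (nat_lit 99) (nat_lit 5) (nat_lit 100) (nat_lit 5) (nat_lit 361) (nat_lit 329) (nat_lit 210)) (XT.lf (nat_lit 0) (nat_lit 10830076485) (nat_lit 380) (nat_lit 16974460727) (nat_lit 76) (nat_lit 15148579751) (nat_lit 90) (nat_lit 5) (nat_lit 95) (nat_lit 5) (nat_lit 91) (nat_lit 5) (nat_lit 362) (nat_lit 329) (nat_lit 209))))) (XT.nd (nat_lit 234) (nat_lit 532) (nat_lit 0) (XT.nd (nat_lit 78) (nat_lit 608) (nat_lit 0) (XT.lf (nat_lit 0) (nat_lit 19530376523) (nat_lit 304) (nat_lit 4443034764) (nat_lit 380) (nat_lit 20388780359)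 (nat_lit 86) (nat_lit 5) (nat_lit 90) (nat_lit 5) (nat_lit 91) (nat_lit 5) (nat_lit 363) (nat_lit 329) (nat_lit 208)) (XT.nd (nat_lit 78) (nat_lit 380) (nat_lit 0) (XT.lf (nat_lit 0) (nat_lit 12416200426) (nat_lit 228) (nat_lit 25839938630) (nat_lit 304) (nat_lit 7571117740) (nat_lit 83) (nat_lit 5) (nat_lit 86) (nat_lit 5) (nat_lit 87) (nat_lit 5) (nat_lit 364) (nat_lit 329) (nat_lit 207)) (XT.lf (nat_lit 0) (nat_lit 4664869884) (nat_lit 304) (nat_lit 1448992504) (nat_lit 380) (nat_lit 41239778686) (nat_lit 78) (nat_lit 5) (nat_lit 82) (nat_lit 5) (nat_lit 83) (nat_lit 5) (nat_lit 365) (nat_lit 329) (nat_lit 206)))) (XT.nd (nat_lit 78) (nat_lit 532) (nat_lit 0) (XT.lf (nat_lit 0) (nat_lit 20901230907) (nat_lit 380) (nat_lit 3925010117) (nat_lit 76) (nat_lit 24110616143) (nat_lit 78) (nat_lit 5) (nat_lit 83) (nat_lit 5) (nat_lit 79) (nat_lit 5) (nat_lit 366) (nat_lit 329) (nat_lit 205)) (XT.nd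 (nat_lit 78) (nat_lit 304) (nat_lit 0) (XT.lf (nat_lit 0) (nat_lit 36803497266) (nat_lit 304) (nat_lit 13110237059) (nat_lit 76) (nat_lit 674236811) (nat_lit 75) (nat_lit 5) (nat_lit 79) (nat_lit 5) (nat_lit 76) (nat_lit 5) (nat_lit 367) (nat_lit 329) (nat_lit 204)) (XT.lf (nat_lit 0) (nat_lit 1726275841) (nat_lit 304) (nat_lit 23303263179) (nat_lit 76) (nat_lit 27274662923) (nat_lit 71) (nat_lit 5) (nat_lit 75) (nat_lit 5) (nat_lit 72) (nat_lit 5) (nat_lit 368) (nat_lit 329) (nat_lit 203)))))) (XT.nd (nat_lit 390) (nat_lit 988) (nat_lit 0) (XT.nd (nat_lit 156) (nat_lit 456) (nat_lit 0) (XT.nd (nat_lit 78) (nat_lit 228) (nat_lit 0) (XT.lf (nat_lit 0) (nat_lit 18064453408) (nat_lit 304) (nat_lit 34484700675) (nat_lit 76) (nat_lit 1542889175) (nat_lit 68) (nat_lit 5) (nat_lit 72) (nat_lit 5) (nat_lit 69) (nat_lit 5) (nat_lit 369) (nat_lit 329) (nat_lit 202)) (XT.lf (nat_lit 0) (nat_lit 9102130202)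 (nat_lit 228) (nat_lit 26694229952) (nat_lit 304) (nat_lit 20155614354) (nat_lit 65) (nat_lit 5) (nat_lit 68) (nat_lit 5) (nat_lit 69) (nat_lit 5) (nat_lit 370) (nat_lit 329) (nat_lit 201))) (XT.nd (nat_lit 78) (nat_lit 456) (nat_lit 0) (XT.lf (nat_lit 0) (nat_lit 54772311042) (nat_lit 304) (nat_lit 2321923089) (nat_lit 76) (nat_lit 799947084) (nat_lit 65) (nat_lit 5) (nat_lit 69) (nat_lit 5) (nat_lit 66) (nat_lit 5) (nat_lit 371) (nat_lit 329) (nat_lit 200)) (XT.nd (nat_lit 78) (nat_lit 228) (nat_lit 0) (XT.lf (nat_lit 0) (nat_lit 15179534993) (nat_lit 228) (nat_lit 15027990359) (nat_lit 76) (nat_lit 29700595673) (nat_lit 62) (nat_lit 5) (nat_lit 65) (nat_lit 5) (nat_lit 63) (nat_lit 5) (nat_lit 372) (nat_lit 329) (nat_lit 199)) (XT.lf (nat_lit 0) (nat_lit 33074241989) (nat_lit 228) (nat_lit 1594832207) (nat_lit 304) (nat_lit 27342629553) (nat_lit 59) (nat_lit 5) (nat_lit 62) (nat_lit 5) (nat_lit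 63) (nat_lit 5) (nat_lit 373) (nat_lit 329) (nat_lit 198))))) (XT.nd (nat_lit 234) (nat_lit 532) (nat_lit 0) (XT.nd (nat_lit 78) (nat_lit 304) (nat_lit 0) (XT.lf (nat_lit 0) (nat_lit 19782778099) (nat_lit 152) (nat_lit 35965266535) (nat_lit 228) (nat_lit 8453974326) (nat_lit 57) (nat_lit 5) (nat_lit 59) (nat_lit 5) (nat_lit 60) (nat_lit 5) (nat_lit 374) (nat_lit 329) (nat_lit 197)) (XT.nd (nat_lit 78) (nat_lit 0) (nat_lit 0) (XT.lf (nat_lit 0) (nat_lit 5012275096) (nat_lit 228) (nat_lit 6505107826) (nat_lit 304) (nat_lit 54970377845) (nat_lit 53) (nat_lit 5) (nat_lit 56) (nat_lit 5) (nat_lit 57) (nat_lit 5) (nat_lit 375) (nat_lit 329) (nat_lit 196)) (XT.lf (nat_lit 0) (nat_lit 33006022454) (nat_lit 304) (nat_lit 11362958215) (nat_lit 76) (nat_lit 24495492989) (nat_lit 53) (nat_lit 5) (nat_lit 57) (nat_lit 5) (nat_lit 54) (nat_lit 5) (nat_lit 376) (nat_lit 329) (nat_lit 195)))) (XT.nd (nat_lit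 78) (nat_lit 380) (nat_lit 0) (XT.lf (nat_lit 0) (nat_lit 42001702633) (nat_lit 152) (nat_lit 14032346115) (nat_lit 228) (nat_lit 15312026460) (nat_lit 51) (nat_lit 5) (nat_lit 53) (nat_lit 5) (nat_lit 54) (nat_lit 5) (nat_lit 377) (nat_lit 329) (nat_lit 194)) (XT.nd (nat_lit 78) (nat_lit 152) (nat_lit 0) (XT.lf (nat_lit 0) (nat_lit 6666504322) (nat_lit 228) (nat_lit 49376942676) (nat_lit 76) (nat_lit 17890696424) (nat_lit 48) (nat_lit 5) (nat_lit 51) (nat_lit 5) (nat_lit 49) (nat_lit 5) (nat_lit 378) (nat_lit 329) (nat_lit 193)) (XT.lf (nat_lit 0) (nat_lit 4914025599) (nat_lit 152) (nat_lit 25005897729) (nat_lit 228) (nat_lit 46712365915) (nat_lit 46) (nat_lit 5) (nat_lit 48) (nat_lit 5) (nat_lit 49) (nat_lit 5) (nat_lit 379) (nat_lit 329) (nat_lit 192))))))) (XT.nd (nat_lit 43212) (nat_lit 0) (nat_lit 11172) (XT.nd (nat_lit 390) (nat_lit 380) (nat_lit 0) (XT.nd (nat_lit 156) (nat_lit 380)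 (nat_lit 0) (XT.nd (nat_lit 78) (nat_lit 152) (nat_lit 0) (XT.lf (nat_lit 0) (nat_lit 54918102619) (nat_lit 228) (nat_lit 16583743784) (nat_lit 76) (nat_lit 7946034665) (nat_lit 46) (nat_lit 5) (nat_lit 49) (nat_lit 5) (nat_lit 47) (nat_lit 5) (nat_lit 380) (nat_lit 329) (nat_lit 191)) (XT.lf (nat_lit 0) (nat_lit 41865296848) (nat_lit 152) (nat_lit 39951783418) (nat_lit 228) (nat_lit 567646859) (nat_lit 44) (nat_lit 5) (nat_lit 46) (nat_lit 5) (nat_lit 47) (nat_lit 5) (nat_lit 381) (nat_lit 329) (nat_lit 190))) (XT.nd (nat_lit 78) (nat_lit 152) (nat_lit 0) (XT.lf (nat_lit 0) (nat_lit 18231069971) (nat_lit 152) (nat_lit 6225434079) (nat_lit 228) (nat_lit 60994506608) (nat_lit 41) (nat_lit 5) (nat_lit 43) (nat_lit 5) (nat_lit 44) (nat_lit 5) (nat_lit 382) (nat_lit 329) (nat_lit 189)) (XT.nd (nat_lit 78) (nat_lit 152) (nat_lit 0) (XT.lf (nat_lit 0) (nat_lit 51418283481) (nat_lit 228) (nat_lit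 8189225653) (nat_lit 76) (nat_lit 29041986968) (nat_lit 41) (nat_lit 5) (nat_lit 44) (nat_lit 5) (nat_lit 42) (nat_lit 5) (nat_lit 383) (nat_lit 329) (nat_lit 188)) (XT.lf (nat_lit 0) (nat_lit 54793175832) (nat_lit 152) (nat_lit 25520939735) (nat_lit 228) (nat_lit 11676212452) (nat_lit 39) (nat_lit 5) (nat_lit 41) (nat_lit 5) (nat_lit 42) (nat_lit 5) (nat_lit 384) (nat_lit 329) (nat_lit 187))))) (XT.nd (nat_lit 42588) (nat_lit 0) (nat_lit 13832) (XT.nd (nat_lit 78) (nat_lit 152) (nat_lit 0) (XT.lf (nat_lit 0) (nat_lit 15295351689) (nat_lit 228) (nat_lit 69633386196) (nat_lit 76) (nat_lit 10552056681) (nat_lit 36) (nat_lit 5) (nat_lit 39) (nat_lit 5) (nat_lit 37) (nat_lit 5) (nat_lit 385) (nat_lit 329) (nat_lit 186)) (XT.nd (nat_lit 78) (nat_lit 152) (nat_lit 0) (XT.lf (nat_lit 0) (nat_lit 44017134092) (nat_lit 228) (nat_lit 6698041769) (nat_lit 76) (nat_lit 48407847713) (nat_lit 36) (nat_lit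 5) (nat_lit 39) (nat_lit 5) (nat_lit 37) (nat_lit 5) (nat_lit 386) (nat_lit 329) (nat_lit 185)) (XT.lf (nat_lit 0) (nat_lit 60560080274) (nat_lit 152) (nat_lit 14193813657) (nat_lit 228) (nat_lit 28176104385) (nat_lit 34) (nat_lit 5) (nat_lit 36) (nat_lit 5) (nat_lit 37) (nat_lit 5) (nat_lit 387) (nat_lit 329) (nat_lit 184)))) (XT.nd (nat_lit 78) (nat_lit 0) (nat_lit 0) (XT.lf (nat_lit 0) (nat_lit 2480413836) (nat_lit 0) (nat_lit 2480413836) (nat_lit 1140) (nat_lit 3930776388) (nat_lit 216) (nat_lit 5) (nat_lit 216) (nat_lit 3) (nat_lit 231) (nat_lit 3) (nat_lit 330) (nat_lit 330) (nat_lit 240)) (XT.nd (nat_lit 78) (nat_lit 0) (nat_lit 76) (XT.lf (nat_lit 76) (nat_lit 870491297) (nat_lit 0) (nat_lit 9723449722) (nat_lit 1216) (nat_lit 7620821925) (nat_lit 217) (nat_lit 5) (nat_lit 216) (nat_lit 5) (nat_lit 232) (nat_lit 5) (nat_lit 331) (nat_lit 330) (nat_lit 239)) (XT.lf (nat_lit 0) (nat_lit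 11498493441) (nat_lit 1140) (nat_lit 3248238013) (nat_lit 1216) (nat_lit 3915223556) (nat_lit 217) (nat_lit 5) (nat_lit 232) (nat_lit 5) (nat_lit 233) (nat_lit 5) (nat_lit 332) (nat_lit 330) (nat_lit 238)))))) (XT.nd (nat_lit 468) (nat_lit 1824) (nat_lit 0) (XT.nd (nat_lit 234) (nat_lit 912) (nat_lit 0) (XT.nd (nat_lit 78) (nat_lit 0) (nat_lit 76) (XT.lf (nat_lit 76) (nat_lit 11670389888) (nat_lit 0) (nat_lit 968003701) (nat_lit 1216) (nat_lit 6487427660) (nat_lit 218) (nat_lit 5) (nat_lit 217) (nat_lit 5) (nat_lit 233) (nat_lit 5) (nat_lit 333) (nat_lit 330) (nat_lit 237)) (XT.nd (nat_lit 78) (nat_lit 0) (nat_lit 76) (XT.lf (nat_lit 76) (nat_lit 7800943400) (nat_lit 0) (nat_lit 6253592438) (nat_lit 1216) (nat_lit 5551784852) (nat_lit 219) (nat_lit 5) (nat_lit 218) (nat_lit 5) (nat_lit 234) (nat_lit 5) (nat_lit 334) (nat_lit 330) (nat_lit 236)) (XT.lf (nat_lit 76) (nat_lit 3840079229) (nat_lit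 0) (nat_lit 11886484055) (nat_lit 1216) (nat_lit 4378745958) (nat_lit 220) (nat_lit 5) (nat_lit 219) (nat_lit 5) (nat_lit 235) (nat_lit 5) (nat_lit 335) (nat_lit 330) (nat_lit 235)))) (XT.nd (nat_lit 78) (nat_lit 1140) (nat_lit 0) (XT.lf (nat_lit 0) (nat_lit 17675385901) (nat_lit 1140) (nat_lit 213019107) (nat_lit 1216) (nat_lit 2735062098) (nat_lit 220) (nat_lit 5) (nat_lit 235) (nat_lit 5) (nat_lit 236) (nat_lit 5) (nat_lit 336) (nat_lit 330) (nat_lit 234)) (XT.nd (nat_lit 78) (nat_lit 1140) (nat_lit 0) (XT.lf (nat_lit 76) (nat_lit 16838345943) (nat_lit 0) (nat_lit 3148382087) (nat_lit 1216) (nat_lit 1172867429) (nat_lit 221) (nat_lit 5) (nat_lit 220) (nat_lit 5) (nat_lit 236) (nat_lit 5) (nat_lit 337) (nat_lit 330) (nat_lit 233)) (XT.lf (nat_lit 0) (nat_lit 910998798) (nat_lit 1216) (nat_lit 8574455570) (nat_lit 1292) (nat_lit 12229889052) (nat_lit 205) (nat_lit 5) (nat_lit 221) (nat_lit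 5) (nat_lit 222) (nat_lit 5) (nat_lit 338) (nat_lit 330) (nat_lit 232))))) (XT.nd (nat_lit 234) (nat_lit 1140) (nat_lit 0) (XT.nd (nat_lit 78) (nat_lit 760) (nat_lit 0) (XT.lf (nat_lit 0) (nat_lit 3285807816) (nat_lit 1216) (nat_lit 12957338585) (nat_lit 1292) (nat_lit 6049066981) (nat_lit 206) (nat_lit 5) (nat_lit 222) (nat_lit 5) (nat_lit 223) (nat_lit 5) (nat_lit 339) (nat_lit 330) (nat_lit 231)) (XT.nd (nat_lit 78) (nat_lit 760) (nat_lit 0) (XT.lf (nat_lit 76) (nat_lit 5420368919) (nat_lit 0) (nat_lit 581082155) (nat_lit 1292) (nat_lit 16889825492) (nat_lit 207) (nat_lit 5) (nat_lit 206) (nat_lit 5) (nat_lit 223) (nat_lit 5) (nat_lit 340) (nat_lit 330) (nat_lit 230)) (XT.lf (nat_lit 0) (nat_lit 1331128617) (nat_lit 836) (nat_lit 7807469892) (nat_lit 912) (nat_lit 14373134679) (nat_lit 196) (nat_lit 5) (nat_lit 207) (nat_lit 5) (nat_lit 208) (nat_lit 5) (nat_lit 341) (nat_lit 330) (nat_lit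 229)))) (XT.nd (nat_lit 78) (nat_lit 1140) (nat_lit 0) (XT.lf (nat_lit 0) (nat_lit 12689289795) (nat_lit 912) (nat_lit 2822545932) (nat_lit 76) (nat_lit 8643687692) (nat_lit 196) (nat_lit 5) (nat_lit 208) (nat_lit 5) (nat_lit 197) (nat_lit 5) (nat_lit 342) (nat_lit 330) (nat_lit 228)) (XT.nd (nat_lit 78) (nat_lit 532) (nat_lit 0) (XT.lf (nat_lit 0) (nat_lit 16664611565) (nat_lit 684) (nat_lit 7075838958) (nat_lit 76) (nat_lit 1083650591) (nat_lit 188) (nat_lit 5) (nat_lit 197) (nat_lit 5) (nat_lit 189) (nat_lit 5) (nat_lit 343) (nat_lit 330) (nat_lit 227)) (XT.lf (nat_lit 0) (nat_lit 13985404112) (nat_lit 532) (nat_lit 7161114803) (nat_lit 608) (nat_lit 4370364509) (nat_lit 181) (nat_lit 5) (nat_lit 188) (nat_lit 5) (nat_lit 189) (nat_lit 5) (nat_lit 344) (nat_lit 330) (nat_lit 226))))))))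
noncomputable def xc99 : XT := (XT.nd (nat_lit 1794) (nat_lit 3192) (nat_lit 0) (XT.nd (nat_lit 858) (nat_lit 3420) (nat_lit 0) (XT.nd (nat_lit 390) (nat_lit 2280) (nat_lit 0) (XT.nd (nat_lit 156) (nat_lit 988) (nat_lit 0) (XT.nd (nat_lit 78) (nat_lit 608) (nat_lit 0) (XT.lf (nat_lit 0) (nat_lit 10091107189) (nat_lit 532) (nat_lit 16018442442) (nat_lit 608) (nat_lit 127054203) (nat_lit 174) (nat_lit 5) (nat_lit 181) (nat_lit 5) (nat_lit 182) (nat_lit 5) (nat_lit 345) (nat_lit 330) (nat_lit 225)) (XT.lf (nat_lit 0) (nat_lit 4497410590) (nat_lit 608) (nat_lit 20960994744) (nat_lit 76) (nat_lit 1525062228) (nat_lit 166) (nat_lit 5) (nat_lit 174) (nat_lit 5) (nat_lit 167) (nat_lit 5) (nat_lit 346) (nat_lit 330) (nat_lit 224))) (XT.nd (nat_lit 78) (nat_lit 456) (nat_lit 0) (XT.lf (nat_lit 0) (nat_lit 1730778548) (nat_lit 532) (nat_lit 7954623995) (nat_lit 608) (nat_lit 18072194895) (nat_lit 159)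 (nat_lit 5) (nat_lit 166) (nat_lit 5) (nat_lit 167) (nat_lit 5) (nat_lit 347) (nat_lit 330) (nat_lit 223)) (XT.nd (nat_lit 78) (nat_lit 456) (nat_lit 0) (XT.lf (nat_lit 0) (nat_lit 15440070569) (nat_lit 608) (nat_lit 2683057263) (nat_lit 76) (nat_lit 10438095923) (nat_lit 159) (nat_lit 5) (nat_lit 167) (nat_lit 5) (nat_lit 160) (nat_lit 5) (nat_lit 348) (nat_lit 330) (nat_lit 222)) (XT.lf (nat_lit 0) (nat_lit 21769413474) (nat_lit 532) (nat_lit 7231576812) (nat_lit 76) (nat_lit 395440702) (nat_lit 153) (nat_lit 5) (nat_lit 160) (nat_lit 5) (nat_lit 154) (nat_lit 5) (nat_lit 349) (nat_lit 330) (nat_lit 221))))) (XT.nd (nat_lit 234) (nat_lit 836) (nat_lit 0) (XT.nd (nat_lit 78) (nat_lit 988) (nat_lit 0) (XT.lf (nat_lit 0) (nat_lit 18199277073) (nat_lit 456) (nat_lit 10591754636) (nat_lit 532) (nat_lit 1471100101) (nat_lit 147) (nat_lit 5) (nat_lit 153) (nat_lit 5) (nat_lit 154) (nat_lit 5) (nat_lit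 350) (nat_lit 330) (nat_lit 220)) (XT.nd (nat_lit 78) (nat_lit 456) (nat_lit 0) (XT.lf (nat_lit 0) (nat_lit 5182757132) (nat_lit 532) (nat_lit 17151088214) (nat_lit 76) (nat_lit 8827212442) (nat_lit 140) (nat_lit 5) (nat_lit 147) (nat_lit 5) (nat_lit 141) (nat_lit 5) (nat_lit 351) (nat_lit 330) (nat_lit 219)) (XT.lf (nat_lit 0) (nat_lit 9590320811) (nat_lit 456) (nat_lit 2864002881) (nat_lit 532) (nat_lit 19640712760) (nat_lit 134) (nat_lit 5) (nat_lit 140) (nat_lit 5) (nat_lit 141) (nat_lit 5) (nat_lit 352) (nat_lit 330) (nat_lit 218)))) (XT.nd (nat_lit 78) (nat_lit 456) (nat_lit 0) (XT.lf (nat_lit 0) (nat_lit 4870004346) (nat_lit 380) (nat_lit 15604546697) (nat_lit 456) (nat_lit 12589616798) (nat_lit 129) (nat_lit 5) (nat_lit 134) (nat_lit 5) (nat_lit 135) (nat_lit 5) (nat_lit 353) (nat_lit 330) (nat_lit 217)) (XT.nd (nat_lit 78) (nat_lit 456) (nat_lit 0) (XT.lf (nat_lit 0) (nat_lit 29194452202)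 (nat_lit 456) (nat_lit 77785903) (nat_lit 76) (nat_lit 4800563793) (nat_lit 129) (nat_lit 5) (nat_lit 135) (nat_lit 5) (nat_lit 130) (nat_lit 5) (nat_lit 354) (nat_lit 330) (nat_lit 216)) (XT.lf (nat_lit 0) (nat_lit 3596217421) (nat_lit 456) (nat_lit 5294965589) (nat_lit 76) (nat_lit 26226545800) (nat_lit 123) (nat_lit 5) (nat_lit 129) (nat_lit 5) (nat_lit 124) (nat_lit 5) (nat_lit 355) (nat_lit 330) (nat_lit 215)))))) (XT.nd (nat_lit 468) (nat_lit 1596) (nat_lit 0) (XT.nd (nat_lit 234) (nat_lit 760) (nat_lit 0) (XT.nd (nat_lit 78) (nat_lit 684) (nat_lit 0) (XT.lf (nat_lit 0) (nat_lit 12754985537) (nat_lit 456) (nat_lit 10887500785) (nat_lit 76) (nat_lit 12560131056) (nat_lit 118) (nat_lit 5) (nat_lit 124) (nat_lit 5) (nat_lit 119) (nat_lit 5) (nat_lit 356) (nat_lit 330) (nat_lit 214)) (XT.nd (nat_lit 78) (nat_lit 304) (nat_lit 0) (XT.lf (nat_lit 0) (nat_lit 20526220866) (nat_lit 380) (nat_lit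 2179751579) (nat_lit 456) (nat_lit 14625754524) (nat_lit 113) (nat_lit 5) (nat_lit 118) (nat_lit 5) (nat_lit 119) (nat_lit 5) (nat_lit 357) (nat_lit 330) (nat_lit 213)) (XT.lf (nat_lit 0) (nat_lit 15316114000) (nat_lit 304) (nat_lit 18286920052) (nat_lit 380) (nat_lit 4900806994) (nat_lit 109) (nat_lit 5) (nat_lit 113) (nat_lit 5) (nat_lit 114) (nat_lit 5) (nat_lit 358) (nat_lit 330) (nat_lit 212)))) (XT.nd (nat_lit 78) (nat_lit 304) (nat_lit 0) (XT.lf (nat_lit 0) (nat_lit 5531183820) (nat_lit 456) (nat_lit 29994193493) (nat_lit 76) (nat_lit 4197923900) (nat_lit 103) (nat_lit 5) (nat_lit 109) (nat_lit 5) (nat_lit 104) (nat_lit 5) (nat_lit 359) (nat_lit 330) (nat_lit 211)) (XT.nd (nat_lit 78) (nat_lit 0) (nat_lit 0) (XT.lf (nat_lit 0) (nat_lit 3603732645) (nat_lit 304) (nat_lit 13233759194) (nat_lit 380) (nat_lit 24151168847) (nat_lit 99) (nat_lit 5) (nat_lit 103) (nat_lit 5) (nat_lit 104) (nat_lit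 5) (nat_lit 360) (nat_lit 330) (nat_lit 210)) (XT.lf (nat_lit 0) (nat_lit 29111796006) (nat_lit 380) (nat_lit 2910372005) (nat_lit 76) (nat_lit 10283043696) (nat_lit 99) (nat_lit 5) (nat_lit 104) (nat_lit 5) (nat_lit 100) (nat_lit 5) (nat_lit 361) (nat_lit 330) (nat_lit 209))))) (XT.nd (nat_lit 234) (nat_lit 608) (nat_lit 0) (XT.nd (nat_lit 78) (nat_lit 684) (nat_lit 0) (XT.lf (nat_lit 0) (nat_lit 33804607544) (nat_lit 304) (nat_lit 8647135855) (nat_lit 380) (nat_lit 1222292848) (nat_lit 95) (nat_lit 5) (nat_lit 99) (nat_lit 5) (nat_lit 100) (nat_lit 5) (nat_lit 362) (nat_lit 330) (nat_lit 208)) (XT.nd (nat_lit 78) (nat_lit 304) (nat_lit 0) (XT.lf (nat_lit 0) (nat_lit 11573120178) (nat_lit 380) (nat_lit 17527913564) (nat_lit 76) (nat_lit 15993584581) (nat_lit 90) (nat_lit 5) (nat_lit 95) (nat_lit 5) (nat_lit 91) (nat_lit 5) (nat_lit 363) (nat_lit 330) (nat_lit 207)) (XT.lf (nat_lit 0) (nat_lit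 20793701688) (nat_lit 304) (nat_lit 4573079853) (nat_lit 380) (nat_lit 21207575560) (nat_lit 86) (nat_lit 5) (nat_lit 90) (nat_lit 5) (nat_lit 91) (nat_lit 5) (nat_lit 364) (nat_lit 330) (nat_lit 206)))) (XT.nd (nat_lit 78) (nat_lit 380) (nat_lit 0) (XT.lf (nat_lit 0) (nat_lit 13320509273) (nat_lit 228) (nat_lit 27037433400) (nat_lit 304) (nat_lit 7754908838) (nat_lit 83) (nat_lit 5) (nat_lit 86) (nat_lit 5) (nat_lit 87) (nat_lit 5) (nat_lit 365) (nat_lit 330) (nat_lit 205)) (XT.nd (nat_lit 78) (nat_lit 0) (nat_lit 0) (XT.lf (nat_lit 0) (nat_lit 5177270018) (nat_lit 304) (nat_lit 1426839606) (nat_lit 380) (nat_lit 43111586057) (nat_lit 78) (nat_lit 5) (nat_lit 82) (nat_lit 5) (nat_lit 83) (nat_lit 5) (nat_lit 366) (nat_lit 330) (nat_lit 204)) (XT.lf (nat_lit 0) (nat_lit 22122924352) (nat_lit 380) (nat_lit 3850903757) (nat_lit 76) (nat_lit 25404486462) (nat_lit 78) (nat_lit 5) (nat_lit 83) (nat_lit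 5) (nat_lit 79) (nat_lit 5) (nat_lit 367) (nat_lit 330) (nat_lit 203))))))) (XT.nd (nat_lit 858) (nat_lit 1140) (nat_lit 0) (XT.nd (nat_lit 390) (nat_lit 1064) (nat_lit 0) (XT.nd (nat_lit 156) (nat_lit 456) (nat_lit 0) (XT.nd (nat_lit 78) (nat_lit 304) (nat_lit 0) (XT.lf (nat_lit 0) (nat_lit 38815300359) (nat_lit 304) (nat_lit 13498820071) (nat_lit 76) (nat_lit 798018038) (nat_lit 75) (nat_lit 5) (nat_lit 79) (nat_lit 5) (nat_lit 76) (nat_lit 5) (nat_lit 368) (nat_lit 330) (nat_lit 202)) (XT.lf (nat_lit 0) (nat_lit 1980257395) (nat_lit 304) (nat_lit 24205735870) (nat_lit 76) (nat_lit 28728312572) (nat_lit 71) (nat_lit 5) (nat_lit 75) (nat_lit 5) (nat_lit 72) (nat_lit 5) (nat_lit 369) (nat_lit 330) (nat_lit 201))) (XT.nd (nat_lit 78) (nat_lit 228) (nat_lit 0) (XT.lf (nat_lit 0) (nat_lit 19130706626) (nat_lit 304) (nat_lit 35949732782) (nat_lit 76) (nat_lit 1711242554) (nat_lit 68) (nat_lit 5)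 (nat_lit 72) (nat_lit 5) (nat_lit 69) (nat_lit 5) (nat_lit 370) (nat_lit 330) (nat_lit 200)) (XT.nd (nat_lit 78) (nat_lit 0) (nat_lit 0) (XT.lf (nat_lit 0) (nat_lit 9809009640) (nat_lit 228) (nat_lit 27934855905) (nat_lit 304) (nat_lit 21000907978) (nat_lit 65) (nat_lit 5) (nat_lit 68) (nat_lit 5) (nat_lit 69) (nat_lit 5) (nat_lit 371) (nat_lit 330) (nat_lit 199)) (XT.lf (nat_lit 0) (nat_lit 57661966395) (nat_lit 304) (nat_lit 2194525690) (nat_lit 76) (nat_lit 927801196) (nat_lit 65) (nat_lit 5) (nat_lit 69) (nat_lit 5) (nat_lit 66) (nat_lit 5) (nat_lit 372) (nat_lit 330) (nat_lit 198))))) (XT.nd (nat_lit 234) (nat_lit 456) (nat_lit 0) (XT.nd (nat_lit 78) (nat_lit 380) (nat_lit 0) (XT.lf (nat_lit 0) (nat_lit 16086140873) (nat_lit 228) (nat_lit 15539877068) (nat_lit 76) (nat_lit 31273019420) (nat_lit 62) (nat_lit 5) (nat_lit 65) (nat_lit 5) (nat_lit 63) (nat_lit 5) (nat_lit 373) (nat_lit 330)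 (nat_lit 197)) (XT.nd (nat_lit 78) (nat_lit 152) (nat_lit 0) (XT.lf (nat_lit 0) (nat_lit 34960601311) (nat_lit 228) (nat_lit 1584762114) (nat_lit 304) (nat_lit 28562582502) (nat_lit 59) (nat_lit 5) (nat_lit 62) (nat_lit 5) (nat_lit 63) (nat_lit 5) (nat_lit 374) (nat_lit 330) (nat_lit 196)) (XT.lf (nat_lit 0) (nat_lit 21001275380) (nat_lit 152) (nat_lit 37673232261) (nat_lit 228) (nat_lit 8733385259) (nat_lit 57) (nat_lit 5) (nat_lit 59) (nat_lit 5) (nat_lit 60) (nat_lit 5) (nat_lit 375) (nat_lit 330) (nat_lit 195)))) (XT.nd (nat_lit 78) (nat_lit 152) (nat_lit 0) (XT.lf (nat_lit 0) (nat_lit 5488440668) (nat_lit 228) (nat_lit 6740781181) (nat_lit 304) (nat_lit 57578796836) (nat_lit 53) (nat_lit 5) (nat_lit 56) (nat_lit 5) (nat_lit 57) (nat_lit 5) (nat_lit 376) (nat_lit 330) (nat_lit 194)) (XT.nd (nat_lit 78) (nat_lit 152) (nat_lit 0) (XT.lf (nat_lit 0) (nat_lit 34786638719) (nat_lit 304) (nat_lit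 11713181536) (nat_lit 76) (nat_lit 25803919036) (nat_lit 53) (nat_lit 5) (nat_lit 57) (nat_lit 5) (nat_lit 54) (nat_lit 5) (nat_lit 377) (nat_lit 330) (nat_lit 193)) (XT.lf (nat_lit 0) (nat_lit 44313465591) (nat_lit 152) (nat_lit 14648430031) (nat_lit 228) (nat_lit 15947652732) (nat_lit 51) (nat_lit 5) (nat_lit 53) (nat_lit 5) (nat_lit 54) (nat_lit 5) (nat_lit 378) (nat_lit 330) (nat_lit 192)))))) (XT.nd (nat_lit 468) (nat_lit 380) (nat_lit 0) (XT.nd (nat_lit 234) (nat_lit 380) (nat_lit 0) (XT.nd (nat_lit 78) (nat_lit 152) (nat_lit 0) (XT.lf (nat_lit 0) (nat_lit 7124014982) (nat_lit 228) (nat_lit 51634743178) (nat_lit 76) (nat_lit 18868324075) (nat_lit 48) (nat_lit 5) (nat_lit 51) (nat_lit 5) (nat_lit 49) (nat_lit 5) (nat_lit 379) (nat_lit 330) (nat_lit 191)) (XT.nd (nat_lit 78) (nat_lit 0) (nat_lit 0) (XT.lf (nat_lit 0) (nat_lit 5364723901) (nat_lit 152) (nat_lit 26171438001) (nat_lit 228)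 (nat_lit 48924093774) (nat_lit 46) (nat_lit 5) (nat_lit 48) (nat_lit 5) (nat_lit 49) (nat_lit 5) (nat_lit 380) (nat_lit 330) (nat_lit 190)) (XT.lf (nat_lit 0) (nat_lit 57779300246) (nat_lit 228) (nat_lit 17214997318) (nat_lit 76) (nat_lit 8422479966) (nat_lit 46) (nat_lit 5) (nat_lit 49) (nat_lit 5) (nat_lit 47) (nat_lit 5) (nat_lit 381) (nat_lit 330) (nat_lit 189)))) (XT.nd (nat_lit 78) (nat_lit 228) (nat_lit 0) (XT.lf (nat_lit 0) (nat_lit 44150821616) (nat_lit 152) (nat_lit 41868763161) (nat_lit 228) (nat_lit 480992223) (nat_lit 44) (nat_lit 5) (nat_lit 46) (nat_lit 5) (nat_lit 47) (nat_lit 5) (nat_lit 382) (nat_lit 330) (nat_lit 188)) (XT.nd (nat_lit 78) (nat_lit 0) (nat_lit 0) (XT.lf (nat_lit 0) (nat_lit 19331587605) (nat_lit 152) (nat_lit 6456979224) (nat_lit 228) (nat_lit 63931683054) (nat_lit 41) (nat_lit 5) (nat_lit 43) (nat_lit 5) (nat_lit 44) (nat_lit 5) (nat_lit 383) (nat_lit 330)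 (nat_lit 187)) (XT.lf (nat_lit 0) (nat_lit 54093963328) (nat_lit 228) (nat_lit 8416297351) (nat_lit 76) (nat_lit 30568534705) (nat_lit 41) (nat_lit 5) (nat_lit 44) (nat_lit 5) (nat_lit 42) (nat_lit 5) (nat_lit 384) (nat_lit 330) (nat_lit 186))))) (XT.nd (nat_lit 42666) (nat_lit 0) (nat_lit 13680) (XT.nd (nat_lit 78) (nat_lit 228) (nat_lit 0) (XT.lf (nat_lit 0) (nat_lit 57709996047) (nat_lit 152) (nat_lit 26721305114) (nat_lit 228) (nat_lit 12155467862) (nat_lit 39) (nat_lit 5) (nat_lit 41) (nat_lit 5) (nat_lit 42) (nat_lit 5) (nat_lit 385) (nat_lit 330) (nat_lit 185)) (XT.nd (nat_lit 78) (nat_lit 0) (nat_lit 0) (XT.lf (nat_lit 0) (nat_lit 16160144974) (nat_lit 228) (nat_lit 72938672406) (nat_lit 76) (nat_lit 11152987476) (nat_lit 36) (nat_lit 5) (nat_lit 39) (nat_lit 5) (nat_lit 37) (nat_lit 5) (nat_lit 386) (nat_lit 330) (nat_lit 184)) (XT.lf (nat_lit 0) (nat_lit 46313253368) (nat_lit 228)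 (nat_lit 6864959953) (nat_lit 76) (nat_lit 50898076252) (nat_lit 36) (nat_lit 5) (nat_lit 39) (nat_lit 5) (nat_lit 37) (nat_lit 5) (nat_lit 387) (nat_lit 330) (nat_lit 183)))) (XT.nd (nat_lit 78) (nat_lit 0) (nat_lit 0) (XT.lf (nat_lit 0) (nat_lit 2768192487) (nat_lit 0) (nat_lit 2768192487) (nat_lit 1140) (nat_lit 3789680411) (nat_lit 216) (nat_lit 5) (nat_lit 216) (nat_lit 3) (nat_lit 231) (nat_lit 3) (nat_lit 331) (nat_lit 331) (nat_lit 238)) (XT.nd (nat_lit 78) (nat_lit 0) (nat_lit 76) (XT.lf (nat_lit 76) (nat_lit 1254859286) (nat_lit 0) (nat_lit 10492896659) (nat_lit 1216) (nat_lit 7358462752) (nat_lit 217) (nat_lit 5) (nat_lit 216) (nat_lit 5) (nat_lit 232) (nat_lit 5) (nat_lit 332) (nat_lit 331) (nat_lit 237)) (XT.lf (nat_lit 0) (nat_lit 12665222750) (nat_lit 1140) (nat_lit 3065079603) (nat_lit 1216) (nat_lit 3846464023) (nat_lit 217) (nat_lit 5) (nat_lit 232) (nat_lit 5) (nat_lit 233)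 (nat_lit 5) (nat_lit 333) (nat_lit 331) (nat_lit 236))))))))
noncomputable def xc100 : XT := (XT.nd (nat_lit 1716) (nat_lit 5396) (nat_lit 0) (XT.nd (nat_lit 858) (nat_lit 4864) (nat_lit 0) (XT.nd (nat_lit 390) (nat_lit 2204) (nat_lit 0) (XT.nd (nat_lit 156) (nat_lit 0) (nat_lit 152) (XT.nd (nat_lit 78) (nat_lit 0) (nat_lit 76) (XT.lf (nat_lit 76) (nat_lit 12589573989) (nat_lit 0) (nat_lit 1247589355) (nat_lit 1216) (nat_lit 6227436563) (nat_lit 218) (nat_lit 5) (nat_lit 217) (nat_lit 5) (nat_lit 233) (nat_lit 5) (nat_lit 334) (nat_lit 331) (nat_lit 235)) (XT.lf (nat_lit 76) (nat_lit 8536202427) (nat_lit 0) (nat_lit 6762119334) (nat_lit 1216) (nat_lit 5271600427) (nat_lit 219) (nat_lit 5) (nat_lit 218) (nat_lit 5) (nat_lit 234) (nat_lit 5) (nat_lit 335) (nat_lit 331) (nat_lit 234))) (XT.nd (nat_lit 78) (nat_lit 0) (nat_lit 76) (XT.lf (nat_lit 76) (nat_lit 4385463676) (nat_lit 0) (nat_lit 12644326136)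 (nat_lit 1216) (nat_lit 4064818168) (nat_lit 220) (nat_lit 5) (nat_lit 219) (nat_lit 5) (nat_lit 235) (nat_lit 5) (nat_lit 336) (nat_lit 331) (nat_lit 233)) (XT.nd (nat_lit 78) (nat_lit 0) (nat_lit 0) (XT.lf (nat_lit 76) (nat_lit 132165188) (nat_lit 0) (nat_lit 18919047631) (nat_lit 1216) (nat_lit 2588228033) (nat_lit 221) (nat_lit 5) (nat_lit 220) (nat_lit 5) (nat_lit 236) (nat_lit 5) (nat_lit 337) (nat_lit 331) (nat_lit 232)) (XT.lf (nat_lit 76) (nat_lit 18023393454) (nat_lit 0) (nat_lit 3433385709) (nat_lit 1216) (nat_lit 746257599) (nat_lit 221) (nat_lit 5) (nat_lit 220) (nat_lit 5) (nat_lit 236) (nat_lit 5) (nat_lit 338) (nat_lit 331) (nat_lit 231))))) (XT.nd (nat_lit 234) (nat_lit 1292) (nat_lit 0) (XT.nd (nat_lit 78) (nat_lit 0) (nat_lit 76) (XT.lf (nat_lit 0) (nat_lit 1411881135) (nat_lit 1216) (nat_lit 8645123291) (nat_lit 1292) (nat_lit 12730060591) (nat_lit 205) (nat_lit 5) (nat_lit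 221) (nat_lit 5) (nat_lit 222) (nat_lit 5) (nat_lit 339) (nat_lit 331) (nat_lit 230)) (XT.nd (nat_lit 78) (nat_lit 0) (nat_lit 0) (XT.lf (nat_lit 0) (nat_lit 3886233834) (nat_lit 1216) (nat_lit 13243079539) (nat_lit 1292) (nat_lit 6264059369) (nat_lit 206) (nat_lit 5) (nat_lit 222) (nat_lit 5) (nat_lit 223) (nat_lit 5) (nat_lit 340) (nat_lit 331) (nat_lit 229)) (XT.lf (nat_lit 76) (nat_lit 6043133071) (nat_lit 0) (nat_lit 677139014) (nat_lit 1292) (nat_lit 17302656102) (nat_lit 207) (nat_lit 5) (nat_lit 206) (nat_lit 5) (nat_lit 223) (nat_lit 5) (nat_lit 341) (nat_lit 331) (nat_lit 228)))) (XT.nd (nat_lit 78) (nat_lit 608) (nat_lit 0) (XT.lf (nat_lit 0) (nat_lit 1752515724) (nat_lit 836) (nat_lit 8244618214) (nat_lit 912) (nat_lit 14677804646) (nat_lit 196) (nat_lit 5) (nat_lit 207) (nat_lit 5) (nat_lit 208) (nat_lit 5) (nat_lit 342) (nat_lit 331) (nat_lit 227)) (XT.nd (nat_lit 78) (nat_lit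 608) (nat_lit 0) (XT.lf (nat_lit 0) (nat_lit 13705807500) (nat_lit 912) (nat_lit 2613519355) (nat_lit 76) (nat_lit 9032193903) (nat_lit 196) (nat_lit 5) (nat_lit 208) (nat_lit 5) (nat_lit 197) (nat_lit 5) (nat_lit 343) (nat_lit 331) (nat_lit 226)) (XT.lf (nat_lit 0) (nat_lit 17864712094) (nat_lit 684) (nat_lit 7077938442) (nat_lit 76) (nat_lit 1111347406) (nat_lit 188) (nat_lit 5) (nat_lit 197) (nat_lit 5) (nat_lit 189) (nat_lit 5) (nat_lit 344) (nat_lit 331) (nat_lit 225)))))) (XT.nd (nat_lit 390) (nat_lit 2660) (nat_lit 0) (XT.nd (nat_lit 156) (nat_lit 1064) (nat_lit 0) (XT.nd (nat_lit 78) (nat_lit 608) (nat_lit 0) (XT.lf (nat_lit 0) (nat_lit 15026285589) (nat_lit 532) (nat_lit 7530243003) (nat_lit 608) (nat_lit 4225330750) (nat_lit 181) (nat_lit 5) (nat_lit 188) (nat_lit 5) (nat_lit 189) (nat_lit 5) (nat_lit 345) (nat_lit 331) (nat_lit 224)) (XT.lf (nat_lit 0) (nat_lit 211902275) (nat_lit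 608) (nat_lit 16601923355) (nat_lit 76) (nat_lit 10724099630) (nat_lit 173) (nat_lit 5) (nat_lit 181) (nat_lit 5) (nat_lit 174) (nat_lit 5) (nat_lit 346) (nat_lit 331) (nat_lit 223))) (XT.nd (nat_lit 78) (nat_lit 532) (nat_lit 0) (XT.lf (nat_lit 0) (nat_lit 5052026764) (nat_lit 608) (nat_lit 21659451191) (nat_lit 76) (nat_lit 1611017226) (nat_lit 166) (nat_lit 5) (nat_lit 174) (nat_lit 5) (nat_lit 167) (nat_lit 5) (nat_lit 347) (nat_lit 331) (nat_lit 222)) (XT.nd (nat_lit 78) (nat_lit 0) (nat_lit 0) (XT.lf (nat_lit 0) (nat_lit 2156889744) (nat_lit 532) (nat_lit 8330090575) (nat_lit 608) (nat_lit 18648736439) (nat_lit 159) (nat_lit 5) (nat_lit 166) (nat_lit 5) (nat_lit 167) (nat_lit 5) (nat_lit 348) (nat_lit 331) (nat_lit 221)) (XT.lf (nat_lit 0) (nat_lit 16514475687) (nat_lit 608) (nat_lit 2484716031) (nat_lit 76) (nat_lit 10980791345) (nat_lit 159) (nat_lit 5) (nat_lit 167) (nat_lit 5) (nat_lit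 160) (nat_lit 5) (nat_lit 349) (nat_lit 331) (nat_lit 220))))) (XT.nd (nat_lit 234) (nat_lit 1216) (nat_lit 0) (XT.nd (nat_lit 78) (nat_lit 988) (nat_lit 0) (XT.lf (nat_lit 0) (nat_lit 23149296412) (nat_lit 532) (nat_lit 7261546597) (nat_lit 76) (nat_lit 446448274) (nat_lit 153) (nat_lit 5) (nat_lit 160) (nat_lit 5) (nat_lit 154) (nat_lit 5) (nat_lit 350) (nat_lit 331) (nat_lit 219)) (XT.nd (nat_lit 78) (nat_lit 532) (nat_lit 0) (XT.lf (nat_lit 0) (nat_lit 19431344475) (nat_lit 456) (nat_lit 11079870565) (nat_lit 532) (nat_lit 1255395944) (nat_lit 147) (nat_lit 5) (nat_lit 153) (nat_lit 5) (nat_lit 154) (nat_lit 5) (nat_lit 351) (nat_lit 331) (nat_lit 218)) (XT.lf (nat_lit 0) (nat_lit 5715502503) (nat_lit 532) (nat_lit 17682141141) (nat_lit 76) (nat_lit 9313066052) (nat_lit 140) (nat_lit 5) (nat_lit 147) (nat_lit 5) (nat_lit 141) (nat_lit 5) (nat_lit 352) (nat_lit 331) (nat_lit 217)))) (XT.nd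 (nat_lit 78) (nat_lit 760) (nat_lit 0) (XT.lf (nat_lit 0) (nat_lit 10386979236) (nat_lit 456) (nat_lit 2953687793) (nat_lit 532) (nat_lit 20351028856) (nat_lit 134) (nat_lit 5) (nat_lit 140) (nat_lit 5) (nat_lit 141) (nat_lit 5) (nat_lit 353) (nat_lit 331) (nat_lit 216)) (XT.nd (nat_lit 78) (nat_lit 380) (nat_lit 0) (XT.lf (nat_lit 0) (nat_lit 5428916873) (nat_lit 380) (nat_lit 16323957063) (nat_lit 456) (nat_lit 12956689605) (nat_lit 129) (nat_lit 5) (nat_lit 134) (nat_lit 5) (nat_lit 135) (nat_lit 5) (nat_lit 354) (nat_lit 331) (nat_lit 215)) (XT.lf (nat_lit 0) (nat_lit 230091275) (nat_lit 380) (nat_lit 30669323837) (nat_lit 456) (nat_lit 4869503163) (nat_lit 124) (nat_lit 5) (nat_lit 129) (nat_lit 5) (nat_lit 130) (nat_lit 5) (nat_lit 355) (nat_lit 331) (nat_lit 214))))))) (XT.nd (nat_lit 858) (nat_lit 2280) (nat_lit 0) (XT.nd (nat_lit 390) (nat_lit 1520) (nat_lit 0) (XT.nd (nat_lit 156)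 (nat_lit 1140) (nat_lit 0) (XT.nd (nat_lit 78) (nat_lit 380) (nat_lit 0) (XT.lf (nat_lit 0) (nat_lit 4012828623) (nat_lit 456) (nat_lit 5256378574) (nat_lit 76) (nat_lit 27597150084) (nat_lit 123) (nat_lit 5) (nat_lit 129) (nat_lit 5) (nat_lit 124) (nat_lit 5) (nat_lit 356) (nat_lit 331) (nat_lit 213)) (XT.lf (nat_lit 0) (nat_lit 13621728362) (nat_lit 456) (nat_lit 11130875415) (nat_lit 76) (nat_lit 13253128035) (nat_lit 118) (nat_lit 5) (nat_lit 124) (nat_lit 5) (nat_lit 119) (nat_lit 5) (nat_lit 357) (nat_lit 331) (nat_lit 212))) (XT.nd (nat_lit 78) (nat_lit 760) (nat_lit 0) (XT.lf (nat_lit 0) (nat_lit 21844904203) (nat_lit 380) (nat_lit 2217266419) (nat_lit 456) (nat_lit 15129376062) (nat_lit 113) (nat_lit 5) (nat_lit 118) (nat_lit 5) (nat_lit 119) (nat_lit 5) (nat_lit 358) (nat_lit 331) (nat_lit 211)) (XT.nd (nat_lit 78) (nat_lit 456) (nat_lit 0) (XT.lf (nat_lit 0) (nat_lit 16371816524)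 (nat_lit 304) (nat_lit 19125190749) (nat_lit 380) (nat_lit 4925478184) (nat_lit 109) (nat_lit 5) (nat_lit 113) (nat_lit 5) (nat_lit 114) (nat_lit 5) (nat_lit 359) (nat_lit 331) (nat_lit 210)) (XT.lf (nat_lit 0) (nat_lit 6017014764) (nat_lit 456) (nat_lit 31202378650) (nat_lit 76) (nat_lit 4483671733) (nat_lit 103) (nat_lit 5) (nat_lit 109) (nat_lit 5) (nat_lit 104) (nat_lit 5) (nat_lit 360) (nat_lit 331) (nat_lit 209))))) (XT.nd (nat_lit 234) (nat_lit 912) (nat_lit 0) (XT.nd (nat_lit 78) (nat_lit 304) (nat_lit 0) (XT.lf (nat_lit 0) (nat_lit 4067087303) (nat_lit 304) (nat_lit 13814307543) (nat_lit 380) (nat_lit 25150520903) (nat_lit 99) (nat_lit 5) (nat_lit 103) (nat_lit 5) (nat_lit 104) (nat_lit 5) (nat_lit 361) (nat_lit 331) (nat_lit 208)) (XT.nd (nat_lit 78) (nat_lit 304) (nat_lit 0) (XT.lf (nat_lit 0) (nat_lit 30760536643) (nat_lit 380) (nat_lit 2781065812) (nat_lit 76) (nat_lit 10872963771)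 (nat_lit 99) (nat_lit 5) (nat_lit 104) (nat_lit 5) (nat_lit 100) (nat_lit 5) (nat_lit 362) (nat_lit 331) (nat_lit 207)) (XT.lf (nat_lit 0) (nat_lit 35761784917) (nat_lit 304) (nat_lit 8999064888) (nat_lit 380) (nat_lit 1091186448) (nat_lit 95) (nat_lit 5) (nat_lit 99) (nat_lit 5) (nat_lit 100) (nat_lit 5) (nat_lit 363) (nat_lit 331) (nat_lit 206)))) (XT.nd (nat_lit 78) (nat_lit 532) (nat_lit 0) (XT.lf (nat_lit 0) (nat_lit 12334578789) (nat_lit 380) (nat_lit 18136490467) (nat_lit 76) (nat_lit 16872697681) (nat_lit 90) (nat_lit 5) (nat_lit 95) (nat_lit 5) (nat_lit 91) (nat_lit 5) (nat_lit 364) (nat_lit 331) (nat_lit 205)) (XT.nd (nat_lit 78) (nat_lit 228) (nat_lit 0) (XT.lf (nat_lit 0) (nat_lit 22093528576) (nat_lit 304) (nat_lit 4718190400) (nat_lit 380) (nat_lit 22085964482) (nat_lit 86) (nat_lit 5) (nat_lit 90) (nat_lit 5) (nat_lit 91) (nat_lit 5) (nat_lit 365) (nat_lit 331) (nat_lit 204))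 (XT.lf (nat_lit 0) (nat_lit 14243676529) (nat_lit 228) (nat_lit 28303588824) (nat_lit 304) (nat_lit 7965996875) (nat_lit 83) (nat_lit 5) (nat_lit 86) (nat_lit 5) (nat_lit 87) (nat_lit 5) (nat_lit 366) (nat_lit 331) (nat_lit 203)))))) (XT.nd (nat_lit 468) (nat_lit 912) (nat_lit 0) (XT.nd (nat_lit 234) (nat_lit 760) (nat_lit 0) (XT.nd (nat_lit 78) (nat_lit 228) (nat_lit 0) (XT.lf (nat_lit 0) (nat_lit 5689336820) (nat_lit 304) (nat_lit 1412374309) (nat_lit 380) (nat_lit 45094665077) (nat_lit 78) (nat_lit 5) (nat_lit 82) (nat_lit 5) (nat_lit 83) (nat_lit 5) (nat_lit 367) (nat_lit 331) (nat_lit 202)) (XT.nd (nat_lit 78) (nat_lit 228) (nat_lit 0) (XT.lf (nat_lit 0) (nat_lit 23389280908) (nat_lit 380) (nat_lit 3798227299) (nat_lit 76) (nat_lit 26754837327) (nat_lit 78) (nat_lit 5) (nat_lit 83) (nat_lit 5) (nat_lit 79) (nat_lit 5) (nat_lit 368) (nat_lit 331) (nat_lit 201)) (XT.lf (nat_lit 0) (nat_lit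 40911737241) (nat_lit 304) (nat_lit 13931648746) (nat_lit 76) (nat_lit 919614528) (nat_lit 75) (nat_lit 5) (nat_lit 79) (nat_lit 5) (nat_lit 76) (nat_lit 5) (nat_lit 369) (nat_lit 331) (nat_lit 200)))) (XT.nd (nat_lit 78) (nat_lit 456) (nat_lit 0) (XT.lf (nat_lit 0) (nat_lit 2231349868) (nat_lit 304) (nat_lit 25177754665) (nat_lit 76) (nat_lit 30246285118) (nat_lit 71) (nat_lit 5) (nat_lit 75) (nat_lit 5) (nat_lit 72) (nat_lit 5) (nat_lit 370) (nat_lit 331) (nat_lit 199)) (XT.nd (nat_lit 78) (nat_lit 228) (nat_lit 0) (XT.lf (nat_lit 0) (nat_lit 20235115469) (nat_lit 304) (nat_lit 37512114725) (nat_lit 76) (nat_lit 1879533862) (nat_lit 68) (nat_lit 5) (nat_lit 72) (nat_lit 5) (nat_lit 69) (nat_lit 5) (nat_lit 371) (nat_lit 331) (nat_lit 198)) (XT.lf (nat_lit 0) (nat_lit 10527825589) (nat_lit 228) (nat_lit 29246260338) (nat_lit 304) (nat_lit 21903572793) (nat_lit 65) (nat_lit 5) (nat_lit 68)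 (nat_lit 5) (nat_lit 69) (nat_lit 5) (nat_lit 372) (nat_lit 331) (nat_lit 197))))) (XT.nd (nat_lit 234) (nat_lit 456) (nat_lit 0) (XT.nd (nat_lit 78) (nat_lit 456) (nat_lit 0) (XT.lf (nat_lit 0) (nat_lit 60682062267) (nat_lit 304) (nat_lit 2083396145) (nat_lit 76) (nat_lit 1053879926) (nat_lit 65) (nat_lit 5) (nat_lit 69) (nat_lit 5) (nat_lit 66) (nat_lit 5) (nat_lit 373) (nat_lit 331) (nat_lit 196)) (XT.nd (nat_lit 78) (nat_lit 228) (nat_lit 0) (XT.lf (nat_lit 0) (nat_lit 17024351890) (nat_lit 228) (nat_lit 16099625743) (nat_lit 76) (nat_lit 32915939293) (nat_lit 62) (nat_lit 5) (nat_lit 65) (nat_lit 5) (nat_lit 63) (nat_lit 5) (nat_lit 374) (nat_lit 331) (nat_lit 195)) (XT.lf (nat_lit 0) (nat_lit 36919649265) (nat_lit 228) (nat_lit 1582538358) (nat_lit 304) (nat_lit 29857216363) (nat_lit 59) (nat_lit 5) (nat_lit 62) (nat_lit 5) (nat_lit 63) (nat_lit 5) (nat_lit 375) (nat_lit 331) (nat_lit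 194)))) (XT.nd (nat_lit 78) (nat_lit 304) (nat_lit 0) (XT.lf (nat_lit 0) (nat_lit 22259373957) (nat_lit 152) (nat_lit 39474991288) (nat_lit 228) (nat_lit 9040088279) (nat_lit 57) (nat_lit 5) (nat_lit 59) (nat_lit 5) (nat_lit 60) (nat_lit 5) (nat_lit 376) (nat_lit 331) (nat_lit 193)) (XT.nd (nat_lit 78) (nat_lit 0) (nat_lit 0) (XT.lf (nat_lit 0) (nat_lit 5967444850) (nat_lit 228) (nat_lit 6996566693) (nat_lit 304) (nat_lit 60330661937) (nat_lit 53) (nat_lit 5) (nat_lit 56) (nat_lit 5) (nat_lit 57) (nat_lit 5) (nat_lit 377) (nat_lit 331) (nat_lit 192)) (XT.lf (nat_lit 0) (nat_lit 36644170330) (nat_lit 304) (nat_lit 12101176585) (nat_lit 76) (nat_lit 27169989271) (nat_lit 53) (nat_lit 5) (nat_lit 57) (nat_lit 5) (nat_lit 54) (nat_lit 5) (nat_lit 378) (nat_lit 331) (nat_lit 191))))))))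
noncomputable def xc101 : XT := (XT.nd (nat_lit 44304) (nat_lit 0) (nat_lit 3192) (XT.nd (nat_lit 43368) (nat_lit 0) (nat_lit 11552) (XT.nd (nat_lit 390) (nat_lit 608) (nat_lit 0) (XT.nd (nat_lit 156) (nat_lit 304) (nat_lit 0) (XT.nd (nat_lit 78) (nat_lit 228) (nat_lit 0) (XT.lf (nat_lit 0) (nat_lit 46721136898) (nat_lit 152) (nat_lit 15303270227) (nat_lit 228) (nat_lit 16627144166) (nat_lit 51) (nat_lit 5) (nat_lit 53) (nat_lit 5) (nat_lit 54) (nat_lit 5) (nat_lit 379) (nat_lit 331) (nat_lit 190)) (XT.lf (nat_lit 0) (nat_lit 7592855589) (nat_lit 228) (nat_lit 54025054822) (nat_lit 76) (nat_lit 19887107925) (nat_lit 48) (nat_lit 5) (nat_lit 51) (nat_lit 5) (nat_lit 49) (nat_lit 5) (nat_lit 380) (nat_lit 331) (nat_lit 189))) (XT.nd (nat_lit 78) (nat_lit 152) (nat_lit 0) (XT.lf (nat_lit 0) (nat_lit 5818898438) (nat_lit 152) (nat_lit 27403134968) (nat_lit 228) (nat_lit 51257926185) (nat_lit 46)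 (nat_lit 5) (nat_lit 48) (nat_lit 5) (nat_lit 49) (nat_lit 5) (nat_lit 381) (nat_lit 331) (nat_lit 188)) (XT.nd (nat_lit 78) (nat_lit 152) (nat_lit 0) (XT.lf (nat_lit 0) (nat_lit 60772838951) (nat_lit 228) (nat_lit 17896215525) (nat_lit 76) (nat_lit 8915389513) (nat_lit 46) (nat_lit 5) (nat_lit 49) (nat_lit 5) (nat_lit 47) (nat_lit 5) (nat_lit 382) (nat_lit 331) (nat_lit 187)) (XT.lf (nat_lit 0) (nat_lit 46532748117) (nat_lit 152) (nat_lit 43889086191) (nat_lit 228) (nat_lit 400699902) (nat_lit 44) (nat_lit 5) (nat_lit 46) (nat_lit 5) (nat_lit 47) (nat_lit 5) (nat_lit 383) (nat_lit 331) (nat_lit 186))))) (XT.nd (nat_lit 234) (nat_lit 228) (nat_lit 0) (XT.nd (nat_lit 78) (nat_lit 152) (nat_lit 0) (XT.lf (nat_lit 0) (nat_lit 20469563026) (nat_lit 152) (nat_lit 6707513846) (nat_lit 228) (nat_lit 67026182050) (nat_lit 41) (nat_lit 5) (nat_lit 43) (nat_lit 5) (nat_lit 44) (nat_lit 5) (nat_lit 384)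 (nat_lit 331) (nat_lit 185)) (XT.nd (nat_lit 78) (nat_lit 152) (nat_lit 0) (XT.lf (nat_lit 0) (nat_lit 56893687047) (nat_lit 228) (nat_lit 8671679490) (nat_lit 76) (nat_lit 32164488322) (nat_lit 41) (nat_lit 5) (nat_lit 44) (nat_lit 5) (nat_lit 42) (nat_lit 5) (nat_lit 385) (nat_lit 331) (nat_lit 184)) (XT.lf (nat_lit 0) (nat_lit 60756186483) (nat_lit 152) (nat_lit 27988724920) (nat_lit 228) (nat_lit 12668406595) (nat_lit 39) (nat_lit 5) (nat_lit 41) (nat_lit 5) (nat_lit 42) (nat_lit 5) (nat_lit 386) (nat_lit 331) (nat_lit 183)))) (XT.nd (nat_lit 42588) (nat_lit 0) (nat_lit 13680) (XT.lf (nat_lit 0) (nat_lit 17058878481) (nat_lit 228) (nat_lit 76425621356) (nat_lit 76) (nat_lit 11777147472) (nat_lit 36) (nat_lit 5) (nat_lit 39) (nat_lit 5) (nat_lit 37) (nat_lit 5) (nat_lit 387) (nat_lit 331) (nat_lit 182)) (XT.nd (nat_lit 78) (nat_lit 0) (nat_lit 0) (XT.lf (nat_lit 0) (nat_lit 3055135408) (nat_lit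 0) (nat_lit 3055135408) (nat_lit 1140) (nat_lit 3672919718) (nat_lit 216) (nat_lit 5) (nat_lit 216) (nat_lit 3) (nat_lit 231) (nat_lit 3) (nat_lit 332) (nat_lit 332) (nat_lit 236)) (XT.lf (nat_lit 76) (nat_lit 1626757283) (nat_lit 0) (nat_lit 11274479770) (nat_lit 1216) (nat_lit 7142802878) (nat_lit 217) (nat_lit 5) (nat_lit 216) (nat_lit 5) (nat_lit 232) (nat_lit 5) (nat_lit 333) (nat_lit 332) (nat_lit 235)))))) (XT.nd (nat_lit 468) (nat_lit 2204) (nat_lit 0) (XT.nd (nat_lit 234) (nat_lit 0) (nat_lit 152) (XT.nd (nat_lit 78) (nat_lit 0) (nat_lit 0) (XT.lf (nat_lit 0) (nat_lit 13835268137) (nat_lit 1140) (nat_lit 2904891125) (nat_lit 1216) (nat_lit 3798859142) (nat_lit 217) (nat_lit 5) (nat_lit 232) (nat_lit 5) (nat_lit 233) (nat_lit 5) (nat_lit 334) (nat_lit 332) (nat_lit 234)) (XT.nd (nat_lit 78) (nat_lit 0) (nat_lit 76) (XT.lf (nat_lit 76) (nat_lit 13523510382) (nat_lit 0) (nat_lit 1519660859)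 (nat_lit 1216) (nat_lit 6008774396) (nat_lit 218) (nat_lit 5) (nat_lit 217) (nat_lit 5) (nat_lit 233) (nat_lit 5) (nat_lit 335) (nat_lit 332) (nat_lit 233)) (XT.lf (nat_lit 76) (nat_lit 9276129879) (nat_lit 0) (nat_lit 7277864552) (nat_lit 1216) (nat_lit 5029263289) (nat_lit 219) (nat_lit 5) (nat_lit 218) (nat_lit 5) (nat_lit 234) (nat_lit 5) (nat_lit 336) (nat_lit 332) (nat_lit 232)))) (XT.nd (nat_lit 78) (nat_lit 0) (nat_lit 76) (XT.lf (nat_lit 76) (nat_lit 4925263377) (nat_lit 0) (nat_lit 13424857979) (nat_lit 1216) (nat_lit 3784734733) (nat_lit 220) (nat_lit 5) (nat_lit 219) (nat_lit 5) (nat_lit 235) (nat_lit 5) (nat_lit 337) (nat_lit 332) (nat_lit 231)) (XT.nd (nat_lit 78) (nat_lit 0) (nat_lit 0) (XT.lf (nat_lit 76) (nat_lit 465564127) (nat_lit 0) (nat_lit 19986509077) (nat_lit 1216) (nat_lit 2255493528) (nat_lit 221) (nat_lit 5) (nat_lit 220) (nat_lit 5) (nat_lit 236) (nat_lit 5) (nat_lit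 338) (nat_lit 332) (nat_lit 230)) (XT.lf (nat_lit 76) (nat_lit 19235792345) (nat_lit 0) (nat_lit 3720777913) (nat_lit 1216) (nat_lit 343431521) (nat_lit 221) (nat_lit 5) (nat_lit 220) (nat_lit 5) (nat_lit 236) (nat_lit 5) (nat_lit 339) (nat_lit 332) (nat_lit 229))))) (XT.nd (nat_lit 234) (nat_lit 1292) (nat_lit 0) (XT.nd (nat_lit 78) (nat_lit 0) (nat_lit 76) (XT.lf (nat_lit 0) (nat_lit 1895475099) (nat_lit 1216) (nat_lit 8752612963) (nat_lit 1292) (nat_lit 13265590457) (nat_lit 205) (nat_lit 5) (nat_lit 221) (nat_lit 5) (nat_lit 222) (nat_lit 5) (nat_lit 340) (nat_lit 332) (nat_lit 228)) (XT.nd (nat_lit 78) (nat_lit 0) (nat_lit 0) (XT.lf (nat_lit 0) (nat_lit 4476133395) (nat_lit 1216) (nat_lit 13576774582) (nat_lit 1292) (nat_lit 6497932668) (nat_lit 206) (nat_lit 5) (nat_lit 222) (nat_lit 5) (nat_lit 223) (nat_lit 5) (nat_lit 341) (nat_lit 332) (nat_lit 227)) (XT.lf (nat_lit 76) (nat_lit 6664333449)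 (nat_lit 0) (nat_lit 771769436) (nat_lit 1292) (nat_lit 17776259960) (nat_lit 207) (nat_lit 5) (nat_lit 206) (nat_lit 5) (nat_lit 223) (nat_lit 5) (nat_lit 342) (nat_lit 332) (nat_lit 226)))) (XT.nd (nat_lit 78) (nat_lit 608) (nat_lit 0) (XT.lf (nat_lit 0) (nat_lit 2161983393) (nat_lit 836) (nat_lit 8699275273) (nat_lit 912) (nat_lit 15036196678) (nat_lit 196) (nat_lit 5) (nat_lit 207) (nat_lit 5) (nat_lit 208) (nat_lit 5) (nat_lit 343) (nat_lit 332) (nat_lit 225)) (XT.nd (nat_lit 78) (nat_lit 608) (nat_lit 0) (XT.lf (nat_lit 0) (nat_lit 14737631403) (nat_lit 912) (nat_lit 2426595438) (nat_lit 76) (nat_lit 9444186207) (nat_lit 196) (nat_lit 5) (nat_lit 208) (nat_lit 5) (nat_lit 197) (nat_lit 5) (nat_lit 344) (nat_lit 332) (nat_lit 224)) (XT.lf (nat_lit 0) (nat_lit 19090709559) (nat_lit 684) (nat_lit 7112839931) (nat_lit 76) (nat_lit 1142891453) (nat_lit 188) (nat_lit 5) (nat_lit 197) (nat_lit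 5) (nat_lit 189) (nat_lit 5) (nat_lit 345) (nat_lit 332) (nat_lit 223))))))) (XT.nd (nat_lit 858) (nat_lit 3496) (nat_lit 0) (XT.nd (nat_lit 390) (nat_lit 2660) (nat_lit 0) (XT.nd (nat_lit 156) (nat_lit 1064) (nat_lit 0) (XT.nd (nat_lit 78) (nat_lit 608) (nat_lit 0) (XT.lf (nat_lit 0) (nat_lit 16087451361) (nat_lit 532) (nat_lit 7916798200) (nat_lit 608) (nat_lit 4106844921) (nat_lit 181) (nat_lit 5) (nat_lit 188) (nat_lit 5) (nat_lit 189) (nat_lit 5) (nat_lit 346) (nat_lit 332) (nat_lit 222)) (XT.lf (nat_lit 0) (nat_lit 533341779) (nat_lit 608) (nat_lit 17114953099) (nat_lit 76) (nat_lit 11256959991) (nat_lit 173) (nat_lit 5) (nat_lit 181) (nat_lit 5) (nat_lit 174) (nat_lit 5) (nat_lit 347) (nat_lit 332) (nat_lit 221))) (XT.nd (nat_lit 78) (nat_lit 532) (nat_lit 0) (XT.lf (nat_lit 0) (nat_lit 5603717122) (nat_lit 608) (nat_lit 22425332331) (nat_lit 76) (nat_lit 1700367984) (nat_lit 166) (nat_lit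 5) (nat_lit 174) (nat_lit 5) (nat_lit 167) (nat_lit 5) (nat_lit 348) (nat_lit 332) (nat_lit 220)) (XT.nd (nat_lit 78) (nat_lit 0) (nat_lit 0) (XT.lf (nat_lit 0) (nat_lit 2572736289) (nat_lit 532) (nat_lit 8726400436) (nat_lit 608) (nat_lit 19284512763) (nat_lit 159) (nat_lit 5) (nat_lit 166) (nat_lit 5) (nat_lit 167) (nat_lit 5) (nat_lit 349) (nat_lit 332) (nat_lit 219)) (XT.lf (nat_lit 0) (nat_lit 17614486627) (nat_lit 608) (nat_lit 2307369887) (nat_lit 76) (nat_lit 11548688624) (nat_lit 159) (nat_lit 5) (nat_lit 167) (nat_lit 5) (nat_lit 160) (nat_lit 5) (nat_lit 350) (nat_lit 332) (nat_lit 218))))) (XT.nd (nat_lit 234) (nat_lit 1216) (nat_lit 0) (XT.nd (nat_lit 78) (nat_lit 988) (nat_lit 0) (XT.lf (nat_lit 0) (nat_lit 24571080747) (nat_lit 532) (nat_lit 7323844738) (nat_lit 76) (nat_lit 497102240) (nat_lit 153) (nat_lit 5) (nat_lit 160) (nat_lit 5) (nat_lit 154) (nat_lit 5) (nat_lit 351)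 (nat_lit 332) (nat_lit 217)) (XT.nd (nat_lit 78) (nat_lit 532) (nat_lit 0) (XT.lf (nat_lit 0) (nat_lit 20695069113) (nat_lit 456) (nat_lit 11596247946) (nat_lit 532) (nat_lit 1055799154) (nat_lit 147) (nat_lit 5) (nat_lit 153) (nat_lit 5) (nat_lit 154) (nat_lit 5) (nat_lit 352) (nat_lit 332) (nat_lit 216)) (XT.lf (nat_lit 0) (nat_lit 6249447710) (nat_lit 532) (nat_lit 18270101729) (nat_lit 76) (nat_lit 9819075807) (nat_lit 140) (nat_lit 5) (nat_lit 147) (nat_lit 5) (nat_lit 141) (nat_lit 5) (nat_lit 353) (nat_lit 332) (nat_lit 215)))) (XT.nd (nat_lit 78) (nat_lit 760) (nat_lit 0) (XT.lf (nat_lit 0) (nat_lit 11193985688) (nat_lit 456) (nat_lit 3052832290) (nat_lit 532) (nat_lit 21122122664) (nat_lit 134) (nat_lit 5) (nat_lit 140) (nat_lit 5) (nat_lit 141) (nat_lit 5) (nat_lit 354) (nat_lit 332) (nat_lit 214)) (XT.nd (nat_lit 78) (nat_lit 380) (nat_lit 0) (XT.lf (nat_lit 0) (nat_lit 5986450978)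 (nat_lit 380) (nat_lit 17084992131) (nat_lit 456) (nat_lit 13366512264) (nat_lit 129) (nat_lit 5) (nat_lit 134) (nat_lit 5) (nat_lit 135) (nat_lit 5) (nat_lit 355) (nat_lit 332) (nat_lit 213)) (XT.lf (nat_lit 0) (nat_lit 525851595) (nat_lit 380) (nat_lit 32141700748) (nat_lit 456) (nat_lit 4882965824) (nat_lit 124) (nat_lit 5) (nat_lit 129) (nat_lit 5) (nat_lit 130) (nat_lit 5) (nat_lit 356) (nat_lit 332) (nat_lit 212)))))) (XT.nd (nat_lit 468) (nat_lit 1596) (nat_lit 0) (XT.nd (nat_lit 234) (nat_lit 1064) (nat_lit 0) (XT.nd (nat_lit 78) (nat_lit 760) (nat_lit 0) (XT.lf (nat_lit 0) (nat_lit 4428254935) (nat_lit 456) (nat_lit 5244063448) (nat_lit 76) (nat_lit 29030773569) (nat_lit 123) (nat_lit 5) (nat_lit 129) (nat_lit 5) (nat_lit 124) (nat_lit 5) (nat_lit 357) (nat_lit 332) (nat_lit 211)) (XT.nd (nat_lit 78) (nat_lit 380) (nat_lit 0) (XT.lf (nat_lit 0) (nat_lit 14510518679) (nat_lit 456) (nat_lit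 11414402941) (nat_lit 76) (nat_lit 13974732669) (nat_lit 118) (nat_lit 5) (nat_lit 124) (nat_lit 5) (nat_lit 119) (nat_lit 5) (nat_lit 358) (nat_lit 332) (nat_lit 210)) (XT.lf (nat_lit 0) (nat_lit 23202339702) (nat_lit 380) (nat_lit 2263301860) (nat_lit 456) (nat_lit 15679344921) (nat_lit 113) (nat_lit 5) (nat_lit 118) (nat_lit 5) (nat_lit 119) (nat_lit 5) (nat_lit 359) (nat_lit 332) (nat_lit 209)))) (XT.nd (nat_lit 78) (nat_lit 760) (nat_lit 0) (XT.lf (nat_lit 0) (nat_lit 17453352315) (nat_lit 304) (nat_lit 20012447741) (nat_lit 380) (nat_lit 4971870769) (nat_lit 109) (nat_lit 5) (nat_lit 113) (nat_lit 5) (nat_lit 114) (nat_lit 5) (nat_lit 360) (nat_lit 332) (nat_lit 208)) (XT.nd (nat_lit 78) (nat_lit 304) (nat_lit 0) (XT.lf (nat_lit 0) (nat_lit 6507681150) (nat_lit 456) (nat_lit 32498076251) (nat_lit 76) (nat_lit 4776654992) (nat_lit 103) (nat_lit 5) (nat_lit 109) (nat_lit 5) (nat_lit 104)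 (nat_lit 5) (nat_lit 361) (nat_lit 332) (nat_lit 207)) (XT.lf (nat_lit 0) (nat_lit 4527283415) (nat_lit 304) (nat_lit 14431426901) (nat_lit 380) (nat_lit 26219197618) (nat_lit 99) (nat_lit 5) (nat_lit 103) (nat_lit 5) (nat_lit 104) (nat_lit 5) (nat_lit 362) (nat_lit 332) (nat_lit 206))))) (XT.nd (nat_lit 234) (nat_lit 912) (nat_lit 0) (XT.nd (nat_lit 78) (nat_lit 684) (nat_lit 0) (XT.lf (nat_lit 0) (nat_lit 32473756978) (nat_lit 380) (nat_lit 2670844913) (nat_lit 76) (nat_lit 11485335670) (nat_lit 99) (nat_lit 5) (nat_lit 104) (nat_lit 5) (nat_lit 100) (nat_lit 5) (nat_lit 363) (nat_lit 332) (nat_lit 205)) (XT.nd (nat_lit 78) (nat_lit 380) (nat_lit 0) (XT.lf (nat_lit 0) (nat_lit 37792002958) (nat_lit 304) (nat_lit 9376067782) (nat_lit 380) (nat_lit 971395618) (nat_lit 95) (nat_lit 5) (nat_lit 99) (nat_lit 5) (nat_lit 100) (nat_lit 5) (nat_lit 364) (nat_lit 332) (nat_lit 204)) (XT.lf (nat_lit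 0) (nat_lit 13117115077) (nat_lit 380) (nat_lit 18800395466) (nat_lit 76) (nat_lit 17788381428) (nat_lit 90) (nat_lit 5) (nat_lit 95) (nat_lit 5) (nat_lit 91) (nat_lit 5) (nat_lit 365) (nat_lit 332) (nat_lit 203)))) (XT.nd (nat_lit 78) (nat_lit 608) (nat_lit 0) (XT.lf (nat_lit 0) (nat_lit 23434161290) (nat_lit 304) (nat_lit 4878323552) (nat_lit 380) (nat_lit 23025192542) (nat_lit 86) (nat_lit 5) (nat_lit 90) (nat_lit 5) (nat_lit 91) (nat_lit 5) (nat_lit 366) (nat_lit 332) (nat_lit 202)) (XT.nd (nat_lit 78) (nat_lit 380) (nat_lit 0) (XT.lf (nat_lit 0) (nat_lit 15189095541) (nat_lit 228) (nat_lit 29641021103) (nat_lit 304) (nat_lit 8204063245) (nat_lit 83) (nat_lit 5) (nat_lit 86) (nat_lit 5) (nat_lit 87) (nat_lit 5) (nat_lit 367) (nat_lit 332) (nat_lit 201)) (XT.lf (nat_lit 0) (nat_lit 6203466519) (nat_lit 304) (nat_lit 1405163294) (nat_lit 380) (nat_lit 47192935489) (nat_lit 78) (nat_lit 5)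 (nat_lit 82) (nat_lit 5) (nat_lit 83) (nat_lit 5) (nat_lit 368) (nat_lit 332) (nat_lit 200))))))))
noncomputable def xc102 : XT := (XT.nd (nat_lit 44382) (nat_lit 0) (nat_lit 6004) (XT.nd (nat_lit 858) (nat_lit 1064) (nat_lit 0) (XT.nd (nat_lit 390) (nat_lit 912) (nat_lit 0) (XT.nd (nat_lit 156) (nat_lit 760) (nat_lit 0) (XT.nd (nat_lit 78) (nat_lit 228) (nat_lit 0) (XT.lf (nat_lit 0) (nat_lit 24704060454) (nat_lit 380) (nat_lit 3765715402) (nat_lit 76) (nat_lit 28165256328) (nat_lit 78) (nat_lit 5) (nat_lit 83) (nat_lit 5) (nat_lit 79) (nat_lit 5) (nat_lit 369) (nat_lit 332) (nat_lit 199)) (XT.lf (nat_lit 0) (nat_lit 43098523072) (nat_lit 304) (nat_lit 14408628165) (nat_lit 76) (nat_lit 1039695561) (nat_lit 75) (nat_lit 5) (nat_lit 79) (nat_lit 5) (nat_lit 76) (nat_lit 5) (nat_lit 370) (nat_lit 332) (nat_lit 198))) (XT.nd (nat_lit 78) (nat_lit 456) (nat_lit 0) (XT.lf (nat_lit 0) (nat_lit 2480858044)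 (nat_lit 304) (nat_lit 26220526300) (nat_lit 76) (nat_lit 31832573903) (nat_lit 71) (nat_lit 5) (nat_lit 75) (nat_lit 5) (nat_lit 72) (nat_lit 5) (nat_lit 371) (nat_lit 332) (nat_lit 197)) (XT.nd (nat_lit 78) (nat_lit 228) (nat_lit 0) (XT.lf (nat_lit 0) (nat_lit 21380996877) (nat_lit 304) (nat_lit 39174473571) (nat_lit 76) (nat_lit 2048548359) (nat_lit 68) (nat_lit 5) (nat_lit 72) (nat_lit 5) (nat_lit 69) (nat_lit 5) (nat_lit 372) (nat_lit 332) (nat_lit 196)) (XT.lf (nat_lit 0) (nat_lit 11261351079) (nat_lit 228) (nat_lit 30631168944) (nat_lit 304) (nat_lit 22865072899) (nat_lit 65) (nat_lit 5) (nat_lit 68) (nat_lit 5) (nat_lit 69) (nat_lit 5) (nat_lit 373) (nat_lit 332) (nat_lit 195))))) (XT.nd (nat_lit 234) (nat_lit 456) (nat_lit 0) (XT.nd (nat_lit 78) (nat_lit 456) (nat_lit 0) (XT.lf (nat_lit 0) (nat_lit 63840426198) (nat_lit 304) (nat_lit 1987243204) (nat_lit 76) (nat_lit 1178853896) (nat_lit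 65) (nat_lit 5) (nat_lit 69) (nat_lit 5) (nat_lit 66) (nat_lit 5) (nat_lit 374) (nat_lit 332) (nat_lit 194)) (XT.nd (nat_lit 78) (nat_lit 228) (nat_lit 0) (XT.lf (nat_lit 0) (nat_lit 17997024336) (nat_lit 228) (nat_lit 16707559250) (nat_lit 76) (nat_lit 34633635488) (nat_lit 62) (nat_lit 5) (nat_lit 65) (nat_lit 5) (nat_lit 63) (nat_lit 5) (nat_lit 375) (nat_lit 332) (nat_lit 193)) (XT.lf (nat_lit 0) (nat_lit 38957031174) (nat_lit 228) (nat_lit 1587776965) (nat_lit 304) (nat_lit 31228993042) (nat_lit 59) (nat_lit 5) (nat_lit 62) (nat_lit 5) (nat_lit 63) (nat_lit 5) (nat_lit 376) (nat_lit 332) (nat_lit 192)))) (XT.nd (nat_lit 78) (nat_lit 304) (nat_lit 0) (XT.lf (nat_lit 0) (nat_lit 23561036359) (nat_lit 152) (nat_lit 41374452792) (nat_lit 228) (nat_lit 9374209480) (nat_lit 57) (nat_lit 5) (nat_lit 59) (nat_lit 5) (nat_lit 60) (nat_lit 5) (nat_lit 377) (nat_lit 332) (nat_lit 191)) (XT.nd (nat_lit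 78) (nat_lit 0) (nat_lit 0) (XT.lf (nat_lit 0) (nat_lit 6451379131) (nat_lit 228) (nat_lit 7272695666) (nat_lit 304) (nat_lit 63231934499) (nat_lit 53) (nat_lit 5) (nat_lit 56) (nat_lit 5) (nat_lit 57) (nat_lit 5) (nat_lit 378) (nat_lit 332) (nat_lit 190)) (XT.lf (nat_lit 0) (nat_lit 38583589437) (nat_lit 304) (nat_lit 12526948315) (nat_lit 76) (nat_lit 28597308947) (nat_lit 53) (nat_lit 5) (nat_lit 57) (nat_lit 5) (nat_lit 54) (nat_lit 5) (nat_lit 379) (nat_lit 332) (nat_lit 189)))))) (XT.nd (nat_lit 468) (nat_lit 152) (nat_lit 0) (XT.nd (nat_lit 234) (nat_lit 380) (nat_lit 0) (XT.nd (nat_lit 78) (nat_lit 380) (nat_lit 0) (XT.lf (nat_lit 0) (nat_lit 49231341614) (nat_lit 152) (nat_lit 15998065207) (nat_lit 228) (nat_lit 17351570578) (nat_lit 51) (nat_lit 5) (nat_lit 53) (nat_lit 5) (nat_lit 54) (nat_lit 5) (nat_lit 380) (nat_lit 332) (nat_lit 188)) (XT.nd (nat_lit 78) (nat_lit 152) (nat_lit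 0) (XT.lf (nat_lit 0) (nat_lit 8074666040) (nat_lit 228) (nat_lit 56552678977) (nat_lit 76) (nat_lit 20949823999) (nat_lit 48) (nat_lit 5) (nat_lit 51) (nat_lit 5) (nat_lit 49) (nat_lit 5) (nat_lit 381) (nat_lit 332) (nat_lit 187)) (XT.lf (nat_lit 0) (nat_lit 6278494917) (nat_lit 152) (nat_lit 28703563886) (nat_lit 228) (nat_lit 53718897526) (nat_lit 46) (nat_lit 5) (nat_lit 48) (nat_lit 5) (nat_lit 49) (nat_lit 5) (nat_lit 382) (nat_lit 332) (nat_lit 186)))) (XT.nd (nat_lit 78) (nat_lit 380) (nat_lit 0) (XT.lf (nat_lit 0) (nat_lit 63906332320) (nat_lit 228) (nat_lit 18628185793) (nat_lit 76) (nat_lit 9426270598) (nat_lit 46) (nat_lit 5) (nat_lit 49) (nat_lit 5) (nat_lit 47) (nat_lit 5) (nat_lit 383) (nat_lit 332) (nat_lit 185)) (XT.nd (nat_lit 78) (nat_lit 228) (nat_lit 0) (XT.lf (nat_lit 0) (nat_lit 49017558240) (nat_lit 152) (nat_lit 46017222924) (nat_lit 228) (nat_lit 326093690) (nat_lit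 44) (nat_lit 5) (nat_lit 46) (nat_lit 5) (nat_lit 47) (nat_lit 5) (nat_lit 384) (nat_lit 332) (nat_lit 184)) (XT.lf (nat_lit 0) (nat_lit 21648502439) (nat_lit 152) (nat_lit 6977298300) (nat_lit 228) (nat_lit 70284896907) (nat_lit 41) (nat_lit 5) (nat_lit 43) (nat_lit 5) (nat_lit 44) (nat_lit 5) (nat_lit 385) (nat_lit 332) (nat_lit 183))))) (XT.nd (nat_lit 42822) (nat_lit 0) (nat_lit 13452) (XT.nd (nat_lit 78) (nat_lit 152) (nat_lit 0) (XT.lf (nat_lit 0) (nat_lit 59824562378) (nat_lit 228) (nat_lit 8955211102) (nat_lit 76) (nat_lit 33833961611) (nat_lit 41) (nat_lit 5) (nat_lit 44) (nat_lit 5) (nat_lit 42) (nat_lit 5) (nat_lit 386) (nat_lit 332) (nat_lit 182)) (XT.nd (nat_lit 42666) (nat_lit 0) (nat_lit 13452) (XT.lf (nat_lit 0) (nat_lit 63939746949) (nat_lit 152) (nat_lit 29325897719) (nat_lit 228) (nat_lit 13215809092) (nat_lit 39) (nat_lit 5) (nat_lit 41) (nat_lit 5) (nat_lit 42) (nat_lit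 5) (nat_lit 387) (nat_lit 332) (nat_lit 181)) (XT.lf (nat_lit 0) (nat_lit 3342616257) (nat_lit 0) (nat_lit 3342616257) (nat_lit 1140) (nat_lit 3578792721) (nat_lit 216) (nat_lit 5) (nat_lit 216) (nat_lit 3) (nat_lit 231) (nat_lit 3) (nat_lit 333) (nat_lit 333) (nat_lit 234)))) (XT.nd (nat_lit 78) (nat_lit 0) (nat_lit 76) (XT.lf (nat_lit 76) (nat_lit 1988507876) (nat_lit 0) (nat_lit 12071254351) (nat_lit 1216) (nat_lit 6970616028) (nat_lit 217) (nat_lit 5) (nat_lit 216) (nat_lit 5) (nat_lit 232) (nat_lit 5) (nat_lit 334) (nat_lit 333) (nat_lit 233)) (XT.nd (nat_lit 78) (nat_lit 0) (nat_lit 0) (XT.lf (nat_lit 0) (nat_lit 15013910683) (nat_lit 1140) (nat_lit 2765834131) (nat_lit 1216) (nat_lit 3771180256) (nat_lit 217) (nat_lit 5) (nat_lit 232) (nat_lit 5) (nat_lit 233) (nat_lit 5) (nat_lit 335) (nat_lit 333) (nat_lit 232)) (XT.lf (nat_lit 76) (nat_lit 14475838003) (nat_lit 0) (nat_lit 1785840760)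 (nat_lit 1216) (nat_lit 5828456657) (nat_lit 218) (nat_lit 5) (nat_lit 217) (nat_lit 5) (nat_lit 233) (nat_lit 5) (nat_lit 336) (nat_lit 333) (nat_lit 231))))))) (XT.nd (nat_lit 858) (nat_lit 4788) (nat_lit 0) (XT.nd (nat_lit 390) (nat_lit 1748) (nat_lit 0) (XT.nd (nat_lit 156) (nat_lit 1064) (nat_lit 0) (XT.nd (nat_lit 78) (nat_lit 0) (nat_lit 76) (XT.lf (nat_lit 76) (nat_lit 10023943021) (nat_lit 0) (nat_lit 7802881816) (nat_lit 1216) (nat_lit 4821844677) (nat_lit 219) (nat_lit 5) (nat_lit 218) (nat_lit 5) (nat_lit 234) (nat_lit 5) (nat_lit 337) (nat_lit 333) (nat_lit 230)) (XT.lf (nat_lit 76) (nat_lit 5462253545) (nat_lit 0) (nat_lit 14230627441) (nat_lit 1216) (nat_lit 3535582042) (nat_lit 220) (nat_lit 5) (nat_lit 219) (nat_lit 5) (nat_lit 235) (nat_lit 5) (nat_lit 338) (nat_lit 333) (nat_lit 229))) (XT.nd (nat_lit 78) (nat_lit 1216) (nat_lit 0) (XT.lf (nat_lit 76) (nat_lit 785251113)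 (nat_lit 0) (nat_lit 21096046834) (nat_lit 1216) (nat_lit 1949088244) (nat_lit 221) (nat_lit 5) (nat_lit 220) (nat_lit 5) (nat_lit 236) (nat_lit 5) (nat_lit 339) (nat_lit 333) (nat_lit 228)) (XT.nd (nat_lit 78) (nat_lit 0) (nat_lit 76) (XT.lf (nat_lit 0) (nat_lit 37862377) (nat_lit 1216) (nat_lit 3973536194) (nat_lit 1292) (nat_lit 20441631325) (nat_lit 204) (nat_lit 5) (nat_lit 220) (nat_lit 5) (nat_lit 221) (nat_lit 5) (nat_lit 340) (nat_lit 333) (nat_lit 227)) (XT.lf (nat_lit 0) (nat_lit 2364851945) (nat_lit 1216) (nat_lit 8895670828) (nat_lit 1292) (nat_lit 13837284343) (nat_lit 205) (nat_lit 5) (nat_lit 221) (nat_lit 5) (nat_lit 222) (nat_lit 5) (nat_lit 341) (nat_lit 333) (nat_lit 226))))) (XT.nd (nat_lit 234) (nat_lit 1140) (nat_lit 0) (XT.nd (nat_lit 78) (nat_lit 760) (nat_lit 0) (XT.lf (nat_lit 0) (nat_lit 5058749925) (nat_lit 1216) (nat_lit 13957691375) (nat_lit 1292) (nat_lit 6750874953)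 (nat_lit 206) (nat_lit 5) (nat_lit 222) (nat_lit 5) (nat_lit 223) (nat_lit 5) (nat_lit 342) (nat_lit 333) (nat_lit 225)) (XT.nd (nat_lit 78) (nat_lit 760) (nat_lit 0) (XT.lf (nat_lit 76) (nat_lit 7286932185) (nat_lit 0) (nat_lit 865481237) (nat_lit 1292) (nat_lit 18309944661) (nat_lit 207) (nat_lit 5) (nat_lit 206) (nat_lit 5) (nat_lit 223) (nat_lit 5) (nat_lit 343) (nat_lit 333) (nat_lit 224)) (XT.lf (nat_lit 0) (nat_lit 2562002638) (nat_lit 836) (nat_lit 9172720803) (nat_lit 912) (nat_lit 15447418574) (nat_lit 196) (nat_lit 5) (nat_lit 207) (nat_lit 5) (nat_lit 208) (nat_lit 5) (nat_lit 344) (nat_lit 333) (nat_lit 223)))) (XT.nd (nat_lit 78) (nat_lit 1140) (nat_lit 0) (XT.lf (nat_lit 0) (nat_lit 15788829098) (nat_lit 912) (nat_lit 2259852752) (nat_lit 76) (nat_lit 9880461376) (nat_lit 196) (nat_lit 5) (nat_lit 208) (nat_lit 5) (nat_lit 197) (nat_lit 5) (nat_lit 345) (nat_lit 333) (nat_lit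 222)) (XT.nd (nat_lit 78) (nat_lit 532) (nat_lit 0) (XT.lf (nat_lit 0) (nat_lit 20347069854) (nat_lit 684) (nat_lit 7179143667) (nat_lit 76) (nat_lit 1178246163) (nat_lit 188) (nat_lit 5) (nat_lit 197) (nat_lit 5) (nat_lit 189) (nat_lit 5) (nat_lit 346) (nat_lit 333) (nat_lit 221)) (XT.lf (nat_lit 0) (nat_lit 17172868367) (nat_lit 532) (nat_lit 8321747449) (nat_lit 608) (nat_lit 4013092050) (nat_lit 181) (nat_lit 5) (nat_lit 188) (nat_lit 5) (nat_lit 189) (nat_lit 5) (nat_lit 347) (nat_lit 333) (nat_lit 220)))))) (XT.nd (nat_lit 468) (nat_lit 2204) (nat_lit 0) (XT.nd (nat_lit 234) (nat_lit 912) (nat_lit 0) (XT.nd (nat_lit 78) (nat_lit 1064) (nat_lit 0) (XT.lf (nat_lit 0) (nat_lit 841953892) (nat_lit 608) (nat_lit 17683112160) (nat_lit 76) (nat_lit 11816774322) (nat_lit 173) (nat_lit 5) (nat_lit 181) (nat_lit 5) (nat_lit 174) (nat_lit 5) (nat_lit 348) (nat_lit 333) (nat_lit 219)) (XT.nd (nat_lit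 78) (nat_lit 532) (nat_lit 0) (XT.lf (nat_lit 0) (nat_lit 6155185536) (nat_lit 608) (nat_lit 23258987683) (nat_lit 76) (nat_lit 1793368150) (nat_lit 166) (nat_lit 5) (nat_lit 174) (nat_lit 5) (nat_lit 167) (nat_lit 5) (nat_lit 349) (nat_lit 333) (nat_lit 218)) (XT.lf (nat_lit 0) (nat_lit 2980740049) (nat_lit 532) (nat_lit 9144403299) (nat_lit 608) (nat_lit 19979658583) (nat_lit 159) (nat_lit 5) (nat_lit 166) (nat_lit 5) (nat_lit 167) (nat_lit 5) (nat_lit 350) (nat_lit 333) (nat_lit 217)))) (XT.nd (nat_lit 78) (nat_lit 912) (nat_lit 0) (XT.lf (nat_lit 0) (nat_lit 18743997494) (nat_lit 608) (nat_lit 2149194667) (nat_lit 76) (nat_lit 12143227555) (nat_lit 159) (nat_lit 5) (nat_lit 167) (nat_lit 5) (nat_lit 160) (nat_lit 5) (nat_lit 351) (nat_lit 333) (nat_lit 216)) (XT.nd (nat_lit 78) (nat_lit 456) (nat_lit 0) (XT.lf (nat_lit 0) (nat_lit 26039380375) (nat_lit 532) (nat_lit 7417221384) (nat_lit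 76) (nat_lit 547654905) (nat_lit 153) (nat_lit 5) (nat_lit 160) (nat_lit 5) (nat_lit 154) (nat_lit 5) (nat_lit 352) (nat_lit 333) (nat_lit 215)) (XT.lf (nat_lit 0) (nat_lit 21994817955) (nat_lit 456) (nat_lit 12141941389) (nat_lit 532) (nat_lit 870614883) (nat_lit 147) (nat_lit 5) (nat_lit 153) (nat_lit 5) (nat_lit 154) (nat_lit 5) (nat_lit 353) (nat_lit 333) (nat_lit 214))))) (XT.nd (nat_lit 234) (nat_lit 836) (nat_lit 0) (XT.nd (nat_lit 78) (nat_lit 836) (nat_lit 0) (XT.lf (nat_lit 0) (nat_lit 6787017675) (nat_lit 532) (nat_lit 18914993237) (nat_lit 76) (nat_lit 10346634090) (nat_lit 140) (nat_lit 5) (nat_lit 147) (nat_lit 5) (nat_lit 141) (nat_lit 5) (nat_lit 354) (nat_lit 333) (nat_lit 213)) (XT.nd (nat_lit 78) (nat_lit 380) (nat_lit 0) (XT.lf (nat_lit 0) (nat_lit 12014598797) (nat_lit 456) (nat_lit 3161446791) (nat_lit 532) (nat_lit 21954684457) (nat_lit 134) (nat_lit 5) (nat_lit 140)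 (nat_lit 5) (nat_lit 141) (nat_lit 5) (nat_lit 355) (nat_lit 333) (nat_lit 212)) (XT.lf (nat_lit 0) (nat_lit 6545264014) (nat_lit 380) (nat_lit 17889207466) (nat_lit 456) (nat_lit 13818954139) (nat_lit 129) (nat_lit 5) (nat_lit 134) (nat_lit 5) (nat_lit 135) (nat_lit 5) (nat_lit 356) (nat_lit 333) (nat_lit 211)))) (XT.nd (nat_lit 78) (nat_lit 456) (nat_lit 0) (XT.lf (nat_lit 0) (nat_lit 809972525) (nat_lit 380) (nat_lit 33693376006) (nat_lit 456) (nat_lit 4918486000) (nat_lit 124) (nat_lit 5) (nat_lit 129) (nat_lit 5) (nat_lit 130) (nat_lit 5) (nat_lit 357) (nat_lit 333) (nat_lit 210)) (XT.nd (nat_lit 78) (nat_lit 380) (nat_lit 0) (XT.lf (nat_lit 0) (nat_lit 4844483900) (nat_lit 456) (nat_lit 5256711922) (nat_lit 76) (nat_lit 30531079577) (nat_lit 123) (nat_lit 5) (nat_lit 129) (nat_lit 5) (nat_lit 124) (nat_lit 5) (nat_lit 358) (nat_lit 333) (nat_lit 209)) (XT.lf (nat_lit 0) (nat_lit 15424438171)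 (nat_lit 456) (nat_lit 11737489306) (nat_lit 76) (nat_lit 14726937087) (nat_lit 118) (nat_lit 5) (nat_lit 124) (nat_lit 5) (nat_lit 119) (nat_lit 5) (nat_lit 359) (nat_lit 333) (nat_lit 208))))))))
noncomputable def xc103 : XT := (XT.nd (nat_lit 1794) (nat_lit 532) (nat_lit 0) (XT.nd (nat_lit 858) (nat_lit 2280) (nat_lit 0) (XT.nd (nat_lit 390) (nat_lit 1596) (nat_lit 0) (XT.nd (nat_lit 156) (nat_lit 760) (nat_lit 0) (XT.nd (nat_lit 78) (nat_lit 304) (nat_lit 0) (XT.lf (nat_lit 0) (nat_lit 24602992096) (nat_lit 380) (nat_lit 2317666154) (nat_lit 456) (nat_lit 16276010630) (nat_lit 113) (nat_lit 5) (nat_lit 118) (nat_lit 5) (nat_lit 119) (nat_lit 5) (nat_lit 360) (nat_lit 333) (nat_lit 207)) (XT.lf (nat_lit 0) (nat_lit 18564518765) (nat_lit 304) (nat_lit 20950482785) (nat_lit 380) (nat_lit 5039166054) (nat_lit 109) (nat_lit 5) (nat_lit 113) (nat_lit 5) (nat_lit 114) (nat_lit 5) (nat_lit 361)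 (nat_lit 333) (nat_lit 206))) (XT.nd (nat_lit 78) (nat_lit 304) (nat_lit 0) (XT.lf (nat_lit 0) (nat_lit 7005233596) (nat_lit 456) (nat_lit 33883142122) (nat_lit 76) (nat_lit 5077891072) (nat_lit 103) (nat_lit 5) (nat_lit 109) (nat_lit 5) (nat_lit 104) (nat_lit 5) (nat_lit 362) (nat_lit 333) (nat_lit 205)) (XT.nd (nat_lit 78) (nat_lit 0) (nat_lit 0) (XT.lf (nat_lit 0) (nat_lit 4986610621) (nat_lit 304) (nat_lit 15086244488) (nat_lit 380) (nat_lit 27358865590) (nat_lit 99) (nat_lit 5) (nat_lit 103) (nat_lit 5) (nat_lit 104) (nat_lit 5) (nat_lit 363) (nat_lit 333) (nat_lit 204)) (XT.lf (nat_lit 0) (nat_lit 34256350498) (nat_lit 380) (nat_lit 2578288121) (nat_lit 76) (nat_lit 12121936884) (nat_lit 99) (nat_lit 5) (nat_lit 104) (nat_lit 5) (nat_lit 100) (nat_lit 5) (nat_lit 364) (nat_lit 333) (nat_lit 203))))) (XT.nd (nat_lit 234) (nat_lit 608) (nat_lit 0) (XT.nd (nat_lit 78) (nat_lit 684) (nat_lit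 0) (XT.lf (nat_lit 0) (nat_lit 39901221060) (nat_lit 304) (nat_lit 9778703054) (nat_lit 380) (nat_lit 861824671) (nat_lit 95) (nat_lit 5) (nat_lit 99) (nat_lit 5) (nat_lit 100) (nat_lit 5) (nat_lit 365) (nat_lit 333) (nat_lit 202)) (XT.nd (nat_lit 78) (nat_lit 304) (nat_lit 0) (XT.lf (nat_lit 0) (nat_lit 13923362984) (nat_lit 380) (nat_lit 19520080070) (nat_lit 76) (nat_lit 18743150941) (nat_lit 90) (nat_lit 5) (nat_lit 95) (nat_lit 5) (nat_lit 91) (nat_lit 5) (nat_lit 366) (nat_lit 333) (nat_lit 201)) (XT.lf (nat_lit 0) (nat_lit 24819888660) (nat_lit 304) (nat_lit 5053508330) (nat_lit 380) (nat_lit 24026728664) (nat_lit 86) (nat_lit 5) (nat_lit 90) (nat_lit 5) (nat_lit 91) (nat_lit 5) (nat_lit 367) (nat_lit 333) (nat_lit 200)))) (XT.nd (nat_lit 78) (nat_lit 380) (nat_lit 0) (XT.lf (nat_lit 0) (nat_lit 16160101508) (nat_lit 228) (nat_lit 31052553190) (nat_lit 304) (nat_lit 8468929923) (nat_lit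 83) (nat_lit 5) (nat_lit 86) (nat_lit 5) (nat_lit 87) (nat_lit 5) (nat_lit 368) (nat_lit 333) (nat_lit 199)) (XT.nd (nat_lit 78) (nat_lit 0) (nat_lit 0) (XT.lf (nat_lit 0) (nat_lit 6721950828) (nat_lit 304) (nat_lit 1404827600) (nat_lit 380) (nat_lit 49410665853) (nat_lit 78) (nat_lit 5) (nat_lit 82) (nat_lit 5) (nat_lit 83) (nat_lit 5) (nat_lit 369) (nat_lit 333) (nat_lit 198)) (XT.lf (nat_lit 0) (nat_lit 26071068919) (nat_lit 380) (nat_lit 3752256717) (nat_lit 76) (nat_lit 29639439448) (nat_lit 78) (nat_lit 5) (nat_lit 83) (nat_lit 5) (nat_lit 79) (nat_lit 5) (nat_lit 370) (nat_lit 333) (nat_lit 197)))))) (XT.nd (nat_lit 468) (nat_lit 1064) (nat_lit 0) (XT.nd (nat_lit 234) (nat_lit 456) (nat_lit 0) (XT.nd (nat_lit 78) (nat_lit 532) (nat_lit 0) (XT.lf (nat_lit 0) (nat_lit 45381520853) (nat_lit 304) (nat_lit 14929873162) (nat_lit 76) (nat_lit 1158891502) (nat_lit 75) (nat_lit 5) (nat_lit 79)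 (nat_lit 5) (nat_lit 76) (nat_lit 5) (nat_lit 371) (nat_lit 333) (nat_lit 196)) (XT.nd (nat_lit 78) (nat_lit 228) (nat_lit 0) (XT.lf (nat_lit 0) (nat_lit 2730017212) (nat_lit 304) (nat_lit 27335528944) (nat_lit 76) (nat_lit 33491299676) (nat_lit 71) (nat_lit 5) (nat_lit 75) (nat_lit 5) (nat_lit 72) (nat_lit 5) (nat_lit 372) (nat_lit 333) (nat_lit 195)) (XT.lf (nat_lit 0) (nat_lit 22571702625) (nat_lit 304) (nat_lit 40939776035) (nat_lit 76) (nat_lit 2219037278) (nat_lit 68) (nat_lit 5) (nat_lit 72) (nat_lit 5) (nat_lit 69) (nat_lit 5) (nat_lit 373) (nat_lit 333) (nat_lit 194)))) (XT.nd (nat_lit 78) (nat_lit 228) (nat_lit 0) (XT.lf (nat_lit 0) (nat_lit 12012295468) (nat_lit 228) (nat_lit 32092519309) (nat_lit 304) (nat_lit 23887076173) (nat_lit 65) (nat_lit 5) (nat_lit 68) (nat_lit 5) (nat_lit 69) (nat_lit 5) (nat_lit 374) (nat_lit 333) (nat_lit 193)) (XT.nd (nat_lit 78) (nat_lit 228) (nat_lit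 0) (XT.lf (nat_lit 0) (nat_lit 67145155732) (nat_lit 304) (nat_lit 1904906726) (nat_lit 76) (nat_lit 1303356657) (nat_lit 65) (nat_lit 5) (nat_lit 69) (nat_lit 5) (nat_lit 66) (nat_lit 5) (nat_lit 375) (nat_lit 333) (nat_lit 192)) (XT.lf (nat_lit 0) (nat_lit 19007038682) (nat_lit 228) (nat_lit 17364209066) (nat_lit 76) (nat_lit 36430531984) (nat_lit 62) (nat_lit 5) (nat_lit 65) (nat_lit 5) (nat_lit 63) (nat_lit 5) (nat_lit 376) (nat_lit 333) (nat_lit 191))))) (XT.nd (nat_lit 234) (nat_lit 380) (nat_lit 0) (XT.nd (nat_lit 78) (nat_lit 456) (nat_lit 0) (XT.lf (nat_lit 0) (nat_lit 41078487672) (nat_lit 228) (nat_lit 1600146938) (nat_lit 304) (nat_lit 32680615810) (nat_lit 59) (nat_lit 5) (nat_lit 62) (nat_lit 5) (nat_lit 63) (nat_lit 5) (nat_lit 377) (nat_lit 333) (nat_lit 190)) (XT.nd (nat_lit 78) (nat_lit 304) (nat_lit 0) (XT.lf (nat_lit 0) (nat_lit 24910238928) (nat_lit 152) (nat_lit 43375793972)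 (nat_lit 228) (nat_lit 9735996404) (nat_lit 57) (nat_lit 5) (nat_lit 59) (nat_lit 5) (nat_lit 60) (nat_lit 5) (nat_lit 378) (nat_lit 333) (nat_lit 189)) (XT.lf (nat_lit 0) (nat_lit 6942258326) (nat_lit 228) (nat_lit 7569482955) (nat_lit 304) (nat_lit 66288986520) (nat_lit 53) (nat_lit 5) (nat_lit 56) (nat_lit 5) (nat_lit 57) (nat_lit 5) (nat_lit 379) (nat_lit 333) (nat_lit 188)))) (XT.nd (nat_lit 78) (nat_lit 380) (nat_lit 0) (XT.lf (nat_lit 0) (nat_lit 40610012075) (nat_lit 304) (nat_lit 12990677046) (nat_lit 76) (nat_lit 30089596355) (nat_lit 53) (nat_lit 5) (nat_lit 57) (nat_lit 5) (nat_lit 54) (nat_lit 5) (nat_lit 380) (nat_lit 333) (nat_lit 187)) (XT.nd (nat_lit 78) (nat_lit 228) (nat_lit 0) (XT.lf (nat_lit 0) (nat_lit 51850865947) (nat_lit 152) (nat_lit 16734142136) (nat_lit 228) (nat_lit 18122159723) (nat_lit 51) (nat_lit 5) (nat_lit 53) (nat_lit 5) (nat_lit 54) (nat_lit 5) (nat_lit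 381) (nat_lit 333) (nat_lit 186)) (XT.lf (nat_lit 0) (nat_lit 8571068432) (nat_lit 228) (nat_lit 59222826680) (nat_lit 76) (nat_lit 22059320348) (nat_lit 48) (nat_lit 5) (nat_lit 51) (nat_lit 5) (nat_lit 49) (nat_lit 5) (nat_lit 382) (nat_lit 333) (nat_lit 185))))))) (XT.nd (nat_lit 43524) (nat_lit 0) (nat_lit 8968) (XT.nd (nat_lit 43056) (nat_lit 0) (nat_lit 13300) (XT.nd (nat_lit 156) (nat_lit 380) (nat_lit 0) (XT.nd (nat_lit 78) (nat_lit 0) (nat_lit 0) (XT.lf (nat_lit 0) (nat_lit 6745391597) (nat_lit 152) (nat_lit 30075496882) (nat_lit 228) (nat_lit 56312393451) (nat_lit 46) (nat_lit 5) (nat_lit 48) (nat_lit 5) (nat_lit 49) (nat_lit 5) (nat_lit 383) (nat_lit 333) (nat_lit 184)) (XT.lf (nat_lit 0) (nat_lit 67187681972) (nat_lit 228) (nat_lit 19411893943) (nat_lit 76) (nat_lit 9956642277) (nat_lit 46) (nat_lit 5) (nat_lit 49) (nat_lit 5) (nat_lit 47) (nat_lit 5) (nat_lit 384) (nat_lit 333)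 (nat_lit 183))) (XT.nd (nat_lit 78) (nat_lit 228) (nat_lit 0) (XT.lf (nat_lit 0) (nat_lit 51611903469) (nat_lit 152) (nat_lit 48257932073) (nat_lit 228) (nat_lit 256556009) (nat_lit 44) (nat_lit 5) (nat_lit 46) (nat_lit 5) (nat_lit 47) (nat_lit 5) (nat_lit 385) (nat_lit 333) (nat_lit 182)) (XT.nd (nat_lit 78) (nat_lit 0) (nat_lit 0) (XT.lf (nat_lit 0) (nat_lit 22871935507) (nat_lit 152) (nat_lit 7266670029) (nat_lit 228) (nat_lit 73715156042) (nat_lit 41) (nat_lit 5) (nat_lit 43) (nat_lit 5) (nat_lit 44) (nat_lit 5) (nat_lit 386) (nat_lit 333) (nat_lit 181)) (XT.lf (nat_lit 0) (nat_lit 62893968255) (nat_lit 228) (nat_lit 9266869741) (nat_lit 76) (nat_lit 35581214225) (nat_lit 41) (nat_lit 5) (nat_lit 44) (nat_lit 5) (nat_lit 42) (nat_lit 5) (nat_lit 387) (nat_lit 333) (nat_lit 180))))) (XT.nd (nat_lit 234) (nat_lit 0) (nat_lit 76) (XT.nd (nat_lit 78) (nat_lit 0) (nat_lit 0) (XT.lf (nat_lit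 0) (nat_lit 3631945780) (nat_lit 0) (nat_lit 3631945780) (nat_lit 1140) (nat_lit 3505784074) (nat_lit 216) (nat_lit 5) (nat_lit 216) (nat_lit 3) (nat_lit 231) (nat_lit 3) (nat_lit 334) (nat_lit 334) (nat_lit 232)) (XT.nd (nat_lit 78) (nat_lit 0) (nat_lit 76) (XT.lf (nat_lit 76) (nat_lit 2342275881) (nat_lit 0) (nat_lit 12886200825) (nat_lit 1216) (nat_lit 6839031642) (nat_lit 217) (nat_lit 5) (nat_lit 216) (nat_lit 5) (nat_lit 232) (nat_lit 5) (nat_lit 335) (nat_lit 334) (nat_lit 231)) (XT.lf (nat_lit 0) (nat_lit 16206219948) (nat_lit 1140) (nat_lit 2646255952) (nat_lit 1216) (nat_lit 3762349842) (nat_lit 217) (nat_lit 5) (nat_lit 232) (nat_lit 5) (nat_lit 233) (nat_lit 5) (nat_lit 336) (nat_lit 334) (nat_lit 230)))) (XT.nd (nat_lit 78) (nat_lit 0) (nat_lit 76) (XT.lf (nat_lit 76) (nat_lit 15450108001) (nat_lit 0) (nat_lit 2047646955) (nat_lit 1216) (nat_lit 5683819211) (nat_lit 218) (nat_lit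 5) (nat_lit 217) (nat_lit 5) (nat_lit 233) (nat_lit 5) (nat_lit 337) (nat_lit 334) (nat_lit 229)) (XT.nd (nat_lit 78) (nat_lit 0) (nat_lit 76) (XT.lf (nat_lit 76) (nat_lit 10782742575) (nat_lit 0) (nat_lit 8339170158) (nat_lit 1216) (nat_lit 4646717613) (nat_lit 219) (nat_lit 5) (nat_lit 218) (nat_lit 5) (nat_lit 234) (nat_lit 5) (nat_lit 338) (nat_lit 334) (nat_lit 228)) (XT.lf (nat_lit 76) (nat_lit 5999064182) (nat_lit 0) (nat_lit 15064178372) (nat_lit 1216) (nat_lit 3314729011) (nat_lit 220) (nat_lit 5) (nat_lit 219) (nat_lit 5) (nat_lit 235) (nat_lit 5) (nat_lit 339) (nat_lit 334) (nat_lit 227)))))) (XT.nd (nat_lit 468) (nat_lit 2812) (nat_lit 0) (XT.nd (nat_lit 234) (nat_lit 608) (nat_lit 0) (XT.nd (nat_lit 78) (nat_lit 1216) (nat_lit 0) (XT.lf (nat_lit 76) (nat_lit 1093365170) (nat_lit 0) (nat_lit 22250814984) (nat_lit 1216) (nat_lit 1666334075) (nat_lit 221) (nat_lit 5) (nat_lit 220)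 (nat_lit 5) (nat_lit 236) (nat_lit 5) (nat_lit 340) (nat_lit 334) (nat_lit 226)) (XT.nd (nat_lit 78) (nat_lit 0) (nat_lit 76) (XT.lf (nat_lit 0) (nat_lit 394792964) (nat_lit 1216) (nat_lit 3908795884) (nat_lit 1292) (nat_lit 21361139289) (nat_lit 204) (nat_lit 5) (nat_lit 220) (nat_lit 5) (nat_lit 221) (nat_lit 5) (nat_lit 341) (nat_lit 334) (nat_lit 225)) (XT.lf (nat_lit 0) (nat_lit 2822870587) (nat_lit 1216) (nat_lit 9073268173) (nat_lit 1292) (nat_lit 14446077688) (nat_lit 205) (nat_lit 5) (nat_lit 221) (nat_lit 5) (nat_lit 222) (nat_lit 5) (nat_lit 342) (nat_lit 334) (nat_lit 224)))) (XT.nd (nat_lit 78) (nat_lit 760) (nat_lit 0) (XT.lf (nat_lit 0) (nat_lit 5637138540) (nat_lit 1216) (nat_lit 14385351966) (nat_lit 1292) (nat_lit 7023153985) (nat_lit 206) (nat_lit 5) (nat_lit 222) (nat_lit 5) (nat_lit 223) (nat_lit 5) (nat_lit 343) (nat_lit 334) (nat_lit 223)) (XT.nd (nat_lit 78) (nat_lit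 760) (nat_lit 0) (XT.lf (nat_lit 76) (nat_lit 7913756856) (nat_lit 0) (nat_lit 958753784) (nat_lit 1292) (nat_lit 18903330060) (nat_lit 207) (nat_lit 5) (nat_lit 206) (nat_lit 5) (nat_lit 223) (nat_lit 5) (nat_lit 344) (nat_lit 334) (nat_lit 222)) (XT.lf (nat_lit 0) (nat_lit 2954882884) (nat_lit 836) (nat_lit 9666260939) (nat_lit 912) (nat_lit 15910866204) (nat_lit 196) (nat_lit 5) (nat_lit 207) (nat_lit 5) (nat_lit 208) (nat_lit 5) (nat_lit 345) (nat_lit 334) (nat_lit 221))))) (XT.nd (nat_lit 234) (nat_lit 1672) (nat_lit 0) (XT.nd (nat_lit 78) (nat_lit 1140) (nat_lit 0) (XT.lf (nat_lit 0) (nat_lit 16863364544) (nat_lit 912) (nat_lit 2111555178) (nat_lit 76) (nat_lit 10341891119) (nat_lit 196) (nat_lit 5) (nat_lit 208) (nat_lit 5) (nat_lit 197) (nat_lit 5) (nat_lit 346) (nat_lit 334) (nat_lit 220)) (XT.nd (nat_lit 78) (nat_lit 532) (nat_lit 0) (XT.lf (nat_lit 0) (nat_lit 21638187353) (nat_lit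 684) (nat_lit 7275662518) (nat_lit 76) (nat_lit 1217394423) (nat_lit 188) (nat_lit 5) (nat_lit 197) (nat_lit 5) (nat_lit 189) (nat_lit 5) (nat_lit 347) (nat_lit 334) (nat_lit 219)) (XT.lf (nat_lit 0) (nat_lit 18286427375) (nat_lit 532) (nat_lit 8746097261) (nat_lit 608) (nat_lit 3942458565) (nat_lit 181) (nat_lit 5) (nat_lit 188) (nat_lit 5) (nat_lit 189) (nat_lit 5) (nat_lit 348) (nat_lit 334) (nat_lit 218)))) (XT.nd (nat_lit 78) (nat_lit 1064) (nat_lit 0) (XT.lf (nat_lit 0) (nat_lit 1139784035) (nat_lit 608) (nat_lit 18306416436) (nat_lit 76) (nat_lit 12404861412) (nat_lit 173) (nat_lit 5) (nat_lit 181) (nat_lit 5) (nat_lit 174) (nat_lit 5) (nat_lit 349) (nat_lit 334) (nat_lit 217)) (XT.nd (nat_lit 78) (nat_lit 532) (nat_lit 0) (XT.lf (nat_lit 0) (nat_lit 6709006090) (nat_lit 608) (nat_lit 24161065172) (nat_lit 76) (nat_lit 1890276254) (nat_lit 166) (nat_lit 5) (nat_lit 174) (nat_lit 5) (nat_lit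 167) (nat_lit 5) (nat_lit 350) (nat_lit 334) (nat_lit 216)) (XT.lf (nat_lit 0) (nat_lit 3383171106) (nat_lit 532) (nat_lit 9585009261) (nat_lit 608) (nat_lit 20734578186) (nat_lit 159) (nat_lit 5) (nat_lit 166) (nat_lit 5) (nat_lit 167) (nat_lit 5) (nat_lit 351) (nat_lit 334) (nat_lit 215))))))))
noncomputable def xc104 : XT := (XT.nd (nat_lit 1716) (nat_lit 2052) (nat_lit 0) (XT.nd (nat_lit 858) (nat_lit 2888) (nat_lit 0) (XT.nd (nat_lit 390) (nat_lit 1900) (nat_lit 0) (XT.nd (nat_lit 156) (nat_lit 1444) (nat_lit 0) (XT.nd (nat_lit 78) (nat_lit 456) (nat_lit 0) (XT.lf (nat_lit 0) (nat_lit 19906854091) (nat_lit 608) (nat_lit 2008542188) (nat_lit 76) (nat_lit 12765903218) (nat_lit 159) (nat_lit 5) (nat_lit 167) (nat_lit 5) (nat_lit 160) (nat_lit 5) (nat_lit 352) (nat_lit 334) (nat_lit 214)) (XT.lf (nat_lit 0) (nat_lit 27558805712) (nat_lit 532) (nat_lit 7540630671) (nat_lit 76) (nat_lit 598346088)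 (nat_lit 153) (nat_lit 5) (nat_lit 160) (nat_lit 5) (nat_lit 154) (nat_lit 5) (nat_lit 353) (nat_lit 334) (nat_lit 213))) (XT.nd (nat_lit 78) (nat_lit 988) (nat_lit 0) (XT.lf (nat_lit 0) (nat_lit 23334917480) (nat_lit 456) (nat_lit 12718091562) (nat_lit 532) (nat_lit 698295987) (nat_lit 147) (nat_lit 5) (nat_lit 153) (nat_lit 5) (nat_lit 154) (nat_lit 5) (nat_lit 354) (nat_lit 334) (nat_lit 212)) (XT.nd (nat_lit 78) (nat_lit 456) (nat_lit 0) (XT.lf (nat_lit 0) (nat_lit 7330538699) (nat_lit 532) (nat_lit 19617102465) (nat_lit 76) (nat_lit 10897167147) (nat_lit 140) (nat_lit 5) (nat_lit 147) (nat_lit 5) (nat_lit 141) (nat_lit 5) (nat_lit 355) (nat_lit 334) (nat_lit 211)) (XT.lf (nat_lit 0) (nat_lit 12851985266) (nat_lit 456) (nat_lit 3279585241) (nat_lit 532) (nat_lit 22849657374) (nat_lit 134) (nat_lit 5) (nat_lit 140) (nat_lit 5) (nat_lit 141) (nat_lit 5) (nat_lit 356) (nat_lit 334) (nat_lit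 210))))) (XT.nd (nat_lit 234) (nat_lit 1064) (nat_lit 0) (XT.nd (nat_lit 78) (nat_lit 456) (nat_lit 0) (XT.lf (nat_lit 0) (nat_lit 7107892737) (nat_lit 380) (nat_lit 18738285281) (nat_lit 456) (nat_lit 14314088931) (nat_lit 129) (nat_lit 5) (nat_lit 134) (nat_lit 5) (nat_lit 135) (nat_lit 5) (nat_lit 357) (nat_lit 334) (nat_lit 209)) (XT.nd (nat_lit 78) (nat_lit 76) (nat_lit 0) (XT.lf (nat_lit 0) (nat_lit 1084329065) (nat_lit 380) (nat_lit 35327786504) (nat_lit 456) (nat_lit 4975178450) (nat_lit 124) (nat_lit 5) (nat_lit 129) (nat_lit 5) (nat_lit 130) (nat_lit 5) (nat_lit 358) (nat_lit 334) (nat_lit 208)) (XT.lf (nat_lit 0) (nat_lit 5263412148) (nat_lit 456) (nat_lit 5293194050) (nat_lit 76) (nat_lit 32101866961) (nat_lit 123) (nat_lit 5) (nat_lit 129) (nat_lit 5) (nat_lit 124) (nat_lit 5) (nat_lit 359) (nat_lit 334) (nat_lit 207)))) (XT.nd (nat_lit 78) (nat_lit 684) (nat_lit 0) (XT.lf (nat_lit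 0) (nat_lit 16366538591) (nat_lit 456) (nat_lit 12099752631) (nat_lit 76) (nat_lit 15511780798) (nat_lit 118) (nat_lit 5) (nat_lit 124) (nat_lit 5) (nat_lit 119) (nat_lit 5) (nat_lit 360) (nat_lit 334) (nat_lit 206)) (XT.nd (nat_lit 78) (nat_lit 304) (nat_lit 0) (XT.lf (nat_lit 0) (nat_lit 26051314408) (nat_lit 380) (nat_lit 2380215403) (nat_lit 456) (nat_lit 16919923147) (nat_lit 113) (nat_lit 5) (nat_lit 118) (nat_lit 5) (nat_lit 119) (nat_lit 5) (nat_lit 361) (nat_lit 334) (nat_lit 205)) (XT.lf (nat_lit 0) (nat_lit 19709070176) (nat_lit 304) (nat_lit 21941238359) (nat_lit 380) (nat_lit 5126681496) (nat_lit 109) (nat_lit 5) (nat_lit 113) (nat_lit 5) (nat_lit 114) (nat_lit 5) (nat_lit 362) (nat_lit 334) (nat_lit 204)))))) (XT.nd (nat_lit 390) (nat_lit 1444) (nat_lit 0) (XT.nd (nat_lit 156) (nat_lit 684) (nat_lit 0) (XT.nd (nat_lit 78) (nat_lit 304) (nat_lit 0) (XT.lf (nat_lit 0) (nat_lit 7511657080)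 (nat_lit 456) (nat_lit 35359759144) (nat_lit 76) (nat_lit 5388387285) (nat_lit 103) (nat_lit 5) (nat_lit 109) (nat_lit 5) (nat_lit 104) (nat_lit 5) (nat_lit 363) (nat_lit 334) (nat_lit 203)) (XT.lf (nat_lit 0) (nat_lit 5447245493) (nat_lit 304) (nat_lit 15780009085) (nat_lit 380) (nat_lit 28571442058) (nat_lit 99) (nat_lit 5) (nat_lit 103) (nat_lit 5) (nat_lit 104) (nat_lit 5) (nat_lit 364) (nat_lit 334) (nat_lit 202))) (XT.nd (nat_lit 78) (nat_lit 684) (nat_lit 0) (XT.lf (nat_lit 0) (nat_lit 36113300151) (nat_lit 380) (nat_lit 2502124035) (nat_lit 76) (nat_lit 12784572894) (nat_lit 99) (nat_lit 5) (nat_lit 104) (nat_lit 5) (nat_lit 100) (nat_lit 5) (nat_lit 365) (nat_lit 334) (nat_lit 201)) (XT.nd (nat_lit 78) (nat_lit 380) (nat_lit 0) (XT.lf (nat_lit 0) (nat_lit 42095482072) (nat_lit 304) (nat_lit 10207621774) (nat_lit 380) (nat_lit 761477603) (nat_lit 95) (nat_lit 5) (nat_lit 99) (nat_lit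 5) (nat_lit 100) (nat_lit 5) (nat_lit 366) (nat_lit 334) (nat_lit 200)) (XT.lf (nat_lit 0) (nat_lit 14755941249) (nat_lit 380) (nat_lit 20296233580) (nat_lit 76) (nat_lit 19739583266) (nat_lit 90) (nat_lit 5) (nat_lit 95) (nat_lit 5) (nat_lit 91) (nat_lit 5) (nat_lit 367) (nat_lit 334) (nat_lit 199))))) (XT.nd (nat_lit 234) (nat_lit 532) (nat_lit 0) (XT.nd (nat_lit 78) (nat_lit 608) (nat_lit 0) (XT.lf (nat_lit 0) (nat_lit 26255004913) (nat_lit 304) (nat_lit 5243842341) (nat_lit 380) (nat_lit 25092261464) (nat_lit 86) (nat_lit 5) (nat_lit 90) (nat_lit 5) (nat_lit 91) (nat_lit 5) (nat_lit 368) (nat_lit 334) (nat_lit 198)) (XT.nd (nat_lit 78) (nat_lit 380) (nat_lit 0) (XT.lf (nat_lit 0) (nat_lit 17159989748) (nat_lit 228) (nat_lit 32541218067) (nat_lit 304) (nat_lit 8760551943) (nat_lit 83) (nat_lit 5) (nat_lit 86) (nat_lit 5) (nat_lit 87) (nat_lit 5) (nat_lit 369) (nat_lit 334) (nat_lit 197))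 (XT.lf (nat_lit 0) (nat_lit 7246992571) (nat_lit 304) (nat_lit 1411038268) (nat_lit 380) (nat_lit 51752476778) (nat_lit 78) (nat_lit 5) (nat_lit 82) (nat_lit 5) (nat_lit 83) (nat_lit 5) (nat_lit 370) (nat_lit 334) (nat_lit 196)))) (XT.nd (nat_lit 78) (nat_lit 532) (nat_lit 0) (XT.lf (nat_lit 0) (nat_lit 27494173787) (nat_lit 380) (nat_lit 3756881384) (nat_lit 76) (nat_lit 31181203079) (nat_lit 78) (nat_lit 5) (nat_lit 83) (nat_lit 5) (nat_lit 79) (nat_lit 5) (nat_lit 371) (nat_lit 334) (nat_lit 195)) (XT.nd (nat_lit 78) (nat_lit 304) (nat_lit 0) (XT.lf (nat_lit 0) (nat_lit 47766761637) (nat_lit 304) (nat_lit 15495698874) (nat_lit 76) (nat_lit 1277798583) (nat_lit 75) (nat_lit 5) (nat_lit 79) (nat_lit 5) (nat_lit 76) (nat_lit 5) (nat_lit 372) (nat_lit 334) (nat_lit 194)) (XT.lf (nat_lit 0) (nat_lit 2980002214) (nat_lit 304) (nat_lit 28524506142) (nat_lit 76) (nat_lit 35226723688) (nat_lit 71)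 (nat_lit 5) (nat_lit 75) (nat_lit 5) (nat_lit 72) (nat_lit 5) (nat_lit 373) (nat_lit 334) (nat_lit 193))))))) (XT.nd (nat_lit 858) (nat_lit 152) (nat_lit 0) (XT.nd (nat_lit 390) (nat_lit 988) (nat_lit 0) (XT.nd (nat_lit 156) (nat_lit 456) (nat_lit 0) (XT.nd (nat_lit 78) (nat_lit 228) (nat_lit 0) (XT.lf (nat_lit 0) (nat_lit 23810633247) (nat_lit 304) (nat_lit 42811326093) (nat_lit 76) (nat_lit 2391722929) (nat_lit 68) (nat_lit 5) (nat_lit 72) (nat_lit 5) (nat_lit 69) (nat_lit 5) (nat_lit 374) (nat_lit 334) (nat_lit 192)) (XT.lf (nat_lit 0) (nat_lit 12783320069) (nat_lit 228) (nat_lit 33633464475) (nat_lit 304) (nat_lit 24971452321) (nat_lit 65) (nat_lit 5) (nat_lit 68) (nat_lit 5) (nat_lit 69) (nat_lit 5) (nat_lit 375) (nat_lit 334) (nat_lit 191))) (XT.nd (nat_lit 78) (nat_lit 456) (nat_lit 0) (XT.lf (nat_lit 0) (nat_lit 70604643201) (nat_lit 304) (nat_lit 1835346041) (nat_lit 76) (nat_lit 1427989402)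 (nat_lit 65) (nat_lit 5) (nat_lit 69) (nat_lit 5) (nat_lit 66) (nat_lit 5) (nat_lit 376) (nat_lit 334) (nat_lit 190)) (XT.nd (nat_lit 78) (nat_lit 228) (nat_lit 0) (XT.lf (nat_lit 0) (nat_lit 20057311823) (nat_lit 228) (nat_lit 18070307823) (nat_lit 76) (nat_lit 38311210258) (nat_lit 62) (nat_lit 5) (nat_lit 65) (nat_lit 5) (nat_lit 63) (nat_lit 5) (nat_lit 377) (nat_lit 334) (nat_lit 189)) (XT.lf (nat_lit 0) (nat_lit 43289876853) (nat_lit 228) (nat_lit 1619366189) (nat_lit 304) (nat_lit 34215030380) (nat_lit 59) (nat_lit 5) (nat_lit 62) (nat_lit 5) (nat_lit 63) (nat_lit 5) (nat_lit 378) (nat_lit 334) (nat_lit 188))))) (XT.nd (nat_lit 234) (nat_lit 532) (nat_lit 0) (XT.nd (nat_lit 78) (nat_lit 304) (nat_lit 0) (XT.lf (nat_lit 0) (nat_lit 26310989652) (nat_lit 152) (nat_lit 45483466700) (nat_lit 228) (nat_lit 10125813413) (nat_lit 57) (nat_lit 5) (nat_lit 59) (nat_lit 5) (nat_lit 60) (nat_lit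 5) (nat_lit 379) (nat_lit 334) (nat_lit 187)) (XT.nd (nat_lit 78) (nat_lit 0) (nat_lit 0) (XT.lf (nat_lit 0) (nat_lit 7442033591) (nat_lit 228) (nat_lit 7887324454) (nat_lit 304) (nat_lit 69508610719) (nat_lit 53) (nat_lit 5) (nat_lit 56) (nat_lit 5) (nat_lit 57) (nat_lit 5) (nat_lit 380) (nat_lit 334) (nat_lit 186)) (XT.lf (nat_lit 0) (nat_lit 42728715096) (nat_lit 304) (nat_lit 13492710958) (nat_lit 76) (nat_lit 31650694731) (nat_lit 53) (nat_lit 5) (nat_lit 57) (nat_lit 5) (nat_lit 54) (nat_lit 5) (nat_lit 381) (nat_lit 334) (nat_lit 185)))) (XT.nd (nat_lit 78) (nat_lit 380) (nat_lit 0) (XT.lf (nat_lit 0) (nat_lit 54586681129) (nat_lit 152) (nat_lit 17512956878) (nat_lit 228) (nat_lit 18940295478) (nat_lit 51) (nat_lit 5) (nat_lit 53) (nat_lit 5) (nat_lit 54) (nat_lit 5) (nat_lit 382) (nat_lit 334) (nat_lit 184)) (XT.nd (nat_lit 78) (nat_lit 152) (nat_lit 0) (XT.lf (nat_lit 0) (nat_lit 9083675450)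 (nat_lit 228) (nat_lit 62041123347) (nat_lit 76) (nat_lit 23218526863) (nat_lit 48) (nat_lit 5) (nat_lit 51) (nat_lit 5) (nat_lit 49) (nat_lit 5) (nat_lit 383) (nat_lit 334) (nat_lit 183)) (XT.lf (nat_lit 0) (nat_lit 7221411230) (nat_lit 152) (nat_lit 31521906467) (nat_lit 228) (nat_lit 59044159200) (nat_lit 46) (nat_lit 5) (nat_lit 48) (nat_lit 5) (nat_lit 49) (nat_lit 5) (nat_lit 384) (nat_lit 334) (nat_lit 182)))))) (XT.nd (nat_lit 43290) (nat_lit 0) (nat_lit 12160) (XT.nd (nat_lit 43056) (nat_lit 0) (nat_lit 13072) (XT.nd (nat_lit 78) (nat_lit 152) (nat_lit 0) (XT.lf (nat_lit 0) (nat_lit 70625100570) (nat_lit 228) (nat_lit 20248519351) (nat_lit 76) (nat_lit 10508041873) (nat_lit 46) (nat_lit 5) (nat_lit 49) (nat_lit 5) (nat_lit 47) (nat_lit 5) (nat_lit 385) (nat_lit 334) (nat_lit 181)) (XT.nd (nat_lit 42900) (nat_lit 0) (nat_lit 13072) (XT.lf (nat_lit 0) (nat_lit 54322627729) (nat_lit 152)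 (nat_lit 50616269042) (nat_lit 228) (nat_lit 191522254) (nat_lit 44) (nat_lit 5) (nat_lit 46) (nat_lit 5) (nat_lit 47) (nat_lit 5) (nat_lit 386) (nat_lit 334) (nat_lit 180)) (XT.lf (nat_lit 0) (nat_lit 3924380902) (nat_lit 0) (nat_lit 3924380902) (nat_lit 1140) (nat_lit 3452548757) (nat_lit 216) (nat_lit 5) (nat_lit 216) (nat_lit 3) (nat_lit 231) (nat_lit 3) (nat_lit 335) (nat_lit 335) (nat_lit 230)))) (XT.nd (nat_lit 78) (nat_lit 0) (nat_lit 76) (XT.lf (nat_lit 76) (nat_lit 2690085920) (nat_lit 0) (nat_lit 13722242165) (nat_lit 1216) (nat_lit 6745504596) (nat_lit 217) (nat_lit 5) (nat_lit 216) (nat_lit 5) (nat_lit 232) (nat_lit 5) (nat_lit 336) (nat_lit 335) (nat_lit 229)) (XT.nd (nat_lit 78) (nat_lit 0) (nat_lit 0) (XT.lf (nat_lit 0) (nat_lit 17417087618) (nat_lit 1140) (nat_lit 2544673161) (nat_lit 1216) (nat_lit 3771429305) (nat_lit 217) (nat_lit 5) (nat_lit 232) (nat_lit 5) (nat_lit 233)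 (nat_lit 5) (nat_lit 337) (nat_lit 335) (nat_lit 228)) (XT.lf (nat_lit 76) (nat_lit 16449804420) (nat_lit 0) (nat_lit 2306504729) (nat_lit 1216) (nat_lit 5572490643) (nat_lit 218) (nat_lit 5) (nat_lit 217) (nat_lit 5) (nat_lit 233) (nat_lit 5) (nat_lit 338) (nat_lit 335) (nat_lit 227))))) (XT.nd (nat_lit 234) (nat_lit 1064) (nat_lit 0) (XT.nd (nat_lit 78) (nat_lit 0) (nat_lit 76) (XT.lf (nat_lit 76) (nat_lit 11555532676) (nat_lit 0) (nat_lit 8888685810) (nat_lit 1216) (nat_lit 4501530320) (nat_lit 219) (nat_lit 5) (nat_lit 218) (nat_lit 5) (nat_lit 234) (nat_lit 5) (nat_lit 339) (nat_lit 335) (nat_lit 226)) (XT.nd (nat_lit 78) (nat_lit 0) (nat_lit 76) (XT.lf (nat_lit 76) (nat_lit 6538199213) (nat_lit 0) (nat_lit 15928062627) (nat_lit 1216) (nat_lit 3119801395) (nat_lit 220) (nat_lit 5) (nat_lit 219) (nat_lit 5) (nat_lit 235) (nat_lit 5) (nat_lit 340) (nat_lit 335) (nat_lit 225)) (XT.lf (nat_lit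 76) (nat_lit 1391889665) (nat_lit 0) (nat_lit 23454027667) (nat_lit 1216) (nat_lit 1404790388) (nat_lit 221) (nat_lit 5) (nat_lit 220) (nat_lit 5) (nat_lit 236) (nat_lit 5) (nat_lit 341) (nat_lit 335) (nat_lit 224)))) (XT.nd (nat_lit 78) (nat_lit 0) (nat_lit 76) (XT.lf (nat_lit 0) (nat_lit 736562062) (nat_lit 1216) (nat_lit 3865308586) (nat_lit 1292) (nat_lit 22336158973) (nat_lit 204) (nat_lit 5) (nat_lit 220) (nat_lit 5) (nat_lit 221) (nat_lit 5) (nat_lit 342) (nat_lit 335) (nat_lit 223)) (XT.nd (nat_lit 78) (nat_lit 0) (nat_lit 76) (XT.lf (nat_lit 0) (nat_lit 3272201006) (nat_lit 1216) (nat_lit 9284585824) (nat_lit 1292) (nat_lit 15093033843) (nat_lit 205) (nat_lit 5) (nat_lit 221) (nat_lit 5) (nat_lit 222) (nat_lit 5) (nat_lit 343) (nat_lit 335) (nat_lit 222)) (XT.lf (nat_lit 0) (nat_lit 6214189227) (nat_lit 1216) (nat_lit 14859518451) (nat_lit 1292) (nat_lit 7315114664) (nat_lit 206) (nat_lit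 5) (nat_lit 222) (nat_lit 5) (nat_lit 223) (nat_lit 5) (nat_lit 344) (nat_lit 335) (nat_lit 221))))))))
noncomputable def xc105 : XT := (XT.nd (nat_lit 1794) (nat_lit 3724) (nat_lit 0) (XT.nd (nat_lit 858) (nat_lit 3952) (nat_lit 0) (XT.nd (nat_lit 390) (nat_lit 2584) (nat_lit 0) (XT.nd (nat_lit 156) (nat_lit 1140) (nat_lit 0) (XT.nd (nat_lit 78) (nat_lit 760) (nat_lit 0) (XT.lf (nat_lit 76) (nat_lit 8547520039) (nat_lit 0) (nat_lit 1052041573) (nat_lit 1292) (nat_lit 19556331634) (nat_lit 207) (nat_lit 5) (nat_lit 206) (nat_lit 5) (nat_lit 223) (nat_lit 5) (nat_lit 345) (nat_lit 335) (nat_lit 220)) (XT.lf (nat_lit 0) (nat_lit 3342790397) (nat_lit 836) (nat_lit 10181233031) (nat_lit 912) (nat_lit 16426206975) (nat_lit 196) (nat_lit 5) (nat_lit 207) (nat_lit 5) (nat_lit 208) (nat_lit 5) (nat_lit 346) (nat_lit 335) (nat_lit 219))) (XT.nd (nat_lit 78) (nat_lit 1140) (nat_lit 0) (XT.lf (nat_lit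 0) (nat_lit 17965121426) (nat_lit 912) (nat_lit 1980135012) (nat_lit 76) (nat_lit 10829422568) (nat_lit 196) (nat_lit 5) (nat_lit 208) (nat_lit 5) (nat_lit 197) (nat_lit 5) (nat_lit 347) (nat_lit 335) (nat_lit 218)) (XT.nd (nat_lit 78) (nat_lit 532) (nat_lit 0) (XT.lf (nat_lit 0) (nat_lit 22968408745) (nat_lit 684) (nat_lit 7401406341) (nat_lit 76) (nat_lit 1260337570) (nat_lit 188) (nat_lit 5) (nat_lit 197) (nat_lit 5) (nat_lit 189) (nat_lit 5) (nat_lit 348) (nat_lit 335) (nat_lit 217)) (XT.lf (nat_lit 0) (nat_lit 19431964699) (nat_lit 532) (nat_lit 9190896401) (nat_lit 608) (nat_lit 3893515200) (nat_lit 181) (nat_lit 5) (nat_lit 188) (nat_lit 5) (nat_lit 189) (nat_lit 5) (nat_lit 349) (nat_lit 335) (nat_lit 216))))) (XT.nd (nat_lit 234) (nat_lit 912) (nat_lit 0) (XT.nd (nat_lit 78) (nat_lit 1064) (nat_lit 0) (XT.lf (nat_lit 0) (nat_lit 1428730107) (nat_lit 608) (nat_lit 18985137410) (nat_lit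 76) (nat_lit 13022608676) (nat_lit 173) (nat_lit 5) (nat_lit 181) (nat_lit 5) (nat_lit 174) (nat_lit 5) (nat_lit 350) (nat_lit 335) (nat_lit 215)) (XT.nd (nat_lit 78) (nat_lit 532) (nat_lit 0) (XT.lf (nat_lit 0) (nat_lit 7267641227) (nat_lit 608) (nat_lit 25132499931) (nat_lit 76) (nat_lit 1991356686) (nat_lit 166) (nat_lit 5) (nat_lit 174) (nat_lit 5) (nat_lit 167) (nat_lit 5) (nat_lit 351) (nat_lit 335) (nat_lit 214)) (XT.lf (nat_lit 0) (nat_lit 3782165539) (nat_lit 532) (nat_lit 10049190153) (nat_lit 608) (nat_lit 21549934464) (nat_lit 159) (nat_lit 5) (nat_lit 166) (nat_lit 5) (nat_lit 167) (nat_lit 5) (nat_lit 352) (nat_lit 335) (nat_lit 213)))) (XT.nd (nat_lit 78) (nat_lit 912) (nat_lit 0) (XT.lf (nat_lit 0) (nat_lit 21106874094) (nat_lit 608) (nat_lit 1883924206) (nat_lit 76) (nat_lit 13418270293) (nat_lit 159) (nat_lit 5) (nat_lit 167) (nat_lit 5) (nat_lit 160) (nat_lit 5) (nat_lit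 353) (nat_lit 335) (nat_lit 212)) (XT.nd (nat_lit 78) (nat_lit 456) (nat_lit 0) (XT.lf (nat_lit 0) (nat_lit 29133985289) (nat_lit 532) (nat_lit 7693216143) (nat_lit 76) (nat_lit 649404833) (nat_lit 153) (nat_lit 5) (nat_lit 160) (nat_lit 5) (nat_lit 154) (nat_lit 5) (nat_lit 354) (nat_lit 335) (nat_lit 211)) (XT.lf (nat_lit 0) (nat_lit 24719675714) (nat_lit 456) (nat_lit 13325926391) (nat_lit 532) (nat_lit 537428799) (nat_lit 147) (nat_lit 5) (nat_lit 153) (nat_lit 5) (nat_lit 154) (nat_lit 5) (nat_lit 355) (nat_lit 335) (nat_lit 210)))))) (XT.nd (nat_lit 468) (nat_lit 1748) (nat_lit 0) (XT.nd (nat_lit 234) (nat_lit 836) (nat_lit 0) (XT.nd (nat_lit 78) (nat_lit 836) (nat_lit 0) (XT.lf (nat_lit 0) (nat_lit 7882253970) (nat_lit 532) (nat_lit 20376968532) (nat_lit 76) (nat_lit 11472140111) (nat_lit 140) (nat_lit 5) (nat_lit 147) (nat_lit 5) (nat_lit 141) (nat_lit 5) (nat_lit 356) (nat_lit 335)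 (nat_lit 209)) (XT.nd (nat_lit 78) (nat_lit 380) (nat_lit 0) (XT.lf (nat_lit 0) (nat_lit 13709238978) (nat_lit 456) (nat_lit 3407343288) (nat_lit 532) (nat_lit 23808229761) (nat_lit 134) (nat_lit 5) (nat_lit 140) (nat_lit 5) (nat_lit 141) (nat_lit 5) (nat_lit 357) (nat_lit 335) (nat_lit 208)) (XT.lf (nat_lit 0) (nat_lit 7676770839) (nat_lit 380) (nat_lit 19634036226) (nat_lit 456) (nat_lit 14852185292) (nat_lit 129) (nat_lit 5) (nat_lit 134) (nat_lit 5) (nat_lit 135) (nat_lit 5) (nat_lit 358) (nat_lit 335) (nat_lit 207)))) (XT.nd (nat_lit 78) (nat_lit 456) (nat_lit 0) (XT.lf (nat_lit 0) (nat_lit 1350661540) (nat_lit 380) (nat_lit 37048590067) (nat_lit 456) (nat_lit 5052298506) (nat_lit 124) (nat_lit 5) (nat_lit 129) (nat_lit 5) (nat_lit 130) (nat_lit 5) (nat_lit 359) (nat_lit 335) (nat_lit 206)) (XT.nd (nat_lit 78) (nat_lit 380) (nat_lit 0) (XT.lf (nat_lit 0) (nat_lit 5686858540) (nat_lit 456)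 (nat_lit 5352544485) (nat_lit 76) (nat_lit 33747081312) (nat_lit 123) (nat_lit 5) (nat_lit 129) (nat_lit 5) (nat_lit 124) (nat_lit 5) (nat_lit 360) (nat_lit 335) (nat_lit 205)) (XT.lf (nat_lit 0) (nat_lit 17339857368) (nat_lit 456) (nat_lit 12501011338) (nat_lit 76) (nat_lit 16331357916) (nat_lit 118) (nat_lit 5) (nat_lit 124) (nat_lit 5) (nat_lit 119) (nat_lit 5) (nat_lit 361) (nat_lit 335) (nat_lit 204))))) (XT.nd (nat_lit 234) (nat_lit 608) (nat_lit 0) (XT.nd (nat_lit 78) (nat_lit 760) (nat_lit 0) (XT.lf (nat_lit 0) (nat_lit 27551769205) (nat_lit 380) (nat_lit 2450850611) (nat_lit 456) (nat_lit 17611825867) (nat_lit 113) (nat_lit 5) (nat_lit 118) (nat_lit 5) (nat_lit 119) (nat_lit 5) (nat_lit 362) (nat_lit 335) (nat_lit 203)) (XT.nd (nat_lit 78) (nat_lit 456) (nat_lit 0) (XT.lf (nat_lit 0) (nat_lit 20890737266) (nat_lit 304) (nat_lit 22986809516) (nat_lit 380) (nat_lit 5233861050) (nat_lit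 109) (nat_lit 5) (nat_lit 113) (nat_lit 5) (nat_lit 114) (nat_lit 5) (nat_lit 363) (nat_lit 335) (nat_lit 202)) (XT.lf (nat_lit 0) (nat_lit 8028883293) (nat_lit 456) (nat_lit 36930431833) (nat_lit 76) (nat_lit 5709146024) (nat_lit 103) (nat_lit 5) (nat_lit 109) (nat_lit 5) (nat_lit 104) (nat_lit 5) (nat_lit 364) (nat_lit 335) (nat_lit 201)))) (XT.nd (nat_lit 78) (nat_lit 304) (nat_lit 0) (XT.lf (nat_lit 0) (nat_lit 5911267034) (nat_lit 304) (nat_lit 16514091057) (nat_lit 380) (nat_lit 29859091884) (nat_lit 99) (nat_lit 5) (nat_lit 103) (nat_lit 5) (nat_lit 104) (nat_lit 5) (nat_lit 365) (nat_lit 335) (nat_lit 200)) (XT.nd (nat_lit 78) (nat_lit 304) (nat_lit 0) (XT.lf (nat_lit 0) (nat_lit 38049697248) (nat_lit 380) (nat_lit 2441217999) (nat_lit 76) (nat_lit 13475084230) (nat_lit 99) (nat_lit 5) (nat_lit 104) (nat_lit 5) (nat_lit 100) (nat_lit 5) (nat_lit 366) (nat_lit 335) (nat_lit 199)) (XT.lf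 (nat_lit 0) (nat_lit 44380936410) (nat_lit 304) (nat_lit 10663566189) (nat_lit 380) (nat_lit 669448715) (nat_lit 95) (nat_lit 5) (nat_lit 99) (nat_lit 5) (nat_lit 100) (nat_lit 5) (nat_lit 367) (nat_lit 335) (nat_lit 198))))))) (XT.nd (nat_lit 858) (nat_lit 1216) (nat_lit 0) (XT.nd (nat_lit 390) (nat_lit 1216) (nat_lit 0) (XT.nd (nat_lit 156) (nat_lit 608) (nat_lit 0) (XT.nd (nat_lit 78) (nat_lit 304) (nat_lit 0) (XT.lf (nat_lit 0) (nat_lit 15617466308) (nat_lit 380) (nat_lit 21129774970) (nat_lit 76) (nat_lit 20780326400) (nat_lit 90) (nat_lit 5) (nat_lit 95) (nat_lit 5) (nat_lit 91) (nat_lit 5) (nat_lit 368) (nat_lit 335) (nat_lit 197)) (XT.lf (nat_lit 0) (nat_lit 27743829371) (nat_lit 304) (nat_lit 5449488966) (nat_lit 380) (nat_lit 26223696639) (nat_lit 86) (nat_lit 5) (nat_lit 90) (nat_lit 5) (nat_lit 91) (nat_lit 5) (nat_lit 369) (nat_lit 335) (nat_lit 196))) (XT.nd (nat_lit 78) (nat_lit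 380) (nat_lit 0) (XT.lf (nat_lit 0) (nat_lit 18192032922) (nat_lit 228) (nat_lit 34110262840) (nat_lit 304) (nat_lit 9079010855) (nat_lit 83) (nat_lit 5) (nat_lit 86) (nat_lit 5) (nat_lit 87) (nat_lit 5) (nat_lit 370) (nat_lit 335) (nat_lit 195)) (XT.nd (nat_lit 78) (nat_lit 0) (nat_lit 0) (XT.lf (nat_lit 0) (nat_lit 7780720161) (nat_lit 304) (nat_lit 1423512439) (nat_lit 380) (nat_lit 54223345635) (nat_lit 78) (nat_lit 5) (nat_lit 82) (nat_lit 5) (nat_lit 83) (nat_lit 5) (nat_lit 371) (nat_lit 335) (nat_lit 194)) (XT.lf (nat_lit 0) (nat_lit 28977319140) (nat_lit 380) (nat_lit 3778749791) (nat_lit 76) (nat_lit 32794496030) (nat_lit 78) (nat_lit 5) (nat_lit 83) (nat_lit 5) (nat_lit 79) (nat_lit 5) (nat_lit 372) (nat_lit 335) (nat_lit 193))))) (XT.nd (nat_lit 234) (nat_lit 456) (nat_lit 0) (XT.nd (nat_lit 78) (nat_lit 532) (nat_lit 0) (XT.lf (nat_lit 0) (nat_lit 50260464564) (nat_lit 304) (nat_lit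 16106612664) (nat_lit 76) (nat_lit 1396983302) (nat_lit 75) (nat_lit 5) (nat_lit 79) (nat_lit 5) (nat_lit 76) (nat_lit 5) (nat_lit 373) (nat_lit 335) (nat_lit 192)) (XT.nd (nat_lit 78) (nat_lit 228) (nat_lit 0) (XT.lf (nat_lit 0) (nat_lit 3231935786) (nat_lit 304) (nat_lit 29789462289) (nat_lit 76) (nat_lit 37043260805) (nat_lit 71) (nat_lit 5) (nat_lit 75) (nat_lit 5) (nat_lit 72) (nat_lit 5) (nat_lit 374) (nat_lit 335) (nat_lit 191)) (XT.lf (nat_lit 0) (nat_lit 25101251523) (nat_lit 304) (nat_lit 44792764285) (nat_lit 76) (nat_lit 2567303441) (nat_lit 68) (nat_lit 5) (nat_lit 72) (nat_lit 5) (nat_lit 69) (nat_lit 5) (nat_lit 375) (nat_lit 335) (nat_lit 190)))) (XT.nd (nat_lit 78) (nat_lit 228) (nat_lit 0) (XT.lf (nat_lit 0) (nat_lit 13577052809) (nat_lit 228) (nat_lit 35257377336) (nat_lit 304) (nat_lit 26120271957) (nat_lit 65) (nat_lit 5) (nat_lit 68) (nat_lit 5) (nat_lit 69) (nat_lit 5)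 (nat_lit 376) (nat_lit 335) (nat_lit 189)) (XT.nd (nat_lit 78) (nat_lit 228) (nat_lit 0) (XT.lf (nat_lit 0) (nat_lit 74227600697) (nat_lit 304) (nat_lit 1777629424) (nat_lit 76) (nat_lit 1553325301) (nat_lit 65) (nat_lit 5) (nat_lit 69) (nat_lit 5) (nat_lit 66) (nat_lit 5) (nat_lit 377) (nat_lit 335) (nat_lit 188)) (XT.lf (nat_lit 0) (nat_lit 21150808894) (nat_lit 228) (nat_lit 18826783126) (nat_lit 76) (nat_lit 40280423083) (nat_lit 62) (nat_lit 5) (nat_lit 65) (nat_lit 5) (nat_lit 63) (nat_lit 5) (nat_lit 378) (nat_lit 335) (nat_lit 187)))))) (XT.nd (nat_lit 468) (nat_lit 152) (nat_lit 0) (XT.nd (nat_lit 234) (nat_lit 380) (nat_lit 0) (XT.nd (nat_lit 78) (nat_lit 456) (nat_lit 0) (XT.lf (nat_lit 0) (nat_lit 45597195909) (nat_lit 228) (nat_lit 1645197903) (nat_lit 304) (nat_lit 35835427050) (nat_lit 59) (nat_lit 5) (nat_lit 62) (nat_lit 5) (nat_lit 63) (nat_lit 5) (nat_lit 379) (nat_lit 335)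 (nat_lit 186)) (XT.nd (nat_lit 78) (nat_lit 304) (nat_lit 0) (XT.lf (nat_lit 0) (nat_lit 27767345281) (nat_lit 152) (nat_lit 47702205141) (nat_lit 228) (nat_lit 10544137815) (nat_lit 57) (nat_lit 5) (nat_lit 59) (nat_lit 5) (nat_lit 60) (nat_lit 5) (nat_lit 380) (nat_lit 335) (nat_lit 185)) (XT.lf (nat_lit 0) (nat_lit 7952604521) (nat_lit 228) (nat_lit 8226695078) (nat_lit 304) (nat_lit 72898032068) (nat_lit 53) (nat_lit 5) (nat_lit 56) (nat_lit 5) (nat_lit 57) (nat_lit 5) (nat_lit 381) (nat_lit 335) (nat_lit 184)))) (XT.nd (nat_lit 78) (nat_lit 380) (nat_lit 0) (XT.lf (nat_lit 0) (nat_lit 44945153044) (nat_lit 304) (nat_lit 14033559711) (nat_lit 76) (nat_lit 33284584170) (nat_lit 53) (nat_lit 5) (nat_lit 57) (nat_lit 5) (nat_lit 54) (nat_lit 5) (nat_lit 382) (nat_lit 335) (nat_lit 183)) (XT.nd (nat_lit 78) (nat_lit 228) (nat_lit 0) (XT.lf (nat_lit 0) (nat_lit 57445967008) (nat_lit 152) (nat_lit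 18336094640) (nat_lit 228) (nat_lit 19807516846) (nat_lit 51) (nat_lit 5) (nat_lit 53) (nat_lit 5) (nat_lit 54) (nat_lit 5) (nat_lit 383) (nat_lit 335) (nat_lit 182)) (XT.lf (nat_lit 0) (nat_lit 9614098313) (nat_lit 228) (nat_lit 65013615190) (nat_lit 76) (nat_lit 24430464996) (nat_lit 48) (nat_lit 5) (nat_lit 51) (nat_lit 5) (nat_lit 49) (nat_lit 5) (nat_lit 384) (nat_lit 335) (nat_lit 181))))) (XT.nd (nat_lit 43134) (nat_lit 0) (nat_lit 12920) (XT.nd (nat_lit 78) (nat_lit 0) (nat_lit 0) (XT.lf (nat_lit 0) (nat_lit 7708332180) (nat_lit 152) (nat_lit 33045969810) (nat_lit 228) (nat_lit 61920309179) (nat_lit 46) (nat_lit 5) (nat_lit 48) (nat_lit 5) (nat_lit 49) (nat_lit 5) (nat_lit 385) (nat_lit 335) (nat_lit 180)) (XT.nd (nat_lit 42978) (nat_lit 0) (nat_lit 12920) (XT.lf (nat_lit 0) (nat_lit 74227135190) (nat_lit 228) (nat_lit 21139431225) (nat_lit 76) (nat_lit 11082031252) (nat_lit 46) (nat_lit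 5) (nat_lit 49) (nat_lit 5) (nat_lit 47) (nat_lit 5) (nat_lit 386) (nat_lit 335) (nat_lit 179)) (XT.lf (nat_lit 0) (nat_lit 4221133129) (nat_lit 0) (nat_lit 4221133129) (nat_lit 1140) (nat_lit 3417897718) (nat_lit 216) (nat_lit 5) (nat_lit 216) (nat_lit 3) (nat_lit 231) (nat_lit 3) (nat_lit 336) (nat_lit 336) (nat_lit 228)))) (XT.nd (nat_lit 78) (nat_lit 0) (nat_lit 76) (XT.lf (nat_lit 76) (nat_lit 3033838512) (nat_lit 0) (nat_lit 14582260213) (nat_lit 1216) (nat_lit 6687787873) (nat_lit 217) (nat_lit 5) (nat_lit 216) (nat_lit 5) (nat_lit 232) (nat_lit 5) (nat_lit 337) (nat_lit 336) (nat_lit 227)) (XT.nd (nat_lit 78) (nat_lit 0) (nat_lit 0) (XT.lf (nat_lit 0) (nat_lit 18651258709) (nat_lit 1140) (nat_lit 2459756625) (nat_lit 1216) (nat_lit 3797608000) (nat_lit 217) (nat_lit 5) (nat_lit 232) (nat_lit 5) (nat_lit 233) (nat_lit 5) (nat_lit 338) (nat_lit 336) (nat_lit 226)) (XT.lf (nat_lit 76)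 (nat_lit 17478363592) (nat_lit 0) (nat_lit 2563757789) (nat_lit 1216) (nat_lit 5492367304) (nat_lit 218) (nat_lit 5) (nat_lit 217) (nat_lit 5) (nat_lit 233) (nat_lit 5) (nat_lit 339) (nat_lit 336) (nat_lit 225))))))))
noncomputable def xc106 : XT := (XT.nd (nat_lit 1716) (nat_lit 5472) (nat_lit 0) (XT.nd (nat_lit 858) (nat_lit 4408) (nat_lit 0) (XT.nd (nat_lit 390) (nat_lit 1748) (nat_lit 0) (XT.nd (nat_lit 156) (nat_lit 1064) (nat_lit 0) (XT.nd (nat_lit 78) (nat_lit 0) (nat_lit 76) (XT.lf (nat_lit 76) (nat_lit 12345239444) (nat_lit 0) (nat_lit 9453353338) (nat_lit 1216) (nat_lit 4384182189) (nat_lit 219) (nat_lit 5) (nat_lit 218) (nat_lit 5) (nat_lit 234) (nat_lit 5) (nat_lit 340) (nat_lit 336) (nat_lit 224)) (XT.lf (nat_lit 76) (nat_lit 7082054137) (nat_lit 0) (nat_lit 16824851551) (nat_lit 1216) (nat_lit 2948658524) (nat_lit 220) (nat_lit 5) (nat_lit 219) (nat_lit 5) (nat_lit 235) (nat_lit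 5) (nat_lit 341) (nat_lit 336) (nat_lit 223))) (XT.nd (nat_lit 78) (nat_lit 1216) (nat_lit 0) (XT.lf (nat_lit 76) (nat_lit 1682668943) (nat_lit 0) (nat_lit 24708971168) (nat_lit 1216) (nat_lit 1162231368) (nat_lit 221) (nat_lit 5) (nat_lit 220) (nat_lit 5) (nat_lit 236) (nat_lit 5) (nat_lit 342) (nat_lit 336) (nat_lit 222)) (XT.nd (nat_lit 78) (nat_lit 0) (nat_lit 76) (XT.lf (nat_lit 0) (nat_lit 1065480369) (nat_lit 1216) (nat_lit 3841860099) (nat_lit 1292) (nat_lit 23368579365) (nat_lit 204) (nat_lit 5) (nat_lit 220) (nat_lit 5) (nat_lit 221) (nat_lit 5) (nat_lit 343) (nat_lit 336) (nat_lit 221)) (XT.lf (nat_lit 0) (nat_lit 3715345650) (nat_lit 1216) (nat_lit 9529000370) (nat_lit 1292) (nat_lit 15779342923) (nat_lit 205) (nat_lit 5) (nat_lit 221) (nat_lit 5) (nat_lit 222) (nat_lit 5) (nat_lit 344) (nat_lit 336) (nat_lit 220))))) (XT.nd (nat_lit 234) (nat_lit 1140) (nat_lit 0) (XT.nd (nat_lit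 78) (nat_lit 760) (nat_lit 0) (XT.lf (nat_lit 0) (nat_lit 6792648130) (nat_lit 1216) (nat_lit 15380180438) (nat_lit 1292) (nat_lit 7627176954) (nat_lit 206) (nat_lit 5) (nat_lit 222) (nat_lit 5) (nat_lit 223) (nat_lit 5) (nat_lit 345) (nat_lit 336) (nat_lit 219)) (XT.nd (nat_lit 78) (nat_lit 760) (nat_lit 0) (XT.lf (nat_lit 76) (nat_lit 9190837392) (nat_lit 0) (nat_lit 1145777529) (nat_lit 1292) (nat_lit 20269146013) (nat_lit 207) (nat_lit 5) (nat_lit 206) (nat_lit 5) (nat_lit 223) (nat_lit 5) (nat_lit 346) (nat_lit 336) (nat_lit 218)) (XT.lf (nat_lit 0) (nat_lit 3727765171) (nat_lit 836) (nat_lit 10719010369) (nat_lit 912) (nat_lit 16993365362) (nat_lit 196) (nat_lit 5) (nat_lit 207) (nat_lit 5) (nat_lit 208) (nat_lit 5) (nat_lit 347) (nat_lit 336) (nat_lit 217)))) (XT.nd (nat_lit 78) (nat_lit 1140) (nat_lit 0) (XT.lf (nat_lit 0) (nat_lit 19097925029) (nat_lit 912) (nat_lit 1864177659) (nat_lit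 76) (nat_lit 11344079087) (nat_lit 196) (nat_lit 5) (nat_lit 208) (nat_lit 5) (nat_lit 197) (nat_lit 5) (nat_lit 348) (nat_lit 336) (nat_lit 216)) (XT.nd (nat_lit 78) (nat_lit 532) (nat_lit 0) (XT.lf (nat_lit 0) (nat_lit 24342055507) (nat_lit 684) (nat_lit 7555567992) (nat_lit 76) (nat_lit 1307094518) (nat_lit 188) (nat_lit 5) (nat_lit 197) (nat_lit 5) (nat_lit 189) (nat_lit 5) (nat_lit 349) (nat_lit 336) (nat_lit 215)) (XT.lf (nat_lit 0) (nat_lit 20613282620) (nat_lit 532) (nat_lit 9657238750) (nat_lit 608) (nat_lit 3865001578) (nat_lit 181) (nat_lit 5) (nat_lit 188) (nat_lit 5) (nat_lit 189) (nat_lit 5) (nat_lit 350) (nat_lit 336) (nat_lit 214)))))) (XT.nd (nat_lit 390) (nat_lit 2280) (nat_lit 0) (XT.nd (nat_lit 156) (nat_lit 988) (nat_lit 0) (XT.nd (nat_lit 78) (nat_lit 532) (nat_lit 0) (XT.lf (nat_lit 0) (nat_lit 1710558330) (nat_lit 608) (nat_lit 19719791244) (nat_lit 76) (nat_lit 13671475339)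 (nat_lit 173) (nat_lit 5) (nat_lit 181) (nat_lit 5) (nat_lit 174) (nat_lit 5) (nat_lit 351) (nat_lit 336) (nat_lit 213)) (XT.lf (nat_lit 0) (nat_lit 7833458510) (nat_lit 608) (nat_lit 26174504974) (nat_lit 76) (nat_lit 2096880637) (nat_lit 166) (nat_lit 5) (nat_lit 174) (nat_lit 5) (nat_lit 167) (nat_lit 5) (nat_lit 352) (nat_lit 336) (nat_lit 212))) (XT.nd (nat_lit 78) (nat_lit 456) (nat_lit 0) (XT.lf (nat_lit 0) (nat_lit 4179741732) (nat_lit 532) (nat_lit 10537981114) (nat_lit 608) (nat_lit 22426639684) (nat_lit 159) (nat_lit 5) (nat_lit 166) (nat_lit 5) (nat_lit 167) (nat_lit 5) (nat_lit 353) (nat_lit 336) (nat_lit 211)) (XT.nd (nat_lit 78) (nat_lit 456) (nat_lit 0) (XT.lf (nat_lit 0) (nat_lit 22347866142) (nat_lit 608) (nat_lit 1773997885) (nat_lit 76) (nat_lit 14101947449) (nat_lit 159) (nat_lit 5) (nat_lit 167) (nat_lit 5) (nat_lit 160) (nat_lit 5) (nat_lit 354) (nat_lit 336) (nat_lit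 210)) (XT.lf (nat_lit 0) (nat_lit 30769586405) (nat_lit 532) (nat_lit 7874297756) (nat_lit 76) (nat_lit 701050984) (nat_lit 153) (nat_lit 5) (nat_lit 160) (nat_lit 5) (nat_lit 154) (nat_lit 5) (nat_lit 355) (nat_lit 336) (nat_lit 209))))) (XT.nd (nat_lit 234) (nat_lit 836) (nat_lit 0) (XT.nd (nat_lit 78) (nat_lit 988) (nat_lit 0) (XT.lf (nat_lit 0) (nat_lit 26153403137) (nat_lit 456) (nat_lit 13966762622) (nat_lit 532) (nat_lit 386720206) (nat_lit 147) (nat_lit 5) (nat_lit 153) (nat_lit 5) (nat_lit 154) (nat_lit 5) (nat_lit 356) (nat_lit 336) (nat_lit 208)) (XT.nd (nat_lit 78) (nat_lit 456) (nat_lit 0) (XT.lf (nat_lit 0) (nat_lit 8444337948) (nat_lit 532) (nat_lit 21195373371) (nat_lit 76) (nat_lit 12073061952) (nat_lit 140) (nat_lit 5) (nat_lit 147) (nat_lit 5) (nat_lit 141) (nat_lit 5) (nat_lit 357) (nat_lit 336) (nat_lit 207)) (XT.lf (nat_lit 0) (nat_lit 14589398840) (nat_lit 456) (nat_lit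 3544856742) (nat_lit 532) (nat_lit 24831829021) (nat_lit 134) (nat_lit 5) (nat_lit 140) (nat_lit 5) (nat_lit 141) (nat_lit 5) (nat_lit 358) (nat_lit 336) (nat_lit 206)))) (XT.nd (nat_lit 78) (nat_lit 456) (nat_lit 0) (XT.lf (nat_lit 0) (nat_lit 8254245178) (nat_lit 380) (nat_lit 20578401693) (nat_lit 456) (nat_lit 15433698787) (nat_lit 129) (nat_lit 5) (nat_lit 134) (nat_lit 5) (nat_lit 135) (nat_lit 5) (nat_lit 359) (nat_lit 336) (nat_lit 205)) (XT.nd (nat_lit 78) (nat_lit 76) (nat_lit 0) (XT.lf (nat_lit 0) (nat_lit 1610590102) (nat_lit 380) (nat_lit 38859671940) (nat_lit 456) (nat_lit 5149231919) (nat_lit 124) (nat_lit 5) (nat_lit 129) (nat_lit 5) (nat_lit 130) (nat_lit 5) (nat_lit 360) (nat_lit 336) (nat_lit 204)) (XT.lf (nat_lit 0) (nat_lit 6116576329) (nat_lit 456) (nat_lit 5433950151) (nat_lit 76) (nat_lit 35470826310) (nat_lit 123) (nat_lit 5) (nat_lit 129) (nat_lit 5) (nat_lit 124)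 (nat_lit 5) (nat_lit 361) (nat_lit 336) (nat_lit 203))))))) (XT.nd (nat_lit 858) (nat_lit 2052) (nat_lit 0) (XT.nd (nat_lit 390) (nat_lit 1596) (nat_lit 0) (XT.nd (nat_lit 156) (nat_lit 1064) (nat_lit 0) (XT.nd (nat_lit 78) (nat_lit 380) (nat_lit 0) (XT.lf (nat_lit 0) (nat_lit 18347432410) (nat_lit 456) (nat_lit 12941273764) (nat_lit 76) (nat_lit 17187824296) (nat_lit 118) (nat_lit 5) (nat_lit 124) (nat_lit 5) (nat_lit 119) (nat_lit 5) (nat_lit 362) (nat_lit 336) (nat_lit 202)) (XT.lf (nat_lit 0) (nat_lit 29108848891) (nat_lit 380) (nat_lit 2529515080) (nat_lit 456) (nat_lit 18352649870) (nat_lit 113) (nat_lit 5) (nat_lit 118) (nat_lit 5) (nat_lit 119) (nat_lit 5) (nat_lit 363) (nat_lit 336) (nat_lit 201))) (XT.nd (nat_lit 78) (nat_lit 760) (nat_lit 0) (XT.lf (nat_lit 0) (nat_lit 22113245632) (nat_lit 304) (nat_lit 24089446353) (nat_lit 380) (nat_lit 5360266554) (nat_lit 109) (nat_lit 5) (nat_lit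 113) (nat_lit 5) (nat_lit 114) (nat_lit 5) (nat_lit 364) (nat_lit 336) (nat_lit 200)) (XT.nd (nat_lit 78) (nat_lit 304) (nat_lit 0) (XT.lf (nat_lit 0) (nat_lit 8558802160) (nat_lit 456) (nat_lit 38597982660) (nat_lit 76) (nat_lit 6041169651) (nat_lit 103) (nat_lit 5) (nat_lit 109) (nat_lit 5) (nat_lit 104) (nat_lit 5) (nat_lit 365) (nat_lit 336) (nat_lit 199)) (XT.lf (nat_lit 0) (nat_lit 6380670989) (nat_lit 304) (nat_lit 17289982928) (nat_lit 380) (nat_lit 31224225818) (nat_lit 99) (nat_lit 5) (nat_lit 103) (nat_lit 5) (nat_lit 104) (nat_lit 5) (nat_lit 366) (nat_lit 336) (nat_lit 198))))) (XT.nd (nat_lit 234) (nat_lit 912) (nat_lit 0) (XT.nd (nat_lit 78) (nat_lit 684) (nat_lit 0) (XT.lf (nat_lit 0) (nat_lit 40070759969) (nat_lit 380) (nat_lit 2394560315) (nat_lit 76) (nat_lit 14195353353) (nat_lit 99) (nat_lit 5) (nat_lit 104) (nat_lit 5) (nat_lit 100) (nat_lit 5) (nat_lit 367) (nat_lit 336)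 (nat_lit 197)) (XT.nd (nat_lit 78) (nat_lit 380) (nat_lit 0) (XT.lf (nat_lit 0) (nat_lit 46763865529) (nat_lit 304) (nat_lit 11147368830) (nat_lit 380) (nat_lit 584914105) (nat_lit 95) (nat_lit 5) (nat_lit 99) (nat_lit 5) (nat_lit 100) (nat_lit 5) (nat_lit 368) (nat_lit 336) (nat_lit 196)) (XT.lf (nat_lit 0) (nat_lit 16510564563) (nat_lit 380) (nat_lit 22021846222) (nat_lit 76) (nat_lit 21868108226) (nat_lit 90) (nat_lit 5) (nat_lit 95) (nat_lit 5) (nat_lit 91) (nat_lit 5) (nat_lit 369) (nat_lit 336) (nat_lit 195)))) (XT.nd (nat_lit 78) (nat_lit 608) (nat_lit 0) (XT.lf (nat_lit 0) (nat_lit 29290725341) (nat_lit 304) (nat_lit 5670674985) (nat_lit 380) (nat_lit 27423155486) (nat_lit 86) (nat_lit 5) (nat_lit 90) (nat_lit 5) (nat_lit 91) (nat_lit 5) (nat_lit 370) (nat_lit 336) (nat_lit 194)) (XT.nd (nat_lit 78) (nat_lit 380) (nat_lit 0) (XT.lf (nat_lit 0) (nat_lit 19259497322) (nat_lit 228) (nat_lit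 35763153643) (nat_lit 304) (nat_lit 9424509075) (nat_lit 83) (nat_lit 5) (nat_lit 86) (nat_lit 5) (nat_lit 87) (nat_lit 5) (nat_lit 371) (nat_lit 336) (nat_lit 193)) (XT.lf (nat_lit 0) (nat_lit 8325201031) (nat_lit 304) (nat_lit 1442009836) (nat_lit 380) (nat_lit 56828612707) (nat_lit 78) (nat_lit 5) (nat_lit 82) (nat_lit 5) (nat_lit 83) (nat_lit 5) (nat_lit 372) (nat_lit 336) (nat_lit 192)))))) (XT.nd (nat_lit 468) (nat_lit 1064) (nat_lit 0) (XT.nd (nat_lit 234) (nat_lit 456) (nat_lit 0) (XT.nd (nat_lit 78) (nat_lit 532) (nat_lit 0) (XT.lf (nat_lit 0) (nat_lit 30524540347) (nat_lit 380) (nat_lit 3817142461) (nat_lit 76) (nat_lit 34483411577) (nat_lit 78) (nat_lit 5) (nat_lit 83) (nat_lit 5) (nat_lit 79) (nat_lit 5) (nat_lit 373) (nat_lit 336) (nat_lit 191)) (XT.nd (nat_lit 78) (nat_lit 304) (nat_lit 0) (XT.lf (nat_lit 0) (nat_lit 52869056813) (nat_lit 304) (nat_lit 16763307330) (nat_lit 76)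 (nat_lit 1516986472) (nat_lit 75) (nat_lit 5) (nat_lit 79) (nat_lit 5) (nat_lit 76) (nat_lit 5) (nat_lit 374) (nat_lit 336) (nat_lit 190)) (XT.lf (nat_lit 0) (nat_lit 3486896259) (nat_lit 304) (nat_lit 31132659522) (nat_lit 76) (nat_lit 38945492718) (nat_lit 71) (nat_lit 5) (nat_lit 75) (nat_lit 5) (nat_lit 72) (nat_lit 5) (nat_lit 375) (nat_lit 336) (nat_lit 189)))) (XT.nd (nat_lit 78) (nat_lit 228) (nat_lit 0) (XT.lf (nat_lit 0) (nat_lit 26447095608) (nat_lit 304) (nat_lit 46888068610) (nat_lit 76) (nat_lit 2746457152) (nat_lit 68) (nat_lit 5) (nat_lit 72) (nat_lit 5) (nat_lit 69) (nat_lit 5) (nat_lit 376) (nat_lit 336) (nat_lit 188)) (XT.nd (nat_lit 78) (nat_lit 0) (nat_lit 0) (XT.lf (nat_lit 0) (nat_lit 14396102037) (nat_lit 228) (nat_lit 36967855851) (nat_lit 304) (nat_lit 27335806661) (nat_lit 65) (nat_lit 5) (nat_lit 68) (nat_lit 5) (nat_lit 69) (nat_lit 5) (nat_lit 377) (nat_lit 336)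 (nat_lit 187)) (XT.lf (nat_lit 0) (nat_lit 78023085345) (nat_lit 304) (nat_lit 1730924574) (nat_lit 76) (nat_lit 1679913496) (nat_lit 65) (nat_lit 5) (nat_lit 69) (nat_lit 5) (nat_lit 66) (nat_lit 5) (nat_lit 378) (nat_lit 336) (nat_lit 186))))) (XT.nd (nat_lit 234) (nat_lit 456) (nat_lit 0) (XT.nd (nat_lit 78) (nat_lit 380) (nat_lit 0) (XT.lf (nat_lit 0) (nat_lit 22290554762) (nat_lit 228) (nat_lit 19634752589) (nat_lit 76) (nat_lit 42343108467) (nat_lit 62) (nat_lit 5) (nat_lit 65) (nat_lit 5) (nat_lit 63) (nat_lit 5) (nat_lit 379) (nat_lit 336) (nat_lit 185)) (XT.nd (nat_lit 78) (nat_lit 152) (nat_lit 0) (XT.lf (nat_lit 0) (nat_lit 48006602383) (nat_lit 228) (nat_lit 1677447282) (nat_lit 304) (nat_lit 37545243890) (nat_lit 59) (nat_lit 5) (nat_lit 62) (nat_lit 5) (nat_lit 63) (nat_lit 5) (nat_lit 380) (nat_lit 336) (nat_lit 184)) (XT.lf (nat_lit 0) (nat_lit 29283427871) (nat_lit 152) (nat_lit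 50037034315) (nat_lit 228) (nat_lit 10991556707) (nat_lit 57) (nat_lit 5) (nat_lit 59) (nat_lit 5) (nat_lit 60) (nat_lit 5) (nat_lit 381) (nat_lit 336) (nat_lit 183)))) (XT.nd (nat_lit 78) (nat_lit 152) (nat_lit 0) (XT.lf (nat_lit 0) (nat_lit 8475830439) (nat_lit 228) (nat_lit 8588147203) (nat_lit 304) (nat_lit 76464920805) (nat_lit 53) (nat_lit 5) (nat_lit 56) (nat_lit 5) (nat_lit 57) (nat_lit 5) (nat_lit 382) (nat_lit 336) (nat_lit 182)) (XT.nd (nat_lit 78) (nat_lit 152) (nat_lit 0) (XT.lf (nat_lit 0) (nat_lit 47264975043) (nat_lit 304) (nat_lit 14613889131) (nat_lit 76) (nat_lit 34995393607) (nat_lit 53) (nat_lit 5) (nat_lit 57) (nat_lit 5) (nat_lit 54) (nat_lit 5) (nat_lit 383) (nat_lit 336) (nat_lit 181)) (XT.lf (nat_lit 0) (nat_lit 60436135492) (nat_lit 152) (nat_lit 19205271180) (nat_lit 228) (nat_lit 20725517716) (nat_lit 51) (nat_lit 5) (nat_lit 53) (nat_lit 5) (nat_lit 54) (nat_lit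 5) (nat_lit 384) (nat_lit 336) (nat_lit 180))))))))
noncomputable def xc107 : XT := (XT.nd (nat_lit 44772) (nat_lit 0) (nat_lit 1216) (XT.nd (nat_lit 43836) (nat_lit 0) (nat_lit 7676) (XT.nd (nat_lit 43368) (nat_lit 0) (nat_lit 12008) (XT.nd (nat_lit 43134) (nat_lit 0) (nat_lit 12920) (XT.nd (nat_lit 78) (nat_lit 152) (nat_lit 0) (XT.lf (nat_lit 0) (nat_lit 10163954330) (nat_lit 228) (nat_lit 68146777289) (nat_lit 76) (nat_lit 25698257443) (nat_lit 48) (nat_lit 5) (nat_lit 51) (nat_lit 5) (nat_lit 49) (nat_lit 5) (nat_lit 385) (nat_lit 336) (nat_lit 179)) (XT.lf (nat_lit 0) (nat_lit 8207898802) (nat_lit 152) (nat_lit 34651073760) (nat_lit 228) (nat_lit 64947337807) (nat_lit 46) (nat_lit 5) (nat_lit 48) (nat_lit 5) (nat_lit 49) (nat_lit 5) (nat_lit 386) (nat_lit 336) (nat_lit 178))) (XT.nd (nat_lit 78) (nat_lit 0) (nat_lit 0) (XT.lf (nat_lit 0) (nat_lit 4523376345) (nat_lit 0) (nat_lit 4523376345)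 (nat_lit 1140) (nat_lit 3400784916) (nat_lit 216) (nat_lit 5) (nat_lit 216) (nat_lit 3) (nat_lit 231) (nat_lit 3) (nat_lit 337) (nat_lit 337) (nat_lit 226)) (XT.nd (nat_lit 78) (nat_lit 0) (nat_lit 76) (XT.lf (nat_lit 76) (nat_lit 3375324810) (nat_lit 0) (nat_lit 15469111038) (nat_lit 1216) (nat_lit 6663907921) (nat_lit 217) (nat_lit 5) (nat_lit 216) (nat_lit 5) (nat_lit 232) (nat_lit 5) (nat_lit 338) (nat_lit 337) (nat_lit 225)) (XT.lf (nat_lit 0) (nat_lit 19913360610) (nat_lit 1140) (nat_lit 2390317977) (nat_lit 1216) (nat_lit 3840193371) (nat_lit 217) (nat_lit 5) (nat_lit 232) (nat_lit 5) (nat_lit 233) (nat_lit 5) (nat_lit 339) (nat_lit 337) (nat_lit 224))))) (XT.nd (nat_lit 234) (nat_lit 988) (nat_lit 0) (XT.nd (nat_lit 78) (nat_lit 0) (nat_lit 76) (XT.lf (nat_lit 76) (nat_lit 18539192384) (nat_lit 0) (nat_lit 2820678398) (nat_lit 1216) (nat_lit 5441590775) (nat_lit 218) (nat_lit 5) (nat_lit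 217) (nat_lit 5) (nat_lit 233) (nat_lit 5) (nat_lit 340) (nat_lit 337) (nat_lit 223)) (XT.nd (nat_lit 78) (nat_lit 0) (nat_lit 76) (XT.lf (nat_lit 76) (nat_lit 13154728295) (nat_lit 0) (nat_lit 10035076096) (nat_lit 1216) (nat_lit 4292802050) (nat_lit 219) (nat_lit 5) (nat_lit 218) (nat_lit 5) (nat_lit 234) (nat_lit 5) (nat_lit 341) (nat_lit 337) (nat_lit 222)) (XT.lf (nat_lit 76) (nat_lit 7632932321) (nat_lit 0) (nat_lit 17757147002) (nat_lit 1216) (nat_lit 2799372231) (nat_lit 220) (nat_lit 5) (nat_lit 219) (nat_lit 5) (nat_lit 235) (nat_lit 5) (nat_lit 342) (nat_lit 337) (nat_lit 221)))) (XT.nd (nat_lit 78) (nat_lit 1216) (nat_lit 0) (XT.lf (nat_lit 76) (nat_lit 1967423520) (nat_lit 0) (nat_lit 26019015752) (nat_lit 1216) (nat_lit 936625439) (nat_lit 221) (nat_lit 5) (nat_lit 220) (nat_lit 5) (nat_lit 236) (nat_lit 5) (nat_lit 343) (nat_lit 337) (nat_lit 220)) (XT.nd (nat_lit 78) (nat_lit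 0) (nat_lit 76) (XT.lf (nat_lit 0) (nat_lit 1383688813) (nat_lit 1216) (nat_lit 3837387193) (nat_lit 1292) (nat_lit 24460466332) (nat_lit 204) (nat_lit 5) (nat_lit 220) (nat_lit 5) (nat_lit 221) (nat_lit 5) (nat_lit 344) (nat_lit 337) (nat_lit 219)) (XT.lf (nat_lit 0) (nat_lit 4154659050) (nat_lit 1216) (nat_lit 9806071934) (nat_lit 1292) (nat_lit 16506321305) (nat_lit 205) (nat_lit 5) (nat_lit 221) (nat_lit 5) (nat_lit 222) (nat_lit 5) (nat_lit 345) (nat_lit 337) (nat_lit 218)))))) (XT.nd (nat_lit 468) (nat_lit 2584) (nat_lit 0) (XT.nd (nat_lit 234) (nat_lit 1140) (nat_lit 0) (XT.nd (nat_lit 78) (nat_lit 760) (nat_lit 0) (XT.lf (nat_lit 0) (nat_lit 7375137172) (nat_lit 1216) (nat_lit 15947544167) (nat_lit 1292) (nat_lit 7959834266) (nat_lit 206) (nat_lit 5) (nat_lit 222) (nat_lit 5) (nat_lit 223) (nat_lit 5) (nat_lit 346) (nat_lit 337) (nat_lit 217)) (XT.nd (nat_lit 78) (nat_lit 760) (nat_lit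 0) (XT.lf (nat_lit 76) (nat_lit 9846244433) (nat_lit 0) (nat_lit 1240376045) (nat_lit 1292) (nat_lit 21042238504) (nat_lit 207) (nat_lit 5) (nat_lit 206) (nat_lit 5) (nat_lit 223) (nat_lit 5) (nat_lit 347) (nat_lit 337) (nat_lit 216)) (XT.lf (nat_lit 0) (nat_lit 4111736428) (nat_lit 836) (nat_lit 11281006861) (nat_lit 912) (nat_lit 17612510307) (nat_lit 196) (nat_lit 5) (nat_lit 207) (nat_lit 5) (nat_lit 208) (nat_lit 5) (nat_lit 348) (nat_lit 337) (nat_lit 215)))) (XT.nd (nat_lit 78) (nat_lit 1140) (nat_lit 0) (XT.lf (nat_lit 0) (nat_lit 20265562806) (nat_lit 912) (nat_lit 1762407763) (nat_lit 76) (nat_lit 11886961400) (nat_lit 196) (nat_lit 5) (nat_lit 208) (nat_lit 5) (nat_lit 197) (nat_lit 5) (nat_lit 349) (nat_lit 337) (nat_lit 214)) (XT.nd (nat_lit 78) (nat_lit 532) (nat_lit 0) (XT.lf (nat_lit 0) (nat_lit 25763445199) (nat_lit 684) (nat_lit 7737510868) (nat_lit 76) (nat_lit 1357701007)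 (nat_lit 188) (nat_lit 5) (nat_lit 197) (nat_lit 5) (nat_lit 189) (nat_lit 5) (nat_lit 350) (nat_lit 337) (nat_lit 213)) (XT.lf (nat_lit 0) (nat_lit 21834168689) (nat_lit 532) (nat_lit 10146266248) (nat_lit 608) (nat_lit 3855812309) (nat_lit 181) (nat_lit 5) (nat_lit 188) (nat_lit 5) (nat_lit 189) (nat_lit 5) (nat_lit 351) (nat_lit 337) (nat_lit 212))))) (XT.nd (nat_lit 234) (nat_lit 912) (nat_lit 0) (XT.nd (nat_lit 78) (nat_lit 1064) (nat_lit 0) (XT.lf (nat_lit 0) (nat_lit 1986917738) (nat_lit 608) (nat_lit 20511129526) (nat_lit 76) (nat_lit 14352995800) (nat_lit 173) (nat_lit 5) (nat_lit 181) (nat_lit 5) (nat_lit 174) (nat_lit 5) (nat_lit 352) (nat_lit 337) (nat_lit 211)) (XT.nd (nat_lit 78) (nat_lit 532) (nat_lit 0) (XT.lf (nat_lit 0) (nat_lit 8408746149) (nat_lit 608) (nat_lit 27288563598) (nat_lit 76) (nat_lit 2207127043) (nat_lit 166) (nat_lit 5) (nat_lit 174) (nat_lit 5) (nat_lit 167)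 (nat_lit 5) (nat_lit 353) (nat_lit 337) (nat_lit 210)) (XT.lf (nat_lit 0) (nat_lit 4577815364) (nat_lit 532) (nat_lit 11052482396) (nat_lit 608) (nat_lit 23365847857) (nat_lit 159) (nat_lit 5) (nat_lit 166) (nat_lit 5) (nat_lit 167) (nat_lit 5) (nat_lit 354) (nat_lit 337) (nat_lit 209)))) (XT.nd (nat_lit 78) (nat_lit 912) (nat_lit 0) (XT.lf (nat_lit 0) (nat_lit 23633647969) (nat_lit 608) (nat_lit 1677552626) (nat_lit 76) (nat_lit 14818621821) (nat_lit 159) (nat_lit 5) (nat_lit 167) (nat_lit 5) (nat_lit 160) (nat_lit 5) (nat_lit 355) (nat_lit 337) (nat_lit 208)) (XT.nd (nat_lit 78) (nat_lit 456) (nat_lit 0) (XT.lf (nat_lit 0) (nat_lit 32470334978) (nat_lit 532) (nat_lit 8083360313) (nat_lit 76) (nat_lit 753496649) (nat_lit 153) (nat_lit 5) (nat_lit 160) (nat_lit 5) (nat_lit 154) (nat_lit 5) (nat_lit 356) (nat_lit 337) (nat_lit 207)) (XT.lf (nat_lit 0) (nat_lit 27640432603) (nat_lit 456) (nat_lit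 14642007702) (nat_lit 532) (nat_lit 244985891) (nat_lit 147) (nat_lit 5) (nat_lit 153) (nat_lit 5) (nat_lit 154) (nat_lit 5) (nat_lit 357) (nat_lit 337) (nat_lit 206))))))) (XT.nd (nat_lit 858) (nat_lit 2812) (nat_lit 0) (XT.nd (nat_lit 390) (nat_lit 1824) (nat_lit 0) (XT.nd (nat_lit 156) (nat_lit 836) (nat_lit 0) (XT.nd (nat_lit 78) (nat_lit 456) (nat_lit 0) (XT.lf (nat_lit 0) (nat_lit 9018909748) (nat_lit 532) (nat_lit 22073333797) (nat_lit 76) (nat_lit 12701490410) (nat_lit 140) (nat_lit 5) (nat_lit 147) (nat_lit 5) (nat_lit 141) (nat_lit 5) (nat_lit 358) (nat_lit 337) (nat_lit 205)) (XT.lf (nat_lit 0) (nat_lit 15495465528) (nat_lit 456) (nat_lit 3692300296) (nat_lit 532) (nat_lit 25922116864) (nat_lit 134) (nat_lit 5) (nat_lit 140) (nat_lit 5) (nat_lit 141) (nat_lit 5) (nat_lit 359) (nat_lit 337) (nat_lit 204))) (XT.nd (nat_lit 78) (nat_lit 456) (nat_lit 0) (XT.lf (nat_lit 0) (nat_lit 8842590813)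 (nat_lit 380) (nat_lit 21573456613) (nat_lit 456) (nat_lit 16059265115) (nat_lit 129) (nat_lit 5) (nat_lit 134) (nat_lit 5) (nat_lit 135) (nat_lit 5) (nat_lit 360) (nat_lit 337) (nat_lit 203)) (XT.nd (nat_lit 78) (nat_lit 76) (nat_lit 0) (XT.lf (nat_lit 0) (nat_lit 1865627983) (nat_lit 380) (nat_lit 40765152017) (nat_lit 456) (nat_lit 5265485795) (nat_lit 124) (nat_lit 5) (nat_lit 129) (nat_lit 5) (nat_lit 130) (nat_lit 5) (nat_lit 361) (nat_lit 337) (nat_lit 202)) (XT.lf (nat_lit 0) (nat_lit 6554264430) (nat_lit 456) (nat_lit 5536739216) (nat_lit 76) (nat_lit 37277375274) (nat_lit 123) (nat_lit 5) (nat_lit 129) (nat_lit 5) (nat_lit 124) (nat_lit 5) (nat_lit 362) (nat_lit 337) (nat_lit 201))))) (XT.nd (nat_lit 234) (nat_lit 760) (nat_lit 0) (XT.nd (nat_lit 78) (nat_lit 684) (nat_lit 0) (XT.lf (nat_lit 0) (nat_lit 19392316207) (nat_lit 456) (nat_lit 13420729161) (nat_lit 76) (nat_lit 18083404612)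 (nat_lit 118) (nat_lit 5) (nat_lit 124) (nat_lit 5) (nat_lit 119) (nat_lit 5) (nat_lit 363) (nat_lit 337) (nat_lit 200)) (XT.nd (nat_lit 78) (nat_lit 304) (nat_lit 0) (XT.lf (nat_lit 0) (nat_lit 30727095169) (nat_lit 380) (nat_lit 2616192138) (nat_lit 456) (nat_lit 19143509311) (nat_lit 113) (nat_lit 5) (nat_lit 118) (nat_lit 5) (nat_lit 119) (nat_lit 5) (nat_lit 364) (nat_lit 337) (nat_lit 199)) (XT.lf (nat_lit 0) (nat_lit 23380333313) (nat_lit 304) (nat_lit 25251557093) (nat_lit 380) (nat_lit 5505570088) (nat_lit 109) (nat_lit 5) (nat_lit 113) (nat_lit 5) (nat_lit 114) (nat_lit 5) (nat_lit 365) (nat_lit 337) (nat_lit 198)))) (XT.nd (nat_lit 78) (nat_lit 304) (nat_lit 0) (XT.lf (nat_lit 0) (nat_lit 9103272611) (nat_lit 456) (nat_lit 40365550033) (nat_lit 76) (nat_lit 6385465164) (nat_lit 103) (nat_lit 5) (nat_lit 109) (nat_lit 5) (nat_lit 104) (nat_lit 5) (nat_lit 366) (nat_lit 337) (nat_lit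 197)) (XT.nd (nat_lit 78) (nat_lit 0) (nat_lit 0) (XT.lf (nat_lit 0) (nat_lit 6857383091) (nat_lit 304) (nat_lit 18109300503) (nat_lit 380) (nat_lit 32669500003) (nat_lit 99) (nat_lit 5) (nat_lit 103) (nat_lit 5) (nat_lit 104) (nat_lit 5) (nat_lit 367) (nat_lit 337) (nat_lit 196)) (XT.lf (nat_lit 0) (nat_lit 42181851581) (nat_lit 380) (nat_lit 2361255603) (nat_lit 76) (nat_lit 14947311417) (nat_lit 99) (nat_lit 5) (nat_lit 104) (nat_lit 5) (nat_lit 100) (nat_lit 5) (nat_lit 368) (nat_lit 337) (nat_lit 195)))))) (XT.nd (nat_lit 468) (nat_lit 1216) (nat_lit 0) (XT.nd (nat_lit 234) (nat_lit 608) (nat_lit 0) (XT.nd (nat_lit 78) (nat_lit 684) (nat_lit 0) (XT.lf (nat_lit 0) (nat_lit 49250704882) (nat_lit 304) (nat_lit 11659952085) (nat_lit 380) (nat_lit 507123941) (nat_lit 95) (nat_lit 5) (nat_lit 99) (nat_lit 5) (nat_lit 100) (nat_lit 5) (nat_lit 369) (nat_lit 337) (nat_lit 194)) (XT.nd (nat_lit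 78) (nat_lit 304) (nat_lit 0) (XT.lf (nat_lit 0) (nat_lit 17437884120) (nat_lit 380) (nat_lit 22973807018) (nat_lit 76) (nat_lit 23005745389) (nat_lit 90) (nat_lit 5) (nat_lit 95) (nat_lit 5) (nat_lit 91) (nat_lit 5) (nat_lit 370) (nat_lit 337) (nat_lit 193)) (XT.lf (nat_lit 0) (nat_lit 30900118299) (nat_lit 304) (nat_lit 5907688618) (nat_lit 380) (nat_lit 28692974499) (nat_lit 86) (nat_lit 5) (nat_lit 90) (nat_lit 5) (nat_lit 91) (nat_lit 5) (nat_lit 371) (nat_lit 337) (nat_lit 192)))) (XT.nd (nat_lit 78) (nat_lit 380) (nat_lit 0) (XT.lf (nat_lit 0) (nat_lit 20365658360) (nat_lit 228) (nat_lit 37503581312) (nat_lit 304) (nat_lit 9797365076) (nat_lit 83) (nat_lit 5) (nat_lit 86) (nat_lit 5) (nat_lit 87) (nat_lit 5) (nat_lit 372) (nat_lit 337) (nat_lit 191)) (XT.nd (nat_lit 78) (nat_lit 0) (nat_lit 0) (XT.lf (nat_lit 0) (nat_lit 8882454155) (nat_lit 304) (nat_lit 1466329625) (nat_lit 380) (nat_lit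 59573988729) (nat_lit 78) (nat_lit 5) (nat_lit 82) (nat_lit 5) (nat_lit 83) (nat_lit 5) (nat_lit 373) (nat_lit 337) (nat_lit 190)) (XT.lf (nat_lit 0) (nat_lit 32139978476) (nat_lit 380) (nat_lit 3871450996) (nat_lit 76) (nat_lit 36252199612) (nat_lit 78) (nat_lit 5) (nat_lit 83) (nat_lit 5) (nat_lit 79) (nat_lit 5) (nat_lit 374) (nat_lit 337) (nat_lit 189))))) (XT.nd (nat_lit 234) (nat_lit 456) (nat_lit 0) (XT.nd (nat_lit 78) (nat_lit 532) (nat_lit 0) (XT.lf (nat_lit 0) (nat_lit 55599193572) (nat_lit 304) (nat_lit 17466655493) (nat_lit 76) (nat_lit 1638326956) (nat_lit 75) (nat_lit 5) (nat_lit 79) (nat_lit 5) (nat_lit 76) (nat_lit 5) (nat_lit 375) (nat_lit 337) (nat_lit 188)) (XT.nd (nat_lit 78) (nat_lit 228) (nat_lit 0) (XT.lf (nat_lit 0) (nat_lit 3745924685) (nat_lit 304) (nat_lit 32556615961) (nat_lit 76) (nat_lit 40938181298) (nat_lit 71) (nat_lit 5) (nat_lit 75) (nat_lit 5) (nat_lit 72)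 (nat_lit 5) (nat_lit 376) (nat_lit 337) (nat_lit 187)) (XT.lf (nat_lit 0) (nat_lit 27851791893) (nat_lit 304) (nat_lit 49101556949) (nat_lit 76) (nat_lit 2929846713) (nat_lit 68) (nat_lit 5) (nat_lit 72) (nat_lit 5) (nat_lit 69) (nat_lit 5) (nat_lit 377) (nat_lit 337) (nat_lit 186)))) (XT.nd (nat_lit 78) (nat_lit 228) (nat_lit 0) (XT.lf (nat_lit 0) (nat_lit 15243069576) (nat_lit 228) (nat_lit 38768729050) (nat_lit 304) (nat_lit 28620529970) (nat_lit 65) (nat_lit 5) (nat_lit 68) (nat_lit 5) (nat_lit 69) (nat_lit 5) (nat_lit 378) (nat_lit 337) (nat_lit 185)) (XT.nd (nat_lit 78) (nat_lit 228) (nat_lit 0) (XT.lf (nat_lit 0) (nat_lit 82000524975) (nat_lit 304) (nat_lit 1694490012) (nat_lit 76) (nat_lit 1808282805) (nat_lit 65) (nat_lit 5) (nat_lit 69) (nat_lit 5) (nat_lit 66) (nat_lit 5) (nat_lit 379) (nat_lit 337) (nat_lit 184)) (XT.lf (nat_lit 0) (nat_lit 23479645243) (nat_lit 228) (nat_lit 20495519974)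 (nat_lit 76) (nat_lit 44504403781) (nat_lit 62) (nat_lit 5) (nat_lit 65) (nat_lit 5) (nat_lit 63) (nat_lit 5) (nat_lit 380) (nat_lit 337) (nat_lit 183))))))))
noncomputable def xc108 : XT := (XT.nd (nat_lit 44772) (nat_lit 0) (nat_lit 2052) (XT.nd (nat_lit 43914) (nat_lit 0) (nat_lit 9500) (XT.nd (nat_lit 390) (nat_lit 228) (nat_lit 0) (XT.nd (nat_lit 156) (nat_lit 456) (nat_lit 0) (XT.nd (nat_lit 78) (nat_lit 152) (nat_lit 0) (XT.lf (nat_lit 0) (nat_lit 50524435159) (nat_lit 228) (nat_lit 1715958633) (nat_lit 304) (nat_lit 39348170927) (nat_lit 59) (nat_lit 5) (nat_lit 62) (nat_lit 5) (nat_lit 63) (nat_lit 5) (nat_lit 381) (nat_lit 337) (nat_lit 182)) (XT.lf (nat_lit 0) (nat_lit 30863440830) (nat_lit 152) (nat_lit 52493279606) (nat_lit 228) (nat_lit 11468764475) (nat_lit 57) (nat_lit 5) (nat_lit 59) (nat_lit 5) (nat_lit 60) (nat_lit 5) (nat_lit 382) (nat_lit 337) (nat_lit 181))) (XT.nd (nat_lit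 78) (nat_lit 152) (nat_lit 0) (XT.lf (nat_lit 0) (nat_lit 9013540956) (nat_lit 228) (nat_lit 8972309547) (nat_lit 304) (nat_lit 80217406875) (nat_lit 53) (nat_lit 5) (nat_lit 56) (nat_lit 5) (nat_lit 57) (nat_lit 5) (nat_lit 383) (nat_lit 337) (nat_lit 180)) (XT.nd (nat_lit 78) (nat_lit 152) (nat_lit 0) (XT.lf (nat_lit 0) (nat_lit 49694041798) (nat_lit 304) (nat_lit 15234516861) (nat_lit 76) (nat_lit 36787412927) (nat_lit 53) (nat_lit 5) (nat_lit 57) (nat_lit 5) (nat_lit 54) (nat_lit 5) (nat_lit 384) (nat_lit 337) (nat_lit 179)) (XT.lf (nat_lit 0) (nat_lit 63564853953) (nat_lit 152) (nat_lit 20122334566) (nat_lit 228) (nat_lit 21696147369) (nat_lit 51) (nat_lit 5) (nat_lit 53) (nat_lit 5) (nat_lit 54) (nat_lit 5) (nat_lit 385) (nat_lit 337) (nat_lit 178))))) (XT.nd (nat_lit 43290) (nat_lit 0) (nat_lit 12844) (XT.nd (nat_lit 43134) (nat_lit 0) (nat_lit 12768) (XT.lf (nat_lit 0) (nat_lit 10734874134)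 (nat_lit 228) (nat_lit 71447523263) (nat_lit 76) (nat_lit 27025137841) (nat_lit 48) (nat_lit 5) (nat_lit 51) (nat_lit 5) (nat_lit 49) (nat_lit 5) (nat_lit 386) (nat_lit 337) (nat_lit 177)) (XT.nd (nat_lit 78) (nat_lit 0) (nat_lit 0) (XT.lf (nat_lit 0) (nat_lit 4832254059) (nat_lit 0) (nat_lit 4832254059) (nat_lit 1140) (nat_lit 3400295646) (nat_lit 216) (nat_lit 5) (nat_lit 216) (nat_lit 3) (nat_lit 231) (nat_lit 3) (nat_lit 338) (nat_lit 338) (nat_lit 224)) (XT.lf (nat_lit 76) (nat_lit 3716240141) (nat_lit 0) (nat_lit 16385639437) (nat_lit 1216) (nat_lit 6672142460) (nat_lit 217) (nat_lit 5) (nat_lit 216) (nat_lit 5) (nat_lit 232) (nat_lit 5) (nat_lit 339) (nat_lit 338) (nat_lit 223)))) (XT.nd (nat_lit 78) (nat_lit 0) (nat_lit 0) (XT.lf (nat_lit 0) (nat_lit 21207930196) (nat_lit 1140) (nat_lit 2335297387) (nat_lit 1216) (nat_lit 3898602105) (nat_lit 217) (nat_lit 5) (nat_lit 232) (nat_lit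 5) (nat_lit 233) (nat_lit 5) (nat_lit 340) (nat_lit 338) (nat_lit 222)) (XT.nd (nat_lit 78) (nat_lit 0) (nat_lit 76) (XT.lf (nat_lit 76) (nat_lit 19635685440) (nat_lit 0) (nat_lit 3078476690) (nat_lit 1216) (nat_lit 5418527552) (nat_lit 218) (nat_lit 5) (nat_lit 217) (nat_lit 5) (nat_lit 233) (nat_lit 5) (nat_lit 341) (nat_lit 338) (nat_lit 221)) (XT.lf (nat_lit 76) (nat_lit 13986820156) (nat_lit 0) (nat_lit 10635746082) (nat_lit 1216) (nat_lit 4225728548) (nat_lit 219) (nat_lit 5) (nat_lit 218) (nat_lit 5) (nat_lit 234) (nat_lit 5) (nat_lit 342) (nat_lit 338) (nat_lit 220)))))) (XT.nd (nat_lit 390) (nat_lit 2356) (nat_lit 0) (XT.nd (nat_lit 156) (nat_lit 1140) (nat_lit 0) (XT.nd (nat_lit 78) (nat_lit 0) (nat_lit 76) (XT.lf (nat_lit 76) (nat_lit 8193060095) (nat_lit 0) (nat_lit 18727591992) (nat_lit 1216) (nat_lit 2670207763) (nat_lit 220) (nat_lit 5) (nat_lit 219) (nat_lit 5) (nat_lit 235)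 (nat_lit 5) (nat_lit 343) (nat_lit 338) (nat_lit 219)) (XT.lf (nat_lit 76) (nat_lit 2247763974) (nat_lit 0) (nat_lit 27387627333) (nat_lit 1216) (nat_lit 726116578) (nat_lit 221) (nat_lit 5) (nat_lit 220) (nat_lit 5) (nat_lit 236) (nat_lit 5) (nat_lit 344) (nat_lit 338) (nat_lit 218))) (XT.nd (nat_lit 78) (nat_lit 0) (nat_lit 76) (XT.lf (nat_lit 0) (nat_lit 1693176588) (nat_lit 1216) (nat_lit 3850965478) (nat_lit 1292) (nat_lit 25614063797) (nat_lit 204) (nat_lit 5) (nat_lit 220) (nat_lit 5) (nat_lit 221) (nat_lit 5) (nat_lit 345) (nat_lit 338) (nat_lit 217)) (XT.nd (nat_lit 78) (nat_lit 0) (nat_lit 76) (XT.lf (nat_lit 0) (nat_lit 4592365804) (nat_lit 1216) (nat_lit 10115533396) (nat_lit 1292) (nat_lit 17275411735) (nat_lit 205) (nat_lit 5) (nat_lit 221) (nat_lit 5) (nat_lit 222) (nat_lit 5) (nat_lit 346) (nat_lit 338) (nat_lit 216)) (XT.lf (nat_lit 0) (nat_lit 7964172159) (nat_lit 1216) (nat_lit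 16562023150) (nat_lit 1292) (nat_lit 8313652251) (nat_lit 206) (nat_lit 5) (nat_lit 222) (nat_lit 5) (nat_lit 223) (nat_lit 5) (nat_lit 347) (nat_lit 338) (nat_lit 215))))) (XT.nd (nat_lit 234) (nat_lit 1748) (nat_lit 0) (XT.nd (nat_lit 78) (nat_lit 760) (nat_lit 0) (XT.lf (nat_lit 76) (nat_lit 10516212138) (nat_lit 0) (nat_lit 1336235790) (nat_lit 1292) (nat_lit 21876332460) (nat_lit 207) (nat_lit 5) (nat_lit 206) (nat_lit 5) (nat_lit 223) (nat_lit 5) (nat_lit 348) (nat_lit 338) (nat_lit 214)) (XT.nd (nat_lit 78) (nat_lit 0) (nat_lit 0) (XT.lf (nat_lit 0) (nat_lit 4496536852) (nat_lit 836) (nat_lit 11868681671) (nat_lit 912) (nat_lit 18284044374) (nat_lit 196) (nat_lit 5) (nat_lit 207) (nat_lit 5) (nat_lit 208) (nat_lit 5) (nat_lit 349) (nat_lit 338) (nat_lit 213)) (XT.lf (nat_lit 0) (nat_lit 21471803782) (nat_lit 912) (nat_lit 1673676651) (nat_lit 76) (nat_lit 12459249024) (nat_lit 196) (nat_lit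 5) (nat_lit 208) (nat_lit 5) (nat_lit 197) (nat_lit 5) (nat_lit 350) (nat_lit 338) (nat_lit 212)))) (XT.nd (nat_lit 78) (nat_lit 1140) (nat_lit 0) (XT.lf (nat_lit 0) (nat_lit 27236911714) (nat_lit 684) (nat_lit 7946757818) (nat_lit 76) (nat_lit 1412208971) (nat_lit 188) (nat_lit 5) (nat_lit 197) (nat_lit 5) (nat_lit 189) (nat_lit 5) (nat_lit 351) (nat_lit 338) (nat_lit 211)) (XT.nd (nat_lit 78) (nat_lit 608) (nat_lit 0) (XT.lf (nat_lit 0) (nat_lit 23098414029) (nat_lit 532) (nat_lit 10659171904) (nat_lit 608) (nat_lit 3864984468) (nat_lit 181) (nat_lit 5) (nat_lit 188) (nat_lit 5) (nat_lit 189) (nat_lit 5) (nat_lit 352) (nat_lit 338) (nat_lit 210)) (XT.lf (nat_lit 0) (nat_lit 2259353412) (nat_lit 608) (nat_lit 21360131553) (nat_lit 76) (nat_lit 15068783180) (nat_lit 173) (nat_lit 5) (nat_lit 181) (nat_lit 5) (nat_lit 174) (nat_lit 5) (nat_lit 353) (nat_lit 338) (nat_lit 209))))))) (XT.nd (nat_lit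 858) (nat_lit 3268) (nat_lit 0) (XT.nd (nat_lit 390) (nat_lit 2204) (nat_lit 0) (XT.nd (nat_lit 156) (nat_lit 912) (nat_lit 0) (XT.nd (nat_lit 78) (nat_lit 532) (nat_lit 0) (XT.lf (nat_lit 0) (nat_lit 8995727414) (nat_lit 608) (nat_lit 28476423410) (nat_lit 76) (nat_lit 2322383507) (nat_lit 166) (nat_lit 5) (nat_lit 174) (nat_lit 5) (nat_lit 167) (nat_lit 5) (nat_lit 354) (nat_lit 338) (nat_lit 208)) (XT.lf (nat_lit 0) (nat_lit 4978213202) (nat_lit 532) (nat_lit 11593861370) (nat_lit 608) (nat_lit 24368948583) (nat_lit 159) (nat_lit 5) (nat_lit 166) (nat_lit 5) (nat_lit 167) (nat_lit 5) (nat_lit 355) (nat_lit 338) (nat_lit 207))) (XT.nd (nat_lit 78) (nat_lit 912) (nat_lit 0) (XT.lf (nat_lit 0) (nat_lit 24968063720) (nat_lit 608) (nat_lit 1593498145) (nat_lit 76) (nat_lit 15570053591) (nat_lit 159) (nat_lit 5) (nat_lit 167) (nat_lit 5) (nat_lit 160) (nat_lit 5) (nat_lit 356) (nat_lit 338) (nat_lit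 206)) (XT.nd (nat_lit 78) (nat_lit 456) (nat_lit 0) (XT.lf (nat_lit 0) (nat_lit 34241034723) (nat_lit 532) (nat_lit 8320043222) (nat_lit 76) (nat_lit 806947550) (nat_lit 153) (nat_lit 5) (nat_lit 160) (nat_lit 5) (nat_lit 154) (nat_lit 5) (nat_lit 357) (nat_lit 338) (nat_lit 205)) (XT.lf (nat_lit 0) (nat_lit 29185138413) (nat_lit 456) (nat_lit 15353162009) (nat_lit 532) (nat_lit 111139653) (nat_lit 147) (nat_lit 5) (nat_lit 153) (nat_lit 5) (nat_lit 154) (nat_lit 5) (nat_lit 358) (nat_lit 338) (nat_lit 204))))) (XT.nd (nat_lit 234) (nat_lit 836) (nat_lit 0) (XT.nd (nat_lit 78) (nat_lit 836) (nat_lit 0) (XT.lf (nat_lit 0) (nat_lit 9608045623) (nat_lit 532) (nat_lit 23012095051) (nat_lit 76) (nat_lit 13359036914) (nat_lit 140) (nat_lit 5) (nat_lit 147) (nat_lit 5) (nat_lit 141) (nat_lit 5) (nat_lit 359) (nat_lit 338) (nat_lit 203)) (XT.nd (nat_lit 78) (nat_lit 380) (nat_lit 0) (XT.lf (nat_lit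 0) (nat_lit 16430417259) (nat_lit 456) (nat_lit 3849886482) (nat_lit 532) (nat_lit 27080985874) (nat_lit 134) (nat_lit 5) (nat_lit 140) (nat_lit 5) (nat_lit 141) (nat_lit 5) (nat_lit 360) (nat_lit 338) (nat_lit 202)) (XT.lf (nat_lit 0) (nat_lit 9444025003) (nat_lit 380) (nat_lit 22621412742) (nat_lit 456) (nat_lit 16729694482) (nat_lit 129) (nat_lit 5) (nat_lit 134) (nat_lit 5) (nat_lit 135) (nat_lit 5) (nat_lit 361) (nat_lit 338) (nat_lit 201)))) (XT.nd (nat_lit 78) (nat_lit 456) (nat_lit 0) (XT.lf (nat_lit 0) (nat_lit 2117193623) (nat_lit 380) (nat_lit 42769392820) (nat_lit 456) (nat_lit 5400680520) (nat_lit 124) (nat_lit 5) (nat_lit 129) (nat_lit 5) (nat_lit 130) (nat_lit 5) (nat_lit 362) (nat_lit 338) (nat_lit 200)) (XT.nd (nat_lit 78) (nat_lit 380) (nat_lit 0) (XT.lf (nat_lit 0) (nat_lit 7001577910) (nat_lit 456) (nat_lit 5660371240) (nat_lit 76) (nat_lit 39171182948) (nat_lit 123) (nat_lit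 5) (nat_lit 129) (nat_lit 5) (nat_lit 124) (nat_lit 5) (nat_lit 363) (nat_lit 338) (nat_lit 199)) (XT.lf (nat_lit 0) (nat_lit 20477589320) (nat_lit 456) (nat_lit 13939739958) (nat_lit 76) (nat_lit 19020399424) (nat_lit 118) (nat_lit 5) (nat_lit 124) (nat_lit 5) (nat_lit 119) (nat_lit 5) (nat_lit 364) (nat_lit 338) (nat_lit 198)))))) (XT.nd (nat_lit 468) (nat_lit 1520) (nat_lit 0) (XT.nd (nat_lit 234) (nat_lit 608) (nat_lit 0) (XT.nd (nat_lit 78) (nat_lit 760) (nat_lit 0) (XT.lf (nat_lit 0) (nat_lit 32411117803) (nat_lit 380) (nat_lit 2710903155) (nat_lit 456) (nat_lit 19985697881) (nat_lit 113) (nat_lit 5) (nat_lit 118) (nat_lit 5) (nat_lit 119) (nat_lit 5) (nat_lit 365) (nat_lit 338) (nat_lit 197)) (XT.nd (nat_lit 78) (nat_lit 456) (nat_lit 0) (XT.lf (nat_lit 0) (nat_lit 24695767574) (nat_lit 304) (nat_lit 26475711748) (nat_lit 380) (nat_lit 5669547192) (nat_lit 109) (nat_lit 5) (nat_lit 113)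 (nat_lit 5) (nat_lit 114) (nat_lit 5) (nat_lit 366) (nat_lit 338) (nat_lit 196)) (XT.lf (nat_lit 0) (nat_lit 9664132697) (nat_lit 456) (nat_lit 42236587843) (nat_lit 76) (nat_lit 6743048654) (nat_lit 103) (nat_lit 5) (nat_lit 109) (nat_lit 5) (nat_lit 104) (nat_lit 5) (nat_lit 367) (nat_lit 338) (nat_lit 195)))) (XT.nd (nat_lit 78) (nat_lit 304) (nat_lit 0) (XT.lf (nat_lit 0) (nat_lit 7343271341) (nat_lit 304) (nat_lit 18973784511) (nat_lit 380) (nat_lit 34197816629) (nat_lit 99) (nat_lit 5) (nat_lit 103) (nat_lit 5) (nat_lit 104) (nat_lit 5) (nat_lit 368) (nat_lit 338) (nat_lit 194)) (XT.nd (nat_lit 78) (nat_lit 304) (nat_lit 0) (XT.lf (nat_lit 0) (nat_lit 44388498458) (nat_lit 380) (nat_lit 2340513187) (nat_lit 76) (nat_lit 15732944921) (nat_lit 99) (nat_lit 5) (nat_lit 104) (nat_lit 5) (nat_lit 100) (nat_lit 5) (nat_lit 369) (nat_lit 338) (nat_lit 193)) (XT.lf (nat_lit 0) (nat_lit 51848066499)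 (nat_lit 304) (nat_lit 12202328205) (nat_lit 380) (nat_lit 435395450) (nat_lit 95) (nat_lit 5) (nat_lit 99) (nat_lit 5) (nat_lit 100) (nat_lit 5) (nat_lit 370) (nat_lit 338) (nat_lit 192))))) (XT.nd (nat_lit 234) (nat_lit 608) (nat_lit 0) (XT.nd (nat_lit 78) (nat_lit 532) (nat_lit 0) (XT.lf (nat_lit 0) (nat_lit 18402106062) (nat_lit 380) (nat_lit 23987230688) (nat_lit 76) (nat_lit 24196152161) (nat_lit 90) (nat_lit 5) (nat_lit 95) (nat_lit 5) (nat_lit 91) (nat_lit 5) (nat_lit 371) (nat_lit 338) (nat_lit 191)) (XT.nd (nat_lit 78) (nat_lit 228) (nat_lit 0) (XT.lf (nat_lit 0) (nat_lit 32576513502) (nat_lit 304) (nat_lit 6160877932) (nat_lit 380) (nat_lit 30035705980) (nat_lit 86) (nat_lit 5) (nat_lit 90) (nat_lit 5) (nat_lit 91) (nat_lit 5) (nat_lit 372) (nat_lit 338) (nat_lit 190)) (XT.lf (nat_lit 0) (nat_lit 21513815357) (nat_lit 228) (nat_lit 39335467848) (nat_lit 304) (nat_lit 10198009336)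 (nat_lit 83) (nat_lit 5) (nat_lit 86) (nat_lit 5) (nat_lit 87) (nat_lit 5) (nat_lit 373) (nat_lit 338) (nat_lit 189)))) (XT.nd (nat_lit 78) (nat_lit 228) (nat_lit 0) (XT.lf (nat_lit 0) (nat_lit 9454461736) (nat_lit 304) (nat_lit 1496307601) (nat_lit 380) (nat_lit 62465563801) (nat_lit 78) (nat_lit 5) (nat_lit 82) (nat_lit 5) (nat_lit 83) (nat_lit 5) (nat_lit 374) (nat_lit 338) (nat_lit 188)) (XT.nd (nat_lit 78) (nat_lit 228) (nat_lit 0) (XT.lf (nat_lit 0) (nat_lit 33827894508) (nat_lit 380) (nat_lit 3941169951) (nat_lit 76) (nat_lit 38105278941) (nat_lit 78) (nat_lit 5) (nat_lit 83) (nat_lit 5) (nat_lit 79) (nat_lit 5) (nat_lit 375) (nat_lit 338) (nat_lit 187)) (XT.lf (nat_lit 0) (nat_lit 58457778120) (nat_lit 304) (nat_lit 18217705090) (nat_lit 76) (nat_lit 1761505127) (nat_lit 75) (nat_lit 5) (nat_lit 79) (nat_lit 5) (nat_lit 76) (nat_lit 5) (nat_lit 376) (nat_lit 338) (nat_lit 186))))))))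
noncomputable def xc109 : XT := (XT.nd (nat_lit 44928) (nat_lit 0) (nat_lit 2432) (XT.nd (nat_lit 43992) (nat_lit 0) (nat_lit 11020) (XT.nd (nat_lit 390) (nat_lit 836) (nat_lit 0) (XT.nd (nat_lit 156) (nat_lit 456) (nat_lit 0) (XT.nd (nat_lit 78) (nat_lit 228) (nat_lit 0) (XT.lf (nat_lit 0) (nat_lit 4010031453) (nat_lit 304) (nat_lit 34064105229) (nat_lit 76) (nat_lit 43026282148) (nat_lit 71) (nat_lit 5) (nat_lit 75) (nat_lit 5) (nat_lit 72) (nat_lit 5) (nat_lit 377) (nat_lit 338) (nat_lit 185)) (XT.lf (nat_lit 0) (nat_lit 29319067660) (nat_lit 304) (nat_lit 51437890949) (nat_lit 76) (nat_lit 3118122906) (nat_lit 68) (nat_lit 5) (nat_lit 72) (nat_lit 5) (nat_lit 69) (nat_lit 5) (nat_lit 378) (nat_lit 338) (nat_lit 184))) (XT.nd (nat_lit 78) (nat_lit 228) (nat_lit 0) (XT.lf (nat_lit 0) (nat_lit 16120563134) (nat_lit 228) (nat_lit 40664063831) (nat_lit 304) (nat_lit 29977119259) (nat_lit 65)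 (nat_lit 5) (nat_lit 68) (nat_lit 5) (nat_lit 69) (nat_lit 5) (nat_lit 379) (nat_lit 338) (nat_lit 183)) (XT.nd (nat_lit 78) (nat_lit 228) (nat_lit 0) (XT.lf (nat_lit 0) (nat_lit 86169744296) (nat_lit 304) (nat_lit 1667667311) (nat_lit 76) (nat_lit 1938945138) (nat_lit 65) (nat_lit 5) (nat_lit 69) (nat_lit 5) (nat_lit 66) (nat_lit 5) (nat_lit 380) (nat_lit 338) (nat_lit 182)) (XT.lf (nat_lit 0) (nat_lit 24721258111) (nat_lit 228) (nat_lit 21410572395) (nat_lit 76) (nat_lit 46769660151) (nat_lit 62) (nat_lit 5) (nat_lit 65) (nat_lit 5) (nat_lit 63) (nat_lit 5) (nat_lit 381) (nat_lit 338) (nat_lit 181))))) (XT.nd (nat_lit 234) (nat_lit 152) (nat_lit 0) (XT.nd (nat_lit 78) (nat_lit 456) (nat_lit 0) (XT.lf (nat_lit 0) (nat_lit 53157235290) (nat_lit 228) (nat_lit 1760612788) (nat_lit 304) (nat_lit 41248155294) (nat_lit 59) (nat_lit 5) (nat_lit 62) (nat_lit 5) (nat_lit 63) (nat_lit 5) (nat_lit 382)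 (nat_lit 338) (nat_lit 180)) (XT.nd (nat_lit 78) (nat_lit 304) (nat_lit 0) (XT.lf (nat_lit 0) (nat_lit 32511684586) (nat_lit 152) (nat_lit 55076577215) (nat_lit 228) (nat_lit 11976560914) (nat_lit 57) (nat_lit 5) (nat_lit 59) (nat_lit 5) (nat_lit 60) (nat_lit 5) (nat_lit 383) (nat_lit 338) (nat_lit 179)) (XT.lf (nat_lit 0) (nat_lit 9567545890) (nat_lit 228) (nat_lit 9379886462) (nat_lit 304) (nat_lit 84164095839) (nat_lit 53) (nat_lit 5) (nat_lit 56) (nat_lit 5) (nat_lit 57) (nat_lit 5) (nat_lit 384) (nat_lit 338) (nat_lit 178)))) (XT.nd (nat_lit 78) (nat_lit 152) (nat_lit 0) (XT.lf (nat_lit 0) (nat_lit 52238442756) (nat_lit 304) (nat_lit 15896408938) (nat_lit 76) (nat_lit 38665105243) (nat_lit 53) (nat_lit 5) (nat_lit 57) (nat_lit 5) (nat_lit 54) (nat_lit 5) (nat_lit 385) (nat_lit 338) (nat_lit 177)) (XT.nd (nat_lit 43212) (nat_lit 0) (nat_lit 12540) (XT.lf (nat_lit 0) (nat_lit 66840068701)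 (nat_lit 152) (nat_lit 21089267463) (nat_lit 228) (nat_lit 22721411669) (nat_lit 51) (nat_lit 5) (nat_lit 53) (nat_lit 5) (nat_lit 54) (nat_lit 5) (nat_lit 386) (nat_lit 338) (nat_lit 176)) (XT.lf (nat_lit 0) (nat_lit 5148886170) (nat_lit 0) (nat_lit 5148886170) (nat_lit 1140) (nat_lit 3415636038) (nat_lit 216) (nat_lit 5) (nat_lit 216) (nat_lit 3) (nat_lit 231) (nat_lit 3) (nat_lit 339) (nat_lit 339) (nat_lit 222)))))) (XT.nd (nat_lit 468) (nat_lit 1520) (nat_lit 0) (XT.nd (nat_lit 234) (nat_lit 0) (nat_lit 152) (XT.nd (nat_lit 78) (nat_lit 0) (nat_lit 76) (XT.lf (nat_lit 76) (nat_lit 4058196447) (nat_lit 0) (nat_lit 17334692699) (nat_lit 1216) (nat_lit 6711000506) (nat_lit 217) (nat_lit 5) (nat_lit 216) (nat_lit 5) (nat_lit 232) (nat_lit 5) (nat_lit 340) (nat_lit 339) (nat_lit 221)) (XT.nd (nat_lit 78) (nat_lit 0) (nat_lit 0) (XT.lf (nat_lit 0) (nat_lit 22539439229) (nat_lit 1140) (nat_lit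 2293752515) (nat_lit 1216) (nat_lit 3972352225) (nat_lit 217) (nat_lit 5) (nat_lit 232) (nat_lit 5) (nat_lit 233) (nat_lit 5) (nat_lit 341) (nat_lit 339) (nat_lit 220)) (XT.lf (nat_lit 76) (nat_lit 20771241536) (nat_lit 0) (nat_lit 3338309252) (nat_lit 1216) (nat_lit 5421750745) (nat_lit 218) (nat_lit 5) (nat_lit 217) (nat_lit 5) (nat_lit 233) (nat_lit 5) (nat_lit 342) (nat_lit 339) (nat_lit 219)))) (XT.nd (nat_lit 78) (nat_lit 0) (nat_lit 76) (XT.lf (nat_lit 76) (nat_lit 14844306693) (nat_lit 0) (nat_lit 11257253279) (nat_lit 1216) (nat_lit 4181492432) (nat_lit 219) (nat_lit 5) (nat_lit 218) (nat_lit 5) (nat_lit 234) (nat_lit 5) (nat_lit 343) (nat_lit 339) (nat_lit 218)) (XT.nd (nat_lit 78) (nat_lit 0) (nat_lit 76) (XT.lf (nat_lit 76) (nat_lit 8764600772) (nat_lit 0) (nat_lit 19738881016) (nat_lit 1216) (nat_lit 2559606514) (nat_lit 220) (nat_lit 5) (nat_lit 219) (nat_lit 5) (nat_lit 235)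 (nat_lit 5) (nat_lit 344) (nat_lit 339) (nat_lit 217)) (XT.lf (nat_lit 76) (nat_lit 2525203672) (nat_lit 0) (nat_lit 28818379034) (nat_lit 1216) (nat_lit 529007320) (nat_lit 221) (nat_lit 5) (nat_lit 220) (nat_lit 5) (nat_lit 236) (nat_lit 5) (nat_lit 345) (nat_lit 339) (nat_lit 216))))) (XT.nd (nat_lit 234) (nat_lit 608) (nat_lit 0) (XT.nd (nat_lit 78) (nat_lit 0) (nat_lit 76) (XT.lf (nat_lit 0) (nat_lit 1995797624) (nat_lit 1216) (nat_lit 3881798491) (nat_lit 1292) (nat_lit 26831795692) (nat_lit 204) (nat_lit 5) (nat_lit 220) (nat_lit 5) (nat_lit 221) (nat_lit 5) (nat_lit 346) (nat_lit 339) (nat_lit 215)) (XT.nd (nat_lit 78) (nat_lit 0) (nat_lit 76) (XT.lf (nat_lit 0) (nat_lit 5030577112) (nat_lit 1216) (nat_lit 10457280918) (nat_lit 1292) (nat_lit 18088184012) (nat_lit 205) (nat_lit 5) (nat_lit 221) (nat_lit 5) (nat_lit 222) (nat_lit 5) (nat_lit 347) (nat_lit 339) (nat_lit 214)) (XT.lf (nat_lit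 0) (nat_lit 8562179523) (nat_lit 1216) (nat_lit 17224230226) (nat_lit 1292) (nat_lit 8689267990) (nat_lit 206) (nat_lit 5) (nat_lit 222) (nat_lit 5) (nat_lit 223) (nat_lit 5) (nat_lit 348) (nat_lit 339) (nat_lit 213)))) (XT.nd (nat_lit 78) (nat_lit 760) (nat_lit 0) (XT.lf (nat_lit 76) (nat_lit 11203161506) (nat_lit 0) (nat_lit 1433742312) (nat_lit 1292) (nat_lit 22772400359) (nat_lit 207) (nat_lit 5) (nat_lit 206) (nat_lit 5) (nat_lit 223) (nat_lit 5) (nat_lit 349) (nat_lit 339) (nat_lit 212)) (XT.nd (nat_lit 78) (nat_lit 0) (nat_lit 0) (XT.lf (nat_lit 0) (nat_lit 4883915716) (nat_lit 836) (nat_lit 12483543842) (nat_lit 912) (nat_lit 19008594485) (nat_lit 196) (nat_lit 5) (nat_lit 207) (nat_lit 5) (nat_lit 208) (nat_lit 5) (nat_lit 350) (nat_lit 339) (nat_lit 211)) (XT.lf (nat_lit 0) (nat_lit 22720416950) (nat_lit 912) (nat_lit 1596950960) (nat_lit 76) (nat_lit 13062202001) (nat_lit 196) (nat_lit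 5) (nat_lit 208) (nat_lit 5) (nat_lit 197) (nat_lit 5) (nat_lit 351) (nat_lit 339) (nat_lit 210))))))) (XT.nd (nat_lit 858) (nat_lit 3496) (nat_lit 0) (XT.nd (nat_lit 390) (nat_lit 2280) (nat_lit 0) (XT.nd (nat_lit 156) (nat_lit 1672) (nat_lit 0) (XT.nd (nat_lit 78) (nat_lit 532) (nat_lit 0) (XT.lf (nat_lit 0) (nat_lit 28766824652) (nat_lit 684) (nat_lit 8182981339) (nat_lit 76) (nat_lit 1470686009) (nat_lit 188) (nat_lit 5) (nat_lit 197) (nat_lit 5) (nat_lit 189) (nat_lit 5) (nat_lit 352) (nat_lit 339) (nat_lit 209)) (XT.lf (nat_lit 0) (nat_lit 24409830790) (nat_lit 532) (nat_lit 11197202921) (nat_lit 608) (nat_lit 3891686339) (nat_lit 181) (nat_lit 5) (nat_lit 188) (nat_lit 5) (nat_lit 189) (nat_lit 5) (nat_lit 353) (nat_lit 339) (nat_lit 208))) (XT.nd (nat_lit 78) (nat_lit 1064) (nat_lit 0) (XT.lf (nat_lit 0) (nat_lit 2529318622) (nat_lit 608) (nat_lit 22267998041) (nat_lit 76) (nat_lit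 15820533079) (nat_lit 173) (nat_lit 5) (nat_lit 181) (nat_lit 5) (nat_lit 174) (nat_lit 5) (nat_lit 354) (nat_lit 339) (nat_lit 207)) (XT.nd (nat_lit 78) (nat_lit 532) (nat_lit 0) (XT.lf (nat_lit 0) (nat_lit 9596574064) (nat_lit 608) (nat_lit 29740091867) (nat_lit 76) (nat_lit 2442947228) (nat_lit 166) (nat_lit 5) (nat_lit 174) (nat_lit 5) (nat_lit 167) (nat_lit 5) (nat_lit 355) (nat_lit 339) (nat_lit 206)) (XT.lf (nat_lit 0) (nat_lit 5382685831) (nat_lit 532) (nat_lit 12163354759) (nat_lit 608) (nat_lit 25437562302) (nat_lit 159) (nat_lit 5) (nat_lit 166) (nat_lit 5) (nat_lit 167) (nat_lit 5) (nat_lit 356) (nat_lit 339) (nat_lit 205))))) (XT.nd (nat_lit 234) (nat_lit 1292) (nat_lit 0) (XT.nd (nat_lit 78) (nat_lit 988) (nat_lit 0) (XT.lf (nat_lit 0) (nat_lit 26355000558) (nat_lit 608) (nat_lit 1520853677) (nat_lit 76) (nat_lit 16358080696) (nat_lit 159) (nat_lit 5) (nat_lit 167) (nat_lit 5)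 (nat_lit 160) (nat_lit 5) (nat_lit 357) (nat_lit 339) (nat_lit 204)) (XT.nd (nat_lit 78) (nat_lit 532) (nat_lit 0) (XT.lf (nat_lit 0) (nat_lit 36086585775) (nat_lit 532) (nat_lit 8584131454) (nat_lit 76) (nat_lit 861604286) (nat_lit 153) (nat_lit 5) (nat_lit 160) (nat_lit 5) (nat_lit 154) (nat_lit 5) (nat_lit 358) (nat_lit 339) (nat_lit 203)) (XT.lf (nat_lit 0) (nat_lit 15507686) (nat_lit 532) (nat_lit 16086157115) (nat_lit 76) (nat_lit 30776290397) (nat_lit 146) (nat_lit 5) (nat_lit 153) (nat_lit 5) (nat_lit 147) (nat_lit 5) (nat_lit 359) (nat_lit 339) (nat_lit 202)))) (XT.nd (nat_lit 78) (nat_lit 836) (nat_lit 0) (XT.lf (nat_lit 0) (nat_lit 10213790659) (nat_lit 532) (nat_lit 24013125712) (nat_lit 76) (nat_lit 14047371510) (nat_lit 140) (nat_lit 5) (nat_lit 147) (nat_lit 5) (nat_lit 141) (nat_lit 5) (nat_lit 360) (nat_lit 339) (nat_lit 201)) (XT.nd (nat_lit 78) (nat_lit 380) (nat_lit 0) (XT.lf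 (nat_lit 0) (nat_lit 17397224702) (nat_lit 456) (nat_lit 4017864862) (nat_lit 532) (nat_lit 28310557315) (nat_lit 134) (nat_lit 5) (nat_lit 140) (nat_lit 5) (nat_lit 141) (nat_lit 5) (nat_lit 361) (nat_lit 339) (nat_lit 200)) (XT.lf (nat_lit 0) (nat_lit 10060720266) (nat_lit 380) (nat_lit 23724622424) (nat_lit 456) (nat_lit 17445967063) (nat_lit 129) (nat_lit 5) (nat_lit 134) (nat_lit 5) (nat_lit 135) (nat_lit 5) (nat_lit 362) (nat_lit 339) (nat_lit 199)))))) (XT.nd (nat_lit 468) (nat_lit 1520) (nat_lit 0) (XT.nd (nat_lit 234) (nat_lit 1140) (nat_lit 0) (XT.nd (nat_lit 78) (nat_lit 456) (nat_lit 0) (XT.lf (nat_lit 0) (nat_lit 2366621777) (nat_lit 380) (nat_lit 44877008223) (nat_lit 456) (nat_lit 5554542605) (nat_lit 124) (nat_lit 5) (nat_lit 129) (nat_lit 5) (nat_lit 130) (nat_lit 5) (nat_lit 363) (nat_lit 339) (nat_lit 198)) (XT.nd (nat_lit 78) (nat_lit 380) (nat_lit 0) (XT.lf (nat_lit 0)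 (nat_lit 7460137765) (nat_lit 456) (nat_lit 5804428409) (nat_lit 76) (nat_lit 41156897569) (nat_lit 123) (nat_lit 5) (nat_lit 129) (nat_lit 5) (nat_lit 124) (nat_lit 5) (nat_lit 364) (nat_lit 339) (nat_lit 197)) (XT.lf (nat_lit 0) (nat_lit 21606373369) (nat_lit 456) (nat_lit 14498835200) (nat_lit 76) (nat_lit 20001192258) (nat_lit 118) (nat_lit 5) (nat_lit 124) (nat_lit 5) (nat_lit 119) (nat_lit 5) (nat_lit 365) (nat_lit 339) (nat_lit 196)))) (XT.nd (nat_lit 78) (nat_lit 760) (nat_lit 0) (XT.lf (nat_lit 0) (nat_lit 34165612810) (nat_lit 380) (nat_lit 2813705828) (nat_lit 456) (nat_lit 20880686271) (nat_lit 113) (nat_lit 5) (nat_lit 118) (nat_lit 5) (nat_lit 119) (nat_lit 5) (nat_lit 366) (nat_lit 339) (nat_lit 195)) (XT.nd (nat_lit 78) (nat_lit 456) (nat_lit 0) (XT.lf (nat_lit 0) (nat_lit 26063361027) (nat_lit 304) (nat_lit 27764646362) (nat_lit 380) (nat_lit 5852070900) (nat_lit 109) (nat_lit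 5) (nat_lit 113) (nat_lit 5) (nat_lit 114) (nat_lit 5) (nat_lit 367) (nat_lit 339) (nat_lit 194)) (XT.lf (nat_lit 0) (nat_lit 10243209133) (nat_lit 456) (nat_lit 44214866495) (nat_lit 76) (nat_lit 7114949596) (nat_lit 103) (nat_lit 5) (nat_lit 109) (nat_lit 5) (nat_lit 104) (nat_lit 5) (nat_lit 368) (nat_lit 339) (nat_lit 193))))) (XT.nd (nat_lit 234) (nat_lit 912) (nat_lit 0) (XT.nd (nat_lit 78) (nat_lit 304) (nat_lit 0) (XT.lf (nat_lit 0) (nat_lit 7840157443) (nat_lit 304) (nat_lit 19885302746) (nat_lit 380) (nat_lit 35812325716) (nat_lit 99) (nat_lit 5) (nat_lit 103) (nat_lit 5) (nat_lit 104) (nat_lit 5) (nat_lit 369) (nat_lit 339) (nat_lit 192)) (XT.nd (nat_lit 78) (nat_lit 304) (nat_lit 0) (XT.lf (nat_lit 0) (nat_lit 46696408005) (nat_lit 380) (nat_lit 2331638442) (nat_lit 76) (nat_lit 16554302311) (nat_lit 99) (nat_lit 5) (nat_lit 104) (nat_lit 5) (nat_lit 100) (nat_lit 5) (nat_lit 370)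 (nat_lit 339) (nat_lit 191)) (XT.lf (nat_lit 0) (nat_lit 54562761318) (nat_lit 304) (nat_lit 12775599732) (nat_lit 380) (nat_lit 369106548) (nat_lit 95) (nat_lit 5) (nat_lit 99) (nat_lit 5) (nat_lit 100) (nat_lit 5) (nat_lit 371) (nat_lit 339) (nat_lit 190)))) (XT.nd (nat_lit 78) (nat_lit 532) (nat_lit 0) (XT.lf (nat_lit 0) (nat_lit 19405955343) (nat_lit 380) (nat_lit 25063901356) (nat_lit 76) (nat_lit 25442349340) (nat_lit 90) (nat_lit 5) (nat_lit 95) (nat_lit 5) (nat_lit 91) (nat_lit 5) (nat_lit 372) (nat_lit 339) (nat_lit 189)) (XT.nd (nat_lit 78) (nat_lit 228) (nat_lit 0) (XT.lf (nat_lit 0) (nat_lit 34324513135) (nat_lit 304) (nat_lit 6430649613) (nat_lit 380) (nat_lit 31454119629) (nat_lit 86) (nat_lit 5) (nat_lit 90) (nat_lit 5) (nat_lit 91) (nat_lit 5) (nat_lit 373) (nat_lit 339) (nat_lit 188)) (XT.lf (nat_lit 0) (nat_lit 22707305743) (nat_lit 228) (nat_lit 41262973640) (nat_lit 304)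 (nat_lit 10626981010) (nat_lit 83) (nat_lit 5) (nat_lit 86) (nat_lit 5) (nat_lit 87) (nat_lit 5) (nat_lit 374) (nat_lit 339) (nat_lit 187))))))))
noncomputable def xc110 : XT := (XT.nd (nat_lit 45084) (nat_lit 0) (nat_lit 2508) (XT.nd (nat_lit 44148) (nat_lit 0) (nat_lit 10868) (XT.nd (nat_lit 390) (nat_lit 1140) (nat_lit 0) (XT.nd (nat_lit 156) (nat_lit 760) (nat_lit 0) (XT.nd (nat_lit 78) (nat_lit 0) (nat_lit 0) (XT.lf (nat_lit 0) (nat_lit 10043180173) (nat_lit 304) (nat_lit 1531813678) (nat_lit 380) (nat_lit 65509817624) (nat_lit 78) (nat_lit 5) (nat_lit 82) (nat_lit 5) (nat_lit 83) (nat_lit 5) (nat_lit 375) (nat_lit 339) (nat_lit 186)) (XT.lf (nat_lit 0) (nat_lit 35592683436) (nat_lit 380) (nat_lit 4025889587) (nat_lit 76) (nat_lit 40047249780) (nat_lit 78) (nat_lit 5) (nat_lit 83) (nat_lit 5) (nat_lit 79) (nat_lit 5) (nat_lit 376) (nat_lit 339) (nat_lit 185))) (XT.nd (nat_lit 78) (nat_lit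 532) (nat_lit 0) (XT.lf (nat_lit 0) (nat_lit 61451982101) (nat_lit 304) (nat_lit 19017675897) (nat_lit 76) (nat_lit 1887006074) (nat_lit 75) (nat_lit 5) (nat_lit 79) (nat_lit 5) (nat_lit 76) (nat_lit 5) (nat_lit 377) (nat_lit 339) (nat_lit 184)) (XT.nd (nat_lit 78) (nat_lit 228) (nat_lit 0) (XT.lf (nat_lit 0) (nat_lit 4280202444) (nat_lit 304) (nat_lit 35658157175) (nat_lit 76) (nat_lit 45214958419) (nat_lit 71) (nat_lit 5) (nat_lit 75) (nat_lit 5) (nat_lit 72) (nat_lit 5) (nat_lit 378) (nat_lit 339) (nat_lit 183)) (XT.lf (nat_lit 0) (nat_lit 30852763602) (nat_lit 304) (nat_lit 53902081326) (nat_lit 76) (nat_lit 3311928241) (nat_lit 68) (nat_lit 5) (nat_lit 72) (nat_lit 5) (nat_lit 69) (nat_lit 5) (nat_lit 379) (nat_lit 339) (nat_lit 182))))) (XT.nd (nat_lit 234) (nat_lit 684) (nat_lit 0) (XT.nd (nat_lit 78) (nat_lit 228) (nat_lit 0) (XT.lf (nat_lit 0) (nat_lit 17031208142) (nat_lit 228) (nat_lit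 42658172535) (nat_lit 304) (nat_lit 31408458478) (nat_lit 65) (nat_lit 5) (nat_lit 68) (nat_lit 5) (nat_lit 69) (nat_lit 5) (nat_lit 380) (nat_lit 339) (nat_lit 181)) (XT.nd (nat_lit 78) (nat_lit 228) (nat_lit 0) (XT.lf (nat_lit 0) (nat_lit 90540991668) (nat_lit 304) (nat_lit 1649874076) (nat_lit 76) (nat_lit 2072398693) (nat_lit 65) (nat_lit 5) (nat_lit 69) (nat_lit 5) (nat_lit 66) (nat_lit 5) (nat_lit 381) (nat_lit 339) (nat_lit 180)) (XT.lf (nat_lit 0) (nat_lit 26018663969) (nat_lit 228) (nat_lit 22381578496) (nat_lit 76) (nat_lit 49144457156) (nat_lit 62) (nat_lit 5) (nat_lit 65) (nat_lit 5) (nat_lit 63) (nat_lit 5) (nat_lit 382) (nat_lit 339) (nat_lit 179)))) (XT.nd (nat_lit 78) (nat_lit 456) (nat_lit 0) (XT.lf (nat_lit 0) (nat_lit 55911766781) (nat_lit 228) (nat_lit 1811324810) (nat_lit 304) (nat_lit 43249407340) (nat_lit 59) (nat_lit 5) (nat_lit 62) (nat_lit 5) (nat_lit 63) (nat_lit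 5) (nat_lit 383) (nat_lit 339) (nat_lit 178)) (XT.nd (nat_lit 78) (nat_lit 304) (nat_lit 0) (XT.lf (nat_lit 0) (nat_lit 34232571958) (nat_lit 152) (nat_lit 57792885558) (nat_lit 228) (nat_lit 12515849927) (nat_lit 57) (nat_lit 5) (nat_lit 59) (nat_lit 5) (nat_lit 60) (nat_lit 5) (nat_lit 384) (nat_lit 339) (nat_lit 177)) (XT.lf (nat_lit 0) (nat_lit 10139644624) (nat_lit 228) (nat_lit 9811657599) (nat_lit 304) (nat_lit 88314086229) (nat_lit 53) (nat_lit 5) (nat_lit 56) (nat_lit 5) (nat_lit 57) (nat_lit 5) (nat_lit 385) (nat_lit 339) (nat_lit 176)))))) (XT.nd (nat_lit 468) (nat_lit 1520) (nat_lit 0) (XT.nd (nat_lit 234) (nat_lit 0) (nat_lit 76) (XT.nd (nat_lit 78) (nat_lit 0) (nat_lit 0) (XT.lf (nat_lit 0) (nat_lit 5474375293) (nat_lit 0) (nat_lit 5474375293) (nat_lit 1140) (nat_lit 3446123608) (nat_lit 216) (nat_lit 5) (nat_lit 216) (nat_lit 3) (nat_lit 231) (nat_lit 3) (nat_lit 340) (nat_lit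 340) (nat_lit 220)) (XT.nd (nat_lit 78) (nat_lit 0) (nat_lit 76) (XT.lf (nat_lit 76) (nat_lit 4402733753) (nat_lit 0) (nat_lit 18319133719) (nat_lit 1216) (nat_lit 6779204430) (nat_lit 217) (nat_lit 5) (nat_lit 216) (nat_lit 5) (nat_lit 232) (nat_lit 5) (nat_lit 341) (nat_lit 340) (nat_lit 219)) (XT.lf (nat_lit 0) (nat_lit 23912318240) (nat_lit 1140) (nat_lit 2264848539) (nat_lit 1216) (nat_lit 4061056017) (nat_lit 217) (nat_lit 5) (nat_lit 232) (nat_lit 5) (nat_lit 233) (nat_lit 5) (nat_lit 342) (nat_lit 340) (nat_lit 218)))) (XT.nd (nat_lit 78) (nat_lit 0) (nat_lit 76) (XT.lf (nat_lit 76) (nat_lit 21949279190) (nat_lit 0) (nat_lit 3601287052) (nat_lit 1216) (nat_lit 5450023602) (nat_lit 218) (nat_lit 5) (nat_lit 217) (nat_lit 5) (nat_lit 233) (nat_lit 5) (nat_lit 343) (nat_lit 340) (nat_lit 217)) (XT.nd (nat_lit 78) (nat_lit 0) (nat_lit 76) (XT.lf (nat_lit 76) (nat_lit 15729964684) (nat_lit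 0) (nat_lit 11901494531) (nat_lit 1216) (nat_lit 4158800574) (nat_lit 219) (nat_lit 5) (nat_lit 218) (nat_lit 5) (nat_lit 234) (nat_lit 5) (nat_lit 344) (nat_lit 340) (nat_lit 216)) (XT.lf (nat_lit 76) (nat_lit 9349667701) (nat_lit 0) (nat_lit 20793770122) (nat_lit 1216) (nat_lit 2466170389) (nat_lit 220) (nat_lit 5) (nat_lit 219) (nat_lit 5) (nat_lit 235) (nat_lit 5) (nat_lit 345) (nat_lit 340) (nat_lit 215))))) (XT.nd (nat_lit 234) (nat_lit 608) (nat_lit 0) (XT.nd (nat_lit 78) (nat_lit 1216) (nat_lit 0) (XT.lf (nat_lit 76) (nat_lit 2801170432) (nat_lit 0) (nat_lit 30314962688) (nat_lit 1216) (nat_lit 343743321) (nat_lit 221) (nat_lit 5) (nat_lit 220) (nat_lit 5) (nat_lit 236) (nat_lit 5) (nat_lit 346) (nat_lit 340) (nat_lit 214)) (XT.nd (nat_lit 78) (nat_lit 0) (nat_lit 76) (XT.lf (nat_lit 0) (nat_lit 2293285653) (nat_lit 1216) (nat_lit 3929207907) (nat_lit 1292) (nat_lit 28116268657) (nat_lit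 204) (nat_lit 5) (nat_lit 220) (nat_lit 5) (nat_lit 221) (nat_lit 5) (nat_lit 347) (nat_lit 340) (nat_lit 213)) (XT.lf (nat_lit 0) (nat_lit 5471305984) (nat_lit 1216) (nat_lit 10831365691) (nat_lit 1292) (nat_lit 18946336243) (nat_lit 205) (nat_lit 5) (nat_lit 221) (nat_lit 5) (nat_lit 222) (nat_lit 5) (nat_lit 348) (nat_lit 340) (nat_lit 212)))) (XT.nd (nat_lit 78) (nat_lit 760) (nat_lit 0) (XT.lf (nat_lit 0) (nat_lit 9171511860) (nat_lit 1216) (nat_lit 17934970915) (nat_lit 1292) (nat_lit 9087389554) (nat_lit 206) (nat_lit 5) (nat_lit 222) (nat_lit 5) (nat_lit 223) (nat_lit 5) (nat_lit 349) (nat_lit 340) (nat_lit 211)) (XT.nd (nat_lit 78) (nat_lit 760) (nat_lit 0) (XT.lf (nat_lit 76) (nat_lit 11909477188) (nat_lit 0) (nat_lit 1533270455) (nat_lit 1292) (nat_lit 23731656455) (nat_lit 207) (nat_lit 5) (nat_lit 206) (nat_lit 5) (nat_lit 223) (nat_lit 5) (nat_lit 350) (nat_lit 340) (nat_lit 210))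 (XT.lf (nat_lit 0) (nat_lit 5275550977) (nat_lit 836) (nat_lit 13127156941) (nat_lit 912) (nat_lit 19787004157) (nat_lit 196) (nat_lit 5) (nat_lit 207) (nat_lit 5) (nat_lit 208) (nat_lit 5) (nat_lit 351) (nat_lit 340) (nat_lit 209))))))) (XT.nd (nat_lit 858) (nat_lit 3648) (nat_lit 0) (XT.nd (nat_lit 390) (nat_lit 2432) (nat_lit 0) (XT.nd (nat_lit 156) (nat_lit 1672) (nat_lit 0) (XT.nd (nat_lit 78) (nat_lit 608) (nat_lit 0) (XT.lf (nat_lit 0) (nat_lit 24015188800) (nat_lit 912) (nat_lit 1531302341) (nat_lit 76) (nat_lit 13697162918) (nat_lit 196) (nat_lit 5) (nat_lit 208) (nat_lit 5) (nat_lit 197) (nat_lit 5) (nat_lit 352) (nat_lit 340) (nat_lit 208)) (XT.lf (nat_lit 0) (nat_lit 30357607927) (nat_lit 684) (nat_lit 8445994923) (nat_lit 76) (nat_lit 1533214948) (nat_lit 188) (nat_lit 5) (nat_lit 197) (nat_lit 5) (nat_lit 189) (nat_lit 5) (nat_lit 353) (nat_lit 340) (nat_lit 207))) (XT.nd (nat_lit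 78) (nat_lit 1140) (nat_lit 0) (XT.lf (nat_lit 0) (nat_lit 25772268868) (nat_lit 532) (nat_lit 11761663902) (nat_lit 608) (nat_lit 3935207297) (nat_lit 181) (nat_lit 5) (nat_lit 188) (nat_lit 5) (nat_lit 189) (nat_lit 5) (nat_lit 354) (nat_lit 340) (nat_lit 206)) (XT.nd (nat_lit 78) (nat_lit 532) (nat_lit 0) (XT.lf (nat_lit 0) (nat_lit 2798185950) (nat_lit 608) (nat_lit 23236146160) (nat_lit 76) (nat_lit 16610027524) (nat_lit 173) (nat_lit 5) (nat_lit 181) (nat_lit 5) (nat_lit 174) (nat_lit 5) (nat_lit 355) (nat_lit 340) (nat_lit 205)) (XT.lf (nat_lit 0) (nat_lit 10213418893) (nat_lit 608) (nat_lit 31081833227) (nat_lit 76) (nat_lit 2569125924) (nat_lit 166) (nat_lit 5) (nat_lit 174) (nat_lit 5) (nat_lit 167) (nat_lit 5) (nat_lit 356) (nat_lit 340) (nat_lit 204))))) (XT.nd (nat_lit 234) (nat_lit 1444) (nat_lit 0) (XT.nd (nat_lit 78) (nat_lit 456) (nat_lit 0) (XT.lf (nat_lit 0) (nat_lit 5792919414)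 (nat_lit 532) (nat_lit 12762271087) (nat_lit 608) (nat_lit 26573536824) (nat_lit 159) (nat_lit 5) (nat_lit 166) (nat_lit 5) (nat_lit 167) (nat_lit 5) (nat_lit 357) (nat_lit 340) (nat_lit 203)) (XT.nd (nat_lit 78) (nat_lit 456) (nat_lit 0) (XT.lf (nat_lit 0) (nat_lit 27798404692) (nat_lit 608) (nat_lit 1458738197) (nat_lit 76) (nat_lit 17184623666) (nat_lit 159) (nat_lit 5) (nat_lit 167) (nat_lit 5) (nat_lit 160) (nat_lit 5) (nat_lit 358) (nat_lit 340) (nat_lit 202)) (XT.lf (nat_lit 0) (nat_lit 38012002879) (nat_lit 532) (nat_lit 8875547615) (nat_lit 76) (nat_lit 917663511) (nat_lit 153) (nat_lit 5) (nat_lit 160) (nat_lit 5) (nat_lit 154) (nat_lit 5) (nat_lit 359) (nat_lit 340) (nat_lit 201)))) (XT.nd (nat_lit 78) (nat_lit 912) (nat_lit 0) (XT.lf (nat_lit 0) (nat_lit 134130825) (nat_lit 532) (nat_lit 16754194794) (nat_lit 76) (nat_lit 32329907808) (nat_lit 146) (nat_lit 5) (nat_lit 153) (nat_lit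 5) (nat_lit 147) (nat_lit 5) (nat_lit 360) (nat_lit 340) (nat_lit 200)) (XT.nd (nat_lit 78) (nat_lit 456) (nat_lit 0) (XT.lf (nat_lit 0) (nat_lit 10838169765) (nat_lit 532) (nat_lit 25078113888) (nat_lit 76) (nat_lit 14768227841) (nat_lit 140) (nat_lit 5) (nat_lit 147) (nat_lit 5) (nat_lit 141) (nat_lit 5) (nat_lit 361) (nat_lit 340) (nat_lit 199)) (XT.lf (nat_lit 0) (nat_lit 18398865148) (nat_lit 456) (nat_lit 4196521421) (nat_lit 532) (nat_lit 29613180098) (nat_lit 134) (nat_lit 5) (nat_lit 140) (nat_lit 5) (nat_lit 141) (nat_lit 5) (nat_lit 362) (nat_lit 340) (nat_lit 198)))))) (XT.nd (nat_lit 468) (nat_lit 1748) (nat_lit 0) (XT.nd (nat_lit 234) (nat_lit 1064) (nat_lit 0) (XT.nd (nat_lit 78) (nat_lit 456) (nat_lit 0) (XT.lf (nat_lit 0) (nat_lit 10694816608) (nat_lit 380) (nat_lit 24885582838) (nat_lit 456) (nat_lit 18209229458) (nat_lit 129) (nat_lit 5) (nat_lit 134) (nat_lit 5) (nat_lit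 135) (nat_lit 5) (nat_lit 363) (nat_lit 340) (nat_lit 197)) (XT.nd (nat_lit 78) (nat_lit 76) (nat_lit 0) (XT.lf (nat_lit 0) (nat_lit 2615173703) (nat_lit 380) (nat_lit 47092872931) (nat_lit 456) (nat_lit 5726898360) (nat_lit 124) (nat_lit 5) (nat_lit 129) (nat_lit 5) (nat_lit 130) (nat_lit 5) (nat_lit 364) (nat_lit 340) (nat_lit 196)) (XT.lf (nat_lit 0) (nat_lit 7931540082) (nat_lit 456) (nat_lit 5968607748) (nat_lit 76) (nat_lit 43239373263) (nat_lit 123) (nat_lit 5) (nat_lit 129) (nat_lit 5) (nat_lit 124) (nat_lit 5) (nat_lit 365) (nat_lit 340) (nat_lit 195)))) (XT.nd (nat_lit 78) (nat_lit 684) (nat_lit 0) (XT.lf (nat_lit 0) (nat_lit 22781843586) (nat_lit 456) (nat_lit 15098705073) (nat_lit 76) (nat_lit 21028256735) (nat_lit 118) (nat_lit 5) (nat_lit 124) (nat_lit 5) (nat_lit 119) (nat_lit 5) (nat_lit 366) (nat_lit 340) (nat_lit 194)) (XT.nd (nat_lit 78) (nat_lit 304) (nat_lit 0) (XT.lf (nat_lit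 0) (nat_lit 35995380177) (nat_lit 380) (nat_lit 2924692720) (nat_lit 456) (nat_lit 21830120581) (nat_lit 113) (nat_lit 5) (nat_lit 118) (nat_lit 5) (nat_lit 119) (nat_lit 5) (nat_lit 367) (nat_lit 340) (nat_lit 193)) (XT.lf (nat_lit 0) (nat_lit 27486987197) (nat_lit 304) (nat_lit 29121267819) (nat_lit 380) (nat_lit 6053106508) (nat_lit 109) (nat_lit 5) (nat_lit 113) (nat_lit 5) (nat_lit 114) (nat_lit 5) (nat_lit 368) (nat_lit 340) (nat_lit 192))))) (XT.nd (nat_lit 234) (nat_lit 988) (nat_lit 0) (XT.nd (nat_lit 78) (nat_lit 304) (nat_lit 0) (XT.lf (nat_lit 0) (nat_lit 10842326325) (nat_lit 456) (nat_lit 46304475361) (nat_lit 76) (nat_lit 7502214998) (nat_lit 103) (nat_lit 5) (nat_lit 109) (nat_lit 5) (nat_lit 104) (nat_lit 5) (nat_lit 369) (nat_lit 340) (nat_lit 191)) (XT.nd (nat_lit 78) (nat_lit 0) (nat_lit 0) (XT.lf (nat_lit 0) (nat_lit 8349827479) (nat_lit 304) (nat_lit 20845852699) (nat_lit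 380) (nat_lit 37516427948) (nat_lit 99) (nat_lit 5) (nat_lit 103) (nat_lit 5) (nat_lit 104) (nat_lit 5) (nat_lit 370) (nat_lit 340) (nat_lit 190)) (XT.lf (nat_lit 0) (nat_lit 49111486567) (nat_lit 380) (nat_lit 2334024986) (nat_lit 76) (nat_lit 17413500549) (nat_lit 99) (nat_lit 5) (nat_lit 104) (nat_lit 5) (nat_lit 100) (nat_lit 5) (nat_lit 371) (nat_lit 340) (nat_lit 189)))) (XT.nd (nat_lit 78) (nat_lit 684) (nat_lit 0) (XT.lf (nat_lit 0) (nat_lit 57401821375) (nat_lit 304) (nat_lit 13380960323) (nat_lit 380) (nat_lit 307690061) (nat_lit 95) (nat_lit 5) (nat_lit 99) (nat_lit 5) (nat_lit 100) (nat_lit 5) (nat_lit 372) (nat_lit 340) (nat_lit 188)) (XT.nd (nat_lit 78) (nat_lit 304) (nat_lit 0) (XT.lf (nat_lit 0) (nat_lit 20452211367) (nat_lit 380) (nat_lit 26205812191) (nat_lit 76) (nat_lit 26747473221) (nat_lit 90) (nat_lit 5) (nat_lit 95) (nat_lit 5) (nat_lit 91) (nat_lit 5) (nat_lit 373)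 (nat_lit 340) (nat_lit 187)) (XT.lf (nat_lit 0) (nat_lit 36148833084) (nat_lit 304) (nat_lit 6717468067) (nat_lit 380) (nat_lit 32951205066) (nat_lit 86) (nat_lit 5) (nat_lit 90) (nat_lit 5) (nat_lit 91) (nat_lit 5) (nat_lit 374) (nat_lit 340) (nat_lit 186))))))))
noncomputable def xc111 : XT := (XT.nd (nat_lit 45162) (nat_lit 0) (nat_lit 2204) (XT.nd (nat_lit 44226) (nat_lit 0) (nat_lit 10564) (XT.nd (nat_lit 390) (nat_lit 1064) (nat_lit 0) (XT.nd (nat_lit 156) (nat_lit 532) (nat_lit 0) (XT.nd (nat_lit 78) (nat_lit 380) (nat_lit 0) (XT.lf (nat_lit 0) (nat_lit 23949518756) (nat_lit 228) (nat_lit 43290505452) (nat_lit 304) (nat_lit 11084925259) (nat_lit 83) (nat_lit 5) (nat_lit 86) (nat_lit 5) (nat_lit 87) (nat_lit 5) (nat_lit 375) (nat_lit 340) (nat_lit 185)) (XT.lf (nat_lit 0) (nat_lit 10650550383) (nat_lit 304) (nat_lit 1572749666) (nat_lit 380) (nat_lit 68713631074) (nat_lit 78) (nat_lit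 5) (nat_lit 82) (nat_lit 5) (nat_lit 83) (nat_lit 5) (nat_lit 376) (nat_lit 340) (nat_lit 184))) (XT.nd (nat_lit 78) (nat_lit 532) (nat_lit 0) (XT.lf (nat_lit 0) (nat_lit 37438888312) (nat_lit 380) (nat_lit 4125289407) (nat_lit 76) (nat_lit 42082906502) (nat_lit 78) (nat_lit 5) (nat_lit 83) (nat_lit 5) (nat_lit 79) (nat_lit 5) (nat_lit 377) (nat_lit 340) (nat_lit 183)) (XT.nd (nat_lit 78) (nat_lit 304) (nat_lit 0) (XT.lf (nat_lit 0) (nat_lit 64589266080) (nat_lit 304) (nat_lit 19867957019) (nat_lit 76) (nat_lit 2015302582) (nat_lit 75) (nat_lit 5) (nat_lit 79) (nat_lit 5) (nat_lit 76) (nat_lit 5) (nat_lit 378) (nat_lit 340) (nat_lit 182)) (XT.lf (nat_lit 0) (nat_lit 4557404783) (nat_lit 304) (nat_lit 37342059759) (nat_lit 76) (nat_lit 47509594924) (nat_lit 71) (nat_lit 5) (nat_lit 75) (nat_lit 5) (nat_lit 72) (nat_lit 5) (nat_lit 379) (nat_lit 340) (nat_lit 181))))) (XT.nd (nat_lit 234) (nat_lit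 608) (nat_lit 0) (XT.nd (nat_lit 78) (nat_lit 228) (nat_lit 0) (XT.lf (nat_lit 0) (nat_lit 32456846281) (nat_lit 304) (nat_lit 56499494535) (nat_lit 76) (nat_lit 3511900336) (nat_lit 68) (nat_lit 5) (nat_lit 72) (nat_lit 5) (nat_lit 69) (nat_lit 5) (nat_lit 380) (nat_lit 340) (nat_lit 180)) (XT.nd (nat_lit 78) (nat_lit 0) (nat_lit 0) (XT.lf (nat_lit 0) (nat_lit 17977659117) (nat_lit 228) (nat_lit 44755621310) (nat_lit 304) (nat_lit 32917641726) (nat_lit 65) (nat_lit 5) (nat_lit 68) (nat_lit 5) (nat_lit 69) (nat_lit 5) (nat_lit 381) (nat_lit 340) (nat_lit 179)) (XT.lf (nat_lit 0) (nat_lit 95124966564) (nat_lit 304) (nat_lit 1640597621) (nat_lit 76) (nat_lit 2209130916) (nat_lit 65) (nat_lit 5) (nat_lit 69) (nat_lit 5) (nat_lit 66) (nat_lit 5) (nat_lit 382) (nat_lit 340) (nat_lit 178)))) (XT.nd (nat_lit 78) (nat_lit 380) (nat_lit 0) (XT.lf (nat_lit 0) (nat_lit 27375237034) (nat_lit 228) (nat_lit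 23410387562) (nat_lit 76) (nat_lit 51634617880) (nat_lit 62) (nat_lit 5) (nat_lit 65) (nat_lit 5) (nat_lit 63) (nat_lit 5) (nat_lit 383) (nat_lit 340) (nat_lit 177)) (XT.nd (nat_lit 78) (nat_lit 152) (nat_lit 0) (XT.lf (nat_lit 0) (nat_lit 58795037411) (nat_lit 228) (nat_lit 1868041964) (nat_lit 304) (nat_lit 45356407667) (nat_lit 59) (nat_lit 5) (nat_lit 62) (nat_lit 5) (nat_lit 63) (nat_lit 5) (nat_lit 384) (nat_lit 340) (nat_lit 176)) (XT.lf (nat_lit 0) (nat_lit 36030643316) (nat_lit 152) (nat_lit 60648497620) (nat_lit 228) (nat_lit 13087638765) (nat_lit 57) (nat_lit 5) (nat_lit 59) (nat_lit 5) (nat_lit 60) (nat_lit 5) (nat_lit 385) (nat_lit 340) (nat_lit 175)))))) (XT.nd (nat_lit 468) (nat_lit 1520) (nat_lit 0) (XT.nd (nat_lit 234) (nat_lit 0) (nat_lit 76) (XT.nd (nat_lit 78) (nat_lit 0) (nat_lit 0) (XT.lf (nat_lit 0) (nat_lit 5809812710) (nat_lit 0) (nat_lit 5809812710) (nat_lit 1140)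 (nat_lit 3491178784) (nat_lit 216) (nat_lit 5) (nat_lit 216) (nat_lit 3) (nat_lit 231) (nat_lit 3) (nat_lit 341) (nat_lit 341) (nat_lit 218)) (XT.nd (nat_lit 78) (nat_lit 0) (nat_lit 76) (XT.lf (nat_lit 76) (nat_lit 4751330742) (nat_lit 0) (nat_lit 19341853567) (nat_lit 1216) (nat_lit 6875673857) (nat_lit 217) (nat_lit 5) (nat_lit 216) (nat_lit 5) (nat_lit 232) (nat_lit 5) (nat_lit 342) (nat_lit 341) (nat_lit 217)) (XT.lf (nat_lit 0) (nat_lit 25330979095) (nat_lit 1140) (nat_lit 2247849151) (nat_lit 1216) (nat_lit 4164413744) (nat_lit 217) (nat_lit 5) (nat_lit 232) (nat_lit 5) (nat_lit 233) (nat_lit 5) (nat_lit 343) (nat_lit 341) (nat_lit 216)))) (XT.nd (nat_lit 78) (nat_lit 0) (nat_lit 76) (XT.lf (nat_lit 76) (nat_lit 23173251609) (nat_lit 0) (nat_lit 3868482777) (nat_lit 1216) (nat_lit 5502284710) (nat_lit 218) (nat_lit 5) (nat_lit 217) (nat_lit 5) (nat_lit 233) (nat_lit 5) (nat_lit 344)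 (nat_lit 341) (nat_lit 215)) (XT.nd (nat_lit 78) (nat_lit 0) (nat_lit 76) (XT.lf (nat_lit 76) (nat_lit 16646569636) (nat_lit 0) (nat_lit 12570382035) (nat_lit 1216) (nat_lit 4156521573) (nat_lit 219) (nat_lit 5) (nat_lit 218) (nat_lit 5) (nat_lit 234) (nat_lit 5) (nat_lit 345) (nat_lit 341) (nat_lit 214)) (XT.lf (nat_lit 76) (nat_lit 9950336475) (nat_lit 0) (nat_lit 21895086797) (nat_lit 1216) (nat_lit 2388647661) (nat_lit 220) (nat_lit 5) (nat_lit 219) (nat_lit 5) (nat_lit 235) (nat_lit 5) (nat_lit 346) (nat_lit 341) (nat_lit 213))))) (XT.nd (nat_lit 234) (nat_lit 608) (nat_lit 0) (XT.nd (nat_lit 78) (nat_lit 1216) (nat_lit 0) (XT.lf (nat_lit 76) (nat_lit 3077017230) (nat_lit 0) (nat_lit 31881200348) (nat_lit 1216) (nat_lit 168899318) (nat_lit 221) (nat_lit 5) (nat_lit 220) (nat_lit 5) (nat_lit 236) (nat_lit 5) (nat_lit 347) (nat_lit 341) (nat_lit 212)) (XT.nd (nat_lit 78) (nat_lit 0) (nat_lit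 76) (XT.lf (nat_lit 0) (nat_lit 2587267983) (nat_lit 1216) (nat_lit 3992624757) (nat_lit 1292) (nat_lit 29470275451) (nat_lit 204) (nat_lit 5) (nat_lit 220) (nat_lit 5) (nat_lit 221) (nat_lit 5) (nat_lit 348) (nat_lit 341) (nat_lit 211)) (XT.lf (nat_lit 0) (nat_lit 5916481275) (nat_lit 1216) (nat_lit 11237986790) (nat_lit 1292) (nat_lit 19851696619) (nat_lit 205) (nat_lit 5) (nat_lit 221) (nat_lit 5) (nat_lit 222) (nat_lit 5) (nat_lit 349) (nat_lit 341) (nat_lit 210)))) (XT.nd (nat_lit 78) (nat_lit 760) (nat_lit 0) (XT.lf (nat_lit 0) (nat_lit 9794462384) (nat_lit 1216) (nat_lit 18695237990) (nat_lit 1292) (nat_lit 9508795916) (nat_lit 206) (nat_lit 5) (nat_lit 222) (nat_lit 5) (nat_lit 223) (nat_lit 5) (nat_lit 350) (nat_lit 341) (nat_lit 209)) (XT.nd (nat_lit 78) (nat_lit 760) (nat_lit 0) (XT.lf (nat_lit 76) (nat_lit 12637520305) (nat_lit 0) (nat_lit 1635186611) (nat_lit 1292) (nat_lit 24755550914)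 (nat_lit 207) (nat_lit 5) (nat_lit 206) (nat_lit 5) (nat_lit 223) (nat_lit 5) (nat_lit 351) (nat_lit 341) (nat_lit 208)) (XT.lf (nat_lit 0) (nat_lit 5673060476) (nat_lit 836) (nat_lit 13801143729) (nat_lit 912) (nat_lit 20620327107) (nat_lit 196) (nat_lit 5) (nat_lit 207) (nat_lit 5) (nat_lit 208) (nat_lit 5) (nat_lit 352) (nat_lit 341) (nat_lit 207))))))) (XT.nd (nat_lit 858) (nat_lit 3648) (nat_lit 0) (XT.nd (nat_lit 390) (nat_lit 2432) (nat_lit 0) (XT.nd (nat_lit 156) (nat_lit 1672) (nat_lit 0) (XT.nd (nat_lit 78) (nat_lit 608) (nat_lit 0) (XT.lf (nat_lit 0) (nat_lit 25359940078) (nat_lit 912) (nat_lit 1475898146) (nat_lit 76) (nat_lit 14365559219) (nat_lit 196) (nat_lit 5) (nat_lit 208) (nat_lit 5) (nat_lit 197) (nat_lit 5) (nat_lit 353) (nat_lit 341) (nat_lit 206)) (XT.lf (nat_lit 0) (nat_lit 32013757749) (nat_lit 684) (nat_lit 8735745478) (nat_lit 76) (nat_lit 1599893508) (nat_lit 188)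 (nat_lit 5) (nat_lit 197) (nat_lit 5) (nat_lit 189) (nat_lit 5) (nat_lit 354) (nat_lit 341) (nat_lit 205))) (XT.nd (nat_lit 78) (nat_lit 1140) (nat_lit 0) (XT.lf (nat_lit 0) (nat_lit 27189632007) (nat_lit 532) (nat_lit 12353920191) (nat_lit 608) (nat_lit 3994948743) (nat_lit 181) (nat_lit 5) (nat_lit 188) (nat_lit 5) (nat_lit 189) (nat_lit 5) (nat_lit 355) (nat_lit 341) (nat_lit 204)) (XT.nd (nat_lit 78) (nat_lit 532) (nat_lit 0) (XT.lf (nat_lit 0) (nat_lit 3067257511) (nat_lit 608) (nat_lit 24266205820) (nat_lit 76) (nat_lit 17439139142) (nat_lit 173) (nat_lit 5) (nat_lit 181) (nat_lit 5) (nat_lit 174) (nat_lit 5) (nat_lit 356) (nat_lit 341) (nat_lit 203)) (XT.lf (nat_lit 0) (nat_lit 10848367503) (nat_lit 608) (nat_lit 32504166855) (nat_lit 76) (nat_lit 2701238759) (nat_lit 166) (nat_lit 5) (nat_lit 174) (nat_lit 5) (nat_lit 167) (nat_lit 5) (nat_lit 357) (nat_lit 341) (nat_lit 202))))) (XT.nd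 (nat_lit 234) (nat_lit 1444) (nat_lit 0) (XT.nd (nat_lit 78) (nat_lit 456) (nat_lit 0) (XT.lf (nat_lit 0) (nat_lit 6210546601) (nat_lit 532) (nat_lit 13391993340) (nat_lit 608) (nat_lit 27778945101) (nat_lit 159) (nat_lit 5) (nat_lit 166) (nat_lit 5) (nat_lit 167) (nat_lit 5) (nat_lit 358) (nat_lit 341) (nat_lit 201)) (XT.nd (nat_lit 78) (nat_lit 456) (nat_lit 0) (XT.lf (nat_lit 0) (nat_lit 29302296905) (nat_lit 608) (nat_lit 1406361579) (nat_lit 76) (nat_lit 18051690617) (nat_lit 159) (nat_lit 5) (nat_lit 167) (nat_lit 5) (nat_lit 160) (nat_lit 5) (nat_lit 359) (nat_lit 341) (nat_lit 200)) (XT.lf (nat_lit 0) (nat_lit 40022433240) (nat_lit 532) (nat_lit 9194345030) (nat_lit 76) (nat_lit 975319032) (nat_lit 153) (nat_lit 5) (nat_lit 160) (nat_lit 5) (nat_lit 154) (nat_lit 5) (nat_lit 360) (nat_lit 341) (nat_lit 199)))) (XT.nd (nat_lit 78) (nat_lit 912) (nat_lit 0) (XT.lf (nat_lit 0) (nat_lit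 247728754) (nat_lit 532) (nat_lit 17468303466) (nat_lit 76) (nat_lit 33959829857) (nat_lit 146) (nat_lit 5) (nat_lit 153) (nat_lit 5) (nat_lit 147) (nat_lit 5) (nat_lit 361) (nat_lit 341) (nat_lit 198)) (XT.nd (nat_lit 78) (nat_lit 456) (nat_lit 0) (XT.lf (nat_lit 0) (nat_lit 11483198049) (nat_lit 532) (nat_lit 26208964607) (nat_lit 76) (nat_lit 15523408173) (nat_lit 140) (nat_lit 5) (nat_lit 147) (nat_lit 5) (nat_lit 141) (nat_lit 5) (nat_lit 362) (nat_lit 341) (nat_lit 197)) (XT.lf (nat_lit 0) (nat_lit 19438336035) (nat_lit 456) (nat_lit 4386178165) (nat_lit 532) (nat_lit 30991430865) (nat_lit 134) (nat_lit 5) (nat_lit 140) (nat_lit 5) (nat_lit 141) (nat_lit 5) (nat_lit 363) (nat_lit 341) (nat_lit 196)))))) (XT.nd (nat_lit 468) (nat_lit 1748) (nat_lit 0) (XT.nd (nat_lit 234) (nat_lit 1064) (nat_lit 0) (XT.nd (nat_lit 78) (nat_lit 456) (nat_lit 0) (XT.lf (nat_lit 0) (nat_lit 11348433021) (nat_lit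 380) (nat_lit 26106940704) (nat_lit 456) (nat_lit 19020792103) (nat_lit 129) (nat_lit 5) (nat_lit 134) (nat_lit 5) (nat_lit 135) (nat_lit 5) (nat_lit 364) (nat_lit 341) (nat_lit 195)) (XT.nd (nat_lit 78) (nat_lit 76) (nat_lit 0) (XT.lf (nat_lit 0) (nat_lit 2864046526) (nat_lit 380) (nat_lit 49422132719) (nat_lit 456) (nat_lit 5917668335) (nat_lit 124) (nat_lit 5) (nat_lit 129) (nat_lit 5) (nat_lit 130) (nat_lit 5) (nat_lit 365) (nat_lit 341) (nat_lit 194)) (XT.lf (nat_lit 0) (nat_lit 8417364641) (nat_lit 456) (nat_lit 6152714253) (nat_lit 76) (nat_lit 45423682801) (nat_lit 123) (nat_lit 5) (nat_lit 129) (nat_lit 5) (nat_lit 124) (nat_lit 5) (nat_lit 366) (nat_lit 341) (nat_lit 193)))) (XT.nd (nat_lit 78) (nat_lit 684) (nat_lit 0) (XT.lf (nat_lit 0) (nat_lit 24007241025) (nat_lit 456) (nat_lit 15740196438) (nat_lit 76) (nat_lit 22104163780) (nat_lit 118) (nat_lit 5) (nat_lit 124) (nat_lit 5)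 (nat_lit 119) (nat_lit 5) (nat_lit 367) (nat_lit 341) (nat_lit 192)) (XT.nd (nat_lit 78) (nat_lit 304) (nat_lit 0) (XT.lf (nat_lit 0) (nat_lit 37905341228) (nat_lit 380) (nat_lit 3043990033) (nat_lit 456) (nat_lit 22835821618) (nat_lit 113) (nat_lit 5) (nat_lit 118) (nat_lit 5) (nat_lit 119) (nat_lit 5) (nat_lit 368) (nat_lit 341) (nat_lit 191)) (XT.lf (nat_lit 0) (nat_lit 28970595621) (nat_lit 304) (nat_lit 30548659227) (nat_lit 380) (nat_lit 6272707014) (nat_lit 109) (nat_lit 5) (nat_lit 113) (nat_lit 5) (nat_lit 114) (nat_lit 5) (nat_lit 369) (nat_lit 341) (nat_lit 190))))) (XT.nd (nat_lit 234) (nat_lit 988) (nat_lit 0) (XT.nd (nat_lit 78) (nat_lit 304) (nat_lit 0) (XT.lf (nat_lit 0) (nat_lit 11463314964) (nat_lit 456) (nat_lit 48509826605) (nat_lit 76) (nat_lit 7905913433) (nat_lit 103) (nat_lit 5) (nat_lit 109) (nat_lit 5) (nat_lit 104) (nat_lit 5) (nat_lit 370) (nat_lit 341) (nat_lit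 189)) (XT.nd (nat_lit 78) (nat_lit 0) (nat_lit 0) (XT.lf (nat_lit 0) (nat_lit 8874041904) (nat_lit 304) (nat_lit 21857564668) (nat_lit 380) (nat_lit 39313778549) (nat_lit 99) (nat_lit 5) (nat_lit 103) (nat_lit 5) (nat_lit 104) (nat_lit 5) (nat_lit 371) (nat_lit 341) (nat_lit 188)) (XT.lf (nat_lit 0) (nat_lit 51639857414) (nat_lit 380) (nat_lit 2347147661) (nat_lit 76) (nat_lit 18312731698) (nat_lit 99) (nat_lit 5) (nat_lit 104) (nat_lit 5) (nat_lit 100) (nat_lit 5) (nat_lit 372) (nat_lit 341) (nat_lit 187)))) (XT.nd (nat_lit 78) (nat_lit 684) (nat_lit 0) (XT.lf (nat_lit 0) (nat_lit 60372521959) (nat_lit 304) (nat_lit 14019695962) (nat_lit 380) (nat_lit 250628475) (nat_lit 95) (nat_lit 5) (nat_lit 99) (nat_lit 5) (nat_lit 100) (nat_lit 5) (nat_lit 373) (nat_lit 341) (nat_lit 186)) (XT.nd (nat_lit 78) (nat_lit 304) (nat_lit 0) (XT.lf (nat_lit 0) (nat_lit 21543718314) (nat_lit 380) (nat_lit 27415164720)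 (nat_lit 76) (nat_lit 28114784673) (nat_lit 90) (nat_lit 5) (nat_lit 95) (nat_lit 5) (nat_lit 91) (nat_lit 5) (nat_lit 374) (nat_lit 341) (nat_lit 185)) (XT.lf (nat_lit 0) (nat_lit 38054319449) (nat_lit 304) (nat_lit 7021854824) (nat_lit 380) (nat_lit 34530175256) (nat_lit 86) (nat_lit 5) (nat_lit 90) (nat_lit 5) (nat_lit 91) (nat_lit 5) (nat_lit 375) (nat_lit 341) (nat_lit 184))))))))
noncomputable def xc112 : XT := (XT.nd (nat_lit 45162) (nat_lit 0) (nat_lit 2052) (XT.nd (nat_lit 44304) (nat_lit 0) (nat_lit 10412) (XT.nd (nat_lit 390) (nat_lit 912) (nat_lit 0) (XT.nd (nat_lit 156) (nat_lit 532) (nat_lit 0) (XT.nd (nat_lit 78) (nat_lit 380) (nat_lit 0) (XT.lf (nat_lit 0) (nat_lit 25243908731) (nat_lit 228) (nat_lit 45422725172) (nat_lit 304) (nat_lit 11572591204) (nat_lit 83) (nat_lit 5) (nat_lit 86) (nat_lit 5) (nat_lit 87) (nat_lit 5) (nat_lit 376) (nat_lit 341) (nat_lit 183)) (XT.lf (nat_lit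 0) (nat_lit 11278507563) (nat_lit 304) (nat_lit 1619047289) (nat_lit 380) (nat_lit 72084299085) (nat_lit 78) (nat_lit 5) (nat_lit 82) (nat_lit 5) (nat_lit 83) (nat_lit 5) (nat_lit 377) (nat_lit 341) (nat_lit 182))) (XT.nd (nat_lit 78) (nat_lit 532) (nat_lit 0) (XT.lf (nat_lit 0) (nat_lit 39371214320) (nat_lit 380) (nat_lit 4239132418) (nat_lit 76) (nat_lit 44217250678) (nat_lit 78) (nat_lit 5) (nat_lit 83) (nat_lit 5) (nat_lit 79) (nat_lit 5) (nat_lit 378) (nat_lit 341) (nat_lit 181)) (XT.nd (nat_lit 78) (nat_lit 304) (nat_lit 0) (XT.lf (nat_lit 0) (nat_lit 67877400473) (nat_lit 304) (nat_lit 20770105280) (nat_lit 76) (nat_lit 2146857919) (nat_lit 75) (nat_lit 5) (nat_lit 79) (nat_lit 5) (nat_lit 76) (nat_lit 5) (nat_lit 379) (nat_lit 341) (nat_lit 180)) (XT.lf (nat_lit 0) (nat_lit 4842592225) (nat_lit 304) (nat_lit 39119362045) (nat_lit 76) (nat_lit 49915812615) (nat_lit 71) (nat_lit 5) (nat_lit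 75) (nat_lit 5) (nat_lit 72) (nat_lit 5) (nat_lit 380) (nat_lit 341) (nat_lit 179))))) (XT.nd (nat_lit 234) (nat_lit 456) (nat_lit 0) (XT.nd (nat_lit 78) (nat_lit 228) (nat_lit 0) (XT.lf (nat_lit 0) (nat_lit 34135420567) (nat_lit 304) (nat_lit 59235860775) (nat_lit 76) (nat_lit 3718675111) (nat_lit 68) (nat_lit 5) (nat_lit 72) (nat_lit 5) (nat_lit 69) (nat_lit 5) (nat_lit 381) (nat_lit 341) (nat_lit 178)) (XT.nd (nat_lit 78) (nat_lit 0) (nat_lit 0) (XT.lf (nat_lit 0) (nat_lit 18962610616) (nat_lit 228) (nat_lit 46961239244) (nat_lit 304) (nat_lit 34507977620) (nat_lit 65) (nat_lit 5) (nat_lit 68) (nat_lit 5) (nat_lit 69) (nat_lit 5) (nat_lit 382) (nat_lit 341) (nat_lit 177)) (XT.lf (nat_lit 0) (nat_lit 99932847829) (nat_lit 304) (nat_lit 1639389262) (nat_lit 76) (nat_lit 2349621284) (nat_lit 65) (nat_lit 5) (nat_lit 69) (nat_lit 5) (nat_lit 66) (nat_lit 5) (nat_lit 383) (nat_lit 341) (nat_lit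 176)))) (XT.nd (nat_lit 78) (nat_lit 228) (nat_lit 0) (XT.lf (nat_lit 0) (nat_lit 28794465885) (nat_lit 228) (nat_lit 24499029517) (nat_lit 76) (nat_lit 54246224389) (nat_lit 62) (nat_lit 5) (nat_lit 65) (nat_lit 5) (nat_lit 63) (nat_lit 5) (nat_lit 384) (nat_lit 341) (nat_lit 175)) (XT.nd (nat_lit 43524) (nat_lit 0) (nat_lit 11932) (XT.lf (nat_lit 0) (nat_lit 61814319704) (nat_lit 228) (nat_lit 1930741943) (nat_lit 304) (nat_lit 47573915090) (nat_lit 59) (nat_lit 5) (nat_lit 62) (nat_lit 5) (nat_lit 63) (nat_lit 5) (nat_lit 385) (nat_lit 341) (nat_lit 174)) (XT.lf (nat_lit 0) (nat_lit 6156283983) (nat_lit 0) (nat_lit 6156283983) (nat_lit 1140) (nat_lit 3550317312) (nat_lit 216) (nat_lit 5) (nat_lit 216) (nat_lit 3) (nat_lit 231) (nat_lit 3) (nat_lit 342) (nat_lit 342) (nat_lit 216)))))) (XT.nd (nat_lit 390) (nat_lit 1520) (nat_lit 0) (XT.nd (nat_lit 156) (nat_lit 0) (nat_lit 76) (XT.nd (nat_lit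 78) (nat_lit 0) (nat_lit 76) (XT.lf (nat_lit 76) (nat_lit 5105414560) (nat_lit 0) (nat_lit 20405783579) (nat_lit 1216) (nat_lit 6999511250) (nat_lit 217) (nat_lit 5) (nat_lit 216) (nat_lit 5) (nat_lit 232) (nat_lit 5) (nat_lit 343) (nat_lit 342) (nat_lit 215)) (XT.lf (nat_lit 0) (nat_lit 26799836389) (nat_lit 1140) (nat_lit 2242108442) (nat_lit 1216) (nat_lit 4282208061) (nat_lit 217) (nat_lit 5) (nat_lit 232) (nat_lit 5) (nat_lit 233) (nat_lit 5) (nat_lit 344) (nat_lit 342) (nat_lit 214))) (XT.nd (nat_lit 78) (nat_lit 0) (nat_lit 76) (XT.lf (nat_lit 76) (nat_lit 24446661092) (nat_lit 0) (nat_lit 4140937639) (nat_lit 1216) (nat_lit 5577634707) (nat_lit 218) (nat_lit 5) (nat_lit 217) (nat_lit 5) (nat_lit 233) (nat_lit 5) (nat_lit 345) (nat_lit 342) (nat_lit 213)) (XT.nd (nat_lit 78) (nat_lit 0) (nat_lit 76) (XT.lf (nat_lit 76) (nat_lit 17596908747) (nat_lit 0) (nat_lit 13265851503) (nat_lit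 1216) (nat_lit 4173672796) (nat_lit 219) (nat_lit 5) (nat_lit 218) (nat_lit 5) (nat_lit 234) (nat_lit 5) (nat_lit 346) (nat_lit 342) (nat_lit 212)) (XT.lf (nat_lit 76) (nat_lit 10568656372) (nat_lit 0) (nat_lit 23045739703) (nat_lit 1216) (nat_lit 2325920182) (nat_lit 220) (nat_lit 5) (nat_lit 219) (nat_lit 5) (nat_lit 235) (nat_lit 5) (nat_lit 347) (nat_lit 342) (nat_lit 211))))) (XT.nd (nat_lit 234) (nat_lit 608) (nat_lit 0) (XT.nd (nat_lit 78) (nat_lit 1216) (nat_lit 0) (XT.lf (nat_lit 76) (nat_lit 3354032062) (nat_lit 0) (nat_lit 33521055854) (nat_lit 1216) (nat_lit 3166352) (nat_lit 221) (nat_lit 5) (nat_lit 220) (nat_lit 5) (nat_lit 236) (nat_lit 5) (nat_lit 348) (nat_lit 342) (nat_lit 210)) (XT.nd (nat_lit 78) (nat_lit 0) (nat_lit 76) (XT.lf (nat_lit 0) (nat_lit 2879278137) (nat_lit 1216) (nat_lit 4071581577) (nat_lit 1292) (nat_lit 30896799074) (nat_lit 204) (nat_lit 5) (nat_lit 220)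 (nat_lit 5) (nat_lit 221) (nat_lit 5) (nat_lit 349) (nat_lit 342) (nat_lit 209)) (XT.lf (nat_lit 0) (nat_lit 6367960660) (nat_lit 1216) (nat_lit 11677485054) (nat_lit 1292) (nat_lit 20806225727) (nat_lit 205) (nat_lit 5) (nat_lit 221) (nat_lit 5) (nat_lit 222) (nat_lit 5) (nat_lit 350) (nat_lit 342) (nat_lit 208)))) (XT.nd (nat_lit 78) (nat_lit 760) (nat_lit 0) (XT.lf (nat_lit 0) (nat_lit 10433278411) (nat_lit 1216) (nat_lit 19506207171) (nat_lit 1292) (nat_lit 9954337193) (nat_lit 206) (nat_lit 5) (nat_lit 222) (nat_lit 5) (nat_lit 223) (nat_lit 5) (nat_lit 351) (nat_lit 342) (nat_lit 207)) (XT.nd (nat_lit 78) (nat_lit 760) (nat_lit 0) (XT.lf (nat_lit 76) (nat_lit 13389640544) (nat_lit 0) (nat_lit 1739850823) (nat_lit 1292) (nat_lit 25845765317) (nat_lit 207) (nat_lit 5) (nat_lit 206) (nat_lit 5) (nat_lit 223) (nat_lit 5) (nat_lit 352) (nat_lit 342) (nat_lit 206)) (XT.lf (nat_lit 0) (nat_lit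 6078012320) (nat_lit 836) (nat_lit 14507190884) (nat_lit 912) (nat_lit 21509822139) (nat_lit 196) (nat_lit 5) (nat_lit 207) (nat_lit 5) (nat_lit 208) (nat_lit 5) (nat_lit 353) (nat_lit 342) (nat_lit 205))))))) (XT.nd (nat_lit 858) (nat_lit 3648) (nat_lit 0) (XT.nd (nat_lit 390) (nat_lit 2432) (nat_lit 0) (XT.nd (nat_lit 156) (nat_lit 1672) (nat_lit 0) (XT.nd (nat_lit 78) (nat_lit 608) (nat_lit 0) (XT.lf (nat_lit 0) (nat_lit 26758541925) (nat_lit 912) (nat_lit 1429992997) (nat_lit 76) (nat_lit 15068905802) (nat_lit 196) (nat_lit 5) (nat_lit 208) (nat_lit 5) (nat_lit 197) (nat_lit 5) (nat_lit 354) (nat_lit 342) (nat_lit 204)) (XT.lf (nat_lit 0) (nat_lit 33739860082) (nat_lit 684) (nat_lit 9052306728) (nat_lit 76) (nat_lit 1670834046) (nat_lit 188) (nat_lit 5) (nat_lit 197) (nat_lit 5) (nat_lit 189) (nat_lit 5) (nat_lit 355) (nat_lit 342) (nat_lit 203))) (XT.nd (nat_lit 78) (nat_lit 1140) (nat_lit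 0) (XT.lf (nat_lit 0) (nat_lit 28665893376) (nat_lit 532) (nat_lit 12975401319) (nat_lit 608) (nat_lit 4070415981) (nat_lit 181) (nat_lit 5) (nat_lit 188) (nat_lit 5) (nat_lit 189) (nat_lit 5) (nat_lit 356) (nat_lit 342) (nat_lit 202)) (XT.nd (nat_lit 78) (nat_lit 532) (nat_lit 0) (XT.lf (nat_lit 0) (nat_lit 3337774368) (nat_lit 608) (nat_lit 25360017110) (nat_lit 76) (nat_lit 18309835547) (nat_lit 173) (nat_lit 5) (nat_lit 181) (nat_lit 5) (nat_lit 174) (nat_lit 5) (nat_lit 357) (nat_lit 342) (nat_lit 201)) (XT.lf (nat_lit 0) (nat_lit 11503509385) (nat_lit 608) (nat_lit 34009866776) (nat_lit 76) (nat_lit 2839617286) (nat_lit 166) (nat_lit 5) (nat_lit 174) (nat_lit 5) (nat_lit 167) (nat_lit 5) (nat_lit 358) (nat_lit 342) (nat_lit 200))))) (XT.nd (nat_lit 234) (nat_lit 1444) (nat_lit 0) (XT.nd (nat_lit 78) (nat_lit 456) (nat_lit 0) (XT.lf (nat_lit 0) (nat_lit 6637156668) (nat_lit 532) (nat_lit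 14053981849) (nat_lit 608) (nat_lit 29056084134) (nat_lit 159) (nat_lit 5) (nat_lit 166) (nat_lit 5) (nat_lit 167) (nat_lit 5) (nat_lit 359) (nat_lit 342) (nat_lit 199)) (XT.nd (nat_lit 78) (nat_lit 456) (nat_lit 0) (XT.lf (nat_lit 0) (nat_lit 30870787695) (nat_lit 608) (nat_lit 1363016595) (nat_lit 76) (nat_lit 18961382421) (nat_lit 159) (nat_lit 5) (nat_lit 167) (nat_lit 5) (nat_lit 160) (nat_lit 5) (nat_lit 360) (nat_lit 342) (nat_lit 198)) (XT.lf (nat_lit 0) (nat_lit 42123174147) (nat_lit 532) (nat_lit 9540701769) (nat_lit 76) (nat_lit 1034762847) (nat_lit 153) (nat_lit 5) (nat_lit 160) (nat_lit 5) (nat_lit 154) (nat_lit 5) (nat_lit 361) (nat_lit 342) (nat_lit 197)))) (XT.nd (nat_lit 78) (nat_lit 912) (nat_lit 0) (XT.lf (nat_lit 0) (nat_lit 357068832) (nat_lit 532) (nat_lit 18229608828) (nat_lit 76) (nat_lit 35669999724) (nat_lit 146) (nat_lit 5) (nat_lit 153) (nat_lit 5) (nat_lit 147)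 (nat_lit 5) (nat_lit 362) (nat_lit 342) (nat_lit 196)) (XT.nd (nat_lit 78) (nat_lit 456) (nat_lit 0) (XT.lf (nat_lit 0) (nat_lit 12150890645) (nat_lit 532) (nat_lit 27407798347) (nat_lit 76) (nat_lit 16314788504) (nat_lit 140) (nat_lit 5) (nat_lit 147) (nat_lit 5) (nat_lit 141) (nat_lit 5) (nat_lit 363) (nat_lit 342) (nat_lit 195)) (XT.lf (nat_lit 0) (nat_lit 20518667920) (nat_lit 456) (nat_lit 4587192898) (nat_lit 532) (nat_lit 32448115118) (nat_lit 134) (nat_lit 5) (nat_lit 140) (nat_lit 5) (nat_lit 141) (nat_lit 5) (nat_lit 364) (nat_lit 342) (nat_lit 194)))))) (XT.nd (nat_lit 468) (nat_lit 1748) (nat_lit 0) (XT.nd (nat_lit 234) (nat_lit 1064) (nat_lit 0) (XT.nd (nat_lit 78) (nat_lit 456) (nat_lit 0) (XT.lf (nat_lit 0) (nat_lit 12023678329) (nat_lit 380) (nat_lit 27391497466) (nat_lit 456) (nat_lit 19882127556) (nat_lit 129) (nat_lit 5) (nat_lit 134) (nat_lit 5) (nat_lit 135) (nat_lit 5)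 (nat_lit 365) (nat_lit 342) (nat_lit 193)) (XT.nd (nat_lit 78) (nat_lit 76) (nat_lit 0) (XT.lf (nat_lit 0) (nat_lit 3114381857) (nat_lit 380) (nat_lit 51870215448) (nat_lit 456) (nat_lit 6126862460) (nat_lit 124) (nat_lit 5) (nat_lit 129) (nat_lit 5) (nat_lit 130) (nat_lit 5) (nat_lit 366) (nat_lit 342) (nat_lit 192)) (XT.lf (nat_lit 0) (nat_lit 8919183035) (nat_lit 456) (nat_lit 6356654834) (nat_lit 76) (nat_lit 47715130774) (nat_lit 123) (nat_lit 5) (nat_lit 129) (nat_lit 5) (nat_lit 124) (nat_lit 5) (nat_lit 367) (nat_lit 342) (nat_lit 191)))) (XT.nd (nat_lit 78) (nat_lit 684) (nat_lit 0) (XT.lf (nat_lit 0) (nat_lit 25285884491) (nat_lit 456) (nat_lit 16424309309) (nat_lit 76) (nat_lit 23231588938) (nat_lit 118) (nat_lit 5) (nat_lit 124) (nat_lit 5) (nat_lit 119) (nat_lit 5) (nat_lit 368) (nat_lit 342) (nat_lit 190)) (XT.nd (nat_lit 78) (nat_lit 304) (nat_lit 0) (XT.lf (nat_lit 0) (nat_lit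 39900555720) (nat_lit 380) (nat_lit 3171756588) (nat_lit 456) (nat_lit 23899785042) (nat_lit 113) (nat_lit 5) (nat_lit 118) (nat_lit 5) (nat_lit 119) (nat_lit 5) (nat_lit 369) (nat_lit 342) (nat_lit 189)) (XT.lf (nat_lit 0) (nat_lit 30518226594) (nat_lit 304) (nat_lit 32050085854) (nat_lit 380) (nat_lit 6511009196) (nat_lit 109) (nat_lit 5) (nat_lit 113) (nat_lit 5) (nat_lit 114) (nat_lit 5) (nat_lit 370) (nat_lit 342) (nat_lit 188))))) (XT.nd (nat_lit 234) (nat_lit 988) (nat_lit 0) (XT.nd (nat_lit 78) (nat_lit 304) (nat_lit 0) (XT.lf (nat_lit 0) (nat_lit 12108020234) (nat_lit 456) (nat_lit 50835660316) (nat_lit 76) (nat_lit 8327138977) (nat_lit 103) (nat_lit 5) (nat_lit 109) (nat_lit 5) (nat_lit 104) (nat_lit 5) (nat_lit 371) (nat_lit 342) (nat_lit 187)) (XT.nd (nat_lit 78) (nat_lit 0) (nat_lit 0) (XT.lf (nat_lit 0) (nat_lit 9414544952) (nat_lit 304) (nat_lit 22922705336) (nat_lit 380) (nat_lit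 41208292150) (nat_lit 99) (nat_lit 5) (nat_lit 103) (nat_lit 5) (nat_lit 104) (nat_lit 5) (nat_lit 372) (nat_lit 342) (nat_lit 186)) (XT.lf (nat_lit 0) (nat_lit 54287878874) (nat_lit 380) (nat_lit 2370556224) (nat_lit 76) (nat_lit 19254269526) (nat_lit 99) (nat_lit 5) (nat_lit 104) (nat_lit 5) (nat_lit 100) (nat_lit 5) (nat_lit 373) (nat_lit 342) (nat_lit 185)))) (XT.nd (nat_lit 78) (nat_lit 684) (nat_lit 0) (XT.lf (nat_lit 0) (nat_lit 63482403853) (nat_lit 304) (nat_lit 14693186541) (nat_lit 380) (nat_lit 197449160) (nat_lit 95) (nat_lit 5) (nat_lit 99) (nat_lit 5) (nat_lit 100) (nat_lit 5) (nat_lit 374) (nat_lit 342) (nat_lit 184)) (XT.nd (nat_lit 78) (nat_lit 304) (nat_lit 0) (XT.lf (nat_lit 0) (nat_lit 22683395275) (nat_lit 380) (nat_lit 28694369143) (nat_lit 76) (nat_lit 29547678365) (nat_lit 90) (nat_lit 5) (nat_lit 95) (nat_lit 5) (nat_lit 91) (nat_lit 5) (nat_lit 375) (nat_lit 342)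 (nat_lit 183)) (XT.lf (nat_lit 0) (nat_lit 40045964863) (nat_lit 304) (nat_lit 7344388249) (nat_lit 380) (nat_lit 36194470810) (nat_lit 86) (nat_lit 5) (nat_lit 90) (nat_lit 5) (nat_lit 91) (nat_lit 5) (nat_lit 376) (nat_lit 342) (nat_lit 182))))))))
noncomputable def xc113 : XT := (XT.nd (nat_lit 45318) (nat_lit 0) (nat_lit 1216) (XT.nd (nat_lit 44382) (nat_lit 0) (nat_lit 9576) (XT.nd (nat_lit 390) (nat_lit 684) (nat_lit 0) (XT.nd (nat_lit 156) (nat_lit 532) (nat_lit 0) (XT.nd (nat_lit 78) (nat_lit 380) (nat_lit 0) (XT.lf (nat_lit 0) (nat_lit 26594008056) (nat_lit 228) (nat_lit 47664559343) (nat_lit 304) (nat_lit 12090830453) (nat_lit 83) (nat_lit 5) (nat_lit 86) (nat_lit 5) (nat_lit 87) (nat_lit 5) (nat_lit 377) (nat_lit 342) (nat_lit 181)) (XT.lf (nat_lit 0) (nat_lit 11928990458) (nat_lit 304) (nat_lit 1670666447) (nat_lit 380) (nat_lit 75629544840) (nat_lit 78) (nat_lit 5) (nat_lit 82)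 (nat_lit 5) (nat_lit 83) (nat_lit 5) (nat_lit 378) (nat_lit 342) (nat_lit 180))) (XT.nd (nat_lit 78) (nat_lit 532) (nat_lit 0) (XT.lf (nat_lit 0) (nat_lit 41394542920) (nat_lit 380) (nat_lit 4367260051) (nat_lit 76) (nat_lit 46455504459) (nat_lit 78) (nat_lit 5) (nat_lit 83) (nat_lit 5) (nat_lit 79) (nat_lit 5) (nat_lit 379) (nat_lit 342) (nat_lit 179)) (XT.nd (nat_lit 78) (nat_lit 304) (nat_lit 0) (XT.lf (nat_lit 0) (nat_lit 71324486903) (nat_lit 304) (nat_lit 21725844476) (nat_lit 76) (nat_lit 2282128441) (nat_lit 75) (nat_lit 5) (nat_lit 79) (nat_lit 5) (nat_lit 76) (nat_lit 5) (nat_lit 380) (nat_lit 342) (nat_lit 178)) (XT.lf (nat_lit 0) (nat_lit 5136710228) (nat_lit 304) (nat_lit 40993878262) (nat_lit 76) (nat_lit 52439483468) (nat_lit 71) (nat_lit 5) (nat_lit 75) (nat_lit 5) (nat_lit 72) (nat_lit 5) (nat_lit 381) (nat_lit 342) (nat_lit 177))))) (XT.nd (nat_lit 234) (nat_lit 228) (nat_lit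 0) (XT.nd (nat_lit 78) (nat_lit 228) (nat_lit 0) (XT.lf (nat_lit 0) (nat_lit 35892742136) (nat_lit 304) (nat_lit 62117283303) (nat_lit 76) (nat_lit 3932889826) (nat_lit 68) (nat_lit 5) (nat_lit 72) (nat_lit 5) (nat_lit 69) (nat_lit 5) (nat_lit 382) (nat_lit 342) (nat_lit 176)) (XT.nd (nat_lit 78) (nat_lit 0) (nat_lit 0) (XT.lf (nat_lit 0) (nat_lit 19988807852) (nat_lit 228) (nat_lit 49280128298) (nat_lit 304) (nat_lit 36182994467) (nat_lit 65) (nat_lit 5) (nat_lit 68) (nat_lit 5) (nat_lit 69) (nat_lit 5) (nat_lit 383) (nat_lit 342) (nat_lit 175)) (XT.lf (nat_lit 0) (nat_lit 104976322815) (nat_lit 304) (nat_lit 1645859188) (nat_lit 76) (nat_lit 2494343910) (nat_lit 65) (nat_lit 5) (nat_lit 69) (nat_lit 5) (nat_lit 66) (nat_lit 5) (nat_lit 384) (nat_lit 342) (nat_lit 174)))) (XT.nd (nat_lit 43602) (nat_lit 0) (nat_lit 11704) (XT.lf (nat_lit 0) (nat_lit 30279964235) (nat_lit 228) (nat_lit 25649715757)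 (nat_lit 76) (nat_lit 56985633672) (nat_lit 62) (nat_lit 5) (nat_lit 65) (nat_lit 5) (nat_lit 63) (nat_lit 5) (nat_lit 385) (nat_lit 342) (nat_lit 173)) (XT.nd (nat_lit 78) (nat_lit 0) (nat_lit 0) (XT.lf (nat_lit 0) (nat_lit 6514874270) (nat_lit 0) (nat_lit 6514874270) (nat_lit 1140) (nat_lit 3623143461) (nat_lit 216) (nat_lit 5) (nat_lit 216) (nat_lit 3) (nat_lit 231) (nat_lit 3) (nat_lit 343) (nat_lit 343) (nat_lit 214)) (XT.lf (nat_lit 76) (nat_lit 5466369896) (nat_lit 0) (nat_lit 21513907076) (nat_lit 1216) (nat_lit 7149989036) (nat_lit 217) (nat_lit 5) (nat_lit 216) (nat_lit 5) (nat_lit 232) (nat_lit 5) (nat_lit 344) (nat_lit 343) (nat_lit 213)))))) (XT.nd (nat_lit 468) (nat_lit 1216) (nat_lit 0) (XT.nd (nat_lit 234) (nat_lit 988) (nat_lit 0) (XT.nd (nat_lit 78) (nat_lit 0) (nat_lit 0) (XT.lf (nat_lit 0) (nat_lit 28323327835) (nat_lit 1140) (nat_lit 2247063600) (nat_lit 1216) (nat_lit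 4414299080) (nat_lit 217) (nat_lit 5) (nat_lit 232) (nat_lit 5) (nat_lit 233) (nat_lit 5) (nat_lit 345) (nat_lit 343) (nat_lit 212)) (XT.nd (nat_lit 78) (nat_lit 0) (nat_lit 76) (XT.lf (nat_lit 76) (nat_lit 25773072970) (nat_lit 0) (nat_lit 4419667716) (nat_lit 1216) (nat_lit 5675324389) (nat_lit 218) (nat_lit 5) (nat_lit 217) (nat_lit 5) (nat_lit 233) (nat_lit 5) (nat_lit 346) (nat_lit 343) (nat_lit 211)) (XT.lf (nat_lit 76) (nat_lit 18583793303) (nat_lit 0) (nat_lit 13989870033) (nat_lit 1216) (nat_lit 4209408720) (nat_lit 219) (nat_lit 5) (nat_lit 218) (nat_lit 5) (nat_lit 234) (nat_lit 5) (nat_lit 347) (nat_lit 343) (nat_lit 210)))) (XT.nd (nat_lit 78) (nat_lit 1140) (nat_lit 0) (XT.lf (nat_lit 76) (nat_lit 11206661139) (nat_lit 0) (nat_lit 24248728335) (nat_lit 1216) (nat_lit 2276991827) (nat_lit 220) (nat_lit 5) (nat_lit 219) (nat_lit 5) (nat_lit 235) (nat_lit 5) (nat_lit 348) (nat_lit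 343) (nat_lit 209)) (XT.nd (nat_lit 78) (nat_lit 0) (nat_lit 0) (XT.lf (nat_lit 0) (nat_lit 151641877) (nat_lit 1216) (nat_lit 35085473341) (nat_lit 1292) (nat_lit 3480273854) (nat_lit 204) (nat_lit 5) (nat_lit 220) (nat_lit 5) (nat_lit 221) (nat_lit 5) (nat_lit 349) (nat_lit 343) (nat_lit 208)) (XT.lf (nat_lit 0) (nat_lit 3170767446) (nat_lit 1216) (nat_lit 4165705402) (nat_lit 1292) (nat_lit 32399017577) (nat_lit 204) (nat_lit 5) (nat_lit 220) (nat_lit 5) (nat_lit 221) (nat_lit 5) (nat_lit 350) (nat_lit 343) (nat_lit 207))))) (XT.nd (nat_lit 234) (nat_lit 1292) (nat_lit 0) (XT.nd (nat_lit 78) (nat_lit 0) (nat_lit 76) (XT.lf (nat_lit 0) (nat_lit 6827542658) (nat_lit 1216) (nat_lit 12150337924) (nat_lit 1292) (nat_lit 21812019350) (nat_lit 205) (nat_lit 5) (nat_lit 221) (nat_lit 5) (nat_lit 222) (nat_lit 5) (nat_lit 351) (nat_lit 343) (nat_lit 206)) (XT.nd (nat_lit 78) (nat_lit 0) (nat_lit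 0) (XT.lf (nat_lit 0) (nat_lit 11090173994) (nat_lit 1216) (nat_lit 20369233886) (nat_lit 1292) (nat_lit 10424935216) (nat_lit 206) (nat_lit 5) (nat_lit 222) (nat_lit 5) (nat_lit 223) (nat_lit 5) (nat_lit 352) (nat_lit 343) (nat_lit 205)) (XT.lf (nat_lit 76) (nat_lit 14168187628) (nat_lit 0) (nat_lit 1847618768) (nat_lit 1292) (nat_lit 27004209462) (nat_lit 207) (nat_lit 5) (nat_lit 206) (nat_lit 5) (nat_lit 223) (nat_lit 5) (nat_lit 353) (nat_lit 343) (nat_lit 204)))) (XT.nd (nat_lit 78) (nat_lit 608) (nat_lit 0) (XT.lf (nat_lit 0) (nat_lit 6491934543) (nat_lit 836) (nat_lit 15247053801) (nat_lit 912) (nat_lit 22456949235) (nat_lit 196) (nat_lit 5) (nat_lit 207) (nat_lit 5) (nat_lit 208) (nat_lit 5) (nat_lit 354) (nat_lit 343) (nat_lit 203)) (XT.nd (nat_lit 78) (nat_lit 608) (nat_lit 0) (XT.lf (nat_lit 0) (nat_lit 28214931463) (nat_lit 912) (nat_lit 1392921167) (nat_lit 76) (nat_lit 15808807892)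 (nat_lit 196) (nat_lit 5) (nat_lit 208) (nat_lit 5) (nat_lit 197) (nat_lit 5) (nat_lit 355) (nat_lit 343) (nat_lit 202)) (XT.lf (nat_lit 0) (nat_lit 35540607685) (nat_lit 684) (nat_lit 9395873517) (nat_lit 76) (nat_lit 1746163378) (nat_lit 188) (nat_lit 5) (nat_lit 197) (nat_lit 5) (nat_lit 189) (nat_lit 5) (nat_lit 356) (nat_lit 343) (nat_lit 201))))))) (XT.nd (nat_lit 858) (nat_lit 3496) (nat_lit 0) (XT.nd (nat_lit 390) (nat_lit 2660) (nat_lit 0) (XT.nd (nat_lit 156) (nat_lit 1064) (nat_lit 0) (XT.nd (nat_lit 78) (nat_lit 608) (nat_lit 0) (XT.lf (nat_lit 0) (nat_lit 30205110738) (nat_lit 532) (nat_lit 13627604599) (nat_lit 608) (nat_lit 4161210976) (nat_lit 181) (nat_lit 5) (nat_lit 188) (nat_lit 5) (nat_lit 189) (nat_lit 5) (nat_lit 357) (nat_lit 343) (nat_lit 200)) (XT.lf (nat_lit 0) (nat_lit 3610925201) (nat_lit 608) (nat_lit 26519628849) (nat_lit 76) (nat_lit 19224183967) (nat_lit 173)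 (nat_lit 5) (nat_lit 181) (nat_lit 5) (nat_lit 174) (nat_lit 5) (nat_lit 358) (nat_lit 343) (nat_lit 199))) (XT.nd (nat_lit 78) (nat_lit 532) (nat_lit 0) (XT.lf (nat_lit 0) (nat_lit 12180928397) (nat_lit 608) (nat_lit 35601962454) (nat_lit 76) (nat_lit 2984606394) (nat_lit 166) (nat_lit 5) (nat_lit 174) (nat_lit 5) (nat_lit 167) (nat_lit 5) (nat_lit 359) (nat_lit 343) (nat_lit 198)) (XT.nd (nat_lit 78) (nat_lit 0) (nat_lit 0) (XT.lf (nat_lit 0) (nat_lit 7074304965) (nat_lit 532) (nat_lit 14749777397) (nat_lit 608) (nat_lit 30407474987) (nat_lit 159) (nat_lit 5) (nat_lit 166) (nat_lit 5) (nat_lit 167) (nat_lit 5) (nat_lit 360) (nat_lit 343) (nat_lit 197)) (XT.lf (nat_lit 0) (nat_lit 32508092109) (nat_lit 608) (nat_lit 1328071676) (nat_lit 76) (nat_lit 19915898048) (nat_lit 159) (nat_lit 5) (nat_lit 167) (nat_lit 5) (nat_lit 160) (nat_lit 5) (nat_lit 361) (nat_lit 343) (nat_lit 196))))) (XT.nd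 (nat_lit 234) (nat_lit 1216) (nat_lit 0) (XT.nd (nat_lit 78) (nat_lit 988) (nat_lit 0) (XT.lf (nat_lit 0) (nat_lit 44319690446) (nat_lit 532) (nat_lit 9914915530) (nat_lit 76) (nat_lit 1096186127) (nat_lit 153) (nat_lit 5) (nat_lit 160) (nat_lit 5) (nat_lit 154) (nat_lit 5) (nat_lit 362) (nat_lit 343) (nat_lit 195)) (XT.nd (nat_lit 78) (nat_lit 456) (nat_lit 0) (XT.lf (nat_lit 0) (nat_lit 462862083) (nat_lit 532) (nat_lit 19039402365) (nat_lit 76) (nat_lit 37464545856) (nat_lit 146) (nat_lit 5) (nat_lit 153) (nat_lit 5) (nat_lit 147) (nat_lit 5) (nat_lit 363) (nat_lit 343) (nat_lit 194)) (XT.lf (nat_lit 0) (nat_lit 12843272087) (nat_lit 532) (nat_lit 28676950632) (nat_lit 76) (nat_lit 17144323777) (nat_lit 140) (nat_lit 5) (nat_lit 147) (nat_lit 5) (nat_lit 141) (nat_lit 5) (nat_lit 364) (nat_lit 343) (nat_lit 193)))) (XT.nd (nat_lit 78) (nat_lit 760) (nat_lit 0) (XT.lf (nat_lit 0) (nat_lit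 21642936992) (nat_lit 456) (nat_lit 4799959187) (nat_lit 532) (nat_lit 33986269363) (nat_lit 134) (nat_lit 5) (nat_lit 140) (nat_lit 5) (nat_lit 141) (nat_lit 5) (nat_lit 365) (nat_lit 343) (nat_lit 192)) (XT.nd (nat_lit 78) (nat_lit 380) (nat_lit 0) (XT.lf (nat_lit 0) (nat_lit 12722661481) (nat_lit 380) (nat_lit 28742214948) (nat_lit 456) (nat_lit 20794869624) (nat_lit 129) (nat_lit 5) (nat_lit 134) (nat_lit 5) (nat_lit 135) (nat_lit 5) (nat_lit 366) (nat_lit 343) (nat_lit 191)) (XT.lf (nat_lit 0) (nat_lit 3367273744) (nat_lit 380) (nat_lit 54442842857) (nat_lit 456) (nat_lit 6354575841) (nat_lit 124) (nat_lit 5) (nat_lit 129) (nat_lit 5) (nat_lit 130) (nat_lit 5) (nat_lit 367) (nat_lit 343) (nat_lit 190)))))) (XT.nd (nat_lit 468) (nat_lit 1596) (nat_lit 0) (XT.nd (nat_lit 234) (nat_lit 1064) (nat_lit 0) (XT.nd (nat_lit 78) (nat_lit 760) (nat_lit 0) (XT.lf (nat_lit 0) (nat_lit 9438566371)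 (nat_lit 456) (nat_lit 6580433035) (nat_lit 76) (nat_lit 50119267206) (nat_lit 123) (nat_lit 5) (nat_lit 129) (nat_lit 5) (nat_lit 124) (nat_lit 5) (nat_lit 368) (nat_lit 343) (nat_lit 189)) (XT.nd (nat_lit 78) (nat_lit 380) (nat_lit 0) (XT.lf (nat_lit 0) (nat_lit 26621182267) (nat_lit 456) (nat_lit 17152194206) (nat_lit 76) (nat_lit 24413319831) (nat_lit 118) (nat_lit 5) (nat_lit 124) (nat_lit 5) (nat_lit 119) (nat_lit 5) (nat_lit 369) (nat_lit 343) (nat_lit 188)) (XT.lf (nat_lit 0) (nat_lit 41986238773) (nat_lit 380) (nat_lit 3308183015) (nat_lit 456) (nat_lit 25024182315) (nat_lit 113) (nat_lit 5) (nat_lit 118) (nat_lit 5) (nat_lit 119) (nat_lit 5) (nat_lit 370) (nat_lit 343) (nat_lit 187)))) (XT.nd (nat_lit 78) (nat_lit 760) (nat_lit 0) (XT.lf (nat_lit 0) (nat_lit 32134025626) (nat_lit 304) (nat_lit 33629001636) (nat_lit 380) (nat_lit 6768230251) (nat_lit 109) (nat_lit 5) (nat_lit 113)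 (nat_lit 5) (nat_lit 114) (nat_lit 5) (nat_lit 371) (nat_lit 343) (nat_lit 186)) (XT.nd (nat_lit 78) (nat_lit 304) (nat_lit 0) (XT.lf (nat_lit 0) (nat_lit 12778309700) (nat_lit 456) (nat_lit 53287050934) (nat_lit 76) (nat_lit 8767015085) (nat_lit 103) (nat_lit 5) (nat_lit 109) (nat_lit 5) (nat_lit 104) (nat_lit 5) (nat_lit 372) (nat_lit 343) (nat_lit 185)) (XT.lf (nat_lit 0) (nat_lit 9973073518) (nat_lit 304) (nat_lit 24043681814) (nat_lit 380) (nat_lit 43204148638) (nat_lit 99) (nat_lit 5) (nat_lit 103) (nat_lit 5) (nat_lit 104) (nat_lit 5) (nat_lit 373) (nat_lit 343) (nat_lit 184))))) (XT.nd (nat_lit 234) (nat_lit 912) (nat_lit 0) (XT.nd (nat_lit 78) (nat_lit 684) (nat_lit 0) (XT.lf (nat_lit 0) (nat_lit 57062162694) (nat_lit 380) (nat_lit 2403869685) (nat_lit 76) (nat_lit 20240476194) (nat_lit 99) (nat_lit 5) (nat_lit 104) (nat_lit 5) (nat_lit 100) (nat_lit 5) (nat_lit 374) (nat_lit 343)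 (nat_lit 183)) (XT.nd (nat_lit 78) (nat_lit 380) (nat_lit 0) (XT.lf (nat_lit 0) (nat_lit 66739295743) (nat_lit 304) (nat_lit 15402907800) (nat_lit 380) (nat_lit 147720041) (nat_lit 95) (nat_lit 5) (nat_lit 99) (nat_lit 5) (nat_lit 100) (nat_lit 5) (nat_lit 375) (nat_lit 343) (nat_lit 182)) (XT.lf (nat_lit 0) (nat_lit 23874246260) (nat_lit 380) (nat_lit 30046045592) (nat_lit 76) (nat_lit 31049692177) (nat_lit 90) (nat_lit 5) (nat_lit 95) (nat_lit 5) (nat_lit 91) (nat_lit 5) (nat_lit 376) (nat_lit 343) (nat_lit 181)))) (XT.nd (nat_lit 78) (nat_lit 608) (nat_lit 0) (XT.lf (nat_lit 0) (nat_lit 42128924732) (nat_lit 304) (nat_lit 7685703520) (nat_lit 380) (nat_lit 37947765137) (nat_lit 86) (nat_lit 5) (nat_lit 90) (nat_lit 5) (nat_lit 91) (nat_lit 5) (nat_lit 377) (nat_lit 343) (nat_lit 180)) (XT.nd (nat_lit 78) (nat_lit 380) (nat_lit 0) (XT.lf (nat_lit 0) (nat_lit 28003439877) (nat_lit 228) (nat_lit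 50021209453) (nat_lit 304) (nat_lit 12640596184) (nat_lit 83) (nat_lit 5) (nat_lit 86) (nat_lit 5) (nat_lit 87) (nat_lit 5) (nat_lit 378) (nat_lit 343) (nat_lit 179)) (XT.lf (nat_lit 0) (nat_lit 12603950199) (nat_lit 304) (nat_lit 1727593686) (nat_lit 380) (nat_lit 79357535279) (nat_lit 78) (nat_lit 5) (nat_lit 82) (nat_lit 5) (nat_lit 83) (nat_lit 5) (nat_lit 379) (nat_lit 343) (nat_lit 178))))))))
noncomputable def xc114 : XT := (XT.nd (nat_lit 45396) (nat_lit 0) (nat_lit 456) (XT.nd (nat_lit 44538) (nat_lit 0) (nat_lit 7676) (XT.nd (nat_lit 44070) (nat_lit 0) (nat_lit 11476) (XT.nd (nat_lit 156) (nat_lit 760) (nat_lit 0) (XT.nd (nat_lit 78) (nat_lit 228) (nat_lit 0) (XT.lf (nat_lit 0) (nat_lit 43513946151) (nat_lit 380) (nat_lit 4509587690) (nat_lit 76) (nat_lit 48803124352) (nat_lit 78) (nat_lit 5) (nat_lit 83) (nat_lit 5) (nat_lit 79) (nat_lit 5) (nat_lit 380) (nat_lit 343) (nat_lit 177))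 (XT.lf (nat_lit 0) (nat_lit 74938980097) (nat_lit 304) (nat_lit 22737065436) (nat_lit 76) (nat_lit 2421566044) (nat_lit 75) (nat_lit 5) (nat_lit 79) (nat_lit 5) (nat_lit 76) (nat_lit 5) (nat_lit 381) (nat_lit 343) (nat_lit 176))) (XT.nd (nat_lit 78) (nat_lit 456) (nat_lit 0) (XT.lf (nat_lit 0) (nat_lit 5440700744) (nat_lit 304) (nat_lit 42969692915) (nat_lit 76) (nat_lit 55086745824) (nat_lit 71) (nat_lit 5) (nat_lit 75) (nat_lit 5) (nat_lit 72) (nat_lit 5) (nat_lit 382) (nat_lit 343) (nat_lit 175)) (XT.nd (nat_lit 78) (nat_lit 228) (nat_lit 0) (XT.lf (nat_lit 0) (nat_lit 37733230074) (nat_lit 304) (nat_lit 65150249047) (nat_lit 76) (nat_lit 4155185981) (nat_lit 68) (nat_lit 5) (nat_lit 72) (nat_lit 5) (nat_lit 69) (nat_lit 5) (nat_lit 383) (nat_lit 343) (nat_lit 174)) (XT.lf (nat_lit 0) (nat_lit 21059057048) (nat_lit 228) (nat_lit 51717674025) (nat_lit 304) (nat_lit 37946446201) (nat_lit 65)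 (nat_lit 5) (nat_lit 68) (nat_lit 5) (nat_lit 69) (nat_lit 5) (nat_lit 384) (nat_lit 343) (nat_lit 173))))) (XT.nd (nat_lit 234) (nat_lit 0) (nat_lit 76) (XT.nd (nat_lit 78) (nat_lit 0) (nat_lit 0) (XT.lf (nat_lit 0) (nat_lit 6886673393) (nat_lit 0) (nat_lit 6886673393) (nat_lit 1140) (nat_lit 3709343976) (nat_lit 216) (nat_lit 5) (nat_lit 216) (nat_lit 3) (nat_lit 231) (nat_lit 3) (nat_lit 344) (nat_lit 344) (nat_lit 212)) (XT.nd (nat_lit 78) (nat_lit 0) (nat_lit 76) (XT.lf (nat_lit 76) (nat_lit 5835547446) (nat_lit 0) (nat_lit 22669270744) (nat_lit 1216) (nat_lit 7326538123) (nat_lit 217) (nat_lit 5) (nat_lit 216) (nat_lit 5) (nat_lit 232) (nat_lit 5) (nat_lit 345) (nat_lit 344) (nat_lit 211)) (XT.lf (nat_lit 0) (nat_lit 29905933797) (nat_lit 1140) (nat_lit 2262228332) (nat_lit 1216) (nat_lit 4560620035) (nat_lit 217) (nat_lit 5) (nat_lit 232) (nat_lit 5) (nat_lit 233) (nat_lit 5) (nat_lit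 346) (nat_lit 344) (nat_lit 210)))) (XT.nd (nat_lit 78) (nat_lit 0) (nat_lit 76) (XT.lf (nat_lit 76) (nat_lit 27156129179) (nat_lit 0) (nat_lit 4705669873) (nat_lit 1216) (nat_lit 5794744075) (nat_lit 218) (nat_lit 5) (nat_lit 217) (nat_lit 5) (nat_lit 233) (nat_lit 5) (nat_lit 347) (nat_lit 344) (nat_lit 209)) (XT.nd (nat_lit 78) (nat_lit 0) (nat_lit 76) (XT.lf (nat_lit 76) (nat_lit 19610070605) (nat_lit 0) (nat_lit 14744443766) (nat_lit 1216) (nat_lit 4263010480) (nat_lit 219) (nat_lit 5) (nat_lit 218) (nat_lit 5) (nat_lit 234) (nat_lit 5) (nat_lit 348) (nat_lit 344) (nat_lit 208)) (XT.lf (nat_lit 76) (nat_lit 11866379183) (nat_lit 0) (nat_lit 25507152640) (nat_lit 1216) (nat_lit 2240978049) (nat_lit 220) (nat_lit 5) (nat_lit 219) (nat_lit 5) (nat_lit 235) (nat_lit 5) (nat_lit 349) (nat_lit 344) (nat_lit 207)))))) (XT.nd (nat_lit 390) (nat_lit 2888) (nat_lit 0) (XT.nd (nat_lit 156) (nat_lit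 0) (nat_lit 76) (XT.nd (nat_lit 78) (nat_lit 0) (nat_lit 0) (XT.lf (nat_lit 0) (nat_lit 299724353) (nat_lit 1216) (nat_lit 36735503909) (nat_lit 1292) (nat_lit 3613695689) (nat_lit 204) (nat_lit 5) (nat_lit 220) (nat_lit 5) (nat_lit 221) (nat_lit 5) (nat_lit 350) (nat_lit 344) (nat_lit 206)) (XT.lf (nat_lit 0) (nat_lit 3463115706) (nat_lit 1216) (nat_lit 4274711530) (nat_lit 1292) (nat_lit 33980309544) (nat_lit 204) (nat_lit 5) (nat_lit 220) (nat_lit 5) (nat_lit 221) (nat_lit 5) (nat_lit 351) (nat_lit 344) (nat_lit 205))) (XT.nd (nat_lit 78) (nat_lit 0) (nat_lit 76) (XT.lf (nat_lit 0) (nat_lit 7296977809) (nat_lit 1216) (nat_lit 12657155152) (nat_lit 1292) (nat_lit 22871311780) (nat_lit 205) (nat_lit 5) (nat_lit 221) (nat_lit 5) (nat_lit 222) (nat_lit 5) (nat_lit 352) (nat_lit 344) (nat_lit 204)) (XT.nd (nat_lit 78) (nat_lit 0) (nat_lit 0) (XT.lf (nat_lit 0) (nat_lit 11767341798) (nat_lit 1216)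 (nat_lit 21285851005) (nat_lit 1292) (nat_lit 10921584392) (nat_lit 206) (nat_lit 5) (nat_lit 222) (nat_lit 5) (nat_lit 223) (nat_lit 5) (nat_lit 353) (nat_lit 344) (nat_lit 203)) (XT.lf (nat_lit 76) (nat_lit 14975522230) (nat_lit 0) (nat_lit 1958843609) (nat_lit 1292) (nat_lit 28233019373) (nat_lit 207) (nat_lit 5) (nat_lit 206) (nat_lit 5) (nat_lit 223) (nat_lit 5) (nat_lit 354) (nat_lit 344) (nat_lit 202))))) (XT.nd (nat_lit 234) (nat_lit 1672) (nat_lit 0) (XT.nd (nat_lit 78) (nat_lit 608) (nat_lit 0) (XT.lf (nat_lit 0) (nat_lit 6916324110) (nat_lit 836) (nat_lit 16022561478) (nat_lit 912) (nat_lit 23463366754) (nat_lit 196) (nat_lit 5) (nat_lit 207) (nat_lit 5) (nat_lit 208) (nat_lit 5) (nat_lit 355) (nat_lit 344) (nat_lit 201)) (XT.nd (nat_lit 78) (nat_lit 608) (nat_lit 0) (XT.lf (nat_lit 0) (nat_lit 29733126963) (nat_lit 912) (nat_lit 1364089693) (nat_lit 76) (nat_lit 16586964205) (nat_lit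 196) (nat_lit 5) (nat_lit 208) (nat_lit 5) (nat_lit 197) (nat_lit 5) (nat_lit 356) (nat_lit 344) (nat_lit 200)) (XT.lf (nat_lit 0) (nat_lit 37420816844) (nat_lit 684) (nat_lit 9766756945) (nat_lit 76) (nat_lit 1826022685) (nat_lit 188) (nat_lit 5) (nat_lit 197) (nat_lit 5) (nat_lit 189) (nat_lit 5) (nat_lit 357) (nat_lit 344) (nat_lit 199)))) (XT.nd (nat_lit 78) (nat_lit 1140) (nat_lit 0) (XT.lf (nat_lit 0) (nat_lit 31811441279) (nat_lit 532) (nat_lit 14312098856) (nat_lit 608) (nat_lit 4267025898) (nat_lit 181) (nat_lit 5) (nat_lit 188) (nat_lit 5) (nat_lit 189) (nat_lit 5) (nat_lit 358) (nat_lit 344) (nat_lit 198)) (XT.nd (nat_lit 78) (nat_lit 532) (nat_lit 0) (XT.lf (nat_lit 0) (nat_lit 3887854332) (nat_lit 608) (nat_lit 27747298168) (nat_lit 76) (nat_lit 20184356106) (nat_lit 173) (nat_lit 5) (nat_lit 181) (nat_lit 5) (nat_lit 174) (nat_lit 5) (nat_lit 359) (nat_lit 344) (nat_lit 197))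 (XT.lf (nat_lit 0) (nat_lit 12882712724) (nat_lit 608) (nat_lit 37283740703) (nat_lit 76) (nat_lit 3136565279) (nat_lit 166) (nat_lit 5) (nat_lit 174) (nat_lit 5) (nat_lit 167) (nat_lit 5) (nat_lit 360) (nat_lit 344) (nat_lit 196))))))) (XT.nd (nat_lit 858) (nat_lit 3192) (nat_lit 0) (XT.nd (nat_lit 390) (nat_lit 2052) (nat_lit 0) (XT.nd (nat_lit 156) (nat_lit 1444) (nat_lit 0) (XT.nd (nat_lit 78) (nat_lit 0) (nat_lit 0) (XT.lf (nat_lit 0) (nat_lit 7523521767) (nat_lit 532) (nat_lit 15481004549) (nat_lit 608) (nat_lit 31835863836) (nat_lit 159) (nat_lit 5) (nat_lit 166) (nat_lit 5) (nat_lit 167) (nat_lit 5) (nat_lit 361) (nat_lit 344) (nat_lit 195)) (XT.lf (nat_lit 0) (nat_lit 34218544359) (nat_lit 608) (nat_lit 1300964376) (nat_lit 76) (nat_lit 20917540122) (nat_lit 159) (nat_lit 5) (nat_lit 167) (nat_lit 5) (nat_lit 160) (nat_lit 5) (nat_lit 362) (nat_lit 344) (nat_lit 194))) (XT.nd (nat_lit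 78) (nat_lit 988) (nat_lit 0) (XT.lf (nat_lit 0) (nat_lit 46617631968) (nat_lit 532) (nat_lit 10317399332) (nat_lit 76) (nat_lit 1159780139) (nat_lit 153) (nat_lit 5) (nat_lit 160) (nat_lit 5) (nat_lit 154) (nat_lit 5) (nat_lit 363) (nat_lit 344) (nat_lit 193)) (XT.nd (nat_lit 78) (nat_lit 456) (nat_lit 0) (XT.lf (nat_lit 0) (nat_lit 565769186) (nat_lit 532) (nat_lit 19899139464) (nat_lit 76) (nat_lit 39347792328) (nat_lit 146) (nat_lit 5) (nat_lit 153) (nat_lit 5) (nat_lit 147) (nat_lit 5) (nat_lit 364) (nat_lit 344) (nat_lit 192)) (XT.lf (nat_lit 0) (nat_lit 13562385270) (nat_lit 532) (nat_lit 30018972646) (nat_lit 76) (nat_lit 18014053207) (nat_lit 140) (nat_lit 5) (nat_lit 147) (nat_lit 5) (nat_lit 141) (nat_lit 5) (nat_lit 365) (nat_lit 344) (nat_lit 191))))) (XT.nd (nat_lit 234) (nat_lit 836) (nat_lit 0) (XT.nd (nat_lit 78) (nat_lit 760) (nat_lit 0) (XT.lf (nat_lit 0) (nat_lit 22814277198)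 (nat_lit 456) (nat_lit 5024906483) (nat_lit 532) (nat_lit 35609164228) (nat_lit 134) (nat_lit 5) (nat_lit 140) (nat_lit 5) (nat_lit 141) (nat_lit 5) (nat_lit 366) (nat_lit 344) (nat_lit 190)) (XT.nd (nat_lit 78) (nat_lit 380) (nat_lit 0) (XT.lf (nat_lit 0) (nat_lit 13447501345) (nat_lit 380) (nat_lit 30162221487) (nat_lit 456) (nat_lit 21760813277) (nat_lit 129) (nat_lit 5) (nat_lit 134) (nat_lit 5) (nat_lit 135) (nat_lit 5) (nat_lit 367) (nat_lit 344) (nat_lit 189)) (XT.lf (nat_lit 0) (nat_lit 3623776019) (nat_lit 380) (nat_lit 57146043174) (nat_lit 456) (nat_lit 6600985139) (nat_lit 124) (nat_lit 5) (nat_lit 129) (nat_lit 5) (nat_lit 130) (nat_lit 5) (nat_lit 368) (nat_lit 344) (nat_lit 188)))) (XT.nd (nat_lit 78) (nat_lit 760) (nat_lit 0) (XT.lf (nat_lit 0) (nat_lit 9977092589) (nat_lit 456) (nat_lit 6824144445) (nat_lit 76) (nat_lit 52641901672) (nat_lit 123) (nat_lit 5) (nat_lit 129) (nat_lit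 5) (nat_lit 124) (nat_lit 5) (nat_lit 369) (nat_lit 344) (nat_lit 187)) (XT.nd (nat_lit 78) (nat_lit 380) (nat_lit 0) (XT.lf (nat_lit 0) (nat_lit 28016643694) (nat_lit 456) (nat_lit 17925150340) (nat_lit 76) (nat_lit 25652263777) (nat_lit 118) (nat_lit 5) (nat_lit 124) (nat_lit 5) (nat_lit 119) (nat_lit 5) (nat_lit 370) (nat_lit 344) (nat_lit 186)) (XT.lf (nat_lit 0) (nat_lit 44167777710) (nat_lit 380) (nat_lit 3453491120) (nat_lit 456) (nat_lit 26211362425) (nat_lit 113) (nat_lit 5) (nat_lit 118) (nat_lit 5) (nat_lit 119) (nat_lit 5) (nat_lit 371) (nat_lit 344) (nat_lit 185)))))) (XT.nd (nat_lit 468) (nat_lit 1444) (nat_lit 0) (XT.nd (nat_lit 234) (nat_lit 684) (nat_lit 0) (XT.nd (nat_lit 78) (nat_lit 760) (nat_lit 0) (XT.lf (nat_lit 0) (nat_lit 33822257703) (nat_lit 304) (nat_lit 35289056243) (nat_lit 380) (nat_lit 7044664979) (nat_lit 109) (nat_lit 5) (nat_lit 113) (nat_lit 5) (nat_lit 114)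 (nat_lit 5) (nat_lit 372) (nat_lit 344) (nat_lit 184)) (XT.nd (nat_lit 78) (nat_lit 304) (nat_lit 0) (XT.lf (nat_lit 0) (nat_lit 13476080927) (nat_lit 456) (nat_lit 55869414911) (nat_lit 76) (nat_lit 9226698410) (nat_lit 103) (nat_lit 5) (nat_lit 109) (nat_lit 5) (nat_lit 104) (nat_lit 5) (nat_lit 373) (nat_lit 344) (nat_lit 183)) (XT.lf (nat_lit 0) (nat_lit 10551365577) (nat_lit 304) (nat_lit 25223046140) (nat_lit 380) (nat_lit 45305799953) (nat_lit 99) (nat_lit 5) (nat_lit 103) (nat_lit 5) (nat_lit 104) (nat_lit 5) (nat_lit 374) (nat_lit 344) (nat_lit 182)))) (XT.nd (nat_lit 78) (nat_lit 684) (nat_lit 0) (XT.lf (nat_lit 0) (nat_lit 59969592712) (nat_lit 380) (nat_lit 2446771243) (nat_lit 76) (nat_lit 21273809021) (nat_lit 99) (nat_lit 5) (nat_lit 104) (nat_lit 5) (nat_lit 100) (nat_lit 5) (nat_lit 375) (nat_lit 344) (nat_lit 181)) (XT.nd (nat_lit 78) (nat_lit 380) (nat_lit 0) (XT.lf (nat_lit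 0) (nat_lit 70151336900) (nat_lit 304) (nat_lit 16150433628) (nat_lit 380) (nat_lit 101045656) (nat_lit 95) (nat_lit 5) (nat_lit 99) (nat_lit 5) (nat_lit 100) (nat_lit 5) (nat_lit 376) (nat_lit 344) (nat_lit 180)) (XT.lf (nat_lit 0) (nat_lit 25119370111) (nat_lit 380) (nat_lit 31473026322) (nat_lit 76) (nat_lit 32624516827) (nat_lit 90) (nat_lit 5) (nat_lit 95) (nat_lit 5) (nat_lit 91) (nat_lit 5) (nat_lit 377) (nat_lit 344) (nat_lit 179))))) (XT.nd (nat_lit 234) (nat_lit 532) (nat_lit 0) (XT.nd (nat_lit 78) (nat_lit 608) (nat_lit 0) (XT.lf (nat_lit 0) (nat_lit 44308533441) (nat_lit 304) (nat_lit 8046492876) (nat_lit 380) (nat_lit 39793970432) (nat_lit 86) (nat_lit 5) (nat_lit 90) (nat_lit 5) (nat_lit 91) (nat_lit 5) (nat_lit 378) (nat_lit 344) (nat_lit 178)) (XT.nd (nat_lit 78) (nat_lit 380) (nat_lit 0) (XT.lf (nat_lit 0) (nat_lit 29475930618) (nat_lit 228) (nat_lit 52498163026) (nat_lit 304)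 (nat_lit 13222942734) (nat_lit 83) (nat_lit 5) (nat_lit 86) (nat_lit 5) (nat_lit 87) (nat_lit 5) (nat_lit 379) (nat_lit 344) (nat_lit 177)) (XT.lf (nat_lit 0) (nat_lit 13305358792) (nat_lit 304) (nat_lit 1789840869) (nat_lit 380) (nat_lit 83276897937) (nat_lit 78) (nat_lit 5) (nat_lit 82) (nat_lit 5) (nat_lit 83) (nat_lit 5) (nat_lit 380) (nat_lit 344) (nat_lit 176)))) (XT.nd (nat_lit 78) (nat_lit 532) (nat_lit 0) (XT.lf (nat_lit 0) (nat_lit 45734701132) (nat_lit 380) (nat_lit 4666100758) (nat_lit 76) (nat_lit 51265815417) (nat_lit 78) (nat_lit 5) (nat_lit 83) (nat_lit 5) (nat_lit 79) (nat_lit 5) (nat_lit 381) (nat_lit 344) (nat_lit 175)) (XT.nd (nat_lit 78) (nat_lit 304) (nat_lit 0) (XT.lf (nat_lit 0) (nat_lit 78729710372) (nat_lit 304) (nat_lit 23805826859) (nat_lit 76) (nat_lit 2565620473) (nat_lit 75) (nat_lit 5) (nat_lit 79) (nat_lit 5) (nat_lit 76) (nat_lit 5) (nat_lit 382) (nat_lit 344)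 (nat_lit 174)) (XT.lf (nat_lit 0) (nat_lit 5755506761) (nat_lit 304) (nat_lit 45051166894) (nat_lit 76) (nat_lit 57864020243) (nat_lit 71) (nat_lit 5) (nat_lit 75) (nat_lit 5) (nat_lit 72) (nat_lit 5) (nat_lit 383) (nat_lit 344) (nat_lit 173))))))))
noncomputable def xc115 : XT := (XT.nd (nat_lit 45552) (nat_lit 0) (nat_lit 228) (XT.nd (nat_lit 44616) (nat_lit 0) (nat_lit 5472) (XT.nd (nat_lit 44148) (nat_lit 0) (nat_lit 10336) (XT.nd (nat_lit 43914) (nat_lit 0) (nat_lit 11248) (XT.nd (nat_lit 43836) (nat_lit 0) (nat_lit 11248) (XT.lf (nat_lit 0) (nat_lit 39661479632) (nat_lit 304) (nat_lit 68341640482) (nat_lit 76) (nat_lit 4386212095) (nat_lit 68) (nat_lit 5) (nat_lit 72) (nat_lit 5) (nat_lit 69) (nat_lit 5) (nat_lit 384) (nat_lit 344) (nat_lit 172)) (XT.lf (nat_lit 0) (nat_lit 7272780676) (nat_lit 0) (nat_lit 7272780676) (nat_lit 1140) (nat_lit 3808682687) (nat_lit 216) (nat_lit 5) (nat_lit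 216) (nat_lit 3) (nat_lit 231) (nat_lit 3) (nat_lit 345) (nat_lit 345) (nat_lit 210))) (XT.nd (nat_lit 78) (nat_lit 0) (nat_lit 76) (XT.lf (nat_lit 76) (nat_lit 6214271807) (nat_lit 0) (nat_lit 23874995791) (nat_lit 1216) (nat_lit 7528737714) (nat_lit 217) (nat_lit 5) (nat_lit 216) (nat_lit 5) (nat_lit 232) (nat_lit 5) (nat_lit 346) (nat_lit 345) (nat_lit 209)) (XT.nd (nat_lit 78) (nat_lit 0) (nat_lit 0) (XT.lf (nat_lit 0) (nat_lit 31552196084) (nat_lit 1140) (nat_lit 2287186962) (nat_lit 1216) (nat_lit 4721173486) (nat_lit 217) (nat_lit 5) (nat_lit 232) (nat_lit 5) (nat_lit 233) (nat_lit 5) (nat_lit 347) (nat_lit 345) (nat_lit 208)) (XT.lf (nat_lit 76) (nat_lit 28599561544) (nat_lit 0) (nat_lit 4999927309) (nat_lit 1216) (nat_lit 5935414129) (nat_lit 218) (nat_lit 5) (nat_lit 217) (nat_lit 5) (nat_lit 233) (nat_lit 5) (nat_lit 348) (nat_lit 345) (nat_lit 207))))) (XT.nd (nat_lit 234) (nat_lit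 0) (nat_lit 0) (XT.nd (nat_lit 78) (nat_lit 1064) (nat_lit 0) (XT.lf (nat_lit 76) (nat_lit 20678635483) (nat_lit 0) (nat_lit 15531625348) (nat_lit 1216) (nat_lit 4333876490) (nat_lit 219) (nat_lit 5) (nat_lit 218) (nat_lit 5) (nat_lit 234) (nat_lit 5) (nat_lit 349) (nat_lit 345) (nat_lit 206)) (XT.nd (nat_lit 78) (nat_lit 1140) (nat_lit 0) (XT.lf (nat_lit 76) (nat_lit 12549843256) (nat_lit 0) (nat_lit 26824222642) (nat_lit 1216) (nat_lit 2217096458) (nat_lit 220) (nat_lit 5) (nat_lit 219) (nat_lit 5) (nat_lit 235) (nat_lit 5) (nat_lit 350) (nat_lit 345) (nat_lit 205)) (XT.lf (nat_lit 0) (nat_lit 442148560) (nat_lit 1216) (nat_lit 38477727541) (nat_lit 1292) (nat_lit 3757562462) (nat_lit 204) (nat_lit 5) (nat_lit 220) (nat_lit 5) (nat_lit 221) (nat_lit 5) (nat_lit 351) (nat_lit 345) (nat_lit 204)))) (XT.nd (nat_lit 78) (nat_lit 0) (nat_lit 76) (XT.lf (nat_lit 0) (nat_lit 3757641004) (nat_lit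 1216) (nat_lit 4398397998) (nat_lit 1292) (nat_lit 35644260249) (nat_lit 204) (nat_lit 5) (nat_lit 220) (nat_lit 5) (nat_lit 221) (nat_lit 5) (nat_lit 352) (nat_lit 345) (nat_lit 203)) (XT.nd (nat_lit 78) (nat_lit 0) (nat_lit 76) (XT.lf (nat_lit 0) (nat_lit 7777979097) (nat_lit 1216) (nat_lit 13198675343) (nat_lit 1292) (nat_lit 23986479602) (nat_lit 205) (nat_lit 5) (nat_lit 221) (nat_lit 5) (nat_lit 222) (nat_lit 5) (nat_lit 353) (nat_lit 345) (nat_lit 202)) (XT.lf (nat_lit 0) (nat_lit 12466964311) (nat_lit 1216) (nat_lit 22257767523) (nat_lit 1292) (nat_lit 11445352877) (nat_lit 206) (nat_lit 5) (nat_lit 222) (nat_lit 5) (nat_lit 223) (nat_lit 5) (nat_lit 354) (nat_lit 345) (nat_lit 201)))))) (XT.nd (nat_lit 468) (nat_lit 2508) (nat_lit 0) (XT.nd (nat_lit 234) (nat_lit 1748) (nat_lit 0) (XT.nd (nat_lit 78) (nat_lit 760) (nat_lit 0) (XT.lf (nat_lit 76) (nat_lit 15814026433) (nat_lit 0) (nat_lit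 2073877765) (nat_lit 1292) (nat_lit 29534556453) (nat_lit 207) (nat_lit 5) (nat_lit 206) (nat_lit 5) (nat_lit 223) (nat_lit 5) (nat_lit 355) (nat_lit 345) (nat_lit 200)) (XT.nd (nat_lit 78) (nat_lit 0) (nat_lit 0) (XT.lf (nat_lit 0) (nat_lit 7352655363) (nat_lit 836) (nat_lit 16835621513) (nat_lit 912) (nat_lit 24530929702) (nat_lit 196) (nat_lit 5) (nat_lit 207) (nat_lit 5) (nat_lit 208) (nat_lit 5) (nat_lit 356) (nat_lit 345) (nat_lit 199)) (XT.lf (nat_lit 0) (nat_lit 31317242655) (nat_lit 912) (nat_lit 1342972152) (nat_lit 76) (nat_lit 17405170392) (nat_lit 196) (nat_lit 5) (nat_lit 208) (nat_lit 5) (nat_lit 197) (nat_lit 5) (nat_lit 357) (nat_lit 345) (nat_lit 198)))) (XT.nd (nat_lit 78) (nat_lit 1140) (nat_lit 0) (XT.lf (nat_lit 0) (nat_lit 39385443877) (nat_lit 684) (nat_lit 10165380283) (nat_lit 76) (nat_lit 1910567482) (nat_lit 188) (nat_lit 5) (nat_lit 197) (nat_lit 5) (nat_lit 189)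 (nat_lit 5) (nat_lit 358) (nat_lit 345) (nat_lit 197)) (XT.nd (nat_lit 78) (nat_lit 608) (nat_lit 0) (XT.lf (nat_lit 0) (nat_lit 33489156205) (nat_lit 532) (nat_lit 15030528313) (nat_lit 608) (nat_lit 4387637395) (nat_lit 181) (nat_lit 5) (nat_lit 188) (nat_lit 5) (nat_lit 189) (nat_lit 5) (nat_lit 359) (nat_lit 345) (nat_lit 196)) (XT.lf (nat_lit 0) (nat_lit 4169669153) (nat_lit 608) (nat_lit 29045491082) (nat_lit 76) (nat_lit 21192633268) (nat_lit 173) (nat_lit 5) (nat_lit 181) (nat_lit 5) (nat_lit 174) (nat_lit 5) (nat_lit 360) (nat_lit 345) (nat_lit 195))))) (XT.nd (nat_lit 234) (nat_lit 1444) (nat_lit 0) (XT.nd (nat_lit 78) (nat_lit 532) (nat_lit 0) (XT.lf (nat_lit 0) (nat_lit 13610964376) (nat_lit 608) (nat_lit 39058748715) (nat_lit 76) (nat_lit 3295868433) (nat_lit 166) (nat_lit 5) (nat_lit 174) (nat_lit 5) (nat_lit 167) (nat_lit 5) (nat_lit 361) (nat_lit 345) (nat_lit 194)) (XT.nd (nat_lit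 78) (nat_lit 0) (nat_lit 0) (XT.lf (nat_lit 0) (nat_lit 7986320581) (nat_lit 532) (nat_lit 16249375213) (nat_lit 608) (nat_lit 33344224011) (nat_lit 159) (nat_lit 5) (nat_lit 166) (nat_lit 5) (nat_lit 167) (nat_lit 5) (nat_lit 362) (nat_lit 345) (nat_lit 193)) (XT.lf (nat_lit 0) (nat_lit 36006612299) (nat_lit 608) (nat_lit 1281195467) (nat_lit 76) (nat_lit 21968720685) (nat_lit 159) (nat_lit 5) (nat_lit 167) (nat_lit 5) (nat_lit 160) (nat_lit 5) (nat_lit 363) (nat_lit 345) (nat_lit 192)))) (XT.nd (nat_lit 78) (nat_lit 988) (nat_lit 0) (XT.lf (nat_lit 0) (nat_lit 49022850981) (nat_lit 532) (nat_lit 10748677939) (nat_lit 76) (nat_lit 1225737132) (nat_lit 153) (nat_lit 5) (nat_lit 160) (nat_lit 5) (nat_lit 154) (nat_lit 5) (nat_lit 364) (nat_lit 345) (nat_lit 191)) (XT.nd (nat_lit 78) (nat_lit 456) (nat_lit 0) (XT.lf (nat_lit 0) (nat_lit 666405945) (nat_lit 532) (nat_lit 20810438370) (nat_lit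 76) (nat_lit 41324269635) (nat_lit 146) (nat_lit 5) (nat_lit 153) (nat_lit 5) (nat_lit 147) (nat_lit 5) (nat_lit 365) (nat_lit 345) (nat_lit 190)) (XT.lf (nat_lit 0) (nat_lit 14310300070) (nat_lit 532) (nat_lit 31436632828) (nat_lit 76) (nat_lit 18926105746) (nat_lit 140) (nat_lit 5) (nat_lit 147) (nat_lit 5) (nat_lit 141) (nat_lit 5) (nat_lit 366) (nat_lit 345) (nat_lit 189))))))) (XT.nd (nat_lit 858) (nat_lit 1824) (nat_lit 0) (XT.nd (nat_lit 390) (nat_lit 1748) (nat_lit 0) (XT.nd (nat_lit 156) (nat_lit 836) (nat_lit 0) (XT.nd (nat_lit 78) (nat_lit 380) (nat_lit 0) (XT.lf (nat_lit 0) (nat_lit 24035892063) (nat_lit 456) (nat_lit 5262500412) (nat_lit 532) (nat_lit 37320308513) (nat_lit 134) (nat_lit 5) (nat_lit 140) (nat_lit 5) (nat_lit 141) (nat_lit 5) (nat_lit 367) (nat_lit 345) (nat_lit 188)) (XT.lf (nat_lit 0) (nat_lit 14200336085) (nat_lit 380) (nat_lit 31654818539) (nat_lit 456) (nat_lit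 22781915321) (nat_lit 129) (nat_lit 5) (nat_lit 134) (nat_lit 5) (nat_lit 135) (nat_lit 5) (nat_lit 368) (nat_lit 345) (nat_lit 187))) (XT.nd (nat_lit 78) (nat_lit 456) (nat_lit 0) (XT.lf (nat_lit 0) (nat_lit 3884909118) (nat_lit 380) (nat_lit 59986164538) (nat_lit 456) (nat_lit 6866345512) (nat_lit 124) (nat_lit 5) (nat_lit 129) (nat_lit 5) (nat_lit 130) (nat_lit 5) (nat_lit 369) (nat_lit 345) (nat_lit 186)) (XT.nd (nat_lit 78) (nat_lit 380) (nat_lit 0) (XT.lf (nat_lit 0) (nat_lit 10536353476) (nat_lit 456) (nat_lit 7087972764) (nat_lit 76) (nat_lit 55289117940) (nat_lit 123) (nat_lit 5) (nat_lit 129) (nat_lit 5) (nat_lit 124) (nat_lit 5) (nat_lit 370) (nat_lit 345) (nat_lit 185)) (XT.lf (nat_lit 0) (nat_lit 29475890676) (nat_lit 456) (nat_lit 18744624568) (nat_lit 76) (nat_lit 26951455610) (nat_lit 118) (nat_lit 5) (nat_lit 124) (nat_lit 5) (nat_lit 119) (nat_lit 5) (nat_lit 371) (nat_lit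 345) (nat_lit 184))))) (XT.nd (nat_lit 234) (nat_lit 608) (nat_lit 0) (XT.nd (nat_lit 78) (nat_lit 760) (nat_lit 0) (XT.lf (nat_lit 0) (nat_lit 46450748907) (nat_lit 380) (nat_lit 3607933435) (nat_lit 456) (nat_lit 27463854350) (nat_lit 113) (nat_lit 5) (nat_lit 118) (nat_lit 5) (nat_lit 119) (nat_lit 5) (nat_lit 372) (nat_lit 345) (nat_lit 183)) (XT.nd (nat_lit 78) (nat_lit 456) (nat_lit 0) (XT.lf (nat_lit 0) (nat_lit 35587321423) (nat_lit 304) (nat_lit 37034102728) (nat_lit 380) (nat_lit 7340683458) (nat_lit 109) (nat_lit 5) (nat_lit 113) (nat_lit 5) (nat_lit 114) (nat_lit 5) (nat_lit 373) (nat_lit 345) (nat_lit 182)) (XT.lf (nat_lit 0) (nat_lit 14203268865) (nat_lit 456) (nat_lit 58588519607) (nat_lit 76) (nat_lit 9707382600) (nat_lit 103) (nat_lit 5) (nat_lit 109) (nat_lit 5) (nat_lit 104) (nat_lit 5) (nat_lit 374) (nat_lit 345) (nat_lit 181)))) (XT.nd (nat_lit 78) (nat_lit 304) (nat_lit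 0) (XT.lf (nat_lit 0) (nat_lit 11151168218) (nat_lit 304) (nat_lit 26463500249) (nat_lit 380) (nat_lit 47517977826) (nat_lit 99) (nat_lit 5) (nat_lit 103) (nat_lit 5) (nat_lit 104) (nat_lit 5) (nat_lit 375) (nat_lit 345) (nat_lit 180)) (XT.nd (nat_lit 78) (nat_lit 304) (nat_lit 0) (XT.lf (nat_lit 0) (nat_lit 63017343897) (nat_lit 380) (nat_lit 2499003749) (nat_lit 76) (nat_lit 22356827378) (nat_lit 99) (nat_lit 5) (nat_lit 104) (nat_lit 5) (nat_lit 100) (nat_lit 5) (nat_lit 376) (nat_lit 345) (nat_lit 179)) (XT.lf (nat_lit 0) (nat_lit 73727000225) (nat_lit 304) (nat_lit 16937438699) (nat_lit 380) (nat_lit 57063574) (nat_lit 95) (nat_lit 5) (nat_lit 99) (nat_lit 5) (nat_lit 100) (nat_lit 5) (nat_lit 377) (nat_lit 345) (nat_lit 178)))))) (XT.nd (nat_lit 468) (nat_lit 304) (nat_lit 0) (XT.nd (nat_lit 234) (nat_lit 608) (nat_lit 0) (XT.nd (nat_lit 78) (nat_lit 532) (nat_lit 0) (XT.lf (nat_lit 0)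 (nat_lit 26421970397) (nat_lit 380) (nat_lit 32978358773) (nat_lit 76) (nat_lit 34276005743) (nat_lit 90) (nat_lit 5) (nat_lit 95) (nat_lit 5) (nat_lit 91) (nat_lit 5) (nat_lit 378) (nat_lit 345) (nat_lit 177)) (XT.nd (nat_lit 78) (nat_lit 228) (nat_lit 0) (XT.lf (nat_lit 0) (nat_lit 46590320632) (nat_lit 304) (nat_lit 8427506118) (nat_lit 380) (nat_lit 41737244500) (nat_lit 86) (nat_lit 5) (nat_lit 90) (nat_lit 5) (nat_lit 91) (nat_lit 5) (nat_lit 379) (nat_lit 345) (nat_lit 176)) (XT.lf (nat_lit 0) (nat_lit 31015322384) (nat_lit 228) (nat_lit 55101205508) (nat_lit 304) (nat_lit 13839025691) (nat_lit 83) (nat_lit 5) (nat_lit 86) (nat_lit 5) (nat_lit 87) (nat_lit 5) (nat_lit 380) (nat_lit 345) (nat_lit 175)))) (XT.nd (nat_lit 78) (nat_lit 228) (nat_lit 0) (XT.lf (nat_lit 0) (nat_lit 14035217282) (nat_lit 304) (nat_lit 1857444022) (nat_lit 380) (nat_lit 87396739109) (nat_lit 78) (nat_lit 5)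 (nat_lit 82) (nat_lit 5) (nat_lit 83) (nat_lit 5) (nat_lit 381) (nat_lit 345) (nat_lit 174)) (XT.nd (nat_lit 78) (nat_lit 228) (nat_lit 0) (XT.lf (nat_lit 0) (nat_lit 48062304826) (nat_lit 380) (nat_lit 4836851314) (nat_lit 76) (nat_lit 53849545958) (nat_lit 78) (nat_lit 5) (nat_lit 83) (nat_lit 5) (nat_lit 79) (nat_lit 5) (nat_lit 382) (nat_lit 345) (nat_lit 173)) (XT.lf (nat_lit 0) (nat_lit 82705906792) (nat_lit 304) (nat_lit 24934356888) (nat_lit 76) (nat_lit 2714741522) (nat_lit 75) (nat_lit 5) (nat_lit 79) (nat_lit 5) (nat_lit 76) (nat_lit 5) (nat_lit 383) (nat_lit 345) (nat_lit 172))))) (XT.nd (nat_lit 44070) (nat_lit 0) (nat_lit 11096) (XT.nd (nat_lit 43914) (nat_lit 0) (nat_lit 11020) (XT.lf (nat_lit 0) (nat_lit 6082076638) (nat_lit 304) (nat_lit 47242944589) (nat_lit 76) (nat_lit 60778025906) (nat_lit 71) (nat_lit 5) (nat_lit 75) (nat_lit 5) (nat_lit 72) (nat_lit 5) (nat_lit 384) (nat_lit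 345) (nat_lit 171)) (XT.nd (nat_lit 78) (nat_lit 0) (nat_lit 0) (XT.lf (nat_lit 0) (nat_lit 7674309608) (nat_lit 0) (nat_lit 7674309608) (nat_lit 1140) (nat_lit 3920995743) (nat_lit 216) (nat_lit 5) (nat_lit 216) (nat_lit 3) (nat_lit 231) (nat_lit 3) (nat_lit 346) (nat_lit 346) (nat_lit 208)) (XT.lf (nat_lit 76) (nat_lit 6603848879) (nat_lit 0) (nat_lit 25134288901) (nat_lit 1216) (nat_lit 7756306287) (nat_lit 217) (nat_lit 5) (nat_lit 216) (nat_lit 5) (nat_lit 232) (nat_lit 5) (nat_lit 347) (nat_lit 346) (nat_lit 207)))) (XT.nd (nat_lit 78) (nat_lit 0) (nat_lit 0) (XT.lf (nat_lit 0) (nat_lit 33266736135) (nat_lit 1140) (nat_lit 2321589133) (nat_lit 1216) (nat_lit 4896028034) (nat_lit 217) (nat_lit 5) (nat_lit 232) (nat_lit 5) (nat_lit 233) (nat_lit 5) (nat_lit 348) (nat_lit 346) (nat_lit 206)) (XT.nd (nat_lit 78) (nat_lit 0) (nat_lit 76) (XT.lf (nat_lit 76) (nat_lit 30107204841) (nat_lit 0)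 (nat_lit 5303414779) (nat_lit 1216) (nat_lit 6096976536) (nat_lit 218) (nat_lit 5) (nat_lit 217) (nat_lit 5) (nat_lit 233) (nat_lit 5) (nat_lit 349) (nat_lit 346) (nat_lit 205)) (XT.lf (nat_lit 76) (nat_lit 21792441496) (nat_lit 0) (nat_lit 16353521258) (nat_lit 1216) (nat_lit 4421514067) (nat_lit 219) (nat_lit 5) (nat_lit 218) (nat_lit 5) (nat_lit 234) (nat_lit 5) (nat_lit 350) (nat_lit 346) (nat_lit 204))))))))
noncomputable def xc116 : XT := (XT.nd (nat_lit 1716) (nat_lit 3268) (nat_lit 0) (XT.nd (nat_lit 858) (nat_lit 4180) (nat_lit 0) (XT.nd (nat_lit 390) (nat_lit 2356) (nat_lit 0) (XT.nd (nat_lit 156) (nat_lit 0) (nat_lit 0) (XT.nd (nat_lit 78) (nat_lit 1140) (nat_lit 0) (XT.lf (nat_lit 76) (nat_lit 13259099694) (nat_lit 0) (nat_lit 28203268124) (nat_lit 1216) (nat_lit 2204658316) (nat_lit 220) (nat_lit 5) (nat_lit 219) (nat_lit 5) (nat_lit 235) (nat_lit 5) (nat_lit 351) (nat_lit 346)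 (nat_lit 203)) (XT.lf (nat_lit 0) (nat_lit 579846000) (nat_lit 1216) (nat_lit 40315852863) (nat_lit 1292) (nat_lit 3912045563) (nat_lit 204) (nat_lit 5) (nat_lit 220) (nat_lit 5) (nat_lit 221) (nat_lit 5) (nat_lit 352) (nat_lit 346) (nat_lit 202))) (XT.nd (nat_lit 78) (nat_lit 0) (nat_lit 76) (XT.lf (nat_lit 0) (nat_lit 4055608780) (nat_lit 1216) (nat_lit 4536640702) (nat_lit 1292) (nat_lit 37394668479) (nat_lit 204) (nat_lit 5) (nat_lit 220) (nat_lit 5) (nat_lit 221) (nat_lit 5) (nat_lit 353) (nat_lit 346) (nat_lit 201)) (XT.nd (nat_lit 78) (nat_lit 0) (nat_lit 76) (XT.lf (nat_lit 0) (nat_lit 8272231700) (nat_lit 1216) (nat_lit 13775763244) (nat_lit 1292) (nat_lit 25160045970) (nat_lit 205) (nat_lit 5) (nat_lit 221) (nat_lit 5) (nat_lit 222) (nat_lit 5) (nat_lit 354) (nat_lit 346) (nat_lit 200)) (XT.lf (nat_lit 0) (nat_lit 13191224475) (nat_lit 1216) (nat_lit 23286868115) (nat_lit 1292) (nat_lit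 11997384027) (nat_lit 206) (nat_lit 5) (nat_lit 222) (nat_lit 5) (nat_lit 223) (nat_lit 5) (nat_lit 355) (nat_lit 346) (nat_lit 199))))) (XT.nd (nat_lit 234) (nat_lit 1748) (nat_lit 0) (XT.nd (nat_lit 78) (nat_lit 760) (nat_lit 0) (XT.lf (nat_lit 76) (nat_lit 16686113779) (nat_lit 0) (nat_lit 2193074579) (nat_lit 1292) (nat_lit 30911407732) (nat_lit 207) (nat_lit 5) (nat_lit 206) (nat_lit 5) (nat_lit 223) (nat_lit 5) (nat_lit 356) (nat_lit 346) (nat_lit 198)) (XT.nd (nat_lit 78) (nat_lit 0) (nat_lit 0) (XT.lf (nat_lit 0) (nat_lit 7802387948) (nat_lit 836) (nat_lit 17688225229) (nat_lit 912) (nat_lit 25661688985) (nat_lit 196) (nat_lit 5) (nat_lit 207) (nat_lit 5) (nat_lit 208) (nat_lit 5) (nat_lit 357) (nat_lit 346) (nat_lit 197)) (XT.lf (nat_lit 0) (nat_lit 32971503286) (nat_lit 912) (nat_lit 1329103050) (nat_lit 76) (nat_lit 18265322767) (nat_lit 196) (nat_lit 5) (nat_lit 208) (nat_lit 5)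 (nat_lit 197) (nat_lit 5) (nat_lit 358) (nat_lit 346) (nat_lit 196)))) (XT.nd (nat_lit 78) (nat_lit 1140) (nat_lit 0) (XT.lf (nat_lit 0) (nat_lit 41439601504) (nat_lit 684) (nat_lit 10592275592) (nat_lit 76) (nat_lit 1999967659) (nat_lit 188) (nat_lit 5) (nat_lit 197) (nat_lit 5) (nat_lit 189) (nat_lit 5) (nat_lit 359) (nat_lit 346) (nat_lit 195)) (XT.nd (nat_lit 78) (nat_lit 608) (nat_lit 0) (XT.lf (nat_lit 0) (nat_lit 35242655159) (nat_lit 532) (nat_lit 15784616646) (nat_lit 608) (nat_lit 4522901534) (nat_lit 181) (nat_lit 5) (nat_lit 188) (nat_lit 5) (nat_lit 189) (nat_lit 5) (nat_lit 360) (nat_lit 346) (nat_lit 194)) (XT.lf (nat_lit 0) (nat_lit 4457447037) (nat_lit 608) (nat_lit 30416884009) (nat_lit 76) (nat_lit 22251411740) (nat_lit 173) (nat_lit 5) (nat_lit 181) (nat_lit 5) (nat_lit 174) (nat_lit 5) (nat_lit 361) (nat_lit 346) (nat_lit 193)))))) (XT.nd (nat_lit 390) (nat_lit 2128) (nat_lit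 0) (XT.nd (nat_lit 156) (nat_lit 988) (nat_lit 0) (XT.nd (nat_lit 78) (nat_lit 532) (nat_lit 0) (XT.lf (nat_lit 0) (nat_lit 14367808301) (nat_lit 608) (nat_lit 40930798147) (nat_lit 76) (nat_lit 3462906653) (nat_lit 166) (nat_lit 5) (nat_lit 174) (nat_lit 5) (nat_lit 167) (nat_lit 5) (nat_lit 362) (nat_lit 346) (nat_lit 192)) (XT.lf (nat_lit 0) (nat_lit 8464205975) (nat_lit 532) (nat_lit 17056692443) (nat_lit 608) (nat_lit 34935759006) (nat_lit 159) (nat_lit 5) (nat_lit 166) (nat_lit 5) (nat_lit 167) (nat_lit 5) (nat_lit 363) (nat_lit 346) (nat_lit 191))) (XT.nd (nat_lit 78) (nat_lit 988) (nat_lit 0) (XT.lf (nat_lit 0) (nat_lit 37876911822) (nat_lit 608) (nat_lit 1268323605) (nat_lit 76) (nat_lit 23071967201) (nat_lit 159) (nat_lit 5) (nat_lit 167) (nat_lit 5) (nat_lit 160) (nat_lit 5) (nat_lit 364) (nat_lit 346) (nat_lit 190)) (XT.nd (nat_lit 78) (nat_lit 532) (nat_lit 0) (XT.lf (nat_lit 0)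 (nat_lit 51541419756) (nat_lit 532) (nat_lit 11209384979) (nat_lit 76) (nat_lit 1294251188) (nat_lit 153) (nat_lit 5) (nat_lit 160) (nat_lit 5) (nat_lit 154) (nat_lit 5) (nat_lit 365) (nat_lit 346) (nat_lit 189)) (XT.lf (nat_lit 0) (nat_lit 765348281) (nat_lit 532) (nat_lit 21775079955) (nat_lit 76) (nat_lit 43398725921) (nat_lit 146) (nat_lit 5) (nat_lit 153) (nat_lit 5) (nat_lit 147) (nat_lit 5) (nat_lit 366) (nat_lit 346) (nat_lit 188))))) (XT.nd (nat_lit 234) (nat_lit 836) (nat_lit 0) (XT.nd (nat_lit 78) (nat_lit 836) (nat_lit 0) (XT.lf (nat_lit 0) (nat_lit 15089121682) (nat_lit 532) (nat_lit 32932919389) (nat_lit 76) (nat_lit 19882705707) (nat_lit 140) (nat_lit 5) (nat_lit 147) (nat_lit 5) (nat_lit 141) (nat_lit 5) (nat_lit 367) (nat_lit 346) (nat_lit 187)) (XT.nd (nat_lit 78) (nat_lit 380) (nat_lit 0) (XT.lf (nat_lit 0) (nat_lit 25311066261) (nat_lit 456) (nat_lit 5513243215) (nat_lit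 532) (nat_lit 39123454164) (nat_lit 134) (nat_lit 5) (nat_lit 140) (nat_lit 5) (nat_lit 141) (nat_lit 5) (nat_lit 368) (nat_lit 346) (nat_lit 186)) (XT.lf (nat_lit 0) (nat_lit 14983332185) (nat_lit 380) (nat_lit 33223487791) (nat_lit 456) (nat_lit 23860295786) (nat_lit 129) (nat_lit 5) (nat_lit 134) (nat_lit 5) (nat_lit 135) (nat_lit 5) (nat_lit 369) (nat_lit 346) (nat_lit 185)))) (XT.nd (nat_lit 78) (nat_lit 456) (nat_lit 0) (XT.lf (nat_lit 0) (nat_lit 4151666408) (nat_lit 380) (nat_lit 62969889278) (nat_lit 456) (nat_lit 7150988063) (nat_lit 124) (nat_lit 5) (nat_lit 129) (nat_lit 5) (nat_lit 130) (nat_lit 5) (nat_lit 370) (nat_lit 346) (nat_lit 184)) (XT.nd (nat_lit 78) (nat_lit 380) (nat_lit 0) (XT.lf (nat_lit 0) (nat_lit 11117961406) (nat_lit 456) (nat_lit 7372186455) (nat_lit 76) (nat_lit 58067289196) (nat_lit 123) (nat_lit 5) (nat_lit 129) (nat_lit 5) (nat_lit 124) (nat_lit 5) (nat_lit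 371) (nat_lit 346) (nat_lit 183)) (XT.lf (nat_lit 0) (nat_lit 31002669153) (nat_lit 456) (nat_lit 19612211089) (nat_lit 76) (nat_lit 28314065710) (nat_lit 118) (nat_lit 5) (nat_lit 124) (nat_lit 5) (nat_lit 119) (nat_lit 5) (nat_lit 372) (nat_lit 346) (nat_lit 182))))))) (XT.nd (nat_lit 858) (nat_lit 228) (nat_lit 0) (XT.nd (nat_lit 390) (nat_lit 1596) (nat_lit 0) (XT.nd (nat_lit 156) (nat_lit 760) (nat_lit 0) (XT.nd (nat_lit 78) (nat_lit 304) (nat_lit 0) (XT.lf (nat_lit 0) (nat_lit 48840934708) (nat_lit 380) (nat_lit 3771792927) (nat_lit 456) (nat_lit 28784370246) (nat_lit 113) (nat_lit 5) (nat_lit 118) (nat_lit 5) (nat_lit 119) (nat_lit 5) (nat_lit 373) (nat_lit 346) (nat_lit 181)) (XT.lf (nat_lit 0) (nat_lit 37433763082) (nat_lit 304) (nat_lit 38868205754) (nat_lit 380) (nat_lit 7656729177) (nat_lit 109) (nat_lit 5) (nat_lit 113) (nat_lit 5) (nat_lit 114) (nat_lit 5) (nat_lit 374) (nat_lit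 346) (nat_lit 180))) (XT.nd (nat_lit 78) (nat_lit 304) (nat_lit 0) (XT.lf (nat_lit 0) (nat_lit 14961853073) (nat_lit 456) (nat_lit 61450493389) (nat_lit 76) (nat_lit 10210302089) (nat_lit 103) (nat_lit 5) (nat_lit 109) (nat_lit 5) (nat_lit 104) (nat_lit 5) (nat_lit 375) (nat_lit 346) (nat_lit 179)) (XT.nd (nat_lit 78) (nat_lit 0) (nat_lit 0) (XT.lf (nat_lit 0) (nat_lit 11774245324) (nat_lit 304) (nat_lit 27767901386) (nat_lit 380) (nat_lit 49845702455) (nat_lit 99) (nat_lit 5) (nat_lit 103) (nat_lit 5) (nat_lit 104) (nat_lit 5) (nat_lit 376) (nat_lit 346) (nat_lit 178)) (XT.lf (nat_lit 0) (nat_lit 66212901840) (nat_lit 380) (nat_lit 2560365677) (nat_lit 76) (nat_lit 23492199729) (nat_lit 99) (nat_lit 5) (nat_lit 104) (nat_lit 5) (nat_lit 100) (nat_lit 5) (nat_lit 377) (nat_lit 346) (nat_lit 177))))) (XT.nd (nat_lit 234) (nat_lit 608) (nat_lit 0) (XT.nd (nat_lit 78) (nat_lit 684) (nat_lit 0)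 (XT.lf (nat_lit 0) (nat_lit 77475115751) (nat_lit 304) (nat_lit 17765701464) (nat_lit 380) (nat_lit 15441138) (nat_lit 95) (nat_lit 5) (nat_lit 99) (nat_lit 5) (nat_lit 100) (nat_lit 5) (nat_lit 378) (nat_lit 346) (nat_lit 176)) (XT.nd (nat_lit 78) (nat_lit 304) (nat_lit 0) (XT.lf (nat_lit 0) (nat_lit 27785365317) (nat_lit 380) (nat_lit 34565309487) (nat_lit 76) (nat_lit 36008185236) (nat_lit 90) (nat_lit 5) (nat_lit 95) (nat_lit 5) (nat_lit 91) (nat_lit 5) (nat_lit 379) (nat_lit 346) (nat_lit 175)) (XT.lf (nat_lit 0) (nat_lit 48980027610) (nat_lit 304) (nat_lit 8829551355) (nat_lit 380) (nat_lit 43781998376) (nat_lit 86) (nat_lit 5) (nat_lit 90) (nat_lit 5) (nat_lit 91) (nat_lit 5) (nat_lit 380) (nat_lit 346) (nat_lit 174)))) (XT.nd (nat_lit 78) (nat_lit 380) (nat_lit 0) (XT.lf (nat_lit 0) (nat_lit 32625585315) (nat_lit 228) (nat_lit 57836432977) (nat_lit 304) (nat_lit 14490102436) (nat_lit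 83) (nat_lit 5) (nat_lit 86) (nat_lit 5) (nat_lit 87) (nat_lit 5) (nat_lit 381) (nat_lit 346) (nat_lit 173)) (XT.nd (nat_lit 78) (nat_lit 0) (nat_lit 0) (XT.lf (nat_lit 0) (nat_lit 14795563680) (nat_lit 304) (nat_lit 1930462354) (nat_lit 380) (nat_lit 91726663389) (nat_lit 78) (nat_lit 5) (nat_lit 82) (nat_lit 5) (nat_lit 83) (nat_lit 5) (nat_lit 382) (nat_lit 346) (nat_lit 172)) (XT.lf (nat_lit 0) (nat_lit 50502489127) (nat_lit 380) (nat_lit 5021955121) (nat_lit 76) (nat_lit 56560562731) (nat_lit 78) (nat_lit 5) (nat_lit 83) (nat_lit 5) (nat_lit 79) (nat_lit 5) (nat_lit 383) (nat_lit 346) (nat_lit 171)))))) (XT.nd (nat_lit 44382) (nat_lit 0) (nat_lit 9804) (XT.nd (nat_lit 44148) (nat_lit 0) (nat_lit 10792) (XT.nd (nat_lit 43992) (nat_lit 0) (nat_lit 10716) (XT.lf (nat_lit 0) (nat_lit 86877221090) (nat_lit 304) (nat_lit 26125055399) (nat_lit 76) (nat_lit 2869381115) (nat_lit 75) (nat_lit 5)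 (nat_lit 79) (nat_lit 5) (nat_lit 76) (nat_lit 5) (nat_lit 384) (nat_lit 346) (nat_lit 170)) (XT.nd (nat_lit 78) (nat_lit 0) (nat_lit 0) (XT.lf (nat_lit 0) (nat_lit 8092392344) (nat_lit 0) (nat_lit 8092392344) (nat_lit 1140) (nat_lit 4046187410) (nat_lit 216) (nat_lit 5) (nat_lit 216) (nat_lit 3) (nat_lit 231) (nat_lit 3) (nat_lit 347) (nat_lit 347) (nat_lit 206)) (XT.lf (nat_lit 76) (nat_lit 7005572826) (nat_lit 0) (nat_lit 26450453069) (nat_lit 1216) (nat_lit 8009093653) (nat_lit 217) (nat_lit 5) (nat_lit 216) (nat_lit 5) (nat_lit 232) (nat_lit 5) (nat_lit 348) (nat_lit 347) (nat_lit 205)))) (XT.nd (nat_lit 78) (nat_lit 0) (nat_lit 0) (XT.lf (nat_lit 0) (nat_lit 35054272713) (nat_lit 1140) (nat_lit 2365145073) (nat_lit 1216) (nat_lit 5085315488) (nat_lit 217) (nat_lit 5) (nat_lit 232) (nat_lit 5) (nat_lit 233) (nat_lit 5) (nat_lit 349) (nat_lit 347) (nat_lit 204)) (XT.nd (nat_lit 78) (nat_lit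 0) (nat_lit 76) (XT.lf (nat_lit 76) (nat_lit 31683009728) (nat_lit 0) (nat_lit 5617103526) (nat_lit 1216) (nat_lit 6279187449) (nat_lit 218) (nat_lit 5) (nat_lit 217) (nat_lit 5) (nat_lit 233) (nat_lit 5) (nat_lit 350) (nat_lit 347) (nat_lit 203)) (XT.lf (nat_lit 76) (nat_lit 22954511860) (nat_lit 0) (nat_lit 17212299037) (nat_lit 1216) (nat_lit 4525531949) (nat_lit 219) (nat_lit 5) (nat_lit 218) (nat_lit 5) (nat_lit 234) (nat_lit 5) (nat_lit 351) (nat_lit 347) (nat_lit 202))))) (XT.nd (nat_lit 234) (nat_lit 0) (nat_lit 76) (XT.nd (nat_lit 78) (nat_lit 1140) (nat_lit 0) (XT.lf (nat_lit 76) (nat_lit 13996217286) (nat_lit 0) (nat_lit 29647748400) (nat_lit 1216) (nat_lit 2203060878) (nat_lit 220) (nat_lit 5) (nat_lit 219) (nat_lit 5) (nat_lit 235) (nat_lit 5) (nat_lit 352) (nat_lit 347) (nat_lit 201)) (XT.nd (nat_lit 78) (nat_lit 0) (nat_lit 0) (XT.lf (nat_lit 0) (nat_lit 713681848) (nat_lit 1216)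 (nat_lit 42253857700) (nat_lit 1292) (nat_lit 4077357573) (nat_lit 204) (nat_lit 5) (nat_lit 220) (nat_lit 5) (nat_lit 221) (nat_lit 5) (nat_lit 353) (nat_lit 347) (nat_lit 200)) (XT.lf (nat_lit 0) (nat_lit 4358240218) (nat_lit 1216) (nat_lit 4689389113) (nat_lit 1292) (nat_lit 39235554027) (nat_lit 204) (nat_lit 5) (nat_lit 220) (nat_lit 5) (nat_lit 221) (nat_lit 5) (nat_lit 354) (nat_lit 347) (nat_lit 199)))) (XT.nd (nat_lit 78) (nat_lit 0) (nat_lit 76) (XT.lf (nat_lit 0) (nat_lit 8781402150) (nat_lit 1216) (nat_lit 14389407764) (nat_lit 1292) (nat_lit 26394685355) (nat_lit 205) (nat_lit 5) (nat_lit 221) (nat_lit 5) (nat_lit 222) (nat_lit 5) (nat_lit 355) (nat_lit 347) (nat_lit 198)) (XT.nd (nat_lit 78) (nat_lit 0) (nat_lit 0) (XT.lf (nat_lit 0) (nat_lit 13942315811) (nat_lit 1216) (nat_lit 24375213530) (nat_lit 1292) (nat_lit 12578898131) (nat_lit 206) (nat_lit 5) (nat_lit 222) (nat_lit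 5) (nat_lit 223) (nat_lit 5) (nat_lit 356) (nat_lit 347) (nat_lit 197)) (XT.lf (nat_lit 76) (nat_lit 17594238991) (nat_lit 0) (nat_lit 2316789919) (nat_lit 1292) (nat_lit 32366387150) (nat_lit 207) (nat_lit 5) (nat_lit 206) (nat_lit 5) (nat_lit 223) (nat_lit 5) (nat_lit 357) (nat_lit 347) (nat_lit 196))))))))
noncomputable def xc117 : XT := (XT.nd (nat_lit 1794) (nat_lit 912) (nat_lit 0) (XT.nd (nat_lit 858) (nat_lit 3800) (nat_lit 0) (XT.nd (nat_lit 390) (nat_lit 2508) (nat_lit 0) (XT.nd (nat_lit 156) (nat_lit 1748) (nat_lit 0) (XT.nd (nat_lit 78) (nat_lit 0) (nat_lit 0) (XT.lf (nat_lit 0) (nat_lit 8266974299) (nat_lit 836) (nat_lit 18582452944) (nat_lit 912) (nat_lit 26857891619) (nat_lit 196) (nat_lit 5) (nat_lit 207) (nat_lit 5) (nat_lit 208) (nat_lit 5) (nat_lit 358) (nat_lit 347) (nat_lit 195)) (XT.lf (nat_lit 0) (nat_lit 34700258494) (nat_lit 912) (nat_lit 1322072751) (nat_lit 76) (nat_lit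 19169422334) (nat_lit 196) (nat_lit 5) (nat_lit 208) (nat_lit 5) (nat_lit 197) (nat_lit 5) (nat_lit 359) (nat_lit 347) (nat_lit 194))) (XT.nd (nat_lit 78) (nat_lit 1140) (nat_lit 0) (XT.lf (nat_lit 0) (nat_lit 43588575170) (nat_lit 684) (nat_lit 11048081022) (nat_lit 76) (nat_lit 2094407587) (nat_lit 188) (nat_lit 5) (nat_lit 197) (nat_lit 5) (nat_lit 189) (nat_lit 5) (nat_lit 360) (nat_lit 347) (nat_lit 193)) (XT.nd (nat_lit 78) (nat_lit 608) (nat_lit 0) (XT.lf (nat_lit 0) (nat_lit 37076480565) (nat_lit 532) (nat_lit 16576171213) (nat_lit 608) (nat_lit 4672749349) (nat_lit 181) (nat_lit 5) (nat_lit 188) (nat_lit 5) (nat_lit 189) (nat_lit 5) (nat_lit 361) (nat_lit 347) (nat_lit 192)) (XT.lf (nat_lit 0) (nat_lit 4752241770) (nat_lit 608) (nat_lit 31864366189) (nat_lit 76) (nat_lit 23363208458) (nat_lit 173) (nat_lit 5) (nat_lit 181) (nat_lit 5) (nat_lit 174) (nat_lit 5) (nat_lit 362) (nat_lit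 347) (nat_lit 191))))) (XT.nd (nat_lit 234) (nat_lit 1444) (nat_lit 0) (XT.nd (nat_lit 78) (nat_lit 532) (nat_lit 0) (XT.lf (nat_lit 0) (nat_lit 15155401171) (nat_lit 608) (nat_lit 42903970251) (nat_lit 76) (nat_lit 3638088083) (nat_lit 166) (nat_lit 5) (nat_lit 174) (nat_lit 5) (nat_lit 167) (nat_lit 5) (nat_lit 363) (nat_lit 347) (nat_lit 190)) (XT.nd (nat_lit 78) (nat_lit 0) (nat_lit 0) (XT.lf (nat_lit 0) (nat_lit 8958681004) (nat_lit 532) (nat_lit 17904854474) (nat_lit 608) (nat_lit 36613906407) (nat_lit 159) (nat_lit 5) (nat_lit 166) (nat_lit 5) (nat_lit 167) (nat_lit 5) (nat_lit 364) (nat_lit 347) (nat_lit 189)) (XT.lf (nat_lit 0) (nat_lit 39834221275) (nat_lit 608) (nat_lit 1261960524) (nat_lit 76) (nat_lit 24229928810) (nat_lit 159) (nat_lit 5) (nat_lit 167) (nat_lit 5) (nat_lit 160) (nat_lit 5) (nat_lit 365) (nat_lit 347) (nat_lit 188)))) (XT.nd (nat_lit 78) (nat_lit 988) (nat_lit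 0) (XT.lf (nat_lit 0) (nat_lit 54179648319) (nat_lit 532) (nat_lit 11700260706) (nat_lit 76) (nat_lit 1365519029) (nat_lit 153) (nat_lit 5) (nat_lit 160) (nat_lit 5) (nat_lit 154) (nat_lit 5) (nat_lit 366) (nat_lit 347) (nat_lit 187)) (XT.nd (nat_lit 78) (nat_lit 456) (nat_lit 0) (XT.lf (nat_lit 0) (nat_lit 863136820) (nat_lit 532) (nat_lit 22795008253) (nat_lit 76) (nat_lit 45576138683) (nat_lit 146) (nat_lit 5) (nat_lit 153) (nat_lit 5) (nat_lit 147) (nat_lit 5) (nat_lit 367) (nat_lit 347) (nat_lit 186)) (XT.lf (nat_lit 0) (nat_lit 15900998726) (nat_lit 532) (nat_lit 34511043744) (nat_lit 76) (nat_lit 20886178566) (nat_lit 140) (nat_lit 5) (nat_lit 147) (nat_lit 5) (nat_lit 141) (nat_lit 5) (nat_lit 368) (nat_lit 347) (nat_lit 185)))))) (XT.nd (nat_lit 468) (nat_lit 1748) (nat_lit 0) (XT.nd (nat_lit 234) (nat_lit 836) (nat_lit 0) (XT.nd (nat_lit 78) (nat_lit 760) (nat_lit 0) (XT.lf (nat_lit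 0) (nat_lit 26643177031) (nat_lit 456) (nat_lit 5777674339) (nat_lit 532) (nat_lit 41022602134) (nat_lit 134) (nat_lit 5) (nat_lit 140) (nat_lit 5) (nat_lit 141) (nat_lit 5) (nat_lit 369) (nat_lit 347) (nat_lit 184)) (XT.nd (nat_lit 78) (nat_lit 380) (nat_lit 0) (XT.lf (nat_lit 0) (nat_lit 15798693166) (nat_lit 380) (nat_lit 34871898756) (nat_lit 456) (nat_lit 24998240007) (nat_lit 129) (nat_lit 5) (nat_lit 134) (nat_lit 5) (nat_lit 135) (nat_lit 5) (nat_lit 370) (nat_lit 347) (nat_lit 183)) (XT.lf (nat_lit 0) (nat_lit 4425020100) (nat_lit 380) (nat_lit 66104249060) (nat_lit 456) (nat_lit 7455317762) (nat_lit 124) (nat_lit 5) (nat_lit 129) (nat_lit 5) (nat_lit 130) (nat_lit 5) (nat_lit 371) (nat_lit 347) (nat_lit 182)))) (XT.nd (nat_lit 78) (nat_lit 760) (nat_lit 0) (XT.lf (nat_lit 0) (nat_lit 11723555854) (nat_lit 456) (nat_lit 7677135963) (nat_lit 76) (nat_lit 60983093892) (nat_lit 123) (nat_lit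 5) (nat_lit 129) (nat_lit 5) (nat_lit 124) (nat_lit 5) (nat_lit 372) (nat_lit 347) (nat_lit 181)) (XT.nd (nat_lit 78) (nat_lit 380) (nat_lit 0) (XT.lf (nat_lit 0) (nat_lit 32600860608) (nat_lit 456) (nat_lit 20529651842) (nat_lit 76) (nat_lit 29743408287) (nat_lit 118) (nat_lit 5) (nat_lit 124) (nat_lit 5) (nat_lit 119) (nat_lit 5) (nat_lit 373) (nat_lit 347) (nat_lit 180)) (XT.lf (nat_lit 0) (nat_lit 51344340496) (nat_lit 380) (nat_lit 3945382864) (nat_lit 456) (nat_lit 30175809328) (nat_lit 113) (nat_lit 5) (nat_lit 118) (nat_lit 5) (nat_lit 119) (nat_lit 5) (nat_lit 374) (nat_lit 347) (nat_lit 179))))) (XT.nd (nat_lit 234) (nat_lit 684) (nat_lit 0) (XT.nd (nat_lit 78) (nat_lit 760) (nat_lit 0) (XT.lf (nat_lit 0) (nat_lit 39366290771) (nat_lit 304) (nat_lit 40795650409) (nat_lit 380) (nat_lit 7993317605) (nat_lit 109) (nat_lit 5) (nat_lit 113) (nat_lit 5) (nat_lit 114) (nat_lit 5) (nat_lit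 375) (nat_lit 347) (nat_lit 178)) (XT.nd (nat_lit 78) (nat_lit 304) (nat_lit 0) (XT.lf (nat_lit 0) (nat_lit 15753864787) (nat_lit 456) (nat_lit 64461836925) (nat_lit 76) (nat_lit 10736735886) (nat_lit 103) (nat_lit 5) (nat_lit 109) (nat_lit 5) (nat_lit 104) (nat_lit 5) (nat_lit 376) (nat_lit 347) (nat_lit 177)) (XT.lf (nat_lit 0) (nat_lit 12422384978) (nat_lit 304) (nat_lit 29139267996) (nat_lit 380) (nat_lit 52294292102) (nat_lit 99) (nat_lit 5) (nat_lit 103) (nat_lit 5) (nat_lit 104) (nat_lit 5) (nat_lit 377) (nat_lit 347) (nat_lit 176)))) (XT.nd (nat_lit 78) (nat_lit 684) (nat_lit 0) (XT.lf (nat_lit 0) (nat_lit 69564082758) (nat_lit 380) (nat_lit 2630707534) (nat_lit 76) (nat_lit 24682710832) (nat_lit 99) (nat_lit 5) (nat_lit 104) (nat_lit 5) (nat_lit 100) (nat_lit 5) (nat_lit 378) (nat_lit 347) (nat_lit 175)) (XT.nd (nat_lit 78) (nat_lit 304) (nat_lit 0) (XT.lf (nat_lit 0) (nat_lit 23656683)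 (nat_lit 380) (nat_lit 18613211902) (nat_lit 76) (nat_lit 81380999111) (nat_lit 94) (nat_lit 5) (nat_lit 99) (nat_lit 5) (nat_lit 95) (nat_lit 5) (nat_lit 379) (nat_lit 347) (nat_lit 174)) (XT.lf (nat_lit 0) (nat_lit 29212997664) (nat_lit 380) (nat_lit 36237368861) (nat_lit 76) (nat_lit 37825264980) (nat_lit 90) (nat_lit 5) (nat_lit 95) (nat_lit 5) (nat_lit 91) (nat_lit 5) (nat_lit 380) (nat_lit 347) (nat_lit 173))))))) (XT.nd (nat_lit 44928) (nat_lit 0) (nat_lit 5700) (XT.nd (nat_lit 44460) (nat_lit 0) (nat_lit 9576) (XT.nd (nat_lit 156) (nat_lit 380) (nat_lit 0) (XT.nd (nat_lit 78) (nat_lit 228) (nat_lit 0) (XT.lf (nat_lit 0) (nat_lit 51483623954) (nat_lit 304) (nat_lit 9253495980) (nat_lit 380) (nat_lit 45932904781) (nat_lit 86) (nat_lit 5) (nat_lit 90) (nat_lit 5) (nat_lit 91) (nat_lit 5) (nat_lit 381) (nat_lit 347) (nat_lit 172)) (XT.lf (nat_lit 0) (nat_lit 34310829943) (nat_lit 228) (nat_lit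 60710265686) (nat_lit 304) (nat_lit 15177533146) (nat_lit 83) (nat_lit 5) (nat_lit 86) (nat_lit 5) (nat_lit 87) (nat_lit 5) (nat_lit 382) (nat_lit 347) (nat_lit 171))) (XT.nd (nat_lit 44148) (nat_lit 0) (nat_lit 10488) (XT.lf (nat_lit 0) (nat_lit 15588480670) (nat_lit 304) (nat_lit 2008977427) (nat_lit 380) (nat_lit 96276794585) (nat_lit 78) (nat_lit 5) (nat_lit 82) (nat_lit 5) (nat_lit 83) (nat_lit 5) (nat_lit 383) (nat_lit 347) (nat_lit 170)) (XT.nd (nat_lit 78) (nat_lit 0) (nat_lit 0) (XT.lf (nat_lit 0) (nat_lit 8528184075) (nat_lit 0) (nat_lit 8528184075) (nat_lit 1140) (nat_lit 4184226376) (nat_lit 216) (nat_lit 5) (nat_lit 216) (nat_lit 3) (nat_lit 231) (nat_lit 3) (nat_lit 348) (nat_lit 348) (nat_lit 204)) (XT.lf (nat_lit 76) (nat_lit 7420732649) (nat_lit 0) (nat_lit 27826898374) (nat_lit 1216) (nat_lit 8287074006) (nat_lit 217) (nat_lit 5) (nat_lit 216) (nat_lit 5) (nat_lit 232) (nat_lit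 5) (nat_lit 349) (nat_lit 348) (nat_lit 203))))) (XT.nd (nat_lit 234) (nat_lit 988) (nat_lit 0) (XT.nd (nat_lit 78) (nat_lit 0) (nat_lit 0) (XT.lf (nat_lit 0) (nat_lit 36919639201) (nat_lit 1140) (nat_lit 2417621360) (nat_lit 1216) (nat_lit 5289228475) (nat_lit 217) (nat_lit 5) (nat_lit 232) (nat_lit 5) (nat_lit 233) (nat_lit 5) (nat_lit 350) (nat_lit 348) (nat_lit 202)) (XT.nd (nat_lit 78) (nat_lit 0) (nat_lit 76) (XT.lf (nat_lit 76) (nat_lit 33331055583) (nat_lit 0) (nat_lit 5941965966) (nat_lit 1216) (nat_lit 6481910619) (nat_lit 218) (nat_lit 5) (nat_lit 217) (nat_lit 5) (nat_lit 233) (nat_lit 5) (nat_lit 351) (nat_lit 348) (nat_lit 201)) (XT.lf (nat_lit 76) (nat_lit 24167950186) (nat_lit 0) (nat_lit 18110194458) (nat_lit 1216) (nat_lit 4645633652) (nat_lit 219) (nat_lit 5) (nat_lit 218) (nat_lit 5) (nat_lit 234) (nat_lit 5) (nat_lit 352) (nat_lit 348) (nat_lit 200)))) (XT.nd (nat_lit 78)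 (nat_lit 1140) (nat_lit 0) (XT.lf (nat_lit 76) (nat_lit 14763295822) (nat_lit 0) (nat_lit 31161262233) (nat_lit 1216) (nat_lit 2211780495) (nat_lit 220) (nat_lit 5) (nat_lit 219) (nat_lit 5) (nat_lit 235) (nat_lit 5) (nat_lit 353) (nat_lit 348) (nat_lit 199)) (XT.nd (nat_lit 78) (nat_lit 0) (nat_lit 0) (XT.lf (nat_lit 0) (nat_lit 844462130) (nat_lit 1216) (nat_lit 44295994753) (nat_lit 1292) (nat_lit 4253751284) (nat_lit 204) (nat_lit 5) (nat_lit 220) (nat_lit 5) (nat_lit 221) (nat_lit 5) (nat_lit 354) (nat_lit 348) (nat_lit 198)) (XT.lf (nat_lit 0) (nat_lit 4666720028) (nat_lit 1216) (nat_lit 4856662538) (nat_lit 1292) (nat_lit 41171165855) (nat_lit 204) (nat_lit 5) (nat_lit 220) (nat_lit 5) (nat_lit 221) (nat_lit 5) (nat_lit 355) (nat_lit 348) (nat_lit 197)))))) (XT.nd (nat_lit 468) (nat_lit 2660) (nat_lit 0) (XT.nd (nat_lit 234) (nat_lit 1292) (nat_lit 0) (XT.nd (nat_lit 78) (nat_lit 0)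 (nat_lit 76) (XT.lf (nat_lit 0) (nat_lit 9307146965) (nat_lit 1216) (nat_lit 15040720653) (nat_lit 1292) (nat_lit 27693228772) (nat_lit 205) (nat_lit 5) (nat_lit 221) (nat_lit 5) (nat_lit 222) (nat_lit 5) (nat_lit 356) (nat_lit 348) (nat_lit 196)) (XT.nd (nat_lit 78) (nat_lit 0) (nat_lit 0) (XT.lf (nat_lit 0) (nat_lit 14722452111) (nat_lit 1216) (nat_lit 25525041790) (nat_lit 1292) (nat_lit 13191194424) (nat_lit 206) (nat_lit 5) (nat_lit 222) (nat_lit 5) (nat_lit 223) (nat_lit 5) (nat_lit 357) (nat_lit 348) (nat_lit 195)) (XT.lf (nat_lit 76) (nat_lit 18540907424) (nat_lit 0) (nat_lit 2445383710) (nat_lit 1292) (nat_lit 33902537828) (nat_lit 207) (nat_lit 5) (nat_lit 206) (nat_lit 5) (nat_lit 223) (nat_lit 5) (nat_lit 358) (nat_lit 348) (nat_lit 194)))) (XT.nd (nat_lit 78) (nat_lit 608) (nat_lit 0) (XT.lf (nat_lit 0) (nat_lit 8747866737) (nat_lit 836) (nat_lit 19520479404) (nat_lit 912) (nat_lit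 28121981832) (nat_lit 196) (nat_lit 5) (nat_lit 207) (nat_lit 5) (nat_lit 208) (nat_lit 5) (nat_lit 359) (nat_lit 348) (nat_lit 193)) (XT.nd (nat_lit 78) (nat_lit 608) (nat_lit 0) (XT.lf (nat_lit 0) (nat_lit 36507997082) (nat_lit 912) (nat_lit 1321522918) (nat_lit 76) (nat_lit 20119579101) (nat_lit 196) (nat_lit 5) (nat_lit 208) (nat_lit 5) (nat_lit 197) (nat_lit 5) (nat_lit 360) (nat_lit 348) (nat_lit 192)) (XT.lf (nat_lit 0) (nat_lit 45837839384) (nat_lit 684) (nat_lit 11533538724) (nat_lit 76) (nat_lit 2194086283) (nat_lit 188) (nat_lit 5) (nat_lit 197) (nat_lit 5) (nat_lit 189) (nat_lit 5) (nat_lit 361) (nat_lit 348) (nat_lit 191))))) (XT.nd (nat_lit 234) (nat_lit 988) (nat_lit 0) (XT.nd (nat_lit 78) (nat_lit 1140) (nat_lit 0) (XT.lf (nat_lit 0) (nat_lit 38995331938) (nat_lit 532) (nat_lit 17407087469) (nat_lit 608) (nat_lit 4837182952) (nat_lit 181) (nat_lit 5) (nat_lit 188) (nat_lit 5)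 (nat_lit 189) (nat_lit 5) (nat_lit 362) (nat_lit 348) (nat_lit 190)) (XT.nd (nat_lit 78) (nat_lit 532) (nat_lit 0) (XT.lf (nat_lit 0) (nat_lit 5055089579) (nat_lit 608) (nat_lit 33391042984) (nat_lit 76) (nat_lit 24530666958) (nat_lit 173) (nat_lit 5) (nat_lit 181) (nat_lit 5) (nat_lit 174) (nat_lit 5) (nat_lit 363) (nat_lit 348) (nat_lit 189)) (XT.lf (nat_lit 0) (nat_lit 15975939895) (nat_lit 608) (nat_lit 44982622003) (nat_lit 76) (nat_lit 3821839288) (nat_lit 166) (nat_lit 5) (nat_lit 174) (nat_lit 5) (nat_lit 167) (nat_lit 5) (nat_lit 364) (nat_lit 348) (nat_lit 188)))) (XT.nd (nat_lit 78) (nat_lit 456) (nat_lit 0) (XT.lf (nat_lit 0) (nat_lit 9471254265) (nat_lit 532) (nat_lit 18795859021) (nat_lit 608) (nat_lit 38382342725) (nat_lit 159) (nat_lit 5) (nat_lit 166) (nat_lit 5) (nat_lit 167) (nat_lit 5) (nat_lit 365) (nat_lit 348) (nat_lit 187)) (XT.nd (nat_lit 78) (nat_lit 456) (nat_lit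 0) (XT.lf (nat_lit 0) (nat_lit 41883495933) (nat_lit 608) (nat_lit 1261766703) (nat_lit 76) (nat_lit 25445382846) (nat_lit 159) (nat_lit 5) (nat_lit 167) (nat_lit 5) (nat_lit 160) (nat_lit 5) (nat_lit 366) (nat_lit 348) (nat_lit 186)) (XT.lf (nat_lit 0) (nat_lit 56944102458) (nat_lit 532) (nat_lit 12222150366) (nat_lit 76) (nat_lit 1439740815) (nat_lit 153) (nat_lit 5) (nat_lit 160) (nat_lit 5) (nat_lit 154) (nat_lit 5) (nat_lit 367) (nat_lit 348) (nat_lit 185))))))))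
noncomputable def xc118 : XT := (XT.nd (nat_lit 45942) (nat_lit 0) (nat_lit 1520) (XT.nd (nat_lit 858) (nat_lit 1216) (nat_lit 0) (XT.nd (nat_lit 390) (nat_lit 1900) (nat_lit 0) (XT.nd (nat_lit 156) (nat_lit 1216) (nat_lit 0) (XT.nd (nat_lit 78) (nat_lit 456) (nat_lit 0) (XT.lf (nat_lit 0) (nat_lit 960281076) (nat_lit 532) (nat_lit 23872331728) (nat_lit 76) (nat_lit 47861726992) (nat_lit 146) (nat_lit 5) (nat_lit 153) (nat_lit 5) (nat_lit 147) (nat_lit 5) (nat_lit 368) (nat_lit 348) (nat_lit 184)) (XT.lf (nat_lit 0) (nat_lit 16748131166) (nat_lit 532) (nat_lit 36174444807) (nat_lit 76) (nat_lit 21938956948) (nat_lit 140) (nat_lit 5) (nat_lit 147) (nat_lit 5) (nat_lit 141) (nat_lit 5) (nat_lit 369) (nat_lit 348) (nat_lit 183))) (XT.nd (nat_lit 78) (nat_lit 760) (nat_lit 0) (XT.lf (nat_lit 0) (nat_lit 28035705457) (nat_lit 456) (nat_lit 6056371175) (nat_lit 532) (nat_lit 43022009121) (nat_lit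 134) (nat_lit 5) (nat_lit 140) (nat_lit 5) (nat_lit 141) (nat_lit 5) (nat_lit 370) (nat_lit 348) (nat_lit 182)) (XT.nd (nat_lit 78) (nat_lit 380) (nat_lit 0) (XT.lf (nat_lit 0) (nat_lit 16648668071) (nat_lit 380) (nat_lit 36603916892) (nat_lit 456) (nat_lit 26198201379) (nat_lit 129) (nat_lit 5) (nat_lit 134) (nat_lit 5) (nat_lit 135) (nat_lit 5) (nat_lit 371) (nat_lit 348) (nat_lit 181)) (XT.lf (nat_lit 0) (nat_lit 4705926771) (nat_lit 380) (nat_lit 69396640940) (nat_lit 456) (nat_lit 7779811809) (nat_lit 124) (nat_lit 5) (nat_lit 129) (nat_lit 5) (nat_lit 130) (nat_lit 5) (nat_lit 372) (nat_lit 348) (nat_lit 180))))) (XT.nd (nat_lit 234) (nat_lit 1064) (nat_lit 0) (XT.nd (nat_lit 78) (nat_lit 760) (nat_lit 0) (XT.lf (nat_lit 0) (nat_lit 12354809726) (nat_lit 456) (nat_lit 8003251431) (nat_lit 76) (nat_lit 64043532247) (nat_lit 123) (nat_lit 5) (nat_lit 129) (nat_lit 5) (nat_lit 124) (nat_lit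 5) (nat_lit 373) (nat_lit 348) (nat_lit 179)) (XT.nd (nat_lit 78) (nat_lit 380) (nat_lit 0) (XT.lf (nat_lit 0) (nat_lit 34274493660) (nat_lit 456) (nat_lit 21498837561) (nat_lit 76) (nat_lit 31242949941) (nat_lit 118) (nat_lit 5) (nat_lit 124) (nat_lit 5) (nat_lit 119) (nat_lit 5) (nat_lit 374) (nat_lit 348) (nat_lit 178)) (XT.lf (nat_lit 0) (nat_lit 53967211990) (nat_lit 380) (nat_lit 4129046828) (nat_lit 456) (nat_lit 31641262443) (nat_lit 113) (nat_lit 5) (nat_lit 118) (nat_lit 5) (nat_lit 119) (nat_lit 5) (nat_lit 375) (nat_lit 348) (nat_lit 177)))) (XT.nd (nat_lit 78) (nat_lit 760) (nat_lit 0) (XT.lf (nat_lit 0) (nat_lit 41389788561) (nat_lit 304) (nat_lit 42820951630) (nat_lit 380) (nat_lit 8351035158) (nat_lit 109) (nat_lit 5) (nat_lit 113) (nat_lit 5) (nat_lit 114) (nat_lit 5) (nat_lit 376) (nat_lit 348) (nat_lit 176)) (XT.nd (nat_lit 78) (nat_lit 304) (nat_lit 0) (XT.lf (nat_lit 0)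 (nat_lit 16581393909) (nat_lit 456) (nat_lit 67629435680) (nat_lit 76) (nat_lit 11288011404) (nat_lit 103) (nat_lit 5) (nat_lit 109) (nat_lit 5) (nat_lit 104) (nat_lit 5) (nat_lit 377) (nat_lit 348) (nat_lit 175)) (XT.lf (nat_lit 0) (nat_lit 13097406620) (nat_lit 304) (nat_lit 30580786081) (nat_lit 380) (nat_lit 54869373622) (nat_lit 99) (nat_lit 5) (nat_lit 103) (nat_lit 5) (nat_lit 104) (nat_lit 5) (nat_lit 378) (nat_lit 348) (nat_lit 174)))))) (XT.nd (nat_lit 44616) (nat_lit 0) (nat_lit 9196) (XT.nd (nat_lit 234) (nat_lit 532) (nat_lit 0) (XT.nd (nat_lit 78) (nat_lit 684) (nat_lit 0) (XT.lf (nat_lit 0) (nat_lit 73079054084) (nat_lit 380) (nat_lit 2709928693) (nat_lit 76) (nat_lit 25931269155) (nat_lit 99) (nat_lit 5) (nat_lit 104) (nat_lit 5) (nat_lit 100) (nat_lit 5) (nat_lit 379) (nat_lit 348) (nat_lit 173)) (XT.nd (nat_lit 78) (nat_lit 304) (nat_lit 0) (XT.lf (nat_lit 0) (nat_lit 60715709)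 (nat_lit 380) (nat_lit 19492324216) (nat_lit 76) (nat_lit 85464625238) (nat_lit 94) (nat_lit 5) (nat_lit 99) (nat_lit 5) (nat_lit 95) (nat_lit 5) (nat_lit 380) (nat_lit 348) (nat_lit 172)) (XT.lf (nat_lit 0) (nat_lit 30708444900) (nat_lit 380) (nat_lit 37998256715) (nat_lit 76) (nat_lit 39731648848) (nat_lit 90) (nat_lit 5) (nat_lit 95) (nat_lit 5) (nat_lit 91) (nat_lit 5) (nat_lit 381) (nat_lit 348) (nat_lit 171)))) (XT.nd (nat_lit 78) (nat_lit 228) (nat_lit 0) (XT.lf (nat_lit 0) (nat_lit 54107324393) (nat_lit 304) (nat_lit 9700267883) (nat_lit 380) (nat_lit 48194907378) (nat_lit 86) (nat_lit 5) (nat_lit 90) (nat_lit 5) (nat_lit 91) (nat_lit 5) (nat_lit 382) (nat_lit 348) (nat_lit 170)) (XT.nd (nat_lit 44226) (nat_lit 0) (nat_lit 10108) (XT.lf (nat_lit 0) (nat_lit 36075319614) (nat_lit 228) (nat_lit 63729462471) (nat_lit 304) (nat_lit 15902782218) (nat_lit 83) (nat_lit 5) (nat_lit 86) (nat_lit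 5) (nat_lit 87) (nat_lit 5) (nat_lit 383) (nat_lit 348) (nat_lit 169)) (XT.lf (nat_lit 0) (nat_lit 8982867304) (nat_lit 0) (nat_lit 8982867304) (nat_lit 1140) (nat_lit 4335142544) (nat_lit 216) (nat_lit 5) (nat_lit 216) (nat_lit 3) (nat_lit 231) (nat_lit 3) (nat_lit 349) (nat_lit 349) (nat_lit 202))))) (XT.nd (nat_lit 234) (nat_lit 912) (nat_lit 0) (XT.nd (nat_lit 78) (nat_lit 0) (nat_lit 76) (XT.lf (nat_lit 76) (nat_lit 7850618426) (nat_lit 0) (nat_lit 29267152727) (nat_lit 1216) (nat_lit 8590339879) (nat_lit 217) (nat_lit 5) (nat_lit 216) (nat_lit 5) (nat_lit 232) (nat_lit 5) (nat_lit 350) (nat_lit 349) (nat_lit 201)) (XT.nd (nat_lit 78) (nat_lit 0) (nat_lit 0) (XT.lf (nat_lit 0) (nat_lit 38867800620) (nat_lit 1140) (nat_lit 2478837151) (nat_lit 1216) (nat_lit 5508018437) (nat_lit 217) (nat_lit 5) (nat_lit 232) (nat_lit 5) (nat_lit 233) (nat_lit 5) (nat_lit 351) (nat_lit 349) (nat_lit 200))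 (XT.lf (nat_lit 76) (nat_lit 35055563346) (nat_lit 0) (nat_lit 6278980150) (nat_lit 1216) (nat_lit 6705111635) (nat_lit 218) (nat_lit 5) (nat_lit 217) (nat_lit 5) (nat_lit 233) (nat_lit 5) (nat_lit 352) (nat_lit 349) (nat_lit 199)))) (XT.nd (nat_lit 78) (nat_lit 1064) (nat_lit 0) (XT.lf (nat_lit 76) (nat_lit 25435951082) (nat_lit 0) (nat_lit 19049518665) (nat_lit 1216) (nat_lit 4781611575) (nat_lit 219) (nat_lit 5) (nat_lit 218) (nat_lit 5) (nat_lit 234) (nat_lit 5) (nat_lit 353) (nat_lit 349) (nat_lit 198)) (XT.nd (nat_lit 78) (nat_lit 1140) (nat_lit 0) (XT.lf (nat_lit 76) (nat_lit 15562474374) (nat_lit 0) (nat_lit 32747557919) (nat_lit 1216) (nat_lit 2230366412) (nat_lit 220) (nat_lit 5) (nat_lit 219) (nat_lit 5) (nat_lit 235) (nat_lit 5) (nat_lit 354) (nat_lit 349) (nat_lit 197)) (XT.lf (nat_lit 0) (nat_lit 972940283) (nat_lit 1216) (nat_lit 46446798270) (nat_lit 1292) (nat_lit 4441518969)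 (nat_lit 204) (nat_lit 5) (nat_lit 220) (nat_lit 5) (nat_lit 221) (nat_lit 5) (nat_lit 355) (nat_lit 349) (nat_lit 196))))))) (XT.nd (nat_lit 858) (nat_lit 4256) (nat_lit 0) (XT.nd (nat_lit 390) (nat_lit 2812) (nat_lit 0) (XT.nd (nat_lit 156) (nat_lit 608) (nat_lit 0) (XT.nd (nat_lit 78) (nat_lit 0) (nat_lit 76) (XT.lf (nat_lit 0) (nat_lit 4982203693) (nat_lit 1216) (nat_lit 5038546884) (nat_lit 1292) (nat_lit 43205990930) (nat_lit 204) (nat_lit 5) (nat_lit 220) (nat_lit 5) (nat_lit 221) (nat_lit 5) (nat_lit 356) (nat_lit 349) (nat_lit 195)) (XT.lf (nat_lit 0) (nat_lit 9851120828) (nat_lit 1216) (nat_lit 15730935825) (nat_lit 1292) (nat_lit 29058669484) (nat_lit 205) (nat_lit 5) (nat_lit 221) (nat_lit 5) (nat_lit 222) (nat_lit 5) (nat_lit 357) (nat_lit 349) (nat_lit 194))) (XT.nd (nat_lit 78) (nat_lit 760) (nat_lit 0) (XT.lf (nat_lit 0) (nat_lit 15533876766) (nat_lit 1216) (nat_lit 26738770144)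 (nat_lit 1292) (nat_lit 13835653362) (nat_lit 206) (nat_lit 5) (nat_lit 222) (nat_lit 5) (nat_lit 223) (nat_lit 5) (nat_lit 358) (nat_lit 349) (nat_lit 193)) (XT.nd (nat_lit 78) (nat_lit 760) (nat_lit 0) (XT.lf (nat_lit 76) (nat_lit 19528684300) (nat_lit 0) (nat_lit 2579221418) (nat_lit 1292) (nat_lit 35523135305) (nat_lit 207) (nat_lit 5) (nat_lit 206) (nat_lit 5) (nat_lit 223) (nat_lit 5) (nat_lit 359) (nat_lit 349) (nat_lit 192)) (XT.lf (nat_lit 0) (nat_lit 9246524221) (nat_lit 836) (nat_lit 20504579395) (nat_lit 912) (nat_lit 29456603039) (nat_lit 196) (nat_lit 5) (nat_lit 207) (nat_lit 5) (nat_lit 208) (nat_lit 5) (nat_lit 360) (nat_lit 349) (nat_lit 191))))) (XT.nd (nat_lit 234) (nat_lit 1672) (nat_lit 0) (XT.nd (nat_lit 78) (nat_lit 1140) (nat_lit 0) (XT.lf (nat_lit 0) (nat_lit 38399361256) (nat_lit 912) (nat_lit 1327142402) (nat_lit 76) (nat_lit 21118016696) (nat_lit 196) (nat_lit 5)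 (nat_lit 208) (nat_lit 5) (nat_lit 197) (nat_lit 5) (nat_lit 361) (nat_lit 349) (nat_lit 190)) (XT.nd (nat_lit 78) (nat_lit 532) (nat_lit 0) (XT.lf (nat_lit 0) (nat_lit 48193074171) (nat_lit 684) (nat_lit 12049493349) (nat_lit 76) (nat_lit 2299217642) (nat_lit 188) (nat_lit 5) (nat_lit 197) (nat_lit 5) (nat_lit 189) (nat_lit 5) (nat_lit 362) (nat_lit 349) (nat_lit 189)) (XT.lf (nat_lit 0) (nat_lit 41004080254) (nat_lit 532) (nat_lit 18279353585) (nat_lit 608) (nat_lit 5016272154) (nat_lit 181) (nat_lit 5) (nat_lit 188) (nat_lit 5) (nat_lit 189) (nat_lit 5) (nat_lit 363) (nat_lit 349) (nat_lit 188)))) (XT.nd (nat_lit 78) (nat_lit 1064) (nat_lit 0) (XT.lf (nat_lit 0) (nat_lit 5367014780) (nat_lit 608) (nat_lit 35000240017) (nat_lit 76) (nat_lit 25756563641) (nat_lit 173) (nat_lit 5) (nat_lit 181) (nat_lit 5) (nat_lit 174) (nat_lit 5) (nat_lit 364) (nat_lit 349) (nat_lit 187)) (XT.nd (nat_lit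 78) (nat_lit 532) (nat_lit 0) (XT.lf (nat_lit 0) (nat_lit 16831669921) (nat_lit 608) (nat_lit 47171393229) (nat_lit 76) (nat_lit 4014606355) (nat_lit 166) (nat_lit 5) (nat_lit 174) (nat_lit 5) (nat_lit 167) (nat_lit 5) (nat_lit 365) (nat_lit 349) (nat_lit 186)) (XT.lf (nat_lit 0) (nat_lit 10003446648) (nat_lit 532) (nat_lit 19731807820) (nat_lit 608) (nat_lit 40244989112) (nat_lit 159) (nat_lit 5) (nat_lit 166) (nat_lit 5) (nat_lit 167) (nat_lit 5) (nat_lit 366) (nat_lit 349) (nat_lit 185)))))) (XT.nd (nat_lit 468) (nat_lit 1976) (nat_lit 0) (XT.nd (nat_lit 234) (nat_lit 1292) (nat_lit 0) (XT.nd (nat_lit 78) (nat_lit 988) (nat_lit 0) (XT.lf (nat_lit 0) (nat_lit 44029882606) (nat_lit 608) (nat_lit 1267447468) (nat_lit 76) (nat_lit 26721241644) (nat_lit 159) (nat_lit 5) (nat_lit 167) (nat_lit 5) (nat_lit 160) (nat_lit 5) (nat_lit 367) (nat_lit 349) (nat_lit 184)) (XT.nd (nat_lit 78) (nat_lit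 532) (nat_lit 0) (XT.lf (nat_lit 0) (nat_lit 59841622069) (nat_lit 532) (nat_lit 12776003123) (nat_lit 76) (nat_lit 1517120903) (nat_lit 153) (nat_lit 5) (nat_lit 160) (nat_lit 5) (nat_lit 154) (nat_lit 5) (nat_lit 368) (nat_lit 349) (nat_lit 183)) (XT.lf (nat_lit 0) (nat_lit 1057263306) (nat_lit 532) (nat_lit 25009325241) (nat_lit 76) (nat_lit 50260964248) (nat_lit 146) (nat_lit 5) (nat_lit 153) (nat_lit 5) (nat_lit 147) (nat_lit 5) (nat_lit 369) (nat_lit 349) (nat_lit 182)))) (XT.nd (nat_lit 78) (nat_lit 836) (nat_lit 0) (XT.lf (nat_lit 0) (nat_lit 17632778091) (nat_lit 532) (nat_lit 37926794145) (nat_lit 76) (nat_lit 23043586840) (nat_lit 140) (nat_lit 5) (nat_lit 147) (nat_lit 5) (nat_lit 141) (nat_lit 5) (nat_lit 370) (nat_lit 349) (nat_lit 181)) (XT.nd (nat_lit 78) (nat_lit 380) (nat_lit 0) (XT.lf (nat_lit 0) (nat_lit 29492247714) (nat_lit 456) (nat_lit 6349949932) (nat_lit 532) (nat_lit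 45126195184) (nat_lit 134) (nat_lit 5) (nat_lit 140) (nat_lit 5) (nat_lit 141) (nat_lit 5) (nat_lit 371) (nat_lit 349) (nat_lit 180)) (XT.lf (nat_lit 0) (nat_lit 17535559749) (nat_lit 380) (nat_lit 38423612235) (nat_lit 456) (nat_lit 27462804755) (nat_lit 129) (nat_lit 5) (nat_lit 134) (nat_lit 5) (nat_lit 135) (nat_lit 5) (nat_lit 372) (nat_lit 349) (nat_lit 179))))) (XT.nd (nat_lit 234) (nat_lit 1140) (nat_lit 0) (XT.nd (nat_lit 78) (nat_lit 456) (nat_lit 0) (XT.lf (nat_lit 0) (nat_lit 4995332557) (nat_lit 380) (nat_lit 72854844349) (nat_lit 456) (nat_lit 8125018417) (nat_lit 124) (nat_lit 5) (nat_lit 129) (nat_lit 5) (nat_lit 130) (nat_lit 5) (nat_lit 373) (nat_lit 349) (nat_lit 178)) (XT.nd (nat_lit 78) (nat_lit 380) (nat_lit 0) (XT.lf (nat_lit 0) (nat_lit 13013435545) (nat_lit 456) (nat_lit 8351040915) (nat_lit 76) (nat_lit 67255943471) (nat_lit 123) (nat_lit 5) (nat_lit 129) (nat_lit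 5) (nat_lit 124) (nat_lit 5) (nat_lit 374) (nat_lit 349) (nat_lit 177)) (XT.lf (nat_lit 0) (nat_lit 36027755777) (nat_lit 456) (nat_lit 22521809487) (nat_lit 76) (nat_lit 32816318517) (nat_lit 118) (nat_lit 5) (nat_lit 124) (nat_lit 5) (nat_lit 119) (nat_lit 5) (nat_lit 375) (nat_lit 349) (nat_lit 176)))) (XT.nd (nat_lit 78) (nat_lit 760) (nat_lit 0) (XT.lf (nat_lit 0) (nat_lit 56716052834) (nat_lit 380) (nat_lit 4323158871) (nat_lit 456) (nat_lit 33184017309) (nat_lit 113) (nat_lit 5) (nat_lit 118) (nat_lit 5) (nat_lit 119) (nat_lit 5) (nat_lit 376) (nat_lit 349) (nat_lit 175)) (XT.nd (nat_lit 78) (nat_lit 456) (nat_lit 0) (XT.lf (nat_lit 0) (nat_lit 43509330825) (nat_lit 304) (nat_lit 44948864246) (nat_lit 380) (nat_lit 8730538546) (nat_lit 109) (nat_lit 5) (nat_lit 113) (nat_lit 5) (nat_lit 114) (nat_lit 5) (nat_lit 377) (nat_lit 349) (nat_lit 174)) (XT.lf (nat_lit 0) (nat_lit 17446595924)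 (nat_lit 456) (nat_lit 70960573595) (nat_lit 76) (nat_lit 11865508321) (nat_lit 103) (nat_lit 5) (nat_lit 109) (nat_lit 5) (nat_lit 104) (nat_lit 5) (nat_lit 378) (nat_lit 349) (nat_lit 173))))))))
noncomputable def xc119 : XT := (XT.nd (nat_lit 46020) (nat_lit 0) (nat_lit 608) (XT.nd (nat_lit 45084) (nat_lit 0) (nat_lit 5548) (XT.nd (nat_lit 44616) (nat_lit 0) (nat_lit 9880) (XT.nd (nat_lit 156) (nat_lit 988) (nat_lit 0) (XT.nd (nat_lit 78) (nat_lit 0) (nat_lit 0) (XT.lf (nat_lit 0) (nat_lit 13801168010) (nat_lit 304) (nat_lit 32095816030) (nat_lit 380) (nat_lit 57576893927) (nat_lit 99) (nat_lit 5) (nat_lit 103) (nat_lit 5) (nat_lit 104) (nat_lit 5) (nat_lit 379) (nat_lit 349) (nat_lit 172)) (XT.lf (nat_lit 0) (nat_lit 76766355713) (nat_lit 380) (nat_lit 2797974589) (nat_lit 76) (nat_lit 27240914501) (nat_lit 99) (nat_lit 5) (nat_lit 104) (nat_lit 5) (nat_lit 100) (nat_lit 5) (nat_lit 380)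 (nat_lit 349) (nat_lit 171))) (XT.nd (nat_lit 78) (nat_lit 608) (nat_lit 0) (XT.lf (nat_lit 0) (nat_lit 96292258) (nat_lit 380) (nat_lit 20420184617) (nat_lit 76) (nat_lit 89751077517) (nat_lit 94) (nat_lit 5) (nat_lit 99) (nat_lit 5) (nat_lit 95) (nat_lit 5) (nat_lit 381) (nat_lit 349) (nat_lit 170)) (XT.nd (nat_lit 78) (nat_lit 304) (nat_lit 0) (XT.lf (nat_lit 0) (nat_lit 32275429369) (nat_lit 380) (nat_lit 39851928653) (nat_lit 76) (nat_lit 41731946137) (nat_lit 90) (nat_lit 5) (nat_lit 95) (nat_lit 5) (nat_lit 91) (nat_lit 5) (nat_lit 382) (nat_lit 349) (nat_lit 169)) (XT.lf (nat_lit 0) (nat_lit 56857606024) (nat_lit 304) (nat_lit 10170856882) (nat_lit 380) (nat_lit 50573230849) (nat_lit 86) (nat_lit 5) (nat_lit 90) (nat_lit 5) (nat_lit 91) (nat_lit 5) (nat_lit 383) (nat_lit 349) (nat_lit 168))))) (XT.nd (nat_lit 234) (nat_lit 0) (nat_lit 76) (XT.nd (nat_lit 78) (nat_lit 0) (nat_lit 0)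 (XT.lf (nat_lit 0) (nat_lit 9457656045) (nat_lit 0) (nat_lit 9457656045) (nat_lit 1140) (nat_lit 4499024251) (nat_lit 216) (nat_lit 5) (nat_lit 216) (nat_lit 3) (nat_lit 231) (nat_lit 3) (nat_lit 350) (nat_lit 350) (nat_lit 200)) (XT.nd (nat_lit 78) (nat_lit 0) (nat_lit 76) (XT.lf (nat_lit 76) (nat_lit 8296527256) (nat_lit 0) (nat_lit 30774872662) (nat_lit 1216) (nat_lit 8919096939) (nat_lit 217) (nat_lit 5) (nat_lit 216) (nat_lit 5) (nat_lit 232) (nat_lit 5) (nat_lit 351) (nat_lit 350) (nat_lit 199)) (XT.lf (nat_lit 0) (nat_lit 40903870432) (nat_lit 1140) (nat_lit 2548660845) (nat_lit 1216) (nat_lit 5741993996) (nat_lit 217) (nat_lit 5) (nat_lit 232) (nat_lit 5) (nat_lit 233) (nat_lit 5) (nat_lit 352) (nat_lit 350) (nat_lit 198)))) (XT.nd (nat_lit 78) (nat_lit 0) (nat_lit 76) (XT.lf (nat_lit 76) (nat_lit 36860908391) (nat_lit 0) (nat_lit 6629134042) (nat_lit 1216) (nat_lit 6948852917) (nat_lit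 218) (nat_lit 5) (nat_lit 217) (nat_lit 5) (nat_lit 233) (nat_lit 5) (nat_lit 353) (nat_lit 350) (nat_lit 197)) (XT.nd (nat_lit 78) (nat_lit 0) (nat_lit 76) (XT.lf (nat_lit 76) (nat_lit 26761810665) (nat_lit 0) (nat_lit 20032665332) (nat_lit 1216) (nat_lit 4933341805) (nat_lit 219) (nat_lit 5) (nat_lit 218) (nat_lit 5) (nat_lit 234) (nat_lit 5) (nat_lit 354) (nat_lit 350) (nat_lit 196)) (XT.lf (nat_lit 76) (nat_lit 16395939372) (nat_lit 0) (nat_lit 34410543592) (nat_lit 1216) (nat_lit 2258435201) (nat_lit 220) (nat_lit 5) (nat_lit 219) (nat_lit 5) (nat_lit 235) (nat_lit 5) (nat_lit 355) (nat_lit 350) (nat_lit 195)))))) (XT.nd (nat_lit 468) (nat_lit 2812) (nat_lit 0) (XT.nd (nat_lit 234) (nat_lit 608) (nat_lit 0) (XT.nd (nat_lit 78) (nat_lit 0) (nat_lit 0) (XT.lf (nat_lit 0) (nat_lit 1099823168) (nat_lit 1216) (nat_lit 48711091726) (nat_lit 1292) (nat_lit 4640991852) (nat_lit 204) (nat_lit 5)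 (nat_lit 220) (nat_lit 5) (nat_lit 221) (nat_lit 5) (nat_lit 356) (nat_lit 350) (nat_lit 194)) (XT.nd (nat_lit 78) (nat_lit 0) (nat_lit 76) (XT.lf (nat_lit 0) (nat_lit 5305824230) (nat_lit 1216) (nat_lit 5235191887) (nat_lit 1292) (nat_lit 45344763748) (nat_lit 204) (nat_lit 5) (nat_lit 220) (nat_lit 5) (nat_lit 221) (nat_lit 5) (nat_lit 357) (nat_lit 350) (nat_lit 193)) (XT.lf (nat_lit 0) (nat_lit 10414984366) (nat_lit 1216) (nat_lit 16461409273) (nat_lit 1292) (nat_lit 30494169193) (nat_lit 205) (nat_lit 5) (nat_lit 221) (nat_lit 5) (nat_lit 222) (nat_lit 5) (nat_lit 358) (nat_lit 350) (nat_lit 192)))) (XT.nd (nat_lit 78) (nat_lit 760) (nat_lit 0) (XT.lf (nat_lit 0) (nat_lit 16378871784) (nat_lit 1216) (nat_lit 28018997781) (nat_lit 1292) (nat_lit 14513739175) (nat_lit 206) (nat_lit 5) (nat_lit 222) (nat_lit 5) (nat_lit 223) (nat_lit 5) (nat_lit 359) (nat_lit 350) (nat_lit 191)) (XT.nd (nat_lit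 78) (nat_lit 760) (nat_lit 0) (XT.lf (nat_lit 76) (nat_lit 20560203779) (nat_lit 0) (nat_lit 2718675479) (nat_lit 1292) (nat_lit 37231691695) (nat_lit 207) (nat_lit 5) (nat_lit 206) (nat_lit 5) (nat_lit 223) (nat_lit 5) (nat_lit 360) (nat_lit 350) (nat_lit 190)) (XT.lf (nat_lit 0) (nat_lit 9764418819) (nat_lit 836) (nat_lit 21537133554) (nat_lit 912) (nat_lit 30864600642) (nat_lit 196) (nat_lit 5) (nat_lit 207) (nat_lit 5) (nat_lit 208) (nat_lit 5) (nat_lit 361) (nat_lit 350) (nat_lit 189))))) (XT.nd (nat_lit 234) (nat_lit 1672) (nat_lit 0) (XT.nd (nat_lit 78) (nat_lit 1140) (nat_lit 0) (XT.lf (nat_lit 0) (nat_lit 40379160902) (nat_lit 912) (nat_lit 1338663547) (nat_lit 76) (nat_lit 22167077294) (nat_lit 196) (nat_lit 5) (nat_lit 208) (nat_lit 5) (nat_lit 197) (nat_lit 5) (nat_lit 362) (nat_lit 350) (nat_lit 188)) (XT.nd (nat_lit 78) (nat_lit 532) (nat_lit 0) (XT.lf (nat_lit 0) (nat_lit 50660181682)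 (nat_lit 684) (nat_lit 12596891090) (nat_lit 76) (nat_lit 2410030720) (nat_lit 188) (nat_lit 5) (nat_lit 197) (nat_lit 5) (nat_lit 189) (nat_lit 5) (nat_lit 363) (nat_lit 350) (nat_lit 187)) (XT.lf (nat_lit 0) (nat_lit 43107782425) (nat_lit 532) (nat_lit 19195055271) (nat_lit 608) (nat_lit 5210151570) (nat_lit 181) (nat_lit 5) (nat_lit 188) (nat_lit 5) (nat_lit 189) (nat_lit 5) (nat_lit 364) (nat_lit 350) (nat_lit 186)))) (XT.nd (nat_lit 78) (nat_lit 1064) (nat_lit 0) (XT.lf (nat_lit 0) (nat_lit 5689035107) (nat_lit 608) (nat_lit 36695508149) (nat_lit 76) (nat_lit 27043814350) (nat_lit 173) (nat_lit 5) (nat_lit 181) (nat_lit 5) (nat_lit 174) (nat_lit 5) (nat_lit 365) (nat_lit 350) (nat_lit 185)) (XT.nd (nat_lit 78) (nat_lit 532) (nat_lit 0) (XT.lf (nat_lit 0) (nat_lit 17724893354) (nat_lit 608) (nat_lit 49475214706) (nat_lit 76) (nat_lit 4216856040) (nat_lit 166) (nat_lit 5) (nat_lit 174) (nat_lit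 5) (nat_lit 167) (nat_lit 5) (nat_lit 366) (nat_lit 350) (nat_lit 184)) (XT.lf (nat_lit 0) (nat_lit 10556797820) (nat_lit 532) (nat_lit 20714911452) (nat_lit 608) (nat_lit 42206017933) (nat_lit 159) (nat_lit 5) (nat_lit 166) (nat_lit 5) (nat_lit 167) (nat_lit 5) (nat_lit 367) (nat_lit 350) (nat_lit 183))))))) (XT.nd (nat_lit 858) (nat_lit 1140) (nat_lit 0) (XT.nd (nat_lit 390) (nat_lit 1900) (nat_lit 0) (XT.nd (nat_lit 156) (nat_lit 1444) (nat_lit 0) (XT.nd (nat_lit 78) (nat_lit 456) (nat_lit 0) (XT.lf (nat_lit 0) (nat_lit 46278734448) (nat_lit 608) (nat_lit 1278749482) (nat_lit 76) (nat_lit 28060559650) (nat_lit 159) (nat_lit 5) (nat_lit 167) (nat_lit 5) (nat_lit 160) (nat_lit 5) (nat_lit 368) (nat_lit 350) (nat_lit 182)) (XT.lf (nat_lit 0) (nat_lit 62879339897) (nat_lit 532) (nat_lit 13362871522) (nat_lit 76) (nat_lit 1597868600) (nat_lit 153) (nat_lit 5) (nat_lit 160) (nat_lit 5) (nat_lit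 154) (nat_lit 5) (nat_lit 369) (nat_lit 350) (nat_lit 181))) (XT.nd (nat_lit 78) (nat_lit 912) (nat_lit 0) (XT.lf (nat_lit 0) (nat_lit 1154542051) (nat_lit 532) (nat_lit 26208432707) (nat_lit 76) (nat_lit 52779591515) (nat_lit 146) (nat_lit 5) (nat_lit 153) (nat_lit 5) (nat_lit 147) (nat_lit 5) (nat_lit 370) (nat_lit 350) (nat_lit 180)) (XT.nd (nat_lit 78) (nat_lit 456) (nat_lit 0) (XT.lf (nat_lit 0) (nat_lit 18557265400) (nat_lit 532) (nat_lit 39772001969) (nat_lit 76) (nat_lit 24202734022) (nat_lit 140) (nat_lit 5) (nat_lit 147) (nat_lit 5) (nat_lit 141) (nat_lit 5) (nat_lit 371) (nat_lit 350) (nat_lit 179)) (XT.lf (nat_lit 0) (nat_lit 31016526299) (nat_lit 456) (nat_lit 6659066656) (nat_lit 532) (nat_lit 47339952205) (nat_lit 134) (nat_lit 5) (nat_lit 140) (nat_lit 5) (nat_lit 141) (nat_lit 5) (nat_lit 372) (nat_lit 350) (nat_lit 178))))) (XT.nd (nat_lit 234) (nat_lit 1064) (nat_lit 0) (XT.nd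 (nat_lit 78) (nat_lit 456) (nat_lit 0) (XT.lf (nat_lit 0) (nat_lit 18461732996) (nat_lit 380) (nat_lit 40335268583) (nat_lit 456) (nat_lit 28794850487) (nat_lit 129) (nat_lit 5) (nat_lit 134) (nat_lit 5) (nat_lit 135) (nat_lit 5) (nat_lit 373) (nat_lit 350) (nat_lit 177)) (XT.nd (nat_lit 78) (nat_lit 76) (nat_lit 0) (XT.lf (nat_lit 0) (nat_lit 5294178049) (nat_lit 380) (nat_lit 76487039049) (nat_lit 456) (nat_lit 8491555974) (nat_lit 124) (nat_lit 5) (nat_lit 129) (nat_lit 5) (nat_lit 130) (nat_lit 5) (nat_lit 374) (nat_lit 350) (nat_lit 176)) (XT.lf (nat_lit 0) (nat_lit 13701191525) (nat_lit 456) (nat_lit 8721089026) (nat_lit 76) (nat_lit 70628023740) (nat_lit 123) (nat_lit 5) (nat_lit 129) (nat_lit 5) (nat_lit 124) (nat_lit 5) (nat_lit 375) (nat_lit 350) (nat_lit 175)))) (XT.nd (nat_lit 78) (nat_lit 684) (nat_lit 0) (XT.lf (nat_lit 0) (nat_lit 37865005184) (nat_lit 456) (nat_lit 23600761682)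 (nat_lit 76) (nat_lit 34467312292) (nat_lit 118) (nat_lit 5) (nat_lit 124) (nat_lit 5) (nat_lit 119) (nat_lit 5) (nat_lit 376) (nat_lit 350) (nat_lit 174)) (XT.nd (nat_lit 78) (nat_lit 304) (nat_lit 0) (XT.lf (nat_lit 0) (nat_lit 59597642545) (nat_lit 380) (nat_lit 4528123800) (nat_lit 456) (nat_lit 34807564429) (nat_lit 113) (nat_lit 5) (nat_lit 118) (nat_lit 5) (nat_lit 119) (nat_lit 5) (nat_lit 377) (nat_lit 350) (nat_lit 173)) (XT.lf (nat_lit 0) (nat_lit 45730196764) (nat_lit 304) (nat_lit 47184393657) (nat_lit 380) (nat_lit 9132554481) (nat_lit 109) (nat_lit 5) (nat_lit 113) (nat_lit 5) (nat_lit 114) (nat_lit 5) (nat_lit 378) (nat_lit 350) (nat_lit 172)))))) (XT.nd (nat_lit 44850) (nat_lit 0) (nat_lit 8360) (XT.nd (nat_lit 234) (nat_lit 380) (nat_lit 0) (XT.nd (nat_lit 78) (nat_lit 304) (nat_lit 0) (XT.lf (nat_lit 0) (nat_lit 18351698799) (nat_lit 456) (nat_lit 74462947971) (nat_lit 76)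 (nat_lit 12470662511) (nat_lit 103) (nat_lit 5) (nat_lit 109) (nat_lit 5) (nat_lit 104) (nat_lit 5) (nat_lit 379) (nat_lit 350) (nat_lit 171)) (XT.nd (nat_lit 78) (nat_lit 0) (nat_lit 0) (XT.lf (nat_lit 0) (nat_lit 14535572043) (nat_lit 304) (nat_lit 33687899933) (nat_lit 380) (nat_lit 60423132386) (nat_lit 99) (nat_lit 5) (nat_lit 103) (nat_lit 5) (nat_lit 104) (nat_lit 5) (nat_lit 380) (nat_lit 350) (nat_lit 170)) (XT.lf (nat_lit 0) (nat_lit 80634921956) (nat_lit 380) (nat_lit 2894834281) (nat_lit 76) (nat_lit 28614825884) (nat_lit 99) (nat_lit 5) (nat_lit 104) (nat_lit 5) (nat_lit 100) (nat_lit 5) (nat_lit 381) (nat_lit 350) (nat_lit 169)))) (XT.nd (nat_lit 44460) (nat_lit 0) (nat_lit 9272) (XT.lf (nat_lit 0) (nat_lit 130622302) (nat_lit 380) (nat_lit 21398784949) (nat_lit 76) (nat_lit 94250623245) (nat_lit 94) (nat_lit 5) (nat_lit 99) (nat_lit 5) (nat_lit 95) (nat_lit 5) (nat_lit 382) (nat_lit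 350) (nat_lit 168)) (XT.nd (nat_lit 78) (nat_lit 0) (nat_lit 0) (XT.lf (nat_lit 0) (nat_lit 9953799958) (nat_lit 0) (nat_lit 9953799958) (nat_lit 1140) (nat_lit 4676015898) (nat_lit 216) (nat_lit 5) (nat_lit 216) (nat_lit 3) (nat_lit 231) (nat_lit 3) (nat_lit 351) (nat_lit 351) (nat_lit 198)) (XT.lf (nat_lit 76) (nat_lit 8759768955) (nat_lit 0) (nat_lit 32353854208) (nat_lit 1216) (nat_lit 9273659556) (nat_lit 217) (nat_lit 5) (nat_lit 216) (nat_lit 5) (nat_lit 232) (nat_lit 5) (nat_lit 352) (nat_lit 351) (nat_lit 197))))) (XT.nd (nat_lit 234) (nat_lit 988) (nat_lit 0) (XT.nd (nat_lit 78) (nat_lit 0) (nat_lit 0) (XT.lf (nat_lit 0) (nat_lit 43033127246) (nat_lit 1140) (nat_lit 2627007116) (nat_lit 1216) (nat_lit 5991519671) (nat_lit 217) (nat_lit 5) (nat_lit 232) (nat_lit 5) (nat_lit 233) (nat_lit 5) (nat_lit 353) (nat_lit 351) (nat_lit 196)) (XT.nd (nat_lit 78) (nat_lit 0) (nat_lit 76) (XT.lf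 (nat_lit 76) (nat_lit 38751633519) (nat_lit 0) (nat_lit 6993429642) (nat_lit 1216) (nat_lit 7213289396) (nat_lit 218) (nat_lit 5) (nat_lit 217) (nat_lit 5) (nat_lit 233) (nat_lit 5) (nat_lit 354) (nat_lit 351) (nat_lit 195)) (XT.lf (nat_lit 76) (nat_lit 28148937052) (nat_lit 0) (nat_lit 21062117858) (nat_lit 1216) (nat_lit 5100779554) (nat_lit 219) (nat_lit 5) (nat_lit 218) (nat_lit 5) (nat_lit 234) (nat_lit 5) (nat_lit 355) (nat_lit 351) (nat_lit 194)))) (XT.nd (nat_lit 78) (nat_lit 1140) (nat_lit 0) (XT.lf (nat_lit 76) (nat_lit 17265932513) (nat_lit 0) (nat_lit 36154297780) (nat_lit 1216) (nat_lit 2295665776) (nat_lit 220) (nat_lit 5) (nat_lit 219) (nat_lit 5) (nat_lit 235) (nat_lit 5) (nat_lit 356) (nat_lit 351) (nat_lit 193)) (XT.nd (nat_lit 78) (nat_lit 0) (nat_lit 0) (XT.lf (nat_lit 0) (nat_lit 1225776566) (nat_lit 1216) (nat_lit 51093996463) (nat_lit 1292) (nat_lit 4852539799) (nat_lit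 204) (nat_lit 5) (nat_lit 220) (nat_lit 5) (nat_lit 221) (nat_lit 5) (nat_lit 357) (nat_lit 351) (nat_lit 192)) (XT.lf (nat_lit 0) (nat_lit 5638698528) (nat_lit 1216) (nat_lit 5446808768) (nat_lit 1292) (nat_lit 47592476557) (nat_lit 204) (nat_lit 5) (nat_lit 220) (nat_lit 5) (nat_lit 221) (nat_lit 5) (nat_lit 358) (nat_lit 351) (nat_lit 191))))))))
noncomputable def xc120 : XT := (XT.nd (nat_lit 1716) (nat_lit 304) (nat_lit 0) (XT.nd (nat_lit 858) (nat_lit 4256) (nat_lit 0) (XT.nd (nat_lit 390) (nat_lit 2812) (nat_lit 0) (XT.nd (nat_lit 156) (nat_lit 684) (nat_lit 0) (XT.nd (nat_lit 78) (nat_lit 0) (nat_lit 76) (XT.lf (nat_lit 0) (nat_lit 11000411585) (nat_lit 1216) (nat_lit 17233619562) (nat_lit 1292) (nat_lit 32003064714) (nat_lit 205) (nat_lit 5) (nat_lit 221) (nat_lit 5) (nat_lit 222) (nat_lit 5) (nat_lit 359) (nat_lit 351) (nat_lit 190)) (XT.lf (nat_lit 0) (nat_lit 17259766556) (nat_lit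 1216) (nat_lit 29368509239) (nat_lit 1292) (nat_lit 15227002682) (nat_lit 206) (nat_lit 5) (nat_lit 222) (nat_lit 5) (nat_lit 223) (nat_lit 5) (nat_lit 360) (nat_lit 351) (nat_lit 189))) (XT.nd (nat_lit 78) (nat_lit 760) (nat_lit 0) (XT.lf (nat_lit 76) (nat_lit 21638177927) (nat_lit 0) (nat_lit 2864126705) (nat_lit 1292) (nat_lit 39031960746) (nat_lit 207) (nat_lit 5) (nat_lit 206) (nat_lit 5) (nat_lit 223) (nat_lit 5) (nat_lit 361) (nat_lit 351) (nat_lit 188)) (XT.nd (nat_lit 78) (nat_lit 0) (nat_lit 0) (XT.lf (nat_lit 0) (nat_lit 10303041926) (nat_lit 836) (nat_lit 22620634394) (nat_lit 912) (nat_lit 32349025642) (nat_lit 196) (nat_lit 5) (nat_lit 207) (nat_lit 5) (nat_lit 208) (nat_lit 5) (nat_lit 362) (nat_lit 351) (nat_lit 187)) (XT.lf (nat_lit 0) (nat_lit 42452387957) (nat_lit 912) (nat_lit 1355858878) (nat_lit 76) (nat_lit 23269226863) (nat_lit 196) (nat_lit 5) (nat_lit 208) (nat_lit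 5) (nat_lit 197) (nat_lit 5) (nat_lit 363) (nat_lit 351) (nat_lit 186))))) (XT.nd (nat_lit 234) (nat_lit 1064) (nat_lit 0) (XT.nd (nat_lit 78) (nat_lit 1140) (nat_lit 0) (XT.lf (nat_lit 0) (nat_lit 53245303058) (nat_lit 684) (nat_lit 13176779248) (nat_lit 76) (nat_lit 2526770074) (nat_lit 188) (nat_lit 5) (nat_lit 197) (nat_lit 5) (nat_lit 189) (nat_lit 5) (nat_lit 364) (nat_lit 351) (nat_lit 185)) (XT.nd (nat_lit 78) (nat_lit 608) (nat_lit 0) (XT.lf (nat_lit 0) (nat_lit 45311695952) (nat_lit 532) (nat_lit 20156380829) (nat_lit 608) (nat_lit 5419018159) (nat_lit 181) (nat_lit 5) (nat_lit 188) (nat_lit 5) (nat_lit 189) (nat_lit 5) (nat_lit 365) (nat_lit 351) (nat_lit 184)) (XT.lf (nat_lit 0) (nat_lit 6022166762) (nat_lit 608) (nat_lit 38480629253) (nat_lit 76) (nat_lit 28395481282) (nat_lit 173) (nat_lit 5) (nat_lit 181) (nat_lit 5) (nat_lit 174) (nat_lit 5) (nat_lit 366) (nat_lit 351) (nat_lit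 183)))) (XT.nd (nat_lit 78) (nat_lit 532) (nat_lit 0) (XT.lf (nat_lit 0) (nat_lit 18657976966) (nat_lit 608) (nat_lit 51899317224) (nat_lit 76) (nat_lit 4429076953) (nat_lit 166) (nat_lit 5) (nat_lit 174) (nat_lit 5) (nat_lit 167) (nat_lit 5) (nat_lit 367) (nat_lit 351) (nat_lit 182)) (XT.nd (nat_lit 78) (nat_lit 0) (nat_lit 0) (XT.lf (nat_lit 0) (nat_lit 11132872485) (nat_lit 532) (nat_lit 21747494431) (nat_lit 608) (nat_lit 44269860204) (nat_lit 159) (nat_lit 5) (nat_lit 166) (nat_lit 5) (nat_lit 167) (nat_lit 5) (nat_lit 368) (nat_lit 351) (nat_lit 181)) (XT.lf (nat_lit 0) (nat_lit 48635626010) (nat_lit 608) (nat_lit 1295457606) (nat_lit 76) (nat_lit 29466540851) (nat_lit 159) (nat_lit 5) (nat_lit 167) (nat_lit 5) (nat_lit 160) (nat_lit 5) (nat_lit 369) (nat_lit 351) (nat_lit 180)))))) (XT.nd (nat_lit 390) (nat_lit 1976) (nat_lit 0) (XT.nd (nat_lit 156) (nat_lit 1292) (nat_lit 0) (XT.nd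 (nat_lit 78) (nat_lit 532) (nat_lit 0) (XT.lf (nat_lit 0) (nat_lit 66064700745) (nat_lit 532) (nat_lit 13983911463) (nat_lit 76) (nat_lit 1682198903) (nat_lit 153) (nat_lit 5) (nat_lit 160) (nat_lit 5) (nat_lit 154) (nat_lit 5) (nat_lit 370) (nat_lit 351) (nat_lit 179)) (XT.lf (nat_lit 0) (nat_lit 1252555393) (nat_lit 532) (nat_lit 27472270400) (nat_lit 76) (nat_lit 55423631457) (nat_lit 146) (nat_lit 5) (nat_lit 153) (nat_lit 5) (nat_lit 147) (nat_lit 5) (nat_lit 371) (nat_lit 351) (nat_lit 178))) (XT.nd (nat_lit 78) (nat_lit 836) (nat_lit 0) (XT.lf (nat_lit 0) (nat_lit 19523993436) (nat_lit 532) (nat_lit 41714223941) (nat_lit 76) (nat_lit 25419190760) (nat_lit 140) (nat_lit 5) (nat_lit 147) (nat_lit 5) (nat_lit 141) (nat_lit 5) (nat_lit 372) (nat_lit 351) (nat_lit 177)) (XT.nd (nat_lit 78) (nat_lit 380) (nat_lit 0) (XT.lf (nat_lit 0) (nat_lit 32612401320) (nat_lit 456) (nat_lit 6984418382)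 (nat_lit 532) (nat_lit 49668353227) (nat_lit 134) (nat_lit 5) (nat_lit 140) (nat_lit 5) (nat_lit 141) (nat_lit 5) (nat_lit 373) (nat_lit 351) (nat_lit 176)) (XT.lf (nat_lit 0) (nat_lit 19429622602) (nat_lit 380) (nat_lit 42343393225) (nat_lit 456) (nat_lit 30197319084) (nat_lit 129) (nat_lit 5) (nat_lit 134) (nat_lit 5) (nat_lit 135) (nat_lit 5) (nat_lit 374) (nat_lit 351) (nat_lit 175))))) (XT.nd (nat_lit 234) (nat_lit 1140) (nat_lit 0) (XT.nd (nat_lit 78) (nat_lit 456) (nat_lit 0) (XT.lf (nat_lit 0) (nat_lit 5603402928) (nat_lit 380) (nat_lit 80301824093) (nat_lit 456) (nat_lit 8880112582) (nat_lit 124) (nat_lit 5) (nat_lit 129) (nat_lit 5) (nat_lit 130) (nat_lit 5) (nat_lit 375) (nat_lit 351) (nat_lit 174)) (XT.nd (nat_lit 78) (nat_lit 380) (nat_lit 0) (XT.lf (nat_lit 0) (nat_lit 14419887566) (nat_lit 456) (nat_lit 9114056009) (nat_lit 76) (nat_lit 74167844968) (nat_lit 123) (nat_lit 5)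 (nat_lit 129) (nat_lit 5) (nat_lit 124) (nat_lit 5) (nat_lit 376) (nat_lit 351) (nat_lit 173)) (XT.lf (nat_lit 0) (nat_lit 39790782988) (nat_lit 456) (nat_lit 24738043958) (nat_lit 76) (nat_lit 36199909516) (nat_lit 118) (nat_lit 5) (nat_lit 124) (nat_lit 5) (nat_lit 119) (nat_lit 5) (nat_lit 377) (nat_lit 351) (nat_lit 172)))) (XT.nd (nat_lit 78) (nat_lit 760) (nat_lit 0) (XT.lf (nat_lit 0) (nat_lit 62619054894) (nat_lit 380) (nat_lit 4744377596) (nat_lit 456) (nat_lit 36515603651) (nat_lit 113) (nat_lit 5) (nat_lit 118) (nat_lit 5) (nat_lit 119) (nat_lit 5) (nat_lit 378) (nat_lit 351) (nat_lit 171)) (XT.nd (nat_lit 78) (nat_lit 456) (nat_lit 0) (XT.lf (nat_lit 0) (nat_lit 48057885195) (nat_lit 304) (nat_lit 49532807171) (nat_lit 380) (nat_lit 9557879717) (nat_lit 109) (nat_lit 5) (nat_lit 113) (nat_lit 5) (nat_lit 114) (nat_lit 5) (nat_lit 379) (nat_lit 351) (nat_lit 170)) (XT.lf (nat_lit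 0) (nat_lit 19299009888) (nat_lit 456) (nat_lit 78144685571) (nat_lit 76) (nat_lit 13104970034) (nat_lit 103) (nat_lit 5) (nat_lit 109) (nat_lit 5) (nat_lit 104) (nat_lit 5) (nat_lit 380) (nat_lit 351) (nat_lit 169))))))) (XT.nd (nat_lit 45318) (nat_lit 0) (nat_lit 3572) (XT.nd (nat_lit 44850) (nat_lit 0) (nat_lit 7980) (XT.nd (nat_lit 44616) (nat_lit 0) (nat_lit 8892) (XT.nd (nat_lit 78) (nat_lit 0) (nat_lit 0) (XT.lf (nat_lit 0) (nat_lit 15302573440) (nat_lit 304) (nat_lit 35360769398) (nat_lit 380) (nat_lit 63414714187) (nat_lit 99) (nat_lit 5) (nat_lit 103) (nat_lit 5) (nat_lit 104) (nat_lit 5) (nat_lit 381) (nat_lit 351) (nat_lit 168)) (XT.lf (nat_lit 0) (nat_lit 84694104296) (nat_lit 380) (nat_lit 3000538320) (nat_lit 76) (nat_lit 30056329679) (nat_lit 99) (nat_lit 5) (nat_lit 104) (nat_lit 5) (nat_lit 100) (nat_lit 5) (nat_lit 382) (nat_lit 351) (nat_lit 167))) (XT.nd (nat_lit 78) (nat_lit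 0) (nat_lit 0) (XT.lf (nat_lit 0) (nat_lit 10472588469) (nat_lit 0) (nat_lit 10472588469) (nat_lit 1140) (nat_lit 4866315954) (nat_lit 216) (nat_lit 5) (nat_lit 216) (nat_lit 3) (nat_lit 231) (nat_lit 3) (nat_lit 352) (nat_lit 352) (nat_lit 196)) (XT.nd (nat_lit 78) (nat_lit 0) (nat_lit 76) (XT.lf (nat_lit 76) (nat_lit 9241671541) (nat_lit 0) (nat_lit 34008043891) (nat_lit 1216) (nat_lit 9654447087) (nat_lit 217) (nat_lit 5) (nat_lit 216) (nat_lit 5) (nat_lit 232) (nat_lit 5) (nat_lit 353) (nat_lit 352) (nat_lit 195)) (XT.lf (nat_lit 0) (nat_lit 45261031494) (nat_lit 1140) (nat_lit 2713834324) (nat_lit 1216) (nat_lit 6257014907) (nat_lit 217) (nat_lit 5) (nat_lit 232) (nat_lit 5) (nat_lit 233) (nat_lit 5) (nat_lit 354) (nat_lit 352) (nat_lit 194))))) (XT.nd (nat_lit 234) (nat_lit 988) (nat_lit 0) (XT.nd (nat_lit 78) (nat_lit 0) (nat_lit 76) (XT.lf (nat_lit 76) (nat_lit 40732462095) (nat_lit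 0) (nat_lit 7372886973) (nat_lit 1216) (nat_lit 7498664825) (nat_lit 218) (nat_lit 5) (nat_lit 217) (nat_lit 5) (nat_lit 233) (nat_lit 5) (nat_lit 355) (nat_lit 352) (nat_lit 193)) (XT.nd (nat_lit 78) (nat_lit 0) (nat_lit 76) (XT.lf (nat_lit 76) (nat_lit 29600860870) (nat_lit 0) (nat_lit 22140456639) (nat_lit 1216) (nat_lit 5283955184) (nat_lit 219) (nat_lit 5) (nat_lit 218) (nat_lit 5) (nat_lit 234) (nat_lit 5) (nat_lit 356) (nat_lit 352) (nat_lit 192)) (XT.lf (nat_lit 76) (nat_lit 18174758547) (nat_lit 0) (nat_lit 37983080250) (nat_lit 1216) (nat_lit 2341794928) (nat_lit 220) (nat_lit 5) (nat_lit 219) (nat_lit 5) (nat_lit 235) (nat_lit 5) (nat_lit 357) (nat_lit 352) (nat_lit 191)))) (XT.nd (nat_lit 78) (nat_lit 0) (nat_lit 0) (XT.lf (nat_lit 0) (nat_lit 1351430239) (nat_lit 1216) (nat_lit 53600941322) (nat_lit 1292) (nat_lit 5076571191) (nat_lit 204) (nat_lit 5) (nat_lit 220) (nat_lit 5)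 (nat_lit 221) (nat_lit 5) (nat_lit 358) (nat_lit 352) (nat_lit 190)) (XT.nd (nat_lit 78) (nat_lit 0) (nat_lit 76) (XT.lf (nat_lit 0) (nat_lit 5981933306) (nat_lit 1216) (nat_lit 5673668288) (nat_lit 1292) (nat_lit 49954390292) (nat_lit 204) (nat_lit 5) (nat_lit 220) (nat_lit 5) (nat_lit 221) (nat_lit 5) (nat_lit 359) (nat_lit 352) (nat_lit 189)) (XT.lf (nat_lit 0) (nat_lit 11609097018) (nat_lit 1216) (nat_lit 18049168862) (nat_lit 1292) (nat_lit 33588875147) (nat_lit 205) (nat_lit 5) (nat_lit 221) (nat_lit 5) (nat_lit 222) (nat_lit 5) (nat_lit 360) (nat_lit 352) (nat_lit 188)))))) (XT.nd (nat_lit 468) (nat_lit 2660) (nat_lit 0) (XT.nd (nat_lit 234) (nat_lit 1140) (nat_lit 0) (XT.nd (nat_lit 78) (nat_lit 760) (nat_lit 0) (XT.lf (nat_lit 0) (nat_lit 18178946432) (nat_lit 1216) (nat_lit 30790278528) (nat_lit 1292) (nat_lit 15977084379) (nat_lit 206) (nat_lit 5) (nat_lit 222) (nat_lit 5) (nat_lit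 223) (nat_lit 5) (nat_lit 361) (nat_lit 352) (nat_lit 187)) (XT.nd (nat_lit 78) (nat_lit 760) (nat_lit 0) (XT.lf (nat_lit 76) (nat_lit 22765405607) (nat_lit 0) (nat_lit 3015965649) (nat_lit 1292) (nat_lit 40927943787) (nat_lit 207) (nat_lit 5) (nat_lit 206) (nat_lit 5) (nat_lit 223) (nat_lit 5) (nat_lit 362) (nat_lit 352) (nat_lit 186)) (XT.lf (nat_lit 0) (nat_lit 10863910272) (nat_lit 836) (nat_lit 23757692565) (nat_lit 912) (nat_lit 33913139026) (nat_lit 196) (nat_lit 5) (nat_lit 207) (nat_lit 5) (nat_lit 208) (nat_lit 5) (nat_lit 363) (nat_lit 352) (nat_lit 185)))) (XT.nd (nat_lit 78) (nat_lit 1140) (nat_lit 0) (XT.lf (nat_lit 0) (nat_lit 44624230946) (nat_lit 912) (nat_lit 1378538130) (nat_lit 76) (nat_lit 24427060727) (nat_lit 196) (nat_lit 5) (nat_lit 208) (nat_lit 5) (nat_lit 197) (nat_lit 5) (nat_lit 364) (nat_lit 352) (nat_lit 184)) (XT.nd (nat_lit 78) (nat_lit 532) (nat_lit 0) (XT.lf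 (nat_lit 0) (nat_lit 55954835597) (nat_lit 684) (nat_lit 13790306287) (nat_lit 76) (nat_lit 2649696169) (nat_lit 188) (nat_lit 5) (nat_lit 197) (nat_lit 5) (nat_lit 189) (nat_lit 5) (nat_lit 365) (nat_lit 352) (nat_lit 183)) (XT.lf (nat_lit 0) (nat_lit 47621293816) (nat_lit 532) (nat_lit 21165626442) (nat_lit 608) (nat_lit 5643129167) (nat_lit 181) (nat_lit 5) (nat_lit 188) (nat_lit 5) (nat_lit 189) (nat_lit 5) (nat_lit 366) (nat_lit 352) (nat_lit 182))))) (XT.nd (nat_lit 234) (nat_lit 988) (nat_lit 0) (XT.nd (nat_lit 78) (nat_lit 1064) (nat_lit 0) (XT.lf (nat_lit 0) (nat_lit 6367429203) (nat_lit 608) (nat_lit 40359622799) (nat_lit 76) (nat_lit 29814780258) (nat_lit 173) (nat_lit 5) (nat_lit 181) (nat_lit 5) (nat_lit 174) (nat_lit 5) (nat_lit 367) (nat_lit 352) (nat_lit 181)) (XT.nd (nat_lit 78) (nat_lit 532) (nat_lit 0) (XT.lf (nat_lit 0) (nat_lit 19633360119) (nat_lit 608) (nat_lit 54449241618)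 (nat_lit 76) (nat_lit 4651780788) (nat_lit 166) (nat_lit 5) (nat_lit 174) (nat_lit 5) (nat_lit 167) (nat_lit 5) (nat_lit 368) (nat_lit 352) (nat_lit 180)) (XT.lf (nat_lit 0) (nat_lit 11733266472) (nat_lit 532) (nat_lit 22832000587) (nat_lit 608) (nat_lit 46441213871) (nat_lit 159) (nat_lit 5) (nat_lit 166) (nat_lit 5) (nat_lit 167) (nat_lit 5) (nat_lit 369) (nat_lit 352) (nat_lit 179)))) (XT.nd (nat_lit 78) (nat_lit 988) (nat_lit 0) (XT.lf (nat_lit 0) (nat_lit 51106368617) (nat_lit 608) (nat_lit 1317392073) (nat_lit 76) (nat_lit 30942546551) (nat_lit 159) (nat_lit 5) (nat_lit 167) (nat_lit 5) (nat_lit 160) (nat_lit 5) (nat_lit 370) (nat_lit 352) (nat_lit 178)) (XT.nd (nat_lit 78) (nat_lit 532) (nat_lit 0) (XT.lf (nat_lit 0) (nat_lit 69405481229) (nat_lit 532) (nat_lit 14640382651) (nat_lit 76) (nat_lit 1770333223) (nat_lit 153) (nat_lit 5) (nat_lit 160) (nat_lit 5) (nat_lit 154) (nat_lit 5)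 (nat_lit 371) (nat_lit 352) (nat_lit 177)) (XT.lf (nat_lit 0) (nat_lit 1351723970) (nat_lit 532) (nat_lit 28803630911) (nat_lit 76) (nat_lit 58199402931) (nat_lit 146) (nat_lit 5) (nat_lit 153) (nat_lit 5) (nat_lit 147) (nat_lit 5) (nat_lit 372) (nat_lit 352) (nat_lit 176))))))))
noncomputable def xc121 : XT := (XT.nd (nat_lit 46332) (nat_lit 0) (nat_lit 760) (XT.nd (nat_lit 45396) (nat_lit 0) (nat_lit 7372) (XT.nd (nat_lit 390) (nat_lit 1824) (nat_lit 0) (XT.nd (nat_lit 156) (nat_lit 836) (nat_lit 0) (XT.nd (nat_lit 78) (nat_lit 456) (nat_lit 0) (XT.lf (nat_lit 0) (nat_lit 20535444597) (nat_lit 532) (nat_lit 43757868811) (nat_lit 76) (nat_lit 26695882758) (nat_lit 140) (nat_lit 5) (nat_lit 147) (nat_lit 5) (nat_lit 141) (nat_lit 5) (nat_lit 373) (nat_lit 352) (nat_lit 175)) (XT.lf (nat_lit 0) (nat_lit 34283881890) (nat_lit 456) (nat_lit 7326744419) (nat_lit 532) (nat_lit 52116762646) (nat_lit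 134) (nat_lit 5) (nat_lit 140) (nat_lit 5) (nat_lit 141) (nat_lit 5) (nat_lit 374) (nat_lit 352) (nat_lit 174))) (XT.nd (nat_lit 78) (nat_lit 456) (nat_lit 0) (XT.lf (nat_lit 0) (nat_lit 20441741335) (nat_lit 380) (nat_lit 44452727251) (nat_lit 456) (nat_lit 31673376486) (nat_lit 129) (nat_lit 5) (nat_lit 134) (nat_lit 5) (nat_lit 135) (nat_lit 5) (nat_lit 375) (nat_lit 352) (nat_lit 173)) (XT.nd (nat_lit 78) (nat_lit 76) (nat_lit 0) (XT.lf (nat_lit 0) (nat_lit 5923950377) (nat_lit 380) (nat_lit 84308237829) (nat_lit 456) (nat_lit 9291445929) (nat_lit 124) (nat_lit 5) (nat_lit 129) (nat_lit 5) (nat_lit 130) (nat_lit 5) (nat_lit 376) (nat_lit 352) (nat_lit 172)) (XT.lf (nat_lit 0) (nat_lit 15171391209) (nat_lit 456) (nat_lit 9530677205) (nat_lit 76) (nat_lit 77883874442) (nat_lit 123) (nat_lit 5) (nat_lit 129) (nat_lit 5) (nat_lit 124) (nat_lit 5) (nat_lit 377) (nat_lit 352) (nat_lit 171)))))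 (XT.nd (nat_lit 234) (nat_lit 760) (nat_lit 0) (XT.nd (nat_lit 78) (nat_lit 684) (nat_lit 0) (XT.lf (nat_lit 0) (nat_lit 41809825579) (nat_lit 456) (nat_lit 25936165377) (nat_lit 76) (nat_lit 38018278334) (nat_lit 118) (nat_lit 5) (nat_lit 124) (nat_lit 5) (nat_lit 119) (nat_lit 5) (nat_lit 378) (nat_lit 352) (nat_lit 170)) (XT.nd (nat_lit 78) (nat_lit 304) (nat_lit 0) (XT.lf (nat_lit 0) (nat_lit 65787676774) (nat_lit 380) (nat_lit 4972387956) (nat_lit 456) (nat_lit 38312051408) (nat_lit 113) (nat_lit 5) (nat_lit 118) (nat_lit 5) (nat_lit 119) (nat_lit 5) (nat_lit 379) (nat_lit 352) (nat_lit 169)) (XT.lf (nat_lit 0) (nat_lit 50498129651) (nat_lit 304) (nat_lit 51999646016) (nat_lit 380) (nat_lit 10007381424) (nat_lit 109) (nat_lit 5) (nat_lit 113) (nat_lit 5) (nat_lit 114) (nat_lit 5) (nat_lit 380) (nat_lit 352) (nat_lit 168)))) (XT.nd (nat_lit 78) (nat_lit 304) (nat_lit 0) (XT.lf (nat_lit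 0) (nat_lit 20290922876) (nat_lit 456) (nat_lit 82014359941) (nat_lit 76) (nat_lit 13769991232) (nat_lit 103) (nat_lit 5) (nat_lit 109) (nat_lit 5) (nat_lit 104) (nat_lit 5) (nat_lit 381) (nat_lit 352) (nat_lit 167)) (XT.nd (nat_lit 44616) (nat_lit 0) (nat_lit 8892) (XT.lf (nat_lit 0) (nat_lit 16104185374) (nat_lit 304) (nat_lit 37118353872) (nat_lit 380) (nat_lit 66558624665) (nat_lit 99) (nat_lit 5) (nat_lit 103) (nat_lit 5) (nat_lit 104) (nat_lit 5) (nat_lit 382) (nat_lit 352) (nat_lit 166)) (XT.lf (nat_lit 0) (nat_lit 11015354866) (nat_lit 0) (nat_lit 11015354866) (nat_lit 1140) (nat_lit 5070175299) (nat_lit 216) (nat_lit 5) (nat_lit 216) (nat_lit 3) (nat_lit 231) (nat_lit 3) (nat_lit 353) (nat_lit 353) (nat_lit 194)))))) (XT.nd (nat_lit 468) (nat_lit 608) (nat_lit 0) (XT.nd (nat_lit 234) (nat_lit 912) (nat_lit 0) (XT.nd (nat_lit 78) (nat_lit 0) (nat_lit 76) (XT.lf (nat_lit 76) (nat_lit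 9743586535) (nat_lit 0) (nat_lit 35741549916) (nat_lit 1216) (nat_lit 10061980827) (nat_lit 217) (nat_lit 5) (nat_lit 216) (nat_lit 5) (nat_lit 232) (nat_lit 5) (nat_lit 354) (nat_lit 353) (nat_lit 193)) (XT.nd (nat_lit 78) (nat_lit 0) (nat_lit 0) (XT.lf (nat_lit 0) (nat_lit 47593242148) (nat_lit 1140) (nat_lit 2809142233) (nat_lit 1216) (nat_lit 6538953409) (nat_lit 217) (nat_lit 5) (nat_lit 232) (nat_lit 5) (nat_lit 233) (nat_lit 5) (nat_lit 355) (nat_lit 353) (nat_lit 192)) (XT.lf (nat_lit 76) (nat_lit 42808311414) (nat_lit 0) (nat_lit 7768547964) (nat_lit 1216) (nat_lit 7805308687) (nat_lit 218) (nat_lit 5) (nat_lit 217) (nat_lit 5) (nat_lit 233) (nat_lit 5) (nat_lit 356) (nat_lit 353) (nat_lit 191)))) (XT.nd (nat_lit 78) (nat_lit 1064) (nat_lit 0) (XT.lf (nat_lit 76) (nat_lit 31121245831) (nat_lit 0) (nat_lit 23270366445) (nat_lit 1216) (nat_lit 5482970768) (nat_lit 219) (nat_lit 5) (nat_lit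 218) (nat_lit 5) (nat_lit 234) (nat_lit 5) (nat_lit 357) (nat_lit 353) (nat_lit 190)) (XT.nd (nat_lit 78) (nat_lit 1140) (nat_lit 0) (XT.lf (nat_lit 76) (nat_lit 19124792989) (nat_lit 0) (nat_lit 39901343180) (nat_lit 1216) (nat_lit 2396613349) (nat_lit 220) (nat_lit 5) (nat_lit 219) (nat_lit 5) (nat_lit 235) (nat_lit 5) (nat_lit 358) (nat_lit 353) (nat_lit 189)) (XT.lf (nat_lit 0) (nat_lit 1477382562) (nat_lit 1216) (nat_lit 56237673227) (nat_lit 1292) (nat_lit 5313532995) (nat_lit 204) (nat_lit 5) (nat_lit 220) (nat_lit 5) (nat_lit 221) (nat_lit 5) (nat_lit 359) (nat_lit 353) (nat_lit 188))))) (XT.nd (nat_lit 234) (nat_lit 608) (nat_lit 0) (XT.nd (nat_lit 78) (nat_lit 0) (nat_lit 76) (XT.lf (nat_lit 0) (nat_lit 6336630743) (nat_lit 1216) (nat_lit 5916099168) (nat_lit 1292) (nat_lit 52436046230) (nat_lit 204) (nat_lit 5) (nat_lit 220) (nat_lit 5) (nat_lit 221) (nat_lit 5) (nat_lit 360) (nat_lit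 353) (nat_lit 187)) (XT.nd (nat_lit 78) (nat_lit 0) (nat_lit 76) (XT.lf (nat_lit 0) (nat_lit 12242762620) (nat_lit 1216) (nat_lit 18909784513) (nat_lit 1292) (nat_lit 35255309561) (nat_lit 205) (nat_lit 5) (nat_lit 221) (nat_lit 5) (nat_lit 222) (nat_lit 5) (nat_lit 361) (nat_lit 353) (nat_lit 186)) (XT.lf (nat_lit 0) (nat_lit 19138861145) (nat_lit 1216) (nat_lit 32287473930) (nat_lit 1292) (nat_lit 16765717793) (nat_lit 206) (nat_lit 5) (nat_lit 222) (nat_lit 5) (nat_lit 223) (nat_lit 5) (nat_lit 362) (nat_lit 353) (nat_lit 185)))) (XT.nd (nat_lit 78) (nat_lit 760) (nat_lit 0) (XT.lf (nat_lit 76) (nat_lit 23944781360) (nat_lit 0) (nat_lit 3174593963) (nat_lit 1292) (nat_lit 42923896535) (nat_lit 207) (nat_lit 5) (nat_lit 206) (nat_lit 5) (nat_lit 223) (nat_lit 5) (nat_lit 363) (nat_lit 353) (nat_lit 184)) (XT.nd (nat_lit 78) (nat_lit 0) (nat_lit 0) (XT.lf (nat_lit 0) (nat_lit 11448571772)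 (nat_lit 836) (nat_lit 24951043362) (nat_lit 912) (nat_lit 35560416931) (nat_lit 196) (nat_lit 5) (nat_lit 207) (nat_lit 5) (nat_lit 208) (nat_lit 5) (nat_lit 364) (nat_lit 353) (nat_lit 183)) (XT.lf (nat_lit 0) (nat_lit 46900089742) (nat_lit 912) (nat_lit 1406545588) (nat_lit 76) (nat_lit 25643309474) (nat_lit 196) (nat_lit 5) (nat_lit 208) (nat_lit 5) (nat_lit 197) (nat_lit 5) (nat_lit 365) (nat_lit 353) (nat_lit 182))))))) (XT.nd (nat_lit 858) (nat_lit 1520) (nat_lit 0) (XT.nd (nat_lit 390) (nat_lit 2280) (nat_lit 0) (XT.nd (nat_lit 156) (nat_lit 1672) (nat_lit 0) (XT.nd (nat_lit 78) (nat_lit 532) (nat_lit 0) (XT.lf (nat_lit 0) (nat_lit 58795450289) (nat_lit 684) (nat_lit 14438722350) (nat_lit 76) (nat_lit 2779085821) (nat_lit 188) (nat_lit 5) (nat_lit 197) (nat_lit 5) (nat_lit 189) (nat_lit 5) (nat_lit 366) (nat_lit 353) (nat_lit 181)) (XT.lf (nat_lit 0) (nat_lit 50042279656) (nat_lit 532)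 (nat_lit 22225201707) (nat_lit 608) (nat_lit 5882800456) (nat_lit 181) (nat_lit 5) (nat_lit 188) (nat_lit 5) (nat_lit 189) (nat_lit 5) (nat_lit 367) (nat_lit 353) (nat_lit 180))) (XT.nd (nat_lit 78) (nat_lit 1064) (nat_lit 0) (XT.lf (nat_lit 0) (nat_lit 6725849737) (nat_lit 608) (nat_lit 42336753221) (nat_lit 76) (nat_lit 31305088351) (nat_lit 173) (nat_lit 5) (nat_lit 181) (nat_lit 5) (nat_lit 174) (nat_lit 5) (nat_lit 368) (nat_lit 353) (nat_lit 179)) (XT.nd (nat_lit 78) (nat_lit 532) (nat_lit 0) (XT.lf (nat_lit 0) (nat_lit 20653562641) (nat_lit 608) (nat_lit 57130849761) (nat_lit 76) (nat_lit 4885503603) (nat_lit 166) (nat_lit 5) (nat_lit 174) (nat_lit 5) (nat_lit 167) (nat_lit 5) (nat_lit 369) (nat_lit 353) (nat_lit 178)) (XT.lf (nat_lit 0) (nat_lit 12359612664) (nat_lit 532) (nat_lit 23970998743) (nat_lit 608) (nat_lit 48725052939) (nat_lit 159) (nat_lit 5) (nat_lit 166) (nat_lit 5) (nat_lit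 167) (nat_lit 5) (nat_lit 370) (nat_lit 353) (nat_lit 177))))) (XT.nd (nat_lit 234) (nat_lit 1292) (nat_lit 0) (XT.nd (nat_lit 78) (nat_lit 988) (nat_lit 0) (XT.lf (nat_lit 0) (nat_lit 53697026101) (nat_lit 608) (nat_lit 1344405973) (nat_lit 76) (nat_lit 32492103498) (nat_lit 159) (nat_lit 5) (nat_lit 167) (nat_lit 5) (nat_lit 160) (nat_lit 5) (nat_lit 371) (nat_lit 353) (nat_lit 176)) (XT.nd (nat_lit 78) (nat_lit 532) (nat_lit 0) (XT.lf (nat_lit 0) (nat_lit 72909810116) (nat_lit 532) (nat_lit 15333649507) (nat_lit 76) (nat_lit 1862500111) (nat_lit 153) (nat_lit 5) (nat_lit 160) (nat_lit 5) (nat_lit 154) (nat_lit 5) (nat_lit 372) (nat_lit 353) (nat_lit 175)) (XT.lf (nat_lit 0) (nat_lit 1452453758) (nat_lit 532) (nat_lit 30205487731) (nat_lit 76) (nat_lit 61113536254) (nat_lit 146) (nat_lit 5) (nat_lit 153) (nat_lit 5) (nat_lit 147) (nat_lit 5) (nat_lit 373) (nat_lit 353) (nat_lit 174)))) (XT.nd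 (nat_lit 78) (nat_lit 836) (nat_lit 0) (XT.lf (nat_lit 0) (nat_lit 21594190966) (nat_lit 532) (nat_lit 45907606852) (nat_lit 76) (nat_lit 28035876406) (nat_lit 140) (nat_lit 5) (nat_lit 147) (nat_lit 5) (nat_lit 141) (nat_lit 5) (nat_lit 374) (nat_lit 353) (nat_lit 173)) (XT.nd (nat_lit 78) (nat_lit 380) (nat_lit 0) (XT.lf (nat_lit 0) (nat_lit 36035137667) (nat_lit 456) (nat_lit 7686827778) (nat_lit 532) (nat_lit 54690847270) (nat_lit 134) (nat_lit 5) (nat_lit 140) (nat_lit 5) (nat_lit 141) (nat_lit 5) (nat_lit 375) (nat_lit 353) (nat_lit 172)) (XT.lf (nat_lit 0) (nat_lit 21500687905) (nat_lit 380) (nat_lit 46668256461) (nat_lit 456) (nat_lit 33226379958) (nat_lit 129) (nat_lit 5) (nat_lit 134) (nat_lit 5) (nat_lit 135) (nat_lit 5) (nat_lit 376) (nat_lit 353) (nat_lit 171)))))) (XT.nd (nat_lit 45162) (nat_lit 0) (nat_lit 7220) (XT.nd (nat_lit 234) (nat_lit 684) (nat_lit 0) (XT.nd (nat_lit 78)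 (nat_lit 456) (nat_lit 0) (XT.lf (nat_lit 0) (nat_lit 6256771300) (nat_lit 380) (nat_lit 88515779000) (nat_lit 456) (nat_lit 9726383503) (nat_lit 124) (nat_lit 5) (nat_lit 129) (nat_lit 5) (nat_lit 130) (nat_lit 5) (nat_lit 377) (nat_lit 353) (nat_lit 170)) (XT.nd (nat_lit 78) (nat_lit 380) (nat_lit 0) (XT.lf (nat_lit 0) (nat_lit 15957633572) (nat_lit 456) (nat_lit 9971762898) (nat_lit 76) (nat_lit 81784995353) (nat_lit 123) (nat_lit 5) (nat_lit 129) (nat_lit 5) (nat_lit 124) (nat_lit 5) (nat_lit 378) (nat_lit 353) (nat_lit 169)) (XT.lf (nat_lit 0) (nat_lit 43927077349) (nat_lit 456) (nat_lit 27197798336) (nat_lit 76) (nat_lit 39926787119) (nat_lit 118) (nat_lit 5) (nat_lit 124) (nat_lit 5) (nat_lit 119) (nat_lit 5) (nat_lit 379) (nat_lit 353) (nat_lit 168)))) (XT.nd (nat_lit 78) (nat_lit 304) (nat_lit 0) (XT.lf (nat_lit 0) (nat_lit 69111227629) (nat_lit 380) (nat_lit 5212654954) (nat_lit 456)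 (nat_lit 40201048604) (nat_lit 113) (nat_lit 5) (nat_lit 118) (nat_lit 5) (nat_lit 119) (nat_lit 5) (nat_lit 380) (nat_lit 353) (nat_lit 167)) (XT.nd (nat_lit 44772) (nat_lit 0) (nat_lit 8132) (XT.lf (nat_lit 0) (nat_lit 53056913864) (nat_lit 304) (nat_lit 54590738055) (nat_lit 380) (nat_lit 10481997861) (nat_lit 109) (nat_lit 5) (nat_lit 113) (nat_lit 5) (nat_lit 114) (nat_lit 5) (nat_lit 381) (nat_lit 353) (nat_lit 166)) (XT.lf (nat_lit 0) (nat_lit 11583480409) (nat_lit 0) (nat_lit 11583480409) (nat_lit 1140) (nat_lit 5287895898) (nat_lit 216) (nat_lit 5) (nat_lit 216) (nat_lit 3) (nat_lit 231) (nat_lit 3) (nat_lit 354) (nat_lit 354) (nat_lit 192))))) (XT.nd (nat_lit 234) (nat_lit 912) (nat_lit 0) (XT.nd (nat_lit 78) (nat_lit 0) (nat_lit 76) (XT.lf (nat_lit 76) (nat_lit 10266894132) (nat_lit 0) (nat_lit 37558653562) (nat_lit 1216) (nat_lit 10496881579) (nat_lit 217) (nat_lit 5) (nat_lit 216)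 (nat_lit 5) (nat_lit 232) (nat_lit 5) (nat_lit 355) (nat_lit 354) (nat_lit 191)) (XT.nd (nat_lit 78) (nat_lit 0) (nat_lit 0) (XT.lf (nat_lit 0) (nat_lit 50035633579) (nat_lit 1140) (nat_lit 2912970041) (nat_lit 1216) (nat_lit 6837862764) (nat_lit 217) (nat_lit 5) (nat_lit 232) (nat_lit 5) (nat_lit 233) (nat_lit 5) (nat_lit 356) (nat_lit 354) (nat_lit 190)) (XT.lf (nat_lit 76) (nat_lit 44984306317) (nat_lit 0) (nat_lit 8181480253) (nat_lit 1216) (nat_lit 8133633642) (nat_lit 218) (nat_lit 5) (nat_lit 217) (nat_lit 5) (nat_lit 233) (nat_lit 5) (nat_lit 357) (nat_lit 354) (nat_lit 189)))) (XT.nd (nat_lit 78) (nat_lit 1064) (nat_lit 0) (XT.lf (nat_lit 76) (nat_lit 32713899432) (nat_lit 0) (nat_lit 24454643927) (nat_lit 1216) (nat_lit 5697997152) (nat_lit 219) (nat_lit 5) (nat_lit 218) (nat_lit 5) (nat_lit 234) (nat_lit 5) (nat_lit 358) (nat_lit 354) (nat_lit 188)) (XT.nd (nat_lit 78) (nat_lit 1140)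 (nat_lit 0) (XT.lf (nat_lit 76) (nat_lit 20118489795) (nat_lit 0) (nat_lit 41913742691) (nat_lit 1216) (nat_lit 2459962089) (nat_lit 220) (nat_lit 5) (nat_lit 219) (nat_lit 5) (nat_lit 235) (nat_lit 5) (nat_lit 359) (nat_lit 354) (nat_lit 187)) (XT.lf (nat_lit 0) (nat_lit 1604204806) (nat_lit 1216) (nat_lit 59010268761) (nat_lit 1292) (nat_lit 5563911001) (nat_lit 204) (nat_lit 5) (nat_lit 220) (nat_lit 5) (nat_lit 221) (nat_lit 5) (nat_lit 360) (nat_lit 354) (nat_lit 186))))))))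
noncomputable def xc122 : XT := (XT.nd (nat_lit 46566) (nat_lit 0) (nat_lit 836) (XT.nd (nat_lit 858) (nat_lit 3496) (nat_lit 0) (XT.nd (nat_lit 390) (nat_lit 2812) (nat_lit 0) (XT.nd (nat_lit 156) (nat_lit 608) (nat_lit 0) (XT.nd (nat_lit 78) (nat_lit 0) (nat_lit 76) (XT.lf (nat_lit 0) (nat_lit 6703893820) (nat_lit 1216) (nat_lit 6174486862) (nat_lit 1292) (nat_lit 55043278405) (nat_lit 204) (nat_lit 5) (nat_lit 220) (nat_lit 5) (nat_lit 221) (nat_lit 5) (nat_lit 361) (nat_lit 354) (nat_lit 185)) (XT.lf (nat_lit 0) (nat_lit 12903164472) (nat_lit 1216) (nat_lit 19817321093) (nat_lit 1292) (nat_lit 37006275180) (nat_lit 205) (nat_lit 5) (nat_lit 221) (nat_lit 5) (nat_lit 222) (nat_lit 5) (nat_lit 362) (nat_lit 354) (nat_lit 184))) (XT.nd (nat_lit 78) (nat_lit 760) (nat_lit 0) (XT.lf (nat_lit 0) (nat_lit 20142033129) (nat_lit 1216) (nat_lit 33863463477) (nat_lit 1292) (nat_lit 17594733112) (nat_lit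 206) (nat_lit 5) (nat_lit 222) (nat_lit 5) (nat_lit 223) (nat_lit 5) (nat_lit 363) (nat_lit 354) (nat_lit 183)) (XT.nd (nat_lit 78) (nat_lit 760) (nat_lit 0) (XT.lf (nat_lit 76) (nat_lit 25179304304) (nat_lit 0) (nat_lit 3340425730) (nat_lit 1292) (nat_lit 45024336766) (nat_lit 207) (nat_lit 5) (nat_lit 206) (nat_lit 5) (nat_lit 223) (nat_lit 5) (nat_lit 364) (nat_lit 354) (nat_lit 182)) (XT.lf (nat_lit 0) (nat_lit 12058611232) (nat_lit 836) (nat_lit 26203553506) (nat_lit 912) (nat_lit 37294556557) (nat_lit 196) (nat_lit 5) (nat_lit 207) (nat_lit 5) (nat_lit 208) (nat_lit 5) (nat_lit 365) (nat_lit 354) (nat_lit 181))))) (XT.nd (nat_lit 234) (nat_lit 1672) (nat_lit 0) (XT.nd (nat_lit 78) (nat_lit 1140) (nat_lit 0) (XT.lf (nat_lit 0) (nat_lit 49285590599) (nat_lit 912) (nat_lit 1439757721) (nat_lit 76) (nat_lit 26920845206) (nat_lit 196) (nat_lit 5) (nat_lit 208) (nat_lit 5) (nat_lit 197) (nat_lit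 5) (nat_lit 366) (nat_lit 354) (nat_lit 180)) (XT.nd (nat_lit 78) (nat_lit 532) (nat_lit 0) (XT.lf (nat_lit 0) (nat_lit 61774109798) (nat_lit 684) (nat_lit 15123380236) (nat_lit 76) (nat_lit 2915232714) (nat_lit 188) (nat_lit 5) (nat_lit 197) (nat_lit 5) (nat_lit 189) (nat_lit 5) (nat_lit 367) (nat_lit 354) (nat_lit 179)) (XT.lf (nat_lit 0) (nat_lit 52580603298) (nat_lit 532) (nat_lit 23337635436) (nat_lit 608) (nat_lit 6138405177) (nat_lit 181) (nat_lit 5) (nat_lit 188) (nat_lit 5) (nat_lit 189) (nat_lit 5) (nat_lit 368) (nat_lit 354) (nat_lit 178)))) (XT.nd (nat_lit 78) (nat_lit 1064) (nat_lit 0) (XT.lf (nat_lit 0) (nat_lit 7098467914) (nat_lit 608) (nat_lit 44416538077) (nat_lit 76) (nat_lit 32869951912) (nat_lit 173) (nat_lit 5) (nat_lit 181) (nat_lit 5) (nat_lit 174) (nat_lit 5) (nat_lit 369) (nat_lit 354) (nat_lit 177)) (XT.nd (nat_lit 78) (nat_lit 532) (nat_lit 0) (XT.lf (nat_lit 0)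 (nat_lit 21721192715) (nat_lit 608) (nat_lit 59950336523) (nat_lit 76) (nat_lit 5130807151) (nat_lit 166) (nat_lit 5) (nat_lit 174) (nat_lit 5) (nat_lit 167) (nat_lit 5) (nat_lit 370) (nat_lit 354) (nat_lit 176)) (XT.lf (nat_lit 0) (nat_lit 13013586828) (nat_lit 532) (nat_lit 25167188705) (nat_lit 608) (nat_lit 51126637444) (nat_lit 159) (nat_lit 5) (nat_lit 166) (nat_lit 5) (nat_lit 167) (nat_lit 5) (nat_lit 371) (nat_lit 354) (nat_lit 175)))))) (XT.nd (nat_lit 468) (nat_lit 1216) (nat_lit 0) (XT.nd (nat_lit 234) (nat_lit 1292) (nat_lit 0) (XT.nd (nat_lit 78) (nat_lit 988) (nat_lit 0) (XT.lf (nat_lit 0) (nat_lit 56413930969) (nat_lit 608) (nat_lit 1376383003) (nat_lit 76) (nat_lit 34118912411) (nat_lit 159) (nat_lit 5) (nat_lit 167) (nat_lit 5) (nat_lit 160) (nat_lit 5) (nat_lit 372) (nat_lit 354) (nat_lit 174)) (XT.nd (nat_lit 78) (nat_lit 532) (nat_lit 0) (XT.lf (nat_lit 0) (nat_lit 76586189353)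 (nat_lit 532) (nat_lit 16065182525) (nat_lit 76) (nat_lit 1958935979) (nat_lit 153) (nat_lit 5) (nat_lit 160) (nat_lit 5) (nat_lit 154) (nat_lit 5) (nat_lit 373) (nat_lit 354) (nat_lit 173)) (XT.lf (nat_lit 0) (nat_lit 1555138658) (nat_lit 532) (nat_lit 31681000463) (nat_lit 76) (nat_lit 64172989190) (nat_lit 146) (nat_lit 5) (nat_lit 153) (nat_lit 5) (nat_lit 147) (nat_lit 5) (nat_lit 374) (nat_lit 354) (nat_lit 172)))) (XT.nd (nat_lit 78) (nat_lit 836) (nat_lit 0) (XT.lf (nat_lit 0) (nat_lit 22702902001) (nat_lit 532) (nat_lit 48168379123) (nat_lit 76) (nat_lit 29442386335) (nat_lit 140) (nat_lit 5) (nat_lit 147) (nat_lit 5) (nat_lit 141) (nat_lit 5) (nat_lit 375) (nat_lit 354) (nat_lit 171)) (XT.nd (nat_lit 78) (nat_lit 380) (nat_lit 0) (XT.lf (nat_lit 0) (nat_lit 37870510589) (nat_lit 456) (nat_lit 8065496731) (nat_lit 532) (nat_lit 57396588266) (nat_lit 134) (nat_lit 5) (nat_lit 140) (nat_lit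 5) (nat_lit 141) (nat_lit 5) (nat_lit 376) (nat_lit 354) (nat_lit 170)) (XT.lf (nat_lit 0) (nat_lit 22609154956) (nat_lit 380) (nat_lit 48995222887) (nat_lit 456) (nat_lit 34859884577) (nat_lit 129) (nat_lit 5) (nat_lit 134) (nat_lit 5) (nat_lit 135) (nat_lit 5) (nat_lit 377) (nat_lit 354) (nat_lit 169))))) (XT.nd (nat_lit 234) (nat_lit 380) (nat_lit 0) (XT.nd (nat_lit 78) (nat_lit 456) (nat_lit 0) (XT.lf (nat_lit 0) (nat_lit 6602828372) (nat_lit 380) (nat_lit 92934428975) (nat_lit 456) (nat_lit 10185823111) (nat_lit 124) (nat_lit 5) (nat_lit 129) (nat_lit 5) (nat_lit 130) (nat_lit 5) (nat_lit 378) (nat_lit 354) (nat_lit 168)) (XT.nd (nat_lit 78) (nat_lit 380) (nat_lit 0) (XT.lf (nat_lit 0) (nat_lit 16780615298) (nat_lit 456) (nat_lit 10438198510) (nat_lit 76) (nat_lit 85880528285) (nat_lit 123) (nat_lit 5) (nat_lit 129) (nat_lit 5) (nat_lit 124) (nat_lit 5) (nat_lit 379) (nat_lit 354) (nat_lit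 167)) (XT.lf (nat_lit 0) (nat_lit 46147703772) (nat_lit 456) (nat_lit 28525783210) (nat_lit 76) (nat_lit 41930015244) (nat_lit 118) (nat_lit 5) (nat_lit 124) (nat_lit 5) (nat_lit 119) (nat_lit 5) (nat_lit 380) (nat_lit 354) (nat_lit 166)))) (XT.nd (nat_lit 44850) (nat_lit 0) (nat_lit 7828) (XT.lf (nat_lit 0) (nat_lit 72597779502) (nat_lit 380) (nat_lit 5465711829) (nat_lit 456) (nat_lit 42186969175) (nat_lit 113) (nat_lit 5) (nat_lit 118) (nat_lit 5) (nat_lit 119) (nat_lit 5) (nat_lit 381) (nat_lit 354) (nat_lit 165)) (XT.nd (nat_lit 78) (nat_lit 0) (nat_lit 0) (XT.lf (nat_lit 0) (nat_lit 12178398465) (nat_lit 0) (nat_lit 12178398465) (nat_lit 1140) (nat_lit 5519829771) (nat_lit 216) (nat_lit 5) (nat_lit 216) (nat_lit 3) (nat_lit 231) (nat_lit 3) (nat_lit 355) (nat_lit 355) (nat_lit 190)) (XT.lf (nat_lit 76) (nat_lit 10813008244) (nat_lit 0) (nat_lit 39463820843) (nat_lit 1216) (nat_lit 10959867799)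 (nat_lit 217) (nat_lit 5) (nat_lit 216) (nat_lit 5) (nat_lit 232) (nat_lit 5) (nat_lit 356) (nat_lit 355) (nat_lit 189))))))) (XT.nd (nat_lit 858) (nat_lit 5472) (nat_lit 0) (XT.nd (nat_lit 390) (nat_lit 608) (nat_lit 0) (XT.nd (nat_lit 156) (nat_lit 988) (nat_lit 0) (XT.nd (nat_lit 78) (nat_lit 0) (nat_lit 0) (XT.lf (nat_lit 0) (nat_lit 52594312604) (nat_lit 1140) (nat_lit 3025394684) (nat_lit 1216) (nat_lit 7154324323) (nat_lit 217) (nat_lit 5) (nat_lit 232) (nat_lit 5) (nat_lit 233) (nat_lit 5) (nat_lit 357) (nat_lit 355) (nat_lit 188)) (XT.lf (nat_lit 76) (nat_lit 47265793136) (nat_lit 0) (nat_lit 8612780925) (nat_lit 1216) (nat_lit 8484133483) (nat_lit 218) (nat_lit 5) (nat_lit 217) (nat_lit 5) (nat_lit 233) (nat_lit 5) (nat_lit 358) (nat_lit 355) (nat_lit 187))) (XT.nd (nat_lit 78) (nat_lit 1064) (nat_lit 0) (XT.lf (nat_lit 76) (nat_lit 34382783799) (nat_lit 0) (nat_lit 25696205294) (nat_lit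 1216) (nat_lit 5929271473) (nat_lit 219) (nat_lit 5) (nat_lit 218) (nat_lit 5) (nat_lit 234) (nat_lit 5) (nat_lit 359) (nat_lit 355) (nat_lit 186)) (XT.nd (nat_lit 78) (nat_lit 1140) (nat_lit 0) (XT.lf (nat_lit 76) (nat_lit 21158389030) (nat_lit 0) (nat_lit 44025150779) (nat_lit 1216) (nat_lit 2531729420) (nat_lit 220) (nat_lit 5) (nat_lit 219) (nat_lit 5) (nat_lit 235) (nat_lit 5) (nat_lit 360) (nat_lit 355) (nat_lit 185)) (XT.lf (nat_lit 0) (nat_lit 1732445084) (nat_lit 1216) (nat_lit 61925146709) (nat_lit 1292) (nat_lit 5828230230) (nat_lit 204) (nat_lit 5) (nat_lit 220) (nat_lit 5) (nat_lit 221) (nat_lit 5) (nat_lit 361) (nat_lit 355) (nat_lit 184))))) (XT.nd (nat_lit 234) (nat_lit 608) (nat_lit 0) (XT.nd (nat_lit 78) (nat_lit 0) (nat_lit 76) (XT.lf (nat_lit 0) (nat_lit 7084831404) (nat_lit 1216) (nat_lit 6449272643) (nat_lit 1292) (nat_lit 57782226781) (nat_lit 204) (nat_lit 5) (nat_lit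 220) (nat_lit 5) (nat_lit 221) (nat_lit 5) (nat_lit 362) (nat_lit 355) (nat_lit 183)) (XT.nd (nat_lit 78) (nat_lit 0) (nat_lit 76) (XT.lf (nat_lit 0) (nat_lit 13592099312) (nat_lit 1216) (nat_lit 20773762980) (nat_lit 1292) (nat_lit 38845886119) (nat_lit 205) (nat_lit 5) (nat_lit 221) (nat_lit 5) (nat_lit 222) (nat_lit 5) (nat_lit 363) (nat_lit 355) (nat_lit 182)) (XT.lf (nat_lit 0) (nat_lit 21191065784) (nat_lit 1216) (nat_lit 35521821096) (nat_lit 1292) (nat_lit 18466061086) (nat_lit 206) (nat_lit 5) (nat_lit 222) (nat_lit 5) (nat_lit 223) (nat_lit 5) (nat_lit 364) (nat_lit 355) (nat_lit 181)))) (XT.nd (nat_lit 78) (nat_lit 760) (nat_lit 0) (XT.lf (nat_lit 76) (nat_lit 26472087093) (nat_lit 0) (nat_lit 3513888802) (nat_lit 1292) (nat_lit 47234052838) (nat_lit 207) (nat_lit 5) (nat_lit 206) (nat_lit 5) (nat_lit 223) (nat_lit 5) (nat_lit 365) (nat_lit 355) (nat_lit 180)) (XT.nd (nat_lit 78)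 (nat_lit 0) (nat_lit 0) (XT.lf (nat_lit 0) (nat_lit 12695655963) (nat_lit 836) (nat_lit 27518228212) (nat_lit 912) (nat_lit 39119482824) (nat_lit 196) (nat_lit 5) (nat_lit 207) (nat_lit 5) (nat_lit 208) (nat_lit 5) (nat_lit 366) (nat_lit 355) (nat_lit 179)) (XT.lf (nat_lit 0) (nat_lit 51786601531) (nat_lit 912) (nat_lit 1478081075) (nat_lit 76) (nat_lit 28262688155) (nat_lit 196) (nat_lit 5) (nat_lit 208) (nat_lit 5) (nat_lit 197) (nat_lit 5) (nat_lit 367) (nat_lit 355) (nat_lit 178)))))) (XT.nd (nat_lit 468) (nat_lit 2660) (nat_lit 0) (XT.nd (nat_lit 234) (nat_lit 1064) (nat_lit 0) (XT.nd (nat_lit 78) (nat_lit 1140) (nat_lit 0) (XT.lf (nat_lit 0) (nat_lit 64898086939) (nat_lit 684) (nat_lit 15845736792) (nat_lit 76) (nat_lit 3058447958) (nat_lit 188) (nat_lit 5) (nat_lit 197) (nat_lit 5) (nat_lit 189) (nat_lit 5) (nat_lit 368) (nat_lit 355) (nat_lit 177)) (XT.nd (nat_lit 78) (nat_lit 608)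 (nat_lit 0) (XT.lf (nat_lit 0) (nat_lit 55242476691) (nat_lit 532) (nat_lit 24505581737) (nat_lit 608) (nat_lit 6410372781) (nat_lit 181) (nat_lit 5) (nat_lit 188) (nat_lit 5) (nat_lit 189) (nat_lit 5) (nat_lit 369) (nat_lit 355) (nat_lit 176)) (XT.lf (nat_lit 0) (nat_lit 7486339781) (nat_lit 608) (nat_lit 46603756994) (nat_lit 76) (nat_lit 34513094989) (nat_lit 173) (nat_lit 5) (nat_lit 181) (nat_lit 5) (nat_lit 174) (nat_lit 5) (nat_lit 370) (nat_lit 355) (nat_lit 175)))) (XT.nd (nat_lit 78) (nat_lit 532) (nat_lit 0) (XT.lf (nat_lit 0) (nat_lit 22838954792) (nat_lit 608) (nat_lit 62914242713) (nat_lit 76) (nat_lit 5388280269) (nat_lit 166) (nat_lit 5) (nat_lit 174) (nat_lit 5) (nat_lit 167) (nat_lit 5) (nat_lit 371) (nat_lit 355) (nat_lit 174)) (XT.nd (nat_lit 78) (nat_lit 0) (nat_lit 0) (XT.lf (nat_lit 0) (nat_lit 13696913364) (nat_lit 532) (nat_lit 26423407573) (nat_lit 608) (nat_lit 53651524289)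 (nat_lit 159) (nat_lit 5) (nat_lit 166) (nat_lit 5) (nat_lit 167) (nat_lit 5) (nat_lit 372) (nat_lit 355) (nat_lit 173)) (XT.lf (nat_lit 0) (nat_lit 59263701044) (nat_lit 608) (nat_lit 1413235470) (nat_lit 76) (nat_lit 35826856886) (nat_lit 159) (nat_lit 5) (nat_lit 167) (nat_lit 5) (nat_lit 160) (nat_lit 5) (nat_lit 373) (nat_lit 355) (nat_lit 172))))) (XT.nd (nat_lit 234) (nat_lit 1216) (nat_lit 0) (XT.nd (nat_lit 78) (nat_lit 988) (nat_lit 0) (XT.lf (nat_lit 0) (nat_lit 80443515810) (nat_lit 532) (nat_lit 16836560058) (nat_lit 76) (nat_lit 2059885829) (nat_lit 153) (nat_lit 5) (nat_lit 160) (nat_lit 5) (nat_lit 154) (nat_lit 5) (nat_lit 374) (nat_lit 355) (nat_lit 171)) (XT.nd (nat_lit 78) (nat_lit 456) (nat_lit 0) (XT.lf (nat_lit 0) (nat_lit 1660162904) (nat_lit 532) (nat_lit 33233520640) (nat_lit 76) (nat_lit 67385063704) (nat_lit 146) (nat_lit 5) (nat_lit 153) (nat_lit 5) (nat_lit 147)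 (nat_lit 5) (nat_lit 375) (nat_lit 355) (nat_lit 170)) (XT.lf (nat_lit 0) (nat_lit 23864352305) (nat_lit 532) (nat_lit 50545407538) (nat_lit 76) (nat_lit 30918783302) (nat_lit 140) (nat_lit 5) (nat_lit 147) (nat_lit 5) (nat_lit 141) (nat_lit 5) (nat_lit 376) (nat_lit 355) (nat_lit 169)))) (XT.nd (nat_lit 78) (nat_lit 760) (nat_lit 0) (XT.lf (nat_lit 0) (nat_lit 39794526856) (nat_lit 456) (nat_lit 8463626500) (nat_lit 532) (nat_lit 60240293989) (nat_lit 134) (nat_lit 5) (nat_lit 140) (nat_lit 5) (nat_lit 141) (nat_lit 5) (nat_lit 377) (nat_lit 355) (nat_lit 168)) (XT.nd (nat_lit 78) (nat_lit 380) (nat_lit 0) (XT.lf (nat_lit 0) (nat_lit 23769937109) (nat_lit 380) (nat_lit 51439136960) (nat_lit 456) (nat_lit 36577650344) (nat_lit 129) (nat_lit 5) (nat_lit 134) (nat_lit 5) (nat_lit 135) (nat_lit 5) (nat_lit 378) (nat_lit 355) (nat_lit 167)) (XT.lf (nat_lit 0) (nat_lit 6963099956) (nat_lit 380)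 (nat_lit 97574675163) (nat_lit 456) (nat_lit 10670733706) (nat_lit 124) (nat_lit 5) (nat_lit 129) (nat_lit 5) (nat_lit 130) (nat_lit 5) (nat_lit 379) (nat_lit 355) (nat_lit 166))))))))
noncomputable def xc123 : XT := (XT.nd (nat_lit 46644) (nat_lit 0) (nat_lit 456) (XT.nd (nat_lit 45708) (nat_lit 0) (nat_lit 2128) (XT.nd (nat_lit 45240) (nat_lit 0) (nat_lit 6536) (XT.nd (nat_lit 45006) (nat_lit 0) (nat_lit 7448) (XT.nd (nat_lit 78) (nat_lit 380) (nat_lit 0) (XT.lf (nat_lit 0) (nat_lit 17642412547) (nat_lit 456) (nat_lit 10930945140) (nat_lit 76) (nat_lit 90180253714) (nat_lit 123) (nat_lit 5) (nat_lit 129) (nat_lit 5) (nat_lit 124) (nat_lit 5) (nat_lit 380) (nat_lit 355) (nat_lit 165)) (XT.lf (nat_lit 0) (nat_lit 48477104883) (nat_lit 456) (nat_lit 29923133557) (nat_lit 76) (nat_lit 44032764322) (nat_lit 118) (nat_lit 5) (nat_lit 124) (nat_lit 5) (nat_lit 119) (nat_lit 5) (nat_lit 381) (nat_lit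 355) (nat_lit 164))) (XT.nd (nat_lit 78) (nat_lit 0) (nat_lit 0) (XT.lf (nat_lit 0) (nat_lit 12801598693) (nat_lit 0) (nat_lit 12801598693) (nat_lit 1140) (nat_lit 5766378247) (nat_lit 216) (nat_lit 5) (nat_lit 216) (nat_lit 3) (nat_lit 231) (nat_lit 3) (nat_lit 356) (nat_lit 356) (nat_lit 188)) (XT.nd (nat_lit 78) (nat_lit 0) (nat_lit 76) (XT.lf (nat_lit 76) (nat_lit 11383381473) (nat_lit 0) (nat_lit 41461714473) (nat_lit 1216) (nat_lit 11451754288) (nat_lit 217) (nat_lit 5) (nat_lit 216) (nat_lit 5) (nat_lit 232) (nat_lit 5) (nat_lit 357) (nat_lit 356) (nat_lit 187)) (XT.lf (nat_lit 0) (nat_lit 55275635804) (nat_lit 1140) (nat_lit 3146529399) (nat_lit 1216) (nat_lit 7488973347) (nat_lit 217) (nat_lit 5) (nat_lit 232) (nat_lit 5) (nat_lit 233) (nat_lit 5) (nat_lit 358) (nat_lit 356) (nat_lit 186))))) (XT.nd (nat_lit 234) (nat_lit 988) (nat_lit 0) (XT.nd (nat_lit 78) (nat_lit 0) (nat_lit 76)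 (XT.lf (nat_lit 76) (nat_lit 49658353998) (nat_lit 0) (nat_lit 9063580205) (nat_lit 1216) (nat_lit 8857381571) (nat_lit 218) (nat_lit 5) (nat_lit 217) (nat_lit 5) (nat_lit 233) (nat_lit 5) (nat_lit 359) (nat_lit 356) (nat_lit 185)) (XT.nd (nat_lit 78) (nat_lit 0) (nat_lit 76) (XT.lf (nat_lit 76) (nat_lit 36132026750) (nat_lit 0) (nat_lit 26998094171) (nat_lit 1216) (nat_lit 6177095104) (nat_lit 219) (nat_lit 5) (nat_lit 218) (nat_lit 5) (nat_lit 234) (nat_lit 5) (nat_lit 360) (nat_lit 356) (nat_lit 184)) (XT.lf (nat_lit 76) (nat_lit 22247124577) (nat_lit 0) (nat_lit 46240667687) (nat_lit 1216) (nat_lit 2611848070) (nat_lit 220) (nat_lit 5) (nat_lit 219) (nat_lit 5) (nat_lit 235) (nat_lit 5) (nat_lit 361) (nat_lit 356) (nat_lit 183)))) (XT.nd (nat_lit 78) (nat_lit 0) (nat_lit 0) (XT.lf (nat_lit 0) (nat_lit 1862631998) (nat_lit 1216) (nat_lit 64989081604) (nat_lit 1292) (nat_lit 6107055509) (nat_lit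 204) (nat_lit 5) (nat_lit 220) (nat_lit 5) (nat_lit 221) (nat_lit 5) (nat_lit 362) (nat_lit 356) (nat_lit 182)) (XT.nd (nat_lit 78) (nat_lit 0) (nat_lit 76) (XT.lf (nat_lit 0) (nat_lit 7480563126) (nat_lit 1216) (nat_lit 6740952999) (nat_lit 1292) (nat_lit 60659351232) (nat_lit 204) (nat_lit 5) (nat_lit 220) (nat_lit 5) (nat_lit 221) (nat_lit 5) (nat_lit 363) (nat_lit 356) (nat_lit 181)) (XT.lf (nat_lit 0) (nat_lit 14311410960) (nat_lit 1216) (nat_lit 21781227393) (nat_lit 1292) (nat_lit 40778472652) (nat_lit 205) (nat_lit 5) (nat_lit 221) (nat_lit 5) (nat_lit 222) (nat_lit 5) (nat_lit 364) (nat_lit 356) (nat_lit 180)))))) (XT.nd (nat_lit 468) (nat_lit 2660) (nat_lit 0) (XT.nd (nat_lit 234) (nat_lit 1140) (nat_lit 0) (XT.nd (nat_lit 78) (nat_lit 760) (nat_lit 0) (XT.lf (nat_lit 0) (nat_lit 22288651725) (nat_lit 1216) (nat_lit 37266333416) (nat_lit 1292) (nat_lit 19381737219) (nat_lit 206) (nat_lit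 5) (nat_lit 222) (nat_lit 5) (nat_lit 223) (nat_lit 5) (nat_lit 365) (nat_lit 356) (nat_lit 179)) (XT.nd (nat_lit 78) (nat_lit 760) (nat_lit 0) (XT.lf (nat_lit 76) (nat_lit 27826364984) (nat_lit 0) (nat_lit 3695426132) (nat_lit 1292) (nat_lit 49558113061) (nat_lit 207) (nat_lit 5) (nat_lit 206) (nat_lit 5) (nat_lit 223) (nat_lit 5) (nat_lit 366) (nat_lit 356) (nat_lit 178)) (XT.lf (nat_lit 0) (nat_lit 13361381319) (nat_lit 836) (nat_lit 28898218562) (nat_lit 912) (nat_lit 41039355776) (nat_lit 196) (nat_lit 5) (nat_lit 207) (nat_lit 5) (nat_lit 208) (nat_lit 5) (nat_lit 367) (nat_lit 356) (nat_lit 177)))) (XT.nd (nat_lit 78) (nat_lit 1140) (nat_lit 0) (XT.lf (nat_lit 0) (nat_lit 54409248072) (nat_lit 912) (nat_lit 1521450406) (nat_lit 76) (nat_lit 29672013663) (nat_lit 196) (nat_lit 5) (nat_lit 208) (nat_lit 5) (nat_lit 197) (nat_lit 5) (nat_lit 368) (nat_lit 356) (nat_lit 176)) (XT.nd (nat_lit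 78) (nat_lit 532) (nat_lit 0) (XT.lf (nat_lit 0) (nat_lit 68174983713) (nat_lit 684) (nat_lit 16607354738) (nat_lit 76) (nat_lit 3209060703) (nat_lit 188) (nat_lit 5) (nat_lit 197) (nat_lit 5) (nat_lit 189) (nat_lit 5) (nat_lit 369) (nat_lit 356) (nat_lit 175)) (XT.lf (nat_lit 0) (nat_lit 58034390301) (nat_lit 532) (nat_lit 25731826384) (nat_lit 608) (nat_lit 6699188332) (nat_lit 181) (nat_lit 5) (nat_lit 188) (nat_lit 5) (nat_lit 189) (nat_lit 5) (nat_lit 370) (nat_lit 356) (nat_lit 174))))) (XT.nd (nat_lit 234) (nat_lit 988) (nat_lit 0) (XT.nd (nat_lit 78) (nat_lit 1064) (nat_lit 0) (XT.lf (nat_lit 0) (nat_lit 7890542006) (nat_lit 608) (nat_lit 48903461409) (nat_lit 76) (nat_lit 36238428180) (nat_lit 173) (nat_lit 5) (nat_lit 181) (nat_lit 5) (nat_lit 174) (nat_lit 5) (nat_lit 371) (nat_lit 356) (nat_lit 173)) (XT.nd (nat_lit 78) (nat_lit 532) (nat_lit 0) (XT.lf (nat_lit 0) (nat_lit 24009657581)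 (nat_lit 608) (nat_lit 66029469010) (nat_lit 76) (nat_lit 5658540323) (nat_lit 166) (nat_lit 5) (nat_lit 174) (nat_lit 5) (nat_lit 167) (nat_lit 5) (nat_lit 372) (nat_lit 356) (nat_lit 172)) (XT.lf (nat_lit 0) (nat_lit 14411371000) (nat_lit 532) (nat_lit 27742636393) (nat_lit 608) (nat_lit 56305578938) (nat_lit 159) (nat_lit 5) (nat_lit 166) (nat_lit 5) (nat_lit 167) (nat_lit 5) (nat_lit 373) (nat_lit 356) (nat_lit 171)))) (XT.nd (nat_lit 78) (nat_lit 988) (nat_lit 0) (XT.lf (nat_lit 0) (nat_lit 62253256642) (nat_lit 608) (nat_lit 1454902519) (nat_lit 76) (nat_lit 37620012750) (nat_lit 159) (nat_lit 5) (nat_lit 167) (nat_lit 5) (nat_lit 160) (nat_lit 5) (nat_lit 374) (nat_lit 356) (nat_lit 170)) (XT.nd (nat_lit 78) (nat_lit 532) (nat_lit 0) (XT.lf (nat_lit 0) (nat_lit 84491103836) (nat_lit 532) (nat_lit 17649470515) (nat_lit 76) (nat_lit 2165603975) (nat_lit 153) (nat_lit 5) (nat_lit 160) (nat_lit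 5) (nat_lit 154) (nat_lit 5) (nat_lit 375) (nat_lit 356) (nat_lit 169)) (XT.lf (nat_lit 0) (nat_lit 1767903306) (nat_lit 532) (nat_lit 34866598173) (nat_lit 76) (nat_lit 70757423515) (nat_lit 146) (nat_lit 5) (nat_lit 153) (nat_lit 5) (nat_lit 147) (nat_lit 5) (nat_lit 376) (nat_lit 356) (nat_lit 168))))))) (XT.nd (nat_lit 45864) (nat_lit 0) (nat_lit 2660) (XT.nd (nat_lit 45396) (nat_lit 0) (nat_lit 6080) (XT.nd (nat_lit 156) (nat_lit 760) (nat_lit 0) (XT.nd (nat_lit 78) (nat_lit 456) (nat_lit 0) (XT.lf (nat_lit 0) (nat_lit 25081429515) (nat_lit 532) (nat_lit 53044205769) (nat_lit 76) (nat_lit 32468602422) (nat_lit 140) (nat_lit 5) (nat_lit 147) (nat_lit 5) (nat_lit 141) (nat_lit 5) (nat_lit 377) (nat_lit 356) (nat_lit 167)) (XT.lf (nat_lit 0) (nat_lit 41811909196) (nat_lit 456) (nat_lit 8882141097) (nat_lit 532) (nat_lit 63228613732) (nat_lit 134) (nat_lit 5) (nat_lit 140) (nat_lit 5) (nat_lit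 141) (nat_lit 5) (nat_lit 378) (nat_lit 356) (nat_lit 166))) (XT.nd (nat_lit 78) (nat_lit 380) (nat_lit 0) (XT.lf (nat_lit 0) (nat_lit 24985939093) (nat_lit 380) (nat_lit 54005790342) (nat_lit 456) (nat_lit 38383649902) (nat_lit 129) (nat_lit 5) (nat_lit 134) (nat_lit 5) (nat_lit 135) (nat_lit 5) (nat_lit 379) (nat_lit 356) (nat_lit 165)) (XT.nd (nat_lit 45084) (nat_lit 0) (nat_lit 6992) (XT.lf (nat_lit 0) (nat_lit 7338583901) (nat_lit 380) (nat_lit 102447535669) (nat_lit 456) (nat_lit 11182156505) (nat_lit 124) (nat_lit 5) (nat_lit 129) (nat_lit 5) (nat_lit 130) (nat_lit 5) (nat_lit 380) (nat_lit 356) (nat_lit 164)) (XT.lf (nat_lit 0) (nat_lit 13454631284) (nat_lit 0) (nat_lit 13454631284) (nat_lit 1140) (nat_lit 6027991479) (nat_lit 216) (nat_lit 5) (nat_lit 216) (nat_lit 3) (nat_lit 231) (nat_lit 3) (nat_lit 357) (nat_lit 357) (nat_lit 186))))) (XT.nd (nat_lit 234) (nat_lit 912) (nat_lit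 0) (XT.nd (nat_lit 78) (nat_lit 0) (nat_lit 76) (XT.lf (nat_lit 76) (nat_lit 11979510018) (nat_lit 0) (nat_lit 43557206173) (nat_lit 1216) (nat_lit 11973451389) (nat_lit 217) (nat_lit 5) (nat_lit 216) (nat_lit 5) (nat_lit 232) (nat_lit 5) (nat_lit 358) (nat_lit 357) (nat_lit 185)) (XT.nd (nat_lit 78) (nat_lit 0) (nat_lit 0) (XT.lf (nat_lit 0) (nat_lit 58086227182) (nat_lit 1140) (nat_lit 3276522519) (nat_lit 1216) (nat_lit 7842499392) (nat_lit 217) (nat_lit 5) (nat_lit 232) (nat_lit 5) (nat_lit 233) (nat_lit 5) (nat_lit 359) (nat_lit 357) (nat_lit 184)) (XT.lf (nat_lit 76) (nat_lit 52167821543) (nat_lit 0) (nat_lit 9535045143) (nat_lit 1216) (nat_lit 9254029709) (nat_lit 218) (nat_lit 5) (nat_lit 217) (nat_lit 5) (nat_lit 233) (nat_lit 5) (nat_lit 360) (nat_lit 357) (nat_lit 183)))) (XT.nd (nat_lit 78) (nat_lit 1064) (nat_lit 0) (XT.lf (nat_lit 76) (nat_lit 37965933086) (nat_lit 0) (nat_lit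 28363489684) (nat_lit 1216) (nat_lit 6441831998) (nat_lit 219) (nat_lit 5) (nat_lit 218) (nat_lit 5) (nat_lit 234) (nat_lit 5) (nat_lit 361) (nat_lit 357) (nat_lit 182)) (XT.nd (nat_lit 78) (nat_lit 1140) (nat_lit 0) (XT.lf (nat_lit 76) (nat_lit 23387431913) (nat_lit 0) (nat_lit 48565634738) (nat_lit 1216) (nat_lit 2700292789) (nat_lit 220) (nat_lit 5) (nat_lit 219) (nat_lit 5) (nat_lit 235) (nat_lit 5) (nat_lit 362) (nat_lit 357) (nat_lit 181)) (XT.lf (nat_lit 0) (nat_lit 1995278029) (nat_lit 1216) (nat_lit 68209218279) (nat_lit 1292) (nat_lit 6400992200) (nat_lit 204) (nat_lit 5) (nat_lit 220) (nat_lit 5) (nat_lit 221) (nat_lit 5) (nat_lit 363) (nat_lit 357) (nat_lit 180)))))) (XT.nd (nat_lit 468) (nat_lit 2812) (nat_lit 0) (XT.nd (nat_lit 234) (nat_lit 608) (nat_lit 0) (XT.nd (nat_lit 78) (nat_lit 0) (nat_lit 76) (XT.lf (nat_lit 0) (nat_lit 7892224074) (nat_lit 1216) (nat_lit 7050079311)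 (nat_lit 1292) (nat_lit 63681446333) (nat_lit 204) (nat_lit 5) (nat_lit 220) (nat_lit 5) (nat_lit 221) (nat_lit 5) (nat_lit 364) (nat_lit 357) (nat_lit 179)) (XT.nd (nat_lit 78) (nat_lit 0) (nat_lit 76) (XT.lf (nat_lit 0) (nat_lit 15062996639) (nat_lit 1216) (nat_lit 22841967914) (nat_lit 1292) (nat_lit 42808591049) (nat_lit 205) (nat_lit 5) (nat_lit 221) (nat_lit 5) (nat_lit 222) (nat_lit 5) (nat_lit 365) (nat_lit 357) (nat_lit 178)) (XT.lf (nat_lit 0) (nat_lit 23437581048) (nat_lit 1216) (nat_lit 39101007243) (nat_lit 1292) (nat_lit 20343906237) (nat_lit 206) (nat_lit 5) (nat_lit 222) (nat_lit 5) (nat_lit 223) (nat_lit 5) (nat_lit 366) (nat_lit 357) (nat_lit 177)))) (XT.nd (nat_lit 78) (nat_lit 760) (nat_lit 0) (XT.lf (nat_lit 76) (nat_lit 29245505035) (nat_lit 0) (nat_lit 3885497112) (nat_lit 1292) (nat_lit 52001875931) (nat_lit 207) (nat_lit 5) (nat_lit 206) (nat_lit 5) (nat_lit 223) (nat_lit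 5) (nat_lit 367) (nat_lit 357) (nat_lit 176)) (XT.nd (nat_lit 78) (nat_lit 0) (nat_lit 0) (XT.lf (nat_lit 0) (nat_lit 14057516197) (nat_lit 836) (nat_lit 30346829208) (nat_lit 912) (nat_lit 43058578722) (nat_lit 196) (nat_lit 5) (nat_lit 207) (nat_lit 5) (nat_lit 208) (nat_lit 5) (nat_lit 368) (nat_lit 357) (nat_lit 175)) (XT.lf (nat_lit 0) (nat_lit 57159929491) (nat_lit 912) (nat_lit 1569827032) (nat_lit 76) (nat_lit 31152159562) (nat_lit 196) (nat_lit 5) (nat_lit 208) (nat_lit 5) (nat_lit 197) (nat_lit 5) (nat_lit 369) (nat_lit 357) (nat_lit 174))))) (XT.nd (nat_lit 234) (nat_lit 1064) (nat_lit 0) (XT.nd (nat_lit 78) (nat_lit 1140) (nat_lit 0) (XT.lf (nat_lit 0) (nat_lit 71612750973) (nat_lit 684) (nat_lit 17409904885) (nat_lit 76) (nat_lit 3367418814) (nat_lit 188) (nat_lit 5) (nat_lit 197) (nat_lit 5) (nat_lit 189) (nat_lit 5) (nat_lit 370) (nat_lit 357) (nat_lit 173)) (XT.nd (nat_lit 78)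 (nat_lit 608) (nat_lit 0) (XT.lf (nat_lit 0) (nat_lit 60963130021) (nat_lit 532) (nat_lit 27019293494) (nat_lit 608) (nat_lit 7005392114) (nat_lit 181) (nat_lit 5) (nat_lit 188) (nat_lit 5) (nat_lit 189) (nat_lit 5) (nat_lit 371) (nat_lit 357) (nat_lit 172)) (XT.lf (nat_lit 0) (nat_lit 8312175895) (nat_lit 608) (nat_lit 51320985106) (nat_lit 76) (nat_lit 38050057925) (nat_lit 173) (nat_lit 5) (nat_lit 181) (nat_lit 5) (nat_lit 174) (nat_lit 5) (nat_lit 372) (nat_lit 357) (nat_lit 171)))) (XT.nd (nat_lit 78) (nat_lit 532) (nat_lit 0) (XT.lf (nat_lit 0) (nat_lit 25236222137) (nat_lit 608) (nat_lit 69303290907) (nat_lit 76) (nat_lit 5942234723) (nat_lit 166) (nat_lit 5) (nat_lit 174) (nat_lit 5) (nat_lit 167) (nat_lit 5) (nat_lit 373) (nat_lit 357) (nat_lit 170)) (XT.nd (nat_lit 78) (nat_lit 0) (nat_lit 0) (XT.lf (nat_lit 0) (nat_lit 15158798477) (nat_lit 532) (nat_lit 29128007163) (nat_lit 608)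 (nat_lit 59094987984) (nat_lit 159) (nat_lit 5) (nat_lit 166) (nat_lit 5) (nat_lit 167) (nat_lit 5) (nat_lit 374) (nat_lit 357) (nat_lit 169)) (XT.lf (nat_lit 0) (nat_lit 65389838336) (nat_lit 608) (nat_lit 1501348575) (nat_lit 76) (nat_lit 39502657851) (nat_lit 159) (nat_lit 5) (nat_lit 167) (nat_lit 5) (nat_lit 160) (nat_lit 5) (nat_lit 375) (nat_lit 357) (nat_lit 168))))))))
noncomputable def xc124 : XT := (XT.nd (nat_lit 46800) (nat_lit 0) (nat_lit 380) (XT.nd (nat_lit 45942) (nat_lit 0) (nat_lit 2812) (XT.nd (nat_lit 45474) (nat_lit 0) (nat_lit 6612) (XT.nd (nat_lit 156) (nat_lit 1292) (nat_lit 0) (XT.nd (nat_lit 78) (nat_lit 532) (nat_lit 0) (XT.lf (nat_lit 0) (nat_lit 88738708675) (nat_lit 532) (nat_lit 18505714974) (nat_lit 76) (nat_lit 2276354791) (nat_lit 153) (nat_lit 5) (nat_lit 160) (nat_lit 5) (nat_lit 154) (nat_lit 5) (nat_lit 376) (nat_lit 357) (nat_lit 167)) (XT.lf (nat_lit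 0) (nat_lit 1878731357) (nat_lit 532) (nat_lit 36583988399) (nat_lit 76) (nat_lit 74298112493) (nat_lit 146) (nat_lit 5) (nat_lit 153) (nat_lit 5) (nat_lit 147) (nat_lit 5) (nat_lit 377) (nat_lit 357) (nat_lit 166))) (XT.nd (nat_lit 78) (nat_lit 836) (nat_lit 0) (XT.lf (nat_lit 0) (nat_lit 26357142347) (nat_lit 532) (nat_lit 55670590982) (nat_lit 76) (nat_lit 34095551776) (nat_lit 140) (nat_lit 5) (nat_lit 147) (nat_lit 5) (nat_lit 141) (nat_lit 5) (nat_lit 378) (nat_lit 357) (nat_lit 165)) (XT.nd (nat_lit 78) (nat_lit 380) (nat_lit 0) (XT.lf (nat_lit 0) (nat_lit 43927589462) (nat_lit 456) (nat_lit 9322015293) (nat_lit 532) (nat_lit 66368552394) (nat_lit 134) (nat_lit 5) (nat_lit 140) (nat_lit 5) (nat_lit 141) (nat_lit 5) (nat_lit 379) (nat_lit 357) (nat_lit 164)) (XT.lf (nat_lit 0) (nat_lit 26260184010) (nat_lit 380) (nat_lit 56701269458) (nat_lit 456) (nat_lit 40282076880) (nat_lit 129) (nat_lit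 5) (nat_lit 134) (nat_lit 5) (nat_lit 135) (nat_lit 5) (nat_lit 380) (nat_lit 357) (nat_lit 163))))) (XT.nd (nat_lit 234) (nat_lit 0) (nat_lit 76) (XT.nd (nat_lit 78) (nat_lit 0) (nat_lit 0) (XT.lf (nat_lit 0) (nat_lit 14139111290) (nat_lit 0) (nat_lit 14139111290) (nat_lit 1140) (nat_lit 6305168214) (nat_lit 216) (nat_lit 5) (nat_lit 216) (nat_lit 3) (nat_lit 231) (nat_lit 3) (nat_lit 358) (nat_lit 358) (nat_lit 184)) (XT.nd (nat_lit 78) (nat_lit 0) (nat_lit 76) (XT.lf (nat_lit 76) (nat_lit 12602938554) (nat_lit 0) (nat_lit 45755389361) (nat_lit 1216) (nat_lit 12525964672) (nat_lit 217) (nat_lit 5) (nat_lit 216) (nat_lit 5) (nat_lit 232) (nat_lit 5) (nat_lit 359) (nat_lit 358) (nat_lit 183)) (XT.lf (nat_lit 0) (nat_lit 61032996216) (nat_lit 1140) (nat_lit 3415556490) (nat_lit 1216) (nat_lit 8215646925) (nat_lit 217) (nat_lit 5) (nat_lit 232) (nat_lit 5) (nat_lit 233) (nat_lit 5) (nat_lit 360)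 (nat_lit 358) (nat_lit 182)))) (XT.nd (nat_lit 78) (nat_lit 0) (nat_lit 76) (XT.lf (nat_lit 76) (nat_lit 54800294113) (nat_lit 0) (nat_lit 10028383275) (nat_lit 1216) (nat_lit 9674807440) (nat_lit 218) (nat_lit 5) (nat_lit 217) (nat_lit 5) (nat_lit 233) (nat_lit 5) (nat_lit 361) (nat_lit 358) (nat_lit 181)) (XT.nd (nat_lit 78) (nat_lit 0) (nat_lit 76) (XT.lf (nat_lit 76) (nat_lit 39888996178) (nat_lit 0) (nat_lit 29795714785) (nat_lit 1216) (nat_lit 6723907396) (nat_lit 219) (nat_lit 5) (nat_lit 218) (nat_lit 5) (nat_lit 234) (nat_lit 5) (nat_lit 362) (nat_lit 358) (nat_lit 180)) (XT.lf (nat_lit 76) (nat_lit 24582155986) (nat_lit 0) (nat_lit 51005647693) (nat_lit 1216) (nat_lit 2797078237) (nat_lit 220) (nat_lit 5) (nat_lit 219) (nat_lit 5) (nat_lit 235) (nat_lit 5) (nat_lit 363) (nat_lit 358) (nat_lit 179)))))) (XT.nd (nat_lit 390) (nat_lit 2888) (nat_lit 0) (XT.nd (nat_lit 156) (nat_lit 0)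 (nat_lit 76) (XT.nd (nat_lit 78) (nat_lit 0) (nat_lit 0) (XT.lf (nat_lit 0) (nat_lit 2130882684) (nat_lit 1216) (nat_lit 71593087442) (nat_lit 1292) (nat_lit 6710687086) (nat_lit 204) (nat_lit 5) (nat_lit 220) (nat_lit 5) (nat_lit 221) (nat_lit 5) (nat_lit 364) (nat_lit 358) (nat_lit 178)) (XT.lf (nat_lit 0) (nat_lit 8320969329) (nat_lit 1216) (nat_lit 7377257799) (nat_lit 1292) (nat_lit 66855657007) (nat_lit 204) (nat_lit 5) (nat_lit 220) (nat_lit 5) (nat_lit 221) (nat_lit 5) (nat_lit 365) (nat_lit 358) (nat_lit 177))) (XT.nd (nat_lit 78) (nat_lit 0) (nat_lit 76) (XT.lf (nat_lit 0) (nat_lit 15848813257) (nat_lit 1216) (nat_lit 23958378465) (nat_lit 1292) (nat_lit 44941033992) (nat_lit 205) (nat_lit 5) (nat_lit 221) (nat_lit 5) (nat_lit 222) (nat_lit 5) (nat_lit 366) (nat_lit 358) (nat_lit 176)) (XT.nd (nat_lit 78) (nat_lit 0) (nat_lit 0) (XT.lf (nat_lit 0) (nat_lit 24640749658) (nat_lit 1216)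 (nat_lit 41030077702) (nat_lit 1292) (nat_lit 21354826862) (nat_lit 206) (nat_lit 5) (nat_lit 222) (nat_lit 5) (nat_lit 223) (nat_lit 5) (nat_lit 367) (nat_lit 358) (nat_lit 175)) (XT.lf (nat_lit 76) (nat_lit 30733015482) (nat_lit 0) (nat_lit 4084578927) (nat_lit 1292) (nat_lit 54571001216) (nat_lit 207) (nat_lit 5) (nat_lit 206) (nat_lit 5) (nat_lit 223) (nat_lit 5) (nat_lit 368) (nat_lit 358) (nat_lit 174))))) (XT.nd (nat_lit 234) (nat_lit 1672) (nat_lit 0) (XT.nd (nat_lit 78) (nat_lit 608) (nat_lit 0) (XT.lf (nat_lit 0) (nat_lit 14785848525) (nat_lit 836) (nat_lit 31867526422) (nat_lit 912) (nat_lit 45181807121) (nat_lit 196) (nat_lit 5) (nat_lit 207) (nat_lit 5) (nat_lit 208) (nat_lit 5) (nat_lit 369) (nat_lit 358) (nat_lit 173)) (XT.nd (nat_lit 78) (nat_lit 608) (nat_lit 0) (XT.lf (nat_lit 0) (nat_lit 60045335503) (nat_lit 912) (nat_lit 1623197392) (nat_lit 76) (nat_lit 32706633949) (nat_lit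 196) (nat_lit 5) (nat_lit 208) (nat_lit 5) (nat_lit 197) (nat_lit 5) (nat_lit 370) (nat_lit 358) (nat_lit 172)) (XT.lf (nat_lit 0) (nat_lit 75219708771) (nat_lit 684) (nat_lit 18255168754) (nat_lit 76) (nat_lit 3533889598) (nat_lit 188) (nat_lit 5) (nat_lit 197) (nat_lit 5) (nat_lit 189) (nat_lit 5) (nat_lit 371) (nat_lit 358) (nat_lit 171)))) (XT.nd (nat_lit 78) (nat_lit 1140) (nat_lit 0) (XT.lf (nat_lit 0) (nat_lit 64035794645) (nat_lit 532) (nat_lit 28371052537) (nat_lit 608) (nat_lit 7329579510) (nat_lit 181) (nat_lit 5) (nat_lit 188) (nat_lit 5) (nat_lit 189) (nat_lit 5) (nat_lit 372) (nat_lit 358) (nat_lit 170)) (XT.nd (nat_lit 78) (nat_lit 532) (nat_lit 0) (XT.lf (nat_lit 0) (nat_lit 8752371347) (nat_lit 608) (nat_lit 53861955564) (nat_lit 76) (nat_lit 39952296274) (nat_lit 173) (nat_lit 5) (nat_lit 181) (nat_lit 5) (nat_lit 174) (nat_lit 5) (nat_lit 373) (nat_lit 358) (nat_lit 169))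 (XT.lf (nat_lit 0) (nat_lit 26521690094) (nat_lit 608) (nat_lit 72743374679) (nat_lit 76) (nat_lit 6240042499) (nat_lit 166) (nat_lit 5) (nat_lit 174) (nat_lit 5) (nat_lit 167) (nat_lit 5) (nat_lit 374) (nat_lit 358) (nat_lit 168))))))) (XT.nd (nat_lit 46020) (nat_lit 0) (nat_lit 2432) (XT.nd (nat_lit 390) (nat_lit 456) (nat_lit 0) (XT.nd (nat_lit 156) (nat_lit 1444) (nat_lit 0) (XT.nd (nat_lit 78) (nat_lit 0) (nat_lit 0) (XT.lf (nat_lit 0) (nat_lit 15941100240) (nat_lit 532) (nat_lit 30582810196) (nat_lit 608) (nat_lit 62026272620) (nat_lit 159) (nat_lit 5) (nat_lit 166) (nat_lit 5) (nat_lit 167) (nat_lit 5) (nat_lit 375) (nat_lit 358) (nat_lit 167)) (XT.lf (nat_lit 0) (nat_lit 68681025366) (nat_lit 608) (nat_lit 1552561973) (nat_lit 76) (nat_lit 41479282319) (nat_lit 159) (nat_lit 5) (nat_lit 167) (nat_lit 5) (nat_lit 160) (nat_lit 5) (nat_lit 376) (nat_lit 358) (nat_lit 166))) (XT.nd (nat_lit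 78) (nat_lit 988) (nat_lit 0) (XT.lf (nat_lit 0) (nat_lit 93196550818) (nat_lit 532) (nat_lit 19407210187) (nat_lit 76) (nat_lit 2392413453) (nat_lit 153) (nat_lit 5) (nat_lit 160) (nat_lit 5) (nat_lit 154) (nat_lit 5) (nat_lit 377) (nat_lit 358) (nat_lit 165)) (XT.nd (nat_lit 78) (nat_lit 456) (nat_lit 0) (XT.lf (nat_lit 0) (nat_lit 1993015214) (nat_lit 532) (nat_lit 38389659763) (nat_lit 76) (nat_lit 78015573946) (nat_lit 146) (nat_lit 5) (nat_lit 153) (nat_lit 5) (nat_lit 147) (nat_lit 5) (nat_lit 378) (nat_lit 358) (nat_lit 164)) (XT.lf (nat_lit 0) (nat_lit 27694628812) (nat_lit 532) (nat_lit 58430696426) (nat_lit 76) (nat_lit 35803521413) (nat_lit 140) (nat_lit 5) (nat_lit 147) (nat_lit 5) (nat_lit 141) (nat_lit 5) (nat_lit 379) (nat_lit 358) (nat_lit 163))))) (XT.nd (nat_lit 45396) (nat_lit 0) (nat_lit 6308) (XT.nd (nat_lit 45240) (nat_lit 0) (nat_lit 6232) (XT.lf (nat_lit 0) (nat_lit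 46146721593) (nat_lit 456) (nat_lit 9784276729) (nat_lit 532) (nat_lit 69667486114) (nat_lit 134) (nat_lit 5) (nat_lit 140) (nat_lit 5) (nat_lit 141) (nat_lit 5) (nat_lit 380) (nat_lit 358) (nat_lit 162)) (XT.nd (nat_lit 78) (nat_lit 0) (nat_lit 0) (XT.lf (nat_lit 0) (nat_lit 14856723038) (nat_lit 0) (nat_lit 14856723038) (nat_lit 1140) (nat_lit 6598455795) (nat_lit 216) (nat_lit 5) (nat_lit 216) (nat_lit 3) (nat_lit 231) (nat_lit 3) (nat_lit 359) (nat_lit 359) (nat_lit 182)) (XT.lf (nat_lit 76) (nat_lit 13255265105) (nat_lit 0) (nat_lit 48061592281) (nat_lit 1216) (nat_lit 13110395072) (nat_lit 217) (nat_lit 5) (nat_lit 216) (nat_lit 5) (nat_lit 232) (nat_lit 5) (nat_lit 360) (nat_lit 359) (nat_lit 181)))) (XT.nd (nat_lit 78) (nat_lit 0) (nat_lit 0) (XT.lf (nat_lit 0) (nat_lit 64123156390) (nat_lit 1140) (nat_lit 3563847100) (nat_lit 1216) (nat_lit 8609216178) (nat_lit 217) (nat_lit 5) (nat_lit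 232) (nat_lit 5) (nat_lit 233) (nat_lit 5) (nat_lit 361) (nat_lit 359) (nat_lit 180)) (XT.nd (nat_lit 78) (nat_lit 0) (nat_lit 76) (XT.lf (nat_lit 76) (nat_lit 57562151442) (nat_lit 0) (nat_lit 10544846316) (nat_lit 1216) (nat_lit 10120521730) (nat_lit 218) (nat_lit 5) (nat_lit 217) (nat_lit 5) (nat_lit 233) (nat_lit 5) (nat_lit 362) (nat_lit 359) (nat_lit 179)) (XT.lf (nat_lit 76) (nat_lit 41905909877) (nat_lit 0) (nat_lit 31298244847) (nat_lit 1216) (nat_lit 7023806892) (nat_lit 219) (nat_lit 5) (nat_lit 218) (nat_lit 5) (nat_lit 234) (nat_lit 5) (nat_lit 363) (nat_lit 359) (nat_lit 178)))))) (XT.nd (nat_lit 468) (nat_lit 2888) (nat_lit 0) (XT.nd (nat_lit 234) (nat_lit 0) (nat_lit 76) (XT.nd (nat_lit 78) (nat_lit 1140) (nat_lit 0) (XT.lf (nat_lit 76) (nat_lit 25834259230) (nat_lit 0) (nat_lit 53566570638) (nat_lit 1216) (nat_lit 2902257144) (nat_lit 220) (nat_lit 5) (nat_lit 219) (nat_lit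 5) (nat_lit 235) (nat_lit 5) (nat_lit 364) (nat_lit 359) (nat_lit 177)) (XT.nd (nat_lit 78) (nat_lit 0) (nat_lit 0) (XT.lf (nat_lit 0) (nat_lit 2269935438) (nat_lit 1216) (nat_lit 75148622311) (nat_lit 1292) (nat_lit 7036829400) (nat_lit 204) (nat_lit 5) (nat_lit 220) (nat_lit 5) (nat_lit 221) (nat_lit 5) (nat_lit 365) (nat_lit 359) (nat_lit 176)) (XT.lf (nat_lit 0) (nat_lit 8767978386) (nat_lit 1216) (nat_lit 7723149734) (nat_lit 1292) (nat_lit 70189495057) (nat_lit 204) (nat_lit 5) (nat_lit 220) (nat_lit 5) (nat_lit 221) (nat_lit 5) (nat_lit 366) (nat_lit 359) (nat_lit 175)))) (XT.nd (nat_lit 78) (nat_lit 0) (nat_lit 76) (XT.lf (nat_lit 0) (nat_lit 16670883657) (nat_lit 1216) (nat_lit 25132997757) (nat_lit 1292) (nat_lit 47180841602) (nat_lit 205) (nat_lit 5) (nat_lit 221) (nat_lit 5) (nat_lit 222) (nat_lit 5) (nat_lit 367) (nat_lit 359) (nat_lit 174)) (XT.nd (nat_lit 78) (nat_lit 0) (nat_lit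 0) (XT.lf (nat_lit 0) (nat_lit 25901167691) (nat_lit 1216) (nat_lit 43058017050) (nat_lit 1292) (nat_lit 22416876878) (nat_lit 206) (nat_lit 5) (nat_lit 222) (nat_lit 5) (nat_lit 223) (nat_lit 5) (nat_lit 368) (nat_lit 359) (nat_lit 173)) (XT.lf (nat_lit 76) (nat_lit 32292555321) (nat_lit 0) (nat_lit 4293167928) (nat_lit 1292) (nat_lit 57271461925) (nat_lit 207) (nat_lit 5) (nat_lit 206) (nat_lit 5) (nat_lit 223) (nat_lit 5) (nat_lit 369) (nat_lit 359) (nat_lit 172))))) (XT.nd (nat_lit 234) (nat_lit 1672) (nat_lit 0) (XT.nd (nat_lit 78) (nat_lit 608) (nat_lit 0) (XT.lf (nat_lit 0) (nat_lit 15548230764) (nat_lit 836) (nat_lit 33463946510) (nat_lit 912) (nat_lit 47413958214) (nat_lit 196) (nat_lit 5) (nat_lit 207) (nat_lit 5) (nat_lit 208) (nat_lit 5) (nat_lit 370) (nat_lit 359) (nat_lit 171)) (XT.nd (nat_lit 78) (nat_lit 608) (nat_lit 0) (XT.lf (nat_lit 0) (nat_lit 63072463537) (nat_lit 912)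 (nat_lit 1681571781) (nat_lit 76) (nat_lit 34339123387) (nat_lit 196) (nat_lit 5) (nat_lit 208) (nat_lit 5) (nat_lit 197) (nat_lit 5) (nat_lit 371) (nat_lit 359) (nat_lit 170)) (XT.lf (nat_lit 0) (nat_lit 79004567451) (nat_lit 684) (nat_lit 19145041591) (nat_lit 76) (nat_lit 3708860579) (nat_lit 188) (nat_lit 5) (nat_lit 197) (nat_lit 5) (nat_lit 189) (nat_lit 5) (nat_lit 372) (nat_lit 359) (nat_lit 169)))) (XT.nd (nat_lit 78) (nat_lit 1140) (nat_lit 0) (XT.lf (nat_lit 0) (nat_lit 67259813967) (nat_lit 532) (nat_lit 29790325680) (nat_lit 608) (nat_lit 7672401154) (nat_lit 181) (nat_lit 5) (nat_lit 188) (nat_lit 5) (nat_lit 189) (nat_lit 5) (nat_lit 373) (nat_lit 359) (nat_lit 168)) (XT.nd (nat_lit 78) (nat_lit 532) (nat_lit 0) (XT.lf (nat_lit 0) (nat_lit 9212290737) (nat_lit 608) (nat_lit 56532306134) (nat_lit 76) (nat_lit 41949671136) (nat_lit 173) (nat_lit 5) (nat_lit 181) (nat_lit 5) (nat_lit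 174) (nat_lit 5) (nat_lit 374) (nat_lit 359) (nat_lit 167)) (XT.lf (nat_lit 0) (nat_lit 27869232060) (nat_lit 608) (nat_lit 76357794411) (nat_lit 76) (nat_lit 6552675952) (nat_lit 166) (nat_lit 5) (nat_lit 174) (nat_lit 5) (nat_lit 167) (nat_lit 5) (nat_lit 375) (nat_lit 359) (nat_lit 166))))))))
noncomputable def xc125 : XT := (XT.nd (nat_lit 47112) (nat_lit 0) (nat_lit 532) (XT.nd (nat_lit 46176) (nat_lit 0) (nat_lit 988) (XT.nd (nat_lit 45708) (nat_lit 0) (nat_lit 4408) (XT.nd (nat_lit 156) (nat_lit 988) (nat_lit 0) (XT.nd (nat_lit 78) (nat_lit 0) (nat_lit 0) (XT.lf (nat_lit 0) (nat_lit 16760252158) (nat_lit 532) (nat_lit 32110501886) (nat_lit 608) (nat_lit 65106303019) (nat_lit 159) (nat_lit 5) (nat_lit 166) (nat_lit 5) (nat_lit 167) (nat_lit 5) (nat_lit 376) (nat_lit 359) (nat_lit 165)) (XT.lf (nat_lit 0) (nat_lit 72134754742) (nat_lit 608) (nat_lit 1608553762) (nat_lit 76) (nat_lit 43554599339)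 (nat_lit 159) (nat_lit 5) (nat_lit 167) (nat_lit 5) (nat_lit 160) (nat_lit 5) (nat_lit 377) (nat_lit 359) (nat_lit 164))) (XT.nd (nat_lit 78) (nat_lit 532) (nat_lit 0) (XT.lf (nat_lit 0) (nat_lit 97875341360) (nat_lit 532) (nat_lit 20355991979) (nat_lit 76) (nat_lit 2514066709) (nat_lit 153) (nat_lit 5) (nat_lit 160) (nat_lit 5) (nat_lit 154) (nat_lit 5) (nat_lit 378) (nat_lit 359) (nat_lit 163)) (XT.nd (nat_lit 45396) (nat_lit 0) (nat_lit 5320) (XT.lf (nat_lit 0) (nat_lit 2111121565) (nat_lit 532) (nat_lit 40287802110) (nat_lit 76) (nat_lit 81918670856) (nat_lit 146) (nat_lit 5) (nat_lit 153) (nat_lit 5) (nat_lit 147) (nat_lit 5) (nat_lit 379) (nat_lit 359) (nat_lit 162)) (XT.lf (nat_lit 0) (nat_lit 15609224662) (nat_lit 0) (nat_lit 15609224662) (nat_lit 1140) (nat_lit 6908450395) (nat_lit 216) (nat_lit 5) (nat_lit 216) (nat_lit 3) (nat_lit 231) (nat_lit 3) (nat_lit 360) (nat_lit 360) (nat_lit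 180))))) (XT.nd (nat_lit 234) (nat_lit 912) (nat_lit 0) (XT.nd (nat_lit 78) (nat_lit 0) (nat_lit 76) (XT.lf (nat_lit 76) (nat_lit 13938145933) (nat_lit 0) (nat_lit 50481391579) (nat_lit 1216) (nat_lit 13727939466) (nat_lit 217) (nat_lit 5) (nat_lit 216) (nat_lit 5) (nat_lit 232) (nat_lit 5) (nat_lit 361) (nat_lit 360) (nat_lit 179)) (XT.nd (nat_lit 78) (nat_lit 0) (nat_lit 0) (XT.lf (nat_lit 0) (nat_lit 67364244244) (nat_lit 1140) (nat_lit 3721642887) (nat_lit 1216) (nat_lit 9024064204) (nat_lit 217) (nat_lit 5) (nat_lit 232) (nat_lit 5) (nat_lit 233) (nat_lit 5) (nat_lit 362) (nat_lit 360) (nat_lit 178)) (XT.lf (nat_lit 76) (nat_lit 60460070918) (nat_lit 0) (nat_lit 11085733872) (nat_lit 1216) (nat_lit 10592057040) (nat_lit 218) (nat_lit 5) (nat_lit 217) (nat_lit 5) (nat_lit 233) (nat_lit 5) (nat_lit 363) (nat_lit 360) (nat_lit 177)))) (XT.nd (nat_lit 78) (nat_lit 1064) (nat_lit 0) (XT.lf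 (nat_lit 76) (nat_lit 44021580781) (nat_lit 0) (nat_lit 32874716567) (nat_lit 1216) (nat_lit 7342075809) (nat_lit 219) (nat_lit 5) (nat_lit 218) (nat_lit 5) (nat_lit 234) (nat_lit 5) (nat_lit 364) (nat_lit 360) (nat_lit 176)) (XT.nd (nat_lit 78) (nat_lit 1140) (nat_lit 0) (XT.lf (nat_lit 76) (nat_lit 27146829738) (nat_lit 0) (nat_lit 56254550472) (nat_lit 1216) (nat_lit 3015918751) (nat_lit 220) (nat_lit 5) (nat_lit 219) (nat_lit 5) (nat_lit 235) (nat_lit 5) (nat_lit 365) (nat_lit 360) (nat_lit 175)) (XT.lf (nat_lit 0) (nat_lit 2412918487) (nat_lit 1216) (nat_lit 78884176327) (nat_lit 1292) (nat_lit 7380152012) (nat_lit 204) (nat_lit 5) (nat_lit 220) (nat_lit 5) (nat_lit 221) (nat_lit 5) (nat_lit 366) (nat_lit 360) (nat_lit 174)))))) (XT.nd (nat_lit 468) (nat_lit 2812) (nat_lit 0) (XT.nd (nat_lit 234) (nat_lit 608) (nat_lit 0) (XT.nd (nat_lit 78) (nat_lit 0) (nat_lit 76) (XT.lf (nat_lit 0)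 (nat_lit 9234459473) (nat_lit 1216) (nat_lit 8088471888) (nat_lit 1292) (nat_lit 73690856612) (nat_lit 204) (nat_lit 5) (nat_lit 220) (nat_lit 5) (nat_lit 221) (nat_lit 5) (nat_lit 367) (nat_lit 360) (nat_lit 173)) (XT.nd (nat_lit 78) (nat_lit 0) (nat_lit 76) (XT.lf (nat_lit 0) (nat_lit 17531302885) (nat_lit 1216) (nat_lit 26368514191) (nat_lit 1292) (nat_lit 49533313080) (nat_lit 205) (nat_lit 5) (nat_lit 221) (nat_lit 5) (nat_lit 222) (nat_lit 5) (nat_lit 368) (nat_lit 360) (nat_lit 172)) (XT.lf (nat_lit 0) (nat_lit 27221968072) (nat_lit 1216) (nat_lit 45189544171) (nat_lit 1292) (nat_lit 23532558521) (nat_lit 206) (nat_lit 5) (nat_lit 222) (nat_lit 5) (nat_lit 223) (nat_lit 5) (nat_lit 369) (nat_lit 360) (nat_lit 171)))) (XT.nd (nat_lit 78) (nat_lit 760) (nat_lit 0) (XT.lf (nat_lit 76) (nat_lit 33927944144) (nat_lit 0) (nat_lit 4511781022) (nat_lit 1292) (nat_lit 60109557150) (nat_lit 207)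 (nat_lit 5) (nat_lit 206) (nat_lit 5) (nat_lit 223) (nat_lit 5) (nat_lit 370) (nat_lit 360) (nat_lit 170)) (XT.nd (nat_lit 78) (nat_lit 0) (nat_lit 0) (XT.lf (nat_lit 0) (nat_lit 16346585443) (nat_lit 836) (nat_lit 35139904623) (nat_lit 912) (nat_lit 49760221419) (nat_lit 196) (nat_lit 5) (nat_lit 207) (nat_lit 5) (nat_lit 208) (nat_lit 5) (nat_lit 371) (nat_lit 360) (nat_lit 169)) (XT.lf (nat_lit 0) (nat_lit 66248636608) (nat_lit 912) (nat_lit 1744983268) (nat_lit 76) (nat_lit 36053501543) (nat_lit 196) (nat_lit 5) (nat_lit 208) (nat_lit 5) (nat_lit 197) (nat_lit 5) (nat_lit 372) (nat_lit 360) (nat_lit 168))))) (XT.nd (nat_lit 234) (nat_lit 1064) (nat_lit 0) (XT.nd (nat_lit 78) (nat_lit 1140) (nat_lit 0) (XT.lf (nat_lit 0) (nat_lit 82976449557) (nat_lit 684) (nat_lit 20081535757) (nat_lit 76) (nat_lit 3892740344) (nat_lit 188) (nat_lit 5) (nat_lit 197) (nat_lit 5) (nat_lit 189) (nat_lit 5)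 (nat_lit 373) (nat_lit 360) (nat_lit 167)) (XT.nd (nat_lit 78) (nat_lit 608) (nat_lit 0) (XT.lf (nat_lit 0) (nat_lit 70642967558) (nat_lit 532) (nat_lit 31280495493) (nat_lit 608) (nat_lit 8034563313) (nat_lit 181) (nat_lit 5) (nat_lit 188) (nat_lit 5) (nat_lit 189) (nat_lit 5) (nat_lit 374) (nat_lit 360) (nat_lit 166)) (XT.lf (nat_lit 0) (nat_lit 9693132777) (nat_lit 608) (nat_lit 59338289052) (nat_lit 76) (nat_lit 44046937049) (nat_lit 173) (nat_lit 5) (nat_lit 181) (nat_lit 5) (nat_lit 174) (nat_lit 5) (nat_lit 375) (nat_lit 360) (nat_lit 165)))) (XT.nd (nat_lit 78) (nat_lit 532) (nat_lit 0) (XT.lf (nat_lit 0) (nat_lit 29282156212) (nat_lit 608) (nat_lit 80155050117) (nat_lit 76) (nat_lit 6880882384) (nat_lit 166) (nat_lit 5) (nat_lit 174) (nat_lit 5) (nat_lit 167) (nat_lit 5) (nat_lit 376) (nat_lit 360) (nat_lit 164)) (XT.nd (nat_lit 78) (nat_lit 0) (nat_lit 0) (XT.lf (nat_lit 0) (nat_lit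 17618307311) (nat_lit 532) (nat_lit 33714712857) (nat_lit 608) (nat_lit 68342313652) (nat_lit 159) (nat_lit 5) (nat_lit 166) (nat_lit 5) (nat_lit 167) (nat_lit 5) (nat_lit 377) (nat_lit 360) (nat_lit 163)) (XT.lf (nat_lit 0) (nat_lit 75759341102) (nat_lit 608) (nat_lit 1669356679) (nat_lit 76) (nat_lit 45733556429) (nat_lit 159) (nat_lit 5) (nat_lit 167) (nat_lit 5) (nat_lit 160) (nat_lit 5) (nat_lit 378) (nat_lit 360) (nat_lit 162))))))) (XT.nd (nat_lit 46254) (nat_lit 0) (nat_lit 456) (XT.nd (nat_lit 45786) (nat_lit 0) (nat_lit 3876) (XT.nd (nat_lit 45552) (nat_lit 0) (nat_lit 4788) (XT.nd (nat_lit 45474) (nat_lit 0) (nat_lit 4788) (XT.lf (nat_lit 0) (nat_lit 102786308429) (nat_lit 532) (nat_lit 21354219044) (nat_lit 76) (nat_lit 2641613656) (nat_lit 153) (nat_lit 5) (nat_lit 160) (nat_lit 5) (nat_lit 154) (nat_lit 5) (nat_lit 379) (nat_lit 360) (nat_lit 161)) (XT.lf (nat_lit 0) (nat_lit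 16398452763) (nat_lit 0) (nat_lit 16398452763) (nat_lit 1140) (nat_lit 7235797459) (nat_lit 216) (nat_lit 5) (nat_lit 216) (nat_lit 3) (nat_lit 231) (nat_lit 3) (nat_lit 361) (nat_lit 361) (nat_lit 178))) (XT.nd (nat_lit 78) (nat_lit 0) (nat_lit 76) (XT.lf (nat_lit 76) (nat_lit 14653300461) (nat_lit 0) (nat_lit 53020626404) (nat_lit 1216) (nat_lit 14379891669) (nat_lit 217) (nat_lit 5) (nat_lit 216) (nat_lit 5) (nat_lit 232) (nat_lit 5) (nat_lit 362) (nat_lit 361) (nat_lit 177)) (XT.nd (nat_lit 78) (nat_lit 0) (nat_lit 0) (XT.lf (nat_lit 0) (nat_lit 70764139028) (nat_lit 1140) (nat_lit 3889224744) (nat_lit 1216) (nat_lit 9461106159) (nat_lit 217) (nat_lit 5) (nat_lit 232) (nat_lit 5) (nat_lit 233) (nat_lit 5) (nat_lit 363) (nat_lit 361) (nat_lit 176)) (XT.lf (nat_lit 76) (nat_lit 63501044444) (nat_lit 0) (nat_lit 11652397201) (nat_lit 1216) (nat_lit 11090375741) (nat_lit 218) (nat_lit 5) (nat_lit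 217) (nat_lit 5) (nat_lit 233) (nat_lit 5) (nat_lit 364) (nat_lit 361) (nat_lit 175))))) (XT.nd (nat_lit 234) (nat_lit 0) (nat_lit 0) (XT.nd (nat_lit 78) (nat_lit 1064) (nat_lit 0) (XT.lf (nat_lit 76) (nat_lit 46241140917) (nat_lit 0) (nat_lit 34528937181) (nat_lit 1216) (nat_lit 7679318894) (nat_lit 219) (nat_lit 5) (nat_lit 218) (nat_lit 5) (nat_lit 234) (nat_lit 5) (nat_lit 365) (nat_lit 361) (nat_lit 174)) (XT.nd (nat_lit 78) (nat_lit 1140) (nat_lit 0) (XT.lf (nat_lit 76) (nat_lit 28523089635) (nat_lit 0) (nat_lit 59076032011) (nat_lit 1216) (nat_lit 3138187477) (nat_lit 220) (nat_lit 5) (nat_lit 219) (nat_lit 5) (nat_lit 235) (nat_lit 5) (nat_lit 366) (nat_lit 361) (nat_lit 173)) (XT.lf (nat_lit 0) (nat_lit 2560309333) (nat_lit 1216) (nat_lit 82808541970) (nat_lit 1292) (nat_lit 7741432758) (nat_lit 204) (nat_lit 5) (nat_lit 220) (nat_lit 5) (nat_lit 221) (nat_lit 5) (nat_lit 367) (nat_lit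 361) (nat_lit 172)))) (XT.nd (nat_lit 78) (nat_lit 0) (nat_lit 76) (XT.lf (nat_lit 0) (nat_lit 9721653801) (nat_lit 1216) (nat_lit 8473997221) (nat_lit 1292) (nat_lit 77368040533) (nat_lit 204) (nat_lit 5) (nat_lit 220) (nat_lit 5) (nat_lit 221) (nat_lit 5) (nat_lit 368) (nat_lit 361) (nat_lit 171)) (XT.nd (nat_lit 78) (nat_lit 0) (nat_lit 76) (XT.lf (nat_lit 0) (nat_lit 18432244488) (nat_lit 1216) (nat_lit 27667771236) (nat_lit 1292) (nat_lit 52004019003) (nat_lit 205) (nat_lit 5) (nat_lit 221) (nat_lit 5) (nat_lit 222) (nat_lit 5) (nat_lit 369) (nat_lit 361) (nat_lit 170)) (XT.lf (nat_lit 0) (nat_lit 28606415225) (nat_lit 1216) (nat_lit 47429634776) (nat_lit 1292) (nat_lit 24704504179) (nat_lit 206) (nat_lit 5) (nat_lit 222) (nat_lit 5) (nat_lit 223) (nat_lit 5) (nat_lit 370) (nat_lit 361) (nat_lit 169)))))) (XT.nd (nat_lit 468) (nat_lit 1064) (nat_lit 0) (XT.nd (nat_lit 234) (nat_lit 1748)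 (nat_lit 0) (XT.nd (nat_lit 78) (nat_lit 760) (nat_lit 0) (XT.lf (nat_lit 76) (nat_lit 35643172242) (nat_lit 0) (nat_lit 4740957100) (nat_lit 1292) (nat_lit 63091925828) (nat_lit 207) (nat_lit 5) (nat_lit 206) (nat_lit 5) (nat_lit 223) (nat_lit 5) (nat_lit 371) (nat_lit 361) (nat_lit 168)) (XT.nd (nat_lit 78) (nat_lit 0) (nat_lit 0) (XT.lf (nat_lit 0) (nat_lit 17182910761) (nat_lit 836) (nat_lit 36899403969) (nat_lit 912) (nat_lit 52226069492) (nat_lit 196) (nat_lit 5) (nat_lit 207) (nat_lit 5) (nat_lit 208) (nat_lit 5) (nat_lit 372) (nat_lit 361) (nat_lit 167)) (XT.lf (nat_lit 0) (nat_lit 69581521857) (nat_lit 912) (nat_lit 1813486761) (nat_lit 76) (nat_lit 37853838287) (nat_lit 196) (nat_lit 5) (nat_lit 208) (nat_lit 5) (nat_lit 197) (nat_lit 5) (nat_lit 373) (nat_lit 361) (nat_lit 166)))) (XT.nd (nat_lit 78) (nat_lit 1140) (nat_lit 0) (XT.lf (nat_lit 0) (nat_lit 87144912610) (nat_lit 684)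 (nat_lit 21066784504) (nat_lit 76) (nat_lit 4085959435) (nat_lit 188) (nat_lit 5) (nat_lit 197) (nat_lit 5) (nat_lit 189) (nat_lit 5) (nat_lit 374) (nat_lit 361) (nat_lit 165)) (XT.nd (nat_lit 78) (nat_lit 608) (nat_lit 0) (XT.lf (nat_lit 0) (nat_lit 74193404274) (nat_lit 532) (nat_lit 32845113037) (nat_lit 608) (nat_lit 8416828533) (nat_lit 181) (nat_lit 5) (nat_lit 188) (nat_lit 5) (nat_lit 189) (nat_lit 5) (nat_lit 375) (nat_lit 361) (nat_lit 164)) (XT.lf (nat_lit 0) (nat_lit 10196136358) (nat_lit 608) (nat_lit 62286489320) (nat_lit 76) (nat_lit 46249086493) (nat_lit 173) (nat_lit 5) (nat_lit 181) (nat_lit 5) (nat_lit 174) (nat_lit 5) (nat_lit 376) (nat_lit 361) (nat_lit 163))))) (XT.nd (nat_lit 45786) (nat_lit 0) (nat_lit 4332) (XT.nd (nat_lit 78) (nat_lit 532) (nat_lit 0) (XT.lf (nat_lit 0) (nat_lit 30763917128) (nat_lit 608) (nat_lit 84144086963) (nat_lit 76) (nat_lit 7225445898) (nat_lit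 166) (nat_lit 5) (nat_lit 174) (nat_lit 5) (nat_lit 167) (nat_lit 5) (nat_lit 377) (nat_lit 361) (nat_lit 162)) (XT.nd (nat_lit 45630) (nat_lit 0) (nat_lit 4332) (XT.lf (nat_lit 0) (nat_lit 18517401855) (nat_lit 532) (nat_lit 35399256552) (nat_lit 608) (nat_lit 71741919567) (nat_lit 159) (nat_lit 5) (nat_lit 166) (nat_lit 5) (nat_lit 167) (nat_lit 5) (nat_lit 378) (nat_lit 361) (nat_lit 161)) (XT.lf (nat_lit 0) (nat_lit 17226327209) (nat_lit 0) (nat_lit 17226327209) (nat_lit 1140) (nat_lit 7581192361) (nat_lit 216) (nat_lit 5) (nat_lit 216) (nat_lit 3) (nat_lit 231) (nat_lit 3) (nat_lit 362) (nat_lit 362) (nat_lit 176)))) (XT.nd (nat_lit 78) (nat_lit 0) (nat_lit 76) (XT.lf (nat_lit 76) (nat_lit 15402516260) (nat_lit 0) (nat_lit 55685413049) (nat_lit 1216) (nat_lit 15067643830) (nat_lit 217) (nat_lit 5) (nat_lit 216) (nat_lit 5) (nat_lit 232) (nat_lit 5) (nat_lit 363) (nat_lit 362) (nat_lit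 175)) (XT.nd (nat_lit 78) (nat_lit 0) (nat_lit 0) (XT.lf (nat_lit 0) (nat_lit 74331083005) (nat_lit 1140) (nat_lit 4066905675) (nat_lit 1216) (nat_lit 9921316791) (nat_lit 217) (nat_lit 5) (nat_lit 232) (nat_lit 5) (nat_lit 233) (nat_lit 5) (nat_lit 364) (nat_lit 362) (nat_lit 174)) (XT.lf (nat_lit 76) (nat_lit 66692395969) (nat_lit 0) (nat_lit 12246243034) (nat_lit 1216) (nat_lit 11616518880) (nat_lit 218) (nat_lit 5) (nat_lit 217) (nat_lit 5) (nat_lit 233) (nat_lit 5) (nat_lit 365) (nat_lit 362) (nat_lit 173))))))))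
noncomputable def xc126 : XT := (XT.nd (nat_lit 47424) (nat_lit 0) (nat_lit 1140) (XT.nd (nat_lit 858) (nat_lit 1140) (nat_lit 0) (XT.nd (nat_lit 390) (nat_lit 1748) (nat_lit 0) (XT.nd (nat_lit 156) (nat_lit 1064) (nat_lit 0) (XT.nd (nat_lit 78) (nat_lit 0) (nat_lit 76) (XT.lf (nat_lit 76) (nat_lit 48569960863) (nat_lit 0) (nat_lit 36264894051) (nat_lit 1216) (nat_lit 8036200299) (nat_lit 219) (nat_lit 5) (nat_lit 218) (nat_lit 5) (nat_lit 234) (nat_lit 5) (nat_lit 366) (nat_lit 362) (nat_lit 172)) (XT.lf (nat_lit 76) (nat_lit 29966403671) (nat_lit 0) (nat_lit 62037773761) (nat_lit 1216) (nat_lit 3269221829) (nat_lit 220) (nat_lit 5) (nat_lit 219) (nat_lit 5) (nat_lit 235) (nat_lit 5) (nat_lit 367) (nat_lit 362) (nat_lit 171))) (XT.nd (nat_lit 78) (nat_lit 0) (nat_lit 0) (XT.lf (nat_lit 0) (nat_lit 2712583233) (nat_lit 1216) (nat_lit 86930970724) (nat_lit 1292) (nat_lit 8121495911) (nat_lit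 204) (nat_lit 5) (nat_lit 220) (nat_lit 5) (nat_lit 221) (nat_lit 5) (nat_lit 368) (nat_lit 362) (nat_lit 170)) (XT.nd (nat_lit 78) (nat_lit 0) (nat_lit 76) (XT.lf (nat_lit 0) (nat_lit 10230839761) (nat_lit 1216) (nat_lit 8880555802) (nat_lit 1292) (nat_lit 81229767812) (nat_lit 204) (nat_lit 5) (nat_lit 220) (nat_lit 5) (nat_lit 221) (nat_lit 5) (nat_lit 369) (nat_lit 362) (nat_lit 169)) (XT.lf (nat_lit 0) (nat_lit 19375966879) (nat_lit 1216) (nat_lit 29033773253) (nat_lit 1292) (nat_lit 54598814302) (nat_lit 205) (nat_lit 5) (nat_lit 221) (nat_lit 5) (nat_lit 222) (nat_lit 5) (nat_lit 370) (nat_lit 362) (nat_lit 168))))) (XT.nd (nat_lit 234) (nat_lit 1140) (nat_lit 0) (XT.nd (nat_lit 78) (nat_lit 760) (nat_lit 0) (XT.lf (nat_lit 0) (nat_lit 30057913990) (nat_lit 1216) (nat_lit 49783532294) (nat_lit 1292) (nat_lit 25935482433) (nat_lit 206) (nat_lit 5) (nat_lit 222) (nat_lit 5) (nat_lit 223)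 (nat_lit 5) (nat_lit 371) (nat_lit 362) (nat_lit 167)) (XT.nd (nat_lit 78) (nat_lit 760) (nat_lit 0) (XT.lf (nat_lit 76) (nat_lit 37442411027) (nat_lit 0) (nat_lit 4981258495) (nat_lit 1292) (nat_lit 66225561412) (nat_lit 207) (nat_lit 5) (nat_lit 206) (nat_lit 5) (nat_lit 223) (nat_lit 5) (nat_lit 372) (nat_lit 362) (nat_lit 166)) (XT.lf (nat_lit 0) (nat_lit 18059286273) (nat_lit 836) (nat_lit 38746645473) (nat_lit 912) (nat_lit 54817270473) (nat_lit 196) (nat_lit 5) (nat_lit 207) (nat_lit 5) (nat_lit 208) (nat_lit 5) (nat_lit 373) (nat_lit 362) (nat_lit 165)))) (XT.nd (nat_lit 78) (nat_lit 1140) (nat_lit 0) (XT.lf (nat_lit 0) (nat_lit 73079149804) (nat_lit 912) (nat_lit 1887158223) (nat_lit 76) (nat_lit 39744409263) (nat_lit 196) (nat_lit 5) (nat_lit 208) (nat_lit 5) (nat_lit 197) (nat_lit 5) (nat_lit 374) (nat_lit 362) (nat_lit 164)) (XT.nd (nat_lit 78) (nat_lit 532) (nat_lit 0) (XT.lf (nat_lit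 0) (nat_lit 91519972821) (nat_lit 684) (nat_lit 22103046142) (nat_lit 76) (nat_lit 4288971305) (nat_lit 188) (nat_lit 5) (nat_lit 197) (nat_lit 5) (nat_lit 189) (nat_lit 5) (nat_lit 375) (nat_lit 362) (nat_lit 163)) (XT.lf (nat_lit 0) (nat_lit 77919662550) (nat_lit 532) (nat_lit 34487906349) (nat_lit 608) (nat_lit 8820016494) (nat_lit 181) (nat_lit 5) (nat_lit 188) (nat_lit 5) (nat_lit 189) (nat_lit 5) (nat_lit 376) (nat_lit 362) (nat_lit 162)))))) (XT.nd (nat_lit 46098) (nat_lit 0) (nat_lit 2888) (XT.nd (nat_lit 45864) (nat_lit 0) (nat_lit 3800) (XT.nd (nat_lit 78) (nat_lit 532) (nat_lit 0) (XT.lf (nat_lit 0) (nat_lit 10722584393) (nat_lit 608) (nat_lit 65383839469) (nat_lit 76) (nat_lit 48561361761) (nat_lit 173) (nat_lit 5) (nat_lit 181) (nat_lit 5) (nat_lit 174) (nat_lit 5) (nat_lit 377) (nat_lit 362) (nat_lit 161)) (XT.nd (nat_lit 45708) (nat_lit 0) (nat_lit 3800) (XT.lf (nat_lit 0) (nat_lit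 32318124872) (nat_lit 608) (nat_lit 88334315656) (nat_lit 76) (nat_lit 7587189300) (nat_lit 166) (nat_lit 5) (nat_lit 174) (nat_lit 5) (nat_lit 167) (nat_lit 5) (nat_lit 378) (nat_lit 362) (nat_lit 160)) (XT.lf (nat_lit 0) (nat_lit 18094856094) (nat_lit 0) (nat_lit 18094856094) (nat_lit 1140) (nat_lit 7945381257) (nat_lit 216) (nat_lit 5) (nat_lit 216) (nat_lit 3) (nat_lit 231) (nat_lit 3) (nat_lit 363) (nat_lit 363) (nat_lit 174)))) (XT.nd (nat_lit 78) (nat_lit 0) (nat_lit 76) (XT.lf (nat_lit 76) (nat_lit 16187654116) (nat_lit 0) (nat_lit 58482160187) (nat_lit 1216) (nat_lit 15792688224) (nat_lit 217) (nat_lit 5) (nat_lit 216) (nat_lit 5) (nat_lit 232) (nat_lit 5) (nat_lit 364) (nat_lit 363) (nat_lit 173)) (XT.nd (nat_lit 78) (nat_lit 0) (nat_lit 0) (XT.lf (nat_lit 0) (nat_lit 78073702485) (nat_lit 1140) (nat_lit 4255030727) (nat_lit 1216) (nat_lit 10405732132) (nat_lit 217) (nat_lit 5) (nat_lit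 232) (nat_lit 5) (nat_lit 233) (nat_lit 5) (nat_lit 365) (nat_lit 363) (nat_lit 172)) (XT.lf (nat_lit 76) (nat_lit 70041799715) (nat_lit 0) (nat_lit 12868737474) (nat_lit 1216) (nat_lit 12171607275) (nat_lit 218) (nat_lit 5) (nat_lit 217) (nat_lit 5) (nat_lit 233) (nat_lit 5) (nat_lit 366) (nat_lit 363) (nat_lit 171))))) (XT.nd (nat_lit 234) (nat_lit 0) (nat_lit 0) (XT.nd (nat_lit 78) (nat_lit 1064) (nat_lit 0) (XT.lf (nat_lit 76) (nat_lit 51013663351) (nat_lit 0) (nat_lit 38086764613) (nat_lit 1216) (nat_lit 8413443837) (nat_lit 219) (nat_lit 5) (nat_lit 218) (nat_lit 5) (nat_lit 234) (nat_lit 5) (nat_lit 367) (nat_lit 363) (nat_lit 170)) (XT.nd (nat_lit 78) (nat_lit 1140) (nat_lit 0) (XT.lf (nat_lit 76) (nat_lit 31480288077) (nat_lit 0) (nat_lit 65146864399) (nat_lit 1216) (nat_lit 3409213513) (nat_lit 220) (nat_lit 5) (nat_lit 219) (nat_lit 5) (nat_lit 235) (nat_lit 5) (nat_lit 368) (nat_lit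 363) (nat_lit 169)) (XT.lf (nat_lit 0) (nat_lit 2870215508) (nat_lit 1216) (nat_lit 91261194232) (nat_lit 1292) (nat_lit 8521213804) (nat_lit 204) (nat_lit 5) (nat_lit 220) (nat_lit 5) (nat_lit 221) (nat_lit 5) (nat_lit 369) (nat_lit 363) (nat_lit 168)))) (XT.nd (nat_lit 78) (nat_lit 0) (nat_lit 76) (XT.lf (nat_lit 0) (nat_lit 10763337095) (nat_lit 1216) (nat_lit 9309035946) (nat_lit 1292) (nat_lit 85285202010) (nat_lit 204) (nat_lit 5) (nat_lit 220) (nat_lit 5) (nat_lit 221) (nat_lit 5) (nat_lit 370) (nat_lit 363) (nat_lit 167)) (XT.nd (nat_lit 78) (nat_lit 0) (nat_lit 76) (XT.lf (nat_lit 0) (nat_lit 20364819795) (nat_lit 1216) (nat_lit 30469691808) (nat_lit 1292) (nat_lit 57323851932) (nat_lit 205) (nat_lit 5) (nat_lit 221) (nat_lit 5) (nat_lit 222) (nat_lit 5) (nat_lit 371) (nat_lit 363) (nat_lit 166)) (XT.lf (nat_lit 0) (nat_lit 31580018763) (nat_lit 1216) (nat_lit 52256759502) (nat_lit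 1292) (nat_lit 27228404441) (nat_lit 206) (nat_lit 5) (nat_lit 222) (nat_lit 5) (nat_lit 223) (nat_lit 5) (nat_lit 372) (nat_lit 363) (nat_lit 165))))))) (XT.nd (nat_lit 46644) (nat_lit 0) (nat_lit 532) (XT.nd (nat_lit 46176) (nat_lit 0) (nat_lit 2660) (XT.nd (nat_lit 156) (nat_lit 1140) (nat_lit 0) (XT.nd (nat_lit 78) (nat_lit 760) (nat_lit 0) (XT.lf (nat_lit 76) (nat_lit 39330023798) (nat_lit 0) (nat_lit 5233272476) (nat_lit 1292) (nat_lit 69517827503) (nat_lit 207) (nat_lit 5) (nat_lit 206) (nat_lit 5) (nat_lit 223) (nat_lit 5) (nat_lit 373) (nat_lit 363) (nat_lit 164)) (XT.lf (nat_lit 0) (nat_lit 18977878681) (nat_lit 836) (nat_lit 40686037888) (nat_lit 912) (nat_lit 57539900444) (nat_lit 196) (nat_lit 5) (nat_lit 207) (nat_lit 5) (nat_lit 208) (nat_lit 5) (nat_lit 374) (nat_lit 363) (nat_lit 163))) (XT.nd (nat_lit 78) (nat_lit 1140) (nat_lit 0) (XT.lf (nat_lit 0) (nat_lit 76749934373)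 (nat_lit 912) (nat_lit 1966094024) (nat_lit 76) (nat_lit 41729705973) (nat_lit 196) (nat_lit 5) (nat_lit 208) (nat_lit 5) (nat_lit 197) (nat_lit 5) (nat_lit 375) (nat_lit 363) (nat_lit 162)) (XT.nd (nat_lit 78) (nat_lit 532) (nat_lit 0) (XT.lf (nat_lit 0) (nat_lit 96112129812) (nat_lit 684) (nat_lit 23192708574) (nat_lit 76) (nat_lit 4502253339) (nat_lit 188) (nat_lit 5) (nat_lit 197) (nat_lit 5) (nat_lit 189) (nat_lit 5) (nat_lit 376) (nat_lit 363) (nat_lit 161)) (XT.lf (nat_lit 0) (nat_lit 81830691538) (nat_lit 532) (nat_lit 36212789340) (nat_lit 608) (nat_lit 9245005105) (nat_lit 181) (nat_lit 5) (nat_lit 188) (nat_lit 5) (nat_lit 189) (nat_lit 5) (nat_lit 377) (nat_lit 363) (nat_lit 160))))) (XT.nd (nat_lit 234) (nat_lit 0) (nat_lit 76) (XT.nd (nat_lit 78) (nat_lit 0) (nat_lit 0) (XT.lf (nat_lit 0) (nat_lit 19006140870) (nat_lit 0) (nat_lit 19006140870) (nat_lit 1140) (nat_lit 8329162137)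 (nat_lit 216) (nat_lit 5) (nat_lit 216) (nat_lit 3) (nat_lit 231) (nat_lit 3) (nat_lit 364) (nat_lit 364) (nat_lit 172)) (XT.nd (nat_lit 78) (nat_lit 0) (nat_lit 76) (XT.lf (nat_lit 76) (nat_lit 17010653186) (nat_lit 0) (nat_lit 61417584737) (nat_lit 1216) (nat_lit 16556619417) (nat_lit 217) (nat_lit 5) (nat_lit 216) (nat_lit 5) (nat_lit 232) (nat_lit 5) (nat_lit 365) (nat_lit 364) (nat_lit 171)) (XT.lf (nat_lit 0) (nat_lit 82001029632) (nat_lit 1140) (nat_lit 4453977064) (nat_lit 1216) (nat_lit 10915451392) (nat_lit 217) (nat_lit 5) (nat_lit 232) (nat_lit 5) (nat_lit 233) (nat_lit 5) (nat_lit 366) (nat_lit 364) (nat_lit 170)))) (XT.nd (nat_lit 78) (nat_lit 0) (nat_lit 76) (XT.lf (nat_lit 76) (nat_lit 73557299177) (nat_lit 0) (nat_lit 13521409984) (nat_lit 1216) (nat_lit 12756842924) (nat_lit 218) (nat_lit 5) (nat_lit 217) (nat_lit 5) (nat_lit 233) (nat_lit 5) (nat_lit 367) (nat_lit 364) (nat_lit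 169)) (XT.nd (nat_lit 78) (nat_lit 0) (nat_lit 76) (XT.lf (nat_lit 76) (nat_lit 53578137398) (nat_lit 0) (nat_lit 39998926753) (nat_lit 1216) (nat_lit 8811833511) (nat_lit 219) (nat_lit 5) (nat_lit 218) (nat_lit 5) (nat_lit 234) (nat_lit 5) (nat_lit 368) (nat_lit 364) (nat_lit 168)) (XT.lf (nat_lit 76) (nat_lit 33068419689) (nat_lit 0) (nat_lit 68410740000) (nat_lit 1216) (nat_lit 3558386744) (nat_lit 220) (nat_lit 5) (nat_lit 219) (nat_lit 5) (nat_lit 235) (nat_lit 5) (nat_lit 369) (nat_lit 364) (nat_lit 167)))))) (XT.nd (nat_lit 468) (nat_lit 608) (nat_lit 0) (XT.nd (nat_lit 234) (nat_lit 608) (nat_lit 0) (XT.nd (nat_lit 78) (nat_lit 0) (nat_lit 0) (XT.lf (nat_lit 0) (nat_lit 3033683756) (nat_lit 1216) (nat_lit 95809446661) (nat_lit 1292) (nat_lit 8941508596) (nat_lit 204) (nat_lit 5) (nat_lit 220) (nat_lit 5) (nat_lit 221) (nat_lit 5) (nat_lit 370) (nat_lit 364) (nat_lit 166)) (XT.nd (nat_lit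 78) (nat_lit 0) (nat_lit 76) (XT.lf (nat_lit 0) (nat_lit 11320511067) (nat_lit 1216) (nat_lit 9760385570) (nat_lit 1292) (nat_lit 89543970779) (nat_lit 204) (nat_lit 5) (nat_lit 220) (nat_lit 5) (nat_lit 221) (nat_lit 5) (nat_lit 371) (nat_lit 364) (nat_lit 165)) (XT.lf (nat_lit 0) (nat_lit 21401250874) (nat_lit 1216) (nat_lit 31978872445) (nat_lit 1292) (nat_lit 60185597286) (nat_lit 205) (nat_lit 5) (nat_lit 221) (nat_lit 5) (nat_lit 222) (nat_lit 5) (nat_lit 372) (nat_lit 364) (nat_lit 164)))) (XT.nd (nat_lit 78) (nat_lit 760) (nat_lit 0) (XT.lf (nat_lit 0) (nat_lit 33176442897) (nat_lit 1216) (nat_lit 54855130895) (nat_lit 1292) (nat_lit 28586330682) (nat_lit 206) (nat_lit 5) (nat_lit 222) (nat_lit 5) (nat_lit 223) (nat_lit 5) (nat_lit 373) (nat_lit 364) (nat_lit 163)) (XT.nd (nat_lit 78) (nat_lit 760) (nat_lit 0) (XT.lf (nat_lit 76) (nat_lit 41310576889) (nat_lit 0) (nat_lit 5497612795)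 (nat_lit 1292) (nat_lit 72976474453) (nat_lit 207) (nat_lit 5) (nat_lit 206) (nat_lit 5) (nat_lit 223) (nat_lit 5) (nat_lit 374) (nat_lit 364) (nat_lit 162)) (XT.lf (nat_lit 0) (nat_lit 19940947757) (nat_lit 836) (nat_lit 42722208392) (nat_lit 912) (nat_lit 60400357095) (nat_lit 196) (nat_lit 5) (nat_lit 207) (nat_lit 5) (nat_lit 208) (nat_lit 5) (nat_lit 375) (nat_lit 364) (nat_lit 161))))) (XT.nd (nat_lit 46098) (nat_lit 0) (nat_lit 2128) (XT.nd (nat_lit 78) (nat_lit 608) (nat_lit 0) (XT.lf (nat_lit 0) (nat_lit 80602693747) (nat_lit 912) (nat_lit 2050410417) (nat_lit 76) (nat_lit 43814446371) (nat_lit 196) (nat_lit 5) (nat_lit 208) (nat_lit 5) (nat_lit 197) (nat_lit 5) (nat_lit 376) (nat_lit 364) (nat_lit 160)) (XT.nd (nat_lit 45942) (nat_lit 0) (nat_lit 2128) (XT.lf (nat_lit 0) (nat_lit 100932392402) (nat_lit 684) (nat_lit 24338294229) (nat_lit 76) (nat_lit 4726307927) (nat_lit 188) (nat_lit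 5) (nat_lit 197) (nat_lit 5) (nat_lit 189) (nat_lit 5) (nat_lit 377) (nat_lit 364) (nat_lit 159)) (XT.lf (nat_lit 0) (nat_lit 19962381675) (nat_lit 0) (nat_lit 19962381675) (nat_lit 1140) (nat_lit 8733386064) (nat_lit 216) (nat_lit 5) (nat_lit 216) (nat_lit 3) (nat_lit 231) (nat_lit 3) (nat_lit 365) (nat_lit 365) (nat_lit 170)))) (XT.nd (nat_lit 78) (nat_lit 0) (nat_lit 76) (XT.lf (nat_lit 76) (nat_lit 17873536290) (nat_lit 0) (nat_lit 64498728409) (nat_lit 1216) (nat_lit 17361136811) (nat_lit 217) (nat_lit 5) (nat_lit 216) (nat_lit 5) (nat_lit 232) (nat_lit 5) (nat_lit 366) (nat_lit 365) (nat_lit 169)) (XT.nd (nat_lit 78) (nat_lit 0) (nat_lit 0) (XT.lf (nat_lit 0) (nat_lit 86122525125) (nat_lit 1140) (nat_lit 4664154194) (nat_lit 1216) (nat_lit 11451639067) (nat_lit 217) (nat_lit 5) (nat_lit 232) (nat_lit 5) (nat_lit 233) (nat_lit 5) (nat_lit 367) (nat_lit 365) (nat_lit 168)) (XT.lf (nat_lit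 76) (nat_lit 77247326926) (nat_lit 0) (nat_lit 14205857477) (nat_lit 1216) (nat_lit 13373510725) (nat_lit 218) (nat_lit 5) (nat_lit 217) (nat_lit 5) (nat_lit 233) (nat_lit 5) (nat_lit 368) (nat_lit 365) (nat_lit 167))))))))
noncomputable def xc127 : XT := (XT.nd (nat_lit 93912) (nat_lit 0) (nat_lit 608) (XT.nd (nat_lit 46878) (nat_lit 0) (nat_lit 608) (XT.nd (nat_lit 390) (nat_lit 608) (nat_lit 0) (XT.nd (nat_lit 156) (nat_lit 1064) (nat_lit 0) (XT.nd (nat_lit 78) (nat_lit 0) (nat_lit 76) (XT.lf (nat_lit 76) (nat_lit 56269553003) (nat_lit 0) (nat_lit 42005969607) (nat_lit 1216) (nat_lit 9232214286) (nat_lit 219) (nat_lit 5) (nat_lit 218) (nat_lit 5) (nat_lit 234) (nat_lit 5) (nat_lit 369) (nat_lit 365) (nat_lit 166)) (XT.lf (nat_lit 76) (nat_lit 34734645398) (nat_lit 0) (nat_lit 71837202062) (nat_lit 1216) (nat_lit 3716997741) (nat_lit 220) (nat_lit 5) (nat_lit 219) (nat_lit 5) (nat_lit 235)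 (nat_lit 5) (nat_lit 370) (nat_lit 365) (nat_lit 165))) (XT.nd (nat_lit 78) (nat_lit 0) (nat_lit 0) (XT.lf (nat_lit 0) (nat_lit 3203469960) (nat_lit 1216) (nat_lit 100586488353) (nat_lit 1292) (nat_lit 9383354186) (nat_lit 204) (nat_lit 5) (nat_lit 220) (nat_lit 5) (nat_lit 221) (nat_lit 5) (nat_lit 371) (nat_lit 365) (nat_lit 164)) (XT.nd (nat_lit 78) (nat_lit 0) (nat_lit 76) (XT.lf (nat_lit 0) (nat_lit 11903776635) (nat_lit 1216) (nat_lit 10235613762) (nat_lit 1292) (nat_lit 94016188518) (nat_lit 204) (nat_lit 5) (nat_lit 220) (nat_lit 5) (nat_lit 221) (nat_lit 5) (nat_lit 372) (nat_lit 365) (nat_lit 163)) (XT.lf (nat_lit 0) (nat_lit 22487812364) (nat_lit 1216) (nat_lit 33564841960) (nat_lit 1292) (nat_lit 63190843370) (nat_lit 205) (nat_lit 5) (nat_lit 221) (nat_lit 5) (nat_lit 222) (nat_lit 5) (nat_lit 373) (nat_lit 365) (nat_lit 162))))) (XT.nd (nat_lit 46254) (nat_lit 0) (nat_lit 1520)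 (XT.nd (nat_lit 78) (nat_lit 760) (nat_lit 0) (XT.lf (nat_lit 0) (nat_lit 34851068395) (nat_lit 1216) (nat_lit 57584765823) (nat_lit 1292) (nat_lit 30012478073) (nat_lit 206) (nat_lit 5) (nat_lit 222) (nat_lit 5) (nat_lit 223) (nat_lit 5) (nat_lit 374) (nat_lit 365) (nat_lit 161)) (XT.nd (nat_lit 78) (nat_lit 760) (nat_lit 0) (XT.lf (nat_lit 76) (nat_lit 43388851221) (nat_lit 0) (nat_lit 5774921276) (nat_lit 1292) (nat_lit 76609656973) (nat_lit 207) (nat_lit 5) (nat_lit 206) (nat_lit 5) (nat_lit 223) (nat_lit 5) (nat_lit 375) (nat_lit 365) (nat_lit 160)) (XT.lf (nat_lit 0) (nat_lit 20950852417) (nat_lit 836) (nat_lit 44860013695) (nat_lit 912) (nat_lit 63405374160) (nat_lit 196) (nat_lit 5) (nat_lit 207) (nat_lit 5) (nat_lit 208) (nat_lit 5) (nat_lit 376) (nat_lit 365) (nat_lit 159)))) (XT.nd (nat_lit 78) (nat_lit 0) (nat_lit 0) (XT.lf (nat_lit 0) (nat_lit 20965882856) (nat_lit 0) (nat_lit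 20965882856) (nat_lit 1140) (nat_lit 9158958605) (nat_lit 216) (nat_lit 5) (nat_lit 216) (nat_lit 3) (nat_lit 231) (nat_lit 3) (nat_lit 366) (nat_lit 366) (nat_lit 168)) (XT.nd (nat_lit 78) (nat_lit 0) (nat_lit 76) (XT.lf (nat_lit 76) (nat_lit 18778415322) (nat_lit 0) (nat_lit 67732974975) (nat_lit 1216) (nat_lit 18208047551) (nat_lit 217) (nat_lit 5) (nat_lit 216) (nat_lit 5) (nat_lit 232) (nat_lit 5) (nat_lit 367) (nat_lit 366) (nat_lit 167)) (XT.lf (nat_lit 0) (nat_lit 90448101731) (nat_lit 1140) (nat_lit 4886004332) (nat_lit 1216) (nat_lit 12015527238) (nat_lit 217) (nat_lit 5) (nat_lit 232) (nat_lit 5) (nat_lit 233) (nat_lit 5) (nat_lit 368) (nat_lit 366) (nat_lit 166)))))) (XT.nd (nat_lit 468) (nat_lit 0) (nat_lit 152) (XT.nd (nat_lit 234) (nat_lit 988) (nat_lit 0) (XT.nd (nat_lit 78) (nat_lit 0) (nat_lit 76) (XT.lf (nat_lit 76) (nat_lit 81120725281) (nat_lit 0) (nat_lit 14923748531)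 (nat_lit 1216) (nat_lit 14022980506) (nat_lit 218) (nat_lit 5) (nat_lit 217) (nat_lit 5) (nat_lit 233) (nat_lit 5) (nat_lit 369) (nat_lit 366) (nat_lit 165)) (XT.nd (nat_lit 78) (nat_lit 0) (nat_lit 76) (XT.lf (nat_lit 76) (nat_lit 59094376443) (nat_lit 0) (nat_lit 44112704836) (nat_lit 1216) (nat_lit 9675493117) (nat_lit 219) (nat_lit 5) (nat_lit 218) (nat_lit 5) (nat_lit 234) (nat_lit 5) (nat_lit 370) (nat_lit 366) (nat_lit 164)) (XT.lf (nat_lit 76) (nat_lit 36482991930) (nat_lit 0) (nat_lit 75434436371) (nat_lit 1216) (nat_lit 3885334395) (nat_lit 220) (nat_lit 5) (nat_lit 219) (nat_lit 5) (nat_lit 235) (nat_lit 5) (nat_lit 371) (nat_lit 366) (nat_lit 163)))) (XT.nd (nat_lit 78) (nat_lit 0) (nat_lit 0) (XT.lf (nat_lit 0) (nat_lit 3380062520) (nat_lit 1216) (nat_lit 105603630783) (nat_lit 1292) (nat_lit 9847778277) (nat_lit 204) (nat_lit 5) (nat_lit 220) (nat_lit 5) (nat_lit 221) (nat_lit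 5) (nat_lit 372) (nat_lit 366) (nat_lit 162)) (XT.nd (nat_lit 78) (nat_lit 0) (nat_lit 76) (XT.lf (nat_lit 0) (nat_lit 12514602669) (nat_lit 1216) (nat_lit 10735792557) (nat_lit 1292) (nat_lit 98712480212) (nat_lit 204) (nat_lit 5) (nat_lit 220) (nat_lit 5) (nat_lit 221) (nat_lit 5) (nat_lit 373) (nat_lit 366) (nat_lit 161)) (XT.lf (nat_lit 0) (nat_lit 23627168013) (nat_lit 1216) (nat_lit 35231316161) (nat_lit 1292) (nat_lit 66346726781) (nat_lit 205) (nat_lit 5) (nat_lit 221) (nat_lit 5) (nat_lit 222) (nat_lit 5) (nat_lit 374) (nat_lit 366) (nat_lit 160))))) (XT.nd (nat_lit 46332) (nat_lit 0) (nat_lit 760) (XT.nd (nat_lit 78) (nat_lit 0) (nat_lit 0) (XT.lf (nat_lit 0) (nat_lit 36607955921) (nat_lit 1216) (nat_lit 60452102421) (nat_lit 1292) (nat_lit 31510227470) (nat_lit 206) (nat_lit 5) (nat_lit 222) (nat_lit 5) (nat_lit 223) (nat_lit 5) (nat_lit 375) (nat_lit 366) (nat_lit 159)) (XT.nd (nat_lit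 46176) (nat_lit 0) (nat_lit 760) (XT.lf (nat_lit 76) (nat_lit 45569854316) (nat_lit 0) (nat_lit 6065869463) (nat_lit 1292) (nat_lit 80425952790) (nat_lit 207) (nat_lit 5) (nat_lit 206) (nat_lit 5) (nat_lit 223) (nat_lit 5) (nat_lit 376) (nat_lit 366) (nat_lit 158)) (XT.lf (nat_lit 0) (nat_lit 22019058719) (nat_lit 0) (nat_lit 22019058719) (nat_lit 1140) (nat_lit 9606841445) (nat_lit 216) (nat_lit 5) (nat_lit 216) (nat_lit 3) (nat_lit 231) (nat_lit 3) (nat_lit 367) (nat_lit 367) (nat_lit 166)))) (XT.nd (nat_lit 78) (nat_lit 0) (nat_lit 76) (XT.lf (nat_lit 76) (nat_lit 19727496829) (nat_lit 0) (nat_lit 71128068301) (nat_lit 1216) (nat_lit 19099269791) (nat_lit 217) (nat_lit 5) (nat_lit 216) (nat_lit 5) (nat_lit 232) (nat_lit 5) (nat_lit 368) (nat_lit 367) (nat_lit 165)) (XT.nd (nat_lit 78) (nat_lit 0) (nat_lit 0) (XT.lf (nat_lit 0) (nat_lit 94988148859) (nat_lit 1140) (nat_lit 5120002896) (nat_lit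 1216) (nat_lit 12608418084) (nat_lit 217) (nat_lit 5) (nat_lit 232) (nat_lit 5) (nat_lit 233) (nat_lit 5) (nat_lit 369) (nat_lit 367) (nat_lit 164)) (XT.lf (nat_lit 76) (nat_lit 85186767903) (nat_lit 0) (nat_lit 15676827731) (nat_lit 1216) (nat_lit 14706709345) (nat_lit 218) (nat_lit 5) (nat_lit 217) (nat_lit 5) (nat_lit 233) (nat_lit 5) (nat_lit 370) (nat_lit 367) (nat_lit 163))))))) (XT.nd (nat_lit 47112) (nat_lit 0) (nat_lit 0) (XT.nd (nat_lit 46644) (nat_lit 0) (nat_lit 912) (XT.nd (nat_lit 156) (nat_lit 1064) (nat_lit 0) (XT.nd (nat_lit 78) (nat_lit 0) (nat_lit 76) (XT.lf (nat_lit 76) (nat_lit 62059386232) (nat_lit 0) (nat_lit 46324178400) (nat_lit 1216) (nat_lit 10142640215) (nat_lit 219) (nat_lit 5) (nat_lit 218) (nat_lit 5) (nat_lit 234) (nat_lit 5) (nat_lit 371) (nat_lit 367) (nat_lit 162)) (XT.lf (nat_lit 76) (nat_lit 38317676005) (nat_lit 0) (nat_lit 79211032753) (nat_lit 1216) (nat_lit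 4063716096) (nat_lit 220) (nat_lit 5) (nat_lit 219) (nat_lit 5) (nat_lit 235) (nat_lit 5) (nat_lit 372) (nat_lit 367) (nat_lit 161))) (XT.nd (nat_lit 78) (nat_lit 0) (nat_lit 0) (XT.lf (nat_lit 0) (nat_lit 3563958219) (nat_lit 1216) (nat_lit 110872762900) (nat_lit 1292) (nat_lit 10335864588) (nat_lit 204) (nat_lit 5) (nat_lit 220) (nat_lit 5) (nat_lit 221) (nat_lit 5) (nat_lit 373) (nat_lit 367) (nat_lit 160)) (XT.nd (nat_lit 78) (nat_lit 0) (nat_lit 76) (XT.lf (nat_lit 0) (nat_lit 13154516206) (nat_lit 1216) (nat_lit 11262058926) (nat_lit 1292) (nat_lit 103644006507) (nat_lit 204) (nat_lit 5) (nat_lit 220) (nat_lit 5) (nat_lit 221) (nat_lit 5) (nat_lit 374) (nat_lit 367) (nat_lit 159)) (XT.lf (nat_lit 0) (nat_lit 24822100138) (nat_lit 1216) (nat_lit 36982208139) (nat_lit 1292) (nat_lit 69660744520) (nat_lit 205) (nat_lit 5) (nat_lit 221) (nat_lit 5) (nat_lit 222) (nat_lit 5) (nat_lit 375)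 (nat_lit 367) (nat_lit 158))))) (XT.nd (nat_lit 234) (nat_lit 0) (nat_lit 76) (XT.nd (nat_lit 78) (nat_lit 0) (nat_lit 0) (XT.lf (nat_lit 0) (nat_lit 23124439519) (nat_lit 0) (nat_lit 23124439519) (nat_lit 1140) (nat_lit 10078054184) (nat_lit 216) (nat_lit 5) (nat_lit 216) (nat_lit 3) (nat_lit 231) (nat_lit 3) (nat_lit 368) (nat_lit 368) (nat_lit 164)) (XT.nd (nat_lit 78) (nat_lit 0) (nat_lit 76) (XT.lf (nat_lit 76) (nat_lit 20723087762) (nat_lit 0) (nat_lit 74692131195) (nat_lit 1216) (nat_lit 20036836331) (nat_lit 217) (nat_lit 5) (nat_lit 216) (nat_lit 5) (nat_lit 232) (nat_lit 5) (nat_lit 369) (nat_lit 368) (nat_lit 163)) (XT.lf (nat_lit 0) (nat_lit 99753558153) (nat_lit 1140) (nat_lit 5366659139) (nat_lit 1216) (nat_lit 13231686592) (nat_lit 217) (nat_lit 5) (nat_lit 232) (nat_lit 5) (nat_lit 233) (nat_lit 5) (nat_lit 370) (nat_lit 368) (nat_lit 162)))) (XT.nd (nat_lit 78) (nat_lit 0)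 (nat_lit 76) (XT.lf (nat_lit 76) (nat_lit 89455182359) (nat_lit 0) (nat_lit 16466920159) (nat_lit 1216) (nat_lit 15426244190) (nat_lit 218) (nat_lit 5) (nat_lit 217) (nat_lit 5) (nat_lit 233) (nat_lit 5) (nat_lit 371) (nat_lit 368) (nat_lit 161)) (XT.nd (nat_lit 78) (nat_lit 0) (nat_lit 76) (XT.lf (nat_lit 76) (nat_lit 65171689754) (nat_lit 0) (nat_lit 48645682849) (nat_lit 1216) (nat_lit 10634690541) (nat_lit 219) (nat_lit 5) (nat_lit 218) (nat_lit 5) (nat_lit 234) (nat_lit 5) (nat_lit 372) (nat_lit 368) (nat_lit 160)) (XT.lf (nat_lit 76) (nat_lit 40243114887) (nat_lit 0) (nat_lit 83176005763) (nat_lit 1216) (nat_lit 4252493720) (nat_lit 220) (nat_lit 5) (nat_lit 219) (nat_lit 5) (nat_lit 235) (nat_lit 5) (nat_lit 373) (nat_lit 368) (nat_lit 159)))))) (XT.nd (nat_lit 46878) (nat_lit 0) (nat_lit 912) (XT.nd (nat_lit 46644) (nat_lit 0) (nat_lit 988) (XT.nd (nat_lit 46488) (nat_lit 0) (nat_lit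 912) (XT.lf (nat_lit 0) (nat_lit 3755664134) (nat_lit 1216) (nat_lit 116406378894) (nat_lit 1292) (nat_lit 10848755231) (nat_lit 204) (nat_lit 5) (nat_lit 220) (nat_lit 5) (nat_lit 221) (nat_lit 5) (nat_lit 374) (nat_lit 368) (nat_lit 158)) (XT.nd (nat_lit 78) (nat_lit 0) (nat_lit 0) (XT.lf (nat_lit 0) (nat_lit 24284677698) (nat_lit 0) (nat_lit 24284677698) (nat_lit 1140) (nat_lit 10573676319) (nat_lit 216) (nat_lit 5) (nat_lit 216) (nat_lit 3) (nat_lit 231) (nat_lit 3) (nat_lit 369) (nat_lit 369) (nat_lit 162)) (XT.lf (nat_lit 76) (nat_lit 21767601417) (nat_lit 0) (nat_lit 78433685129) (nat_lit 1216) (nat_lit 21022898602) (nat_lit 217) (nat_lit 5) (nat_lit 216) (nat_lit 5) (nat_lit 232) (nat_lit 5) (nat_lit 370) (nat_lit 369) (nat_lit 161)))) (XT.nd (nat_lit 78) (nat_lit 0) (nat_lit 0) (XT.lf (nat_lit 0) (nat_lit 104755750212) (nat_lit 1140) (nat_lit 5626516901) (nat_lit 1216) (nat_lit 13886783487)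 (nat_lit 217) (nat_lit 5) (nat_lit 232) (nat_lit 5) (nat_lit 233) (nat_lit 5) (nat_lit 371) (nat_lit 369) (nat_lit 160)) (XT.nd (nat_lit 78) (nat_lit 0) (nat_lit 76) (XT.lf (nat_lit 76) (nat_lit 93936173732) (nat_lit 0) (nat_lit 17295936047) (nat_lit 1216) (nat_lit 16183224769) (nat_lit 218) (nat_lit 5) (nat_lit 217) (nat_lit 5) (nat_lit 233) (nat_lit 5) (nat_lit 372) (nat_lit 369) (nat_lit 159)) (XT.lf (nat_lit 76) (nat_lit 68438740645) (nat_lit 0) (nat_lit 51082770193) (nat_lit 1216) (nat_lit 11152745535) (nat_lit 219) (nat_lit 5) (nat_lit 218) (nat_lit 5) (nat_lit 234) (nat_lit 5) (nat_lit 373) (nat_lit 369) (nat_lit 158))))) (XT.nd (nat_lit 46722) (nat_lit 0) (nat_lit 0) (XT.nd (nat_lit 46566) (nat_lit 228) (nat_lit 0) (XT.lf (nat_lit 76) (nat_lit 42263937373) (nat_lit 0) (nat_lit 87338816367) (nat_lit 1216) (nat_lit 4452049762) (nat_lit 220) (nat_lit 5) (nat_lit 219) (nat_lit 5) (nat_lit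 235) (nat_lit 5) (nat_lit 374) (nat_lit 369) (nat_lit 157)) (XT.nd (nat_lit 78) (nat_lit 0) (nat_lit 0) (XT.lf (nat_lit 0) (nat_lit 25502554398) (nat_lit 0) (nat_lit 25502554398) (nat_lit 1140) (nat_lit 11094849410) (nat_lit 216) (nat_lit 5) (nat_lit 216) (nat_lit 3) (nat_lit 231) (nat_lit 3) (nat_lit 370) (nat_lit 370) (nat_lit 160)) (XT.lf (nat_lit 76) (nat_lit 22863563590) (nat_lit 0) (nat_lit 82361670859) (nat_lit 1216) (nat_lit 22059731018) (nat_lit 217) (nat_lit 5) (nat_lit 216) (nat_lit 5) (nat_lit 232) (nat_lit 5) (nat_lit 371) (nat_lit 370) (nat_lit 159)))) (XT.nd (nat_lit 78) (nat_lit 76) (nat_lit 0) (XT.lf (nat_lit 0) (nat_lit 110006702485) (nat_lit 1140) (nat_lit 5900155494) (nat_lit 1216) (nat_lit 14575238368) (nat_lit 217) (nat_lit 5) (nat_lit 232) (nat_lit 5) (nat_lit 233) (nat_lit 5) (nat_lit 372) (nat_lit 370) (nat_lit 158)) (XT.nd (nat_lit 46800) (nat_lit 76) (nat_lit 0) (XT.lf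 (nat_lit 76) (nat_lit 98640449317) (nat_lit 0) (nat_lit 18165875597) (nat_lit 1216) (nat_lit 16979386797) (nat_lit 218) (nat_lit 5) (nat_lit 217) (nat_lit 5) (nat_lit 233) (nat_lit 5) (nat_lit 373) (nat_lit 370) (nat_lit 157)) (XT.lf (nat_lit 76) (nat_lit 24013618959) (nat_lit 0) (nat_lit 86485470023) (nat_lit 1216) (nat_lit 23149735697) (nat_lit 217) (nat_lit 5) (nat_lit 216) (nat_lit 5) (nat_lit 232) (nat_lit 5) (nat_lit 372) (nat_lit 371) (nat_lit 157))))))))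

set_option maxRecDepth 10000000 in
noncomputable def Tp : PT := (PT.nd (nat_lit 7184814) (PT.nd (nat_lit 6715488) (PT.nd (nat_lit 6200532) (PT.nd (nat_lit 5778630) pc0 pc1) (PT.nd (nat_lit 327444) pc2 pc3)) (PT.nd (nat_lit 281034) (PT.nd (nat_lit 140946) pc4 pc5) (PT.nd (nat_lit 94302) pc6 pc7))) (PT.nd (nat_lit 326196) (PT.nd (nat_lit 186186) (PT.nd (nat_lit 93366) pc8 pc9) (PT.nd (nat_lit 48126) pc10 pc11)) (PT.nd (nat_lit 186810) (PT.nd (nat_lit 48906) pc12 pc13) (PT.nd (nat_lit 186654) pc14 pc15))))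

set_option maxRecDepth 10000000 in
noncomputable def Tx : XT := (XT.nd (nat_lit 11890944) (nat_lit 0) (nat_lit 152) XT.nil (XT.nd (nat_lit 5529888) (nat_lit 0) (nat_lit 0) (XT.nd (nat_lit 2530632) (nat_lit 0) (nat_lit 760) (XT.nd (nat_lit 1733784) (nat_lit 0) (nat_lit 304) (XT.nd (nat_lit 1217034) (nat_lit 0) (nat_lit 76) (XT.nd (nat_lit 842868) (nat_lit 0) (nat_lit 76) (XT.nd (nat_lit 607464) (nat_lit 0) (nat_lit 0) (XT.nd (nat_lit 420654) (nat_lit 0) (nat_lit 0) (XT.nd (nat_lit 280644) (nat_lit 0) (nat_lit 0) xc0 xc1) (XT.nd (nat_lit 93678) (nat_lit 0) (nat_lit 0) xc2 xc3)) (XT.nd (nat_lit 140244) (nat_lit 0) (nat_lit 0) (XT.nd (nat_lit 48048) (nat_lit 0) (nat_lit 0) xc4 xc5) (XT.nd (nat_lit 47658) (nat_lit 0) (nat_lit 0) xc6 xc7))) (XT.nd (nat_lit 188292) (nat_lit 0) (nat_lit 0) (XT.nd (nat_lit 94458) (nat_lit 0) (nat_lit 0) (XT.nd (nat_lit 47268) (nat_lit 0) (nat_lit 0) xc8 xc9) (XT.nd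 (nat_lit 46956) (nat_lit 0) (nat_lit 0) xc10 xc11)) (XT.nd (nat_lit 93210) (nat_lit 0) (nat_lit 0) (XT.nd (nat_lit 46644) (nat_lit 0) (nat_lit 0) xc12 xc13) (XT.nd (nat_lit 46410) (nat_lit 0) (nat_lit 0) xc14 xc15)))) (XT.nd (nat_lit 281268) (nat_lit 0) (nat_lit 152) (XT.nd (nat_lit 141258) (nat_lit 0) (nat_lit 0) (XT.nd (nat_lit 91962) (nat_lit 0) (nat_lit 0) (XT.nd (nat_lit 46020) (nat_lit 0) (nat_lit 0) xc16 xc17) (XT.nd (nat_lit 3510) (nat_lit 76) (nat_lit 0) xc18 xc19)) (XT.nd (nat_lit 91026) (nat_lit 0) (nat_lit 152) (XT.nd (nat_lit 45552) (nat_lit 0) (nat_lit 0) xc20 xc21) (XT.nd (nat_lit 3588) (nat_lit 0) (nat_lit 0) xc22 xc23))) (XT.nd (nat_lit 138840) (nat_lit 0) (nat_lit 0) (XT.nd (nat_lit 90324) (nat_lit 0) (nat_lit 0) (XT.nd (nat_lit 45162) (nat_lit 0) (nat_lit 0) xc24 xc25) (XT.nd (nat_lit 3510) (nat_lit 608) (nat_lit 0) xc26 xc27)) (XT.nd (nat_lit 48360) (nat_lit 0) (nat_lit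 0) (XT.nd (nat_lit 44772) (nat_lit 0) (nat_lit 912) xc28 xc29) (XT.nd (nat_lit 44694) (nat_lit 0) (nat_lit 228) xc30 xc31))))) (XT.nd (nat_lit 420030) (nat_lit 0) (nat_lit 228) (XT.nd (nat_lit 231660) (nat_lit 0) (nat_lit 0) (XT.nd (nat_lit 136578) (nat_lit 0) (nat_lit 0) (XT.nd (nat_lit 88842) (nat_lit 0) (nat_lit 0) (XT.nd (nat_lit 44460) (nat_lit 0) (nat_lit 0) xc32 xc33) (XT.nd (nat_lit 3510) (nat_lit 912) (nat_lit 0) xc34 xc35)) (XT.nd (nat_lit 47580) (nat_lit 0) (nat_lit 0) (XT.nd (nat_lit 3510) (nat_lit 456) (nat_lit 0) xc36 xc37) (XT.nd (nat_lit 3588) (nat_lit 152) (nat_lit 0) xc38 xc39))) (XT.nd (nat_lit 94380) (nat_lit 0) (nat_lit 152) (XT.nd (nat_lit 47268) (nat_lit 0) (nat_lit 76) (XT.nd (nat_lit 43680) (nat_lit 0) (nat_lit 2280) xc40 xc41) (XT.nd (nat_lit 43524) (nat_lit 0) (nat_lit 1900) xc42 xc43)) (XT.nd (nat_lit 47034) (nat_lit 0) (nat_lit 0) (XT.nd (nat_lit 43446) (nat_lit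 0) (nat_lit 1672) xc44 xc45) (XT.nd (nat_lit 43368) (nat_lit 0) (nat_lit 1672) xc46 xc47)))) (XT.nd (nat_lit 187746) (nat_lit 0) (nat_lit 152) (XT.nd (nat_lit 93678) (nat_lit 0) (nat_lit 0) (XT.nd (nat_lit 46800) (nat_lit 0) (nat_lit 0) (XT.nd (nat_lit 43212) (nat_lit 0) (nat_lit 1824) xc48 xc49) (XT.nd (nat_lit 43290) (nat_lit 0) (nat_lit 1900) xc50 xc51)) (XT.nd (nat_lit 46956) (nat_lit 0) (nat_lit 76) (XT.nd (nat_lit 43368) (nat_lit 0) (nat_lit 1900) xc52 xc53) (XT.nd (nat_lit 43524) (nat_lit 0) (nat_lit 1520) xc54 xc55))) (XT.nd (nat_lit 94380) (nat_lit 0) (nat_lit 76) (XT.nd (nat_lit 47112) (nat_lit 0) (nat_lit 0) (XT.nd (nat_lit 43524) (nat_lit 0) (nat_lit 1368) xc56 xc57) (XT.nd (nat_lit 43680) (nat_lit 0) (nat_lit 1064) xc58 xc59)) (XT.nd (nat_lit 47268) (nat_lit 0) (nat_lit 0) (XT.nd (nat_lit 43680) (nat_lit 0) (nat_lit 684) xc60 xc61) (XT.nd (nat_lit 43836) (nat_lit 0) (nat_lit 304)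 xc62 xc63)))))) (XT.nd (nat_lit 937794) (nat_lit 0) (nat_lit 1368) (XT.nd (nat_lit 464412) (nat_lit 0) (nat_lit 532) (XT.nd (nat_lit 231114) (nat_lit 0) (nat_lit 228) (XT.nd (nat_lit 135486) (nat_lit 0) (nat_lit 228) (XT.nd (nat_lit 87828) (nat_lit 0) (nat_lit 152) (XT.nd (nat_lit 43836) (nat_lit 0) (nat_lit 76) xc64 xc65) (XT.nd (nat_lit 3510) (nat_lit 3420) (nat_lit 0) xc66 xc67)) (XT.nd (nat_lit 47736) (nat_lit 0) (nat_lit 0) (XT.nd (nat_lit 3510) (nat_lit 2128) (nat_lit 0) xc68 xc69) (XT.nd (nat_lit 3588) (nat_lit 836) (nat_lit 0) xc70 xc71))) (XT.nd (nat_lit 95862) (nat_lit 0) (nat_lit 76) (XT.nd (nat_lit 47892) (nat_lit 0) (nat_lit 76) (XT.nd (nat_lit 3510) (nat_lit 228) (nat_lit 0) xc72 xc73) (XT.nd (nat_lit 44382) (nat_lit 0) (nat_lit 1748) xc74 xc75)) (XT.nd (nat_lit 48048) (nat_lit 0) (nat_lit 152) (XT.nd (nat_lit 44460) (nat_lit 0) (nat_lit 456) xc76 xc77) (XT.nd (nat_lit 44616)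 (nat_lit 0) (nat_lit 76) xc78 xc79)))) (XT.nd (nat_lit 235560) (nat_lit 0) (nat_lit 380) (XT.nd (nat_lit 96798) (nat_lit 0) (nat_lit 152) (XT.nd (nat_lit 48360) (nat_lit 0) (nat_lit 152) (XT.nd (nat_lit 3510) (nat_lit 1292) (nat_lit 0) xc80 xc81) (XT.nd (nat_lit 44850) (nat_lit 0) (nat_lit 2280) xc82 xc83)) (XT.nd (nat_lit 48516) (nat_lit 0) (nat_lit 76) (XT.nd (nat_lit 44928) (nat_lit 0) (nat_lit 76) xc84 xc85) (XT.nd (nat_lit 45084) (nat_lit 0) (nat_lit 0) xc86 xc87))) (XT.nd (nat_lit 139542) (nat_lit 0) (nat_lit 304) (XT.nd (nat_lit 48750) (nat_lit 0) (nat_lit 152) (XT.nd (nat_lit 3510) (nat_lit 76) (nat_lit 0) xc88 xc89) (XT.nd (nat_lit 45318) (nat_lit 0) (nat_lit 0) xc90 xc91)) (XT.nd (nat_lit 49062) (nat_lit 0) (nat_lit 76) (XT.nd (nat_lit 3510) (nat_lit 1520) (nat_lit 0) xc92 xc93) (XT.nd (nat_lit 45630) (nat_lit 0) (nat_lit 228) xc94 xc95))))) (XT.nd (nat_lit 655356) (nat_lit 0) (nat_lit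 2204) (XT.nd (nat_lit 325338) (nat_lit 0) (nat_lit 1064) (XT.nd (nat_lit 183300) (nat_lit 0) (nat_lit 456) (XT.nd (nat_lit 91416) (nat_lit 0) (nat_lit 304) (XT.nd (nat_lit 45630) (nat_lit 0) (nat_lit 152) xc96 xc97) (XT.nd (nat_lit 45864) (nat_lit 0) (nat_lit 152) xc98 xc99)) (XT.nd (nat_lit 49608) (nat_lit 0) (nat_lit 228) (XT.nd (nat_lit 3510) (nat_lit 1292) (nat_lit 0) xc100 xc101) (XT.nd (nat_lit 46176) (nat_lit 0) (nat_lit 152) xc102 xc103))) (XT.nd (nat_lit 142896) (nat_lit 0) (nat_lit 304) (XT.nd (nat_lit 92820) (nat_lit 0) (nat_lit 152) (XT.nd (nat_lit 46332) (nat_lit 0) (nat_lit 152) xc104 xc105) (XT.nd (nat_lit 3510) (nat_lit 380) (nat_lit 0) xc106 xc107)) (XT.nd (nat_lit 93288) (nat_lit 0) (nat_lit 380) (XT.nd (nat_lit 46566) (nat_lit 0) (nat_lit 228) xc108 xc109) (XT.nd (nat_lit 46878) (nat_lit 0) (nat_lit 304) xc110 xc111)))) (XT.nd (nat_lit 467454) (nat_lit 0) (nat_lit 3040) (XT.nd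 (nat_lit 232440) (nat_lit 0) (nat_lit 1216) (XT.nd (nat_lit 94068) (nat_lit 0) (nat_lit 456) (XT.nd (nat_lit 46956) (nat_lit 0) (nat_lit 228) xc112 xc113) (XT.nd (nat_lit 47190) (nat_lit 0) (nat_lit 228) xc114 xc115)) (XT.nd (nat_lit 95082) (nat_lit 0) (nat_lit 608) (XT.nd (nat_lit 47424) (nat_lit 0) (nat_lit 228) xc116 xc117) (XT.nd (nat_lit 47736) (nat_lit 0) (nat_lit 228) xc118 xc119))) (XT.nd (nat_lit 282594) (nat_lit 0) (nat_lit 2280) (XT.nd (nat_lit 140790) (nat_lit 0) (nat_lit 1064) (XT.nd (nat_lit 47970) (nat_lit 0) (nat_lit 0) xc120 xc121) (XT.nd (nat_lit 48360) (nat_lit 0) (nat_lit 380) xc122 xc123)) (XT.nd (nat_lit 233610) (nat_lit 0) (nat_lit 2812) (XT.nd (nat_lit 93756) (nat_lit 0) (nat_lit 1292) xc124 xc125) (XT.nd (nat_lit 140868) (nat_lit 0) (nat_lit 2280) xc126 xc127))))))) XT.nil))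

set_option maxRecDepth 10000000 in
noncomputable def Te : XT := XT.nil

set_option maxRecDepth 10000000 in
noncomputable def Tz : ZL := (ZL.cons (nat_lit 76) (nat_lit 3) (nat_lit 115274518822777759196) (ZL.cons (nat_lit 152) (nat_lit 6) (nat_lit 225348413414559165306) (ZL.cons (nat_lit 228) (nat_lit 6) (nat_lit 220414525345779691406) (ZL.cons (nat_lit 304) (nat_lit 3) (nat_lit 110078782825629675741) (ZL.cons (nat_lit 380) (nat_lit 6) (nat_lit 215233942873561243812) (ZL.cons (nat_lit 456) (nat_lit 6) (nat_lit 210565822170089370610) (ZL.cons (nat_lit 532) (nat_lit 3) (nat_lit 105160549325749285341) (ZL.cons (nat_lit 608) (nat_lit 6) (nat_lit 205664295431443903746) (ZL.cons (nat_lit 684) (nat_lit 6) (nat_lit 201252445586682827128) (ZL.cons (nat_lit 760) (nat_lit 3) (nat_lit 100509687784488651695) (ZL.cons (nat_lit 836) (nat_lit 6) (nat_lit 196620003249683696682) (ZL.cons (nat_lit 912) (nat_lit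 6) (nat_lit 192455703777564765512) (ZL.cons (nat_lit 988) (nat_lit 3) (nat_lit 96116866166065466689) (ZL.cons (nat_lit 1064) (nat_lit 6) (nat_lit 188083189331839887782) (ZL.cons (nat_lit 1140) (nat_lit 6) (nat_lit 184158492003571771692) (ZL.cons (nat_lit 1216) (nat_lit 3) (nat_lit 91973545313484061020) (ZL.cons (nat_lit 1292) (nat_lit 6) (nat_lit 180037559808890249798) (ZL.cons (nat_lit 1368) (nat_lit 6) (nat_lit 176345288470896561830) (ZL.cons (nat_lit 1444) (nat_lit 3) (nat_lit 88071976913256066796) (ZL.cons (nat_lit 1520) (nat_lit 6) (nat_lit 172468403566003189466) (ZL.cons (nat_lit 1596) (nat_lit 6) (nat_lit 169002157717219348504) (ZL.cons (nat_lit 1672) (nat_lit 3) (nat_lit 84405205218426613186) (ZL.cons (nat_lit 1748) (nat_lit 6) (nat_lit 165736963313853982514) (ZL.cons (nat_lit 1824) (nat_lit 6) (nat_lit 165362599575996315494) (ZL.cons (nat_lit 1900) (nat_lit 6) (nat_lit 162116761909954226092)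 (ZL.cons (nat_lit 1976) (nat_lit 3) (nat_lit 80967072726231340602) (ZL.cons (nat_lit 2052) (nat_lit 6) (nat_lit 159065169253807810334) (ZL.cons (nat_lit 2128) (nat_lit 6) (nat_lit 158708632360610032220) (ZL.cons (nat_lit 2204) (nat_lit 6) (nat_lit 155678380507362528902) (ZL.cons (nat_lit 2280) (nat_lit 3) (nat_lit 77752230035828147838) (ZL.cons (nat_lit 2356) (nat_lit 6) (nat_lit 152836175007355296240) (ZL.cons (nat_lit 2432) (nat_lit 6) (nat_lit 152496616061452650416) (ZL.cons (nat_lit 2508) (nat_lit 6) (nat_lit 150175248704635936062) (ZL.cons (nat_lit 2584) (nat_lit 6) (nat_lit 149677938796641468720) (ZL.cons (nat_lit 2660) (nat_lit 3) (nat_lit 74756150143222528061) (ZL.cons (nat_lit 2736) (nat_lit 6) (nat_lit 147041717140877962052) (ZL.cons (nat_lit 2812) (nat_lit 6) (nat_lit 146718327668589727936) (ZL.cons (nat_lit 2888) (nat_lit 6) (nat_lit 144581674375934122070) (ZL.cons (nat_lit 2964)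 (nat_lit 6) (nat_lit 144108045892129867456) (ZL.cons (nat_lit 3040) (nat_lit 3) (nat_lit 71975147465019022969) (ZL.cons (nat_lit 3116) (nat_lit 6) (nat_lit 141675240000454855970) (ZL.cons (nat_lit 3192) (nat_lit 6) (nat_lit 141367250026847013954) (ZL.cons (nat_lit 3268) (nat_lit 6) (nat_lit 139414117598584514880) (ZL.cons (nat_lit 3344) (nat_lit 6) (nat_lit 138963042852104272392) (ZL.cons (nat_lit 3420) (nat_lit 3) (nat_lit 69406401920294125947) (ZL.cons (nat_lit 3496) (nat_lit 6) (nat_lit 137319295061752486226) (ZL.cons (nat_lit 3572) (nat_lit 6) (nat_lit 136731949103012814718) (ZL.cons (nat_lit 3648) (nat_lit 6) (nat_lit 136438625318624393748) (ZL.cons (nat_lit 3724) (nat_lit 6) (nat_lit 134668656651598613652) (ZL.cons (nat_lit 3800) (nat_lit 6) (nat_lit 134239061654950763662) (ZL.cons (nat_lit 3876) (nat_lit 3) (nat_lit 67047988441039181595) (ZL.cons (nat_lit 3952) (nat_lit 6) (nat_lit 132768252896786873480)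 (ZL.cons (nat_lit 4028) (nat_lit 6) (nat_lit 132208875793225281564) (ZL.cons (nat_lit 4104) (nat_lit 6) (nat_lit 131929519808093452072) (ZL.cons (nat_lit 4180) (nat_lit 6) (nat_lit 131026213067732804344) (ZL.cons (nat_lit 4256) (nat_lit 6) (nat_lit 130343233957586696308) (ZL.cons (nat_lit 4332) (nat_lit 6) (nat_lit 129934095865541124890) (ZL.cons (nat_lit 4408) (nat_lit 3) (nat_lit 64898912326640847935) (ZL.cons (nat_lit 4560) (nat_lit 6) (nat_lit 128637694143664439834) (ZL.cons (nat_lit 4636) (nat_lit 6) (nat_lit 128104954045034352296) (ZL.cons (nat_lit 4712) (nat_lit 6) (nat_lit 127838900725861181350) (ZL.cons (nat_lit 4788) (nat_lit 6) (nat_lit 127088195542377744862) (ZL.cons (nat_lit 4864) (nat_lit 6) (nat_lit 126437739247000499118) (ZL.cons (nat_lit 4940) (nat_lit 6) (nat_lit 126048083921242812052) (ZL.cons (nat_lit 5016) (nat_lit 3) (nat_lit 62959150907164535063) (ZL.cons (nat_lit 5092)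 (nat_lit 6) (nat_lit 125691048871342595454) (ZL.cons (nat_lit 5168) (nat_lit 6) (nat_lit 124928481912396627606) (ZL.cons (nat_lit 5244) (nat_lit 6) (nat_lit 124421110389891782334) (ZL.cons (nat_lit 5320) (nat_lit 6) (nat_lit 124167726276393524288) (ZL.cons (nat_lit 5396) (nat_lit 6) (nat_lit 124442927590866050780) (ZL.cons (nat_lit 5472) (nat_lit 6) (nat_lit 123573588571378442832) (ZL.cons (nat_lit 5548) (nat_lit 6) (nat_lit 122954106385304875456) (ZL.cons (nat_lit 5624) (nat_lit 6) (nat_lit 122583006075059459204) (ZL.cons (nat_lit 5700) (nat_lit 3) (nat_lit 61229702034237471542) (ZL.cons (nat_lit 5776) (nat_lit 6) (nat_lit 122369833287419711020) (ZL.cons (nat_lit 5852) (nat_lit 6) (nat_lit 121643579040804503544) (ZL.cons (nat_lit 5928) (nat_lit 6) (nat_lit 121160368066990365188) (ZL.cons (nat_lit 6004) (nat_lit 6) (nat_lit 120919049863658690862) (ZL.cons (nat_lit 6080) (nat_lit 6) (nat_lit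 121314349976511006620) (ZL.cons (nat_lit 6156) (nat_lit 6) (nat_lit 120486408053189475242) (ZL.cons (nat_lit 6232) (nat_lit 6) (nat_lit 119896425018833696786) (ZL.cons (nat_lit 6308) (nat_lit 6) (nat_lit 119542996151933300356) (ZL.cons (nat_lit 6384) (nat_lit 3) (nat_lit 59712639977593071075) (ZL.cons (nat_lit 6460) (nat_lit 6) (nat_lit 120404625583150166048) (ZL.cons (nat_lit 6536) (nat_lit 6) (nat_lit 119479838253441659524) (ZL.cons (nat_lit 6612) (nat_lit 6) (nat_lit 118788167542379557166) (ZL.cons (nat_lit 6688) (nat_lit 6) (nat_lit 118327966614937520636) (ZL.cons (nat_lit 6764) (nat_lit 6) (nat_lit 118098139754621640326) (ZL.cons (nat_lit 6840) (nat_lit 6) (nat_lit 117978457500229926972) (ZL.cons (nat_lit 6916) (nat_lit 6) (nat_lit 118185100038871875900) (ZL.cons (nat_lit 6992) (nat_lit 6) (nat_lit 118530050899972071678) (ZL.cons (nat_lit 7068) (nat_lit 6) (nat_lit 119014131395104562392)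 (ZL.cons (nat_lit 7144) (nat_lit 6) (nat_lit 119638494096876806356) (ZL.cons (nat_lit 7220) (nat_lit 6) (nat_lit 118621473046799752072) (ZL.cons (nat_lit 7296) (nat_lit 6) (nat_lit 117832956929350674568) (ZL.cons (nat_lit 7372) (nat_lit 6) (nat_lit 117271068325202314136) (ZL.cons (nat_lit 7448) (nat_lit 6) (nat_lit 116934469404344793726) (ZL.cons (nat_lit 7524) (nat_lit 3) (nat_lit 58411179370388035811) (ZL.cons (nat_lit 7600) (nat_lit 6) (nat_lit 116493286487343670884) (ZL.cons (nat_lit 7676) (nat_lit 6) (nat_lit 116634380242911250604) (ZL.cons (nat_lit 7752) (nat_lit 6) (nat_lit 116916903691559666186) (ZL.cons (nat_lit 7828) (nat_lit 6) (nat_lit 117341529508166651950) (ZL.cons (nat_lit 7904) (nat_lit 6) (nat_lit 117909268706581272150) (ZL.cons (nat_lit 7980) (nat_lit 6) (nat_lit 117028518868763646886) (ZL.cons (nat_lit 8056) (nat_lit 6) (nat_lit 116369784858228311308) (ZL.cons (nat_lit 8132)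 (nat_lit 6) (nat_lit 115931498260664466996) (ZL.cons (nat_lit 8208) (nat_lit 6) (nat_lit 115712615536554104792) (ZL.cons (nat_lit 8284) (nat_lit 3) (nat_lit 57606606454472465742) (ZL.cons (nat_lit 8360) (nat_lit 6) (nat_lit 115285480442284423536) (ZL.cons (nat_lit 8436) (nat_lit 6) (nat_lit 115502455107858469910) (ZL.cons (nat_lit 8512) (nat_lit 6) (nat_lit 115864653512013675478) (ZL.cons (nat_lit 8588) (nat_lit 6) (nat_lit 116372938031902790728) (ZL.cons (nat_lit 8664) (nat_lit 6) (nat_lit 115621970300998907390) (ZL.cons (nat_lit 8740) (nat_lit 6) (nat_lit 115086838297048087932) (ZL.cons (nat_lit 8816) (nat_lit 6) (nat_lit 114766267896231401826) (ZL.cons (nat_lit 8892) (nat_lit 3) (nat_lit 57329747917844880863) (ZL.cons (nat_lit 8968) (nat_lit 6) (nat_lit 114135188970799426062) (ZL.cons (nat_lit 9044) (nat_lit 6) (nat_lit 114283337414145384768) (ZL.cons (nat_lit 9120) (nat_lit 6) (nat_lit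 114579987035226221128) (ZL.cons (nat_lit 9196) (nat_lit 6) (nat_lit 115025844142663556182) (ZL.cons (nat_lit 9272) (nat_lit 6) (nat_lit 114398478418344188964) (ZL.cons (nat_lit 9348) (nat_lit 6) (nat_lit 113981062611140527712) (ZL.cons (nat_lit 9424) (nat_lit 6) (nat_lit 113772602873892563710) (ZL.cons (nat_lit 9500) (nat_lit 3) (nat_lit 56590383519619218380) (ZL.cons (nat_lit 9576) (nat_lit 6) (nat_lit 113256647949244903414) (ZL.cons (nat_lit 9652) (nat_lit 6) (nat_lit 113484471348097652106) (ZL.cons (nat_lit 9728) (nat_lit 6) (nat_lit 113864779672460617952) (ZL.cons (nat_lit 9804) (nat_lit 6) (nat_lit 113355130144888408940) (ZL.cons (nat_lit 9880) (nat_lit 6) (nat_lit 113049825001253469792) (ZL.cons (nat_lit 9956) (nat_lit 3) (nat_lit 56474068662273572945) (ZL.cons (nat_lit 10032) (nat_lit 6) (nat_lit 112419942214431072318) (ZL.cons (nat_lit 10108) (nat_lit 6) (nat_lit 112575498079944328958)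 (ZL.cons (nat_lit 10184) (nat_lit 6) (nat_lit 112886980182079207136) (ZL.cons (nat_lit 10260) (nat_lit 6) (nat_lit 112489441318075720228) (ZL.cons (nat_lit 10336) (nat_lit 6) (nat_lit 112290908234982421180) (ZL.cons (nat_lit 10412) (nat_lit 3) (nat_lit 55885614026596214990) (ZL.cons (nat_lit 10488) (nat_lit 6) (nat_lit 111850903008699219966) (ZL.cons (nat_lit 10564) (nat_lit 6) (nat_lit 112090117577494606092) (ZL.cons (nat_lit 10640) (nat_lit 6) (nat_lit 111799350774032759284) (ZL.cons (nat_lit 10716) (nat_lit 3) (nat_lit 55851252683822892069) (ZL.cons (nat_lit 10792) (nat_lit 6) (nat_lit 111308960908002217728) (ZL.cons (nat_lit 10868) (nat_lit 6) (nat_lit 111472294566791137200) (ZL.cons (nat_lit 10944) (nat_lit 6) (nat_lit 111283215440035614294) (ZL.cons (nat_lit 11020) (nat_lit 3) (nat_lit 55474190719759164689) (ZL.cons (nat_lit 11096) (nat_lit 6) (nat_lit 111032040142800458864) (ZL.cons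 (nat_lit 11172) (nat_lit 3) (nat_lit 55469903211215955552) (ZL.cons (nat_lit 11248) (nat_lit 6) (nat_lit 110768306080703545660) (ZL.cons (nat_lit 11324) (nat_lit 1) (nat_lit 18446744073709551617) ZL.nil))))))))))))))))))))))))))))))))))))))))))))))))))))))))))))))))))))))))))))))))))))))))))))))))))))))))))))))))))))))))))))))))))))))))))))))))))))

noncomputable def vl : XL := ⟨(nat_lit 0), (nat_lit 76), (nat_lit 148490297), (nat_lit 152), (nat_lit 228380981), (nat_lit 76), (nat_lit 148490297), (nat_lit 1), (nat_lit 5), (nat_lit 2), (nat_lit 4), (nat_lit 1), (nat_lit 4), (nat_lit 0), (nat_lit 0), (nat_lit 0)⟩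

noncomputable def cp0 : Nat := (nat_lit 351196306981944839722520137807026240736687860896867253683800788588514686234349103163967800359787117074181138444255501012518933059994561743316749971359235234614605556669315142370704228449984739455634825553944352191240907636892308977724130229569580645744456934440843850509401393542840678450544881597384329871178384431962641694327386591255303877833164174517276224611076624361017983452929437929937214488520798852748470589898827863754643961767724638531305966816835574626707838751113626080082688593841650239792363143688517128689683012075757375610409622914050948215933727164467094746457309580454136280975838193310740915427740750409790522011629622962665770877970099658507795253667200503879018899580504924339986522875582679475535829189511077872153263356727535212626158591411315295598872520425552815387745635168050430545092888108575008802642931784649655271490843949600638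529746155810094086758205382508935994748732103330480145217446090500943701303597843034186570683323762715655334351863788799759852935382206557514162082448205934823161934653601624864517340694612883759153475353678137810342730420567675592429342578981678688024717325047769121796835191660166823730015015081755973330444529788373788389626569719431227219904160592390547898423764158740322409966285603848780735393182828098959947705889100066240505741572294524858895030519723725058721734762273333057377335912887749618236986669625824421290048906099612269572892337285423059597146626010254626997138998188116528861786952414507056243552869821931045695855104499694852244647085563062981446311350545230619039543846155045728985852658772519935628541591640838964224506600773477231553094216380439144908843688861778722418887527887093516045829681047945334857843884562804290783854420375128681362184244499495232769819408272249023913196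908079922210891882402434732150255556765522329976705590688818208503438270637163206383495183503293314633224011722873859250080805363440749744424899272558571831914344745275786150126900903944189151914910694954837039376462881219532637214570625648739040349104479438597564914592710439075770914579096831192195499094662231473478610208613970362791603050821761504168083831961230175748273612782418132374567887896921738410462701875649379530927415364495702373089008990220332042732781891608512306389785702378071543805379462177328193650139964299866771647482325748448330206647573640676667808172948749217452138376196320206771782168984576837447563953458936967011259761306912448363636574159632067738134707636577872074323387065138050460135310659363185540205946137196786066310262102137167661888263737152395295400902007462430298991443994222377940142182343146637486642649983117686681259736592397494485796910244746650882774467406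76531982790749513097941974824541354727905569775517363939850265691550270345297470728353854104170552478968103329736098191501043034600270298281561107665138840646404937139558058434304550424911691164617639672911268900194308817343887312351088174289235179495223959553319033250597613277442578834085169352572698877924833135412527207739562066743264358416838002212280137659425549657067778014510091438417589748363623748117198820066406201262934658138076231366269741539917559125495196766840390565626949193379638474064898254882411658706275581695873110996259043460459842869884886395515632341431195685675701699949619131686431689810520834601370730565987233104598571758931163954322924893420848832678439169129477854620327212177310629140027812840047299091419112352990886358807478272)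

noncomputable def cp1 : Nat := (nat_lit 736670498305917452573425324880330620843563604060392315504248355219538572798699566622343903941043770900508715913372715634587799396899955372393614828672132938229520982552163144077339250519395571868675250116568827928507156036778151736594374740023931037520974907775805603664000482331783853828153463768067899832781100932250206228380527527447132457461512107996158011322597360824322075049957622551267617665764404581078046537124029482733587485470779918715081836039003990498523026263158342348438234918831008049842717151464431976336299207449583178975443001550654840687785259119844918818991890428493392909114563990182970184759666094296451977069142599657517590986944572614556224745565227109982556346918294828515416464091858873770648180940769844713381626799873245542388356438549884102295500316921343057258391301320157305684938400474031070566470796214515450309082720741801186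840251746147897074834591613913896876434819905888434511622108947191835323248167696256281605011214798718925832480285989277595634401767337039972643430335611326350470292098434520330984616053994752611562454518017703144956315683265884201956949960721236157693687559033267362663017064193592435023864308063201758086244878461560912631736891101185598891361713670585402913143920823516873185152585508336820749473188910498621259431973405938520131648862575234979989077093049180005376264032066121410020125194136762049468408394870377585666439942786037524967092860329848715706257769007315367922280238101443789584715365614491207704824499062913968897621320628344299281663498806603639239495645386509005692758360103166175805056429236977924110832353006020391287861861581126048870097252596467324721336831905680544585702254118353417760609208387605798447622566553792310294945217278447397097703450432397572225563287424933220315684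447300537766723503688938906547087267576580912841261682069946703436311288925373298846188692046945326834598962777688830141064237206168271833940324012234856125117211639159881989124085724496520808025905627807509498475541185491293106399880347916244009820313242112740582866717870474237305321514445645248086841794905339894938115464768598943361562317533352664706417480725658768676611519458370948375109679352610571236599278307628232892669274113207387413792173002395052708628177052642044097476997189812964530100428563046986852590582144420791587893518985193844545848243455897598929221039442453014907447889846865323934234367148570349752053303170977086096608015671245909393169496426897297650607332994980986363373513524868494697002224368257158333168415154169068105580262466739849210742825703659188758202070623828270956850078235130804611594010590280813830595072926755735908981137859357531978863882894724362626160990166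815531457214892495621040554223878612074013376993591638363582033693834931411027016371998430826347255496747879893988550788679144989021434853494355166754503196517059216879442851069333160405067271067202513433070056777992374068117656910405928960403154620957675700468129372118152866599051289120250581535132139301851435048737029290876327586035474343452659958921472898431759360267256420342297269202796259478530628952136244888941045780483606092427205524207877927409360938479952472804655146499332540969656587598385785391777359939614111019178041052723471583794322178254195893554456567628252873492017183198211226027620001754951879590581007689567685992955920753680441229301145844945380771133468375994933444487657779534710752631027071165385893082113391526647618896637713398173992947857917267136336465085297033098084860050409270446584107307583169302068270715597954517858905600324249804749658795964522399429678969824784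075296352745724222109030220050397543277503929432594143710222083467379086947595368881368703382826161957419675529298679925356105240140053278821430883397642337617905148045808835560979586744482107644842229148798070983217085094864522378221941163044732680624709735728221534270573949364032593963707755350538512432605823861244262163221223148020893119364407555479212395187023797350957921998403455251457698913253759362571490688993214682886023391738168710677638975155982267918825753730883210654097954104957111386138329591399074169460518823691671725868680803453609010209013961003250361321616896686747283459943697332552543556958907392745398544270516544315553852196276628891471849655674120935517820315685251595664885109101008889953045491396199674975003604188440893588249685107241265645523648028576414178401679864643722490150458974284628123627240600172470990877881769708184908843370988486451008030301364205405873800336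482253067229175191900637782122399387806129454492654152309909193925185694003538460124392450018297716734465215254938426127478327122841473242666155663673850410707499093681103105125103512640579315389816978450251177485562349409195267937233333699443678341062324415287309273049035256525600256043279139144352062665421769802050343620812951629809330564227143861012412447900220681769785826277394034963910438069869659138480730204643554539427626003267799975827832773571673143211242845571073594790689813014412373836272235997537815692262941274311781870445074349081701205077819169517020091446736140844720049601172916299360837296855689054466009842391743037322215587451398986553320835874609367880031958888040106385378826443770881959656692169415095095577179538605277122853645257340676429952237012032379105939655042856260483842775624379899133026166310743547264618168159241618743442319990277254554833898404572582882679426957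771833305763991892533675964858626793895777075880825679759988650966564465403923560777295620251884330690831279246175397872207303803878569652224233751542228948404431915041039637402413535672420203720097150850866173072206787786700154027799228964221336335053654130339670635181253308889595447392255466086570553407684978899160870089793318153244725837521319945371791560745422410173853874005063966573052513525380836511219009096936955465222136611576305032845139307815797900727609725030802857526955988437697580364596402690407000449700561097223415556882438895987183432976644464769391051671567185352460127443973053374222073004131451641391151914877957338083951272650215079955954033253228485449275072750194138831328709531727396085249455727058356797481244715517603504401930990852175968520459585220837063695303003755527673983963565827640815405322212500096092812484304254406339042831714033936191943373850944005653594908308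456154388704421974895553468068514616310761040635296503780828308668008568048333780634050198141046818331216691016696814638991973463858290158525089981405275548775301846483272743744568595345705725444271748433416263380659709438685876034555344468243193987584074977691438874883336286385421018435152920114306098263134763013421729870683641306327986977815558716000394888526179692858651465763265643181230738434397496428265002695285907029373224403864589997059666823831193663141663502748711341414511721374136952705425339645915188786142511841549582761029892837159129442803621817045096963272068270059444231615427599619964138435100406918593139970276914193536041002922114681566734445775586459269619199152252791331606819701747175193290901033176952495906879603082366038130649725288556597247031900032222737993959668160295320010591720651956739488235774630015666599950575908199117080038430461103095735278903990238544741770390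339199469235718691280537182999842738017885050643176861238692590996036787559299101566640477755596629164013581210221538275931165132718744820509864864082059235783740294434059437485669017622076894108945211475634592781634300502948288217622772277936854685772288007580535193576110365371946773414211062491597055627027461597004431929615647226035669774880390081532899399994899382085605998162975675341395422759869968598077825689176943221611490483614503394678603771747594747815570609751415386340053091769676496350419534384813584840944496404844641565116310755335526008729388641443812450817416198617165556382352759034311450727913605502021357296392903200372537677084545113733330734247418439143522304)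

noncomputable def rc0 : Nat := (nat_lit 736670498305917452573425324880330620843563604060392315504248355219538572798699566622343903941043770900508715913372715634587799396899955372393614828672132938229520982552163144077339250519395571868675250116568827928507156036778151736594374740023931037520974907775805603664000482331783853828153463768067899832781100932250206228380527527447132457461512107996158011322597360824322075049957622551267617665764404581078046537124029482733587485470779918715081836039003990498523026263158342348438234918831008049842717151464431976336299207449583178975443001550654840687785259119844918818991890428493392909114563990182970184759666094296451977069142599657517590986944572614556224745565227109982556346918294828515416464091858873770648180940769844713381626799873245542388356438549884102295500316921343057258391301320157305684938400474031070566470796214515450309082720741801186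840251746147897074834591613913896876434819905888434511622108947191835323248167696256281605011214798718925832480285989277595634401767337039972643430335611326350470292098434520330984616053994752611562454518017703144956315683265884201956949960721236157693687559033267362663017064193592435023864308063201758086244878461560912631736891101185598891361713670585402913143920823516873185152585508336820749473188910498621259431973405938520131648862575234979989077093049180005376264032066121410020125194136762049468408394870377585666439942786037524967092860329848715706257769007315367922280238101443789584715365614491207704824499062913968897621320628344299281663498806603639239495645386509005692758360103166175805056429236977924110832353006020391287861861581126048870097252596467324721336831905680544585702254118353417760609208387605798447622566553792310294945217278447397097703450432397572225563287424933220315684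447300537766723503688938906547087267576580912841261682069946703436311288925373298846188692046945326834598962777688830141064237206168271833940324012234856125117211639159881989124085724496520808025905627807509498475541185491293106399880347916244009820313242112740582866717870474237305321514445645248086841794905339894938115464768598943361562317533352664706417480725658768676611519458370948375109679352610571236599278307628232892669274113207387413792173002395052708628177052642044097476997189812964530100428563046986852590582144420791587893518985193844545848243455897598929221039442453014907447889846865323934234367148570349752053303170977086096608015671245909393169496426897297650607332994980986363373513524868494697002224368257158333168415154169068105580262466739849210742825703659188758202070623828270956850078235130804611594010590280813830595072926755735908981137859357531978863882894724362626160990166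815531457214892495621040554223878612074013376993591638363582033693834931411027016371998430826347255496747879893988550788679144989021434853494355166754503196517059216879442851069333160405067271067202513433070056777992374068117656910405928960403154620957675700468129372118152866599051289120250581535132139301851435048737029290876327586035474343452659958921472898431759360267256420342297269202796259478530628952136244888941045780483606092427205524207877927409360938479952472804655146499332540969656587598385785391777359939614111019178041052723471583794322178254195893554456567628252873492017183198211226027620001754951879590581007689567685992955920753680441229301145844945380771133468375994933444487657779534710752631027071165385893082113391526647618896637713398173992947857917267136336465085297033098084860050409270446584107307583169302068270715597954517858905600324249804749658795964522399429678969824784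075296352745724222109030220050397543277503929432594143710222083467379086947595368881368703382826161957419675529298679925356105240140053278821430883397642337617905148045808835560979586744482107644842229148798070983217085094864522378221941163044732680624709735728221534270573949364032593963707755350538512432605823861244262163221223148020893119364407555479212395187023797350957921998403455251457698913253759362571490688993214682886023391738168710677638975155982267918825753730883210654097954104957111386138329591399074169460518823691671725868680803453609010209013961003250361321616896686747283459943697332552543556958907392745398544270516544315553852196276628891471849655674120935517820315685251595664885109101008889953045491396199674975003604188440893588249685107241265645523648028576414178401679864643722490150458974284628123627240600172470990877881769708184908843370988486451008030301364205405873800336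482253067229175191900637782122399387806129454492654152309909193925185694003538460124392450018297716734465215254938426127478327122841473242666155663673850410707499093681103105125103512640579315389816978450251177485562349409195267937233333699443678341062324415287309273049035256525600256043279139144352062665421769802050343620812951629809330564227143861012412447900220681769785826277394034963910438069869659138480730204643554539427626003267799975827832773571673143211242845571073594790689813014412373836272235997537815692262941274311781870445074349081701205077819169517020091446736140844720049601172916299360837296855689054466009842391743037322215587451398986553320835874609367880031958888040106385378826443770881959656692169415095095577179538605277122853645257340676429952237012032379105939655042856260483842775624379899133026166310743547264618168159241618743442319990277254554833898404572582882679426957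771833305763991892533675964858626793895777075880825679759988650966564465403923560777295620251884330690831279246175397872207303803878569652224233751542228948404431915041039637402413535672420203720097150850866173072206787786700154027799228964221336335053654130339670635181253308889595447392255466086570553407684978899160870089793318153244725837521319945371791560745422410173853874005063966573052513525380836511219009096936955465222136611576305032845139307815797900727609725030802857526955988437697580364596402690407000449700561097223415556882438895987183432976644464769391051671567185352460127443973053374222073004131451641391151914877957338083951272650215079955954033253228485449275072750194138831328709531727396085249455727058356797481244715517603504401930990852175968520459585220837063695303003755527673983963565827640815405322212500096092812484304254406339042831714033936191943373850944005653594908308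456154388704421974895553468068514616310761040635296503780828308668008568048333780634050198141046818331216691016696814638991973463858290158525089981405275548775301846483272743744568595345705725444271748433416263380659709438685876034555344468243193987584074977691438874883336286385421018435152920114306098263134763013421729870683641306327986977815558716000394888526179692858651465763265643181230738434397496428265002695285907029373224403864589997059666823831193663141663502748711341414511721374136952705425339645915188786142511841549582761029892837159129442803621817045096963272068270059444231615427599619964138435100406918593139970276914193536041002922114681566734445775586459269619199152252791331606819701747175193290901033176952495906879603082366038130649725288556597247031900032222737993959668160295320010591720651956739488235774630015666599950575908199117080038430461103095735278903990238544741770390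339199469235718691280537182999842738017885050643176861238692590996036787559299101566640477755596629164013581210221538275931165132718744820509864864082059235783740294434059437485669017622076894108945211475634592781634300502948288217622772277936854685772288007580535193576110365371946773414211062491597055627027461597004431929615647226035669774880390081532899399994899382085605998162975675341395422759869968598077825689176943221611490483614503394678603771747594747815570609751415386340053091769676496350419534384813584840944496404844641565116310755335526008729388641443812450817416198617165556382352759034311450727913605502021357296392903200372537677084545113733330734247418439143522304)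

end Vale.Agent.Lib.P154.PChain.BK.S5
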