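import Vale.Agent.Lib.P154.PChain.BK.R6_2

set_option linter.all false

namespace Vale.Agent.Lib.P154.PChain.BK.S7

open Vale.Agent.Lib.P154.Chain

noncomputable def pc0 : PT := (PT.nd (nat_lit 4654650) (PT.nd (nat_lit 4467216) (PT.nd (nat_lit 4326738) (PT.nd (nat_lit 4279860) (PT.nd (nat_lit 3530514) (PT.nd (nat_lit 3530436) PT.nil (PT.lf (nat_lit 76) (nat_lit 6) (nat_lit 1) (nat_lit 3) (nat_lit 187) (nat_lit 75) (nat_lit 188))) (PT.nd (nat_lit 46800) (PT.lf (nat_lit 76) (nat_lit 6) (nat_lit 1) (nat_lit 1) (nat_lit 188) (nat_lit 75) (nat_lit 187)) (PT.lf (nat_lit 152) (nat_lit 3) (nat_lit 2) (nat_lit 1) (nat_lit 187) (nat_lit 76) (nat_lit 187)))) (PT.nd (nat_lit 78) (PT.lf (nat_lit 1900) (nat_lit 6) (nat_lit 25) (nat_lit 3) (nat_lit 179) (nat_lit 91) (nat_lit 180)) (PT.nd (nat_lit 46722) (PT.lf (nat_lit 1900) (nat_lit 6) (nat_lit 25) (nat_lit 1) (nat_lit 180) (nat_lit 91) (nat_lit 179)) (PT.lf (nat_lit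 1976) (nat_lit 6) (nat_lit 26) (nat_lit 3) (nat_lit 178) (nat_lit 92) (nat_lit 180))))) (PT.nd (nat_lit 46878) (PT.nd (nat_lit 78) (PT.lf (nat_lit 2052) (nat_lit 3) (nat_lit 27) (nat_lit 1) (nat_lit 179) (nat_lit 92) (nat_lit 179)) (PT.nd (nat_lit 46722) (PT.lf (nat_lit 1976) (nat_lit 6) (nat_lit 26) (nat_lit 1) (nat_lit 180) (nat_lit 92) (nat_lit 178)) (PT.lf (nat_lit 2204) (nat_lit 6) (nat_lit 29) (nat_lit 3) (nat_lit 178) (nat_lit 93) (nat_lit 179)))) (PT.nd (nat_lit 46800) (PT.nd (nat_lit 46722) (PT.lf (nat_lit 2204) (nat_lit 6) (nat_lit 29) (nat_lit 1) (nat_lit 179) (nat_lit 93) (nat_lit 178)) (PT.lf (nat_lit 2280) (nat_lit 6) (nat_lit 30) (nat_lit 3) (nat_lit 177) (nat_lit 94) (nat_lit 179))) (PT.nd (nat_lit 78) (PT.lf (nat_lit 2356) (nat_lit 3) (nat_lit 31) (nat_lit 1) (nat_lit 178) (nat_lit 94) (nat_lit 178)) (PT.lf (nat_lit 2280) (nat_lit 6) (nat_lit 30) (nat_lit 1) (nat_lit 179) (nat_lit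 94) (nat_lit 177)))))) (PT.nd (nat_lit 93756) (PT.nd (nat_lit 46878) (PT.nd (nat_lit 78) (PT.lf (nat_lit 2508) (nat_lit 6) (nat_lit 33) (nat_lit 3) (nat_lit 177) (nat_lit 95) (nat_lit 178)) (PT.nd (nat_lit 46722) (PT.lf (nat_lit 2508) (nat_lit 6) (nat_lit 33) (nat_lit 1) (nat_lit 178) (nat_lit 95) (nat_lit 177)) (PT.lf (nat_lit 2584) (nat_lit 6) (nat_lit 34) (nat_lit 3) (nat_lit 176) (nat_lit 96) (nat_lit 178)))) (PT.nd (nat_lit 46722) (PT.nd (nat_lit 78) (PT.lf (nat_lit 2660) (nat_lit 3) (nat_lit 35) (nat_lit 1) (nat_lit 177) (nat_lit 96) (nat_lit 177)) (PT.lf (nat_lit 2584) (nat_lit 6) (nat_lit 34) (nat_lit 1) (nat_lit 178) (nat_lit 96) (nat_lit 176))) (PT.nd (nat_lit 78) (PT.lf (nat_lit 2736) (nat_lit 6) (nat_lit 36) (nat_lit 3) (nat_lit 175) (nat_lit 97) (nat_lit 178)) (PT.lf (nat_lit 2812) (nat_lit 6) (nat_lit 37) (nat_lit 3) (nat_lit 176) (nat_lit 97) (nat_lit 177))))) (PT.nd (nat_lit 46800)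 (PT.nd (nat_lit 78) (PT.lf (nat_lit 2812) (nat_lit 6) (nat_lit 37) (nat_lit 1) (nat_lit 177) (nat_lit 97) (nat_lit 176)) (PT.nd (nat_lit 46644) (PT.lf (nat_lit 2736) (nat_lit 6) (nat_lit 36) (nat_lit 1) (nat_lit 178) (nat_lit 97) (nat_lit 175)) (PT.lf (nat_lit 2964) (nat_lit 6) (nat_lit 39) (nat_lit 3) (nat_lit 175) (nat_lit 98) (nat_lit 177)))) (PT.nd (nat_lit 46722) (PT.nd (nat_lit 78) (PT.lf (nat_lit 3040) (nat_lit 3) (nat_lit 40) (nat_lit 1) (nat_lit 176) (nat_lit 98) (nat_lit 176)) (PT.lf (nat_lit 2964) (nat_lit 6) (nat_lit 39) (nat_lit 1) (nat_lit 177) (nat_lit 98) (nat_lit 175))) (PT.nd (nat_lit 78) (PT.lf (nat_lit 3116) (nat_lit 6) (nat_lit 41) (nat_lit 3) (nat_lit 174) (nat_lit 99) (nat_lit 177)) (PT.lf (nat_lit 3192) (nat_lit 6) (nat_lit 42) (nat_lit 3) (nat_lit 175) (nat_lit 99) (nat_lit 176))))))) (PT.nd (nat_lit 140634) (PT.nd (nat_lit 93600) (PT.nd (nat_lit 46800) (PT.nd (nat_lit 78)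 (PT.lf (nat_lit 3192) (nat_lit 6) (nat_lit 42) (nat_lit 1) (nat_lit 176) (nat_lit 99) (nat_lit 175)) (PT.nd (nat_lit 46644) (PT.lf (nat_lit 3116) (nat_lit 6) (nat_lit 41) (nat_lit 1) (nat_lit 177) (nat_lit 99) (nat_lit 174)) (PT.lf (nat_lit 3344) (nat_lit 6) (nat_lit 44) (nat_lit 3) (nat_lit 174) (nat_lit 100) (nat_lit 176)))) (PT.nd (nat_lit 78) (PT.lf (nat_lit 3420) (nat_lit 3) (nat_lit 45) (nat_lit 1) (nat_lit 175) (nat_lit 100) (nat_lit 175)) (PT.nd (nat_lit 46644) (PT.lf (nat_lit 3344) (nat_lit 6) (nat_lit 44) (nat_lit 1) (nat_lit 176) (nat_lit 100) (nat_lit 174)) (PT.lf (nat_lit 3496) (nat_lit 6) (nat_lit 46) (nat_lit 3) (nat_lit 173) (nat_lit 101) (nat_lit 176))))) (PT.nd (nat_lit 46722) (PT.nd (nat_lit 78) (PT.lf (nat_lit 3572) (nat_lit 6) (nat_lit 47) (nat_lit 3) (nat_lit 174) (nat_lit 101) (nat_lit 175)) (PT.nd (nat_lit 78) (PT.lf (nat_lit 3572) (nat_lit 6) (nat_lit 47) (nat_lit 1) (nat_lit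 175) (nat_lit 101) (nat_lit 174)) (PT.lf (nat_lit 3496) (nat_lit 6) (nat_lit 46) (nat_lit 1) (nat_lit 176) (nat_lit 101) (nat_lit 173)))) (PT.nd (nat_lit 156) (PT.nd (nat_lit 78) (PT.lf (nat_lit 3648) (nat_lit 6) (nat_lit 48) (nat_lit 3) (nat_lit 172) (nat_lit 102) (nat_lit 176)) (PT.lf (nat_lit 3724) (nat_lit 6) (nat_lit 49) (nat_lit 3) (nat_lit 173) (nat_lit 102) (nat_lit 175))) (PT.nd (nat_lit 78) (PT.lf (nat_lit 3800) (nat_lit 3) (nat_lit 50) (nat_lit 1) (nat_lit 174) (nat_lit 102) (nat_lit 174)) (PT.lf (nat_lit 3724) (nat_lit 6) (nat_lit 49) (nat_lit 1) (nat_lit 175) (nat_lit 102) (nat_lit 173)))))) (PT.nd (nat_lit 93522) (PT.nd (nat_lit 46722) (PT.nd (nat_lit 46566) (PT.lf (nat_lit 3648) (nat_lit 6) (nat_lit 48) (nat_lit 1) (nat_lit 176) (nat_lit 102) (nat_lit 172)) (PT.nd (nat_lit 78) (PT.lf (nat_lit 3876) (nat_lit 6) (nat_lit 51) (nat_lit 3) (nat_lit 172) (nat_lit 103) (nat_lit 175)) (PT.lf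 (nat_lit 3952) (nat_lit 6) (nat_lit 52) (nat_lit 3) (nat_lit 173) (nat_lit 103) (nat_lit 174)))) (PT.nd (nat_lit 46644) (PT.nd (nat_lit 78) (PT.lf (nat_lit 3952) (nat_lit 6) (nat_lit 52) (nat_lit 1) (nat_lit 174) (nat_lit 103) (nat_lit 173)) (PT.lf (nat_lit 3876) (nat_lit 6) (nat_lit 51) (nat_lit 1) (nat_lit 175) (nat_lit 103) (nat_lit 172))) (PT.nd (nat_lit 78) (PT.lf (nat_lit 4028) (nat_lit 6) (nat_lit 53) (nat_lit 3) (nat_lit 171) (nat_lit 104) (nat_lit 175)) (PT.lf (nat_lit 4104) (nat_lit 6) (nat_lit 54) (nat_lit 3) (nat_lit 172) (nat_lit 104) (nat_lit 174))))) (PT.nd (nat_lit 46722) (PT.nd (nat_lit 78) (PT.lf (nat_lit 4180) (nat_lit 3) (nat_lit 55) (nat_lit 1) (nat_lit 173) (nat_lit 104) (nat_lit 173)) (PT.nd (nat_lit 78) (PT.lf (nat_lit 4104) (nat_lit 6) (nat_lit 54) (nat_lit 1) (nat_lit 174) (nat_lit 104) (nat_lit 172)) (PT.lf (nat_lit 4028) (nat_lit 6) (nat_lit 53) (nat_lit 1) (nat_lit 175)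 (nat_lit 104) (nat_lit 171)))) (PT.nd (nat_lit 156) (PT.nd (nat_lit 78) (PT.lf (nat_lit 4332) (nat_lit 6) (nat_lit 57) (nat_lit 3) (nat_lit 171) (nat_lit 105) (nat_lit 174)) (PT.lf (nat_lit 4408) (nat_lit 6) (nat_lit 58) (nat_lit 3) (nat_lit 172) (nat_lit 105) (nat_lit 173))) (PT.nd (nat_lit 78) (PT.lf (nat_lit 4408) (nat_lit 6) (nat_lit 58) (nat_lit 1) (nat_lit 173) (nat_lit 105) (nat_lit 172)) (PT.lf (nat_lit 4332) (nat_lit 6) (nat_lit 57) (nat_lit 1) (nat_lit 174) (nat_lit 105) (nat_lit 171))))))))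
noncomputable def pc1 : PT := (PT.nd (nat_lit 234156) (PT.nd (nat_lit 93834) (PT.nd (nat_lit 46878) (PT.nd (nat_lit 234) (PT.nd (nat_lit 78) (PT.lf (nat_lit 4484) (nat_lit 6) (nat_lit 59) (nat_lit 3) (nat_lit 170) (nat_lit 106) (nat_lit 174)) (PT.nd (nat_lit 78) (PT.lf (nat_lit 4560) (nat_lit 6) (nat_lit 60) (nat_lit 3) (nat_lit 171) (nat_lit 106) (nat_lit 173)) (PT.lf (nat_lit 4636) (nat_lit 3) (nat_lit 61) (nat_lit 1) (nat_lit 172) (nat_lit 106) (nat_lit 172)))) (PT.nd (nat_lit 78) (PT.lf (nat_lit 4560) (nat_lit 6) (nat_lit 60) (nat_lit 1) (nat_lit 173) (nat_lit 106) (nat_lit 171)) (PT.nd (nat_lit 46488) (PT.lf (nat_lit 4484) (nat_lit 6) (nat_lit 59) (nat_lit 1) (nat_lit 174) (nat_lit 106) (nat_lit 170)) (PT.lf (nat_lit 4712) (nat_lit 6) (nat_lit 62) (nat_lit 3) (nat_lit 169) (nat_lit 107) (nat_lit 174))))) (PT.nd (nat_lit 234) (PT.nd (nat_lit 78) (PT.lf (nat_lit 4788) (nat_lit 6) (nat_lit 63) (nat_lit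 3) (nat_lit 170) (nat_lit 107) (nat_lit 173)) (PT.nd (nat_lit 78) (PT.lf (nat_lit 4864) (nat_lit 6) (nat_lit 64) (nat_lit 3) (nat_lit 171) (nat_lit 107) (nat_lit 172)) (PT.lf (nat_lit 4864) (nat_lit 6) (nat_lit 64) (nat_lit 1) (nat_lit 172) (nat_lit 107) (nat_lit 171)))) (PT.nd (nat_lit 46566) (PT.nd (nat_lit 78) (PT.lf (nat_lit 4788) (nat_lit 6) (nat_lit 63) (nat_lit 1) (nat_lit 173) (nat_lit 107) (nat_lit 170)) (PT.lf (nat_lit 4712) (nat_lit 6) (nat_lit 62) (nat_lit 1) (nat_lit 174) (nat_lit 107) (nat_lit 169))) (PT.nd (nat_lit 78) (PT.lf (nat_lit 4940) (nat_lit 6) (nat_lit 65) (nat_lit 3) (nat_lit 169) (nat_lit 108) (nat_lit 173)) (PT.lf (nat_lit 5016) (nat_lit 6) (nat_lit 66) (nat_lit 3) (nat_lit 170) (nat_lit 108) (nat_lit 172)))))) (PT.nd (nat_lit 46956) (PT.nd (nat_lit 46644) (PT.nd (nat_lit 78) (PT.lf (nat_lit 5092) (nat_lit 3) (nat_lit 67) (nat_lit 1) (nat_lit 171) (nat_lit 108) (nat_lit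 171)) (PT.nd (nat_lit 78) (PT.lf (nat_lit 5016) (nat_lit 6) (nat_lit 66) (nat_lit 1) (nat_lit 172) (nat_lit 108) (nat_lit 170)) (PT.lf (nat_lit 4940) (nat_lit 6) (nat_lit 65) (nat_lit 1) (nat_lit 173) (nat_lit 108) (nat_lit 169)))) (PT.nd (nat_lit 156) (PT.nd (nat_lit 78) (PT.lf (nat_lit 5168) (nat_lit 6) (nat_lit 68) (nat_lit 3) (nat_lit 168) (nat_lit 109) (nat_lit 173)) (PT.lf (nat_lit 5244) (nat_lit 6) (nat_lit 69) (nat_lit 3) (nat_lit 169) (nat_lit 109) (nat_lit 172))) (PT.nd (nat_lit 78) (PT.lf (nat_lit 5320) (nat_lit 6) (nat_lit 70) (nat_lit 3) (nat_lit 170) (nat_lit 109) (nat_lit 171)) (PT.lf (nat_lit 5320) (nat_lit 6) (nat_lit 70) (nat_lit 1) (nat_lit 171) (nat_lit 109) (nat_lit 170))))) (PT.nd (nat_lit 46644) (PT.nd (nat_lit 78) (PT.lf (nat_lit 5244) (nat_lit 6) (nat_lit 69) (nat_lit 1) (nat_lit 172) (nat_lit 109) (nat_lit 169)) (PT.nd (nat_lit 46488) (PT.lf (nat_lit 5168) (nat_lit 6) (nat_lit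 68) (nat_lit 1) (nat_lit 173) (nat_lit 109) (nat_lit 168)) (PT.lf (nat_lit 5472) (nat_lit 6) (nat_lit 72) (nat_lit 3) (nat_lit 168) (nat_lit 110) (nat_lit 172)))) (PT.nd (nat_lit 156) (PT.nd (nat_lit 78) (PT.lf (nat_lit 5548) (nat_lit 6) (nat_lit 73) (nat_lit 3) (nat_lit 169) (nat_lit 110) (nat_lit 171)) (PT.lf (nat_lit 5624) (nat_lit 3) (nat_lit 74) (nat_lit 1) (nat_lit 170) (nat_lit 110) (nat_lit 170))) (PT.nd (nat_lit 78) (PT.lf (nat_lit 5548) (nat_lit 6) (nat_lit 73) (nat_lit 1) (nat_lit 171) (nat_lit 110) (nat_lit 169)) (PT.lf (nat_lit 5472) (nat_lit 6) (nat_lit 72) (nat_lit 1) (nat_lit 172) (nat_lit 110) (nat_lit 168))))))) (PT.nd (nat_lit 93756) (PT.nd (nat_lit 46878) (PT.nd (nat_lit 234) (PT.nd (nat_lit 78) (PT.lf (nat_lit 5700) (nat_lit 6) (nat_lit 75) (nat_lit 3) (nat_lit 167) (nat_lit 111) (nat_lit 172)) (PT.nd (nat_lit 78) (PT.lf (nat_lit 5776) (nat_lit 6) (nat_lit 76) (nat_lit 3) (nat_lit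 168) (nat_lit 111) (nat_lit 171)) (PT.lf (nat_lit 5852) (nat_lit 6) (nat_lit 77) (nat_lit 3) (nat_lit 169) (nat_lit 111) (nat_lit 170)))) (PT.nd (nat_lit 156) (PT.nd (nat_lit 78) (PT.lf (nat_lit 5852) (nat_lit 6) (nat_lit 77) (nat_lit 1) (nat_lit 170) (nat_lit 111) (nat_lit 169)) (PT.lf (nat_lit 5776) (nat_lit 6) (nat_lit 76) (nat_lit 1) (nat_lit 171) (nat_lit 111) (nat_lit 168))) (PT.nd (nat_lit 46410) (PT.lf (nat_lit 5700) (nat_lit 6) (nat_lit 75) (nat_lit 1) (nat_lit 172) (nat_lit 111) (nat_lit 167)) (PT.lf (nat_lit 5928) (nat_lit 6) (nat_lit 78) (nat_lit 3) (nat_lit 166) (nat_lit 112) (nat_lit 172))))) (PT.nd (nat_lit 234) (PT.nd (nat_lit 78) (PT.lf (nat_lit 6004) (nat_lit 6) (nat_lit 79) (nat_lit 3) (nat_lit 167) (nat_lit 112) (nat_lit 171)) (PT.nd (nat_lit 78) (PT.lf (nat_lit 6080) (nat_lit 6) (nat_lit 80) (nat_lit 3) (nat_lit 168) (nat_lit 112) (nat_lit 170)) (PT.lf (nat_lit 6156) (nat_lit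 3) (nat_lit 81) (nat_lit 1) (nat_lit 169) (nat_lit 112) (nat_lit 169)))) (PT.nd (nat_lit 156) (PT.nd (nat_lit 78) (PT.lf (nat_lit 6080) (nat_lit 6) (nat_lit 80) (nat_lit 1) (nat_lit 170) (nat_lit 112) (nat_lit 168)) (PT.lf (nat_lit 6004) (nat_lit 6) (nat_lit 79) (nat_lit 1) (nat_lit 171) (nat_lit 112) (nat_lit 167))) (PT.nd (nat_lit 46410) (PT.lf (nat_lit 5928) (nat_lit 6) (nat_lit 78) (nat_lit 1) (nat_lit 172) (nat_lit 112) (nat_lit 166)) (PT.lf (nat_lit 6308) (nat_lit 6) (nat_lit 83) (nat_lit 3) (nat_lit 166) (nat_lit 113) (nat_lit 171)))))) (PT.nd (nat_lit 46878) (PT.nd (nat_lit 234) (PT.nd (nat_lit 78) (PT.lf (nat_lit 6384) (nat_lit 6) (nat_lit 84) (nat_lit 3) (nat_lit 167) (nat_lit 113) (nat_lit 170)) (PT.nd (nat_lit 78) (PT.lf (nat_lit 6460) (nat_lit 6) (nat_lit 85) (nat_lit 3) (nat_lit 168) (nat_lit 113) (nat_lit 169)) (PT.lf (nat_lit 6460) (nat_lit 6) (nat_lit 85) (nat_lit 1) (nat_lit 169)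 (nat_lit 113) (nat_lit 168)))) (PT.nd (nat_lit 46488) (PT.nd (nat_lit 78) (PT.lf (nat_lit 6384) (nat_lit 6) (nat_lit 84) (nat_lit 1) (nat_lit 170) (nat_lit 113) (nat_lit 167)) (PT.lf (nat_lit 6308) (nat_lit 6) (nat_lit 83) (nat_lit 1) (nat_lit 171) (nat_lit 113) (nat_lit 166))) (PT.nd (nat_lit 78) (PT.lf (nat_lit 6536) (nat_lit 6) (nat_lit 86) (nat_lit 3) (nat_lit 165) (nat_lit 114) (nat_lit 171)) (PT.lf (nat_lit 6612) (nat_lit 6) (nat_lit 87) (nat_lit 3) (nat_lit 166) (nat_lit 114) (nat_lit 170))))) (PT.nd (nat_lit 234) (PT.nd (nat_lit 78) (PT.lf (nat_lit 6688) (nat_lit 6) (nat_lit 88) (nat_lit 3) (nat_lit 167) (nat_lit 114) (nat_lit 169)) (PT.nd (nat_lit 78) (PT.lf (nat_lit 6764) (nat_lit 3) (nat_lit 89) (nat_lit 1) (nat_lit 168) (nat_lit 114) (nat_lit 168)) (PT.lf (nat_lit 6688) (nat_lit 6) (nat_lit 88) (nat_lit 1) (nat_lit 169) (nat_lit 114) (nat_lit 167)))) (PT.nd (nat_lit 46410) (PT.nd (nat_lit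 78) (PT.lf (nat_lit 6612) (nat_lit 6) (nat_lit 87) (nat_lit 1) (nat_lit 170) (nat_lit 114) (nat_lit 166)) (PT.lf (nat_lit 6536) (nat_lit 6) (nat_lit 86) (nat_lit 1) (nat_lit 171) (nat_lit 114) (nat_lit 165))) (PT.nd (nat_lit 78) (PT.lf (nat_lit 6840) (nat_lit 6) (nat_lit 90) (nat_lit 3) (nat_lit 164) (nat_lit 115) (nat_lit 171)) (PT.lf (nat_lit 6916) (nat_lit 6) (nat_lit 91) (nat_lit 3) (nat_lit 165) (nat_lit 115) (nat_lit 170))))))))
noncomputable def pc2 : PT := (PT.nd (nat_lit 140790) (PT.nd (nat_lit 93522) (PT.nd (nat_lit 46722) (PT.nd (nat_lit 234) (PT.nd (nat_lit 78) (PT.lf (nat_lit 6992) (nat_lit 6) (nat_lit 92) (nat_lit 3) (nat_lit 166) (nat_lit 115) (nat_lit 169)) (PT.nd (nat_lit 78) (PT.lf (nat_lit 7068) (nat_lit 6) (nat_lit 93) (nat_lit 3) (nat_lit 167) (nat_lit 115) (nat_lit 168)) (PT.lf (nat_lit 7068) (nat_lit 6) (nat_lit 93) (nat_lit 1) (nat_lit 168) (nat_lit 115) (nat_lit 167)))) (PT.nd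 (nat_lit 78) (PT.lf (nat_lit 6992) (nat_lit 6) (nat_lit 92) (nat_lit 1) (nat_lit 169) (nat_lit 115) (nat_lit 166)) (PT.nd (nat_lit 78) (PT.lf (nat_lit 6916) (nat_lit 6) (nat_lit 91) (nat_lit 1) (nat_lit 170) (nat_lit 115) (nat_lit 165)) (PT.lf (nat_lit 6840) (nat_lit 6) (nat_lit 90) (nat_lit 1) (nat_lit 171) (nat_lit 115) (nat_lit 164))))) (PT.nd (nat_lit 234) (PT.nd (nat_lit 78) (PT.lf (nat_lit 7220) (nat_lit 6) (nat_lit 95) (nat_lit 3) (nat_lit 164) (nat_lit 116) (nat_lit 170)) (PT.nd (nat_lit 78) (PT.lf (nat_lit 7296) (nat_lit 6) (nat_lit 96) (nat_lit 3) (nat_lit 165) (nat_lit 116) (nat_lit 169)) (PT.lf (nat_lit 7372) (nat_lit 6) (nat_lit 97) (nat_lit 3) (nat_lit 166) (nat_lit 116) (nat_lit 168)))) (PT.nd (nat_lit 156) (PT.nd (nat_lit 78) (PT.lf (nat_lit 7448) (nat_lit 3) (nat_lit 98) (nat_lit 1) (nat_lit 167) (nat_lit 116) (nat_lit 167)) (PT.lf (nat_lit 7372) (nat_lit 6) (nat_lit 97) (nat_lit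 1) (nat_lit 168) (nat_lit 116) (nat_lit 166))) (PT.nd (nat_lit 78) (PT.lf (nat_lit 7296) (nat_lit 6) (nat_lit 96) (nat_lit 1) (nat_lit 169) (nat_lit 116) (nat_lit 165)) (PT.lf (nat_lit 7220) (nat_lit 6) (nat_lit 95) (nat_lit 1) (nat_lit 170) (nat_lit 116) (nat_lit 164)))))) (PT.nd (nat_lit 546) (PT.nd (nat_lit 234) (PT.nd (nat_lit 78) (PT.lf (nat_lit 7524) (nat_lit 6) (nat_lit 99) (nat_lit 3) (nat_lit 163) (nat_lit 117) (nat_lit 170)) (PT.nd (nat_lit 78) (PT.lf (nat_lit 7600) (nat_lit 6) (nat_lit 100) (nat_lit 3) (nat_lit 164) (nat_lit 117) (nat_lit 169)) (PT.lf (nat_lit 7676) (nat_lit 6) (nat_lit 101) (nat_lit 3) (nat_lit 165) (nat_lit 117) (nat_lit 168)))) (PT.nd (nat_lit 156) (PT.nd (nat_lit 78) (PT.lf (nat_lit 7752) (nat_lit 6) (nat_lit 102) (nat_lit 3) (nat_lit 166) (nat_lit 117) (nat_lit 167)) (PT.lf (nat_lit 7752) (nat_lit 6) (nat_lit 102) (nat_lit 1) (nat_lit 167) (nat_lit 117) (nat_lit 166)))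 (PT.nd (nat_lit 78) (PT.lf (nat_lit 7676) (nat_lit 6) (nat_lit 101) (nat_lit 1) (nat_lit 168) (nat_lit 117) (nat_lit 165)) (PT.lf (nat_lit 7600) (nat_lit 6) (nat_lit 100) (nat_lit 1) (nat_lit 169) (nat_lit 117) (nat_lit 164))))) (PT.nd (nat_lit 46410) (PT.nd (nat_lit 46254) (PT.lf (nat_lit 7524) (nat_lit 6) (nat_lit 99) (nat_lit 1) (nat_lit 170) (nat_lit 117) (nat_lit 163)) (PT.nd (nat_lit 78) (PT.lf (nat_lit 7828) (nat_lit 6) (nat_lit 103) (nat_lit 3) (nat_lit 162) (nat_lit 118) (nat_lit 170)) (PT.lf (nat_lit 7904) (nat_lit 6) (nat_lit 104) (nat_lit 3) (nat_lit 163) (nat_lit 118) (nat_lit 169)))) (PT.nd (nat_lit 156) (PT.nd (nat_lit 78) (PT.lf (nat_lit 7980) (nat_lit 6) (nat_lit 105) (nat_lit 3) (nat_lit 164) (nat_lit 118) (nat_lit 168)) (PT.lf (nat_lit 8056) (nat_lit 6) (nat_lit 106) (nat_lit 3) (nat_lit 165) (nat_lit 118) (nat_lit 167))) (PT.nd (nat_lit 78) (PT.lf (nat_lit 8132) (nat_lit 3) (nat_lit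 107) (nat_lit 1) (nat_lit 166) (nat_lit 118) (nat_lit 166)) (PT.lf (nat_lit 8056) (nat_lit 6) (nat_lit 106) (nat_lit 1) (nat_lit 167) (nat_lit 118) (nat_lit 165))))))) (PT.nd (nat_lit 93366) (PT.nd (nat_lit 46644) (PT.nd (nat_lit 46410) (PT.nd (nat_lit 78) (PT.lf (nat_lit 7980) (nat_lit 6) (nat_lit 105) (nat_lit 1) (nat_lit 168) (nat_lit 118) (nat_lit 164)) (PT.nd (nat_lit 78) (PT.lf (nat_lit 7904) (nat_lit 6) (nat_lit 104) (nat_lit 1) (nat_lit 169) (nat_lit 118) (nat_lit 163)) (PT.lf (nat_lit 7828) (nat_lit 6) (nat_lit 103) (nat_lit 1) (nat_lit 170) (nat_lit 118) (nat_lit 162)))) (PT.nd (nat_lit 78) (PT.lf (nat_lit 8284) (nat_lit 6) (nat_lit 109) (nat_lit 3) (nat_lit 162) (nat_lit 119) (nat_lit 169)) (PT.nd (nat_lit 78) (PT.lf (nat_lit 8360) (nat_lit 6) (nat_lit 110) (nat_lit 3) (nat_lit 163) (nat_lit 119) (nat_lit 168)) (PT.lf (nat_lit 8436) (nat_lit 6) (nat_lit 111) (nat_lit 3) (nat_lit 164) (nat_lit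 119) (nat_lit 167))))) (PT.nd (nat_lit 234) (PT.nd (nat_lit 78) (PT.lf (nat_lit 8512) (nat_lit 6) (nat_lit 112) (nat_lit 3) (nat_lit 165) (nat_lit 119) (nat_lit 166)) (PT.nd (nat_lit 78) (PT.lf (nat_lit 8512) (nat_lit 6) (nat_lit 112) (nat_lit 1) (nat_lit 166) (nat_lit 119) (nat_lit 165)) (PT.lf (nat_lit 8436) (nat_lit 6) (nat_lit 111) (nat_lit 1) (nat_lit 167) (nat_lit 119) (nat_lit 164)))) (PT.nd (nat_lit 46332) (PT.nd (nat_lit 78) (PT.lf (nat_lit 8360) (nat_lit 6) (nat_lit 110) (nat_lit 1) (nat_lit 168) (nat_lit 119) (nat_lit 163)) (PT.lf (nat_lit 8284) (nat_lit 6) (nat_lit 109) (nat_lit 1) (nat_lit 169) (nat_lit 119) (nat_lit 162))) (PT.nd (nat_lit 78) (PT.lf (nat_lit 8588) (nat_lit 6) (nat_lit 113) (nat_lit 3) (nat_lit 161) (nat_lit 120) (nat_lit 169)) (PT.lf (nat_lit 8664) (nat_lit 6) (nat_lit 114) (nat_lit 3) (nat_lit 162) (nat_lit 120) (nat_lit 168)))))) (PT.nd (nat_lit 46644) (PT.nd (nat_lit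 234) (PT.nd (nat_lit 78) (PT.lf (nat_lit 8740) (nat_lit 6) (nat_lit 115) (nat_lit 3) (nat_lit 163) (nat_lit 120) (nat_lit 167)) (PT.nd (nat_lit 78) (PT.lf (nat_lit 8816) (nat_lit 6) (nat_lit 116) (nat_lit 3) (nat_lit 164) (nat_lit 120) (nat_lit 166)) (PT.lf (nat_lit 8892) (nat_lit 3) (nat_lit 117) (nat_lit 1) (nat_lit 165) (nat_lit 120) (nat_lit 165)))) (PT.nd (nat_lit 156) (PT.nd (nat_lit 78) (PT.lf (nat_lit 8816) (nat_lit 6) (nat_lit 116) (nat_lit 1) (nat_lit 166) (nat_lit 120) (nat_lit 164)) (PT.lf (nat_lit 8740) (nat_lit 6) (nat_lit 115) (nat_lit 1) (nat_lit 167) (nat_lit 120) (nat_lit 163))) (PT.nd (nat_lit 78) (PT.lf (nat_lit 8664) (nat_lit 6) (nat_lit 114) (nat_lit 1) (nat_lit 168) (nat_lit 120) (nat_lit 162)) (PT.lf (nat_lit 8588) (nat_lit 6) (nat_lit 113) (nat_lit 1) (nat_lit 169) (nat_lit 120) (nat_lit 161))))) (PT.nd (nat_lit 234) (PT.nd (nat_lit 78) (PT.lf (nat_lit 8968) (nat_lit 6) (nat_lit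 118) (nat_lit 3) (nat_lit 160) (nat_lit 121) (nat_lit 169)) (PT.nd (nat_lit 78) (PT.lf (nat_lit 9044) (nat_lit 6) (nat_lit 119) (nat_lit 3) (nat_lit 161) (nat_lit 121) (nat_lit 168)) (PT.lf (nat_lit 9120) (nat_lit 6) (nat_lit 120) (nat_lit 3) (nat_lit 162) (nat_lit 121) (nat_lit 167)))) (PT.nd (nat_lit 156) (PT.nd (nat_lit 78) (PT.lf (nat_lit 9196) (nat_lit 6) (nat_lit 121) (nat_lit 3) (nat_lit 163) (nat_lit 121) (nat_lit 166)) (PT.lf (nat_lit 9272) (nat_lit 6) (nat_lit 122) (nat_lit 3) (nat_lit 164) (nat_lit 121) (nat_lit 165))) (PT.nd (nat_lit 78) (PT.lf (nat_lit 9272) (nat_lit 6) (nat_lit 122) (nat_lit 1) (nat_lit 165) (nat_lit 121) (nat_lit 164)) (PT.lf (nat_lit 9196) (nat_lit 6) (nat_lit 121) (nat_lit 1) (nat_lit 166) (nat_lit 121) (nat_lit 163))))))))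
noncomputable def pc3 : PT := (PT.nd (nat_lit 140166) (PT.nd (nat_lit 47034) (PT.nd (nat_lit 46488) (PT.nd (nat_lit 46254) (PT.nd (nat_lit 78) (PT.lf (nat_lit 9120) (nat_lit 6) (nat_lit 120) (nat_lit 1) (nat_lit 167) (nat_lit 121) (nat_lit 162)) (PT.nd (nat_lit 78) (PT.lf (nat_lit 9044) (nat_lit 6) (nat_lit 119) (nat_lit 1) (nat_lit 168) (nat_lit 121) (nat_lit 161)) (PT.lf (nat_lit 8968) (nat_lit 6) (nat_lit 118) (nat_lit 1) (nat_lit 169) (nat_lit 121) (nat_lit 160)))) (PT.nd (nat_lit 78) (PT.lf (nat_lit 9348) (nat_lit 6) (nat_lit 123) (nat_lit 3) (nat_lit 159) (nat_lit 122) (nat_lit 169)) (PT.nd (nat_lit 78) (PT.lf (nat_lit 9424) (nat_lit 6) (nat_lit 124) (nat_lit 3) (nat_lit 160) (nat_lit 122) (nat_lit 168)) (PT.lf (nat_lit 9500) (nat_lit 6) (nat_lit 125) (nat_lit 3) (nat_lit 161) (nat_lit 122) (nat_lit 167))))) (PT.nd (nat_lit 234) (PT.nd (nat_lit 78) (PT.lf (nat_lit 9576) (nat_lit 6) (nat_lit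 126) (nat_lit 3) (nat_lit 162) (nat_lit 122) (nat_lit 166)) (PT.nd (nat_lit 78) (PT.lf (nat_lit 9652) (nat_lit 6) (nat_lit 127) (nat_lit 3) (nat_lit 163) (nat_lit 122) (nat_lit 165)) (PT.lf (nat_lit 9728) (nat_lit 3) (nat_lit 128) (nat_lit 1) (nat_lit 164) (nat_lit 122) (nat_lit 164)))) (PT.nd (nat_lit 156) (PT.nd (nat_lit 78) (PT.lf (nat_lit 9652) (nat_lit 6) (nat_lit 127) (nat_lit 1) (nat_lit 165) (nat_lit 122) (nat_lit 163)) (PT.lf (nat_lit 9576) (nat_lit 6) (nat_lit 126) (nat_lit 1) (nat_lit 166) (nat_lit 122) (nat_lit 162))) (PT.nd (nat_lit 78) (PT.lf (nat_lit 9500) (nat_lit 6) (nat_lit 125) (nat_lit 1) (nat_lit 167) (nat_lit 122) (nat_lit 161)) (PT.lf (nat_lit 9424) (nat_lit 6) (nat_lit 124) (nat_lit 1) (nat_lit 168) (nat_lit 122) (nat_lit 160)))))) (PT.nd (nat_lit 46566) (PT.nd (nat_lit 46254) (PT.nd (nat_lit 46098) (PT.lf (nat_lit 9348) (nat_lit 6) (nat_lit 123) (nat_lit 1) (nat_lit 169) (nat_lit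 122) (nat_lit 159)) (PT.nd (nat_lit 78) (PT.lf (nat_lit 9804) (nat_lit 6) (nat_lit 129) (nat_lit 3) (nat_lit 159) (nat_lit 123) (nat_lit 168)) (PT.lf (nat_lit 9880) (nat_lit 6) (nat_lit 130) (nat_lit 3) (nat_lit 160) (nat_lit 123) (nat_lit 167)))) (PT.nd (nat_lit 156) (PT.nd (nat_lit 78) (PT.lf (nat_lit 9956) (nat_lit 6) (nat_lit 131) (nat_lit 3) (nat_lit 161) (nat_lit 123) (nat_lit 166)) (PT.lf (nat_lit 10032) (nat_lit 6) (nat_lit 132) (nat_lit 3) (nat_lit 162) (nat_lit 123) (nat_lit 165))) (PT.nd (nat_lit 78) (PT.lf (nat_lit 10108) (nat_lit 6) (nat_lit 133) (nat_lit 3) (nat_lit 163) (nat_lit 123) (nat_lit 164)) (PT.lf (nat_lit 10108) (nat_lit 6) (nat_lit 133) (nat_lit 1) (nat_lit 164) (nat_lit 123) (nat_lit 163))))) (PT.nd (nat_lit 234) (PT.nd (nat_lit 78) (PT.lf (nat_lit 10032) (nat_lit 6) (nat_lit 132) (nat_lit 1) (nat_lit 165) (nat_lit 123) (nat_lit 162)) (PT.nd (nat_lit 78) (PT.lf (nat_lit 9956)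 (nat_lit 6) (nat_lit 131) (nat_lit 1) (nat_lit 166) (nat_lit 123) (nat_lit 161)) (PT.lf (nat_lit 9880) (nat_lit 6) (nat_lit 130) (nat_lit 1) (nat_lit 167) (nat_lit 123) (nat_lit 160)))) (PT.nd (nat_lit 46176) (PT.nd (nat_lit 46098) (PT.lf (nat_lit 9804) (nat_lit 6) (nat_lit 129) (nat_lit 1) (nat_lit 168) (nat_lit 123) (nat_lit 159)) (PT.lf (nat_lit 10184) (nat_lit 6) (nat_lit 134) (nat_lit 3) (nat_lit 158) (nat_lit 124) (nat_lit 168))) (PT.nd (nat_lit 78) (PT.lf (nat_lit 10260) (nat_lit 6) (nat_lit 135) (nat_lit 3) (nat_lit 159) (nat_lit 124) (nat_lit 167)) (PT.lf (nat_lit 10336) (nat_lit 6) (nat_lit 136) (nat_lit 3) (nat_lit 160) (nat_lit 124) (nat_lit 166))))))) (PT.nd (nat_lit 47034) (PT.nd (nat_lit 546) (PT.nd (nat_lit 234) (PT.nd (nat_lit 78) (PT.lf (nat_lit 10412) (nat_lit 6) (nat_lit 137) (nat_lit 3) (nat_lit 161) (nat_lit 124) (nat_lit 165)) (PT.nd (nat_lit 78) (PT.lf (nat_lit 10488) (nat_lit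 6) (nat_lit 138) (nat_lit 3) (nat_lit 162) (nat_lit 124) (nat_lit 164)) (PT.lf (nat_lit 10564) (nat_lit 3) (nat_lit 139) (nat_lit 1) (nat_lit 163) (nat_lit 124) (nat_lit 163)))) (PT.nd (nat_lit 156) (PT.nd (nat_lit 78) (PT.lf (nat_lit 10488) (nat_lit 6) (nat_lit 138) (nat_lit 1) (nat_lit 164) (nat_lit 124) (nat_lit 162)) (PT.lf (nat_lit 10412) (nat_lit 6) (nat_lit 137) (nat_lit 1) (nat_lit 165) (nat_lit 124) (nat_lit 161))) (PT.nd (nat_lit 78) (PT.lf (nat_lit 10336) (nat_lit 6) (nat_lit 136) (nat_lit 1) (nat_lit 166) (nat_lit 124) (nat_lit 160)) (PT.lf (nat_lit 10260) (nat_lit 6) (nat_lit 135) (nat_lit 1) (nat_lit 167) (nat_lit 124) (nat_lit 159))))) (PT.nd (nat_lit 46176) (PT.nd (nat_lit 46020) (PT.lf (nat_lit 10184) (nat_lit 6) (nat_lit 134) (nat_lit 1) (nat_lit 168) (nat_lit 124) (nat_lit 158)) (PT.nd (nat_lit 78) (PT.lf (nat_lit 10640) (nat_lit 6) (nat_lit 140) (nat_lit 3) (nat_lit 157) (nat_lit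 125) (nat_lit 168)) (PT.lf (nat_lit 10716) (nat_lit 6) (nat_lit 141) (nat_lit 3) (nat_lit 158) (nat_lit 125) (nat_lit 167)))) (PT.nd (nat_lit 156) (PT.nd (nat_lit 78) (PT.lf (nat_lit 10792) (nat_lit 6) (nat_lit 142) (nat_lit 3) (nat_lit 159) (nat_lit 125) (nat_lit 166)) (PT.lf (nat_lit 10868) (nat_lit 6) (nat_lit 143) (nat_lit 3) (nat_lit 160) (nat_lit 125) (nat_lit 165))) (PT.nd (nat_lit 78) (PT.lf (nat_lit 10944) (nat_lit 6) (nat_lit 144) (nat_lit 3) (nat_lit 161) (nat_lit 125) (nat_lit 164)) (PT.lf (nat_lit 11020) (nat_lit 6) (nat_lit 145) (nat_lit 3) (nat_lit 162) (nat_lit 125) (nat_lit 163)))))) (PT.nd (nat_lit 46488) (PT.nd (nat_lit 234) (PT.nd (nat_lit 78) (PT.lf (nat_lit 11020) (nat_lit 6) (nat_lit 145) (nat_lit 1) (nat_lit 163) (nat_lit 125) (nat_lit 162)) (PT.nd (nat_lit 78) (PT.lf (nat_lit 10944) (nat_lit 6) (nat_lit 144) (nat_lit 1) (nat_lit 164) (nat_lit 125) (nat_lit 161)) (PT.lf (nat_lit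 10868) (nat_lit 6) (nat_lit 143) (nat_lit 1) (nat_lit 165) (nat_lit 125) (nat_lit 160)))) (PT.nd (nat_lit 156) (PT.nd (nat_lit 78) (PT.lf (nat_lit 10792) (nat_lit 6) (nat_lit 142) (nat_lit 1) (nat_lit 166) (nat_lit 125) (nat_lit 159)) (PT.lf (nat_lit 10716) (nat_lit 6) (nat_lit 141) (nat_lit 1) (nat_lit 167) (nat_lit 125) (nat_lit 158))) (PT.nd (nat_lit 46020) (PT.lf (nat_lit 10640) (nat_lit 6) (nat_lit 140) (nat_lit 1) (nat_lit 168) (nat_lit 125) (nat_lit 157)) (PT.lf (nat_lit 11172) (nat_lit 6) (nat_lit 147) (nat_lit 3) (nat_lit 157) (nat_lit 126) (nat_lit 167))))) (PT.nd (nat_lit 234) (PT.nd (nat_lit 78) (PT.lf (nat_lit 11248) (nat_lit 6) (nat_lit 148) (nat_lit 3) (nat_lit 158) (nat_lit 126) (nat_lit 166)) (PT.nd (nat_lit 78) (PT.lf (nat_lit 11324) (nat_lit 6) (nat_lit 149) (nat_lit 3) (nat_lit 159) (nat_lit 126) (nat_lit 165)) (PT.lf (nat_lit 11400) (nat_lit 6) (nat_lit 150) (nat_lit 3) (nat_lit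 160) (nat_lit 126) (nat_lit 164)))) (PT.nd (nat_lit 156) (PT.nd (nat_lit 78) (PT.lf (nat_lit 11476) (nat_lit 6) (nat_lit 151) (nat_lit 3) (nat_lit 161) (nat_lit 126) (nat_lit 163)) (PT.lf (nat_lit 11552) (nat_lit 3) (nat_lit 152) (nat_lit 1) (nat_lit 162) (nat_lit 126) (nat_lit 162))) (PT.nd (nat_lit 78) (PT.lf (nat_lit 11476) (nat_lit 6) (nat_lit 151) (nat_lit 1) (nat_lit 163) (nat_lit 126) (nat_lit 161)) (PT.lf (nat_lit 11400) (nat_lit 6) (nat_lit 150) (nat_lit 1) (nat_lit 164) (nat_lit 126) (nat_lit 160))))))))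
noncomputable def pc4 : PT := (PT.nd (nat_lit 93912) (PT.nd (nat_lit 46956) (PT.nd (nat_lit 46410) (PT.nd (nat_lit 46176) (PT.nd (nat_lit 78) (PT.lf (nat_lit 11324) (nat_lit 6) (nat_lit 149) (nat_lit 1) (nat_lit 165) (nat_lit 126) (nat_lit 159)) (PT.nd (nat_lit 78) (PT.lf (nat_lit 11248) (nat_lit 6) (nat_lit 148) (nat_lit 1) (nat_lit 166) (nat_lit 126) (nat_lit 158)) (PT.lf (nat_lit 11172) (nat_lit 6) (nat_lit 147) (nat_lit 1) (nat_lit 167) (nat_lit 126) (nat_lit 157)))) (PT.nd (nat_lit 78) (PT.lf (nat_lit 11628) (nat_lit 6) (nat_lit 153) (nat_lit 3) (nat_lit 156) (nat_lit 127) (nat_lit 167)) (PT.nd (nat_lit 78) (PT.lf (nat_lit 11704) (nat_lit 6) (nat_lit 154) (nat_lit 3) (nat_lit 157) (nat_lit 127) (nat_lit 166)) (PT.lf (nat_lit 11780) (nat_lit 6) (nat_lit 155) (nat_lit 3) (nat_lit 158) (nat_lit 127) (nat_lit 165))))) (PT.nd (nat_lit 234) (PT.nd (nat_lit 78) (PT.lf (nat_lit 11856) (nat_lit 6) (nat_lit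 156) (nat_lit 3) (nat_lit 159) (nat_lit 127) (nat_lit 164)) (PT.nd (nat_lit 78) (PT.lf (nat_lit 11932) (nat_lit 6) (nat_lit 157) (nat_lit 3) (nat_lit 160) (nat_lit 127) (nat_lit 163)) (PT.lf (nat_lit 12008) (nat_lit 6) (nat_lit 158) (nat_lit 3) (nat_lit 161) (nat_lit 127) (nat_lit 162)))) (PT.nd (nat_lit 156) (PT.nd (nat_lit 78) (PT.lf (nat_lit 12008) (nat_lit 6) (nat_lit 158) (nat_lit 1) (nat_lit 162) (nat_lit 127) (nat_lit 161)) (PT.lf (nat_lit 11932) (nat_lit 6) (nat_lit 157) (nat_lit 1) (nat_lit 163) (nat_lit 127) (nat_lit 160))) (PT.nd (nat_lit 78) (PT.lf (nat_lit 11856) (nat_lit 6) (nat_lit 156) (nat_lit 1) (nat_lit 164) (nat_lit 127) (nat_lit 159)) (PT.lf (nat_lit 11780) (nat_lit 6) (nat_lit 155) (nat_lit 1) (nat_lit 165) (nat_lit 127) (nat_lit 158)))))) (PT.nd (nat_lit 46410) (PT.nd (nat_lit 46098) (PT.nd (nat_lit 78) (PT.lf (nat_lit 11704) (nat_lit 6) (nat_lit 154) (nat_lit 1) (nat_lit 166)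 (nat_lit 127) (nat_lit 157)) (PT.nd (nat_lit 45942) (PT.lf (nat_lit 11628) (nat_lit 6) (nat_lit 153) (nat_lit 1) (nat_lit 167) (nat_lit 127) (nat_lit 156)) (PT.lf (nat_lit 12084) (nat_lit 6) (nat_lit 159) (nat_lit 3) (nat_lit 155) (nat_lit 128) (nat_lit 167)))) (PT.nd (nat_lit 156) (PT.nd (nat_lit 78) (PT.lf (nat_lit 12160) (nat_lit 6) (nat_lit 160) (nat_lit 3) (nat_lit 156) (nat_lit 128) (nat_lit 166)) (PT.lf (nat_lit 12236) (nat_lit 6) (nat_lit 161) (nat_lit 3) (nat_lit 157) (nat_lit 128) (nat_lit 165))) (PT.nd (nat_lit 78) (PT.lf (nat_lit 12312) (nat_lit 6) (nat_lit 162) (nat_lit 3) (nat_lit 158) (nat_lit 128) (nat_lit 164)) (PT.lf (nat_lit 12388) (nat_lit 6) (nat_lit 163) (nat_lit 3) (nat_lit 159) (nat_lit 128) (nat_lit 163))))) (PT.nd (nat_lit 234) (PT.nd (nat_lit 78) (PT.lf (nat_lit 12464) (nat_lit 6) (nat_lit 164) (nat_lit 3) (nat_lit 160) (nat_lit 128) (nat_lit 162)) (PT.nd (nat_lit 78) (PT.lf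 (nat_lit 12540) (nat_lit 3) (nat_lit 165) (nat_lit 1) (nat_lit 161) (nat_lit 128) (nat_lit 161)) (PT.lf (nat_lit 12464) (nat_lit 6) (nat_lit 164) (nat_lit 1) (nat_lit 162) (nat_lit 128) (nat_lit 160)))) (PT.nd (nat_lit 156) (PT.nd (nat_lit 78) (PT.lf (nat_lit 12388) (nat_lit 6) (nat_lit 163) (nat_lit 1) (nat_lit 163) (nat_lit 128) (nat_lit 159)) (PT.lf (nat_lit 12312) (nat_lit 6) (nat_lit 162) (nat_lit 1) (nat_lit 164) (nat_lit 128) (nat_lit 158))) (PT.nd (nat_lit 78) (PT.lf (nat_lit 12236) (nat_lit 6) (nat_lit 161) (nat_lit 1) (nat_lit 165) (nat_lit 128) (nat_lit 157)) (PT.lf (nat_lit 12160) (nat_lit 6) (nat_lit 160) (nat_lit 1) (nat_lit 166) (nat_lit 128) (nat_lit 156))))))) (PT.nd (nat_lit 46800) (PT.nd (nat_lit 46254) (PT.nd (nat_lit 46020) (PT.nd (nat_lit 45864) (PT.lf (nat_lit 12084) (nat_lit 6) (nat_lit 159) (nat_lit 1) (nat_lit 167) (nat_lit 128) (nat_lit 155)) (PT.nd (nat_lit 78) (PT.lf (nat_lit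 12616) (nat_lit 6) (nat_lit 166) (nat_lit 3) (nat_lit 154) (nat_lit 129) (nat_lit 167)) (PT.lf (nat_lit 12692) (nat_lit 6) (nat_lit 167) (nat_lit 3) (nat_lit 155) (nat_lit 129) (nat_lit 166)))) (PT.nd (nat_lit 78) (PT.lf (nat_lit 12768) (nat_lit 6) (nat_lit 168) (nat_lit 3) (nat_lit 156) (nat_lit 129) (nat_lit 165)) (PT.nd (nat_lit 78) (PT.lf (nat_lit 12844) (nat_lit 6) (nat_lit 169) (nat_lit 3) (nat_lit 157) (nat_lit 129) (nat_lit 164)) (PT.lf (nat_lit 12920) (nat_lit 6) (nat_lit 170) (nat_lit 3) (nat_lit 158) (nat_lit 129) (nat_lit 163))))) (PT.nd (nat_lit 234) (PT.nd (nat_lit 78) (PT.lf (nat_lit 12996) (nat_lit 6) (nat_lit 171) (nat_lit 3) (nat_lit 159) (nat_lit 129) (nat_lit 162)) (PT.nd (nat_lit 78) (PT.lf (nat_lit 13072) (nat_lit 6) (nat_lit 172) (nat_lit 3) (nat_lit 160) (nat_lit 129) (nat_lit 161)) (PT.lf (nat_lit 13072) (nat_lit 6) (nat_lit 172) (nat_lit 1) (nat_lit 161) (nat_lit 129) (nat_lit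 160)))) (PT.nd (nat_lit 156) (PT.nd (nat_lit 78) (PT.lf (nat_lit 12996) (nat_lit 6) (nat_lit 171) (nat_lit 1) (nat_lit 162) (nat_lit 129) (nat_lit 159)) (PT.lf (nat_lit 12920) (nat_lit 6) (nat_lit 170) (nat_lit 1) (nat_lit 163) (nat_lit 129) (nat_lit 158))) (PT.nd (nat_lit 78) (PT.lf (nat_lit 12844) (nat_lit 6) (nat_lit 169) (nat_lit 1) (nat_lit 164) (nat_lit 129) (nat_lit 157)) (PT.lf (nat_lit 12768) (nat_lit 6) (nat_lit 168) (nat_lit 1) (nat_lit 165) (nat_lit 129) (nat_lit 156)))))) (PT.nd (nat_lit 46254) (PT.nd (nat_lit 45942) (PT.nd (nat_lit 78) (PT.lf (nat_lit 12692) (nat_lit 6) (nat_lit 167) (nat_lit 1) (nat_lit 166) (nat_lit 129) (nat_lit 155)) (PT.nd (nat_lit 45786) (PT.lf (nat_lit 12616) (nat_lit 6) (nat_lit 166) (nat_lit 1) (nat_lit 167) (nat_lit 129) (nat_lit 154)) (PT.lf (nat_lit 13148) (nat_lit 6) (nat_lit 173) (nat_lit 3) (nat_lit 153) (nat_lit 130) (nat_lit 167)))) (PT.nd (nat_lit 156)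 (PT.nd (nat_lit 78) (PT.lf (nat_lit 13224) (nat_lit 6) (nat_lit 174) (nat_lit 3) (nat_lit 154) (nat_lit 130) (nat_lit 166)) (PT.lf (nat_lit 13300) (nat_lit 6) (nat_lit 175) (nat_lit 3) (nat_lit 155) (nat_lit 130) (nat_lit 165))) (PT.nd (nat_lit 78) (PT.lf (nat_lit 13376) (nat_lit 6) (nat_lit 176) (nat_lit 3) (nat_lit 156) (nat_lit 130) (nat_lit 164)) (PT.lf (nat_lit 13452) (nat_lit 6) (nat_lit 177) (nat_lit 3) (nat_lit 157) (nat_lit 130) (nat_lit 163))))) (PT.nd (nat_lit 234) (PT.nd (nat_lit 78) (PT.lf (nat_lit 13528) (nat_lit 6) (nat_lit 178) (nat_lit 3) (nat_lit 158) (nat_lit 130) (nat_lit 162)) (PT.nd (nat_lit 78) (PT.lf (nat_lit 13604) (nat_lit 6) (nat_lit 179) (nat_lit 3) (nat_lit 159) (nat_lit 130) (nat_lit 161)) (PT.lf (nat_lit 13680) (nat_lit 3) (nat_lit 180) (nat_lit 1) (nat_lit 160) (nat_lit 130) (nat_lit 160)))) (PT.nd (nat_lit 156) (PT.nd (nat_lit 78) (PT.lf (nat_lit 13604) (nat_lit 6)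 (nat_lit 179) (nat_lit 1) (nat_lit 161) (nat_lit 130) (nat_lit 159)) (PT.lf (nat_lit 13528) (nat_lit 6) (nat_lit 178) (nat_lit 1) (nat_lit 162) (nat_lit 130) (nat_lit 158))) (PT.nd (nat_lit 78) (PT.lf (nat_lit 13452) (nat_lit 6) (nat_lit 177) (nat_lit 1) (nat_lit 163) (nat_lit 130) (nat_lit 157)) (PT.lf (nat_lit 13376) (nat_lit 6) (nat_lit 176) (nat_lit 1) (nat_lit 164) (nat_lit 130) (nat_lit 156))))))))
noncomputable def pc5 : PT := (PT.nd (nat_lit 93522) (PT.nd (nat_lit 46722) (PT.nd (nat_lit 46176) (PT.nd (nat_lit 45942) (PT.nd (nat_lit 78) (PT.lf (nat_lit 13300) (nat_lit 6) (nat_lit 175) (nat_lit 1) (nat_lit 165) (nat_lit 130) (nat_lit 155)) (PT.nd (nat_lit 78) (PT.lf (nat_lit 13224) (nat_lit 6) (nat_lit 174) (nat_lit 1) (nat_lit 166) (nat_lit 130) (nat_lit 154)) (PT.lf (nat_lit 13148) (nat_lit 6) (nat_lit 173) (nat_lit 1) (nat_lit 167) (nat_lit 130) (nat_lit 153)))) (PT.nd (nat_lit 78) (PT.lf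 (nat_lit 13756) (nat_lit 6) (nat_lit 181) (nat_lit 3) (nat_lit 153) (nat_lit 131) (nat_lit 166)) (PT.nd (nat_lit 78) (PT.lf (nat_lit 13832) (nat_lit 6) (nat_lit 182) (nat_lit 3) (nat_lit 154) (nat_lit 131) (nat_lit 165)) (PT.lf (nat_lit 13908) (nat_lit 6) (nat_lit 183) (nat_lit 3) (nat_lit 155) (nat_lit 131) (nat_lit 164))))) (PT.nd (nat_lit 234) (PT.nd (nat_lit 78) (PT.lf (nat_lit 13984) (nat_lit 6) (nat_lit 184) (nat_lit 3) (nat_lit 156) (nat_lit 131) (nat_lit 163)) (PT.nd (nat_lit 78) (PT.lf (nat_lit 14060) (nat_lit 6) (nat_lit 185) (nat_lit 3) (nat_lit 157) (nat_lit 131) (nat_lit 162)) (PT.lf (nat_lit 14136) (nat_lit 6) (nat_lit 186) (nat_lit 3) (nat_lit 158) (nat_lit 131) (nat_lit 161)))) (PT.nd (nat_lit 156) (PT.nd (nat_lit 78) (PT.lf (nat_lit 14212) (nat_lit 6) (nat_lit 187) (nat_lit 3) (nat_lit 159) (nat_lit 131) (nat_lit 160)) (PT.lf (nat_lit 14212) (nat_lit 6) (nat_lit 187) (nat_lit 1) (nat_lit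 160) (nat_lit 131) (nat_lit 159))) (PT.nd (nat_lit 78) (PT.lf (nat_lit 14136) (nat_lit 6) (nat_lit 186) (nat_lit 1) (nat_lit 161) (nat_lit 131) (nat_lit 158)) (PT.lf (nat_lit 14060) (nat_lit 6) (nat_lit 185) (nat_lit 1) (nat_lit 162) (nat_lit 131) (nat_lit 157)))))) (PT.nd (nat_lit 46254) (PT.nd (nat_lit 234) (PT.nd (nat_lit 78) (PT.lf (nat_lit 13984) (nat_lit 6) (nat_lit 184) (nat_lit 1) (nat_lit 163) (nat_lit 131) (nat_lit 156)) (PT.nd (nat_lit 78) (PT.lf (nat_lit 13908) (nat_lit 6) (nat_lit 183) (nat_lit 1) (nat_lit 164) (nat_lit 131) (nat_lit 155)) (PT.lf (nat_lit 13832) (nat_lit 6) (nat_lit 182) (nat_lit 1) (nat_lit 165) (nat_lit 131) (nat_lit 154)))) (PT.nd (nat_lit 45864) (PT.nd (nat_lit 45786) (PT.lf (nat_lit 13756) (nat_lit 6) (nat_lit 181) (nat_lit 1) (nat_lit 166) (nat_lit 131) (nat_lit 153)) (PT.lf (nat_lit 14288) (nat_lit 6) (nat_lit 188) (nat_lit 3) (nat_lit 152) (nat_lit 132) (nat_lit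 166))) (PT.nd (nat_lit 78) (PT.lf (nat_lit 14364) (nat_lit 6) (nat_lit 189) (nat_lit 3) (nat_lit 153) (nat_lit 132) (nat_lit 165)) (PT.lf (nat_lit 14440) (nat_lit 6) (nat_lit 190) (nat_lit 3) (nat_lit 154) (nat_lit 132) (nat_lit 164))))) (PT.nd (nat_lit 234) (PT.nd (nat_lit 78) (PT.lf (nat_lit 14516) (nat_lit 6) (nat_lit 191) (nat_lit 3) (nat_lit 155) (nat_lit 132) (nat_lit 163)) (PT.nd (nat_lit 78) (PT.lf (nat_lit 14592) (nat_lit 6) (nat_lit 192) (nat_lit 3) (nat_lit 156) (nat_lit 132) (nat_lit 162)) (PT.lf (nat_lit 14668) (nat_lit 6) (nat_lit 193) (nat_lit 3) (nat_lit 157) (nat_lit 132) (nat_lit 161)))) (PT.nd (nat_lit 156) (PT.nd (nat_lit 78) (PT.lf (nat_lit 14744) (nat_lit 6) (nat_lit 194) (nat_lit 3) (nat_lit 158) (nat_lit 132) (nat_lit 160)) (PT.lf (nat_lit 14820) (nat_lit 3) (nat_lit 195) (nat_lit 1) (nat_lit 159) (nat_lit 132) (nat_lit 159))) (PT.nd (nat_lit 78) (PT.lf (nat_lit 14744) (nat_lit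 6) (nat_lit 194) (nat_lit 1) (nat_lit 160) (nat_lit 132) (nat_lit 158)) (PT.lf (nat_lit 14668) (nat_lit 6) (nat_lit 193) (nat_lit 1) (nat_lit 161) (nat_lit 132) (nat_lit 157))))))) (PT.nd (nat_lit 46722) (PT.nd (nat_lit 46176) (PT.nd (nat_lit 234) (PT.nd (nat_lit 78) (PT.lf (nat_lit 14592) (nat_lit 6) (nat_lit 192) (nat_lit 1) (nat_lit 162) (nat_lit 132) (nat_lit 156)) (PT.nd (nat_lit 78) (PT.lf (nat_lit 14516) (nat_lit 6) (nat_lit 191) (nat_lit 1) (nat_lit 163) (nat_lit 132) (nat_lit 155)) (PT.lf (nat_lit 14440) (nat_lit 6) (nat_lit 190) (nat_lit 1) (nat_lit 164) (nat_lit 132) (nat_lit 154)))) (PT.nd (nat_lit 45786) (PT.nd (nat_lit 78) (PT.lf (nat_lit 14364) (nat_lit 6) (nat_lit 189) (nat_lit 1) (nat_lit 165) (nat_lit 132) (nat_lit 153)) (PT.lf (nat_lit 14288) (nat_lit 6) (nat_lit 188) (nat_lit 1) (nat_lit 166) (nat_lit 132) (nat_lit 152))) (PT.nd (nat_lit 78) (PT.lf (nat_lit 14896) (nat_lit 6) (nat_lit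 196) (nat_lit 3) (nat_lit 151) (nat_lit 133) (nat_lit 166)) (PT.lf (nat_lit 14972) (nat_lit 6) (nat_lit 197) (nat_lit 3) (nat_lit 152) (nat_lit 133) (nat_lit 165))))) (PT.nd (nat_lit 234) (PT.nd (nat_lit 78) (PT.lf (nat_lit 15048) (nat_lit 6) (nat_lit 198) (nat_lit 3) (nat_lit 153) (nat_lit 133) (nat_lit 164)) (PT.nd (nat_lit 78) (PT.lf (nat_lit 15124) (nat_lit 6) (nat_lit 199) (nat_lit 3) (nat_lit 154) (nat_lit 133) (nat_lit 163)) (PT.lf (nat_lit 15200) (nat_lit 6) (nat_lit 200) (nat_lit 3) (nat_lit 155) (nat_lit 133) (nat_lit 162)))) (PT.nd (nat_lit 156) (PT.nd (nat_lit 78) (PT.lf (nat_lit 15276) (nat_lit 6) (nat_lit 201) (nat_lit 3) (nat_lit 156) (nat_lit 133) (nat_lit 161)) (PT.lf (nat_lit 15352) (nat_lit 6) (nat_lit 202) (nat_lit 3) (nat_lit 157) (nat_lit 133) (nat_lit 160))) (PT.nd (nat_lit 78) (PT.lf (nat_lit 15428) (nat_lit 6) (nat_lit 203) (nat_lit 3) (nat_lit 158) (nat_lit 133) (nat_lit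 159)) (PT.lf (nat_lit 15428) (nat_lit 6) (nat_lit 203) (nat_lit 1) (nat_lit 159) (nat_lit 133) (nat_lit 158)))))) (PT.nd (nat_lit 46098) (PT.nd (nat_lit 234) (PT.nd (nat_lit 78) (PT.lf (nat_lit 15352) (nat_lit 6) (nat_lit 202) (nat_lit 1) (nat_lit 160) (nat_lit 133) (nat_lit 157)) (PT.nd (nat_lit 78) (PT.lf (nat_lit 15276) (nat_lit 6) (nat_lit 201) (nat_lit 1) (nat_lit 161) (nat_lit 133) (nat_lit 156)) (PT.lf (nat_lit 15200) (nat_lit 6) (nat_lit 200) (nat_lit 1) (nat_lit 162) (nat_lit 133) (nat_lit 155)))) (PT.nd (nat_lit 156) (PT.nd (nat_lit 78) (PT.lf (nat_lit 15124) (nat_lit 6) (nat_lit 199) (nat_lit 1) (nat_lit 163) (nat_lit 133) (nat_lit 154)) (PT.lf (nat_lit 15048) (nat_lit 6) (nat_lit 198) (nat_lit 1) (nat_lit 164) (nat_lit 133) (nat_lit 153))) (PT.nd (nat_lit 78) (PT.lf (nat_lit 14972) (nat_lit 6) (nat_lit 197) (nat_lit 1) (nat_lit 165) (nat_lit 133) (nat_lit 152)) (PT.lf (nat_lit 14896) (nat_lit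 6) (nat_lit 196) (nat_lit 1) (nat_lit 166) (nat_lit 133) (nat_lit 151))))) (PT.nd (nat_lit 234) (PT.nd (nat_lit 78) (PT.lf (nat_lit 15732) (nat_lit 6) (nat_lit 207) (nat_lit 3) (nat_lit 150) (nat_lit 134) (nat_lit 166)) (PT.nd (nat_lit 78) (PT.lf (nat_lit 15808) (nat_lit 6) (nat_lit 208) (nat_lit 3) (nat_lit 151) (nat_lit 134) (nat_lit 165)) (PT.lf (nat_lit 15884) (nat_lit 6) (nat_lit 209) (nat_lit 3) (nat_lit 152) (nat_lit 134) (nat_lit 164)))) (PT.nd (nat_lit 156) (PT.nd (nat_lit 78) (PT.lf (nat_lit 15960) (nat_lit 6) (nat_lit 210) (nat_lit 3) (nat_lit 153) (nat_lit 134) (nat_lit 163)) (PT.lf (nat_lit 16036) (nat_lit 6) (nat_lit 211) (nat_lit 3) (nat_lit 154) (nat_lit 134) (nat_lit 162))) (PT.nd (nat_lit 78) (PT.lf (nat_lit 16112) (nat_lit 6) (nat_lit 212) (nat_lit 3) (nat_lit 155) (nat_lit 134) (nat_lit 161)) (PT.lf (nat_lit 16188) (nat_lit 6) (nat_lit 213) (nat_lit 3) (nat_lit 156) (nat_lit 134)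 (nat_lit 160))))))))
noncomputable def pc6 : PT := (PT.nd (nat_lit 47580) (PT.nd (nat_lit 46488) (PT.nd (nat_lit 468) (PT.nd (nat_lit 234) (PT.nd (nat_lit 78) (PT.lf (nat_lit 16264) (nat_lit 6) (nat_lit 214) (nat_lit 3) (nat_lit 157) (nat_lit 134) (nat_lit 159)) (PT.nd (nat_lit 78) (PT.lf (nat_lit 16340) (nat_lit 3) (nat_lit 215) (nat_lit 1) (nat_lit 158) (nat_lit 134) (nat_lit 158)) (PT.lf (nat_lit 16264) (nat_lit 6) (nat_lit 214) (nat_lit 1) (nat_lit 159) (nat_lit 134) (nat_lit 157)))) (PT.nd (nat_lit 78) (PT.lf (nat_lit 16188) (nat_lit 6) (nat_lit 213) (nat_lit 1) (nat_lit 160) (nat_lit 134) (nat_lit 156)) (PT.nd (nat_lit 78) (PT.lf (nat_lit 16112) (nat_lit 6) (nat_lit 212) (nat_lit 1) (nat_lit 161) (nat_lit 134) (nat_lit 155)) (PT.lf (nat_lit 16036) (nat_lit 6) (nat_lit 211) (nat_lit 1) (nat_lit 162) (nat_lit 134) (nat_lit 154))))) (PT.nd (nat_lit 234) (PT.nd (nat_lit 78) (PT.lf (nat_lit 15960)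 (nat_lit 6) (nat_lit 210) (nat_lit 1) (nat_lit 163) (nat_lit 134) (nat_lit 153)) (PT.nd (nat_lit 78) (PT.lf (nat_lit 15884) (nat_lit 6) (nat_lit 209) (nat_lit 1) (nat_lit 164) (nat_lit 134) (nat_lit 152)) (PT.lf (nat_lit 15808) (nat_lit 6) (nat_lit 208) (nat_lit 1) (nat_lit 165) (nat_lit 134) (nat_lit 151)))) (PT.nd (nat_lit 45630) (PT.nd (nat_lit 45552) (PT.lf (nat_lit 15732) (nat_lit 6) (nat_lit 207) (nat_lit 1) (nat_lit 166) (nat_lit 134) (nat_lit 150)) (PT.lf (nat_lit 15656) (nat_lit 6) (nat_lit 206) (nat_lit 3) (nat_lit 149) (nat_lit 135) (nat_lit 166))) (PT.nd (nat_lit 78) (PT.lf (nat_lit 16948) (nat_lit 6) (nat_lit 223) (nat_lit 3) (nat_lit 150) (nat_lit 135) (nat_lit 165)) (PT.lf (nat_lit 17024) (nat_lit 6) (nat_lit 224) (nat_lit 3) (nat_lit 151) (nat_lit 135) (nat_lit 164)))))) (PT.nd (nat_lit 546) (PT.nd (nat_lit 234) (PT.nd (nat_lit 78) (PT.lf (nat_lit 17100) (nat_lit 6) (nat_lit 225) (nat_lit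 3) (nat_lit 152) (nat_lit 135) (nat_lit 163)) (PT.nd (nat_lit 78) (PT.lf (nat_lit 17176) (nat_lit 6) (nat_lit 226) (nat_lit 3) (nat_lit 153) (nat_lit 135) (nat_lit 162)) (PT.lf (nat_lit 17252) (nat_lit 6) (nat_lit 227) (nat_lit 3) (nat_lit 154) (nat_lit 135) (nat_lit 161)))) (PT.nd (nat_lit 156) (PT.nd (nat_lit 78) (PT.lf (nat_lit 17328) (nat_lit 6) (nat_lit 228) (nat_lit 3) (nat_lit 155) (nat_lit 135) (nat_lit 160)) (PT.lf (nat_lit 17404) (nat_lit 6) (nat_lit 229) (nat_lit 3) (nat_lit 156) (nat_lit 135) (nat_lit 159))) (PT.nd (nat_lit 78) (PT.lf (nat_lit 17480) (nat_lit 6) (nat_lit 230) (nat_lit 3) (nat_lit 157) (nat_lit 135) (nat_lit 158)) (PT.lf (nat_lit 17480) (nat_lit 6) (nat_lit 230) (nat_lit 1) (nat_lit 158) (nat_lit 135) (nat_lit 157))))) (PT.nd (nat_lit 234) (PT.nd (nat_lit 78) (PT.lf (nat_lit 17404) (nat_lit 6) (nat_lit 229) (nat_lit 1) (nat_lit 159) (nat_lit 135) (nat_lit 156)) (PT.nd (nat_lit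 78) (PT.lf (nat_lit 17328) (nat_lit 6) (nat_lit 228) (nat_lit 1) (nat_lit 160) (nat_lit 135) (nat_lit 155)) (PT.lf (nat_lit 17252) (nat_lit 6) (nat_lit 227) (nat_lit 1) (nat_lit 161) (nat_lit 135) (nat_lit 154)))) (PT.nd (nat_lit 156) (PT.nd (nat_lit 78) (PT.lf (nat_lit 17176) (nat_lit 6) (nat_lit 226) (nat_lit 1) (nat_lit 162) (nat_lit 135) (nat_lit 153)) (PT.lf (nat_lit 17100) (nat_lit 6) (nat_lit 225) (nat_lit 1) (nat_lit 163) (nat_lit 135) (nat_lit 152))) (PT.nd (nat_lit 78) (PT.lf (nat_lit 17024) (nat_lit 6) (nat_lit 224) (nat_lit 1) (nat_lit 164) (nat_lit 135) (nat_lit 151)) (PT.lf (nat_lit 16948) (nat_lit 6) (nat_lit 223) (nat_lit 1) (nat_lit 165) (nat_lit 135) (nat_lit 150))))))) (PT.nd (nat_lit 46410) (PT.nd (nat_lit 45864) (PT.nd (nat_lit 45630) (PT.nd (nat_lit 45474) (PT.lf (nat_lit 15656) (nat_lit 6) (nat_lit 206) (nat_lit 1) (nat_lit 166) (nat_lit 135) (nat_lit 149)) (PT.nd (nat_lit 78)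 (PT.lf (nat_lit 15580) (nat_lit 6) (nat_lit 205) (nat_lit 3) (nat_lit 148) (nat_lit 136) (nat_lit 166)) (PT.lf (nat_lit 16872) (nat_lit 6) (nat_lit 222) (nat_lit 3) (nat_lit 149) (nat_lit 136) (nat_lit 165)))) (PT.nd (nat_lit 78) (PT.lf (nat_lit 18088) (nat_lit 6) (nat_lit 238) (nat_lit 3) (nat_lit 150) (nat_lit 136) (nat_lit 164)) (PT.nd (nat_lit 78) (PT.lf (nat_lit 18164) (nat_lit 6) (nat_lit 239) (nat_lit 3) (nat_lit 151) (nat_lit 136) (nat_lit 163)) (PT.lf (nat_lit 18240) (nat_lit 6) (nat_lit 240) (nat_lit 3) (nat_lit 152) (nat_lit 136) (nat_lit 162))))) (PT.nd (nat_lit 234) (PT.nd (nat_lit 78) (PT.lf (nat_lit 18316) (nat_lit 6) (nat_lit 241) (nat_lit 3) (nat_lit 153) (nat_lit 136) (nat_lit 161)) (PT.nd (nat_lit 78) (PT.lf (nat_lit 18392) (nat_lit 6) (nat_lit 242) (nat_lit 3) (nat_lit 154) (nat_lit 136) (nat_lit 160)) (PT.lf (nat_lit 18468) (nat_lit 6) (nat_lit 243) (nat_lit 3) (nat_lit 155) (nat_lit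 136) (nat_lit 159)))) (PT.nd (nat_lit 156) (PT.nd (nat_lit 78) (PT.lf (nat_lit 18544) (nat_lit 6) (nat_lit 244) (nat_lit 3) (nat_lit 156) (nat_lit 136) (nat_lit 158)) (PT.lf (nat_lit 18620) (nat_lit 3) (nat_lit 245) (nat_lit 1) (nat_lit 157) (nat_lit 136) (nat_lit 157))) (PT.nd (nat_lit 78) (PT.lf (nat_lit 18544) (nat_lit 6) (nat_lit 244) (nat_lit 1) (nat_lit 158) (nat_lit 136) (nat_lit 156)) (PT.lf (nat_lit 18468) (nat_lit 6) (nat_lit 243) (nat_lit 1) (nat_lit 159) (nat_lit 136) (nat_lit 155)))))) (PT.nd (nat_lit 45942) (PT.nd (nat_lit 234) (PT.nd (nat_lit 78) (PT.lf (nat_lit 18392) (nat_lit 6) (nat_lit 242) (nat_lit 1) (nat_lit 160) (nat_lit 136) (nat_lit 154)) (PT.nd (nat_lit 78) (PT.lf (nat_lit 18316) (nat_lit 6) (nat_lit 241) (nat_lit 1) (nat_lit 161) (nat_lit 136) (nat_lit 153)) (PT.lf (nat_lit 18240) (nat_lit 6) (nat_lit 240) (nat_lit 1) (nat_lit 162) (nat_lit 136) (nat_lit 152)))) (PT.nd (nat_lit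 156) (PT.nd (nat_lit 78) (PT.lf (nat_lit 18164) (nat_lit 6) (nat_lit 239) (nat_lit 1) (nat_lit 163) (nat_lit 136) (nat_lit 151)) (PT.lf (nat_lit 18088) (nat_lit 6) (nat_lit 238) (nat_lit 1) (nat_lit 164) (nat_lit 136) (nat_lit 150))) (PT.nd (nat_lit 78) (PT.lf (nat_lit 16872) (nat_lit 6) (nat_lit 222) (nat_lit 1) (nat_lit 165) (nat_lit 136) (nat_lit 149)) (PT.lf (nat_lit 15580) (nat_lit 6) (nat_lit 205) (nat_lit 1) (nat_lit 166) (nat_lit 136) (nat_lit 148))))) (PT.nd (nat_lit 234) (PT.nd (nat_lit 78) (PT.lf (nat_lit 16796) (nat_lit 6) (nat_lit 221) (nat_lit 3) (nat_lit 148) (nat_lit 137) (nat_lit 165)) (PT.nd (nat_lit 78) (PT.lf (nat_lit 18012) (nat_lit 6) (nat_lit 237) (nat_lit 3) (nat_lit 149) (nat_lit 137) (nat_lit 164)) (PT.lf (nat_lit 19152) (nat_lit 6) (nat_lit 252) (nat_lit 3) (nat_lit 150) (nat_lit 137) (nat_lit 163)))) (PT.nd (nat_lit 156) (PT.nd (nat_lit 78) (PT.lf (nat_lit 19228) (nat_lit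 6) (nat_lit 253) (nat_lit 3) (nat_lit 151) (nat_lit 137) (nat_lit 162)) (PT.lf (nat_lit 19304) (nat_lit 6) (nat_lit 254) (nat_lit 3) (nat_lit 152) (nat_lit 137) (nat_lit 161))) (PT.nd (nat_lit 78) (PT.lf (nat_lit 19380) (nat_lit 6) (nat_lit 255) (nat_lit 3) (nat_lit 153) (nat_lit 137) (nat_lit 160)) (PT.lf (nat_lit 19456) (nat_lit 6) (nat_lit 256) (nat_lit 3) (nat_lit 154) (nat_lit 137) (nat_lit 159))))))))
noncomputable def pc7 : PT := (PT.nd (nat_lit 47502) (PT.nd (nat_lit 46410) (PT.nd (nat_lit 468) (PT.nd (nat_lit 234) (PT.nd (nat_lit 78) (PT.lf (nat_lit 19532) (nat_lit 6) (nat_lit 257) (nat_lit 3) (nat_lit 155) (nat_lit 137) (nat_lit 158)) (PT.nd (nat_lit 78) (PT.lf (nat_lit 19608) (nat_lit 6) (nat_lit 258) (nat_lit 3) (nat_lit 156) (nat_lit 137) (nat_lit 157)) (PT.lf (nat_lit 19608) (nat_lit 6) (nat_lit 258) (nat_lit 1) (nat_lit 157) (nat_lit 137) (nat_lit 156)))) (PT.nd (nat_lit 78) (PT.lf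 (nat_lit 19532) (nat_lit 6) (nat_lit 257) (nat_lit 1) (nat_lit 158) (nat_lit 137) (nat_lit 155)) (PT.nd (nat_lit 78) (PT.lf (nat_lit 19456) (nat_lit 6) (nat_lit 256) (nat_lit 1) (nat_lit 159) (nat_lit 137) (nat_lit 154)) (PT.lf (nat_lit 19380) (nat_lit 6) (nat_lit 255) (nat_lit 1) (nat_lit 160) (nat_lit 137) (nat_lit 153))))) (PT.nd (nat_lit 234) (PT.nd (nat_lit 78) (PT.lf (nat_lit 19304) (nat_lit 6) (nat_lit 254) (nat_lit 1) (nat_lit 161) (nat_lit 137) (nat_lit 152)) (PT.nd (nat_lit 78) (PT.lf (nat_lit 19228) (nat_lit 6) (nat_lit 253) (nat_lit 1) (nat_lit 162) (nat_lit 137) (nat_lit 151)) (PT.lf (nat_lit 19152) (nat_lit 6) (nat_lit 252) (nat_lit 1) (nat_lit 163) (nat_lit 137) (nat_lit 150)))) (PT.nd (nat_lit 45552) (PT.nd (nat_lit 78) (PT.lf (nat_lit 18012) (nat_lit 6) (nat_lit 237) (nat_lit 1) (nat_lit 164) (nat_lit 137) (nat_lit 149)) (PT.lf (nat_lit 16796) (nat_lit 6) (nat_lit 221) (nat_lit 1)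 (nat_lit 165) (nat_lit 137) (nat_lit 148))) (PT.nd (nat_lit 78) (PT.lf (nat_lit 16720) (nat_lit 6) (nat_lit 220) (nat_lit 3) (nat_lit 147) (nat_lit 138) (nat_lit 165)) (PT.lf (nat_lit 17936) (nat_lit 6) (nat_lit 236) (nat_lit 3) (nat_lit 148) (nat_lit 138) (nat_lit 164)))))) (PT.nd (nat_lit 546) (PT.nd (nat_lit 234) (PT.nd (nat_lit 78) (PT.lf (nat_lit 19076) (nat_lit 6) (nat_lit 251) (nat_lit 3) (nat_lit 149) (nat_lit 138) (nat_lit 163)) (PT.nd (nat_lit 78) (PT.lf (nat_lit 20140) (nat_lit 6) (nat_lit 265) (nat_lit 3) (nat_lit 150) (nat_lit 138) (nat_lit 162)) (PT.lf (nat_lit 20216) (nat_lit 6) (nat_lit 266) (nat_lit 3) (nat_lit 151) (nat_lit 138) (nat_lit 161)))) (PT.nd (nat_lit 156) (PT.nd (nat_lit 78) (PT.lf (nat_lit 20292) (nat_lit 6) (nat_lit 267) (nat_lit 3) (nat_lit 152) (nat_lit 138) (nat_lit 160)) (PT.lf (nat_lit 20368) (nat_lit 6) (nat_lit 268) (nat_lit 3) (nat_lit 153) (nat_lit 138) (nat_lit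 159))) (PT.nd (nat_lit 78) (PT.lf (nat_lit 20444) (nat_lit 6) (nat_lit 269) (nat_lit 3) (nat_lit 154) (nat_lit 138) (nat_lit 158)) (PT.lf (nat_lit 20520) (nat_lit 6) (nat_lit 270) (nat_lit 3) (nat_lit 155) (nat_lit 138) (nat_lit 157))))) (PT.nd (nat_lit 234) (PT.nd (nat_lit 78) (PT.lf (nat_lit 20596) (nat_lit 3) (nat_lit 271) (nat_lit 1) (nat_lit 156) (nat_lit 138) (nat_lit 156)) (PT.nd (nat_lit 78) (PT.lf (nat_lit 20520) (nat_lit 6) (nat_lit 270) (nat_lit 1) (nat_lit 157) (nat_lit 138) (nat_lit 155)) (PT.lf (nat_lit 20444) (nat_lit 6) (nat_lit 269) (nat_lit 1) (nat_lit 158) (nat_lit 138) (nat_lit 154)))) (PT.nd (nat_lit 156) (PT.nd (nat_lit 78) (PT.lf (nat_lit 20368) (nat_lit 6) (nat_lit 268) (nat_lit 1) (nat_lit 159) (nat_lit 138) (nat_lit 153)) (PT.lf (nat_lit 20292) (nat_lit 6) (nat_lit 267) (nat_lit 1) (nat_lit 160) (nat_lit 138) (nat_lit 152))) (PT.nd (nat_lit 78) (PT.lf (nat_lit 20216) (nat_lit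 6) (nat_lit 266) (nat_lit 1) (nat_lit 161) (nat_lit 138) (nat_lit 151)) (PT.lf (nat_lit 20140) (nat_lit 6) (nat_lit 265) (nat_lit 1) (nat_lit 162) (nat_lit 138) (nat_lit 150))))))) (PT.nd (nat_lit 46410) (PT.nd (nat_lit 45864) (PT.nd (nat_lit 45552) (PT.nd (nat_lit 78) (PT.lf (nat_lit 19076) (nat_lit 6) (nat_lit 251) (nat_lit 1) (nat_lit 163) (nat_lit 138) (nat_lit 149)) (PT.nd (nat_lit 78) (PT.lf (nat_lit 17936) (nat_lit 6) (nat_lit 236) (nat_lit 1) (nat_lit 164) (nat_lit 138) (nat_lit 148)) (PT.lf (nat_lit 16720) (nat_lit 6) (nat_lit 220) (nat_lit 1) (nat_lit 165) (nat_lit 138) (nat_lit 147)))) (PT.nd (nat_lit 156) (PT.nd (nat_lit 78) (PT.lf (nat_lit 16644) (nat_lit 6) (nat_lit 219) (nat_lit 3) (nat_lit 146) (nat_lit 139) (nat_lit 165)) (PT.lf (nat_lit 17860) (nat_lit 6) (nat_lit 235) (nat_lit 3) (nat_lit 147) (nat_lit 139) (nat_lit 164))) (PT.nd (nat_lit 78) (PT.lf (nat_lit 19000) (nat_lit 6) (nat_lit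 250) (nat_lit 3) (nat_lit 148) (nat_lit 139) (nat_lit 163)) (PT.lf (nat_lit 20064) (nat_lit 6) (nat_lit 264) (nat_lit 3) (nat_lit 149) (nat_lit 139) (nat_lit 162))))) (PT.nd (nat_lit 234) (PT.nd (nat_lit 78) (PT.lf (nat_lit 21052) (nat_lit 6) (nat_lit 277) (nat_lit 3) (nat_lit 150) (nat_lit 139) (nat_lit 161)) (PT.nd (nat_lit 78) (PT.lf (nat_lit 21128) (nat_lit 6) (nat_lit 278) (nat_lit 3) (nat_lit 151) (nat_lit 139) (nat_lit 160)) (PT.lf (nat_lit 21204) (nat_lit 6) (nat_lit 279) (nat_lit 3) (nat_lit 152) (nat_lit 139) (nat_lit 159)))) (PT.nd (nat_lit 156) (PT.nd (nat_lit 78) (PT.lf (nat_lit 21280) (nat_lit 6) (nat_lit 280) (nat_lit 3) (nat_lit 153) (nat_lit 139) (nat_lit 158)) (PT.lf (nat_lit 21356) (nat_lit 6) (nat_lit 281) (nat_lit 3) (nat_lit 154) (nat_lit 139) (nat_lit 157))) (PT.nd (nat_lit 78) (PT.lf (nat_lit 21432) (nat_lit 6) (nat_lit 282) (nat_lit 3) (nat_lit 155) (nat_lit 139) (nat_lit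 156)) (PT.lf (nat_lit 21432) (nat_lit 6) (nat_lit 282) (nat_lit 1) (nat_lit 156) (nat_lit 139) (nat_lit 155)))))) (PT.nd (nat_lit 546) (PT.nd (nat_lit 234) (PT.nd (nat_lit 78) (PT.lf (nat_lit 21356) (nat_lit 6) (nat_lit 281) (nat_lit 1) (nat_lit 157) (nat_lit 139) (nat_lit 154)) (PT.nd (nat_lit 78) (PT.lf (nat_lit 21280) (nat_lit 6) (nat_lit 280) (nat_lit 1) (nat_lit 158) (nat_lit 139) (nat_lit 153)) (PT.lf (nat_lit 21204) (nat_lit 6) (nat_lit 279) (nat_lit 1) (nat_lit 159) (nat_lit 139) (nat_lit 152)))) (PT.nd (nat_lit 156) (PT.nd (nat_lit 78) (PT.lf (nat_lit 21128) (nat_lit 6) (nat_lit 278) (nat_lit 1) (nat_lit 160) (nat_lit 139) (nat_lit 151)) (PT.lf (nat_lit 21052) (nat_lit 6) (nat_lit 277) (nat_lit 1) (nat_lit 161) (nat_lit 139) (nat_lit 150))) (PT.nd (nat_lit 78) (PT.lf (nat_lit 20064) (nat_lit 6) (nat_lit 264) (nat_lit 1) (nat_lit 162) (nat_lit 139) (nat_lit 149)) (PT.lf (nat_lit 19000) (nat_lit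 6) (nat_lit 250) (nat_lit 1) (nat_lit 163) (nat_lit 139) (nat_lit 148))))) (PT.nd (nat_lit 45474) (PT.nd (nat_lit 78) (PT.lf (nat_lit 17860) (nat_lit 6) (nat_lit 235) (nat_lit 1) (nat_lit 164) (nat_lit 139) (nat_lit 147)) (PT.nd (nat_lit 45318) (PT.lf (nat_lit 16644) (nat_lit 6) (nat_lit 219) (nat_lit 1) (nat_lit 165) (nat_lit 139) (nat_lit 146)) (PT.lf (nat_lit 16568) (nat_lit 6) (nat_lit 218) (nat_lit 3) (nat_lit 145) (nat_lit 140) (nat_lit 165)))) (PT.nd (nat_lit 156) (PT.nd (nat_lit 78) (PT.lf (nat_lit 17784) (nat_lit 6) (nat_lit 234) (nat_lit 3) (nat_lit 146) (nat_lit 140) (nat_lit 164)) (PT.lf (nat_lit 18924) (nat_lit 6) (nat_lit 249) (nat_lit 3) (nat_lit 147) (nat_lit 140) (nat_lit 163))) (PT.nd (nat_lit 78) (PT.lf (nat_lit 19988) (nat_lit 6) (nat_lit 263) (nat_lit 3) (nat_lit 148) (nat_lit 140) (nat_lit 162)) (PT.lf (nat_lit 20976) (nat_lit 6) (nat_lit 276) (nat_lit 3) (nat_lit 149) (nat_lit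 140) (nat_lit 161))))))))
noncomputable def pc8 : PT := (PT.nd (nat_lit 47268) (PT.nd (nat_lit 1014) (PT.nd (nat_lit 468) (PT.nd (nat_lit 234) (PT.nd (nat_lit 78) (PT.lf (nat_lit 21888) (nat_lit 6) (nat_lit 288) (nat_lit 3) (nat_lit 150) (nat_lit 140) (nat_lit 160)) (PT.nd (nat_lit 78) (PT.lf (nat_lit 21964) (nat_lit 6) (nat_lit 289) (nat_lit 3) (nat_lit 151) (nat_lit 140) (nat_lit 159)) (PT.lf (nat_lit 22040) (nat_lit 6) (nat_lit 290) (nat_lit 3) (nat_lit 152) (nat_lit 140) (nat_lit 158)))) (PT.nd (nat_lit 78) (PT.lf (nat_lit 22116) (nat_lit 6) (nat_lit 291) (nat_lit 3) (nat_lit 153) (nat_lit 140) (nat_lit 157)) (PT.nd (nat_lit 78) (PT.lf (nat_lit 22192) (nat_lit 6) (nat_lit 292) (nat_lit 3) (nat_lit 154) (nat_lit 140) (nat_lit 156)) (PT.lf (nat_lit 22268) (nat_lit 3) (nat_lit 293) (nat_lit 1) (nat_lit 155) (nat_lit 140) (nat_lit 155))))) (PT.nd (nat_lit 234) (PT.nd (nat_lit 78) (PT.lf (nat_lit 22192)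 (nat_lit 6) (nat_lit 292) (nat_lit 1) (nat_lit 156) (nat_lit 140) (nat_lit 154)) (PT.nd (nat_lit 78) (PT.lf (nat_lit 22116) (nat_lit 6) (nat_lit 291) (nat_lit 1) (nat_lit 157) (nat_lit 140) (nat_lit 153)) (PT.lf (nat_lit 22040) (nat_lit 6) (nat_lit 290) (nat_lit 1) (nat_lit 158) (nat_lit 140) (nat_lit 152)))) (PT.nd (nat_lit 156) (PT.nd (nat_lit 78) (PT.lf (nat_lit 21964) (nat_lit 6) (nat_lit 289) (nat_lit 1) (nat_lit 159) (nat_lit 140) (nat_lit 151)) (PT.lf (nat_lit 21888) (nat_lit 6) (nat_lit 288) (nat_lit 1) (nat_lit 160) (nat_lit 140) (nat_lit 150))) (PT.nd (nat_lit 78) (PT.lf (nat_lit 20976) (nat_lit 6) (nat_lit 276) (nat_lit 1) (nat_lit 161) (nat_lit 140) (nat_lit 149)) (PT.lf (nat_lit 19988) (nat_lit 6) (nat_lit 263) (nat_lit 1) (nat_lit 162) (nat_lit 140) (nat_lit 148)))))) (PT.nd (nat_lit 45708) (PT.nd (nat_lit 45396) (PT.nd (nat_lit 78) (PT.lf (nat_lit 18924) (nat_lit 6) (nat_lit 249) (nat_lit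 1) (nat_lit 163) (nat_lit 140) (nat_lit 147)) (PT.nd (nat_lit 78) (PT.lf (nat_lit 17784) (nat_lit 6) (nat_lit 234) (nat_lit 1) (nat_lit 164) (nat_lit 140) (nat_lit 146)) (PT.lf (nat_lit 16568) (nat_lit 6) (nat_lit 218) (nat_lit 1) (nat_lit 165) (nat_lit 140) (nat_lit 145)))) (PT.nd (nat_lit 156) (PT.nd (nat_lit 78) (PT.lf (nat_lit 16492) (nat_lit 6) (nat_lit 217) (nat_lit 3) (nat_lit 144) (nat_lit 141) (nat_lit 165)) (PT.lf (nat_lit 17708) (nat_lit 6) (nat_lit 233) (nat_lit 3) (nat_lit 145) (nat_lit 141) (nat_lit 164))) (PT.nd (nat_lit 78) (PT.lf (nat_lit 18848) (nat_lit 6) (nat_lit 248) (nat_lit 3) (nat_lit 146) (nat_lit 141) (nat_lit 163)) (PT.lf (nat_lit 19912) (nat_lit 6) (nat_lit 262) (nat_lit 3) (nat_lit 147) (nat_lit 141) (nat_lit 162))))) (PT.nd (nat_lit 234) (PT.nd (nat_lit 78) (PT.lf (nat_lit 20900) (nat_lit 6) (nat_lit 275) (nat_lit 3) (nat_lit 148) (nat_lit 141) (nat_lit 161)) (PT.nd (nat_lit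 78) (PT.lf (nat_lit 21812) (nat_lit 6) (nat_lit 287) (nat_lit 3) (nat_lit 149) (nat_lit 141) (nat_lit 160)) (PT.lf (nat_lit 22648) (nat_lit 6) (nat_lit 298) (nat_lit 3) (nat_lit 150) (nat_lit 141) (nat_lit 159)))) (PT.nd (nat_lit 156) (PT.nd (nat_lit 78) (PT.lf (nat_lit 22724) (nat_lit 6) (nat_lit 299) (nat_lit 3) (nat_lit 151) (nat_lit 141) (nat_lit 158)) (PT.lf (nat_lit 22800) (nat_lit 6) (nat_lit 300) (nat_lit 3) (nat_lit 152) (nat_lit 141) (nat_lit 157))) (PT.nd (nat_lit 78) (PT.lf (nat_lit 22876) (nat_lit 6) (nat_lit 301) (nat_lit 3) (nat_lit 153) (nat_lit 141) (nat_lit 156)) (PT.lf (nat_lit 22952) (nat_lit 6) (nat_lit 302) (nat_lit 3) (nat_lit 154) (nat_lit 141) (nat_lit 155))))))) (PT.nd (nat_lit 46098) (PT.nd (nat_lit 468) (PT.nd (nat_lit 234) (PT.nd (nat_lit 78) (PT.lf (nat_lit 22952) (nat_lit 6) (nat_lit 302) (nat_lit 1) (nat_lit 155) (nat_lit 141) (nat_lit 154)) (PT.nd (nat_lit 78) (PT.lf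 (nat_lit 22876) (nat_lit 6) (nat_lit 301) (nat_lit 1) (nat_lit 156) (nat_lit 141) (nat_lit 153)) (PT.lf (nat_lit 22800) (nat_lit 6) (nat_lit 300) (nat_lit 1) (nat_lit 157) (nat_lit 141) (nat_lit 152)))) (PT.nd (nat_lit 78) (PT.lf (nat_lit 22724) (nat_lit 6) (nat_lit 299) (nat_lit 1) (nat_lit 158) (nat_lit 141) (nat_lit 151)) (PT.nd (nat_lit 78) (PT.lf (nat_lit 22648) (nat_lit 6) (nat_lit 298) (nat_lit 1) (nat_lit 159) (nat_lit 141) (nat_lit 150)) (PT.lf (nat_lit 21812) (nat_lit 6) (nat_lit 287) (nat_lit 1) (nat_lit 160) (nat_lit 141) (nat_lit 149))))) (PT.nd (nat_lit 234) (PT.nd (nat_lit 78) (PT.lf (nat_lit 20900) (nat_lit 6) (nat_lit 275) (nat_lit 1) (nat_lit 161) (nat_lit 141) (nat_lit 148)) (PT.nd (nat_lit 78) (PT.lf (nat_lit 19912) (nat_lit 6) (nat_lit 262) (nat_lit 1) (nat_lit 162) (nat_lit 141) (nat_lit 147)) (PT.lf (nat_lit 18848) (nat_lit 6) (nat_lit 248) (nat_lit 1) (nat_lit 163) (nat_lit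 141) (nat_lit 146)))) (PT.nd (nat_lit 45240) (PT.nd (nat_lit 78) (PT.lf (nat_lit 17708) (nat_lit 6) (nat_lit 233) (nat_lit 1) (nat_lit 164) (nat_lit 141) (nat_lit 145)) (PT.lf (nat_lit 16492) (nat_lit 6) (nat_lit 217) (nat_lit 1) (nat_lit 165) (nat_lit 141) (nat_lit 144))) (PT.nd (nat_lit 78) (PT.lf (nat_lit 16416) (nat_lit 6) (nat_lit 216) (nat_lit 3) (nat_lit 143) (nat_lit 142) (nat_lit 165)) (PT.lf (nat_lit 17632) (nat_lit 6) (nat_lit 232) (nat_lit 3) (nat_lit 144) (nat_lit 142) (nat_lit 164)))))) (PT.nd (nat_lit 546) (PT.nd (nat_lit 234) (PT.nd (nat_lit 78) (PT.lf (nat_lit 18772) (nat_lit 6) (nat_lit 247) (nat_lit 3) (nat_lit 145) (nat_lit 142) (nat_lit 163)) (PT.nd (nat_lit 78) (PT.lf (nat_lit 19836) (nat_lit 6) (nat_lit 261) (nat_lit 3) (nat_lit 146) (nat_lit 142) (nat_lit 162)) (PT.lf (nat_lit 20824) (nat_lit 6) (nat_lit 274) (nat_lit 3) (nat_lit 147) (nat_lit 142) (nat_lit 161)))) (PT.nd (nat_lit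 156) (PT.nd (nat_lit 78) (PT.lf (nat_lit 21736) (nat_lit 6) (nat_lit 286) (nat_lit 3) (nat_lit 148) (nat_lit 142) (nat_lit 160)) (PT.lf (nat_lit 22572) (nat_lit 6) (nat_lit 297) (nat_lit 3) (nat_lit 149) (nat_lit 142) (nat_lit 159))) (PT.nd (nat_lit 78) (PT.lf (nat_lit 23332) (nat_lit 6) (nat_lit 307) (nat_lit 3) (nat_lit 150) (nat_lit 142) (nat_lit 158)) (PT.lf (nat_lit 23408) (nat_lit 6) (nat_lit 308) (nat_lit 3) (nat_lit 151) (nat_lit 142) (nat_lit 157))))) (PT.nd (nat_lit 234) (PT.nd (nat_lit 78) (PT.lf (nat_lit 23484) (nat_lit 6) (nat_lit 309) (nat_lit 3) (nat_lit 152) (nat_lit 142) (nat_lit 156)) (PT.nd (nat_lit 78) (PT.lf (nat_lit 23560) (nat_lit 6) (nat_lit 310) (nat_lit 3) (nat_lit 153) (nat_lit 142) (nat_lit 155)) (PT.lf (nat_lit 23636) (nat_lit 3) (nat_lit 311) (nat_lit 1) (nat_lit 154) (nat_lit 142) (nat_lit 154)))) (PT.nd (nat_lit 156) (PT.nd (nat_lit 78) (PT.lf (nat_lit 23560) (nat_lit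 6) (nat_lit 310) (nat_lit 1) (nat_lit 155) (nat_lit 142) (nat_lit 153)) (PT.lf (nat_lit 23484) (nat_lit 6) (nat_lit 309) (nat_lit 1) (nat_lit 156) (nat_lit 142) (nat_lit 152))) (PT.nd (nat_lit 78) (PT.lf (nat_lit 23408) (nat_lit 6) (nat_lit 308) (nat_lit 1) (nat_lit 157) (nat_lit 142) (nat_lit 151)) (PT.lf (nat_lit 23332) (nat_lit 6) (nat_lit 307) (nat_lit 1) (nat_lit 158) (nat_lit 142) (nat_lit 150))))))))
noncomputable def pc9 : PT := (PT.nd (nat_lit 47112) (PT.nd (nat_lit 46020) (PT.nd (nat_lit 468) (PT.nd (nat_lit 234) (PT.nd (nat_lit 78) (PT.lf (nat_lit 22572) (nat_lit 6) (nat_lit 297) (nat_lit 1) (nat_lit 159) (nat_lit 142) (nat_lit 149)) (PT.nd (nat_lit 78) (PT.lf (nat_lit 21736) (nat_lit 6) (nat_lit 286) (nat_lit 1) (nat_lit 160) (nat_lit 142) (nat_lit 148)) (PT.lf (nat_lit 20824) (nat_lit 6) (nat_lit 274) (nat_lit 1) (nat_lit 161) (nat_lit 142) (nat_lit 147)))) (PT.nd (nat_lit 78) (PT.lf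 (nat_lit 19836) (nat_lit 6) (nat_lit 261) (nat_lit 1) (nat_lit 162) (nat_lit 142) (nat_lit 146)) (PT.nd (nat_lit 78) (PT.lf (nat_lit 18772) (nat_lit 6) (nat_lit 247) (nat_lit 1) (nat_lit 163) (nat_lit 142) (nat_lit 145)) (PT.lf (nat_lit 17632) (nat_lit 6) (nat_lit 232) (nat_lit 1) (nat_lit 164) (nat_lit 142) (nat_lit 144))))) (PT.nd (nat_lit 45240) (PT.nd (nat_lit 45084) (PT.lf (nat_lit 16416) (nat_lit 6) (nat_lit 216) (nat_lit 1) (nat_lit 165) (nat_lit 142) (nat_lit 143)) (PT.nd (nat_lit 78) (PT.lf (nat_lit 16416) (nat_lit 6) (nat_lit 216) (nat_lit 5) (nat_lit 142) (nat_lit 143) (nat_lit 165)) (PT.lf (nat_lit 17556) (nat_lit 3) (nat_lit 231) (nat_lit 3) (nat_lit 143) (nat_lit 143) (nat_lit 164)))) (PT.nd (nat_lit 156) (PT.nd (nat_lit 78) (PT.lf (nat_lit 18696) (nat_lit 6) (nat_lit 246) (nat_lit 3) (nat_lit 144) (nat_lit 143) (nat_lit 163)) (PT.lf (nat_lit 19760) (nat_lit 6) (nat_lit 260) (nat_lit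 3) (nat_lit 145) (nat_lit 143) (nat_lit 162))) (PT.nd (nat_lit 78) (PT.lf (nat_lit 20748) (nat_lit 6) (nat_lit 273) (nat_lit 3) (nat_lit 146) (nat_lit 143) (nat_lit 161)) (PT.lf (nat_lit 21660) (nat_lit 6) (nat_lit 285) (nat_lit 3) (nat_lit 147) (nat_lit 143) (nat_lit 160)))))) (PT.nd (nat_lit 546) (PT.nd (nat_lit 234) (PT.nd (nat_lit 78) (PT.lf (nat_lit 22496) (nat_lit 6) (nat_lit 296) (nat_lit 3) (nat_lit 148) (nat_lit 143) (nat_lit 159)) (PT.nd (nat_lit 78) (PT.lf (nat_lit 23256) (nat_lit 6) (nat_lit 306) (nat_lit 3) (nat_lit 149) (nat_lit 143) (nat_lit 158)) (PT.lf (nat_lit 23940) (nat_lit 6) (nat_lit 315) (nat_lit 3) (nat_lit 150) (nat_lit 143) (nat_lit 157)))) (PT.nd (nat_lit 156) (PT.nd (nat_lit 78) (PT.lf (nat_lit 24016) (nat_lit 6) (nat_lit 316) (nat_lit 3) (nat_lit 151) (nat_lit 143) (nat_lit 156)) (PT.lf (nat_lit 24092) (nat_lit 6) (nat_lit 317) (nat_lit 3) (nat_lit 152) (nat_lit 143) (nat_lit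 155))) (PT.nd (nat_lit 78) (PT.lf (nat_lit 24168) (nat_lit 6) (nat_lit 318) (nat_lit 3) (nat_lit 153) (nat_lit 143) (nat_lit 154)) (PT.lf (nat_lit 24168) (nat_lit 6) (nat_lit 318) (nat_lit 1) (nat_lit 154) (nat_lit 143) (nat_lit 153))))) (PT.nd (nat_lit 234) (PT.nd (nat_lit 78) (PT.lf (nat_lit 24092) (nat_lit 6) (nat_lit 317) (nat_lit 1) (nat_lit 155) (nat_lit 143) (nat_lit 152)) (PT.nd (nat_lit 78) (PT.lf (nat_lit 24016) (nat_lit 6) (nat_lit 316) (nat_lit 1) (nat_lit 156) (nat_lit 143) (nat_lit 151)) (PT.lf (nat_lit 23940) (nat_lit 6) (nat_lit 315) (nat_lit 1) (nat_lit 157) (nat_lit 143) (nat_lit 150)))) (PT.nd (nat_lit 156) (PT.nd (nat_lit 78) (PT.lf (nat_lit 23256) (nat_lit 6) (nat_lit 306) (nat_lit 1) (nat_lit 158) (nat_lit 143) (nat_lit 149)) (PT.lf (nat_lit 22496) (nat_lit 6) (nat_lit 296) (nat_lit 1) (nat_lit 159) (nat_lit 143) (nat_lit 148))) (PT.nd (nat_lit 78) (PT.lf (nat_lit 21660) (nat_lit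 6) (nat_lit 285) (nat_lit 1) (nat_lit 160) (nat_lit 143) (nat_lit 147)) (PT.lf (nat_lit 20748) (nat_lit 6) (nat_lit 273) (nat_lit 1) (nat_lit 161) (nat_lit 143) (nat_lit 146))))))) (PT.nd (nat_lit 46020) (PT.nd (nat_lit 45474) (PT.nd (nat_lit 234) (PT.nd (nat_lit 78) (PT.lf (nat_lit 19760) (nat_lit 6) (nat_lit 260) (nat_lit 1) (nat_lit 162) (nat_lit 143) (nat_lit 145)) (PT.nd (nat_lit 78) (PT.lf (nat_lit 18696) (nat_lit 6) (nat_lit 246) (nat_lit 1) (nat_lit 163) (nat_lit 143) (nat_lit 144)) (PT.lf (nat_lit 17556) (nat_lit 3) (nat_lit 231) (nat_lit 0) (nat_lit 164) (nat_lit 143) (nat_lit 143)))) (PT.nd (nat_lit 45084) (PT.nd (nat_lit 45006) (PT.lf (nat_lit 16416) (nat_lit 6) (nat_lit 216) (nat_lit 0) (nat_lit 165) (nat_lit 143) (nat_lit 142)) (PT.lf (nat_lit 16492) (nat_lit 6) (nat_lit 217) (nat_lit 5) (nat_lit 141) (nat_lit 144) (nat_lit 165))) (PT.nd (nat_lit 78) (PT.lf (nat_lit 17632) (nat_lit 6)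 (nat_lit 232) (nat_lit 5) (nat_lit 142) (nat_lit 144) (nat_lit 164)) (PT.lf (nat_lit 18696) (nat_lit 6) (nat_lit 246) (nat_lit 5) (nat_lit 143) (nat_lit 144) (nat_lit 163))))) (PT.nd (nat_lit 234) (PT.nd (nat_lit 78) (PT.lf (nat_lit 19684) (nat_lit 3) (nat_lit 259) (nat_lit 3) (nat_lit 144) (nat_lit 144) (nat_lit 162)) (PT.nd (nat_lit 78) (PT.lf (nat_lit 20672) (nat_lit 6) (nat_lit 272) (nat_lit 3) (nat_lit 145) (nat_lit 144) (nat_lit 161)) (PT.lf (nat_lit 21584) (nat_lit 6) (nat_lit 284) (nat_lit 3) (nat_lit 146) (nat_lit 144) (nat_lit 160)))) (PT.nd (nat_lit 156) (PT.nd (nat_lit 78) (PT.lf (nat_lit 22420) (nat_lit 6) (nat_lit 295) (nat_lit 3) (nat_lit 147) (nat_lit 144) (nat_lit 159)) (PT.lf (nat_lit 23180) (nat_lit 6) (nat_lit 305) (nat_lit 3) (nat_lit 148) (nat_lit 144) (nat_lit 158))) (PT.nd (nat_lit 78) (PT.lf (nat_lit 23864) (nat_lit 6) (nat_lit 314) (nat_lit 3) (nat_lit 149) (nat_lit 144)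 (nat_lit 157)) (PT.lf (nat_lit 24472) (nat_lit 6) (nat_lit 322) (nat_lit 3) (nat_lit 150) (nat_lit 144) (nat_lit 156)))))) (PT.nd (nat_lit 546) (PT.nd (nat_lit 234) (PT.nd (nat_lit 78) (PT.lf (nat_lit 24548) (nat_lit 6) (nat_lit 323) (nat_lit 3) (nat_lit 151) (nat_lit 144) (nat_lit 155)) (PT.nd (nat_lit 78) (PT.lf (nat_lit 24624) (nat_lit 6) (nat_lit 324) (nat_lit 3) (nat_lit 152) (nat_lit 144) (nat_lit 154)) (PT.lf (nat_lit 24700) (nat_lit 3) (nat_lit 325) (nat_lit 1) (nat_lit 153) (nat_lit 144) (nat_lit 153)))) (PT.nd (nat_lit 156) (PT.nd (nat_lit 78) (PT.lf (nat_lit 24624) (nat_lit 6) (nat_lit 324) (nat_lit 1) (nat_lit 154) (nat_lit 144) (nat_lit 152)) (PT.lf (nat_lit 24548) (nat_lit 6) (nat_lit 323) (nat_lit 1) (nat_lit 155) (nat_lit 144) (nat_lit 151))) (PT.nd (nat_lit 78) (PT.lf (nat_lit 24472) (nat_lit 6) (nat_lit 322) (nat_lit 1) (nat_lit 156) (nat_lit 144) (nat_lit 150)) (PT.lf (nat_lit 23864)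 (nat_lit 6) (nat_lit 314) (nat_lit 1) (nat_lit 157) (nat_lit 144) (nat_lit 149))))) (PT.nd (nat_lit 234) (PT.nd (nat_lit 78) (PT.lf (nat_lit 23180) (nat_lit 6) (nat_lit 305) (nat_lit 1) (nat_lit 158) (nat_lit 144) (nat_lit 148)) (PT.nd (nat_lit 78) (PT.lf (nat_lit 22420) (nat_lit 6) (nat_lit 295) (nat_lit 1) (nat_lit 159) (nat_lit 144) (nat_lit 147)) (PT.lf (nat_lit 21584) (nat_lit 6) (nat_lit 284) (nat_lit 1) (nat_lit 160) (nat_lit 144) (nat_lit 146)))) (PT.nd (nat_lit 156) (PT.nd (nat_lit 78) (PT.lf (nat_lit 20672) (nat_lit 6) (nat_lit 272) (nat_lit 1) (nat_lit 161) (nat_lit 144) (nat_lit 145)) (PT.lf (nat_lit 19684) (nat_lit 3) (nat_lit 259) (nat_lit 0) (nat_lit 162) (nat_lit 144) (nat_lit 144))) (PT.nd (nat_lit 78) (PT.lf (nat_lit 18696) (nat_lit 6) (nat_lit 246) (nat_lit 0) (nat_lit 163) (nat_lit 144) (nat_lit 143)) (PT.lf (nat_lit 17632) (nat_lit 6) (nat_lit 232) (nat_lit 0) (nat_lit 164) (nat_lit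 144) (nat_lit 142))))))))
noncomputable def pc10 : PT := (PT.nd (nat_lit 91728) (PT.nd (nat_lit 45864) (PT.nd (nat_lit 45318) (PT.nd (nat_lit 45084) (PT.nd (nat_lit 44928) (PT.lf (nat_lit 16492) (nat_lit 6) (nat_lit 217) (nat_lit 0) (nat_lit 165) (nat_lit 144) (nat_lit 141)) (PT.nd (nat_lit 78) (PT.lf (nat_lit 16568) (nat_lit 6) (nat_lit 218) (nat_lit 5) (nat_lit 140) (nat_lit 145) (nat_lit 165)) (PT.lf (nat_lit 17708) (nat_lit 6) (nat_lit 233) (nat_lit 5) (nat_lit 141) (nat_lit 145) (nat_lit 164)))) (PT.nd (nat_lit 78) (PT.lf (nat_lit 18772) (nat_lit 6) (nat_lit 247) (nat_lit 5) (nat_lit 142) (nat_lit 145) (nat_lit 163)) (PT.nd (nat_lit 78) (PT.lf (nat_lit 19760) (nat_lit 6) (nat_lit 260) (nat_lit 5) (nat_lit 143) (nat_lit 145) (nat_lit 162)) (PT.lf (nat_lit 20672) (nat_lit 6) (nat_lit 272) (nat_lit 5) (nat_lit 144) (nat_lit 145) (nat_lit 161))))) (PT.nd (nat_lit 234) (PT.nd (nat_lit 78) (PT.lf (nat_lit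 21508) (nat_lit 3) (nat_lit 283) (nat_lit 3) (nat_lit 145) (nat_lit 145) (nat_lit 160)) (PT.nd (nat_lit 78) (PT.lf (nat_lit 22344) (nat_lit 6) (nat_lit 294) (nat_lit 3) (nat_lit 146) (nat_lit 145) (nat_lit 159)) (PT.lf (nat_lit 23104) (nat_lit 6) (nat_lit 304) (nat_lit 3) (nat_lit 147) (nat_lit 145) (nat_lit 158)))) (PT.nd (nat_lit 156) (PT.nd (nat_lit 78) (PT.lf (nat_lit 23788) (nat_lit 6) (nat_lit 313) (nat_lit 3) (nat_lit 148) (nat_lit 145) (nat_lit 157)) (PT.lf (nat_lit 24396) (nat_lit 6) (nat_lit 321) (nat_lit 3) (nat_lit 149) (nat_lit 145) (nat_lit 156))) (PT.nd (nat_lit 78) (PT.lf (nat_lit 24928) (nat_lit 6) (nat_lit 328) (nat_lit 3) (nat_lit 150) (nat_lit 145) (nat_lit 155)) (PT.lf (nat_lit 25004) (nat_lit 6) (nat_lit 329) (nat_lit 3) (nat_lit 151) (nat_lit 145) (nat_lit 154)))))) (PT.nd (nat_lit 546) (PT.nd (nat_lit 234) (PT.nd (nat_lit 78) (PT.lf (nat_lit 25080) (nat_lit 6) (nat_lit 330)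 (nat_lit 3) (nat_lit 152) (nat_lit 145) (nat_lit 153)) (PT.nd (nat_lit 78) (PT.lf (nat_lit 25080) (nat_lit 6) (nat_lit 330) (nat_lit 1) (nat_lit 153) (nat_lit 145) (nat_lit 152)) (PT.lf (nat_lit 25004) (nat_lit 6) (nat_lit 329) (nat_lit 1) (nat_lit 154) (nat_lit 145) (nat_lit 151)))) (PT.nd (nat_lit 156) (PT.nd (nat_lit 78) (PT.lf (nat_lit 24928) (nat_lit 6) (nat_lit 328) (nat_lit 1) (nat_lit 155) (nat_lit 145) (nat_lit 150)) (PT.lf (nat_lit 24396) (nat_lit 6) (nat_lit 321) (nat_lit 1) (nat_lit 156) (nat_lit 145) (nat_lit 149))) (PT.nd (nat_lit 78) (PT.lf (nat_lit 23788) (nat_lit 6) (nat_lit 313) (nat_lit 1) (nat_lit 157) (nat_lit 145) (nat_lit 148)) (PT.lf (nat_lit 23104) (nat_lit 6) (nat_lit 304) (nat_lit 1) (nat_lit 158) (nat_lit 145) (nat_lit 147))))) (PT.nd (nat_lit 234) (PT.nd (nat_lit 78) (PT.lf (nat_lit 22344) (nat_lit 6) (nat_lit 294) (nat_lit 1) (nat_lit 159) (nat_lit 145) (nat_lit 146))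 (PT.nd (nat_lit 78) (PT.lf (nat_lit 21508) (nat_lit 3) (nat_lit 283) (nat_lit 0) (nat_lit 160) (nat_lit 145) (nat_lit 145)) (PT.lf (nat_lit 20672) (nat_lit 6) (nat_lit 272) (nat_lit 0) (nat_lit 161) (nat_lit 145) (nat_lit 144)))) (PT.nd (nat_lit 156) (PT.nd (nat_lit 78) (PT.lf (nat_lit 19760) (nat_lit 6) (nat_lit 260) (nat_lit 0) (nat_lit 162) (nat_lit 145) (nat_lit 143)) (PT.lf (nat_lit 18772) (nat_lit 6) (nat_lit 247) (nat_lit 0) (nat_lit 163) (nat_lit 145) (nat_lit 142))) (PT.nd (nat_lit 78) (PT.lf (nat_lit 17708) (nat_lit 6) (nat_lit 233) (nat_lit 0) (nat_lit 164) (nat_lit 145) (nat_lit 141)) (PT.lf (nat_lit 16568) (nat_lit 6) (nat_lit 218) (nat_lit 0) (nat_lit 165) (nat_lit 145) (nat_lit 140))))))) (PT.nd (nat_lit 1014) (PT.nd (nat_lit 468) (PT.nd (nat_lit 234) (PT.nd (nat_lit 78) (PT.lf (nat_lit 16644) (nat_lit 6) (nat_lit 219) (nat_lit 5) (nat_lit 139) (nat_lit 146) (nat_lit 165)) (PT.nd (nat_lit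 78) (PT.lf (nat_lit 17784) (nat_lit 6) (nat_lit 234) (nat_lit 5) (nat_lit 140) (nat_lit 146) (nat_lit 164)) (PT.lf (nat_lit 18848) (nat_lit 6) (nat_lit 248) (nat_lit 5) (nat_lit 141) (nat_lit 146) (nat_lit 163)))) (PT.nd (nat_lit 78) (PT.lf (nat_lit 19836) (nat_lit 6) (nat_lit 261) (nat_lit 5) (nat_lit 142) (nat_lit 146) (nat_lit 162)) (PT.nd (nat_lit 78) (PT.lf (nat_lit 20748) (nat_lit 6) (nat_lit 273) (nat_lit 5) (nat_lit 143) (nat_lit 146) (nat_lit 161)) (PT.lf (nat_lit 21584) (nat_lit 6) (nat_lit 284) (nat_lit 5) (nat_lit 144) (nat_lit 146) (nat_lit 160))))) (PT.nd (nat_lit 234) (PT.nd (nat_lit 78) (PT.lf (nat_lit 22344) (nat_lit 6) (nat_lit 294) (nat_lit 5) (nat_lit 145) (nat_lit 146) (nat_lit 159)) (PT.nd (nat_lit 78) (PT.lf (nat_lit 23028) (nat_lit 3) (nat_lit 303) (nat_lit 3) (nat_lit 146) (nat_lit 146) (nat_lit 158)) (PT.lf (nat_lit 23712) (nat_lit 6) (nat_lit 312) (nat_lit 3) (nat_lit 147)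 (nat_lit 146) (nat_lit 157)))) (PT.nd (nat_lit 156) (PT.nd (nat_lit 78) (PT.lf (nat_lit 24320) (nat_lit 6) (nat_lit 320) (nat_lit 3) (nat_lit 148) (nat_lit 146) (nat_lit 156)) (PT.lf (nat_lit 24852) (nat_lit 6) (nat_lit 327) (nat_lit 3) (nat_lit 149) (nat_lit 146) (nat_lit 155))) (PT.nd (nat_lit 78) (PT.lf (nat_lit 25308) (nat_lit 6) (nat_lit 333) (nat_lit 3) (nat_lit 150) (nat_lit 146) (nat_lit 154)) (PT.lf (nat_lit 25384) (nat_lit 6) (nat_lit 334) (nat_lit 3) (nat_lit 151) (nat_lit 146) (nat_lit 153)))))) (PT.nd (nat_lit 546) (PT.nd (nat_lit 234) (PT.nd (nat_lit 78) (PT.lf (nat_lit 25460) (nat_lit 3) (nat_lit 335) (nat_lit 1) (nat_lit 152) (nat_lit 146) (nat_lit 152)) (PT.nd (nat_lit 78) (PT.lf (nat_lit 25384) (nat_lit 6) (nat_lit 334) (nat_lit 1) (nat_lit 153) (nat_lit 146) (nat_lit 151)) (PT.lf (nat_lit 25308) (nat_lit 6) (nat_lit 333) (nat_lit 1) (nat_lit 154) (nat_lit 146) (nat_lit 150)))) (PT.nd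 (nat_lit 156) (PT.nd (nat_lit 78) (PT.lf (nat_lit 24852) (nat_lit 6) (nat_lit 327) (nat_lit 1) (nat_lit 155) (nat_lit 146) (nat_lit 149)) (PT.lf (nat_lit 24320) (nat_lit 6) (nat_lit 320) (nat_lit 1) (nat_lit 156) (nat_lit 146) (nat_lit 148))) (PT.nd (nat_lit 78) (PT.lf (nat_lit 23712) (nat_lit 6) (nat_lit 312) (nat_lit 1) (nat_lit 157) (nat_lit 146) (nat_lit 147)) (PT.lf (nat_lit 23028) (nat_lit 3) (nat_lit 303) (nat_lit 0) (nat_lit 158) (nat_lit 146) (nat_lit 146))))) (PT.nd (nat_lit 234) (PT.nd (nat_lit 78) (PT.lf (nat_lit 22344) (nat_lit 6) (nat_lit 294) (nat_lit 0) (nat_lit 159) (nat_lit 146) (nat_lit 145)) (PT.nd (nat_lit 78) (PT.lf (nat_lit 21584) (nat_lit 6) (nat_lit 284) (nat_lit 0) (nat_lit 160) (nat_lit 146) (nat_lit 144)) (PT.lf (nat_lit 20748) (nat_lit 6) (nat_lit 273) (nat_lit 0) (nat_lit 161) (nat_lit 146) (nat_lit 143)))) (PT.nd (nat_lit 156) (PT.nd (nat_lit 78) (PT.lf (nat_lit 19836)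 (nat_lit 6) (nat_lit 261) (nat_lit 0) (nat_lit 162) (nat_lit 146) (nat_lit 142)) (PT.lf (nat_lit 18848) (nat_lit 6) (nat_lit 248) (nat_lit 0) (nat_lit 163) (nat_lit 146) (nat_lit 141))) (PT.nd (nat_lit 78) (PT.lf (nat_lit 17784) (nat_lit 6) (nat_lit 234) (nat_lit 0) (nat_lit 164) (nat_lit 146) (nat_lit 140)) (PT.lf (nat_lit 16644) (nat_lit 6) (nat_lit 219) (nat_lit 0) (nat_lit 165) (nat_lit 146) (nat_lit 139))))))))
noncomputable def pc11 : PT := (PT.nd (nat_lit 2106) (PT.nd (nat_lit 1014) (PT.nd (nat_lit 468) (PT.nd (nat_lit 234) (PT.nd (nat_lit 78) (PT.lf (nat_lit 16720) (nat_lit 6) (nat_lit 220) (nat_lit 5) (nat_lit 138) (nat_lit 147) (nat_lit 165)) (PT.nd (nat_lit 78) (PT.lf (nat_lit 17860) (nat_lit 6) (nat_lit 235) (nat_lit 5) (nat_lit 139) (nat_lit 147) (nat_lit 164)) (PT.lf (nat_lit 18924) (nat_lit 6) (nat_lit 249) (nat_lit 5) (nat_lit 140) (nat_lit 147) (nat_lit 163)))) (PT.nd (nat_lit 78)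 (PT.lf (nat_lit 19912) (nat_lit 6) (nat_lit 262) (nat_lit 5) (nat_lit 141) (nat_lit 147) (nat_lit 162)) (PT.nd (nat_lit 78) (PT.lf (nat_lit 20824) (nat_lit 6) (nat_lit 274) (nat_lit 5) (nat_lit 142) (nat_lit 147) (nat_lit 161)) (PT.lf (nat_lit 21660) (nat_lit 6) (nat_lit 285) (nat_lit 5) (nat_lit 143) (nat_lit 147) (nat_lit 160))))) (PT.nd (nat_lit 234) (PT.nd (nat_lit 78) (PT.lf (nat_lit 22420) (nat_lit 6) (nat_lit 295) (nat_lit 5) (nat_lit 144) (nat_lit 147) (nat_lit 159)) (PT.nd (nat_lit 78) (PT.lf (nat_lit 23104) (nat_lit 6) (nat_lit 304) (nat_lit 5) (nat_lit 145) (nat_lit 147) (nat_lit 158)) (PT.lf (nat_lit 23712) (nat_lit 6) (nat_lit 312) (nat_lit 5) (nat_lit 146) (nat_lit 147) (nat_lit 157)))) (PT.nd (nat_lit 156) (PT.nd (nat_lit 78) (PT.lf (nat_lit 24244) (nat_lit 3) (nat_lit 319) (nat_lit 3) (nat_lit 147) (nat_lit 147) (nat_lit 156)) (PT.lf (nat_lit 24776) (nat_lit 6) (nat_lit 326) (nat_lit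 3) (nat_lit 148) (nat_lit 147) (nat_lit 155))) (PT.nd (nat_lit 78) (PT.lf (nat_lit 25232) (nat_lit 6) (nat_lit 332) (nat_lit 3) (nat_lit 149) (nat_lit 147) (nat_lit 154)) (PT.lf (nat_lit 25612) (nat_lit 6) (nat_lit 337) (nat_lit 3) (nat_lit 150) (nat_lit 147) (nat_lit 153)))))) (PT.nd (nat_lit 546) (PT.nd (nat_lit 234) (PT.nd (nat_lit 78) (PT.lf (nat_lit 25688) (nat_lit 6) (nat_lit 338) (nat_lit 3) (nat_lit 151) (nat_lit 147) (nat_lit 152)) (PT.nd (nat_lit 78) (PT.lf (nat_lit 25688) (nat_lit 6) (nat_lit 338) (nat_lit 1) (nat_lit 152) (nat_lit 147) (nat_lit 151)) (PT.lf (nat_lit 25612) (nat_lit 6) (nat_lit 337) (nat_lit 1) (nat_lit 153) (nat_lit 147) (nat_lit 150)))) (PT.nd (nat_lit 156) (PT.nd (nat_lit 78) (PT.lf (nat_lit 25232) (nat_lit 6) (nat_lit 332) (nat_lit 1) (nat_lit 154) (nat_lit 147) (nat_lit 149)) (PT.lf (nat_lit 24776) (nat_lit 6) (nat_lit 326) (nat_lit 1) (nat_lit 155) (nat_lit 147) (nat_lit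 148))) (PT.nd (nat_lit 78) (PT.lf (nat_lit 24244) (nat_lit 3) (nat_lit 319) (nat_lit 0) (nat_lit 156) (nat_lit 147) (nat_lit 147)) (PT.lf (nat_lit 23712) (nat_lit 6) (nat_lit 312) (nat_lit 0) (nat_lit 157) (nat_lit 147) (nat_lit 146))))) (PT.nd (nat_lit 234) (PT.nd (nat_lit 78) (PT.lf (nat_lit 23104) (nat_lit 6) (nat_lit 304) (nat_lit 0) (nat_lit 158) (nat_lit 147) (nat_lit 145)) (PT.nd (nat_lit 78) (PT.lf (nat_lit 22420) (nat_lit 6) (nat_lit 295) (nat_lit 0) (nat_lit 159) (nat_lit 147) (nat_lit 144)) (PT.lf (nat_lit 21660) (nat_lit 6) (nat_lit 285) (nat_lit 0) (nat_lit 160) (nat_lit 147) (nat_lit 143)))) (PT.nd (nat_lit 156) (PT.nd (nat_lit 78) (PT.lf (nat_lit 20824) (nat_lit 6) (nat_lit 274) (nat_lit 0) (nat_lit 161) (nat_lit 147) (nat_lit 142)) (PT.lf (nat_lit 19912) (nat_lit 6) (nat_lit 262) (nat_lit 0) (nat_lit 162) (nat_lit 147) (nat_lit 141))) (PT.nd (nat_lit 78) (PT.lf (nat_lit 18924) (nat_lit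 6) (nat_lit 249) (nat_lit 0) (nat_lit 163) (nat_lit 147) (nat_lit 140)) (PT.lf (nat_lit 17860) (nat_lit 6) (nat_lit 235) (nat_lit 0) (nat_lit 164) (nat_lit 147) (nat_lit 139))))))) (PT.nd (nat_lit 45630) (PT.nd (nat_lit 45084) (PT.nd (nat_lit 44772) (PT.nd (nat_lit 44616) (PT.lf (nat_lit 16720) (nat_lit 6) (nat_lit 220) (nat_lit 0) (nat_lit 165) (nat_lit 147) (nat_lit 138)) (PT.nd (nat_lit 78) (PT.lf (nat_lit 15580) (nat_lit 6) (nat_lit 205) (nat_lit 5) (nat_lit 136) (nat_lit 148) (nat_lit 166)) (PT.lf (nat_lit 16796) (nat_lit 6) (nat_lit 221) (nat_lit 5) (nat_lit 137) (nat_lit 148) (nat_lit 165)))) (PT.nd (nat_lit 156) (PT.nd (nat_lit 78) (PT.lf (nat_lit 17936) (nat_lit 6) (nat_lit 236) (nat_lit 5) (nat_lit 138) (nat_lit 148) (nat_lit 164)) (PT.lf (nat_lit 19000) (nat_lit 6) (nat_lit 250) (nat_lit 5) (nat_lit 139) (nat_lit 148) (nat_lit 163))) (PT.nd (nat_lit 78) (PT.lf (nat_lit 19988) (nat_lit 6)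 (nat_lit 263) (nat_lit 5) (nat_lit 140) (nat_lit 148) (nat_lit 162)) (PT.lf (nat_lit 20900) (nat_lit 6) (nat_lit 275) (nat_lit 5) (nat_lit 141) (nat_lit 148) (nat_lit 161))))) (PT.nd (nat_lit 234) (PT.nd (nat_lit 78) (PT.lf (nat_lit 21736) (nat_lit 6) (nat_lit 286) (nat_lit 5) (nat_lit 142) (nat_lit 148) (nat_lit 160)) (PT.nd (nat_lit 78) (PT.lf (nat_lit 22496) (nat_lit 6) (nat_lit 296) (nat_lit 5) (nat_lit 143) (nat_lit 148) (nat_lit 159)) (PT.lf (nat_lit 23180) (nat_lit 6) (nat_lit 305) (nat_lit 5) (nat_lit 144) (nat_lit 148) (nat_lit 158)))) (PT.nd (nat_lit 156) (PT.nd (nat_lit 78) (PT.lf (nat_lit 23788) (nat_lit 6) (nat_lit 313) (nat_lit 5) (nat_lit 145) (nat_lit 148) (nat_lit 157)) (PT.lf (nat_lit 24320) (nat_lit 6) (nat_lit 320) (nat_lit 5) (nat_lit 146) (nat_lit 148) (nat_lit 156))) (PT.nd (nat_lit 78) (PT.lf (nat_lit 24776) (nat_lit 6) (nat_lit 326) (nat_lit 5) (nat_lit 147) (nat_lit 148)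 (nat_lit 155)) (PT.lf (nat_lit 25156) (nat_lit 3) (nat_lit 331) (nat_lit 3) (nat_lit 148) (nat_lit 148) (nat_lit 154)))))) (PT.nd (nat_lit 546) (PT.nd (nat_lit 234) (PT.nd (nat_lit 78) (PT.lf (nat_lit 25536) (nat_lit 6) (nat_lit 336) (nat_lit 3) (nat_lit 149) (nat_lit 148) (nat_lit 153)) (PT.nd (nat_lit 78) (PT.lf (nat_lit 25840) (nat_lit 6) (nat_lit 340) (nat_lit 3) (nat_lit 150) (nat_lit 148) (nat_lit 152)) (PT.lf (nat_lit 25916) (nat_lit 3) (nat_lit 341) (nat_lit 1) (nat_lit 151) (nat_lit 148) (nat_lit 151)))) (PT.nd (nat_lit 156) (PT.nd (nat_lit 78) (PT.lf (nat_lit 25840) (nat_lit 6) (nat_lit 340) (nat_lit 1) (nat_lit 152) (nat_lit 148) (nat_lit 150)) (PT.lf (nat_lit 25536) (nat_lit 6) (nat_lit 336) (nat_lit 1) (nat_lit 153) (nat_lit 148) (nat_lit 149))) (PT.nd (nat_lit 78) (PT.lf (nat_lit 25156) (nat_lit 3) (nat_lit 331) (nat_lit 0) (nat_lit 154) (nat_lit 148) (nat_lit 148)) (PT.lf (nat_lit 24776)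 (nat_lit 6) (nat_lit 326) (nat_lit 0) (nat_lit 155) (nat_lit 148) (nat_lit 147))))) (PT.nd (nat_lit 234) (PT.nd (nat_lit 78) (PT.lf (nat_lit 24320) (nat_lit 6) (nat_lit 320) (nat_lit 0) (nat_lit 156) (nat_lit 148) (nat_lit 146)) (PT.nd (nat_lit 78) (PT.lf (nat_lit 23788) (nat_lit 6) (nat_lit 313) (nat_lit 0) (nat_lit 157) (nat_lit 148) (nat_lit 145)) (PT.lf (nat_lit 23180) (nat_lit 6) (nat_lit 305) (nat_lit 0) (nat_lit 158) (nat_lit 148) (nat_lit 144)))) (PT.nd (nat_lit 156) (PT.nd (nat_lit 78) (PT.lf (nat_lit 22496) (nat_lit 6) (nat_lit 296) (nat_lit 0) (nat_lit 159) (nat_lit 148) (nat_lit 143)) (PT.lf (nat_lit 21736) (nat_lit 6) (nat_lit 286) (nat_lit 0) (nat_lit 160) (nat_lit 148) (nat_lit 142))) (PT.nd (nat_lit 78) (PT.lf (nat_lit 20900) (nat_lit 6) (nat_lit 275) (nat_lit 0) (nat_lit 161) (nat_lit 148) (nat_lit 141)) (PT.lf (nat_lit 19988) (nat_lit 6) (nat_lit 263) (nat_lit 0) (nat_lit 162) (nat_lit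 148) (nat_lit 140))))))))
noncomputable def pc12 : PT := (PT.nd (nat_lit 46488) (PT.nd (nat_lit 45396) (PT.nd (nat_lit 44850) (PT.nd (nat_lit 234) (PT.nd (nat_lit 78) (PT.lf (nat_lit 19000) (nat_lit 6) (nat_lit 250) (nat_lit 0) (nat_lit 163) (nat_lit 148) (nat_lit 139)) (PT.nd (nat_lit 78) (PT.lf (nat_lit 17936) (nat_lit 6) (nat_lit 236) (nat_lit 0) (nat_lit 164) (nat_lit 148) (nat_lit 138)) (PT.lf (nat_lit 16796) (nat_lit 6) (nat_lit 221) (nat_lit 0) (nat_lit 165) (nat_lit 148) (nat_lit 137)))) (PT.nd (nat_lit 44460) (PT.lf (nat_lit 15580) (nat_lit 6) (nat_lit 205) (nat_lit 0) (nat_lit 166) (nat_lit 148) (nat_lit 136)) (PT.nd (nat_lit 78) (PT.lf (nat_lit 15656) (nat_lit 6) (nat_lit 206) (nat_lit 5) (nat_lit 135) (nat_lit 149) (nat_lit 166)) (PT.lf (nat_lit 16872) (nat_lit 6) (nat_lit 222) (nat_lit 5) (nat_lit 136) (nat_lit 149) (nat_lit 165))))) (PT.nd (nat_lit 234) (PT.nd (nat_lit 78) (PT.lf (nat_lit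 18012) (nat_lit 6) (nat_lit 237) (nat_lit 5) (nat_lit 137) (nat_lit 149) (nat_lit 164)) (PT.nd (nat_lit 78) (PT.lf (nat_lit 19076) (nat_lit 6) (nat_lit 251) (nat_lit 5) (nat_lit 138) (nat_lit 149) (nat_lit 163)) (PT.lf (nat_lit 20064) (nat_lit 6) (nat_lit 264) (nat_lit 5) (nat_lit 139) (nat_lit 149) (nat_lit 162)))) (PT.nd (nat_lit 156) (PT.nd (nat_lit 78) (PT.lf (nat_lit 20976) (nat_lit 6) (nat_lit 276) (nat_lit 5) (nat_lit 140) (nat_lit 149) (nat_lit 161)) (PT.lf (nat_lit 21812) (nat_lit 6) (nat_lit 287) (nat_lit 5) (nat_lit 141) (nat_lit 149) (nat_lit 160))) (PT.nd (nat_lit 78) (PT.lf (nat_lit 22572) (nat_lit 6) (nat_lit 297) (nat_lit 5) (nat_lit 142) (nat_lit 149) (nat_lit 159)) (PT.lf (nat_lit 23256) (nat_lit 6) (nat_lit 306) (nat_lit 5) (nat_lit 143) (nat_lit 149) (nat_lit 158)))))) (PT.nd (nat_lit 546) (PT.nd (nat_lit 234) (PT.nd (nat_lit 78) (PT.lf (nat_lit 23864) (nat_lit 6) (nat_lit 314)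 (nat_lit 5) (nat_lit 144) (nat_lit 149) (nat_lit 157)) (PT.nd (nat_lit 78) (PT.lf (nat_lit 24396) (nat_lit 6) (nat_lit 321) (nat_lit 5) (nat_lit 145) (nat_lit 149) (nat_lit 156)) (PT.lf (nat_lit 24852) (nat_lit 6) (nat_lit 327) (nat_lit 5) (nat_lit 146) (nat_lit 149) (nat_lit 155)))) (PT.nd (nat_lit 156) (PT.nd (nat_lit 78) (PT.lf (nat_lit 25232) (nat_lit 6) (nat_lit 332) (nat_lit 5) (nat_lit 147) (nat_lit 149) (nat_lit 154)) (PT.lf (nat_lit 25536) (nat_lit 6) (nat_lit 336) (nat_lit 5) (nat_lit 148) (nat_lit 149) (nat_lit 153))) (PT.nd (nat_lit 78) (PT.lf (nat_lit 25764) (nat_lit 3) (nat_lit 339) (nat_lit 3) (nat_lit 149) (nat_lit 149) (nat_lit 152)) (PT.lf (nat_lit 25992) (nat_lit 6) (nat_lit 342) (nat_lit 3) (nat_lit 150) (nat_lit 149) (nat_lit 151))))) (PT.nd (nat_lit 234) (PT.nd (nat_lit 78) (PT.lf (nat_lit 25992) (nat_lit 6) (nat_lit 342) (nat_lit 1) (nat_lit 151) (nat_lit 149) (nat_lit 150))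 (PT.nd (nat_lit 78) (PT.lf (nat_lit 25764) (nat_lit 3) (nat_lit 339) (nat_lit 0) (nat_lit 152) (nat_lit 149) (nat_lit 149)) (PT.lf (nat_lit 25536) (nat_lit 6) (nat_lit 336) (nat_lit 0) (nat_lit 153) (nat_lit 149) (nat_lit 148)))) (PT.nd (nat_lit 156) (PT.nd (nat_lit 78) (PT.lf (nat_lit 25232) (nat_lit 6) (nat_lit 332) (nat_lit 0) (nat_lit 154) (nat_lit 149) (nat_lit 147)) (PT.lf (nat_lit 24852) (nat_lit 6) (nat_lit 327) (nat_lit 0) (nat_lit 155) (nat_lit 149) (nat_lit 146))) (PT.nd (nat_lit 78) (PT.lf (nat_lit 24396) (nat_lit 6) (nat_lit 321) (nat_lit 0) (nat_lit 156) (nat_lit 149) (nat_lit 145)) (PT.lf (nat_lit 23864) (nat_lit 6) (nat_lit 314) (nat_lit 0) (nat_lit 157) (nat_lit 149) (nat_lit 144))))))) (PT.nd (nat_lit 45318) (PT.nd (nat_lit 468) (PT.nd (nat_lit 234) (PT.nd (nat_lit 78) (PT.lf (nat_lit 23256) (nat_lit 6) (nat_lit 306) (nat_lit 0) (nat_lit 158) (nat_lit 149) (nat_lit 143)) (PT.nd (nat_lit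 78) (PT.lf (nat_lit 22572) (nat_lit 6) (nat_lit 297) (nat_lit 0) (nat_lit 159) (nat_lit 149) (nat_lit 142)) (PT.lf (nat_lit 21812) (nat_lit 6) (nat_lit 287) (nat_lit 0) (nat_lit 160) (nat_lit 149) (nat_lit 141)))) (PT.nd (nat_lit 78) (PT.lf (nat_lit 20976) (nat_lit 6) (nat_lit 276) (nat_lit 0) (nat_lit 161) (nat_lit 149) (nat_lit 140)) (PT.nd (nat_lit 78) (PT.lf (nat_lit 20064) (nat_lit 6) (nat_lit 264) (nat_lit 0) (nat_lit 162) (nat_lit 149) (nat_lit 139)) (PT.lf (nat_lit 19076) (nat_lit 6) (nat_lit 251) (nat_lit 0) (nat_lit 163) (nat_lit 149) (nat_lit 138))))) (PT.nd (nat_lit 44538) (PT.nd (nat_lit 78) (PT.lf (nat_lit 18012) (nat_lit 6) (nat_lit 237) (nat_lit 0) (nat_lit 164) (nat_lit 149) (nat_lit 137)) (PT.nd (nat_lit 78) (PT.lf (nat_lit 16872) (nat_lit 6) (nat_lit 222) (nat_lit 0) (nat_lit 165) (nat_lit 149) (nat_lit 136)) (PT.lf (nat_lit 15656) (nat_lit 6) (nat_lit 206) (nat_lit 0) (nat_lit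 166) (nat_lit 149) (nat_lit 135)))) (PT.nd (nat_lit 156) (PT.nd (nat_lit 78) (PT.lf (nat_lit 15732) (nat_lit 6) (nat_lit 207) (nat_lit 5) (nat_lit 134) (nat_lit 150) (nat_lit 166)) (PT.lf (nat_lit 16948) (nat_lit 6) (nat_lit 223) (nat_lit 5) (nat_lit 135) (nat_lit 150) (nat_lit 165))) (PT.nd (nat_lit 78) (PT.lf (nat_lit 18088) (nat_lit 6) (nat_lit 238) (nat_lit 5) (nat_lit 136) (nat_lit 150) (nat_lit 164)) (PT.lf (nat_lit 19152) (nat_lit 6) (nat_lit 252) (nat_lit 5) (nat_lit 137) (nat_lit 150) (nat_lit 163)))))) (PT.nd (nat_lit 546) (PT.nd (nat_lit 234) (PT.nd (nat_lit 78) (PT.lf (nat_lit 20140) (nat_lit 6) (nat_lit 265) (nat_lit 5) (nat_lit 138) (nat_lit 150) (nat_lit 162)) (PT.nd (nat_lit 78) (PT.lf (nat_lit 21052) (nat_lit 6) (nat_lit 277) (nat_lit 5) (nat_lit 139) (nat_lit 150) (nat_lit 161)) (PT.lf (nat_lit 21888) (nat_lit 6) (nat_lit 288) (nat_lit 5) (nat_lit 140) (nat_lit 150) (nat_lit 160))))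 (PT.nd (nat_lit 156) (PT.nd (nat_lit 78) (PT.lf (nat_lit 22648) (nat_lit 6) (nat_lit 298) (nat_lit 5) (nat_lit 141) (nat_lit 150) (nat_lit 159)) (PT.lf (nat_lit 23332) (nat_lit 6) (nat_lit 307) (nat_lit 5) (nat_lit 142) (nat_lit 150) (nat_lit 158))) (PT.nd (nat_lit 78) (PT.lf (nat_lit 23940) (nat_lit 6) (nat_lit 315) (nat_lit 5) (nat_lit 143) (nat_lit 150) (nat_lit 157)) (PT.lf (nat_lit 24472) (nat_lit 6) (nat_lit 322) (nat_lit 5) (nat_lit 144) (nat_lit 150) (nat_lit 156))))) (PT.nd (nat_lit 234) (PT.nd (nat_lit 78) (PT.lf (nat_lit 24928) (nat_lit 6) (nat_lit 328) (nat_lit 5) (nat_lit 145) (nat_lit 150) (nat_lit 155)) (PT.nd (nat_lit 78) (PT.lf (nat_lit 25308) (nat_lit 6) (nat_lit 333) (nat_lit 5) (nat_lit 146) (nat_lit 150) (nat_lit 154)) (PT.lf (nat_lit 25612) (nat_lit 6) (nat_lit 337) (nat_lit 5) (nat_lit 147) (nat_lit 150) (nat_lit 153)))) (PT.nd (nat_lit 156) (PT.nd (nat_lit 78) (PT.lf (nat_lit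 25840) (nat_lit 6) (nat_lit 340) (nat_lit 5) (nat_lit 148) (nat_lit 150) (nat_lit 152)) (PT.lf (nat_lit 25992) (nat_lit 6) (nat_lit 342) (nat_lit 5) (nat_lit 149) (nat_lit 150) (nat_lit 151))) (PT.nd (nat_lit 78) (PT.lf (nat_lit 26068) (nat_lit 1) (nat_lit 343) (nat_lit 0) (nat_lit 150) (nat_lit 150) (nat_lit 150)) (PT.lf (nat_lit 25992) (nat_lit 6) (nat_lit 342) (nat_lit 0) (nat_lit 151) (nat_lit 150) (nat_lit 149))))))))
noncomputable def pc13 : PT := (PT.nd (nat_lit 46332) (PT.nd (nat_lit 1014) (PT.nd (nat_lit 468) (PT.nd (nat_lit 234) (PT.nd (nat_lit 78) (PT.lf (nat_lit 25840) (nat_lit 6) (nat_lit 340) (nat_lit 0) (nat_lit 152) (nat_lit 150) (nat_lit 148)) (PT.nd (nat_lit 78) (PT.lf (nat_lit 25612) (nat_lit 6) (nat_lit 337) (nat_lit 0) (nat_lit 153) (nat_lit 150) (nat_lit 147)) (PT.lf (nat_lit 25308) (nat_lit 6) (nat_lit 333) (nat_lit 0) (nat_lit 154) (nat_lit 150) (nat_lit 146)))) (PT.nd (nat_lit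 78) (PT.lf (nat_lit 24928) (nat_lit 6) (nat_lit 328) (nat_lit 0) (nat_lit 155) (nat_lit 150) (nat_lit 145)) (PT.nd (nat_lit 78) (PT.lf (nat_lit 24472) (nat_lit 6) (nat_lit 322) (nat_lit 0) (nat_lit 156) (nat_lit 150) (nat_lit 144)) (PT.lf (nat_lit 23940) (nat_lit 6) (nat_lit 315) (nat_lit 0) (nat_lit 157) (nat_lit 150) (nat_lit 143))))) (PT.nd (nat_lit 234) (PT.nd (nat_lit 78) (PT.lf (nat_lit 23332) (nat_lit 6) (nat_lit 307) (nat_lit 0) (nat_lit 158) (nat_lit 150) (nat_lit 142)) (PT.nd (nat_lit 78) (PT.lf (nat_lit 22648) (nat_lit 6) (nat_lit 298) (nat_lit 0) (nat_lit 159) (nat_lit 150) (nat_lit 141)) (PT.lf (nat_lit 21888) (nat_lit 6) (nat_lit 288) (nat_lit 0) (nat_lit 160) (nat_lit 150) (nat_lit 140)))) (PT.nd (nat_lit 156) (PT.nd (nat_lit 78) (PT.lf (nat_lit 21052) (nat_lit 6) (nat_lit 277) (nat_lit 0) (nat_lit 161) (nat_lit 150) (nat_lit 139)) (PT.lf (nat_lit 20140) (nat_lit 6) (nat_lit 265) (nat_lit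 0) (nat_lit 162) (nat_lit 150) (nat_lit 138))) (PT.nd (nat_lit 78) (PT.lf (nat_lit 19152) (nat_lit 6) (nat_lit 252) (nat_lit 0) (nat_lit 163) (nat_lit 150) (nat_lit 137)) (PT.lf (nat_lit 18088) (nat_lit 6) (nat_lit 238) (nat_lit 0) (nat_lit 164) (nat_lit 150) (nat_lit 136)))))) (PT.nd (nat_lit 44772) (PT.nd (nat_lit 44460) (PT.nd (nat_lit 78) (PT.lf (nat_lit 16948) (nat_lit 6) (nat_lit 223) (nat_lit 0) (nat_lit 165) (nat_lit 150) (nat_lit 135)) (PT.nd (nat_lit 44304) (PT.lf (nat_lit 15732) (nat_lit 6) (nat_lit 207) (nat_lit 0) (nat_lit 166) (nat_lit 150) (nat_lit 134)) (PT.lf (nat_lit 14896) (nat_lit 6) (nat_lit 196) (nat_lit 5) (nat_lit 133) (nat_lit 151) (nat_lit 166)))) (PT.nd (nat_lit 156) (PT.nd (nat_lit 78) (PT.lf (nat_lit 15808) (nat_lit 6) (nat_lit 208) (nat_lit 5) (nat_lit 134) (nat_lit 151) (nat_lit 165)) (PT.lf (nat_lit 17024) (nat_lit 6) (nat_lit 224) (nat_lit 5) (nat_lit 135) (nat_lit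 151) (nat_lit 164))) (PT.nd (nat_lit 78) (PT.lf (nat_lit 18164) (nat_lit 6) (nat_lit 239) (nat_lit 5) (nat_lit 136) (nat_lit 151) (nat_lit 163)) (PT.lf (nat_lit 19228) (nat_lit 6) (nat_lit 253) (nat_lit 5) (nat_lit 137) (nat_lit 151) (nat_lit 162))))) (PT.nd (nat_lit 234) (PT.nd (nat_lit 78) (PT.lf (nat_lit 20216) (nat_lit 6) (nat_lit 266) (nat_lit 5) (nat_lit 138) (nat_lit 151) (nat_lit 161)) (PT.nd (nat_lit 78) (PT.lf (nat_lit 21128) (nat_lit 6) (nat_lit 278) (nat_lit 5) (nat_lit 139) (nat_lit 151) (nat_lit 160)) (PT.lf (nat_lit 21964) (nat_lit 6) (nat_lit 289) (nat_lit 5) (nat_lit 140) (nat_lit 151) (nat_lit 159)))) (PT.nd (nat_lit 156) (PT.nd (nat_lit 78) (PT.lf (nat_lit 22724) (nat_lit 6) (nat_lit 299) (nat_lit 5) (nat_lit 141) (nat_lit 151) (nat_lit 158)) (PT.lf (nat_lit 23408) (nat_lit 6) (nat_lit 308) (nat_lit 5) (nat_lit 142) (nat_lit 151) (nat_lit 157))) (PT.nd (nat_lit 78) (PT.lf (nat_lit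 24016) (nat_lit 6) (nat_lit 316) (nat_lit 5) (nat_lit 143) (nat_lit 151) (nat_lit 156)) (PT.lf (nat_lit 24548) (nat_lit 6) (nat_lit 323) (nat_lit 5) (nat_lit 144) (nat_lit 151) (nat_lit 155))))))) (PT.nd (nat_lit 1092) (PT.nd (nat_lit 546) (PT.nd (nat_lit 234) (PT.nd (nat_lit 78) (PT.lf (nat_lit 25004) (nat_lit 6) (nat_lit 329) (nat_lit 5) (nat_lit 145) (nat_lit 151) (nat_lit 154)) (PT.nd (nat_lit 78) (PT.lf (nat_lit 25384) (nat_lit 6) (nat_lit 334) (nat_lit 5) (nat_lit 146) (nat_lit 151) (nat_lit 153)) (PT.lf (nat_lit 25688) (nat_lit 6) (nat_lit 338) (nat_lit 5) (nat_lit 147) (nat_lit 151) (nat_lit 152)))) (PT.nd (nat_lit 156) (PT.nd (nat_lit 78) (PT.lf (nat_lit 25916) (nat_lit 3) (nat_lit 341) (nat_lit 4) (nat_lit 148) (nat_lit 151) (nat_lit 151)) (PT.lf (nat_lit 25992) (nat_lit 6) (nat_lit 342) (nat_lit 4) (nat_lit 149) (nat_lit 151) (nat_lit 150))) (PT.nd (nat_lit 78) (PT.lf (nat_lit 25992) (nat_lit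 6) (nat_lit 342) (nat_lit 2) (nat_lit 150) (nat_lit 151) (nat_lit 149)) (PT.lf (nat_lit 25916) (nat_lit 3) (nat_lit 341) (nat_lit 0) (nat_lit 151) (nat_lit 151) (nat_lit 148))))) (PT.nd (nat_lit 234) (PT.nd (nat_lit 78) (PT.lf (nat_lit 25688) (nat_lit 6) (nat_lit 338) (nat_lit 0) (nat_lit 152) (nat_lit 151) (nat_lit 147)) (PT.nd (nat_lit 78) (PT.lf (nat_lit 25384) (nat_lit 6) (nat_lit 334) (nat_lit 0) (nat_lit 153) (nat_lit 151) (nat_lit 146)) (PT.lf (nat_lit 25004) (nat_lit 6) (nat_lit 329) (nat_lit 0) (nat_lit 154) (nat_lit 151) (nat_lit 145)))) (PT.nd (nat_lit 156) (PT.nd (nat_lit 78) (PT.lf (nat_lit 24548) (nat_lit 6) (nat_lit 323) (nat_lit 0) (nat_lit 155) (nat_lit 151) (nat_lit 144)) (PT.lf (nat_lit 24016) (nat_lit 6) (nat_lit 316) (nat_lit 0) (nat_lit 156) (nat_lit 151) (nat_lit 143))) (PT.nd (nat_lit 78) (PT.lf (nat_lit 23408) (nat_lit 6) (nat_lit 308) (nat_lit 0) (nat_lit 157) (nat_lit 151)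 (nat_lit 142)) (PT.lf (nat_lit 22724) (nat_lit 6) (nat_lit 299) (nat_lit 0) (nat_lit 158) (nat_lit 151) (nat_lit 141)))))) (PT.nd (nat_lit 546) (PT.nd (nat_lit 234) (PT.nd (nat_lit 78) (PT.lf (nat_lit 21964) (nat_lit 6) (nat_lit 289) (nat_lit 0) (nat_lit 159) (nat_lit 151) (nat_lit 140)) (PT.nd (nat_lit 78) (PT.lf (nat_lit 21128) (nat_lit 6) (nat_lit 278) (nat_lit 0) (nat_lit 160) (nat_lit 151) (nat_lit 139)) (PT.lf (nat_lit 20216) (nat_lit 6) (nat_lit 266) (nat_lit 0) (nat_lit 161) (nat_lit 151) (nat_lit 138)))) (PT.nd (nat_lit 156) (PT.nd (nat_lit 78) (PT.lf (nat_lit 19228) (nat_lit 6) (nat_lit 253) (nat_lit 0) (nat_lit 162) (nat_lit 151) (nat_lit 137)) (PT.lf (nat_lit 18164) (nat_lit 6) (nat_lit 239) (nat_lit 0) (nat_lit 163) (nat_lit 151) (nat_lit 136))) (PT.nd (nat_lit 78) (PT.lf (nat_lit 17024) (nat_lit 6) (nat_lit 224) (nat_lit 0) (nat_lit 164) (nat_lit 151) (nat_lit 135)) (PT.lf (nat_lit 15808)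 (nat_lit 6) (nat_lit 208) (nat_lit 0) (nat_lit 165) (nat_lit 151) (nat_lit 134))))) (PT.nd (nat_lit 44382) (PT.nd (nat_lit 44226) (PT.lf (nat_lit 14896) (nat_lit 6) (nat_lit 196) (nat_lit 0) (nat_lit 166) (nat_lit 151) (nat_lit 133)) (PT.nd (nat_lit 78) (PT.lf (nat_lit 14288) (nat_lit 6) (nat_lit 188) (nat_lit 5) (nat_lit 132) (nat_lit 152) (nat_lit 166)) (PT.lf (nat_lit 14972) (nat_lit 6) (nat_lit 197) (nat_lit 5) (nat_lit 133) (nat_lit 152) (nat_lit 165)))) (PT.nd (nat_lit 156) (PT.nd (nat_lit 78) (PT.lf (nat_lit 15884) (nat_lit 6) (nat_lit 209) (nat_lit 5) (nat_lit 134) (nat_lit 152) (nat_lit 164)) (PT.lf (nat_lit 17100) (nat_lit 6) (nat_lit 225) (nat_lit 5) (nat_lit 135) (nat_lit 152) (nat_lit 163))) (PT.nd (nat_lit 78) (PT.lf (nat_lit 18240) (nat_lit 6) (nat_lit 240) (nat_lit 5) (nat_lit 136) (nat_lit 152) (nat_lit 162)) (PT.lf (nat_lit 19304) (nat_lit 6) (nat_lit 254) (nat_lit 5) (nat_lit 137)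 (nat_lit 152) (nat_lit 161))))))))
noncomputable def pc14 : PT := (PT.nd (nat_lit 2106) (PT.nd (nat_lit 1014) (PT.nd (nat_lit 468) (PT.nd (nat_lit 234) (PT.nd (nat_lit 78) (PT.lf (nat_lit 20292) (nat_lit 6) (nat_lit 267) (nat_lit 5) (nat_lit 138) (nat_lit 152) (nat_lit 160)) (PT.nd (nat_lit 78) (PT.lf (nat_lit 21204) (nat_lit 6) (nat_lit 279) (nat_lit 5) (nat_lit 139) (nat_lit 152) (nat_lit 159)) (PT.lf (nat_lit 22040) (nat_lit 6) (nat_lit 290) (nat_lit 5) (nat_lit 140) (nat_lit 152) (nat_lit 158)))) (PT.nd (nat_lit 78) (PT.lf (nat_lit 22800) (nat_lit 6) (nat_lit 300) (nat_lit 5) (nat_lit 141) (nat_lit 152) (nat_lit 157)) (PT.nd (nat_lit 78) (PT.lf (nat_lit 23484) (nat_lit 6) (nat_lit 309) (nat_lit 5) (nat_lit 142) (nat_lit 152) (nat_lit 156)) (PT.lf (nat_lit 24092) (nat_lit 6) (nat_lit 317) (nat_lit 5) (nat_lit 143) (nat_lit 152) (nat_lit 155))))) (PT.nd (nat_lit 234) (PT.nd (nat_lit 78) (PT.lf (nat_lit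 24624) (nat_lit 6) (nat_lit 324) (nat_lit 5) (nat_lit 144) (nat_lit 152) (nat_lit 154)) (PT.nd (nat_lit 78) (PT.lf (nat_lit 25080) (nat_lit 6) (nat_lit 330) (nat_lit 5) (nat_lit 145) (nat_lit 152) (nat_lit 153)) (PT.lf (nat_lit 25460) (nat_lit 3) (nat_lit 335) (nat_lit 4) (nat_lit 146) (nat_lit 152) (nat_lit 152)))) (PT.nd (nat_lit 156) (PT.nd (nat_lit 78) (PT.lf (nat_lit 25688) (nat_lit 6) (nat_lit 338) (nat_lit 4) (nat_lit 147) (nat_lit 152) (nat_lit 151)) (PT.lf (nat_lit 25840) (nat_lit 6) (nat_lit 340) (nat_lit 4) (nat_lit 148) (nat_lit 152) (nat_lit 150))) (PT.nd (nat_lit 78) (PT.lf (nat_lit 25764) (nat_lit 3) (nat_lit 339) (nat_lit 2) (nat_lit 149) (nat_lit 152) (nat_lit 149)) (PT.lf (nat_lit 25840) (nat_lit 6) (nat_lit 340) (nat_lit 2) (nat_lit 150) (nat_lit 152) (nat_lit 148)))))) (PT.nd (nat_lit 546) (PT.nd (nat_lit 234) (PT.nd (nat_lit 78) (PT.lf (nat_lit 25688) (nat_lit 6) (nat_lit 338)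 (nat_lit 2) (nat_lit 151) (nat_lit 152) (nat_lit 147)) (PT.nd (nat_lit 78) (PT.lf (nat_lit 25460) (nat_lit 3) (nat_lit 335) (nat_lit 0) (nat_lit 152) (nat_lit 152) (nat_lit 146)) (PT.lf (nat_lit 25080) (nat_lit 6) (nat_lit 330) (nat_lit 0) (nat_lit 153) (nat_lit 152) (nat_lit 145)))) (PT.nd (nat_lit 156) (PT.nd (nat_lit 78) (PT.lf (nat_lit 24624) (nat_lit 6) (nat_lit 324) (nat_lit 0) (nat_lit 154) (nat_lit 152) (nat_lit 144)) (PT.lf (nat_lit 24092) (nat_lit 6) (nat_lit 317) (nat_lit 0) (nat_lit 155) (nat_lit 152) (nat_lit 143))) (PT.nd (nat_lit 78) (PT.lf (nat_lit 23484) (nat_lit 6) (nat_lit 309) (nat_lit 0) (nat_lit 156) (nat_lit 152) (nat_lit 142)) (PT.lf (nat_lit 22800) (nat_lit 6) (nat_lit 300) (nat_lit 0) (nat_lit 157) (nat_lit 152) (nat_lit 141))))) (PT.nd (nat_lit 234) (PT.nd (nat_lit 78) (PT.lf (nat_lit 22040) (nat_lit 6) (nat_lit 290) (nat_lit 0) (nat_lit 158) (nat_lit 152) (nat_lit 140))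 (PT.nd (nat_lit 78) (PT.lf (nat_lit 21204) (nat_lit 6) (nat_lit 279) (nat_lit 0) (nat_lit 159) (nat_lit 152) (nat_lit 139)) (PT.lf (nat_lit 20292) (nat_lit 6) (nat_lit 267) (nat_lit 0) (nat_lit 160) (nat_lit 152) (nat_lit 138)))) (PT.nd (nat_lit 156) (PT.nd (nat_lit 78) (PT.lf (nat_lit 19304) (nat_lit 6) (nat_lit 254) (nat_lit 0) (nat_lit 161) (nat_lit 152) (nat_lit 137)) (PT.lf (nat_lit 18240) (nat_lit 6) (nat_lit 240) (nat_lit 0) (nat_lit 162) (nat_lit 152) (nat_lit 136))) (PT.nd (nat_lit 78) (PT.lf (nat_lit 17100) (nat_lit 6) (nat_lit 225) (nat_lit 0) (nat_lit 163) (nat_lit 152) (nat_lit 135)) (PT.lf (nat_lit 15884) (nat_lit 6) (nat_lit 209) (nat_lit 0) (nat_lit 164) (nat_lit 152) (nat_lit 134))))))) (PT.nd (nat_lit 45006) (PT.nd (nat_lit 44460) (PT.nd (nat_lit 44226) (PT.nd (nat_lit 78) (PT.lf (nat_lit 14972) (nat_lit 6) (nat_lit 197) (nat_lit 0) (nat_lit 165) (nat_lit 152) (nat_lit 133)) (PT.nd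 (nat_lit 44070) (PT.lf (nat_lit 14288) (nat_lit 6) (nat_lit 188) (nat_lit 0) (nat_lit 166) (nat_lit 152) (nat_lit 132)) (PT.lf (nat_lit 13148) (nat_lit 6) (nat_lit 173) (nat_lit 5) (nat_lit 130) (nat_lit 153) (nat_lit 167)))) (PT.nd (nat_lit 78) (PT.lf (nat_lit 13756) (nat_lit 6) (nat_lit 181) (nat_lit 5) (nat_lit 131) (nat_lit 153) (nat_lit 166)) (PT.nd (nat_lit 78) (PT.lf (nat_lit 14364) (nat_lit 6) (nat_lit 189) (nat_lit 5) (nat_lit 132) (nat_lit 153) (nat_lit 165)) (PT.lf (nat_lit 15048) (nat_lit 6) (nat_lit 198) (nat_lit 5) (nat_lit 133) (nat_lit 153) (nat_lit 164))))) (PT.nd (nat_lit 234) (PT.nd (nat_lit 78) (PT.lf (nat_lit 15960) (nat_lit 6) (nat_lit 210) (nat_lit 5) (nat_lit 134) (nat_lit 153) (nat_lit 163)) (PT.nd (nat_lit 78) (PT.lf (nat_lit 17176) (nat_lit 6) (nat_lit 226) (nat_lit 5) (nat_lit 135) (nat_lit 153) (nat_lit 162)) (PT.lf (nat_lit 18316) (nat_lit 6) (nat_lit 241) (nat_lit 5)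 (nat_lit 136) (nat_lit 153) (nat_lit 161)))) (PT.nd (nat_lit 156) (PT.nd (nat_lit 78) (PT.lf (nat_lit 19380) (nat_lit 6) (nat_lit 255) (nat_lit 5) (nat_lit 137) (nat_lit 153) (nat_lit 160)) (PT.lf (nat_lit 20368) (nat_lit 6) (nat_lit 268) (nat_lit 5) (nat_lit 138) (nat_lit 153) (nat_lit 159))) (PT.nd (nat_lit 78) (PT.lf (nat_lit 21280) (nat_lit 6) (nat_lit 280) (nat_lit 5) (nat_lit 139) (nat_lit 153) (nat_lit 158)) (PT.lf (nat_lit 22116) (nat_lit 6) (nat_lit 291) (nat_lit 5) (nat_lit 140) (nat_lit 153) (nat_lit 157)))))) (PT.nd (nat_lit 546) (PT.nd (nat_lit 234) (PT.nd (nat_lit 78) (PT.lf (nat_lit 22876) (nat_lit 6) (nat_lit 301) (nat_lit 5) (nat_lit 141) (nat_lit 153) (nat_lit 156)) (PT.nd (nat_lit 78) (PT.lf (nat_lit 23560) (nat_lit 6) (nat_lit 310) (nat_lit 5) (nat_lit 142) (nat_lit 153) (nat_lit 155)) (PT.lf (nat_lit 24168) (nat_lit 6) (nat_lit 318) (nat_lit 5) (nat_lit 143) (nat_lit 153) (nat_lit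 154)))) (PT.nd (nat_lit 156) (PT.nd (nat_lit 78) (PT.lf (nat_lit 24700) (nat_lit 3) (nat_lit 325) (nat_lit 4) (nat_lit 144) (nat_lit 153) (nat_lit 153)) (PT.lf (nat_lit 25080) (nat_lit 6) (nat_lit 330) (nat_lit 4) (nat_lit 145) (nat_lit 153) (nat_lit 152))) (PT.nd (nat_lit 78) (PT.lf (nat_lit 25384) (nat_lit 6) (nat_lit 334) (nat_lit 4) (nat_lit 146) (nat_lit 153) (nat_lit 151)) (PT.lf (nat_lit 25612) (nat_lit 6) (nat_lit 337) (nat_lit 4) (nat_lit 147) (nat_lit 153) (nat_lit 150))))) (PT.nd (nat_lit 234) (PT.nd (nat_lit 78) (PT.lf (nat_lit 25536) (nat_lit 6) (nat_lit 336) (nat_lit 4) (nat_lit 148) (nat_lit 153) (nat_lit 149)) (PT.nd (nat_lit 78) (PT.lf (nat_lit 25536) (nat_lit 6) (nat_lit 336) (nat_lit 2) (nat_lit 149) (nat_lit 153) (nat_lit 148)) (PT.lf (nat_lit 25612) (nat_lit 6) (nat_lit 337) (nat_lit 2) (nat_lit 150) (nat_lit 153) (nat_lit 147)))) (PT.nd (nat_lit 156) (PT.nd (nat_lit 78) (PT.lf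 (nat_lit 25384) (nat_lit 6) (nat_lit 334) (nat_lit 2) (nat_lit 151) (nat_lit 153) (nat_lit 146)) (PT.lf (nat_lit 25080) (nat_lit 6) (nat_lit 330) (nat_lit 2) (nat_lit 152) (nat_lit 153) (nat_lit 145))) (PT.nd (nat_lit 78) (PT.lf (nat_lit 24700) (nat_lit 3) (nat_lit 325) (nat_lit 0) (nat_lit 153) (nat_lit 153) (nat_lit 144)) (PT.lf (nat_lit 24168) (nat_lit 6) (nat_lit 318) (nat_lit 0) (nat_lit 154) (nat_lit 153) (nat_lit 143))))))))
noncomputable def pc15 : PT := (PT.nd (nat_lit 45942) (PT.nd (nat_lit 44850) (PT.nd (nat_lit 468) (PT.nd (nat_lit 234) (PT.nd (nat_lit 78) (PT.lf (nat_lit 23560) (nat_lit 6) (nat_lit 310) (nat_lit 0) (nat_lit 155) (nat_lit 153) (nat_lit 142)) (PT.nd (nat_lit 78) (PT.lf (nat_lit 22876) (nat_lit 6) (nat_lit 301) (nat_lit 0) (nat_lit 156) (nat_lit 153) (nat_lit 141)) (PT.lf (nat_lit 22116) (nat_lit 6) (nat_lit 291) (nat_lit 0) (nat_lit 157) (nat_lit 153) (nat_lit 140)))) (PT.nd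 (nat_lit 78) (PT.lf (nat_lit 21280) (nat_lit 6) (nat_lit 280) (nat_lit 0) (nat_lit 158) (nat_lit 153) (nat_lit 139)) (PT.nd (nat_lit 78) (PT.lf (nat_lit 20368) (nat_lit 6) (nat_lit 268) (nat_lit 0) (nat_lit 159) (nat_lit 153) (nat_lit 138)) (PT.lf (nat_lit 19380) (nat_lit 6) (nat_lit 255) (nat_lit 0) (nat_lit 160) (nat_lit 153) (nat_lit 137))))) (PT.nd (nat_lit 234) (PT.nd (nat_lit 78) (PT.lf (nat_lit 18316) (nat_lit 6) (nat_lit 241) (nat_lit 0) (nat_lit 161) (nat_lit 153) (nat_lit 136)) (PT.nd (nat_lit 78) (PT.lf (nat_lit 17176) (nat_lit 6) (nat_lit 226) (nat_lit 0) (nat_lit 162) (nat_lit 153) (nat_lit 135)) (PT.lf (nat_lit 15960) (nat_lit 6) (nat_lit 210) (nat_lit 0) (nat_lit 163) (nat_lit 153) (nat_lit 134)))) (PT.nd (nat_lit 156) (PT.nd (nat_lit 78) (PT.lf (nat_lit 15048) (nat_lit 6) (nat_lit 198) (nat_lit 0) (nat_lit 164) (nat_lit 153) (nat_lit 133)) (PT.lf (nat_lit 14364) (nat_lit 6) (nat_lit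 189) (nat_lit 0) (nat_lit 165) (nat_lit 153) (nat_lit 132))) (PT.nd (nat_lit 78) (PT.lf (nat_lit 13756) (nat_lit 6) (nat_lit 181) (nat_lit 0) (nat_lit 166) (nat_lit 153) (nat_lit 131)) (PT.lf (nat_lit 13148) (nat_lit 6) (nat_lit 173) (nat_lit 0) (nat_lit 167) (nat_lit 153) (nat_lit 130)))))) (PT.nd (nat_lit 546) (PT.nd (nat_lit 234) (PT.nd (nat_lit 78) (PT.lf (nat_lit 12616) (nat_lit 6) (nat_lit 166) (nat_lit 5) (nat_lit 129) (nat_lit 154) (nat_lit 167)) (PT.nd (nat_lit 78) (PT.lf (nat_lit 13224) (nat_lit 6) (nat_lit 174) (nat_lit 5) (nat_lit 130) (nat_lit 154) (nat_lit 166)) (PT.lf (nat_lit 13832) (nat_lit 6) (nat_lit 182) (nat_lit 5) (nat_lit 131) (nat_lit 154) (nat_lit 165)))) (PT.nd (nat_lit 156) (PT.nd (nat_lit 78) (PT.lf (nat_lit 14440) (nat_lit 6) (nat_lit 190) (nat_lit 5) (nat_lit 132) (nat_lit 154) (nat_lit 164)) (PT.lf (nat_lit 15124) (nat_lit 6) (nat_lit 199) (nat_lit 5) (nat_lit 133) (nat_lit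 154) (nat_lit 163))) (PT.nd (nat_lit 78) (PT.lf (nat_lit 16036) (nat_lit 6) (nat_lit 211) (nat_lit 5) (nat_lit 134) (nat_lit 154) (nat_lit 162)) (PT.lf (nat_lit 17252) (nat_lit 6) (nat_lit 227) (nat_lit 5) (nat_lit 135) (nat_lit 154) (nat_lit 161))))) (PT.nd (nat_lit 234) (PT.nd (nat_lit 78) (PT.lf (nat_lit 18392) (nat_lit 6) (nat_lit 242) (nat_lit 5) (nat_lit 136) (nat_lit 154) (nat_lit 160)) (PT.nd (nat_lit 78) (PT.lf (nat_lit 19456) (nat_lit 6) (nat_lit 256) (nat_lit 5) (nat_lit 137) (nat_lit 154) (nat_lit 159)) (PT.lf (nat_lit 20444) (nat_lit 6) (nat_lit 269) (nat_lit 5) (nat_lit 138) (nat_lit 154) (nat_lit 158)))) (PT.nd (nat_lit 156) (PT.nd (nat_lit 78) (PT.lf (nat_lit 21356) (nat_lit 6) (nat_lit 281) (nat_lit 5) (nat_lit 139) (nat_lit 154) (nat_lit 157)) (PT.lf (nat_lit 22192) (nat_lit 6) (nat_lit 292) (nat_lit 5) (nat_lit 140) (nat_lit 154) (nat_lit 156))) (PT.nd (nat_lit 78) (PT.lf (nat_lit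 22952) (nat_lit 6) (nat_lit 302) (nat_lit 5) (nat_lit 141) (nat_lit 154) (nat_lit 155)) (PT.lf (nat_lit 23636) (nat_lit 3) (nat_lit 311) (nat_lit 4) (nat_lit 142) (nat_lit 154) (nat_lit 154))))))) (PT.nd (nat_lit 1092) (PT.nd (nat_lit 546) (PT.nd (nat_lit 234) (PT.nd (nat_lit 78) (PT.lf (nat_lit 24168) (nat_lit 6) (nat_lit 318) (nat_lit 4) (nat_lit 143) (nat_lit 154) (nat_lit 153)) (PT.nd (nat_lit 78) (PT.lf (nat_lit 24624) (nat_lit 6) (nat_lit 324) (nat_lit 4) (nat_lit 144) (nat_lit 154) (nat_lit 152)) (PT.lf (nat_lit 25004) (nat_lit 6) (nat_lit 329) (nat_lit 4) (nat_lit 145) (nat_lit 154) (nat_lit 151)))) (PT.nd (nat_lit 156) (PT.nd (nat_lit 78) (PT.lf (nat_lit 25308) (nat_lit 6) (nat_lit 333) (nat_lit 4) (nat_lit 146) (nat_lit 154) (nat_lit 150)) (PT.lf (nat_lit 25232) (nat_lit 6) (nat_lit 332) (nat_lit 4) (nat_lit 147) (nat_lit 154) (nat_lit 149))) (PT.nd (nat_lit 78) (PT.lf (nat_lit 25156) (nat_lit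 3) (nat_lit 331) (nat_lit 2) (nat_lit 148) (nat_lit 154) (nat_lit 148)) (PT.lf (nat_lit 25232) (nat_lit 6) (nat_lit 332) (nat_lit 2) (nat_lit 149) (nat_lit 154) (nat_lit 147))))) (PT.nd (nat_lit 234) (PT.nd (nat_lit 78) (PT.lf (nat_lit 25308) (nat_lit 6) (nat_lit 333) (nat_lit 2) (nat_lit 150) (nat_lit 154) (nat_lit 146)) (PT.nd (nat_lit 78) (PT.lf (nat_lit 25004) (nat_lit 6) (nat_lit 329) (nat_lit 2) (nat_lit 151) (nat_lit 154) (nat_lit 145)) (PT.lf (nat_lit 24624) (nat_lit 6) (nat_lit 324) (nat_lit 2) (nat_lit 152) (nat_lit 154) (nat_lit 144)))) (PT.nd (nat_lit 156) (PT.nd (nat_lit 78) (PT.lf (nat_lit 24168) (nat_lit 6) (nat_lit 318) (nat_lit 2) (nat_lit 153) (nat_lit 154) (nat_lit 143)) (PT.lf (nat_lit 23636) (nat_lit 3) (nat_lit 311) (nat_lit 0) (nat_lit 154) (nat_lit 154) (nat_lit 142))) (PT.nd (nat_lit 78) (PT.lf (nat_lit 22952) (nat_lit 6) (nat_lit 302) (nat_lit 0) (nat_lit 155) (nat_lit 154)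 (nat_lit 141)) (PT.lf (nat_lit 22192) (nat_lit 6) (nat_lit 292) (nat_lit 0) (nat_lit 156) (nat_lit 154) (nat_lit 140)))))) (PT.nd (nat_lit 546) (PT.nd (nat_lit 234) (PT.nd (nat_lit 78) (PT.lf (nat_lit 21356) (nat_lit 6) (nat_lit 281) (nat_lit 0) (nat_lit 157) (nat_lit 154) (nat_lit 139)) (PT.nd (nat_lit 78) (PT.lf (nat_lit 20444) (nat_lit 6) (nat_lit 269) (nat_lit 0) (nat_lit 158) (nat_lit 154) (nat_lit 138)) (PT.lf (nat_lit 19456) (nat_lit 6) (nat_lit 256) (nat_lit 0) (nat_lit 159) (nat_lit 154) (nat_lit 137)))) (PT.nd (nat_lit 156) (PT.nd (nat_lit 78) (PT.lf (nat_lit 18392) (nat_lit 6) (nat_lit 242) (nat_lit 0) (nat_lit 160) (nat_lit 154) (nat_lit 136)) (PT.lf (nat_lit 17252) (nat_lit 6) (nat_lit 227) (nat_lit 0) (nat_lit 161) (nat_lit 154) (nat_lit 135))) (PT.nd (nat_lit 78) (PT.lf (nat_lit 16036) (nat_lit 6) (nat_lit 211) (nat_lit 0) (nat_lit 162) (nat_lit 154) (nat_lit 134)) (PT.lf (nat_lit 15124)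 (nat_lit 6) (nat_lit 199) (nat_lit 0) (nat_lit 163) (nat_lit 154) (nat_lit 133))))) (PT.nd (nat_lit 234) (PT.nd (nat_lit 78) (PT.lf (nat_lit 14440) (nat_lit 6) (nat_lit 190) (nat_lit 0) (nat_lit 164) (nat_lit 154) (nat_lit 132)) (PT.nd (nat_lit 78) (PT.lf (nat_lit 13832) (nat_lit 6) (nat_lit 182) (nat_lit 0) (nat_lit 165) (nat_lit 154) (nat_lit 131)) (PT.lf (nat_lit 13224) (nat_lit 6) (nat_lit 174) (nat_lit 0) (nat_lit 166) (nat_lit 154) (nat_lit 130)))) (PT.nd (nat_lit 43914) (PT.nd (nat_lit 43836) (PT.lf (nat_lit 12616) (nat_lit 6) (nat_lit 166) (nat_lit 0) (nat_lit 167) (nat_lit 154) (nat_lit 129)) (PT.lf (nat_lit 12084) (nat_lit 6) (nat_lit 159) (nat_lit 5) (nat_lit 128) (nat_lit 155) (nat_lit 167))) (PT.nd (nat_lit 78) (PT.lf (nat_lit 12692) (nat_lit 6) (nat_lit 167) (nat_lit 5) (nat_lit 129) (nat_lit 155) (nat_lit 166)) (PT.lf (nat_lit 13300) (nat_lit 6) (nat_lit 175) (nat_lit 5) (nat_lit 130)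 (nat_lit 155) (nat_lit 165))))))))
noncomputable def pc16 : PT := (PT.nd (nat_lit 2106) (PT.nd (nat_lit 1014) (PT.nd (nat_lit 468) (PT.nd (nat_lit 234) (PT.nd (nat_lit 78) (PT.lf (nat_lit 13908) (nat_lit 6) (nat_lit 183) (nat_lit 5) (nat_lit 131) (nat_lit 155) (nat_lit 164)) (PT.nd (nat_lit 78) (PT.lf (nat_lit 14516) (nat_lit 6) (nat_lit 191) (nat_lit 5) (nat_lit 132) (nat_lit 155) (nat_lit 163)) (PT.lf (nat_lit 15200) (nat_lit 6) (nat_lit 200) (nat_lit 5) (nat_lit 133) (nat_lit 155) (nat_lit 162)))) (PT.nd (nat_lit 78) (PT.lf (nat_lit 16112) (nat_lit 6) (nat_lit 212) (nat_lit 5) (nat_lit 134) (nat_lit 155) (nat_lit 161)) (PT.nd (nat_lit 78) (PT.lf (nat_lit 17328) (nat_lit 6) (nat_lit 228) (nat_lit 5) (nat_lit 135) (nat_lit 155) (nat_lit 160)) (PT.lf (nat_lit 18468) (nat_lit 6) (nat_lit 243) (nat_lit 5) (nat_lit 136) (nat_lit 155) (nat_lit 159))))) (PT.nd (nat_lit 234) (PT.nd (nat_lit 78) (PT.lf (nat_lit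 19532) (nat_lit 6) (nat_lit 257) (nat_lit 5) (nat_lit 137) (nat_lit 155) (nat_lit 158)) (PT.nd (nat_lit 78) (PT.lf (nat_lit 20520) (nat_lit 6) (nat_lit 270) (nat_lit 5) (nat_lit 138) (nat_lit 155) (nat_lit 157)) (PT.lf (nat_lit 21432) (nat_lit 6) (nat_lit 282) (nat_lit 5) (nat_lit 139) (nat_lit 155) (nat_lit 156)))) (PT.nd (nat_lit 156) (PT.nd (nat_lit 78) (PT.lf (nat_lit 22268) (nat_lit 3) (nat_lit 293) (nat_lit 4) (nat_lit 140) (nat_lit 155) (nat_lit 155)) (PT.lf (nat_lit 22952) (nat_lit 6) (nat_lit 302) (nat_lit 4) (nat_lit 141) (nat_lit 155) (nat_lit 154))) (PT.nd (nat_lit 78) (PT.lf (nat_lit 23560) (nat_lit 6) (nat_lit 310) (nat_lit 4) (nat_lit 142) (nat_lit 155) (nat_lit 153)) (PT.lf (nat_lit 24092) (nat_lit 6) (nat_lit 317) (nat_lit 4) (nat_lit 143) (nat_lit 155) (nat_lit 152)))))) (PT.nd (nat_lit 546) (PT.nd (nat_lit 234) (PT.nd (nat_lit 78) (PT.lf (nat_lit 24548) (nat_lit 6) (nat_lit 323)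 (nat_lit 4) (nat_lit 144) (nat_lit 155) (nat_lit 151)) (PT.nd (nat_lit 78) (PT.lf (nat_lit 24928) (nat_lit 6) (nat_lit 328) (nat_lit 4) (nat_lit 145) (nat_lit 155) (nat_lit 150)) (PT.lf (nat_lit 24852) (nat_lit 6) (nat_lit 327) (nat_lit 4) (nat_lit 146) (nat_lit 155) (nat_lit 149)))) (PT.nd (nat_lit 156) (PT.nd (nat_lit 78) (PT.lf (nat_lit 24776) (nat_lit 6) (nat_lit 326) (nat_lit 4) (nat_lit 147) (nat_lit 155) (nat_lit 148)) (PT.lf (nat_lit 24776) (nat_lit 6) (nat_lit 326) (nat_lit 2) (nat_lit 148) (nat_lit 155) (nat_lit 147))) (PT.nd (nat_lit 78) (PT.lf (nat_lit 24852) (nat_lit 6) (nat_lit 327) (nat_lit 2) (nat_lit 149) (nat_lit 155) (nat_lit 146)) (PT.lf (nat_lit 24928) (nat_lit 6) (nat_lit 328) (nat_lit 2) (nat_lit 150) (nat_lit 155) (nat_lit 145))))) (PT.nd (nat_lit 234) (PT.nd (nat_lit 78) (PT.lf (nat_lit 24548) (nat_lit 6) (nat_lit 323) (nat_lit 2) (nat_lit 151) (nat_lit 155) (nat_lit 144))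 (PT.nd (nat_lit 78) (PT.lf (nat_lit 24092) (nat_lit 6) (nat_lit 317) (nat_lit 2) (nat_lit 152) (nat_lit 155) (nat_lit 143)) (PT.lf (nat_lit 23560) (nat_lit 6) (nat_lit 310) (nat_lit 2) (nat_lit 153) (nat_lit 155) (nat_lit 142)))) (PT.nd (nat_lit 156) (PT.nd (nat_lit 78) (PT.lf (nat_lit 22952) (nat_lit 6) (nat_lit 302) (nat_lit 2) (nat_lit 154) (nat_lit 155) (nat_lit 141)) (PT.lf (nat_lit 22268) (nat_lit 3) (nat_lit 293) (nat_lit 0) (nat_lit 155) (nat_lit 155) (nat_lit 140))) (PT.nd (nat_lit 78) (PT.lf (nat_lit 21432) (nat_lit 6) (nat_lit 282) (nat_lit 0) (nat_lit 156) (nat_lit 155) (nat_lit 139)) (PT.lf (nat_lit 20520) (nat_lit 6) (nat_lit 270) (nat_lit 0) (nat_lit 157) (nat_lit 155) (nat_lit 138))))))) (PT.nd (nat_lit 44694) (PT.nd (nat_lit 468) (PT.nd (nat_lit 234) (PT.nd (nat_lit 78) (PT.lf (nat_lit 19532) (nat_lit 6) (nat_lit 257) (nat_lit 0) (nat_lit 158) (nat_lit 155) (nat_lit 137)) (PT.nd (nat_lit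 78) (PT.lf (nat_lit 18468) (nat_lit 6) (nat_lit 243) (nat_lit 0) (nat_lit 159) (nat_lit 155) (nat_lit 136)) (PT.lf (nat_lit 17328) (nat_lit 6) (nat_lit 228) (nat_lit 0) (nat_lit 160) (nat_lit 155) (nat_lit 135)))) (PT.nd (nat_lit 78) (PT.lf (nat_lit 16112) (nat_lit 6) (nat_lit 212) (nat_lit 0) (nat_lit 161) (nat_lit 155) (nat_lit 134)) (PT.nd (nat_lit 78) (PT.lf (nat_lit 15200) (nat_lit 6) (nat_lit 200) (nat_lit 0) (nat_lit 162) (nat_lit 155) (nat_lit 133)) (PT.lf (nat_lit 14516) (nat_lit 6) (nat_lit 191) (nat_lit 0) (nat_lit 163) (nat_lit 155) (nat_lit 132))))) (PT.nd (nat_lit 234) (PT.nd (nat_lit 78) (PT.lf (nat_lit 13908) (nat_lit 6) (nat_lit 183) (nat_lit 0) (nat_lit 164) (nat_lit 155) (nat_lit 131)) (PT.nd (nat_lit 78) (PT.lf (nat_lit 13300) (nat_lit 6) (nat_lit 175) (nat_lit 0) (nat_lit 165) (nat_lit 155) (nat_lit 130)) (PT.lf (nat_lit 12692) (nat_lit 6) (nat_lit 167) (nat_lit 0) (nat_lit 166)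 (nat_lit 155) (nat_lit 129)))) (PT.nd (nat_lit 43836) (PT.nd (nat_lit 43758) (PT.lf (nat_lit 12084) (nat_lit 6) (nat_lit 159) (nat_lit 0) (nat_lit 167) (nat_lit 155) (nat_lit 128)) (PT.lf (nat_lit 11628) (nat_lit 6) (nat_lit 153) (nat_lit 5) (nat_lit 127) (nat_lit 156) (nat_lit 167))) (PT.nd (nat_lit 78) (PT.lf (nat_lit 12160) (nat_lit 6) (nat_lit 160) (nat_lit 5) (nat_lit 128) (nat_lit 156) (nat_lit 166)) (PT.lf (nat_lit 12768) (nat_lit 6) (nat_lit 168) (nat_lit 5) (nat_lit 129) (nat_lit 156) (nat_lit 165)))))) (PT.nd (nat_lit 546) (PT.nd (nat_lit 234) (PT.nd (nat_lit 78) (PT.lf (nat_lit 13376) (nat_lit 6) (nat_lit 176) (nat_lit 5) (nat_lit 130) (nat_lit 156) (nat_lit 164)) (PT.nd (nat_lit 78) (PT.lf (nat_lit 13984) (nat_lit 6) (nat_lit 184) (nat_lit 5) (nat_lit 131) (nat_lit 156) (nat_lit 163)) (PT.lf (nat_lit 14592) (nat_lit 6) (nat_lit 192) (nat_lit 5) (nat_lit 132) (nat_lit 156) (nat_lit 162))))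 (PT.nd (nat_lit 156) (PT.nd (nat_lit 78) (PT.lf (nat_lit 15276) (nat_lit 6) (nat_lit 201) (nat_lit 5) (nat_lit 133) (nat_lit 156) (nat_lit 161)) (PT.lf (nat_lit 16188) (nat_lit 6) (nat_lit 213) (nat_lit 5) (nat_lit 134) (nat_lit 156) (nat_lit 160))) (PT.nd (nat_lit 78) (PT.lf (nat_lit 17404) (nat_lit 6) (nat_lit 229) (nat_lit 5) (nat_lit 135) (nat_lit 156) (nat_lit 159)) (PT.lf (nat_lit 18544) (nat_lit 6) (nat_lit 244) (nat_lit 5) (nat_lit 136) (nat_lit 156) (nat_lit 158))))) (PT.nd (nat_lit 234) (PT.nd (nat_lit 78) (PT.lf (nat_lit 19608) (nat_lit 6) (nat_lit 258) (nat_lit 5) (nat_lit 137) (nat_lit 156) (nat_lit 157)) (PT.nd (nat_lit 78) (PT.lf (nat_lit 20596) (nat_lit 3) (nat_lit 271) (nat_lit 4) (nat_lit 138) (nat_lit 156) (nat_lit 156)) (PT.lf (nat_lit 21432) (nat_lit 6) (nat_lit 282) (nat_lit 4) (nat_lit 139) (nat_lit 156) (nat_lit 155)))) (PT.nd (nat_lit 156) (PT.nd (nat_lit 78) (PT.lf (nat_lit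 22192) (nat_lit 6) (nat_lit 292) (nat_lit 4) (nat_lit 140) (nat_lit 156) (nat_lit 154)) (PT.lf (nat_lit 22876) (nat_lit 6) (nat_lit 301) (nat_lit 4) (nat_lit 141) (nat_lit 156) (nat_lit 153))) (PT.nd (nat_lit 78) (PT.lf (nat_lit 23484) (nat_lit 6) (nat_lit 309) (nat_lit 4) (nat_lit 142) (nat_lit 156) (nat_lit 152)) (PT.lf (nat_lit 24016) (nat_lit 6) (nat_lit 316) (nat_lit 4) (nat_lit 143) (nat_lit 156) (nat_lit 151))))))))
noncomputable def pc17 : PT := (PT.nd (nat_lit 45630) (PT.nd (nat_lit 1014) (PT.nd (nat_lit 468) (PT.nd (nat_lit 234) (PT.nd (nat_lit 78) (PT.lf (nat_lit 24472) (nat_lit 6) (nat_lit 322) (nat_lit 4) (nat_lit 144) (nat_lit 156) (nat_lit 150)) (PT.nd (nat_lit 78) (PT.lf (nat_lit 24396) (nat_lit 6) (nat_lit 321) (nat_lit 4) (nat_lit 145) (nat_lit 156) (nat_lit 149)) (PT.lf (nat_lit 24320) (nat_lit 6) (nat_lit 320) (nat_lit 4) (nat_lit 146) (nat_lit 156) (nat_lit 148)))) (PT.nd (nat_lit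 78) (PT.lf (nat_lit 24244) (nat_lit 3) (nat_lit 319) (nat_lit 2) (nat_lit 147) (nat_lit 156) (nat_lit 147)) (PT.nd (nat_lit 78) (PT.lf (nat_lit 24320) (nat_lit 6) (nat_lit 320) (nat_lit 2) (nat_lit 148) (nat_lit 156) (nat_lit 146)) (PT.lf (nat_lit 24396) (nat_lit 6) (nat_lit 321) (nat_lit 2) (nat_lit 149) (nat_lit 156) (nat_lit 145))))) (PT.nd (nat_lit 234) (PT.nd (nat_lit 78) (PT.lf (nat_lit 24472) (nat_lit 6) (nat_lit 322) (nat_lit 2) (nat_lit 150) (nat_lit 156) (nat_lit 144)) (PT.nd (nat_lit 78) (PT.lf (nat_lit 24016) (nat_lit 6) (nat_lit 316) (nat_lit 2) (nat_lit 151) (nat_lit 156) (nat_lit 143)) (PT.lf (nat_lit 23484) (nat_lit 6) (nat_lit 309) (nat_lit 2) (nat_lit 152) (nat_lit 156) (nat_lit 142)))) (PT.nd (nat_lit 156) (PT.nd (nat_lit 78) (PT.lf (nat_lit 22876) (nat_lit 6) (nat_lit 301) (nat_lit 2) (nat_lit 153) (nat_lit 156) (nat_lit 141)) (PT.lf (nat_lit 22192) (nat_lit 6) (nat_lit 292) (nat_lit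 2) (nat_lit 154) (nat_lit 156) (nat_lit 140))) (PT.nd (nat_lit 78) (PT.lf (nat_lit 21432) (nat_lit 6) (nat_lit 282) (nat_lit 2) (nat_lit 155) (nat_lit 156) (nat_lit 139)) (PT.lf (nat_lit 20596) (nat_lit 3) (nat_lit 271) (nat_lit 0) (nat_lit 156) (nat_lit 156) (nat_lit 138)))))) (PT.nd (nat_lit 546) (PT.nd (nat_lit 234) (PT.nd (nat_lit 78) (PT.lf (nat_lit 19608) (nat_lit 6) (nat_lit 258) (nat_lit 0) (nat_lit 157) (nat_lit 156) (nat_lit 137)) (PT.nd (nat_lit 78) (PT.lf (nat_lit 18544) (nat_lit 6) (nat_lit 244) (nat_lit 0) (nat_lit 158) (nat_lit 156) (nat_lit 136)) (PT.lf (nat_lit 17404) (nat_lit 6) (nat_lit 229) (nat_lit 0) (nat_lit 159) (nat_lit 156) (nat_lit 135)))) (PT.nd (nat_lit 156) (PT.nd (nat_lit 78) (PT.lf (nat_lit 16188) (nat_lit 6) (nat_lit 213) (nat_lit 0) (nat_lit 160) (nat_lit 156) (nat_lit 134)) (PT.lf (nat_lit 15276) (nat_lit 6) (nat_lit 201) (nat_lit 0) (nat_lit 161) (nat_lit 156) (nat_lit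 133))) (PT.nd (nat_lit 78) (PT.lf (nat_lit 14592) (nat_lit 6) (nat_lit 192) (nat_lit 0) (nat_lit 162) (nat_lit 156) (nat_lit 132)) (PT.lf (nat_lit 13984) (nat_lit 6) (nat_lit 184) (nat_lit 0) (nat_lit 163) (nat_lit 156) (nat_lit 131))))) (PT.nd (nat_lit 234) (PT.nd (nat_lit 78) (PT.lf (nat_lit 13376) (nat_lit 6) (nat_lit 176) (nat_lit 0) (nat_lit 164) (nat_lit 156) (nat_lit 130)) (PT.nd (nat_lit 78) (PT.lf (nat_lit 12768) (nat_lit 6) (nat_lit 168) (nat_lit 0) (nat_lit 165) (nat_lit 156) (nat_lit 129)) (PT.lf (nat_lit 12160) (nat_lit 6) (nat_lit 160) (nat_lit 0) (nat_lit 166) (nat_lit 156) (nat_lit 128)))) (PT.nd (nat_lit 43680) (PT.nd (nat_lit 43602) (PT.lf (nat_lit 11628) (nat_lit 6) (nat_lit 153) (nat_lit 0) (nat_lit 167) (nat_lit 156) (nat_lit 127)) (PT.lf (nat_lit 10640) (nat_lit 6) (nat_lit 140) (nat_lit 5) (nat_lit 125) (nat_lit 157) (nat_lit 168))) (PT.nd (nat_lit 78) (PT.lf (nat_lit 11172)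 (nat_lit 6) (nat_lit 147) (nat_lit 5) (nat_lit 126) (nat_lit 157) (nat_lit 167)) (PT.lf (nat_lit 11704) (nat_lit 6) (nat_lit 154) (nat_lit 5) (nat_lit 127) (nat_lit 157) (nat_lit 166))))))) (PT.nd (nat_lit 1092) (PT.nd (nat_lit 546) (PT.nd (nat_lit 234) (PT.nd (nat_lit 78) (PT.lf (nat_lit 12236) (nat_lit 6) (nat_lit 161) (nat_lit 5) (nat_lit 128) (nat_lit 157) (nat_lit 165)) (PT.nd (nat_lit 78) (PT.lf (nat_lit 12844) (nat_lit 6) (nat_lit 169) (nat_lit 5) (nat_lit 129) (nat_lit 157) (nat_lit 164)) (PT.lf (nat_lit 13452) (nat_lit 6) (nat_lit 177) (nat_lit 5) (nat_lit 130) (nat_lit 157) (nat_lit 163)))) (PT.nd (nat_lit 156) (PT.nd (nat_lit 78) (PT.lf (nat_lit 14060) (nat_lit 6) (nat_lit 185) (nat_lit 5) (nat_lit 131) (nat_lit 157) (nat_lit 162)) (PT.lf (nat_lit 14668) (nat_lit 6) (nat_lit 193) (nat_lit 5) (nat_lit 132) (nat_lit 157) (nat_lit 161))) (PT.nd (nat_lit 78) (PT.lf (nat_lit 15352) (nat_lit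 6) (nat_lit 202) (nat_lit 5) (nat_lit 133) (nat_lit 157) (nat_lit 160)) (PT.lf (nat_lit 16264) (nat_lit 6) (nat_lit 214) (nat_lit 5) (nat_lit 134) (nat_lit 157) (nat_lit 159))))) (PT.nd (nat_lit 234) (PT.nd (nat_lit 78) (PT.lf (nat_lit 17480) (nat_lit 6) (nat_lit 230) (nat_lit 5) (nat_lit 135) (nat_lit 157) (nat_lit 158)) (PT.nd (nat_lit 78) (PT.lf (nat_lit 18620) (nat_lit 3) (nat_lit 245) (nat_lit 4) (nat_lit 136) (nat_lit 157) (nat_lit 157)) (PT.lf (nat_lit 19608) (nat_lit 6) (nat_lit 258) (nat_lit 4) (nat_lit 137) (nat_lit 157) (nat_lit 156)))) (PT.nd (nat_lit 156) (PT.nd (nat_lit 78) (PT.lf (nat_lit 20520) (nat_lit 6) (nat_lit 270) (nat_lit 4) (nat_lit 138) (nat_lit 157) (nat_lit 155)) (PT.lf (nat_lit 21356) (nat_lit 6) (nat_lit 281) (nat_lit 4) (nat_lit 139) (nat_lit 157) (nat_lit 154))) (PT.nd (nat_lit 78) (PT.lf (nat_lit 22116) (nat_lit 6) (nat_lit 291) (nat_lit 4) (nat_lit 140) (nat_lit 157)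 (nat_lit 153)) (PT.lf (nat_lit 22800) (nat_lit 6) (nat_lit 300) (nat_lit 4) (nat_lit 141) (nat_lit 157) (nat_lit 152)))))) (PT.nd (nat_lit 546) (PT.nd (nat_lit 234) (PT.nd (nat_lit 78) (PT.lf (nat_lit 23408) (nat_lit 6) (nat_lit 308) (nat_lit 4) (nat_lit 142) (nat_lit 157) (nat_lit 151)) (PT.nd (nat_lit 78) (PT.lf (nat_lit 23940) (nat_lit 6) (nat_lit 315) (nat_lit 4) (nat_lit 143) (nat_lit 157) (nat_lit 150)) (PT.lf (nat_lit 23864) (nat_lit 6) (nat_lit 314) (nat_lit 4) (nat_lit 144) (nat_lit 157) (nat_lit 149)))) (PT.nd (nat_lit 156) (PT.nd (nat_lit 78) (PT.lf (nat_lit 23788) (nat_lit 6) (nat_lit 313) (nat_lit 4) (nat_lit 145) (nat_lit 157) (nat_lit 148)) (PT.lf (nat_lit 23712) (nat_lit 6) (nat_lit 312) (nat_lit 4) (nat_lit 146) (nat_lit 157) (nat_lit 147))) (PT.nd (nat_lit 78) (PT.lf (nat_lit 23712) (nat_lit 6) (nat_lit 312) (nat_lit 2) (nat_lit 147) (nat_lit 157) (nat_lit 146)) (PT.lf (nat_lit 23788)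 (nat_lit 6) (nat_lit 313) (nat_lit 2) (nat_lit 148) (nat_lit 157) (nat_lit 145))))) (PT.nd (nat_lit 234) (PT.nd (nat_lit 78) (PT.lf (nat_lit 23864) (nat_lit 6) (nat_lit 314) (nat_lit 2) (nat_lit 149) (nat_lit 157) (nat_lit 144)) (PT.nd (nat_lit 78) (PT.lf (nat_lit 23940) (nat_lit 6) (nat_lit 315) (nat_lit 2) (nat_lit 150) (nat_lit 157) (nat_lit 143)) (PT.lf (nat_lit 23408) (nat_lit 6) (nat_lit 308) (nat_lit 2) (nat_lit 151) (nat_lit 157) (nat_lit 142)))) (PT.nd (nat_lit 156) (PT.nd (nat_lit 78) (PT.lf (nat_lit 22800) (nat_lit 6) (nat_lit 300) (nat_lit 2) (nat_lit 152) (nat_lit 157) (nat_lit 141)) (PT.lf (nat_lit 22116) (nat_lit 6) (nat_lit 291) (nat_lit 2) (nat_lit 153) (nat_lit 157) (nat_lit 140))) (PT.nd (nat_lit 78) (PT.lf (nat_lit 21356) (nat_lit 6) (nat_lit 281) (nat_lit 2) (nat_lit 154) (nat_lit 157) (nat_lit 139)) (PT.lf (nat_lit 20520) (nat_lit 6) (nat_lit 270) (nat_lit 2) (nat_lit 155) (nat_lit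 157) (nat_lit 138))))))))
noncomputable def pc18 : PT := (PT.nd (nat_lit 45474) (PT.nd (nat_lit 44382) (PT.nd (nat_lit 468) (PT.nd (nat_lit 234) (PT.nd (nat_lit 78) (PT.lf (nat_lit 19608) (nat_lit 6) (nat_lit 258) (nat_lit 2) (nat_lit 156) (nat_lit 157) (nat_lit 137)) (PT.nd (nat_lit 78) (PT.lf (nat_lit 18620) (nat_lit 3) (nat_lit 245) (nat_lit 0) (nat_lit 157) (nat_lit 157) (nat_lit 136)) (PT.lf (nat_lit 17480) (nat_lit 6) (nat_lit 230) (nat_lit 0) (nat_lit 158) (nat_lit 157) (nat_lit 135)))) (PT.nd (nat_lit 78) (PT.lf (nat_lit 16264) (nat_lit 6) (nat_lit 214) (nat_lit 0) (nat_lit 159) (nat_lit 157) (nat_lit 134)) (PT.nd (nat_lit 78) (PT.lf (nat_lit 15352) (nat_lit 6) (nat_lit 202) (nat_lit 0) (nat_lit 160) (nat_lit 157) (nat_lit 133)) (PT.lf (nat_lit 14668) (nat_lit 6) (nat_lit 193) (nat_lit 0) (nat_lit 161) (nat_lit 157) (nat_lit 132))))) (PT.nd (nat_lit 234) (PT.nd (nat_lit 78) (PT.lf (nat_lit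 14060) (nat_lit 6) (nat_lit 185) (nat_lit 0) (nat_lit 162) (nat_lit 157) (nat_lit 131)) (PT.nd (nat_lit 78) (PT.lf (nat_lit 13452) (nat_lit 6) (nat_lit 177) (nat_lit 0) (nat_lit 163) (nat_lit 157) (nat_lit 130)) (PT.lf (nat_lit 12844) (nat_lit 6) (nat_lit 169) (nat_lit 0) (nat_lit 164) (nat_lit 157) (nat_lit 129)))) (PT.nd (nat_lit 156) (PT.nd (nat_lit 78) (PT.lf (nat_lit 12236) (nat_lit 6) (nat_lit 161) (nat_lit 0) (nat_lit 165) (nat_lit 157) (nat_lit 128)) (PT.lf (nat_lit 11704) (nat_lit 6) (nat_lit 154) (nat_lit 0) (nat_lit 166) (nat_lit 157) (nat_lit 127))) (PT.nd (nat_lit 78) (PT.lf (nat_lit 11172) (nat_lit 6) (nat_lit 147) (nat_lit 0) (nat_lit 167) (nat_lit 157) (nat_lit 126)) (PT.lf (nat_lit 10640) (nat_lit 6) (nat_lit 140) (nat_lit 0) (nat_lit 168) (nat_lit 157) (nat_lit 125)))))) (PT.nd (nat_lit 546) (PT.nd (nat_lit 234) (PT.nd (nat_lit 78) (PT.lf (nat_lit 10184) (nat_lit 6) (nat_lit 134)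 (nat_lit 5) (nat_lit 124) (nat_lit 158) (nat_lit 168)) (PT.nd (nat_lit 78) (PT.lf (nat_lit 10716) (nat_lit 6) (nat_lit 141) (nat_lit 5) (nat_lit 125) (nat_lit 158) (nat_lit 167)) (PT.lf (nat_lit 11248) (nat_lit 6) (nat_lit 148) (nat_lit 5) (nat_lit 126) (nat_lit 158) (nat_lit 166)))) (PT.nd (nat_lit 156) (PT.nd (nat_lit 78) (PT.lf (nat_lit 11780) (nat_lit 6) (nat_lit 155) (nat_lit 5) (nat_lit 127) (nat_lit 158) (nat_lit 165)) (PT.lf (nat_lit 12312) (nat_lit 6) (nat_lit 162) (nat_lit 5) (nat_lit 128) (nat_lit 158) (nat_lit 164))) (PT.nd (nat_lit 78) (PT.lf (nat_lit 12920) (nat_lit 6) (nat_lit 170) (nat_lit 5) (nat_lit 129) (nat_lit 158) (nat_lit 163)) (PT.lf (nat_lit 13528) (nat_lit 6) (nat_lit 178) (nat_lit 5) (nat_lit 130) (nat_lit 158) (nat_lit 162))))) (PT.nd (nat_lit 234) (PT.nd (nat_lit 78) (PT.lf (nat_lit 14136) (nat_lit 6) (nat_lit 186) (nat_lit 5) (nat_lit 131) (nat_lit 158) (nat_lit 161))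 (PT.nd (nat_lit 78) (PT.lf (nat_lit 14744) (nat_lit 6) (nat_lit 194) (nat_lit 5) (nat_lit 132) (nat_lit 158) (nat_lit 160)) (PT.lf (nat_lit 15428) (nat_lit 6) (nat_lit 203) (nat_lit 5) (nat_lit 133) (nat_lit 158) (nat_lit 159)))) (PT.nd (nat_lit 156) (PT.nd (nat_lit 78) (PT.lf (nat_lit 16340) (nat_lit 3) (nat_lit 215) (nat_lit 4) (nat_lit 134) (nat_lit 158) (nat_lit 158)) (PT.lf (nat_lit 17480) (nat_lit 6) (nat_lit 230) (nat_lit 4) (nat_lit 135) (nat_lit 158) (nat_lit 157))) (PT.nd (nat_lit 78) (PT.lf (nat_lit 18544) (nat_lit 6) (nat_lit 244) (nat_lit 4) (nat_lit 136) (nat_lit 158) (nat_lit 156)) (PT.lf (nat_lit 19532) (nat_lit 6) (nat_lit 257) (nat_lit 4) (nat_lit 137) (nat_lit 158) (nat_lit 155))))))) (PT.nd (nat_lit 1014) (PT.nd (nat_lit 468) (PT.nd (nat_lit 234) (PT.nd (nat_lit 78) (PT.lf (nat_lit 20444) (nat_lit 6) (nat_lit 269) (nat_lit 4) (nat_lit 138) (nat_lit 158) (nat_lit 154)) (PT.nd (nat_lit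 78) (PT.lf (nat_lit 21280) (nat_lit 6) (nat_lit 280) (nat_lit 4) (nat_lit 139) (nat_lit 158) (nat_lit 153)) (PT.lf (nat_lit 22040) (nat_lit 6) (nat_lit 290) (nat_lit 4) (nat_lit 140) (nat_lit 158) (nat_lit 152)))) (PT.nd (nat_lit 78) (PT.lf (nat_lit 22724) (nat_lit 6) (nat_lit 299) (nat_lit 4) (nat_lit 141) (nat_lit 158) (nat_lit 151)) (PT.nd (nat_lit 78) (PT.lf (nat_lit 23332) (nat_lit 6) (nat_lit 307) (nat_lit 4) (nat_lit 142) (nat_lit 158) (nat_lit 150)) (PT.lf (nat_lit 23256) (nat_lit 6) (nat_lit 306) (nat_lit 4) (nat_lit 143) (nat_lit 158) (nat_lit 149))))) (PT.nd (nat_lit 234) (PT.nd (nat_lit 78) (PT.lf (nat_lit 23180) (nat_lit 6) (nat_lit 305) (nat_lit 4) (nat_lit 144) (nat_lit 158) (nat_lit 148)) (PT.nd (nat_lit 78) (PT.lf (nat_lit 23104) (nat_lit 6) (nat_lit 304) (nat_lit 4) (nat_lit 145) (nat_lit 158) (nat_lit 147)) (PT.lf (nat_lit 23028) (nat_lit 3) (nat_lit 303) (nat_lit 2) (nat_lit 146)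 (nat_lit 158) (nat_lit 146)))) (PT.nd (nat_lit 156) (PT.nd (nat_lit 78) (PT.lf (nat_lit 23104) (nat_lit 6) (nat_lit 304) (nat_lit 2) (nat_lit 147) (nat_lit 158) (nat_lit 145)) (PT.lf (nat_lit 23180) (nat_lit 6) (nat_lit 305) (nat_lit 2) (nat_lit 148) (nat_lit 158) (nat_lit 144))) (PT.nd (nat_lit 78) (PT.lf (nat_lit 23256) (nat_lit 6) (nat_lit 306) (nat_lit 2) (nat_lit 149) (nat_lit 158) (nat_lit 143)) (PT.lf (nat_lit 23332) (nat_lit 6) (nat_lit 307) (nat_lit 2) (nat_lit 150) (nat_lit 158) (nat_lit 142)))))) (PT.nd (nat_lit 546) (PT.nd (nat_lit 234) (PT.nd (nat_lit 78) (PT.lf (nat_lit 22724) (nat_lit 6) (nat_lit 299) (nat_lit 2) (nat_lit 151) (nat_lit 158) (nat_lit 141)) (PT.nd (nat_lit 78) (PT.lf (nat_lit 22040) (nat_lit 6) (nat_lit 290) (nat_lit 2) (nat_lit 152) (nat_lit 158) (nat_lit 140)) (PT.lf (nat_lit 21280) (nat_lit 6) (nat_lit 280) (nat_lit 2) (nat_lit 153) (nat_lit 158) (nat_lit 139)))) (PT.nd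 (nat_lit 156) (PT.nd (nat_lit 78) (PT.lf (nat_lit 20444) (nat_lit 6) (nat_lit 269) (nat_lit 2) (nat_lit 154) (nat_lit 158) (nat_lit 138)) (PT.lf (nat_lit 19532) (nat_lit 6) (nat_lit 257) (nat_lit 2) (nat_lit 155) (nat_lit 158) (nat_lit 137))) (PT.nd (nat_lit 78) (PT.lf (nat_lit 18544) (nat_lit 6) (nat_lit 244) (nat_lit 2) (nat_lit 156) (nat_lit 158) (nat_lit 136)) (PT.lf (nat_lit 17480) (nat_lit 6) (nat_lit 230) (nat_lit 2) (nat_lit 157) (nat_lit 158) (nat_lit 135))))) (PT.nd (nat_lit 234) (PT.nd (nat_lit 78) (PT.lf (nat_lit 16340) (nat_lit 3) (nat_lit 215) (nat_lit 0) (nat_lit 158) (nat_lit 158) (nat_lit 134)) (PT.nd (nat_lit 78) (PT.lf (nat_lit 15428) (nat_lit 6) (nat_lit 203) (nat_lit 0) (nat_lit 159) (nat_lit 158) (nat_lit 133)) (PT.lf (nat_lit 14744) (nat_lit 6) (nat_lit 194) (nat_lit 0) (nat_lit 160) (nat_lit 158) (nat_lit 132)))) (PT.nd (nat_lit 156) (PT.nd (nat_lit 78) (PT.lf (nat_lit 14136)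 (nat_lit 6) (nat_lit 186) (nat_lit 0) (nat_lit 161) (nat_lit 158) (nat_lit 131)) (PT.lf (nat_lit 13528) (nat_lit 6) (nat_lit 178) (nat_lit 0) (nat_lit 162) (nat_lit 158) (nat_lit 130))) (PT.nd (nat_lit 78) (PT.lf (nat_lit 12920) (nat_lit 6) (nat_lit 170) (nat_lit 0) (nat_lit 163) (nat_lit 158) (nat_lit 129)) (PT.lf (nat_lit 12312) (nat_lit 6) (nat_lit 162) (nat_lit 0) (nat_lit 164) (nat_lit 158) (nat_lit 128))))))))
noncomputable def pc19 : PT := (PT.nd (nat_lit 45318) (PT.nd (nat_lit 44226) (PT.nd (nat_lit 43680) (PT.nd (nat_lit 234) (PT.nd (nat_lit 78) (PT.lf (nat_lit 11780) (nat_lit 6) (nat_lit 155) (nat_lit 0) (nat_lit 165) (nat_lit 158) (nat_lit 127)) (PT.nd (nat_lit 78) (PT.lf (nat_lit 11248) (nat_lit 6) (nat_lit 148) (nat_lit 0) (nat_lit 166) (nat_lit 158) (nat_lit 126)) (PT.lf (nat_lit 10716) (nat_lit 6) (nat_lit 141) (nat_lit 0) (nat_lit 167) (nat_lit 158) (nat_lit 125)))) (PT.nd (nat_lit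 43290) (PT.lf (nat_lit 10184) (nat_lit 6) (nat_lit 134) (nat_lit 0) (nat_lit 168) (nat_lit 158) (nat_lit 124)) (PT.nd (nat_lit 78) (PT.lf (nat_lit 9348) (nat_lit 6) (nat_lit 123) (nat_lit 5) (nat_lit 122) (nat_lit 159) (nat_lit 169)) (PT.lf (nat_lit 9804) (nat_lit 6) (nat_lit 129) (nat_lit 5) (nat_lit 123) (nat_lit 159) (nat_lit 168))))) (PT.nd (nat_lit 234) (PT.nd (nat_lit 78) (PT.lf (nat_lit 10260) (nat_lit 6) (nat_lit 135) (nat_lit 5) (nat_lit 124) (nat_lit 159) (nat_lit 167)) (PT.nd (nat_lit 78) (PT.lf (nat_lit 10792) (nat_lit 6) (nat_lit 142) (nat_lit 5) (nat_lit 125) (nat_lit 159) (nat_lit 166)) (PT.lf (nat_lit 11324) (nat_lit 6) (nat_lit 149) (nat_lit 5) (nat_lit 126) (nat_lit 159) (nat_lit 165)))) (PT.nd (nat_lit 156) (PT.nd (nat_lit 78) (PT.lf (nat_lit 11856) (nat_lit 6) (nat_lit 156) (nat_lit 5) (nat_lit 127) (nat_lit 159) (nat_lit 164)) (PT.lf (nat_lit 12388) (nat_lit 6) (nat_lit 163) (nat_lit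 5) (nat_lit 128) (nat_lit 159) (nat_lit 163))) (PT.nd (nat_lit 78) (PT.lf (nat_lit 12996) (nat_lit 6) (nat_lit 171) (nat_lit 5) (nat_lit 129) (nat_lit 159) (nat_lit 162)) (PT.lf (nat_lit 13604) (nat_lit 6) (nat_lit 179) (nat_lit 5) (nat_lit 130) (nat_lit 159) (nat_lit 161)))))) (PT.nd (nat_lit 546) (PT.nd (nat_lit 234) (PT.nd (nat_lit 78) (PT.lf (nat_lit 14212) (nat_lit 6) (nat_lit 187) (nat_lit 5) (nat_lit 131) (nat_lit 159) (nat_lit 160)) (PT.nd (nat_lit 78) (PT.lf (nat_lit 14820) (nat_lit 3) (nat_lit 195) (nat_lit 4) (nat_lit 132) (nat_lit 159) (nat_lit 159)) (PT.lf (nat_lit 15428) (nat_lit 6) (nat_lit 203) (nat_lit 4) (nat_lit 133) (nat_lit 159) (nat_lit 158)))) (PT.nd (nat_lit 156) (PT.nd (nat_lit 78) (PT.lf (nat_lit 16264) (nat_lit 6) (nat_lit 214) (nat_lit 4) (nat_lit 134) (nat_lit 159) (nat_lit 157)) (PT.lf (nat_lit 17404) (nat_lit 6) (nat_lit 229) (nat_lit 4) (nat_lit 135) (nat_lit 159) (nat_lit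 156))) (PT.nd (nat_lit 78) (PT.lf (nat_lit 18468) (nat_lit 6) (nat_lit 243) (nat_lit 4) (nat_lit 136) (nat_lit 159) (nat_lit 155)) (PT.lf (nat_lit 19456) (nat_lit 6) (nat_lit 256) (nat_lit 4) (nat_lit 137) (nat_lit 159) (nat_lit 154))))) (PT.nd (nat_lit 234) (PT.nd (nat_lit 78) (PT.lf (nat_lit 20368) (nat_lit 6) (nat_lit 268) (nat_lit 4) (nat_lit 138) (nat_lit 159) (nat_lit 153)) (PT.nd (nat_lit 78) (PT.lf (nat_lit 21204) (nat_lit 6) (nat_lit 279) (nat_lit 4) (nat_lit 139) (nat_lit 159) (nat_lit 152)) (PT.lf (nat_lit 21964) (nat_lit 6) (nat_lit 289) (nat_lit 4) (nat_lit 140) (nat_lit 159) (nat_lit 151)))) (PT.nd (nat_lit 156) (PT.nd (nat_lit 78) (PT.lf (nat_lit 22648) (nat_lit 6) (nat_lit 298) (nat_lit 4) (nat_lit 141) (nat_lit 159) (nat_lit 150)) (PT.lf (nat_lit 22572) (nat_lit 6) (nat_lit 297) (nat_lit 4) (nat_lit 142) (nat_lit 159) (nat_lit 149))) (PT.nd (nat_lit 78) (PT.lf (nat_lit 22496) (nat_lit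 6) (nat_lit 296) (nat_lit 4) (nat_lit 143) (nat_lit 159) (nat_lit 148)) (PT.lf (nat_lit 22420) (nat_lit 6) (nat_lit 295) (nat_lit 4) (nat_lit 144) (nat_lit 159) (nat_lit 147))))))) (PT.nd (nat_lit 1092) (PT.nd (nat_lit 546) (PT.nd (nat_lit 234) (PT.nd (nat_lit 78) (PT.lf (nat_lit 22344) (nat_lit 6) (nat_lit 294) (nat_lit 4) (nat_lit 145) (nat_lit 159) (nat_lit 146)) (PT.nd (nat_lit 78) (PT.lf (nat_lit 22344) (nat_lit 6) (nat_lit 294) (nat_lit 2) (nat_lit 146) (nat_lit 159) (nat_lit 145)) (PT.lf (nat_lit 22420) (nat_lit 6) (nat_lit 295) (nat_lit 2) (nat_lit 147) (nat_lit 159) (nat_lit 144)))) (PT.nd (nat_lit 156) (PT.nd (nat_lit 78) (PT.lf (nat_lit 22496) (nat_lit 6) (nat_lit 296) (nat_lit 2) (nat_lit 148) (nat_lit 159) (nat_lit 143)) (PT.lf (nat_lit 22572) (nat_lit 6) (nat_lit 297) (nat_lit 2) (nat_lit 149) (nat_lit 159) (nat_lit 142))) (PT.nd (nat_lit 78) (PT.lf (nat_lit 22648) (nat_lit 6) (nat_lit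 298) (nat_lit 2) (nat_lit 150) (nat_lit 159) (nat_lit 141)) (PT.lf (nat_lit 21964) (nat_lit 6) (nat_lit 289) (nat_lit 2) (nat_lit 151) (nat_lit 159) (nat_lit 140))))) (PT.nd (nat_lit 234) (PT.nd (nat_lit 78) (PT.lf (nat_lit 21204) (nat_lit 6) (nat_lit 279) (nat_lit 2) (nat_lit 152) (nat_lit 159) (nat_lit 139)) (PT.nd (nat_lit 78) (PT.lf (nat_lit 20368) (nat_lit 6) (nat_lit 268) (nat_lit 2) (nat_lit 153) (nat_lit 159) (nat_lit 138)) (PT.lf (nat_lit 19456) (nat_lit 6) (nat_lit 256) (nat_lit 2) (nat_lit 154) (nat_lit 159) (nat_lit 137)))) (PT.nd (nat_lit 156) (PT.nd (nat_lit 78) (PT.lf (nat_lit 18468) (nat_lit 6) (nat_lit 243) (nat_lit 2) (nat_lit 155) (nat_lit 159) (nat_lit 136)) (PT.lf (nat_lit 17404) (nat_lit 6) (nat_lit 229) (nat_lit 2) (nat_lit 156) (nat_lit 159) (nat_lit 135))) (PT.nd (nat_lit 78) (PT.lf (nat_lit 16264) (nat_lit 6) (nat_lit 214) (nat_lit 2) (nat_lit 157) (nat_lit 159) (nat_lit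 134)) (PT.lf (nat_lit 15428) (nat_lit 6) (nat_lit 203) (nat_lit 2) (nat_lit 158) (nat_lit 159) (nat_lit 133)))))) (PT.nd (nat_lit 546) (PT.nd (nat_lit 234) (PT.nd (nat_lit 78) (PT.lf (nat_lit 14820) (nat_lit 3) (nat_lit 195) (nat_lit 0) (nat_lit 159) (nat_lit 159) (nat_lit 132)) (PT.nd (nat_lit 78) (PT.lf (nat_lit 14212) (nat_lit 6) (nat_lit 187) (nat_lit 0) (nat_lit 160) (nat_lit 159) (nat_lit 131)) (PT.lf (nat_lit 13604) (nat_lit 6) (nat_lit 179) (nat_lit 0) (nat_lit 161) (nat_lit 159) (nat_lit 130)))) (PT.nd (nat_lit 156) (PT.nd (nat_lit 78) (PT.lf (nat_lit 12996) (nat_lit 6) (nat_lit 171) (nat_lit 0) (nat_lit 162) (nat_lit 159) (nat_lit 129)) (PT.lf (nat_lit 12388) (nat_lit 6) (nat_lit 163) (nat_lit 0) (nat_lit 163) (nat_lit 159) (nat_lit 128))) (PT.nd (nat_lit 78) (PT.lf (nat_lit 11856) (nat_lit 6) (nat_lit 156) (nat_lit 0) (nat_lit 164) (nat_lit 159) (nat_lit 127)) (PT.lf (nat_lit 11324) (nat_lit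 6) (nat_lit 149) (nat_lit 0) (nat_lit 165) (nat_lit 159) (nat_lit 126))))) (PT.nd (nat_lit 234) (PT.nd (nat_lit 78) (PT.lf (nat_lit 10792) (nat_lit 6) (nat_lit 142) (nat_lit 0) (nat_lit 166) (nat_lit 159) (nat_lit 125)) (PT.nd (nat_lit 78) (PT.lf (nat_lit 10260) (nat_lit 6) (nat_lit 135) (nat_lit 0) (nat_lit 167) (nat_lit 159) (nat_lit 124)) (PT.lf (nat_lit 9804) (nat_lit 6) (nat_lit 129) (nat_lit 0) (nat_lit 168) (nat_lit 159) (nat_lit 123)))) (PT.nd (nat_lit 43212) (PT.nd (nat_lit 43134) (PT.lf (nat_lit 9348) (nat_lit 6) (nat_lit 123) (nat_lit 0) (nat_lit 169) (nat_lit 159) (nat_lit 122)) (PT.lf (nat_lit 8968) (nat_lit 6) (nat_lit 118) (nat_lit 5) (nat_lit 121) (nat_lit 160) (nat_lit 169))) (PT.nd (nat_lit 78) (PT.lf (nat_lit 9424) (nat_lit 6) (nat_lit 124) (nat_lit 5) (nat_lit 122) (nat_lit 160) (nat_lit 168)) (PT.lf (nat_lit 9880) (nat_lit 6) (nat_lit 130) (nat_lit 5) (nat_lit 123) (nat_lit 160)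 (nat_lit 167))))))))
noncomputable def pc20 : PT := (PT.nd (nat_lit 2106) (PT.nd (nat_lit 1014) (PT.nd (nat_lit 468) (PT.nd (nat_lit 234) (PT.nd (nat_lit 78) (PT.lf (nat_lit 10336) (nat_lit 6) (nat_lit 136) (nat_lit 5) (nat_lit 124) (nat_lit 160) (nat_lit 166)) (PT.nd (nat_lit 78) (PT.lf (nat_lit 10868) (nat_lit 6) (nat_lit 143) (nat_lit 5) (nat_lit 125) (nat_lit 160) (nat_lit 165)) (PT.lf (nat_lit 11400) (nat_lit 6) (nat_lit 150) (nat_lit 5) (nat_lit 126) (nat_lit 160) (nat_lit 164)))) (PT.nd (nat_lit 78) (PT.lf (nat_lit 11932) (nat_lit 6) (nat_lit 157) (nat_lit 5) (nat_lit 127) (nat_lit 160) (nat_lit 163)) (PT.nd (nat_lit 78) (PT.lf (nat_lit 12464) (nat_lit 6) (nat_lit 164) (nat_lit 5) (nat_lit 128) (nat_lit 160) (nat_lit 162)) (PT.lf (nat_lit 13072) (nat_lit 6) (nat_lit 172) (nat_lit 5) (nat_lit 129) (nat_lit 160) (nat_lit 161))))) (PT.nd (nat_lit 234) (PT.nd (nat_lit 78) (PT.lf (nat_lit 13680)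 (nat_lit 3) (nat_lit 180) (nat_lit 4) (nat_lit 130) (nat_lit 160) (nat_lit 160)) (PT.nd (nat_lit 78) (PT.lf (nat_lit 14212) (nat_lit 6) (nat_lit 187) (nat_lit 4) (nat_lit 131) (nat_lit 160) (nat_lit 159)) (PT.lf (nat_lit 14744) (nat_lit 6) (nat_lit 194) (nat_lit 4) (nat_lit 132) (nat_lit 160) (nat_lit 158)))) (PT.nd (nat_lit 156) (PT.nd (nat_lit 78) (PT.lf (nat_lit 15352) (nat_lit 6) (nat_lit 202) (nat_lit 4) (nat_lit 133) (nat_lit 160) (nat_lit 157)) (PT.lf (nat_lit 16188) (nat_lit 6) (nat_lit 213) (nat_lit 4) (nat_lit 134) (nat_lit 160) (nat_lit 156))) (PT.nd (nat_lit 78) (PT.lf (nat_lit 17328) (nat_lit 6) (nat_lit 228) (nat_lit 4) (nat_lit 135) (nat_lit 160) (nat_lit 155)) (PT.lf (nat_lit 18392) (nat_lit 6) (nat_lit 242) (nat_lit 4) (nat_lit 136) (nat_lit 160) (nat_lit 154)))))) (PT.nd (nat_lit 546) (PT.nd (nat_lit 234) (PT.nd (nat_lit 78) (PT.lf (nat_lit 19380) (nat_lit 6) (nat_lit 255) (nat_lit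 4) (nat_lit 137) (nat_lit 160) (nat_lit 153)) (PT.nd (nat_lit 78) (PT.lf (nat_lit 20292) (nat_lit 6) (nat_lit 267) (nat_lit 4) (nat_lit 138) (nat_lit 160) (nat_lit 152)) (PT.lf (nat_lit 21128) (nat_lit 6) (nat_lit 278) (nat_lit 4) (nat_lit 139) (nat_lit 160) (nat_lit 151)))) (PT.nd (nat_lit 156) (PT.nd (nat_lit 78) (PT.lf (nat_lit 21888) (nat_lit 6) (nat_lit 288) (nat_lit 4) (nat_lit 140) (nat_lit 160) (nat_lit 150)) (PT.lf (nat_lit 21812) (nat_lit 6) (nat_lit 287) (nat_lit 4) (nat_lit 141) (nat_lit 160) (nat_lit 149))) (PT.nd (nat_lit 78) (PT.lf (nat_lit 21736) (nat_lit 6) (nat_lit 286) (nat_lit 4) (nat_lit 142) (nat_lit 160) (nat_lit 148)) (PT.lf (nat_lit 21660) (nat_lit 6) (nat_lit 285) (nat_lit 4) (nat_lit 143) (nat_lit 160) (nat_lit 147))))) (PT.nd (nat_lit 234) (PT.nd (nat_lit 78) (PT.lf (nat_lit 21584) (nat_lit 6) (nat_lit 284) (nat_lit 4) (nat_lit 144) (nat_lit 160) (nat_lit 146)) (PT.nd (nat_lit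 78) (PT.lf (nat_lit 21508) (nat_lit 3) (nat_lit 283) (nat_lit 2) (nat_lit 145) (nat_lit 160) (nat_lit 145)) (PT.lf (nat_lit 21584) (nat_lit 6) (nat_lit 284) (nat_lit 2) (nat_lit 146) (nat_lit 160) (nat_lit 144)))) (PT.nd (nat_lit 156) (PT.nd (nat_lit 78) (PT.lf (nat_lit 21660) (nat_lit 6) (nat_lit 285) (nat_lit 2) (nat_lit 147) (nat_lit 160) (nat_lit 143)) (PT.lf (nat_lit 21736) (nat_lit 6) (nat_lit 286) (nat_lit 2) (nat_lit 148) (nat_lit 160) (nat_lit 142))) (PT.nd (nat_lit 78) (PT.lf (nat_lit 21812) (nat_lit 6) (nat_lit 287) (nat_lit 2) (nat_lit 149) (nat_lit 160) (nat_lit 141)) (PT.lf (nat_lit 21888) (nat_lit 6) (nat_lit 288) (nat_lit 2) (nat_lit 150) (nat_lit 160) (nat_lit 140))))))) (PT.nd (nat_lit 1014) (PT.nd (nat_lit 468) (PT.nd (nat_lit 234) (PT.nd (nat_lit 78) (PT.lf (nat_lit 21128) (nat_lit 6) (nat_lit 278) (nat_lit 2) (nat_lit 151) (nat_lit 160) (nat_lit 139)) (PT.nd (nat_lit 78) (PT.lf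 (nat_lit 20292) (nat_lit 6) (nat_lit 267) (nat_lit 2) (nat_lit 152) (nat_lit 160) (nat_lit 138)) (PT.lf (nat_lit 19380) (nat_lit 6) (nat_lit 255) (nat_lit 2) (nat_lit 153) (nat_lit 160) (nat_lit 137)))) (PT.nd (nat_lit 78) (PT.lf (nat_lit 18392) (nat_lit 6) (nat_lit 242) (nat_lit 2) (nat_lit 154) (nat_lit 160) (nat_lit 136)) (PT.nd (nat_lit 78) (PT.lf (nat_lit 17328) (nat_lit 6) (nat_lit 228) (nat_lit 2) (nat_lit 155) (nat_lit 160) (nat_lit 135)) (PT.lf (nat_lit 16188) (nat_lit 6) (nat_lit 213) (nat_lit 2) (nat_lit 156) (nat_lit 160) (nat_lit 134))))) (PT.nd (nat_lit 234) (PT.nd (nat_lit 78) (PT.lf (nat_lit 15352) (nat_lit 6) (nat_lit 202) (nat_lit 2) (nat_lit 157) (nat_lit 160) (nat_lit 133)) (PT.nd (nat_lit 78) (PT.lf (nat_lit 14744) (nat_lit 6) (nat_lit 194) (nat_lit 2) (nat_lit 158) (nat_lit 160) (nat_lit 132)) (PT.lf (nat_lit 14212) (nat_lit 6) (nat_lit 187) (nat_lit 2) (nat_lit 159) (nat_lit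 160) (nat_lit 131)))) (PT.nd (nat_lit 156) (PT.nd (nat_lit 78) (PT.lf (nat_lit 13680) (nat_lit 3) (nat_lit 180) (nat_lit 0) (nat_lit 160) (nat_lit 160) (nat_lit 130)) (PT.lf (nat_lit 13072) (nat_lit 6) (nat_lit 172) (nat_lit 0) (nat_lit 161) (nat_lit 160) (nat_lit 129))) (PT.nd (nat_lit 78) (PT.lf (nat_lit 12464) (nat_lit 6) (nat_lit 164) (nat_lit 0) (nat_lit 162) (nat_lit 160) (nat_lit 128)) (PT.lf (nat_lit 11932) (nat_lit 6) (nat_lit 157) (nat_lit 0) (nat_lit 163) (nat_lit 160) (nat_lit 127)))))) (PT.nd (nat_lit 43524) (PT.nd (nat_lit 234) (PT.nd (nat_lit 78) (PT.lf (nat_lit 11400) (nat_lit 6) (nat_lit 150) (nat_lit 0) (nat_lit 164) (nat_lit 160) (nat_lit 126)) (PT.nd (nat_lit 78) (PT.lf (nat_lit 10868) (nat_lit 6) (nat_lit 143) (nat_lit 0) (nat_lit 165) (nat_lit 160) (nat_lit 125)) (PT.lf (nat_lit 10336) (nat_lit 6) (nat_lit 136) (nat_lit 0) (nat_lit 166) (nat_lit 160) (nat_lit 124)))) (PT.nd (nat_lit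 156) (PT.nd (nat_lit 78) (PT.lf (nat_lit 9880) (nat_lit 6) (nat_lit 130) (nat_lit 0) (nat_lit 167) (nat_lit 160) (nat_lit 123)) (PT.lf (nat_lit 9424) (nat_lit 6) (nat_lit 124) (nat_lit 0) (nat_lit 168) (nat_lit 160) (nat_lit 122))) (PT.nd (nat_lit 43056) (PT.lf (nat_lit 8968) (nat_lit 6) (nat_lit 118) (nat_lit 0) (nat_lit 169) (nat_lit 160) (nat_lit 121)) (PT.lf (nat_lit 8588) (nat_lit 6) (nat_lit 113) (nat_lit 5) (nat_lit 120) (nat_lit 161) (nat_lit 169))))) (PT.nd (nat_lit 234) (PT.nd (nat_lit 78) (PT.lf (nat_lit 9044) (nat_lit 6) (nat_lit 119) (nat_lit 5) (nat_lit 121) (nat_lit 161) (nat_lit 168)) (PT.nd (nat_lit 78) (PT.lf (nat_lit 9500) (nat_lit 6) (nat_lit 125) (nat_lit 5) (nat_lit 122) (nat_lit 161) (nat_lit 167)) (PT.lf (nat_lit 9956) (nat_lit 6) (nat_lit 131) (nat_lit 5) (nat_lit 123) (nat_lit 161) (nat_lit 166)))) (PT.nd (nat_lit 156) (PT.nd (nat_lit 78) (PT.lf (nat_lit 10412) (nat_lit 6)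 (nat_lit 137) (nat_lit 5) (nat_lit 124) (nat_lit 161) (nat_lit 165)) (PT.lf (nat_lit 10944) (nat_lit 6) (nat_lit 144) (nat_lit 5) (nat_lit 125) (nat_lit 161) (nat_lit 164))) (PT.nd (nat_lit 78) (PT.lf (nat_lit 11476) (nat_lit 6) (nat_lit 151) (nat_lit 5) (nat_lit 126) (nat_lit 161) (nat_lit 163)) (PT.lf (nat_lit 12008) (nat_lit 6) (nat_lit 158) (nat_lit 5) (nat_lit 127) (nat_lit 161) (nat_lit 162))))))))
noncomputable def pc21 : PT := (PT.nd (nat_lit 2106) (PT.nd (nat_lit 1014) (PT.nd (nat_lit 468) (PT.nd (nat_lit 234) (PT.nd (nat_lit 78) (PT.lf (nat_lit 12540) (nat_lit 3) (nat_lit 165) (nat_lit 4) (nat_lit 128) (nat_lit 161) (nat_lit 161)) (PT.nd (nat_lit 78) (PT.lf (nat_lit 13072) (nat_lit 6) (nat_lit 172) (nat_lit 4) (nat_lit 129) (nat_lit 161) (nat_lit 160)) (PT.lf (nat_lit 13604) (nat_lit 6) (nat_lit 179) (nat_lit 4) (nat_lit 130) (nat_lit 161) (nat_lit 159)))) (PT.nd (nat_lit 78) (PT.lf (nat_lit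 14136) (nat_lit 6) (nat_lit 186) (nat_lit 4) (nat_lit 131) (nat_lit 161) (nat_lit 158)) (PT.nd (nat_lit 78) (PT.lf (nat_lit 14668) (nat_lit 6) (nat_lit 193) (nat_lit 4) (nat_lit 132) (nat_lit 161) (nat_lit 157)) (PT.lf (nat_lit 15276) (nat_lit 6) (nat_lit 201) (nat_lit 4) (nat_lit 133) (nat_lit 161) (nat_lit 156))))) (PT.nd (nat_lit 234) (PT.nd (nat_lit 78) (PT.lf (nat_lit 16112) (nat_lit 6) (nat_lit 212) (nat_lit 4) (nat_lit 134) (nat_lit 161) (nat_lit 155)) (PT.nd (nat_lit 78) (PT.lf (nat_lit 17252) (nat_lit 6) (nat_lit 227) (nat_lit 4) (nat_lit 135) (nat_lit 161) (nat_lit 154)) (PT.lf (nat_lit 18316) (nat_lit 6) (nat_lit 241) (nat_lit 4) (nat_lit 136) (nat_lit 161) (nat_lit 153)))) (PT.nd (nat_lit 156) (PT.nd (nat_lit 78) (PT.lf (nat_lit 19304) (nat_lit 6) (nat_lit 254) (nat_lit 4) (nat_lit 137) (nat_lit 161) (nat_lit 152)) (PT.lf (nat_lit 20216) (nat_lit 6) (nat_lit 266) (nat_lit 4) (nat_lit 138)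 (nat_lit 161) (nat_lit 151))) (PT.nd (nat_lit 78) (PT.lf (nat_lit 21052) (nat_lit 6) (nat_lit 277) (nat_lit 4) (nat_lit 139) (nat_lit 161) (nat_lit 150)) (PT.lf (nat_lit 20976) (nat_lit 6) (nat_lit 276) (nat_lit 4) (nat_lit 140) (nat_lit 161) (nat_lit 149)))))) (PT.nd (nat_lit 546) (PT.nd (nat_lit 234) (PT.nd (nat_lit 78) (PT.lf (nat_lit 20900) (nat_lit 6) (nat_lit 275) (nat_lit 4) (nat_lit 141) (nat_lit 161) (nat_lit 148)) (PT.nd (nat_lit 78) (PT.lf (nat_lit 20824) (nat_lit 6) (nat_lit 274) (nat_lit 4) (nat_lit 142) (nat_lit 161) (nat_lit 147)) (PT.lf (nat_lit 20748) (nat_lit 6) (nat_lit 273) (nat_lit 4) (nat_lit 143) (nat_lit 161) (nat_lit 146)))) (PT.nd (nat_lit 156) (PT.nd (nat_lit 78) (PT.lf (nat_lit 20672) (nat_lit 6) (nat_lit 272) (nat_lit 4) (nat_lit 144) (nat_lit 161) (nat_lit 145)) (PT.lf (nat_lit 20672) (nat_lit 6) (nat_lit 272) (nat_lit 2) (nat_lit 145) (nat_lit 161) (nat_lit 144))) (PT.nd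 (nat_lit 78) (PT.lf (nat_lit 20748) (nat_lit 6) (nat_lit 273) (nat_lit 2) (nat_lit 146) (nat_lit 161) (nat_lit 143)) (PT.lf (nat_lit 20824) (nat_lit 6) (nat_lit 274) (nat_lit 2) (nat_lit 147) (nat_lit 161) (nat_lit 142))))) (PT.nd (nat_lit 234) (PT.nd (nat_lit 78) (PT.lf (nat_lit 20900) (nat_lit 6) (nat_lit 275) (nat_lit 2) (nat_lit 148) (nat_lit 161) (nat_lit 141)) (PT.nd (nat_lit 78) (PT.lf (nat_lit 20976) (nat_lit 6) (nat_lit 276) (nat_lit 2) (nat_lit 149) (nat_lit 161) (nat_lit 140)) (PT.lf (nat_lit 21052) (nat_lit 6) (nat_lit 277) (nat_lit 2) (nat_lit 150) (nat_lit 161) (nat_lit 139)))) (PT.nd (nat_lit 156) (PT.nd (nat_lit 78) (PT.lf (nat_lit 20216) (nat_lit 6) (nat_lit 266) (nat_lit 2) (nat_lit 151) (nat_lit 161) (nat_lit 138)) (PT.lf (nat_lit 19304) (nat_lit 6) (nat_lit 254) (nat_lit 2) (nat_lit 152) (nat_lit 161) (nat_lit 137))) (PT.nd (nat_lit 78) (PT.lf (nat_lit 18316) (nat_lit 6) (nat_lit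 241) (nat_lit 2) (nat_lit 153) (nat_lit 161) (nat_lit 136)) (PT.lf (nat_lit 17252) (nat_lit 6) (nat_lit 227) (nat_lit 2) (nat_lit 154) (nat_lit 161) (nat_lit 135))))))) (PT.nd (nat_lit 1092) (PT.nd (nat_lit 546) (PT.nd (nat_lit 234) (PT.nd (nat_lit 78) (PT.lf (nat_lit 16112) (nat_lit 6) (nat_lit 212) (nat_lit 2) (nat_lit 155) (nat_lit 161) (nat_lit 134)) (PT.nd (nat_lit 78) (PT.lf (nat_lit 15276) (nat_lit 6) (nat_lit 201) (nat_lit 2) (nat_lit 156) (nat_lit 161) (nat_lit 133)) (PT.lf (nat_lit 14668) (nat_lit 6) (nat_lit 193) (nat_lit 2) (nat_lit 157) (nat_lit 161) (nat_lit 132)))) (PT.nd (nat_lit 156) (PT.nd (nat_lit 78) (PT.lf (nat_lit 14136) (nat_lit 6) (nat_lit 186) (nat_lit 2) (nat_lit 158) (nat_lit 161) (nat_lit 131)) (PT.lf (nat_lit 13604) (nat_lit 6) (nat_lit 179) (nat_lit 2) (nat_lit 159) (nat_lit 161) (nat_lit 130))) (PT.nd (nat_lit 78) (PT.lf (nat_lit 13072) (nat_lit 6) (nat_lit 172) (nat_lit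 2) (nat_lit 160) (nat_lit 161) (nat_lit 129)) (PT.lf (nat_lit 12540) (nat_lit 3) (nat_lit 165) (nat_lit 0) (nat_lit 161) (nat_lit 161) (nat_lit 128))))) (PT.nd (nat_lit 234) (PT.nd (nat_lit 78) (PT.lf (nat_lit 12008) (nat_lit 6) (nat_lit 158) (nat_lit 0) (nat_lit 162) (nat_lit 161) (nat_lit 127)) (PT.nd (nat_lit 78) (PT.lf (nat_lit 11476) (nat_lit 6) (nat_lit 151) (nat_lit 0) (nat_lit 163) (nat_lit 161) (nat_lit 126)) (PT.lf (nat_lit 10944) (nat_lit 6) (nat_lit 144) (nat_lit 0) (nat_lit 164) (nat_lit 161) (nat_lit 125)))) (PT.nd (nat_lit 156) (PT.nd (nat_lit 78) (PT.lf (nat_lit 10412) (nat_lit 6) (nat_lit 137) (nat_lit 0) (nat_lit 165) (nat_lit 161) (nat_lit 124)) (PT.lf (nat_lit 9956) (nat_lit 6) (nat_lit 131) (nat_lit 0) (nat_lit 166) (nat_lit 161) (nat_lit 123))) (PT.nd (nat_lit 78) (PT.lf (nat_lit 9500) (nat_lit 6) (nat_lit 125) (nat_lit 0) (nat_lit 167) (nat_lit 161) (nat_lit 122)) (PT.lf (nat_lit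 9044) (nat_lit 6) (nat_lit 119) (nat_lit 0) (nat_lit 168) (nat_lit 161) (nat_lit 121)))))) (PT.nd (nat_lit 43368) (PT.nd (nat_lit 43056) (PT.nd (nat_lit 42900) (PT.lf (nat_lit 8588) (nat_lit 6) (nat_lit 113) (nat_lit 0) (nat_lit 169) (nat_lit 161) (nat_lit 120)) (PT.nd (nat_lit 78) (PT.lf (nat_lit 7828) (nat_lit 6) (nat_lit 103) (nat_lit 5) (nat_lit 118) (nat_lit 162) (nat_lit 170)) (PT.lf (nat_lit 8284) (nat_lit 6) (nat_lit 109) (nat_lit 5) (nat_lit 119) (nat_lit 162) (nat_lit 169)))) (PT.nd (nat_lit 156) (PT.nd (nat_lit 78) (PT.lf (nat_lit 8664) (nat_lit 6) (nat_lit 114) (nat_lit 5) (nat_lit 120) (nat_lit 162) (nat_lit 168)) (PT.lf (nat_lit 9120) (nat_lit 6) (nat_lit 120) (nat_lit 5) (nat_lit 121) (nat_lit 162) (nat_lit 167))) (PT.nd (nat_lit 78) (PT.lf (nat_lit 9576) (nat_lit 6) (nat_lit 126) (nat_lit 5) (nat_lit 122) (nat_lit 162) (nat_lit 166)) (PT.lf (nat_lit 10032) (nat_lit 6) (nat_lit 132)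 (nat_lit 5) (nat_lit 123) (nat_lit 162) (nat_lit 165))))) (PT.nd (nat_lit 234) (PT.nd (nat_lit 78) (PT.lf (nat_lit 10488) (nat_lit 6) (nat_lit 138) (nat_lit 5) (nat_lit 124) (nat_lit 162) (nat_lit 164)) (PT.nd (nat_lit 78) (PT.lf (nat_lit 11020) (nat_lit 6) (nat_lit 145) (nat_lit 5) (nat_lit 125) (nat_lit 162) (nat_lit 163)) (PT.lf (nat_lit 11552) (nat_lit 3) (nat_lit 152) (nat_lit 4) (nat_lit 126) (nat_lit 162) (nat_lit 162)))) (PT.nd (nat_lit 156) (PT.nd (nat_lit 78) (PT.lf (nat_lit 12008) (nat_lit 6) (nat_lit 158) (nat_lit 4) (nat_lit 127) (nat_lit 162) (nat_lit 161)) (PT.lf (nat_lit 12464) (nat_lit 6) (nat_lit 164) (nat_lit 4) (nat_lit 128) (nat_lit 162) (nat_lit 160))) (PT.nd (nat_lit 78) (PT.lf (nat_lit 12996) (nat_lit 6) (nat_lit 171) (nat_lit 4) (nat_lit 129) (nat_lit 162) (nat_lit 159)) (PT.lf (nat_lit 13528) (nat_lit 6) (nat_lit 178) (nat_lit 4) (nat_lit 130) (nat_lit 162) (nat_lit 158))))))))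
noncomputable def pc22 : PT := (PT.nd (nat_lit 2106) (PT.nd (nat_lit 1014) (PT.nd (nat_lit 468) (PT.nd (nat_lit 234) (PT.nd (nat_lit 78) (PT.lf (nat_lit 14060) (nat_lit 6) (nat_lit 185) (nat_lit 4) (nat_lit 131) (nat_lit 162) (nat_lit 157)) (PT.nd (nat_lit 78) (PT.lf (nat_lit 14592) (nat_lit 6) (nat_lit 192) (nat_lit 4) (nat_lit 132) (nat_lit 162) (nat_lit 156)) (PT.lf (nat_lit 15200) (nat_lit 6) (nat_lit 200) (nat_lit 4) (nat_lit 133) (nat_lit 162) (nat_lit 155)))) (PT.nd (nat_lit 78) (PT.lf (nat_lit 16036) (nat_lit 6) (nat_lit 211) (nat_lit 4) (nat_lit 134) (nat_lit 162) (nat_lit 154)) (PT.nd (nat_lit 78) (PT.lf (nat_lit 17176) (nat_lit 6) (nat_lit 226) (nat_lit 4) (nat_lit 135) (nat_lit 162) (nat_lit 153)) (PT.lf (nat_lit 18240) (nat_lit 6) (nat_lit 240) (nat_lit 4) (nat_lit 136) (nat_lit 162) (nat_lit 152))))) (PT.nd (nat_lit 234) (PT.nd (nat_lit 78) (PT.lf (nat_lit 19228) (nat_lit 6) (nat_lit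 253) (nat_lit 4) (nat_lit 137) (nat_lit 162) (nat_lit 151)) (PT.nd (nat_lit 78) (PT.lf (nat_lit 20140) (nat_lit 6) (nat_lit 265) (nat_lit 4) (nat_lit 138) (nat_lit 162) (nat_lit 150)) (PT.lf (nat_lit 20064) (nat_lit 6) (nat_lit 264) (nat_lit 4) (nat_lit 139) (nat_lit 162) (nat_lit 149)))) (PT.nd (nat_lit 156) (PT.nd (nat_lit 78) (PT.lf (nat_lit 19988) (nat_lit 6) (nat_lit 263) (nat_lit 4) (nat_lit 140) (nat_lit 162) (nat_lit 148)) (PT.lf (nat_lit 19912) (nat_lit 6) (nat_lit 262) (nat_lit 4) (nat_lit 141) (nat_lit 162) (nat_lit 147))) (PT.nd (nat_lit 78) (PT.lf (nat_lit 19836) (nat_lit 6) (nat_lit 261) (nat_lit 4) (nat_lit 142) (nat_lit 162) (nat_lit 146)) (PT.lf (nat_lit 19760) (nat_lit 6) (nat_lit 260) (nat_lit 4) (nat_lit 143) (nat_lit 162) (nat_lit 145)))))) (PT.nd (nat_lit 546) (PT.nd (nat_lit 234) (PT.nd (nat_lit 78) (PT.lf (nat_lit 19684) (nat_lit 3) (nat_lit 259) (nat_lit 2) (nat_lit 144) (nat_lit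 162) (nat_lit 144)) (PT.nd (nat_lit 78) (PT.lf (nat_lit 19760) (nat_lit 6) (nat_lit 260) (nat_lit 2) (nat_lit 145) (nat_lit 162) (nat_lit 143)) (PT.lf (nat_lit 19836) (nat_lit 6) (nat_lit 261) (nat_lit 2) (nat_lit 146) (nat_lit 162) (nat_lit 142)))) (PT.nd (nat_lit 156) (PT.nd (nat_lit 78) (PT.lf (nat_lit 19912) (nat_lit 6) (nat_lit 262) (nat_lit 2) (nat_lit 147) (nat_lit 162) (nat_lit 141)) (PT.lf (nat_lit 19988) (nat_lit 6) (nat_lit 263) (nat_lit 2) (nat_lit 148) (nat_lit 162) (nat_lit 140))) (PT.nd (nat_lit 78) (PT.lf (nat_lit 20064) (nat_lit 6) (nat_lit 264) (nat_lit 2) (nat_lit 149) (nat_lit 162) (nat_lit 139)) (PT.lf (nat_lit 20140) (nat_lit 6) (nat_lit 265) (nat_lit 2) (nat_lit 150) (nat_lit 162) (nat_lit 138))))) (PT.nd (nat_lit 234) (PT.nd (nat_lit 78) (PT.lf (nat_lit 19228) (nat_lit 6) (nat_lit 253) (nat_lit 2) (nat_lit 151) (nat_lit 162) (nat_lit 137)) (PT.nd (nat_lit 78) (PT.lf (nat_lit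 18240) (nat_lit 6) (nat_lit 240) (nat_lit 2) (nat_lit 152) (nat_lit 162) (nat_lit 136)) (PT.lf (nat_lit 17176) (nat_lit 6) (nat_lit 226) (nat_lit 2) (nat_lit 153) (nat_lit 162) (nat_lit 135)))) (PT.nd (nat_lit 156) (PT.nd (nat_lit 78) (PT.lf (nat_lit 16036) (nat_lit 6) (nat_lit 211) (nat_lit 2) (nat_lit 154) (nat_lit 162) (nat_lit 134)) (PT.lf (nat_lit 15200) (nat_lit 6) (nat_lit 200) (nat_lit 2) (nat_lit 155) (nat_lit 162) (nat_lit 133))) (PT.nd (nat_lit 78) (PT.lf (nat_lit 14592) (nat_lit 6) (nat_lit 192) (nat_lit 2) (nat_lit 156) (nat_lit 162) (nat_lit 132)) (PT.lf (nat_lit 14060) (nat_lit 6) (nat_lit 185) (nat_lit 2) (nat_lit 157) (nat_lit 162) (nat_lit 131))))))) (PT.nd (nat_lit 43680) (PT.nd (nat_lit 468) (PT.nd (nat_lit 234) (PT.nd (nat_lit 78) (PT.lf (nat_lit 13528) (nat_lit 6) (nat_lit 178) (nat_lit 2) (nat_lit 158) (nat_lit 162) (nat_lit 130)) (PT.nd (nat_lit 78) (PT.lf (nat_lit 12996) (nat_lit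 6) (nat_lit 171) (nat_lit 2) (nat_lit 159) (nat_lit 162) (nat_lit 129)) (PT.lf (nat_lit 12464) (nat_lit 6) (nat_lit 164) (nat_lit 2) (nat_lit 160) (nat_lit 162) (nat_lit 128)))) (PT.nd (nat_lit 78) (PT.lf (nat_lit 12008) (nat_lit 6) (nat_lit 158) (nat_lit 2) (nat_lit 161) (nat_lit 162) (nat_lit 127)) (PT.nd (nat_lit 78) (PT.lf (nat_lit 11552) (nat_lit 3) (nat_lit 152) (nat_lit 0) (nat_lit 162) (nat_lit 162) (nat_lit 126)) (PT.lf (nat_lit 11020) (nat_lit 6) (nat_lit 145) (nat_lit 0) (nat_lit 163) (nat_lit 162) (nat_lit 125))))) (PT.nd (nat_lit 234) (PT.nd (nat_lit 78) (PT.lf (nat_lit 10488) (nat_lit 6) (nat_lit 138) (nat_lit 0) (nat_lit 164) (nat_lit 162) (nat_lit 124)) (PT.nd (nat_lit 78) (PT.lf (nat_lit 10032) (nat_lit 6) (nat_lit 132) (nat_lit 0) (nat_lit 165) (nat_lit 162) (nat_lit 123)) (PT.lf (nat_lit 9576) (nat_lit 6) (nat_lit 126) (nat_lit 0) (nat_lit 166) (nat_lit 162) (nat_lit 122)))) (PT.nd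 (nat_lit 156) (PT.nd (nat_lit 78) (PT.lf (nat_lit 9120) (nat_lit 6) (nat_lit 120) (nat_lit 0) (nat_lit 167) (nat_lit 162) (nat_lit 121)) (PT.lf (nat_lit 8664) (nat_lit 6) (nat_lit 114) (nat_lit 0) (nat_lit 168) (nat_lit 162) (nat_lit 120))) (PT.nd (nat_lit 78) (PT.lf (nat_lit 8284) (nat_lit 6) (nat_lit 109) (nat_lit 0) (nat_lit 169) (nat_lit 162) (nat_lit 119)) (PT.lf (nat_lit 7828) (nat_lit 6) (nat_lit 103) (nat_lit 0) (nat_lit 170) (nat_lit 162) (nat_lit 118)))))) (PT.nd (nat_lit 546) (PT.nd (nat_lit 234) (PT.nd (nat_lit 78) (PT.lf (nat_lit 7524) (nat_lit 6) (nat_lit 99) (nat_lit 5) (nat_lit 117) (nat_lit 163) (nat_lit 170)) (PT.nd (nat_lit 78) (PT.lf (nat_lit 7904) (nat_lit 6) (nat_lit 104) (nat_lit 5) (nat_lit 118) (nat_lit 163) (nat_lit 169)) (PT.lf (nat_lit 8360) (nat_lit 6) (nat_lit 110) (nat_lit 5) (nat_lit 119) (nat_lit 163) (nat_lit 168)))) (PT.nd (nat_lit 156) (PT.nd (nat_lit 78) (PT.lf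 (nat_lit 8740) (nat_lit 6) (nat_lit 115) (nat_lit 5) (nat_lit 120) (nat_lit 163) (nat_lit 167)) (PT.lf (nat_lit 9196) (nat_lit 6) (nat_lit 121) (nat_lit 5) (nat_lit 121) (nat_lit 163) (nat_lit 166))) (PT.nd (nat_lit 78) (PT.lf (nat_lit 9652) (nat_lit 6) (nat_lit 127) (nat_lit 5) (nat_lit 122) (nat_lit 163) (nat_lit 165)) (PT.lf (nat_lit 10108) (nat_lit 6) (nat_lit 133) (nat_lit 5) (nat_lit 123) (nat_lit 163) (nat_lit 164))))) (PT.nd (nat_lit 234) (PT.nd (nat_lit 78) (PT.lf (nat_lit 10564) (nat_lit 3) (nat_lit 139) (nat_lit 4) (nat_lit 124) (nat_lit 163) (nat_lit 163)) (PT.nd (nat_lit 78) (PT.lf (nat_lit 11020) (nat_lit 6) (nat_lit 145) (nat_lit 4) (nat_lit 125) (nat_lit 163) (nat_lit 162)) (PT.lf (nat_lit 11476) (nat_lit 6) (nat_lit 151) (nat_lit 4) (nat_lit 126) (nat_lit 163) (nat_lit 161)))) (PT.nd (nat_lit 156) (PT.nd (nat_lit 78) (PT.lf (nat_lit 11932) (nat_lit 6) (nat_lit 157) (nat_lit 4) (nat_lit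 127) (nat_lit 163) (nat_lit 160)) (PT.lf (nat_lit 12388) (nat_lit 6) (nat_lit 163) (nat_lit 4) (nat_lit 128) (nat_lit 163) (nat_lit 159))) (PT.nd (nat_lit 78) (PT.lf (nat_lit 12920) (nat_lit 6) (nat_lit 170) (nat_lit 4) (nat_lit 129) (nat_lit 163) (nat_lit 158)) (PT.lf (nat_lit 13452) (nat_lit 6) (nat_lit 177) (nat_lit 4) (nat_lit 130) (nat_lit 163) (nat_lit 157))))))))
noncomputable def pc23 : PT := (PT.nd (nat_lit 2106) (PT.nd (nat_lit 1014) (PT.nd (nat_lit 468) (PT.nd (nat_lit 234) (PT.nd (nat_lit 78) (PT.lf (nat_lit 13984) (nat_lit 6) (nat_lit 184) (nat_lit 4) (nat_lit 131) (nat_lit 163) (nat_lit 156)) (PT.nd (nat_lit 78) (PT.lf (nat_lit 14516) (nat_lit 6) (nat_lit 191) (nat_lit 4) (nat_lit 132) (nat_lit 163) (nat_lit 155)) (PT.lf (nat_lit 15124) (nat_lit 6) (nat_lit 199) (nat_lit 4) (nat_lit 133) (nat_lit 163) (nat_lit 154)))) (PT.nd (nat_lit 78) (PT.lf (nat_lit 15960) (nat_lit 6) (nat_lit 210)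 (nat_lit 4) (nat_lit 134) (nat_lit 163) (nat_lit 153)) (PT.nd (nat_lit 78) (PT.lf (nat_lit 17100) (nat_lit 6) (nat_lit 225) (nat_lit 4) (nat_lit 135) (nat_lit 163) (nat_lit 152)) (PT.lf (nat_lit 18164) (nat_lit 6) (nat_lit 239) (nat_lit 4) (nat_lit 136) (nat_lit 163) (nat_lit 151))))) (PT.nd (nat_lit 234) (PT.nd (nat_lit 78) (PT.lf (nat_lit 19152) (nat_lit 6) (nat_lit 252) (nat_lit 4) (nat_lit 137) (nat_lit 163) (nat_lit 150)) (PT.nd (nat_lit 78) (PT.lf (nat_lit 19076) (nat_lit 6) (nat_lit 251) (nat_lit 4) (nat_lit 138) (nat_lit 163) (nat_lit 149)) (PT.lf (nat_lit 19000) (nat_lit 6) (nat_lit 250) (nat_lit 4) (nat_lit 139) (nat_lit 163) (nat_lit 148)))) (PT.nd (nat_lit 156) (PT.nd (nat_lit 78) (PT.lf (nat_lit 18924) (nat_lit 6) (nat_lit 249) (nat_lit 4) (nat_lit 140) (nat_lit 163) (nat_lit 147)) (PT.lf (nat_lit 18848) (nat_lit 6) (nat_lit 248) (nat_lit 4) (nat_lit 141) (nat_lit 163) (nat_lit 146)))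 (PT.nd (nat_lit 78) (PT.lf (nat_lit 18772) (nat_lit 6) (nat_lit 247) (nat_lit 4) (nat_lit 142) (nat_lit 163) (nat_lit 145)) (PT.lf (nat_lit 18696) (nat_lit 6) (nat_lit 246) (nat_lit 4) (nat_lit 143) (nat_lit 163) (nat_lit 144)))))) (PT.nd (nat_lit 546) (PT.nd (nat_lit 234) (PT.nd (nat_lit 78) (PT.lf (nat_lit 18696) (nat_lit 6) (nat_lit 246) (nat_lit 2) (nat_lit 144) (nat_lit 163) (nat_lit 143)) (PT.nd (nat_lit 78) (PT.lf (nat_lit 18772) (nat_lit 6) (nat_lit 247) (nat_lit 2) (nat_lit 145) (nat_lit 163) (nat_lit 142)) (PT.lf (nat_lit 18848) (nat_lit 6) (nat_lit 248) (nat_lit 2) (nat_lit 146) (nat_lit 163) (nat_lit 141)))) (PT.nd (nat_lit 156) (PT.nd (nat_lit 78) (PT.lf (nat_lit 18924) (nat_lit 6) (nat_lit 249) (nat_lit 2) (nat_lit 147) (nat_lit 163) (nat_lit 140)) (PT.lf (nat_lit 19000) (nat_lit 6) (nat_lit 250) (nat_lit 2) (nat_lit 148) (nat_lit 163) (nat_lit 139))) (PT.nd (nat_lit 78) (PT.lf (nat_lit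 19076) (nat_lit 6) (nat_lit 251) (nat_lit 2) (nat_lit 149) (nat_lit 163) (nat_lit 138)) (PT.lf (nat_lit 19152) (nat_lit 6) (nat_lit 252) (nat_lit 2) (nat_lit 150) (nat_lit 163) (nat_lit 137))))) (PT.nd (nat_lit 234) (PT.nd (nat_lit 78) (PT.lf (nat_lit 18164) (nat_lit 6) (nat_lit 239) (nat_lit 2) (nat_lit 151) (nat_lit 163) (nat_lit 136)) (PT.nd (nat_lit 78) (PT.lf (nat_lit 17100) (nat_lit 6) (nat_lit 225) (nat_lit 2) (nat_lit 152) (nat_lit 163) (nat_lit 135)) (PT.lf (nat_lit 15960) (nat_lit 6) (nat_lit 210) (nat_lit 2) (nat_lit 153) (nat_lit 163) (nat_lit 134)))) (PT.nd (nat_lit 156) (PT.nd (nat_lit 78) (PT.lf (nat_lit 15124) (nat_lit 6) (nat_lit 199) (nat_lit 2) (nat_lit 154) (nat_lit 163) (nat_lit 133)) (PT.lf (nat_lit 14516) (nat_lit 6) (nat_lit 191) (nat_lit 2) (nat_lit 155) (nat_lit 163) (nat_lit 132))) (PT.nd (nat_lit 78) (PT.lf (nat_lit 13984) (nat_lit 6) (nat_lit 184) (nat_lit 2) (nat_lit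 156) (nat_lit 163) (nat_lit 131)) (PT.lf (nat_lit 13452) (nat_lit 6) (nat_lit 177) (nat_lit 2) (nat_lit 157) (nat_lit 163) (nat_lit 130))))))) (PT.nd (nat_lit 43602) (PT.nd (nat_lit 546) (PT.nd (nat_lit 234) (PT.nd (nat_lit 78) (PT.lf (nat_lit 12920) (nat_lit 6) (nat_lit 170) (nat_lit 2) (nat_lit 158) (nat_lit 163) (nat_lit 129)) (PT.nd (nat_lit 78) (PT.lf (nat_lit 12388) (nat_lit 6) (nat_lit 163) (nat_lit 2) (nat_lit 159) (nat_lit 163) (nat_lit 128)) (PT.lf (nat_lit 11932) (nat_lit 6) (nat_lit 157) (nat_lit 2) (nat_lit 160) (nat_lit 163) (nat_lit 127)))) (PT.nd (nat_lit 156) (PT.nd (nat_lit 78) (PT.lf (nat_lit 11476) (nat_lit 6) (nat_lit 151) (nat_lit 2) (nat_lit 161) (nat_lit 163) (nat_lit 126)) (PT.lf (nat_lit 11020) (nat_lit 6) (nat_lit 145) (nat_lit 2) (nat_lit 162) (nat_lit 163) (nat_lit 125))) (PT.nd (nat_lit 78) (PT.lf (nat_lit 10564) (nat_lit 3) (nat_lit 139) (nat_lit 0) (nat_lit 163) (nat_lit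 163) (nat_lit 124)) (PT.lf (nat_lit 10108) (nat_lit 6) (nat_lit 133) (nat_lit 0) (nat_lit 164) (nat_lit 163) (nat_lit 123))))) (PT.nd (nat_lit 234) (PT.nd (nat_lit 78) (PT.lf (nat_lit 9652) (nat_lit 6) (nat_lit 127) (nat_lit 0) (nat_lit 165) (nat_lit 163) (nat_lit 122)) (PT.nd (nat_lit 78) (PT.lf (nat_lit 9196) (nat_lit 6) (nat_lit 121) (nat_lit 0) (nat_lit 166) (nat_lit 163) (nat_lit 121)) (PT.lf (nat_lit 8740) (nat_lit 6) (nat_lit 115) (nat_lit 0) (nat_lit 167) (nat_lit 163) (nat_lit 120)))) (PT.nd (nat_lit 156) (PT.nd (nat_lit 78) (PT.lf (nat_lit 8360) (nat_lit 6) (nat_lit 110) (nat_lit 0) (nat_lit 168) (nat_lit 163) (nat_lit 119)) (PT.lf (nat_lit 7904) (nat_lit 6) (nat_lit 104) (nat_lit 0) (nat_lit 169) (nat_lit 163) (nat_lit 118))) (PT.nd (nat_lit 42588) (PT.lf (nat_lit 7524) (nat_lit 6) (nat_lit 99) (nat_lit 0) (nat_lit 170) (nat_lit 163) (nat_lit 117)) (PT.lf (nat_lit 6840) (nat_lit 6) (nat_lit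 90) (nat_lit 5) (nat_lit 115) (nat_lit 164) (nat_lit 171)))))) (PT.nd (nat_lit 546) (PT.nd (nat_lit 234) (PT.nd (nat_lit 78) (PT.lf (nat_lit 7220) (nat_lit 6) (nat_lit 95) (nat_lit 5) (nat_lit 116) (nat_lit 164) (nat_lit 170)) (PT.nd (nat_lit 78) (PT.lf (nat_lit 7600) (nat_lit 6) (nat_lit 100) (nat_lit 5) (nat_lit 117) (nat_lit 164) (nat_lit 169)) (PT.lf (nat_lit 7980) (nat_lit 6) (nat_lit 105) (nat_lit 5) (nat_lit 118) (nat_lit 164) (nat_lit 168)))) (PT.nd (nat_lit 156) (PT.nd (nat_lit 78) (PT.lf (nat_lit 8436) (nat_lit 6) (nat_lit 111) (nat_lit 5) (nat_lit 119) (nat_lit 164) (nat_lit 167)) (PT.lf (nat_lit 8816) (nat_lit 6) (nat_lit 116) (nat_lit 5) (nat_lit 120) (nat_lit 164) (nat_lit 166))) (PT.nd (nat_lit 78) (PT.lf (nat_lit 9272) (nat_lit 6) (nat_lit 122) (nat_lit 5) (nat_lit 121) (nat_lit 164) (nat_lit 165)) (PT.lf (nat_lit 9728) (nat_lit 3) (nat_lit 128) (nat_lit 4) (nat_lit 122) (nat_lit 164)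 (nat_lit 164))))) (PT.nd (nat_lit 234) (PT.nd (nat_lit 78) (PT.lf (nat_lit 10108) (nat_lit 6) (nat_lit 133) (nat_lit 4) (nat_lit 123) (nat_lit 164) (nat_lit 163)) (PT.nd (nat_lit 78) (PT.lf (nat_lit 10488) (nat_lit 6) (nat_lit 138) (nat_lit 4) (nat_lit 124) (nat_lit 164) (nat_lit 162)) (PT.lf (nat_lit 10944) (nat_lit 6) (nat_lit 144) (nat_lit 4) (nat_lit 125) (nat_lit 164) (nat_lit 161)))) (PT.nd (nat_lit 156) (PT.nd (nat_lit 78) (PT.lf (nat_lit 11400) (nat_lit 6) (nat_lit 150) (nat_lit 4) (nat_lit 126) (nat_lit 164) (nat_lit 160)) (PT.lf (nat_lit 11856) (nat_lit 6) (nat_lit 156) (nat_lit 4) (nat_lit 127) (nat_lit 164) (nat_lit 159))) (PT.nd (nat_lit 78) (PT.lf (nat_lit 12312) (nat_lit 6) (nat_lit 162) (nat_lit 4) (nat_lit 128) (nat_lit 164) (nat_lit 158)) (PT.lf (nat_lit 12844) (nat_lit 6) (nat_lit 169) (nat_lit 4) (nat_lit 129) (nat_lit 164) (nat_lit 157))))))))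
noncomputable def pc24 : PT := (PT.nd (nat_lit 2106) (PT.nd (nat_lit 1014) (PT.nd (nat_lit 468) (PT.nd (nat_lit 234) (PT.nd (nat_lit 78) (PT.lf (nat_lit 13376) (nat_lit 6) (nat_lit 176) (nat_lit 4) (nat_lit 130) (nat_lit 164) (nat_lit 156)) (PT.nd (nat_lit 78) (PT.lf (nat_lit 13908) (nat_lit 6) (nat_lit 183) (nat_lit 4) (nat_lit 131) (nat_lit 164) (nat_lit 155)) (PT.lf (nat_lit 14440) (nat_lit 6) (nat_lit 190) (nat_lit 4) (nat_lit 132) (nat_lit 164) (nat_lit 154)))) (PT.nd (nat_lit 78) (PT.lf (nat_lit 15048) (nat_lit 6) (nat_lit 198) (nat_lit 4) (nat_lit 133) (nat_lit 164) (nat_lit 153)) (PT.nd (nat_lit 78) (PT.lf (nat_lit 15884) (nat_lit 6) (nat_lit 209) (nat_lit 4) (nat_lit 134) (nat_lit 164) (nat_lit 152)) (PT.lf (nat_lit 17024) (nat_lit 6) (nat_lit 224) (nat_lit 4) (nat_lit 135) (nat_lit 164) (nat_lit 151))))) (PT.nd (nat_lit 234) (PT.nd (nat_lit 78) (PT.lf (nat_lit 18088) (nat_lit 6) (nat_lit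 238) (nat_lit 4) (nat_lit 136) (nat_lit 164) (nat_lit 150)) (PT.nd (nat_lit 78) (PT.lf (nat_lit 18012) (nat_lit 6) (nat_lit 237) (nat_lit 4) (nat_lit 137) (nat_lit 164) (nat_lit 149)) (PT.lf (nat_lit 17936) (nat_lit 6) (nat_lit 236) (nat_lit 4) (nat_lit 138) (nat_lit 164) (nat_lit 148)))) (PT.nd (nat_lit 156) (PT.nd (nat_lit 78) (PT.lf (nat_lit 17860) (nat_lit 6) (nat_lit 235) (nat_lit 4) (nat_lit 139) (nat_lit 164) (nat_lit 147)) (PT.lf (nat_lit 17784) (nat_lit 6) (nat_lit 234) (nat_lit 4) (nat_lit 140) (nat_lit 164) (nat_lit 146))) (PT.nd (nat_lit 78) (PT.lf (nat_lit 17708) (nat_lit 6) (nat_lit 233) (nat_lit 4) (nat_lit 141) (nat_lit 164) (nat_lit 145)) (PT.lf (nat_lit 17632) (nat_lit 6) (nat_lit 232) (nat_lit 4) (nat_lit 142) (nat_lit 164) (nat_lit 144)))))) (PT.nd (nat_lit 546) (PT.nd (nat_lit 234) (PT.nd (nat_lit 78) (PT.lf (nat_lit 17556) (nat_lit 3) (nat_lit 231) (nat_lit 2) (nat_lit 143) (nat_lit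 164) (nat_lit 143)) (PT.nd (nat_lit 78) (PT.lf (nat_lit 17632) (nat_lit 6) (nat_lit 232) (nat_lit 2) (nat_lit 144) (nat_lit 164) (nat_lit 142)) (PT.lf (nat_lit 17708) (nat_lit 6) (nat_lit 233) (nat_lit 2) (nat_lit 145) (nat_lit 164) (nat_lit 141)))) (PT.nd (nat_lit 156) (PT.nd (nat_lit 78) (PT.lf (nat_lit 17784) (nat_lit 6) (nat_lit 234) (nat_lit 2) (nat_lit 146) (nat_lit 164) (nat_lit 140)) (PT.lf (nat_lit 17860) (nat_lit 6) (nat_lit 235) (nat_lit 2) (nat_lit 147) (nat_lit 164) (nat_lit 139))) (PT.nd (nat_lit 78) (PT.lf (nat_lit 17936) (nat_lit 6) (nat_lit 236) (nat_lit 2) (nat_lit 148) (nat_lit 164) (nat_lit 138)) (PT.lf (nat_lit 18012) (nat_lit 6) (nat_lit 237) (nat_lit 2) (nat_lit 149) (nat_lit 164) (nat_lit 137))))) (PT.nd (nat_lit 234) (PT.nd (nat_lit 78) (PT.lf (nat_lit 18088) (nat_lit 6) (nat_lit 238) (nat_lit 2) (nat_lit 150) (nat_lit 164) (nat_lit 136)) (PT.nd (nat_lit 78) (PT.lf (nat_lit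 17024) (nat_lit 6) (nat_lit 224) (nat_lit 2) (nat_lit 151) (nat_lit 164) (nat_lit 135)) (PT.lf (nat_lit 15884) (nat_lit 6) (nat_lit 209) (nat_lit 2) (nat_lit 152) (nat_lit 164) (nat_lit 134)))) (PT.nd (nat_lit 156) (PT.nd (nat_lit 78) (PT.lf (nat_lit 15048) (nat_lit 6) (nat_lit 198) (nat_lit 2) (nat_lit 153) (nat_lit 164) (nat_lit 133)) (PT.lf (nat_lit 14440) (nat_lit 6) (nat_lit 190) (nat_lit 2) (nat_lit 154) (nat_lit 164) (nat_lit 132))) (PT.nd (nat_lit 78) (PT.lf (nat_lit 13908) (nat_lit 6) (nat_lit 183) (nat_lit 2) (nat_lit 155) (nat_lit 164) (nat_lit 131)) (PT.lf (nat_lit 13376) (nat_lit 6) (nat_lit 176) (nat_lit 2) (nat_lit 156) (nat_lit 164) (nat_lit 130))))))) (PT.nd (nat_lit 1014) (PT.nd (nat_lit 468) (PT.nd (nat_lit 234) (PT.nd (nat_lit 78) (PT.lf (nat_lit 12844) (nat_lit 6) (nat_lit 169) (nat_lit 2) (nat_lit 157) (nat_lit 164) (nat_lit 129)) (PT.nd (nat_lit 78) (PT.lf (nat_lit 12312) (nat_lit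 6) (nat_lit 162) (nat_lit 2) (nat_lit 158) (nat_lit 164) (nat_lit 128)) (PT.lf (nat_lit 11856) (nat_lit 6) (nat_lit 156) (nat_lit 2) (nat_lit 159) (nat_lit 164) (nat_lit 127)))) (PT.nd (nat_lit 78) (PT.lf (nat_lit 11400) (nat_lit 6) (nat_lit 150) (nat_lit 2) (nat_lit 160) (nat_lit 164) (nat_lit 126)) (PT.nd (nat_lit 78) (PT.lf (nat_lit 10944) (nat_lit 6) (nat_lit 144) (nat_lit 2) (nat_lit 161) (nat_lit 164) (nat_lit 125)) (PT.lf (nat_lit 10488) (nat_lit 6) (nat_lit 138) (nat_lit 2) (nat_lit 162) (nat_lit 164) (nat_lit 124))))) (PT.nd (nat_lit 234) (PT.nd (nat_lit 78) (PT.lf (nat_lit 10108) (nat_lit 6) (nat_lit 133) (nat_lit 2) (nat_lit 163) (nat_lit 164) (nat_lit 123)) (PT.nd (nat_lit 78) (PT.lf (nat_lit 9728) (nat_lit 3) (nat_lit 128) (nat_lit 0) (nat_lit 164) (nat_lit 164) (nat_lit 122)) (PT.lf (nat_lit 9272) (nat_lit 6) (nat_lit 122) (nat_lit 0) (nat_lit 165) (nat_lit 164) (nat_lit 121)))) (PT.nd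 (nat_lit 156) (PT.nd (nat_lit 78) (PT.lf (nat_lit 8816) (nat_lit 6) (nat_lit 116) (nat_lit 0) (nat_lit 166) (nat_lit 164) (nat_lit 120)) (PT.lf (nat_lit 8436) (nat_lit 6) (nat_lit 111) (nat_lit 0) (nat_lit 167) (nat_lit 164) (nat_lit 119))) (PT.nd (nat_lit 78) (PT.lf (nat_lit 7980) (nat_lit 6) (nat_lit 105) (nat_lit 0) (nat_lit 168) (nat_lit 164) (nat_lit 118)) (PT.lf (nat_lit 7600) (nat_lit 6) (nat_lit 100) (nat_lit 0) (nat_lit 169) (nat_lit 164) (nat_lit 117)))))) (PT.nd (nat_lit 42900) (PT.nd (nat_lit 42588) (PT.nd (nat_lit 78) (PT.lf (nat_lit 7220) (nat_lit 6) (nat_lit 95) (nat_lit 0) (nat_lit 170) (nat_lit 164) (nat_lit 116)) (PT.nd (nat_lit 42432) (PT.lf (nat_lit 6840) (nat_lit 6) (nat_lit 90) (nat_lit 0) (nat_lit 171) (nat_lit 164) (nat_lit 115)) (PT.lf (nat_lit 6536) (nat_lit 6) (nat_lit 86) (nat_lit 5) (nat_lit 114) (nat_lit 165) (nat_lit 171)))) (PT.nd (nat_lit 156) (PT.nd (nat_lit 78) (PT.lf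 (nat_lit 6916) (nat_lit 6) (nat_lit 91) (nat_lit 5) (nat_lit 115) (nat_lit 165) (nat_lit 170)) (PT.lf (nat_lit 7296) (nat_lit 6) (nat_lit 96) (nat_lit 5) (nat_lit 116) (nat_lit 165) (nat_lit 169))) (PT.nd (nat_lit 78) (PT.lf (nat_lit 7676) (nat_lit 6) (nat_lit 101) (nat_lit 5) (nat_lit 117) (nat_lit 165) (nat_lit 168)) (PT.lf (nat_lit 8056) (nat_lit 6) (nat_lit 106) (nat_lit 5) (nat_lit 118) (nat_lit 165) (nat_lit 167))))) (PT.nd (nat_lit 234) (PT.nd (nat_lit 78) (PT.lf (nat_lit 8512) (nat_lit 6) (nat_lit 112) (nat_lit 5) (nat_lit 119) (nat_lit 165) (nat_lit 166)) (PT.nd (nat_lit 78) (PT.lf (nat_lit 8892) (nat_lit 3) (nat_lit 117) (nat_lit 4) (nat_lit 120) (nat_lit 165) (nat_lit 165)) (PT.lf (nat_lit 9272) (nat_lit 6) (nat_lit 122) (nat_lit 4) (nat_lit 121) (nat_lit 165) (nat_lit 164)))) (PT.nd (nat_lit 156) (PT.nd (nat_lit 78) (PT.lf (nat_lit 9652) (nat_lit 6) (nat_lit 127) (nat_lit 4) (nat_lit 122)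 (nat_lit 165) (nat_lit 163)) (PT.lf (nat_lit 10032) (nat_lit 6) (nat_lit 132) (nat_lit 4) (nat_lit 123) (nat_lit 165) (nat_lit 162))) (PT.nd (nat_lit 78) (PT.lf (nat_lit 10412) (nat_lit 6) (nat_lit 137) (nat_lit 4) (nat_lit 124) (nat_lit 165) (nat_lit 161)) (PT.lf (nat_lit 10868) (nat_lit 6) (nat_lit 143) (nat_lit 4) (nat_lit 125) (nat_lit 165) (nat_lit 160))))))))
noncomputable def pc25 : PT := (PT.nd (nat_lit 2106) (PT.nd (nat_lit 1014) (PT.nd (nat_lit 468) (PT.nd (nat_lit 234) (PT.nd (nat_lit 78) (PT.lf (nat_lit 11324) (nat_lit 6) (nat_lit 149) (nat_lit 4) (nat_lit 126) (nat_lit 165) (nat_lit 159)) (PT.nd (nat_lit 78) (PT.lf (nat_lit 11780) (nat_lit 6) (nat_lit 155) (nat_lit 4) (nat_lit 127) (nat_lit 165) (nat_lit 158)) (PT.lf (nat_lit 12236) (nat_lit 6) (nat_lit 161) (nat_lit 4) (nat_lit 128) (nat_lit 165) (nat_lit 157)))) (PT.nd (nat_lit 78) (PT.lf (nat_lit 12768) (nat_lit 6) (nat_lit 168) (nat_lit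 4) (nat_lit 129) (nat_lit 165) (nat_lit 156)) (PT.nd (nat_lit 78) (PT.lf (nat_lit 13300) (nat_lit 6) (nat_lit 175) (nat_lit 4) (nat_lit 130) (nat_lit 165) (nat_lit 155)) (PT.lf (nat_lit 13832) (nat_lit 6) (nat_lit 182) (nat_lit 4) (nat_lit 131) (nat_lit 165) (nat_lit 154))))) (PT.nd (nat_lit 234) (PT.nd (nat_lit 78) (PT.lf (nat_lit 14364) (nat_lit 6) (nat_lit 189) (nat_lit 4) (nat_lit 132) (nat_lit 165) (nat_lit 153)) (PT.nd (nat_lit 78) (PT.lf (nat_lit 14972) (nat_lit 6) (nat_lit 197) (nat_lit 4) (nat_lit 133) (nat_lit 165) (nat_lit 152)) (PT.lf (nat_lit 15808) (nat_lit 6) (nat_lit 208) (nat_lit 4) (nat_lit 134) (nat_lit 165) (nat_lit 151)))) (PT.nd (nat_lit 156) (PT.nd (nat_lit 78) (PT.lf (nat_lit 16948) (nat_lit 6) (nat_lit 223) (nat_lit 4) (nat_lit 135) (nat_lit 165) (nat_lit 150)) (PT.lf (nat_lit 16872) (nat_lit 6) (nat_lit 222) (nat_lit 4) (nat_lit 136) (nat_lit 165) (nat_lit 149))) (PT.nd (nat_lit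 78) (PT.lf (nat_lit 16796) (nat_lit 6) (nat_lit 221) (nat_lit 4) (nat_lit 137) (nat_lit 165) (nat_lit 148)) (PT.lf (nat_lit 16720) (nat_lit 6) (nat_lit 220) (nat_lit 4) (nat_lit 138) (nat_lit 165) (nat_lit 147)))))) (PT.nd (nat_lit 546) (PT.nd (nat_lit 234) (PT.nd (nat_lit 78) (PT.lf (nat_lit 16644) (nat_lit 6) (nat_lit 219) (nat_lit 4) (nat_lit 139) (nat_lit 165) (nat_lit 146)) (PT.nd (nat_lit 78) (PT.lf (nat_lit 16568) (nat_lit 6) (nat_lit 218) (nat_lit 4) (nat_lit 140) (nat_lit 165) (nat_lit 145)) (PT.lf (nat_lit 16492) (nat_lit 6) (nat_lit 217) (nat_lit 4) (nat_lit 141) (nat_lit 165) (nat_lit 144)))) (PT.nd (nat_lit 156) (PT.nd (nat_lit 78) (PT.lf (nat_lit 16416) (nat_lit 6) (nat_lit 216) (nat_lit 4) (nat_lit 142) (nat_lit 165) (nat_lit 143)) (PT.lf (nat_lit 16416) (nat_lit 6) (nat_lit 216) (nat_lit 2) (nat_lit 143) (nat_lit 165) (nat_lit 142))) (PT.nd (nat_lit 78) (PT.lf (nat_lit 16492) (nat_lit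 6) (nat_lit 217) (nat_lit 2) (nat_lit 144) (nat_lit 165) (nat_lit 141)) (PT.lf (nat_lit 16568) (nat_lit 6) (nat_lit 218) (nat_lit 2) (nat_lit 145) (nat_lit 165) (nat_lit 140))))) (PT.nd (nat_lit 234) (PT.nd (nat_lit 78) (PT.lf (nat_lit 16644) (nat_lit 6) (nat_lit 219) (nat_lit 2) (nat_lit 146) (nat_lit 165) (nat_lit 139)) (PT.nd (nat_lit 78) (PT.lf (nat_lit 16720) (nat_lit 6) (nat_lit 220) (nat_lit 2) (nat_lit 147) (nat_lit 165) (nat_lit 138)) (PT.lf (nat_lit 16796) (nat_lit 6) (nat_lit 221) (nat_lit 2) (nat_lit 148) (nat_lit 165) (nat_lit 137)))) (PT.nd (nat_lit 156) (PT.nd (nat_lit 78) (PT.lf (nat_lit 16872) (nat_lit 6) (nat_lit 222) (nat_lit 2) (nat_lit 149) (nat_lit 165) (nat_lit 136)) (PT.lf (nat_lit 16948) (nat_lit 6) (nat_lit 223) (nat_lit 2) (nat_lit 150) (nat_lit 165) (nat_lit 135))) (PT.nd (nat_lit 78) (PT.lf (nat_lit 15808) (nat_lit 6) (nat_lit 208) (nat_lit 2) (nat_lit 151) (nat_lit 165)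 (nat_lit 134)) (PT.lf (nat_lit 14972) (nat_lit 6) (nat_lit 197) (nat_lit 2) (nat_lit 152) (nat_lit 165) (nat_lit 133))))))) (PT.nd (nat_lit 1092) (PT.nd (nat_lit 546) (PT.nd (nat_lit 234) (PT.nd (nat_lit 78) (PT.lf (nat_lit 14364) (nat_lit 6) (nat_lit 189) (nat_lit 2) (nat_lit 153) (nat_lit 165) (nat_lit 132)) (PT.nd (nat_lit 78) (PT.lf (nat_lit 13832) (nat_lit 6) (nat_lit 182) (nat_lit 2) (nat_lit 154) (nat_lit 165) (nat_lit 131)) (PT.lf (nat_lit 13300) (nat_lit 6) (nat_lit 175) (nat_lit 2) (nat_lit 155) (nat_lit 165) (nat_lit 130)))) (PT.nd (nat_lit 156) (PT.nd (nat_lit 78) (PT.lf (nat_lit 12768) (nat_lit 6) (nat_lit 168) (nat_lit 2) (nat_lit 156) (nat_lit 165) (nat_lit 129)) (PT.lf (nat_lit 12236) (nat_lit 6) (nat_lit 161) (nat_lit 2) (nat_lit 157) (nat_lit 165) (nat_lit 128))) (PT.nd (nat_lit 78) (PT.lf (nat_lit 11780) (nat_lit 6) (nat_lit 155) (nat_lit 2) (nat_lit 158) (nat_lit 165) (nat_lit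 127)) (PT.lf (nat_lit 11324) (nat_lit 6) (nat_lit 149) (nat_lit 2) (nat_lit 159) (nat_lit 165) (nat_lit 126))))) (PT.nd (nat_lit 234) (PT.nd (nat_lit 78) (PT.lf (nat_lit 10868) (nat_lit 6) (nat_lit 143) (nat_lit 2) (nat_lit 160) (nat_lit 165) (nat_lit 125)) (PT.nd (nat_lit 78) (PT.lf (nat_lit 10412) (nat_lit 6) (nat_lit 137) (nat_lit 2) (nat_lit 161) (nat_lit 165) (nat_lit 124)) (PT.lf (nat_lit 10032) (nat_lit 6) (nat_lit 132) (nat_lit 2) (nat_lit 162) (nat_lit 165) (nat_lit 123)))) (PT.nd (nat_lit 156) (PT.nd (nat_lit 78) (PT.lf (nat_lit 9652) (nat_lit 6) (nat_lit 127) (nat_lit 2) (nat_lit 163) (nat_lit 165) (nat_lit 122)) (PT.lf (nat_lit 9272) (nat_lit 6) (nat_lit 122) (nat_lit 2) (nat_lit 164) (nat_lit 165) (nat_lit 121))) (PT.nd (nat_lit 78) (PT.lf (nat_lit 8892) (nat_lit 3) (nat_lit 117) (nat_lit 0) (nat_lit 165) (nat_lit 165) (nat_lit 120)) (PT.lf (nat_lit 8512) (nat_lit 6) (nat_lit 112) (nat_lit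 0) (nat_lit 166) (nat_lit 165) (nat_lit 119)))))) (PT.nd (nat_lit 42744) (PT.nd (nat_lit 234) (PT.nd (nat_lit 78) (PT.lf (nat_lit 8056) (nat_lit 6) (nat_lit 106) (nat_lit 0) (nat_lit 167) (nat_lit 165) (nat_lit 118)) (PT.nd (nat_lit 78) (PT.lf (nat_lit 7676) (nat_lit 6) (nat_lit 101) (nat_lit 0) (nat_lit 168) (nat_lit 165) (nat_lit 117)) (PT.lf (nat_lit 7296) (nat_lit 6) (nat_lit 96) (nat_lit 0) (nat_lit 169) (nat_lit 165) (nat_lit 116)))) (PT.nd (nat_lit 42354) (PT.nd (nat_lit 78) (PT.lf (nat_lit 6916) (nat_lit 6) (nat_lit 91) (nat_lit 0) (nat_lit 170) (nat_lit 165) (nat_lit 115)) (PT.lf (nat_lit 6536) (nat_lit 6) (nat_lit 86) (nat_lit 0) (nat_lit 171) (nat_lit 165) (nat_lit 114))) (PT.nd (nat_lit 78) (PT.lf (nat_lit 5928) (nat_lit 6) (nat_lit 78) (nat_lit 5) (nat_lit 112) (nat_lit 166) (nat_lit 172)) (PT.lf (nat_lit 6308) (nat_lit 6) (nat_lit 83) (nat_lit 5) (nat_lit 113) (nat_lit 166) (nat_lit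 171))))) (PT.nd (nat_lit 234) (PT.nd (nat_lit 78) (PT.lf (nat_lit 6612) (nat_lit 6) (nat_lit 87) (nat_lit 5) (nat_lit 114) (nat_lit 166) (nat_lit 170)) (PT.nd (nat_lit 78) (PT.lf (nat_lit 6992) (nat_lit 6) (nat_lit 92) (nat_lit 5) (nat_lit 115) (nat_lit 166) (nat_lit 169)) (PT.lf (nat_lit 7372) (nat_lit 6) (nat_lit 97) (nat_lit 5) (nat_lit 116) (nat_lit 166) (nat_lit 168)))) (PT.nd (nat_lit 156) (PT.nd (nat_lit 78) (PT.lf (nat_lit 7752) (nat_lit 6) (nat_lit 102) (nat_lit 5) (nat_lit 117) (nat_lit 166) (nat_lit 167)) (PT.lf (nat_lit 8132) (nat_lit 3) (nat_lit 107) (nat_lit 4) (nat_lit 118) (nat_lit 166) (nat_lit 166))) (PT.nd (nat_lit 78) (PT.lf (nat_lit 8512) (nat_lit 6) (nat_lit 112) (nat_lit 4) (nat_lit 119) (nat_lit 166) (nat_lit 165)) (PT.lf (nat_lit 8816) (nat_lit 6) (nat_lit 116) (nat_lit 4) (nat_lit 120) (nat_lit 166) (nat_lit 164))))))))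
noncomputable def pc26 : PT := (PT.nd (nat_lit 2964) (PT.nd (nat_lit 1014) (PT.nd (nat_lit 468) (PT.nd (nat_lit 234) (PT.nd (nat_lit 78) (PT.lf (nat_lit 9196) (nat_lit 6) (nat_lit 121) (nat_lit 4) (nat_lit 121) (nat_lit 166) (nat_lit 163)) (PT.nd (nat_lit 78) (PT.lf (nat_lit 9576) (nat_lit 6) (nat_lit 126) (nat_lit 4) (nat_lit 122) (nat_lit 166) (nat_lit 162)) (PT.lf (nat_lit 9956) (nat_lit 6) (nat_lit 131) (nat_lit 4) (nat_lit 123) (nat_lit 166) (nat_lit 161)))) (PT.nd (nat_lit 78) (PT.lf (nat_lit 10336) (nat_lit 6) (nat_lit 136) (nat_lit 4) (nat_lit 124) (nat_lit 166) (nat_lit 160)) (PT.nd (nat_lit 78) (PT.lf (nat_lit 10792) (nat_lit 6) (nat_lit 142) (nat_lit 4) (nat_lit 125) (nat_lit 166) (nat_lit 159)) (PT.lf (nat_lit 11248) (nat_lit 6) (nat_lit 148) (nat_lit 4) (nat_lit 126) (nat_lit 166) (nat_lit 158))))) (PT.nd (nat_lit 234) (PT.nd (nat_lit 78) (PT.lf (nat_lit 11704) (nat_lit 6) (nat_lit 154)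 (nat_lit 4) (nat_lit 127) (nat_lit 166) (nat_lit 157)) (PT.nd (nat_lit 78) (PT.lf (nat_lit 12160) (nat_lit 6) (nat_lit 160) (nat_lit 4) (nat_lit 128) (nat_lit 166) (nat_lit 156)) (PT.lf (nat_lit 12692) (nat_lit 6) (nat_lit 167) (nat_lit 4) (nat_lit 129) (nat_lit 166) (nat_lit 155)))) (PT.nd (nat_lit 156) (PT.nd (nat_lit 78) (PT.lf (nat_lit 13224) (nat_lit 6) (nat_lit 174) (nat_lit 4) (nat_lit 130) (nat_lit 166) (nat_lit 154)) (PT.lf (nat_lit 13756) (nat_lit 6) (nat_lit 181) (nat_lit 4) (nat_lit 131) (nat_lit 166) (nat_lit 153))) (PT.nd (nat_lit 78) (PT.lf (nat_lit 14288) (nat_lit 6) (nat_lit 188) (nat_lit 4) (nat_lit 132) (nat_lit 166) (nat_lit 152)) (PT.lf (nat_lit 14896) (nat_lit 6) (nat_lit 196) (nat_lit 4) (nat_lit 133) (nat_lit 166) (nat_lit 151)))))) (PT.nd (nat_lit 1404) (PT.nd (nat_lit 1092) (PT.nd (nat_lit 78) (PT.lf (nat_lit 15732) (nat_lit 6) (nat_lit 207) (nat_lit 4) (nat_lit 134) (nat_lit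 166) (nat_lit 150)) (PT.nd (nat_lit 78) (PT.lf (nat_lit 15656) (nat_lit 6) (nat_lit 206) (nat_lit 4) (nat_lit 135) (nat_lit 166) (nat_lit 149)) (PT.lf (nat_lit 15580) (nat_lit 6) (nat_lit 205) (nat_lit 4) (nat_lit 136) (nat_lit 166) (nat_lit 148)))) (PT.nd (nat_lit 156) (PT.nd (nat_lit 78) (PT.lf (nat_lit 15580) (nat_lit 6) (nat_lit 205) (nat_lit 2) (nat_lit 148) (nat_lit 166) (nat_lit 136)) (PT.lf (nat_lit 15656) (nat_lit 6) (nat_lit 206) (nat_lit 2) (nat_lit 149) (nat_lit 166) (nat_lit 135))) (PT.nd (nat_lit 78) (PT.lf (nat_lit 15732) (nat_lit 6) (nat_lit 207) (nat_lit 2) (nat_lit 150) (nat_lit 166) (nat_lit 134)) (PT.lf (nat_lit 14896) (nat_lit 6) (nat_lit 196) (nat_lit 2) (nat_lit 151) (nat_lit 166) (nat_lit 133))))) (PT.nd (nat_lit 234) (PT.nd (nat_lit 78) (PT.lf (nat_lit 14288) (nat_lit 6) (nat_lit 188) (nat_lit 2) (nat_lit 152) (nat_lit 166) (nat_lit 132)) (PT.nd (nat_lit 78) (PT.lf (nat_lit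 13756) (nat_lit 6) (nat_lit 181) (nat_lit 2) (nat_lit 153) (nat_lit 166) (nat_lit 131)) (PT.lf (nat_lit 13224) (nat_lit 6) (nat_lit 174) (nat_lit 2) (nat_lit 154) (nat_lit 166) (nat_lit 130)))) (PT.nd (nat_lit 156) (PT.nd (nat_lit 78) (PT.lf (nat_lit 12692) (nat_lit 6) (nat_lit 167) (nat_lit 2) (nat_lit 155) (nat_lit 166) (nat_lit 129)) (PT.lf (nat_lit 12160) (nat_lit 6) (nat_lit 160) (nat_lit 2) (nat_lit 156) (nat_lit 166) (nat_lit 128))) (PT.nd (nat_lit 78) (PT.lf (nat_lit 11704) (nat_lit 6) (nat_lit 154) (nat_lit 2) (nat_lit 157) (nat_lit 166) (nat_lit 127)) (PT.lf (nat_lit 11248) (nat_lit 6) (nat_lit 148) (nat_lit 2) (nat_lit 158) (nat_lit 166) (nat_lit 126))))))) (PT.nd (nat_lit 1014) (PT.nd (nat_lit 468) (PT.nd (nat_lit 234) (PT.nd (nat_lit 78) (PT.lf (nat_lit 10792) (nat_lit 6) (nat_lit 142) (nat_lit 2) (nat_lit 159) (nat_lit 166) (nat_lit 125)) (PT.nd (nat_lit 78) (PT.lf (nat_lit 10336) (nat_lit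 6) (nat_lit 136) (nat_lit 2) (nat_lit 160) (nat_lit 166) (nat_lit 124)) (PT.lf (nat_lit 9956) (nat_lit 6) (nat_lit 131) (nat_lit 2) (nat_lit 161) (nat_lit 166) (nat_lit 123)))) (PT.nd (nat_lit 78) (PT.lf (nat_lit 9576) (nat_lit 6) (nat_lit 126) (nat_lit 2) (nat_lit 162) (nat_lit 166) (nat_lit 122)) (PT.nd (nat_lit 78) (PT.lf (nat_lit 9196) (nat_lit 6) (nat_lit 121) (nat_lit 2) (nat_lit 163) (nat_lit 166) (nat_lit 121)) (PT.lf (nat_lit 8816) (nat_lit 6) (nat_lit 116) (nat_lit 2) (nat_lit 164) (nat_lit 166) (nat_lit 120))))) (PT.nd (nat_lit 234) (PT.nd (nat_lit 78) (PT.lf (nat_lit 8512) (nat_lit 6) (nat_lit 112) (nat_lit 2) (nat_lit 165) (nat_lit 166) (nat_lit 119)) (PT.nd (nat_lit 78) (PT.lf (nat_lit 8132) (nat_lit 3) (nat_lit 107) (nat_lit 0) (nat_lit 166) (nat_lit 166) (nat_lit 118)) (PT.lf (nat_lit 7752) (nat_lit 6) (nat_lit 102) (nat_lit 0) (nat_lit 167) (nat_lit 166) (nat_lit 117)))) (PT.nd (nat_lit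 156) (PT.nd (nat_lit 78) (PT.lf (nat_lit 7372) (nat_lit 6) (nat_lit 97) (nat_lit 0) (nat_lit 168) (nat_lit 166) (nat_lit 116)) (PT.lf (nat_lit 6992) (nat_lit 6) (nat_lit 92) (nat_lit 0) (nat_lit 169) (nat_lit 166) (nat_lit 115))) (PT.nd (nat_lit 78) (PT.lf (nat_lit 6612) (nat_lit 6) (nat_lit 87) (nat_lit 0) (nat_lit 170) (nat_lit 166) (nat_lit 114)) (PT.lf (nat_lit 6308) (nat_lit 6) (nat_lit 83) (nat_lit 0) (nat_lit 171) (nat_lit 166) (nat_lit 113)))))) (PT.nd (nat_lit 42588) (PT.nd (nat_lit 42276) (PT.nd (nat_lit 42120) (PT.lf (nat_lit 5928) (nat_lit 6) (nat_lit 78) (nat_lit 0) (nat_lit 172) (nat_lit 166) (nat_lit 112)) (PT.nd (nat_lit 78) (PT.lf (nat_lit 5700) (nat_lit 6) (nat_lit 75) (nat_lit 5) (nat_lit 111) (nat_lit 167) (nat_lit 172)) (PT.lf (nat_lit 6004) (nat_lit 6) (nat_lit 79) (nat_lit 5) (nat_lit 112) (nat_lit 167) (nat_lit 171)))) (PT.nd (nat_lit 156) (PT.nd (nat_lit 78) (PT.lf (nat_lit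 6384) (nat_lit 6) (nat_lit 84) (nat_lit 5) (nat_lit 113) (nat_lit 167) (nat_lit 170)) (PT.lf (nat_lit 6688) (nat_lit 6) (nat_lit 88) (nat_lit 5) (nat_lit 114) (nat_lit 167) (nat_lit 169))) (PT.nd (nat_lit 78) (PT.lf (nat_lit 7068) (nat_lit 6) (nat_lit 93) (nat_lit 5) (nat_lit 115) (nat_lit 167) (nat_lit 168)) (PT.lf (nat_lit 7448) (nat_lit 3) (nat_lit 98) (nat_lit 4) (nat_lit 116) (nat_lit 167) (nat_lit 167))))) (PT.nd (nat_lit 234) (PT.nd (nat_lit 78) (PT.lf (nat_lit 7752) (nat_lit 6) (nat_lit 102) (nat_lit 4) (nat_lit 117) (nat_lit 167) (nat_lit 166)) (PT.nd (nat_lit 78) (PT.lf (nat_lit 8056) (nat_lit 6) (nat_lit 106) (nat_lit 4) (nat_lit 118) (nat_lit 167) (nat_lit 165)) (PT.lf (nat_lit 8436) (nat_lit 6) (nat_lit 111) (nat_lit 4) (nat_lit 119) (nat_lit 167) (nat_lit 164)))) (PT.nd (nat_lit 156) (PT.nd (nat_lit 78) (PT.lf (nat_lit 8740) (nat_lit 6) (nat_lit 115) (nat_lit 4) (nat_lit 120) (nat_lit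 167) (nat_lit 163)) (PT.lf (nat_lit 9120) (nat_lit 6) (nat_lit 120) (nat_lit 4) (nat_lit 121) (nat_lit 167) (nat_lit 162))) (PT.nd (nat_lit 78) (PT.lf (nat_lit 9500) (nat_lit 6) (nat_lit 125) (nat_lit 4) (nat_lit 122) (nat_lit 167) (nat_lit 161)) (PT.lf (nat_lit 9880) (nat_lit 6) (nat_lit 130) (nat_lit 4) (nat_lit 123) (nat_lit 167) (nat_lit 160))))))))
noncomputable def pc27 : PT := (PT.nd (nat_lit 45708) (PT.nd (nat_lit 2730) (PT.nd (nat_lit 468) (PT.nd (nat_lit 234) (PT.nd (nat_lit 78) (PT.lf (nat_lit 10260) (nat_lit 6) (nat_lit 135) (nat_lit 4) (nat_lit 124) (nat_lit 167) (nat_lit 159)) (PT.nd (nat_lit 78) (PT.lf (nat_lit 10716) (nat_lit 6) (nat_lit 141) (nat_lit 4) (nat_lit 125) (nat_lit 167) (nat_lit 158)) (PT.lf (nat_lit 11172) (nat_lit 6) (nat_lit 147) (nat_lit 4) (nat_lit 126) (nat_lit 167) (nat_lit 157)))) (PT.nd (nat_lit 78) (PT.lf (nat_lit 11628) (nat_lit 6) (nat_lit 153) (nat_lit 4) (nat_lit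 127) (nat_lit 167) (nat_lit 156)) (PT.nd (nat_lit 78) (PT.lf (nat_lit 12084) (nat_lit 6) (nat_lit 159) (nat_lit 4) (nat_lit 128) (nat_lit 167) (nat_lit 155)) (PT.lf (nat_lit 12616) (nat_lit 6) (nat_lit 166) (nat_lit 4) (nat_lit 129) (nat_lit 167) (nat_lit 154))))) (PT.nd (nat_lit 1950) (PT.nd (nat_lit 1794) (PT.lf (nat_lit 13148) (nat_lit 6) (nat_lit 173) (nat_lit 4) (nat_lit 130) (nat_lit 167) (nat_lit 153)) (PT.nd (nat_lit 78) (PT.lf (nat_lit 13148) (nat_lit 6) (nat_lit 173) (nat_lit 2) (nat_lit 153) (nat_lit 167) (nat_lit 130)) (PT.lf (nat_lit 12616) (nat_lit 6) (nat_lit 166) (nat_lit 2) (nat_lit 154) (nat_lit 167) (nat_lit 129)))) (PT.nd (nat_lit 156) (PT.nd (nat_lit 78) (PT.lf (nat_lit 12084) (nat_lit 6) (nat_lit 159) (nat_lit 2) (nat_lit 155) (nat_lit 167) (nat_lit 128)) (PT.lf (nat_lit 11628) (nat_lit 6) (nat_lit 153) (nat_lit 2) (nat_lit 156) (nat_lit 167) (nat_lit 127))) (PT.nd (nat_lit 78)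 (PT.lf (nat_lit 11172) (nat_lit 6) (nat_lit 147) (nat_lit 2) (nat_lit 157) (nat_lit 167) (nat_lit 126)) (PT.lf (nat_lit 10716) (nat_lit 6) (nat_lit 141) (nat_lit 2) (nat_lit 158) (nat_lit 167) (nat_lit 125)))))) (PT.nd (nat_lit 546) (PT.nd (nat_lit 234) (PT.nd (nat_lit 78) (PT.lf (nat_lit 10260) (nat_lit 6) (nat_lit 135) (nat_lit 2) (nat_lit 159) (nat_lit 167) (nat_lit 124)) (PT.nd (nat_lit 78) (PT.lf (nat_lit 9880) (nat_lit 6) (nat_lit 130) (nat_lit 2) (nat_lit 160) (nat_lit 167) (nat_lit 123)) (PT.lf (nat_lit 9500) (nat_lit 6) (nat_lit 125) (nat_lit 2) (nat_lit 161) (nat_lit 167) (nat_lit 122)))) (PT.nd (nat_lit 156) (PT.nd (nat_lit 78) (PT.lf (nat_lit 9120) (nat_lit 6) (nat_lit 120) (nat_lit 2) (nat_lit 162) (nat_lit 167) (nat_lit 121)) (PT.lf (nat_lit 8740) (nat_lit 6) (nat_lit 115) (nat_lit 2) (nat_lit 163) (nat_lit 167) (nat_lit 120))) (PT.nd (nat_lit 78) (PT.lf (nat_lit 8436) (nat_lit 6) (nat_lit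 111) (nat_lit 2) (nat_lit 164) (nat_lit 167) (nat_lit 119)) (PT.lf (nat_lit 8056) (nat_lit 6) (nat_lit 106) (nat_lit 2) (nat_lit 165) (nat_lit 167) (nat_lit 118))))) (PT.nd (nat_lit 234) (PT.nd (nat_lit 78) (PT.lf (nat_lit 7752) (nat_lit 6) (nat_lit 102) (nat_lit 2) (nat_lit 166) (nat_lit 167) (nat_lit 117)) (PT.nd (nat_lit 78) (PT.lf (nat_lit 7448) (nat_lit 3) (nat_lit 98) (nat_lit 0) (nat_lit 167) (nat_lit 167) (nat_lit 116)) (PT.lf (nat_lit 7068) (nat_lit 6) (nat_lit 93) (nat_lit 0) (nat_lit 168) (nat_lit 167) (nat_lit 115)))) (PT.nd (nat_lit 156) (PT.nd (nat_lit 78) (PT.lf (nat_lit 6688) (nat_lit 6) (nat_lit 88) (nat_lit 0) (nat_lit 169) (nat_lit 167) (nat_lit 114)) (PT.lf (nat_lit 6384) (nat_lit 6) (nat_lit 84) (nat_lit 0) (nat_lit 170) (nat_lit 167) (nat_lit 113))) (PT.nd (nat_lit 78) (PT.lf (nat_lit 6004) (nat_lit 6) (nat_lit 79) (nat_lit 0) (nat_lit 171) (nat_lit 167) (nat_lit 112)) (PT.lf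 (nat_lit 5700) (nat_lit 6) (nat_lit 75) (nat_lit 0) (nat_lit 172) (nat_lit 167) (nat_lit 111))))))) (PT.nd (nat_lit 1092) (PT.nd (nat_lit 546) (PT.nd (nat_lit 234) (PT.nd (nat_lit 78) (PT.lf (nat_lit 5168) (nat_lit 6) (nat_lit 68) (nat_lit 5) (nat_lit 109) (nat_lit 168) (nat_lit 173)) (PT.nd (nat_lit 78) (PT.lf (nat_lit 5472) (nat_lit 6) (nat_lit 72) (nat_lit 5) (nat_lit 110) (nat_lit 168) (nat_lit 172)) (PT.lf (nat_lit 5776) (nat_lit 6) (nat_lit 76) (nat_lit 5) (nat_lit 111) (nat_lit 168) (nat_lit 171)))) (PT.nd (nat_lit 156) (PT.nd (nat_lit 78) (PT.lf (nat_lit 6080) (nat_lit 6) (nat_lit 80) (nat_lit 5) (nat_lit 112) (nat_lit 168) (nat_lit 170)) (PT.lf (nat_lit 6460) (nat_lit 6) (nat_lit 85) (nat_lit 5) (nat_lit 113) (nat_lit 168) (nat_lit 169))) (PT.nd (nat_lit 78) (PT.lf (nat_lit 6764) (nat_lit 3) (nat_lit 89) (nat_lit 4) (nat_lit 114) (nat_lit 168) (nat_lit 168)) (PT.lf (nat_lit 7068) (nat_lit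 6) (nat_lit 93) (nat_lit 4) (nat_lit 115) (nat_lit 168) (nat_lit 167))))) (PT.nd (nat_lit 234) (PT.nd (nat_lit 78) (PT.lf (nat_lit 7372) (nat_lit 6) (nat_lit 97) (nat_lit 4) (nat_lit 116) (nat_lit 168) (nat_lit 166)) (PT.nd (nat_lit 78) (PT.lf (nat_lit 7676) (nat_lit 6) (nat_lit 101) (nat_lit 4) (nat_lit 117) (nat_lit 168) (nat_lit 165)) (PT.lf (nat_lit 7980) (nat_lit 6) (nat_lit 105) (nat_lit 4) (nat_lit 118) (nat_lit 168) (nat_lit 164)))) (PT.nd (nat_lit 156) (PT.nd (nat_lit 78) (PT.lf (nat_lit 8360) (nat_lit 6) (nat_lit 110) (nat_lit 4) (nat_lit 119) (nat_lit 168) (nat_lit 163)) (PT.lf (nat_lit 8664) (nat_lit 6) (nat_lit 114) (nat_lit 4) (nat_lit 120) (nat_lit 168) (nat_lit 162))) (PT.nd (nat_lit 78) (PT.lf (nat_lit 9044) (nat_lit 6) (nat_lit 119) (nat_lit 4) (nat_lit 121) (nat_lit 168) (nat_lit 161)) (PT.lf (nat_lit 9424) (nat_lit 6) (nat_lit 124) (nat_lit 4) (nat_lit 122) (nat_lit 168) (nat_lit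 160)))))) (PT.nd (nat_lit 2964) (PT.nd (nat_lit 2652) (PT.nd (nat_lit 78) (PT.lf (nat_lit 9804) (nat_lit 6) (nat_lit 129) (nat_lit 4) (nat_lit 123) (nat_lit 168) (nat_lit 159)) (PT.nd (nat_lit 78) (PT.lf (nat_lit 10184) (nat_lit 6) (nat_lit 134) (nat_lit 4) (nat_lit 124) (nat_lit 168) (nat_lit 158)) (PT.lf (nat_lit 10640) (nat_lit 6) (nat_lit 140) (nat_lit 4) (nat_lit 125) (nat_lit 168) (nat_lit 157)))) (PT.nd (nat_lit 156) (PT.nd (nat_lit 78) (PT.lf (nat_lit 10640) (nat_lit 6) (nat_lit 140) (nat_lit 2) (nat_lit 157) (nat_lit 168) (nat_lit 125)) (PT.lf (nat_lit 10184) (nat_lit 6) (nat_lit 134) (nat_lit 2) (nat_lit 158) (nat_lit 168) (nat_lit 124))) (PT.nd (nat_lit 78) (PT.lf (nat_lit 9804) (nat_lit 6) (nat_lit 129) (nat_lit 2) (nat_lit 159) (nat_lit 168) (nat_lit 123)) (PT.lf (nat_lit 9424) (nat_lit 6) (nat_lit 124) (nat_lit 2) (nat_lit 160) (nat_lit 168) (nat_lit 122))))) (PT.nd (nat_lit 234) (PT.nd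 (nat_lit 78) (PT.lf (nat_lit 9044) (nat_lit 6) (nat_lit 119) (nat_lit 2) (nat_lit 161) (nat_lit 168) (nat_lit 121)) (PT.nd (nat_lit 78) (PT.lf (nat_lit 8664) (nat_lit 6) (nat_lit 114) (nat_lit 2) (nat_lit 162) (nat_lit 168) (nat_lit 120)) (PT.lf (nat_lit 8360) (nat_lit 6) (nat_lit 110) (nat_lit 2) (nat_lit 163) (nat_lit 168) (nat_lit 119)))) (PT.nd (nat_lit 156) (PT.nd (nat_lit 78) (PT.lf (nat_lit 7980) (nat_lit 6) (nat_lit 105) (nat_lit 2) (nat_lit 164) (nat_lit 168) (nat_lit 118)) (PT.lf (nat_lit 7676) (nat_lit 6) (nat_lit 101) (nat_lit 2) (nat_lit 165) (nat_lit 168) (nat_lit 117))) (PT.nd (nat_lit 78) (PT.lf (nat_lit 7372) (nat_lit 6) (nat_lit 97) (nat_lit 2) (nat_lit 166) (nat_lit 168) (nat_lit 116)) (PT.lf (nat_lit 7068) (nat_lit 6) (nat_lit 93) (nat_lit 2) (nat_lit 167) (nat_lit 168) (nat_lit 115))))))))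
noncomputable def pc28 : PT := (PT.nd (nat_lit 46566) (PT.nd (nat_lit 42666) (PT.nd (nat_lit 42120) (PT.nd (nat_lit 234) (PT.nd (nat_lit 78) (PT.lf (nat_lit 6764) (nat_lit 3) (nat_lit 89) (nat_lit 0) (nat_lit 168) (nat_lit 168) (nat_lit 114)) (PT.nd (nat_lit 78) (PT.lf (nat_lit 6460) (nat_lit 6) (nat_lit 85) (nat_lit 0) (nat_lit 169) (nat_lit 168) (nat_lit 113)) (PT.lf (nat_lit 6080) (nat_lit 6) (nat_lit 80) (nat_lit 0) (nat_lit 170) (nat_lit 168) (nat_lit 112)))) (PT.nd (nat_lit 78) (PT.lf (nat_lit 5776) (nat_lit 6) (nat_lit 76) (nat_lit 0) (nat_lit 171) (nat_lit 168) (nat_lit 111)) (PT.nd (nat_lit 78) (PT.lf (nat_lit 5472) (nat_lit 6) (nat_lit 72) (nat_lit 0) (nat_lit 172) (nat_lit 168) (nat_lit 110)) (PT.lf (nat_lit 5168) (nat_lit 6) (nat_lit 68) (nat_lit 0) (nat_lit 173) (nat_lit 168) (nat_lit 109))))) (PT.nd (nat_lit 234) (PT.nd (nat_lit 78) (PT.lf (nat_lit 4712) (nat_lit 6) (nat_lit 62) (nat_lit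 5) (nat_lit 107) (nat_lit 169) (nat_lit 174)) (PT.nd (nat_lit 78) (PT.lf (nat_lit 4940) (nat_lit 6) (nat_lit 65) (nat_lit 5) (nat_lit 108) (nat_lit 169) (nat_lit 173)) (PT.lf (nat_lit 5244) (nat_lit 6) (nat_lit 69) (nat_lit 5) (nat_lit 109) (nat_lit 169) (nat_lit 172)))) (PT.nd (nat_lit 156) (PT.nd (nat_lit 78) (PT.lf (nat_lit 5548) (nat_lit 6) (nat_lit 73) (nat_lit 5) (nat_lit 110) (nat_lit 169) (nat_lit 171)) (PT.lf (nat_lit 5852) (nat_lit 6) (nat_lit 77) (nat_lit 5) (nat_lit 111) (nat_lit 169) (nat_lit 170))) (PT.nd (nat_lit 78) (PT.lf (nat_lit 6156) (nat_lit 3) (nat_lit 81) (nat_lit 4) (nat_lit 112) (nat_lit 169) (nat_lit 169)) (PT.lf (nat_lit 6460) (nat_lit 6) (nat_lit 85) (nat_lit 4) (nat_lit 113) (nat_lit 169) (nat_lit 168)))))) (PT.nd (nat_lit 546) (PT.nd (nat_lit 234) (PT.nd (nat_lit 78) (PT.lf (nat_lit 6688) (nat_lit 6) (nat_lit 88) (nat_lit 4) (nat_lit 114) (nat_lit 169) (nat_lit 167))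 (PT.nd (nat_lit 78) (PT.lf (nat_lit 6992) (nat_lit 6) (nat_lit 92) (nat_lit 4) (nat_lit 115) (nat_lit 169) (nat_lit 166)) (PT.lf (nat_lit 7296) (nat_lit 6) (nat_lit 96) (nat_lit 4) (nat_lit 116) (nat_lit 169) (nat_lit 165)))) (PT.nd (nat_lit 156) (PT.nd (nat_lit 78) (PT.lf (nat_lit 7600) (nat_lit 6) (nat_lit 100) (nat_lit 4) (nat_lit 117) (nat_lit 169) (nat_lit 164)) (PT.lf (nat_lit 7904) (nat_lit 6) (nat_lit 104) (nat_lit 4) (nat_lit 118) (nat_lit 169) (nat_lit 163))) (PT.nd (nat_lit 78) (PT.lf (nat_lit 8284) (nat_lit 6) (nat_lit 109) (nat_lit 4) (nat_lit 119) (nat_lit 169) (nat_lit 162)) (PT.lf (nat_lit 8588) (nat_lit 6) (nat_lit 113) (nat_lit 4) (nat_lit 120) (nat_lit 169) (nat_lit 161))))) (PT.nd (nat_lit 3042) (PT.nd (nat_lit 78) (PT.lf (nat_lit 8968) (nat_lit 6) (nat_lit 118) (nat_lit 4) (nat_lit 121) (nat_lit 169) (nat_lit 160)) (PT.nd (nat_lit 2886) (PT.lf (nat_lit 9348) (nat_lit 6) (nat_lit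 123) (nat_lit 4) (nat_lit 122) (nat_lit 169) (nat_lit 159)) (PT.lf (nat_lit 9348) (nat_lit 6) (nat_lit 123) (nat_lit 2) (nat_lit 159) (nat_lit 169) (nat_lit 122)))) (PT.nd (nat_lit 156) (PT.nd (nat_lit 78) (PT.lf (nat_lit 8968) (nat_lit 6) (nat_lit 118) (nat_lit 2) (nat_lit 160) (nat_lit 169) (nat_lit 121)) (PT.lf (nat_lit 8588) (nat_lit 6) (nat_lit 113) (nat_lit 2) (nat_lit 161) (nat_lit 169) (nat_lit 120))) (PT.nd (nat_lit 78) (PT.lf (nat_lit 8284) (nat_lit 6) (nat_lit 109) (nat_lit 2) (nat_lit 162) (nat_lit 169) (nat_lit 119)) (PT.lf (nat_lit 7904) (nat_lit 6) (nat_lit 104) (nat_lit 2) (nat_lit 163) (nat_lit 169) (nat_lit 118))))))) (PT.nd (nat_lit 42510) (PT.nd (nat_lit 468) (PT.nd (nat_lit 234) (PT.nd (nat_lit 78) (PT.lf (nat_lit 7600) (nat_lit 6) (nat_lit 100) (nat_lit 2) (nat_lit 164) (nat_lit 169) (nat_lit 117)) (PT.nd (nat_lit 78) (PT.lf (nat_lit 7296) (nat_lit 6) (nat_lit 96) (nat_lit 2)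 (nat_lit 165) (nat_lit 169) (nat_lit 116)) (PT.lf (nat_lit 6992) (nat_lit 6) (nat_lit 92) (nat_lit 2) (nat_lit 166) (nat_lit 169) (nat_lit 115)))) (PT.nd (nat_lit 78) (PT.lf (nat_lit 6688) (nat_lit 6) (nat_lit 88) (nat_lit 2) (nat_lit 167) (nat_lit 169) (nat_lit 114)) (PT.nd (nat_lit 78) (PT.lf (nat_lit 6460) (nat_lit 6) (nat_lit 85) (nat_lit 2) (nat_lit 168) (nat_lit 169) (nat_lit 113)) (PT.lf (nat_lit 6156) (nat_lit 3) (nat_lit 81) (nat_lit 0) (nat_lit 169) (nat_lit 169) (nat_lit 112))))) (PT.nd (nat_lit 234) (PT.nd (nat_lit 78) (PT.lf (nat_lit 5852) (nat_lit 6) (nat_lit 77) (nat_lit 0) (nat_lit 170) (nat_lit 169) (nat_lit 111)) (PT.nd (nat_lit 78) (PT.lf (nat_lit 5548) (nat_lit 6) (nat_lit 73) (nat_lit 0) (nat_lit 171) (nat_lit 169) (nat_lit 110)) (PT.lf (nat_lit 5244) (nat_lit 6) (nat_lit 69) (nat_lit 0) (nat_lit 172) (nat_lit 169) (nat_lit 109)))) (PT.nd (nat_lit 41652) (PT.nd (nat_lit 78) (PT.lf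 (nat_lit 4940) (nat_lit 6) (nat_lit 65) (nat_lit 0) (nat_lit 173) (nat_lit 169) (nat_lit 108)) (PT.lf (nat_lit 4712) (nat_lit 6) (nat_lit 62) (nat_lit 0) (nat_lit 174) (nat_lit 169) (nat_lit 107))) (PT.nd (nat_lit 78) (PT.lf (nat_lit 4484) (nat_lit 6) (nat_lit 59) (nat_lit 5) (nat_lit 106) (nat_lit 170) (nat_lit 174)) (PT.lf (nat_lit 4788) (nat_lit 6) (nat_lit 63) (nat_lit 5) (nat_lit 107) (nat_lit 170) (nat_lit 173)))))) (PT.nd (nat_lit 546) (PT.nd (nat_lit 234) (PT.nd (nat_lit 78) (PT.lf (nat_lit 5016) (nat_lit 6) (nat_lit 66) (nat_lit 5) (nat_lit 108) (nat_lit 170) (nat_lit 172)) (PT.nd (nat_lit 78) (PT.lf (nat_lit 5320) (nat_lit 6) (nat_lit 70) (nat_lit 5) (nat_lit 109) (nat_lit 170) (nat_lit 171)) (PT.lf (nat_lit 5624) (nat_lit 3) (nat_lit 74) (nat_lit 4) (nat_lit 110) (nat_lit 170) (nat_lit 170)))) (PT.nd (nat_lit 156) (PT.nd (nat_lit 78) (PT.lf (nat_lit 5852) (nat_lit 6) (nat_lit 77) (nat_lit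 4) (nat_lit 111) (nat_lit 170) (nat_lit 169)) (PT.lf (nat_lit 6080) (nat_lit 6) (nat_lit 80) (nat_lit 4) (nat_lit 112) (nat_lit 170) (nat_lit 168))) (PT.nd (nat_lit 78) (PT.lf (nat_lit 6384) (nat_lit 6) (nat_lit 84) (nat_lit 4) (nat_lit 113) (nat_lit 170) (nat_lit 167)) (PT.lf (nat_lit 6612) (nat_lit 6) (nat_lit 87) (nat_lit 4) (nat_lit 114) (nat_lit 170) (nat_lit 166))))) (PT.nd (nat_lit 234) (PT.nd (nat_lit 78) (PT.lf (nat_lit 6916) (nat_lit 6) (nat_lit 91) (nat_lit 4) (nat_lit 115) (nat_lit 170) (nat_lit 165)) (PT.nd (nat_lit 78) (PT.lf (nat_lit 7220) (nat_lit 6) (nat_lit 95) (nat_lit 4) (nat_lit 116) (nat_lit 170) (nat_lit 164)) (PT.lf (nat_lit 7524) (nat_lit 6) (nat_lit 99) (nat_lit 4) (nat_lit 117) (nat_lit 170) (nat_lit 163)))) (PT.nd (nat_lit 3510) (PT.nd (nat_lit 3432) (PT.lf (nat_lit 7828) (nat_lit 6) (nat_lit 103) (nat_lit 4) (nat_lit 118) (nat_lit 170) (nat_lit 162)) (PT.lf (nat_lit 7828)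 (nat_lit 6) (nat_lit 103) (nat_lit 2) (nat_lit 162) (nat_lit 170) (nat_lit 118))) (PT.nd (nat_lit 78) (PT.lf (nat_lit 7524) (nat_lit 6) (nat_lit 99) (nat_lit 2) (nat_lit 163) (nat_lit 170) (nat_lit 117)) (PT.lf (nat_lit 7220) (nat_lit 6) (nat_lit 95) (nat_lit 2) (nat_lit 164) (nat_lit 170) (nat_lit 116))))))))
noncomputable def pc29 : PT := (PT.nd (nat_lit 47190) (PT.nd (nat_lit 42354) (PT.nd (nat_lit 468) (PT.nd (nat_lit 234) (PT.nd (nat_lit 78) (PT.lf (nat_lit 6916) (nat_lit 6) (nat_lit 91) (nat_lit 2) (nat_lit 165) (nat_lit 170) (nat_lit 115)) (PT.nd (nat_lit 78) (PT.lf (nat_lit 6612) (nat_lit 6) (nat_lit 87) (nat_lit 2) (nat_lit 166) (nat_lit 170) (nat_lit 114)) (PT.lf (nat_lit 6384) (nat_lit 6) (nat_lit 84) (nat_lit 2) (nat_lit 167) (nat_lit 170) (nat_lit 113)))) (PT.nd (nat_lit 78) (PT.lf (nat_lit 6080) (nat_lit 6) (nat_lit 80) (nat_lit 2) (nat_lit 168) (nat_lit 170) (nat_lit 112)) (PT.nd (nat_lit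 78) (PT.lf (nat_lit 5852) (nat_lit 6) (nat_lit 77) (nat_lit 2) (nat_lit 169) (nat_lit 170) (nat_lit 111)) (PT.lf (nat_lit 5624) (nat_lit 3) (nat_lit 74) (nat_lit 0) (nat_lit 170) (nat_lit 170) (nat_lit 110))))) (PT.nd (nat_lit 234) (PT.nd (nat_lit 78) (PT.lf (nat_lit 5320) (nat_lit 6) (nat_lit 70) (nat_lit 0) (nat_lit 171) (nat_lit 170) (nat_lit 109)) (PT.nd (nat_lit 78) (PT.lf (nat_lit 5016) (nat_lit 6) (nat_lit 66) (nat_lit 0) (nat_lit 172) (nat_lit 170) (nat_lit 108)) (PT.lf (nat_lit 4788) (nat_lit 6) (nat_lit 63) (nat_lit 0) (nat_lit 173) (nat_lit 170) (nat_lit 107)))) (PT.nd (nat_lit 41496) (PT.nd (nat_lit 41418) (PT.lf (nat_lit 4484) (nat_lit 6) (nat_lit 59) (nat_lit 0) (nat_lit 174) (nat_lit 170) (nat_lit 106)) (PT.lf (nat_lit 4028) (nat_lit 6) (nat_lit 53) (nat_lit 5) (nat_lit 104) (nat_lit 171) (nat_lit 175))) (PT.nd (nat_lit 78) (PT.lf (nat_lit 4332) (nat_lit 6) (nat_lit 57) (nat_lit 5)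 (nat_lit 105) (nat_lit 171) (nat_lit 174)) (PT.lf (nat_lit 4560) (nat_lit 6) (nat_lit 60) (nat_lit 5) (nat_lit 106) (nat_lit 171) (nat_lit 173)))))) (PT.nd (nat_lit 546) (PT.nd (nat_lit 234) (PT.nd (nat_lit 78) (PT.lf (nat_lit 4864) (nat_lit 6) (nat_lit 64) (nat_lit 5) (nat_lit 107) (nat_lit 171) (nat_lit 172)) (PT.nd (nat_lit 78) (PT.lf (nat_lit 5092) (nat_lit 3) (nat_lit 67) (nat_lit 4) (nat_lit 108) (nat_lit 171) (nat_lit 171)) (PT.lf (nat_lit 5320) (nat_lit 6) (nat_lit 70) (nat_lit 4) (nat_lit 109) (nat_lit 171) (nat_lit 170)))) (PT.nd (nat_lit 156) (PT.nd (nat_lit 78) (PT.lf (nat_lit 5548) (nat_lit 6) (nat_lit 73) (nat_lit 4) (nat_lit 110) (nat_lit 171) (nat_lit 169)) (PT.lf (nat_lit 5776) (nat_lit 6) (nat_lit 76) (nat_lit 4) (nat_lit 111) (nat_lit 171) (nat_lit 168))) (PT.nd (nat_lit 78) (PT.lf (nat_lit 6004) (nat_lit 6) (nat_lit 79) (nat_lit 4) (nat_lit 112) (nat_lit 171) (nat_lit 167)) (PT.lf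 (nat_lit 6308) (nat_lit 6) (nat_lit 83) (nat_lit 4) (nat_lit 113) (nat_lit 171) (nat_lit 166))))) (PT.nd (nat_lit 3978) (PT.nd (nat_lit 78) (PT.lf (nat_lit 6536) (nat_lit 6) (nat_lit 86) (nat_lit 4) (nat_lit 114) (nat_lit 171) (nat_lit 165)) (PT.nd (nat_lit 3822) (PT.lf (nat_lit 6840) (nat_lit 6) (nat_lit 90) (nat_lit 4) (nat_lit 115) (nat_lit 171) (nat_lit 164)) (PT.lf (nat_lit 6840) (nat_lit 6) (nat_lit 90) (nat_lit 2) (nat_lit 164) (nat_lit 171) (nat_lit 115)))) (PT.nd (nat_lit 156) (PT.nd (nat_lit 78) (PT.lf (nat_lit 6536) (nat_lit 6) (nat_lit 86) (nat_lit 2) (nat_lit 165) (nat_lit 171) (nat_lit 114)) (PT.lf (nat_lit 6308) (nat_lit 6) (nat_lit 83) (nat_lit 2) (nat_lit 166) (nat_lit 171) (nat_lit 113))) (PT.nd (nat_lit 78) (PT.lf (nat_lit 6004) (nat_lit 6) (nat_lit 79) (nat_lit 2) (nat_lit 167) (nat_lit 171) (nat_lit 112)) (PT.lf (nat_lit 5776) (nat_lit 6) (nat_lit 76) (nat_lit 2) (nat_lit 168)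 (nat_lit 171) (nat_lit 111))))))) (PT.nd (nat_lit 42198) (PT.nd (nat_lit 41652) (PT.nd (nat_lit 234) (PT.nd (nat_lit 78) (PT.lf (nat_lit 5548) (nat_lit 6) (nat_lit 73) (nat_lit 2) (nat_lit 169) (nat_lit 171) (nat_lit 110)) (PT.nd (nat_lit 78) (PT.lf (nat_lit 5320) (nat_lit 6) (nat_lit 70) (nat_lit 2) (nat_lit 170) (nat_lit 171) (nat_lit 109)) (PT.lf (nat_lit 5092) (nat_lit 3) (nat_lit 67) (nat_lit 0) (nat_lit 171) (nat_lit 171) (nat_lit 108)))) (PT.nd (nat_lit 156) (PT.nd (nat_lit 78) (PT.lf (nat_lit 4864) (nat_lit 6) (nat_lit 64) (nat_lit 0) (nat_lit 172) (nat_lit 171) (nat_lit 107)) (PT.lf (nat_lit 4560) (nat_lit 6) (nat_lit 60) (nat_lit 0) (nat_lit 173) (nat_lit 171) (nat_lit 106))) (PT.nd (nat_lit 78) (PT.lf (nat_lit 4332) (nat_lit 6) (nat_lit 57) (nat_lit 0) (nat_lit 174) (nat_lit 171) (nat_lit 105)) (PT.lf (nat_lit 4028) (nat_lit 6) (nat_lit 53) (nat_lit 0) (nat_lit 175) (nat_lit 171) (nat_lit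 104))))) (PT.nd (nat_lit 234) (PT.nd (nat_lit 78) (PT.lf (nat_lit 3648) (nat_lit 6) (nat_lit 48) (nat_lit 5) (nat_lit 102) (nat_lit 172) (nat_lit 176)) (PT.nd (nat_lit 78) (PT.lf (nat_lit 3876) (nat_lit 6) (nat_lit 51) (nat_lit 5) (nat_lit 103) (nat_lit 172) (nat_lit 175)) (PT.lf (nat_lit 4104) (nat_lit 6) (nat_lit 54) (nat_lit 5) (nat_lit 104) (nat_lit 172) (nat_lit 174)))) (PT.nd (nat_lit 156) (PT.nd (nat_lit 78) (PT.lf (nat_lit 4408) (nat_lit 6) (nat_lit 58) (nat_lit 5) (nat_lit 105) (nat_lit 172) (nat_lit 173)) (PT.lf (nat_lit 4636) (nat_lit 3) (nat_lit 61) (nat_lit 4) (nat_lit 106) (nat_lit 172) (nat_lit 172))) (PT.nd (nat_lit 78) (PT.lf (nat_lit 4864) (nat_lit 6) (nat_lit 64) (nat_lit 4) (nat_lit 107) (nat_lit 172) (nat_lit 171)) (PT.lf (nat_lit 5016) (nat_lit 6) (nat_lit 66) (nat_lit 4) (nat_lit 108) (nat_lit 172) (nat_lit 170)))))) (PT.nd (nat_lit 4680) (PT.nd (nat_lit 234) (PT.nd (nat_lit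 78) (PT.lf (nat_lit 5244) (nat_lit 6) (nat_lit 69) (nat_lit 4) (nat_lit 109) (nat_lit 172) (nat_lit 169)) (PT.nd (nat_lit 78) (PT.lf (nat_lit 5472) (nat_lit 6) (nat_lit 72) (nat_lit 4) (nat_lit 110) (nat_lit 172) (nat_lit 168)) (PT.lf (nat_lit 5700) (nat_lit 6) (nat_lit 75) (nat_lit 4) (nat_lit 111) (nat_lit 172) (nat_lit 167)))) (PT.nd (nat_lit 4290) (PT.nd (nat_lit 4212) (PT.lf (nat_lit 5928) (nat_lit 6) (nat_lit 78) (nat_lit 4) (nat_lit 112) (nat_lit 172) (nat_lit 166)) (PT.lf (nat_lit 5928) (nat_lit 6) (nat_lit 78) (nat_lit 2) (nat_lit 166) (nat_lit 172) (nat_lit 112))) (PT.nd (nat_lit 78) (PT.lf (nat_lit 5700) (nat_lit 6) (nat_lit 75) (nat_lit 2) (nat_lit 167) (nat_lit 172) (nat_lit 111)) (PT.lf (nat_lit 5472) (nat_lit 6) (nat_lit 72) (nat_lit 2) (nat_lit 168) (nat_lit 172) (nat_lit 110))))) (PT.nd (nat_lit 234) (PT.nd (nat_lit 78) (PT.lf (nat_lit 5244) (nat_lit 6) (nat_lit 69) (nat_lit 2) (nat_lit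 169) (nat_lit 172) (nat_lit 109)) (PT.nd (nat_lit 78) (PT.lf (nat_lit 5016) (nat_lit 6) (nat_lit 66) (nat_lit 2) (nat_lit 170) (nat_lit 172) (nat_lit 108)) (PT.lf (nat_lit 4864) (nat_lit 6) (nat_lit 64) (nat_lit 2) (nat_lit 171) (nat_lit 172) (nat_lit 107)))) (PT.nd (nat_lit 156) (PT.nd (nat_lit 78) (PT.lf (nat_lit 4636) (nat_lit 3) (nat_lit 61) (nat_lit 0) (nat_lit 172) (nat_lit 172) (nat_lit 106)) (PT.lf (nat_lit 4408) (nat_lit 6) (nat_lit 58) (nat_lit 0) (nat_lit 173) (nat_lit 172) (nat_lit 105))) (PT.nd (nat_lit 78) (PT.lf (nat_lit 4104) (nat_lit 6) (nat_lit 54) (nat_lit 0) (nat_lit 174) (nat_lit 172) (nat_lit 104)) (PT.lf (nat_lit 3876) (nat_lit 6) (nat_lit 51) (nat_lit 0) (nat_lit 175) (nat_lit 172) (nat_lit 103))))))))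
noncomputable def pc30 : PT := (PT.nd (nat_lit 88374) (PT.nd (nat_lit 46488) (PT.nd (nat_lit 41418) (PT.nd (nat_lit 41184) (PT.nd (nat_lit 41028) (PT.lf (nat_lit 3648) (nat_lit 6) (nat_lit 48) (nat_lit 0) (nat_lit 176) (nat_lit 172) (nat_lit 102)) (PT.nd (nat_lit 78) (PT.lf (nat_lit 3496) (nat_lit 6) (nat_lit 46) (nat_lit 5) (nat_lit 101) (nat_lit 173) (nat_lit 176)) (PT.lf (nat_lit 3724) (nat_lit 6) (nat_lit 49) (nat_lit 5) (nat_lit 102) (nat_lit 173) (nat_lit 175)))) (PT.nd (nat_lit 78) (PT.lf (nat_lit 3952) (nat_lit 6) (nat_lit 52) (nat_lit 5) (nat_lit 103) (nat_lit 173) (nat_lit 174)) (PT.nd (nat_lit 78) (PT.lf (nat_lit 4180) (nat_lit 3) (nat_lit 55) (nat_lit 4) (nat_lit 104) (nat_lit 173) (nat_lit 173)) (PT.lf (nat_lit 4408) (nat_lit 6) (nat_lit 58) (nat_lit 4) (nat_lit 105) (nat_lit 173) (nat_lit 172))))) (PT.nd (nat_lit 234) (PT.nd (nat_lit 78) (PT.lf (nat_lit 4560) (nat_lit 6) (nat_lit 60)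 (nat_lit 4) (nat_lit 106) (nat_lit 173) (nat_lit 171)) (PT.nd (nat_lit 78) (PT.lf (nat_lit 4788) (nat_lit 6) (nat_lit 63) (nat_lit 4) (nat_lit 107) (nat_lit 173) (nat_lit 170)) (PT.lf (nat_lit 4940) (nat_lit 6) (nat_lit 65) (nat_lit 4) (nat_lit 108) (nat_lit 173) (nat_lit 169)))) (PT.nd (nat_lit 4680) (PT.nd (nat_lit 4602) (PT.lf (nat_lit 5168) (nat_lit 6) (nat_lit 68) (nat_lit 4) (nat_lit 109) (nat_lit 173) (nat_lit 168)) (PT.lf (nat_lit 5168) (nat_lit 6) (nat_lit 68) (nat_lit 2) (nat_lit 168) (nat_lit 173) (nat_lit 109))) (PT.nd (nat_lit 78) (PT.lf (nat_lit 4940) (nat_lit 6) (nat_lit 65) (nat_lit 2) (nat_lit 169) (nat_lit 173) (nat_lit 108)) (PT.lf (nat_lit 4788) (nat_lit 6) (nat_lit 63) (nat_lit 2) (nat_lit 170) (nat_lit 173) (nat_lit 107)))))) (PT.nd (nat_lit 41340) (PT.nd (nat_lit 234) (PT.nd (nat_lit 78) (PT.lf (nat_lit 4560) (nat_lit 6) (nat_lit 60) (nat_lit 2) (nat_lit 171) (nat_lit 173) (nat_lit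 106)) (PT.nd (nat_lit 78) (PT.lf (nat_lit 4408) (nat_lit 6) (nat_lit 58) (nat_lit 2) (nat_lit 172) (nat_lit 173) (nat_lit 105)) (PT.lf (nat_lit 4180) (nat_lit 3) (nat_lit 55) (nat_lit 0) (nat_lit 173) (nat_lit 173) (nat_lit 104)))) (PT.nd (nat_lit 156) (PT.nd (nat_lit 78) (PT.lf (nat_lit 3952) (nat_lit 6) (nat_lit 52) (nat_lit 0) (nat_lit 174) (nat_lit 173) (nat_lit 103)) (PT.lf (nat_lit 3724) (nat_lit 6) (nat_lit 49) (nat_lit 0) (nat_lit 175) (nat_lit 173) (nat_lit 102))) (PT.nd (nat_lit 40872) (PT.lf (nat_lit 3496) (nat_lit 6) (nat_lit 46) (nat_lit 0) (nat_lit 176) (nat_lit 173) (nat_lit 101)) (PT.lf (nat_lit 3116) (nat_lit 6) (nat_lit 41) (nat_lit 5) (nat_lit 99) (nat_lit 174) (nat_lit 177))))) (PT.nd (nat_lit 234) (PT.nd (nat_lit 78) (PT.lf (nat_lit 3344) (nat_lit 6) (nat_lit 44) (nat_lit 5) (nat_lit 100) (nat_lit 174) (nat_lit 176)) (PT.nd (nat_lit 78) (PT.lf (nat_lit 3572) (nat_lit 6) (nat_lit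 47) (nat_lit 5) (nat_lit 101) (nat_lit 174) (nat_lit 175)) (PT.lf (nat_lit 3800) (nat_lit 3) (nat_lit 50) (nat_lit 4) (nat_lit 102) (nat_lit 174) (nat_lit 174)))) (PT.nd (nat_lit 156) (PT.nd (nat_lit 78) (PT.lf (nat_lit 3952) (nat_lit 6) (nat_lit 52) (nat_lit 4) (nat_lit 103) (nat_lit 174) (nat_lit 173)) (PT.lf (nat_lit 4104) (nat_lit 6) (nat_lit 54) (nat_lit 4) (nat_lit 104) (nat_lit 174) (nat_lit 172))) (PT.nd (nat_lit 78) (PT.lf (nat_lit 4332) (nat_lit 6) (nat_lit 57) (nat_lit 4) (nat_lit 105) (nat_lit 174) (nat_lit 171)) (PT.lf (nat_lit 4484) (nat_lit 6) (nat_lit 59) (nat_lit 4) (nat_lit 106) (nat_lit 174) (nat_lit 170))))))) (PT.nd (nat_lit 46332) (PT.nd (nat_lit 5226) (PT.nd (nat_lit 4992) (PT.nd (nat_lit 4836) (PT.lf (nat_lit 4712) (nat_lit 6) (nat_lit 62) (nat_lit 4) (nat_lit 107) (nat_lit 174) (nat_lit 169)) (PT.nd (nat_lit 78) (PT.lf (nat_lit 4712) (nat_lit 6) (nat_lit 62) (nat_lit 2) (nat_lit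 169) (nat_lit 174) (nat_lit 107)) (PT.lf (nat_lit 4484) (nat_lit 6) (nat_lit 59) (nat_lit 2) (nat_lit 170) (nat_lit 174) (nat_lit 106)))) (PT.nd (nat_lit 78) (PT.lf (nat_lit 4332) (nat_lit 6) (nat_lit 57) (nat_lit 2) (nat_lit 171) (nat_lit 174) (nat_lit 105)) (PT.nd (nat_lit 78) (PT.lf (nat_lit 4104) (nat_lit 6) (nat_lit 54) (nat_lit 2) (nat_lit 172) (nat_lit 174) (nat_lit 104)) (PT.lf (nat_lit 3952) (nat_lit 6) (nat_lit 52) (nat_lit 2) (nat_lit 173) (nat_lit 174) (nat_lit 103))))) (PT.nd (nat_lit 234) (PT.nd (nat_lit 78) (PT.lf (nat_lit 3800) (nat_lit 3) (nat_lit 50) (nat_lit 0) (nat_lit 174) (nat_lit 174) (nat_lit 102)) (PT.nd (nat_lit 78) (PT.lf (nat_lit 3572) (nat_lit 6) (nat_lit 47) (nat_lit 0) (nat_lit 175) (nat_lit 174) (nat_lit 101)) (PT.lf (nat_lit 3344) (nat_lit 6) (nat_lit 44) (nat_lit 0) (nat_lit 176) (nat_lit 174) (nat_lit 100)))) (PT.nd (nat_lit 40716) (PT.nd (nat_lit 40638) (PT.lf (nat_lit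 3116) (nat_lit 6) (nat_lit 41) (nat_lit 0) (nat_lit 177) (nat_lit 174) (nat_lit 99)) (PT.lf (nat_lit 2736) (nat_lit 6) (nat_lit 36) (nat_lit 5) (nat_lit 97) (nat_lit 175) (nat_lit 178))) (PT.nd (nat_lit 78) (PT.lf (nat_lit 2964) (nat_lit 6) (nat_lit 39) (nat_lit 5) (nat_lit 98) (nat_lit 175) (nat_lit 177)) (PT.lf (nat_lit 3192) (nat_lit 6) (nat_lit 42) (nat_lit 5) (nat_lit 99) (nat_lit 175) (nat_lit 176)))))) (PT.nd (nat_lit 5694) (PT.nd (nat_lit 234) (PT.nd (nat_lit 78) (PT.lf (nat_lit 3420) (nat_lit 3) (nat_lit 45) (nat_lit 4) (nat_lit 100) (nat_lit 175) (nat_lit 175)) (PT.nd (nat_lit 78) (PT.lf (nat_lit 3572) (nat_lit 6) (nat_lit 47) (nat_lit 4) (nat_lit 101) (nat_lit 175) (nat_lit 174)) (PT.lf (nat_lit 3724) (nat_lit 6) (nat_lit 49) (nat_lit 4) (nat_lit 102) (nat_lit 175) (nat_lit 173)))) (PT.nd (nat_lit 5304) (PT.nd (nat_lit 78) (PT.lf (nat_lit 3876) (nat_lit 6) (nat_lit 51) (nat_lit 4) (nat_lit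 103) (nat_lit 175) (nat_lit 172)) (PT.lf (nat_lit 4028) (nat_lit 6) (nat_lit 53) (nat_lit 4) (nat_lit 104) (nat_lit 175) (nat_lit 171))) (PT.nd (nat_lit 78) (PT.lf (nat_lit 4028) (nat_lit 6) (nat_lit 53) (nat_lit 2) (nat_lit 171) (nat_lit 175) (nat_lit 104)) (PT.lf (nat_lit 3876) (nat_lit 6) (nat_lit 51) (nat_lit 2) (nat_lit 172) (nat_lit 175) (nat_lit 103))))) (PT.nd (nat_lit 234) (PT.nd (nat_lit 78) (PT.lf (nat_lit 3724) (nat_lit 6) (nat_lit 49) (nat_lit 2) (nat_lit 173) (nat_lit 175) (nat_lit 102)) (PT.nd (nat_lit 78) (PT.lf (nat_lit 3572) (nat_lit 6) (nat_lit 47) (nat_lit 2) (nat_lit 174) (nat_lit 175) (nat_lit 101)) (PT.lf (nat_lit 3420) (nat_lit 3) (nat_lit 45) (nat_lit 0) (nat_lit 175) (nat_lit 175) (nat_lit 100)))) (PT.nd (nat_lit 156) (PT.nd (nat_lit 78) (PT.lf (nat_lit 3192) (nat_lit 6) (nat_lit 42) (nat_lit 0) (nat_lit 176) (nat_lit 175) (nat_lit 99)) (PT.lf (nat_lit 2964) (nat_lit 6) (nat_lit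 39) (nat_lit 0) (nat_lit 177) (nat_lit 175) (nat_lit 98))) (PT.nd (nat_lit 40482) (PT.lf (nat_lit 2736) (nat_lit 6) (nat_lit 36) (nat_lit 0) (nat_lit 178) (nat_lit 175) (nat_lit 97)) (PT.lf (nat_lit 2584) (nat_lit 6) (nat_lit 34) (nat_lit 5) (nat_lit 96) (nat_lit 176) (nat_lit 178))))))))
noncomputable def pc31 : PT := (PT.nd (nat_lit 93522) (PT.nd (nat_lit 46644) (PT.nd (nat_lit 5850) (PT.nd (nat_lit 234) (PT.nd (nat_lit 78) (PT.lf (nat_lit 2812) (nat_lit 6) (nat_lit 37) (nat_lit 5) (nat_lit 97) (nat_lit 176) (nat_lit 177)) (PT.nd (nat_lit 78) (PT.lf (nat_lit 3040) (nat_lit 3) (nat_lit 40) (nat_lit 4) (nat_lit 98) (nat_lit 176) (nat_lit 176)) (PT.lf (nat_lit 3192) (nat_lit 6) (nat_lit 42) (nat_lit 4) (nat_lit 99) (nat_lit 176) (nat_lit 175)))) (PT.nd (nat_lit 78) (PT.lf (nat_lit 3344) (nat_lit 6) (nat_lit 44) (nat_lit 4) (nat_lit 100) (nat_lit 176) (nat_lit 174)) (PT.nd (nat_lit 78) (PT.lf (nat_lit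 3496) (nat_lit 6) (nat_lit 46) (nat_lit 4) (nat_lit 101) (nat_lit 176) (nat_lit 173)) (PT.lf (nat_lit 3648) (nat_lit 6) (nat_lit 48) (nat_lit 4) (nat_lit 102) (nat_lit 176) (nat_lit 172))))) (PT.nd (nat_lit 234) (PT.nd (nat_lit 78) (PT.lf (nat_lit 3648) (nat_lit 6) (nat_lit 48) (nat_lit 2) (nat_lit 172) (nat_lit 176) (nat_lit 102)) (PT.nd (nat_lit 78) (PT.lf (nat_lit 3496) (nat_lit 6) (nat_lit 46) (nat_lit 2) (nat_lit 173) (nat_lit 176) (nat_lit 101)) (PT.lf (nat_lit 3344) (nat_lit 6) (nat_lit 44) (nat_lit 2) (nat_lit 174) (nat_lit 176) (nat_lit 100)))) (PT.nd (nat_lit 156) (PT.nd (nat_lit 78) (PT.lf (nat_lit 3192) (nat_lit 6) (nat_lit 42) (nat_lit 2) (nat_lit 175) (nat_lit 176) (nat_lit 99)) (PT.lf (nat_lit 3040) (nat_lit 3) (nat_lit 40) (nat_lit 0) (nat_lit 176) (nat_lit 176) (nat_lit 98))) (PT.nd (nat_lit 78) (PT.lf (nat_lit 2812) (nat_lit 6) (nat_lit 37) (nat_lit 0) (nat_lit 177) (nat_lit 176)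 (nat_lit 97)) (PT.lf (nat_lit 2584) (nat_lit 6) (nat_lit 34) (nat_lit 0) (nat_lit 178) (nat_lit 176) (nat_lit 96)))))) (PT.nd (nat_lit 6318) (PT.nd (nat_lit 234) (PT.nd (nat_lit 78) (PT.lf (nat_lit 2280) (nat_lit 6) (nat_lit 30) (nat_lit 5) (nat_lit 94) (nat_lit 177) (nat_lit 179)) (PT.nd (nat_lit 78) (PT.lf (nat_lit 2508) (nat_lit 6) (nat_lit 33) (nat_lit 5) (nat_lit 95) (nat_lit 177) (nat_lit 178)) (PT.lf (nat_lit 2660) (nat_lit 3) (nat_lit 35) (nat_lit 4) (nat_lit 96) (nat_lit 177) (nat_lit 177)))) (PT.nd (nat_lit 156) (PT.nd (nat_lit 78) (PT.lf (nat_lit 2812) (nat_lit 6) (nat_lit 37) (nat_lit 4) (nat_lit 97) (nat_lit 177) (nat_lit 176)) (PT.lf (nat_lit 2964) (nat_lit 6) (nat_lit 39) (nat_lit 4) (nat_lit 98) (nat_lit 177) (nat_lit 175))) (PT.nd (nat_lit 5850) (PT.lf (nat_lit 3116) (nat_lit 6) (nat_lit 41) (nat_lit 4) (nat_lit 99) (nat_lit 177) (nat_lit 174)) (PT.lf (nat_lit 3116) (nat_lit 6) (nat_lit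 41) (nat_lit 2) (nat_lit 174) (nat_lit 177) (nat_lit 99))))) (PT.nd (nat_lit 234) (PT.nd (nat_lit 78) (PT.lf (nat_lit 2964) (nat_lit 6) (nat_lit 39) (nat_lit 2) (nat_lit 175) (nat_lit 177) (nat_lit 98)) (PT.nd (nat_lit 78) (PT.lf (nat_lit 2812) (nat_lit 6) (nat_lit 37) (nat_lit 2) (nat_lit 176) (nat_lit 177) (nat_lit 97)) (PT.lf (nat_lit 2660) (nat_lit 3) (nat_lit 35) (nat_lit 0) (nat_lit 177) (nat_lit 177) (nat_lit 96)))) (PT.nd (nat_lit 40170) (PT.nd (nat_lit 78) (PT.lf (nat_lit 2508) (nat_lit 6) (nat_lit 33) (nat_lit 0) (nat_lit 178) (nat_lit 177) (nat_lit 95)) (PT.lf (nat_lit 2280) (nat_lit 6) (nat_lit 30) (nat_lit 0) (nat_lit 179) (nat_lit 177) (nat_lit 94))) (PT.nd (nat_lit 78) (PT.lf (nat_lit 1976) (nat_lit 6) (nat_lit 26) (nat_lit 5) (nat_lit 92) (nat_lit 178) (nat_lit 180)) (PT.lf (nat_lit 2204) (nat_lit 6) (nat_lit 29) (nat_lit 5) (nat_lit 93) (nat_lit 178) (nat_lit 179))))))) (PT.nd (nat_lit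 53352) (PT.nd (nat_lit 6552) (PT.nd (nat_lit 234) (PT.nd (nat_lit 78) (PT.lf (nat_lit 2356) (nat_lit 3) (nat_lit 31) (nat_lit 4) (nat_lit 94) (nat_lit 178) (nat_lit 178)) (PT.nd (nat_lit 78) (PT.lf (nat_lit 2508) (nat_lit 6) (nat_lit 33) (nat_lit 4) (nat_lit 95) (nat_lit 178) (nat_lit 177)) (PT.lf (nat_lit 2584) (nat_lit 6) (nat_lit 34) (nat_lit 4) (nat_lit 96) (nat_lit 178) (nat_lit 176)))) (PT.nd (nat_lit 6162) (PT.nd (nat_lit 6084) (PT.lf (nat_lit 2736) (nat_lit 6) (nat_lit 36) (nat_lit 4) (nat_lit 97) (nat_lit 178) (nat_lit 175)) (PT.lf (nat_lit 2736) (nat_lit 6) (nat_lit 36) (nat_lit 2) (nat_lit 175) (nat_lit 178) (nat_lit 97))) (PT.nd (nat_lit 78) (PT.lf (nat_lit 2584) (nat_lit 6) (nat_lit 34) (nat_lit 2) (nat_lit 176) (nat_lit 178) (nat_lit 96)) (PT.lf (nat_lit 2508) (nat_lit 6) (nat_lit 33) (nat_lit 2) (nat_lit 177) (nat_lit 178) (nat_lit 95))))) (PT.nd (nat_lit 40092) (PT.nd (nat_lit 78)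 (PT.lf (nat_lit 2356) (nat_lit 3) (nat_lit 31) (nat_lit 0) (nat_lit 178) (nat_lit 178) (nat_lit 94)) (PT.nd (nat_lit 78) (PT.lf (nat_lit 2204) (nat_lit 6) (nat_lit 29) (nat_lit 0) (nat_lit 179) (nat_lit 178) (nat_lit 93)) (PT.lf (nat_lit 1976) (nat_lit 6) (nat_lit 26) (nat_lit 0) (nat_lit 180) (nat_lit 178) (nat_lit 92)))) (PT.nd (nat_lit 156) (PT.nd (nat_lit 78) (PT.lf (nat_lit 1900) (nat_lit 6) (nat_lit 25) (nat_lit 5) (nat_lit 91) (nat_lit 179) (nat_lit 180)) (PT.lf (nat_lit 2052) (nat_lit 3) (nat_lit 27) (nat_lit 4) (nat_lit 92) (nat_lit 179) (nat_lit 179))) (PT.nd (nat_lit 78) (PT.lf (nat_lit 2204) (nat_lit 6) (nat_lit 29) (nat_lit 4) (nat_lit 93) (nat_lit 179) (nat_lit 178)) (PT.lf (nat_lit 2280) (nat_lit 6) (nat_lit 30) (nat_lit 4) (nat_lit 94) (nat_lit 179) (nat_lit 177)))))) (PT.nd (nat_lit 47034) (PT.nd (nat_lit 234) (PT.nd (nat_lit 78) (PT.lf (nat_lit 2280) (nat_lit 6) (nat_lit 30) (nat_lit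 2) (nat_lit 177) (nat_lit 179) (nat_lit 94)) (PT.nd (nat_lit 78) (PT.lf (nat_lit 2204) (nat_lit 6) (nat_lit 29) (nat_lit 2) (nat_lit 178) (nat_lit 179) (nat_lit 93)) (PT.lf (nat_lit 2052) (nat_lit 3) (nat_lit 27) (nat_lit 0) (nat_lit 179) (nat_lit 179) (nat_lit 92)))) (PT.nd (nat_lit 40014) (PT.nd (nat_lit 39936) (PT.lf (nat_lit 1900) (nat_lit 6) (nat_lit 25) (nat_lit 0) (nat_lit 180) (nat_lit 179) (nat_lit 91)) (PT.lf (nat_lit 1900) (nat_lit 6) (nat_lit 25) (nat_lit 4) (nat_lit 91) (nat_lit 180) (nat_lit 179))) (PT.nd (nat_lit 6708) (PT.lf (nat_lit 1976) (nat_lit 6) (nat_lit 26) (nat_lit 4) (nat_lit 92) (nat_lit 180) (nat_lit 178)) (PT.lf (nat_lit 1976) (nat_lit 6) (nat_lit 26) (nat_lit 2) (nat_lit 178) (nat_lit 180) (nat_lit 92))))) (PT.nd (nat_lit 328770) (PT.nd (nat_lit 320034) (PT.lf (nat_lit 1900) (nat_lit 6) (nat_lit 25) (nat_lit 2) (nat_lit 179) (nat_lit 180) (nat_lit 91)) (PT.nd (nat_lit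 78) (PT.lf (nat_lit 76) (nat_lit 6) (nat_lit 1) (nat_lit 5) (nat_lit 75) (nat_lit 187) (nat_lit 188)) (PT.lf (nat_lit 152) (nat_lit 3) (nat_lit 2) (nat_lit 4) (nat_lit 76) (nat_lit 187) (nat_lit 187)))) (PT.nd (nat_lit 38142) (PT.nd (nat_lit 78) (PT.lf (nat_lit 152) (nat_lit 3) (nat_lit 2) (nat_lit 0) (nat_lit 187) (nat_lit 187) (nat_lit 76)) (PT.lf (nat_lit 76) (nat_lit 6) (nat_lit 1) (nat_lit 0) (nat_lit 188) (nat_lit 187) (nat_lit 75))) (PT.nd (nat_lit 8736) (PT.lf (nat_lit 76) (nat_lit 6) (nat_lit 1) (nat_lit 4) (nat_lit 75) (nat_lit 188) (nat_lit 187)) (PT.lf (nat_lit 76) (nat_lit 6) (nat_lit 1) (nat_lit 2) (nat_lit 187) (nat_lit 188) (nat_lit 75))))))))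
noncomputable def xc0 : XT := (XT.nd (nat_lit 140478) (nat_lit 0) (nat_lit 0) (XT.nd (nat_lit 93522) (nat_lit 0) (nat_lit 0) (XT.nd (nat_lit 46800) (nat_lit 0) (nat_lit 0) (XT.nd (nat_lit 46644) (nat_lit 0) (nat_lit 304) (XT.nd (nat_lit 78) (nat_lit 0) (nat_lit 0) (XT.lf (nat_lit 0) (nat_lit 2265653867) (nat_lit 152) (nat_lit 14013946229) (nat_lit 0) (nat_lit 1734331318) (nat_lit 7) (nat_lit 5) (nat_lit 9) (nat_lit 4) (nat_lit 7) (nat_lit 4) (nat_lit 387) (nat_lit 257) (nat_lit 256)) (XT.lf (nat_lit 0) (nat_lit 9485693720) (nat_lit 152) (nat_lit 474931429) (nat_lit 0) (nat_lit 8438524037) (nat_lit 7) (nat_lit 5) (nat_lit 9) (nat_lit 4) (nat_lit 7) (nat_lit 4) (nat_lit 388) (nat_lit 257) (nat_lit 255))) (XT.nd (nat_lit 78) (nat_lit 152) (nat_lit 0) (XT.lf (nat_lit 0) (nat_lit 7236873710) (nat_lit 152) (nat_lit 613496858) (nat_lit 152) (nat_lit 613496858) (nat_lit 13) (nat_lit 4) (nat_lit 15) (nat_lit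 5) (nat_lit 15) (nat_lit 4) (nat_lit 384) (nat_lit 258) (nat_lit 258)) (XT.lf (nat_lit 0) (nat_lit 5956781744) (nat_lit 152) (nat_lit 5923495668) (nat_lit 0) (nat_lit 5398574274) (nat_lit 11) (nat_lit 5) (nat_lit 13) (nat_lit 4) (nat_lit 11) (nat_lit 4) (nat_lit 385) (nat_lit 258) (nat_lit 257)))) (XT.nd (nat_lit 156) (nat_lit 0) (nat_lit 0) (XT.nd (nat_lit 78) (nat_lit 152) (nat_lit 0) (XT.lf (nat_lit 0) (nat_lit 7786384696) (nat_lit 152) (nat_lit 5477820307) (nat_lit 152) (nat_lit 4377663838) (nat_lit 9) (nat_lit 4) (nat_lit 11) (nat_lit 5) (nat_lit 11) (nat_lit 4) (nat_lit 386) (nat_lit 258) (nat_lit 256)) (XT.lf (nat_lit 0) (nat_lit 2661216151) (nat_lit 152) (nat_lit 14288988929) (nat_lit 0) (nat_lit 1066784243) (nat_lit 7) (nat_lit 5) (nat_lit 9) (nat_lit 4) (nat_lit 7) (nat_lit 4) (nat_lit 387) (nat_lit 258) (nat_lit 255))) (XT.nd (nat_lit 46410) (nat_lit 0) (nat_lit 456) (XT.lf (nat_lit 0)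 (nat_lit 9808703543) (nat_lit 152) (nat_lit 881516862) (nat_lit 0) (nat_lit 7713449174) (nat_lit 7) (nat_lit 5) (nat_lit 9) (nat_lit 4) (nat_lit 7) (nat_lit 4) (nat_lit 388) (nat_lit 258) (nat_lit 254)) (XT.nd (nat_lit 78) (nat_lit 152) (nat_lit 0) (XT.lf (nat_lit 0) (nat_lit 822439424) (nat_lit 152) (nat_lit 6483060267) (nat_lit 0) (nat_lit 822439424) (nat_lit 15) (nat_lit 5) (nat_lit 17) (nat_lit 4) (nat_lit 15) (nat_lit 4) (nat_lit 382) (nat_lit 259) (nat_lit 259)) (XT.lf (nat_lit 0) (nat_lit 531549086) (nat_lit 152) (nat_lit 8320923281) (nat_lit 152) (nat_lit 7734470513) (nat_lit 13) (nat_lit 4) (nat_lit 15) (nat_lit 5) (nat_lit 15) (nat_lit 4) (nat_lit 383) (nat_lit 259) (nat_lit 258)))))) (XT.nd (nat_lit 46566) (nat_lit 0) (nat_lit 456) (XT.nd (nat_lit 156) (nat_lit 304) (nat_lit 0) (XT.nd (nat_lit 78) (nat_lit 152) (nat_lit 0) (XT.lf (nat_lit 0) (nat_lit 14339879768) (nat_lit 152) (nat_lit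 1872593444) (nat_lit 152) (nat_lit 716769057) (nat_lit 13) (nat_lit 4) (nat_lit 15) (nat_lit 5) (nat_lit 15) (nat_lit 4) (nat_lit 384) (nat_lit 259) (nat_lit 257)) (XT.lf (nat_lit 0) (nat_lit 6380946038) (nat_lit 152) (nat_lit 6195110681) (nat_lit 0) (nat_lit 4705835875) (nat_lit 11) (nat_lit 5) (nat_lit 13) (nat_lit 4) (nat_lit 11) (nat_lit 4) (nat_lit 385) (nat_lit 259) (nat_lit 256))) (XT.nd (nat_lit 78) (nat_lit 152) (nat_lit 0) (XT.lf (nat_lit 0) (nat_lit 7379530318) (nat_lit 152) (nat_lit 6234080428) (nat_lit 152) (nat_lit 4032806188) (nat_lit 9) (nat_lit 4) (nat_lit 11) (nat_lit 5) (nat_lit 11) (nat_lit 4) (nat_lit 386) (nat_lit 259) (nat_lit 255)) (XT.nd (nat_lit 78) (nat_lit 0) (nat_lit 0) (XT.lf (nat_lit 0) (nat_lit 2921363808) (nat_lit 152) (nat_lit 14839314657) (nat_lit 0) (nat_lit 262429347) (nat_lit 7) (nat_lit 5) (nat_lit 9) (nat_lit 4) (nat_lit 7) (nat_lit 4) (nat_lit 387) (nat_lit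 259) (nat_lit 254)) (XT.lf (nat_lit 0) (nat_lit 9998411918) (nat_lit 152) (nat_lit 1559553981) (nat_lit 0) (nat_lit 6853242057) (nat_lit 7) (nat_lit 5) (nat_lit 9) (nat_lit 4) (nat_lit 7) (nat_lit 4) (nat_lit 388) (nat_lit 259) (nat_lit 253))))) (XT.nd (nat_lit 156) (nat_lit 304) (nat_lit 0) (XT.nd (nat_lit 78) (nat_lit 152) (nat_lit 0) (XT.lf (nat_lit 0) (nat_lit 1923270051) (nat_lit 228) (nat_lit 3964715457) (nat_lit 0) (nat_lit 1923270051) (nat_lit 19) (nat_lit 5) (nat_lit 22) (nat_lit 4) (nat_lit 19) (nat_lit 4) (nat_lit 380) (nat_lit 260) (nat_lit 260)) (XT.lf (nat_lit 0) (nat_lit 5608432179) (nat_lit 152) (nat_lit 5471200236) (nat_lit 152) (nat_lit 4855072958) (nat_lit 17) (nat_lit 4) (nat_lit 19) (nat_lit 5) (nat_lit 19) (nat_lit 4) (nat_lit 381) (nat_lit 260) (nat_lit 259))) (XT.nd (nat_lit 78) (nat_lit 152) (nat_lit 0) (XT.lf (nat_lit 0) (nat_lit 2172858117) (nat_lit 152) (nat_lit 13102195847)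 (nat_lit 0) (nat_lit 982358999) (nat_lit 15) (nat_lit 5) (nat_lit 17) (nat_lit 4) (nat_lit 15) (nat_lit 4) (nat_lit 382) (nat_lit 260) (nat_lit 258)) (XT.nd (nat_lit 78) (nat_lit 0) (nat_lit 0) (XT.lf (nat_lit 0) (nat_lit 259797752) (nat_lit 152) (nat_lit 9045037958) (nat_lit 152) (nat_lit 7285167221) (nat_lit 13) (nat_lit 4) (nat_lit 15) (nat_lit 5) (nat_lit 15) (nat_lit 4) (nat_lit 383) (nat_lit 260) (nat_lit 257)) (XT.lf (nat_lit 0) (nat_lit 13938159840) (nat_lit 152) (nat_lit 2654132354) (nat_lit 152) (nat_lit 341473636) (nat_lit 13) (nat_lit 4) (nat_lit 15) (nat_lit 5) (nat_lit 15) (nat_lit 4) (nat_lit 384) (nat_lit 260) (nat_lit 256))))))) (XT.nd (nat_lit 46722) (nat_lit 0) (nat_lit 0) (XT.nd (nat_lit 46332) (nat_lit 0) (nat_lit 608) (XT.nd (nat_lit 156) (nat_lit 152) (nat_lit 0) (XT.nd (nat_lit 78) (nat_lit 152) (nat_lit 0) (XT.lf (nat_lit 0) (nat_lit 6671437786) (nat_lit 152) (nat_lit 6738578040)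 (nat_lit 0) (nat_lit 3877961240) (nat_lit 11) (nat_lit 5) (nat_lit 13) (nat_lit 4) (nat_lit 11) (nat_lit 4) (nat_lit 385) (nat_lit 260) (nat_lit 255)) (XT.lf (nat_lit 0) (nat_lit 6701044695) (nat_lit 152) (nat_lit 7128636132) (nat_lit 152) (nat_lit 3824320677) (nat_lit 9) (nat_lit 4) (nat_lit 11) (nat_lit 5) (nat_lit 11) (nat_lit 4) (nat_lit 386) (nat_lit 260) (nat_lit 254))) (XT.nd (nat_lit 78) (nat_lit 0) (nat_lit 0) (XT.lf (nat_lit 0) (nat_lit 2362328574) (nat_lit 76) (nat_lit 688465552) (nat_lit 152) (nat_lit 14981408703) (nat_lit 7) (nat_lit 5) (nat_lit 8) (nat_lit 5) (nat_lit 9) (nat_lit 4) (nat_lit 387) (nat_lit 260) (nat_lit 253)) (XT.lf (nat_lit 0) (nat_lit 10054984608) (nat_lit 152) (nat_lit 2509635247) (nat_lit 0) (nat_lit 5857151050) (nat_lit 7) (nat_lit 5) (nat_lit 9) (nat_lit 4) (nat_lit 7) (nat_lit 4) (nat_lit 388) (nat_lit 260) (nat_lit 252)))) (XT.nd (nat_lit 156) (nat_lit 532) (nat_lit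 0) (XT.nd (nat_lit 78) (nat_lit 152) (nat_lit 0) (XT.lf (nat_lit 0) (nat_lit 2728898450) (nat_lit 228) (nat_lit 2055016636) (nat_lit 0) (nat_lit 2728898450) (nat_lit 24) (nat_lit 5) (nat_lit 27) (nat_lit 4) (nat_lit 24) (nat_lit 4) (nat_lit 378) (nat_lit 261) (nat_lit 261)) (XT.lf (nat_lit 0) (nat_lit 9414653156) (nat_lit 152) (nat_lit 3276406736) (nat_lit 152) (nat_lit 2629103418) (nat_lit 22) (nat_lit 4) (nat_lit 24) (nat_lit 5) (nat_lit 24) (nat_lit 4) (nat_lit 379) (nat_lit 261) (nat_lit 260))) (XT.nd (nat_lit 78) (nat_lit 304) (nat_lit 0) (XT.lf (nat_lit 0) (nat_lit 4405505184) (nat_lit 228) (nat_lit 8063766115) (nat_lit 0) (nat_lit 3154766810) (nat_lit 19) (nat_lit 5) (nat_lit 22) (nat_lit 4) (nat_lit 19) (nat_lit 4) (nat_lit 380) (nat_lit 261) (nat_lit 259)) (XT.nd (nat_lit 78) (nat_lit 152) (nat_lit 0) (XT.lf (nat_lit 0) (nat_lit 5340155963) (nat_lit 152) (nat_lit 6223256972) (nat_lit 152)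 (nat_lit 4374336775) (nat_lit 17) (nat_lit 4) (nat_lit 19) (nat_lit 5) (nat_lit 19) (nat_lit 4) (nat_lit 381) (nat_lit 261) (nat_lit 258)) (XT.lf (nat_lit 0) (nat_lit 2566758147) (nat_lit 152) (nat_lit 13510540686) (nat_lit 0) (nat_lit 184719668) (nat_lit 15) (nat_lit 5) (nat_lit 17) (nat_lit 4) (nat_lit 15) (nat_lit 4) (nat_lit 382) (nat_lit 261) (nat_lit 257)))))) (XT.nd (nat_lit 390) (nat_lit 0) (nat_lit 0) (XT.nd (nat_lit 156) (nat_lit 456) (nat_lit 0) (XT.nd (nat_lit 78) (nat_lit 152) (nat_lit 0) (XT.lf (nat_lit 0) (nat_lit 9625348441) (nat_lit 152) (nat_lit 280218412) (nat_lit 0) (nat_lit 6690521983) (nat_lit 15) (nat_lit 5) (nat_lit 17) (nat_lit 4) (nat_lit 15) (nat_lit 4) (nat_lit 383) (nat_lit 261) (nat_lit 256)) (XT.lf (nat_lit 0) (nat_lit 13268236618) (nat_lit 152) (nat_lit 3572293344) (nat_lit 152) (nat_lit 100779526) (nat_lit 13) (nat_lit 4) (nat_lit 15) (nat_lit 5) (nat_lit 15) (nat_lit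 4) (nat_lit 384) (nat_lit 261) (nat_lit 255))) (XT.nd (nat_lit 78) (nat_lit 304) (nat_lit 0) (XT.lf (nat_lit 0) (nat_lit 6828510815) (nat_lit 152) (nat_lit 7554372620) (nat_lit 0) (nat_lit 2914226986) (nat_lit 11) (nat_lit 5) (nat_lit 13) (nat_lit 4) (nat_lit 11) (nat_lit 4) (nat_lit 385) (nat_lit 261) (nat_lit 254)) (XT.nd (nat_lit 78) (nat_lit 152) (nat_lit 0) (XT.lf (nat_lit 0) (nat_lit 5750334976) (nat_lit 152) (nat_lit 8162269069) (nat_lit 152) (nat_lit 3752025133) (nat_lit 9) (nat_lit 4) (nat_lit 11) (nat_lit 5) (nat_lit 11) (nat_lit 4) (nat_lit 386) (nat_lit 261) (nat_lit 253)) (XT.lf (nat_lit 0) (nat_lit 1264762892) (nat_lit 76) (nat_lit 1783020025) (nat_lit 152) (nat_lit 14996536149) (nat_lit 7) (nat_lit 5) (nat_lit 8) (nat_lit 5) (nat_lit 9) (nat_lit 4) (nat_lit 387) (nat_lit 261) (nat_lit 252))))) (XT.nd (nat_lit 46020) (nat_lit 0) (nat_lit 1140) (XT.nd (nat_lit 45942) (nat_lit 0) (nat_lit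 1672) (XT.lf (nat_lit 0) (nat_lit 9978471047) (nat_lit 152) (nat_lit 3732590827) (nat_lit 0) (nat_lit 4724305781) (nat_lit 7) (nat_lit 5) (nat_lit 9) (nat_lit 4) (nat_lit 7) (nat_lit 4) (nat_lit 388) (nat_lit 261) (nat_lit 251)) (XT.lf (nat_lit 0) (nat_lit 3278787464) (nat_lit 228) (nat_lit 673822680) (nat_lit 0) (nat_lit 3278787464) (nat_lit 29) (nat_lit 5) (nat_lit 32) (nat_lit 4) (nat_lit 29) (nat_lit 4) (nat_lit 376) (nat_lit 262) (nat_lit 262))) (XT.nd (nat_lit 78) (nat_lit 380) (nat_lit 0) (XT.lf (nat_lit 0) (nat_lit 12117398061) (nat_lit 152) (nat_lit 1651724238) (nat_lit 152) (nat_lit 971667372) (nat_lit 27) (nat_lit 4) (nat_lit 29) (nat_lit 5) (nat_lit 29) (nat_lit 4) (nat_lit 377) (nat_lit 262) (nat_lit 261)) (XT.nd (nat_lit 78) (nat_lit 152) (nat_lit 0) (XT.lf (nat_lit 0) (nat_lit 6049272991) (nat_lit 228) (nat_lit 4242626533) (nat_lit 0) (nat_lit 4735247256) (nat_lit 24) (nat_lit 5) (nat_lit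 27) (nat_lit 4) (nat_lit 24) (nat_lit 4) (nat_lit 378) (nat_lit 262) (nat_lit 260)) (XT.lf (nat_lit 0) (nat_lit 9149855708) (nat_lit 152) (nat_lit 4057906347) (nat_lit 152) (nat_lit 2115430788) (nat_lit 22) (nat_lit 4) (nat_lit 24) (nat_lit 5) (nat_lit 24) (nat_lit 4) (nat_lit 379) (nat_lit 262) (nat_lit 259))))))))
noncomputable def xc1 : XT := (XT.nd (nat_lit 47190) (nat_lit 0) (nat_lit 0) (XT.nd (nat_lit 46410) (nat_lit 0) (nat_lit 608) (XT.nd (nat_lit 312) (nat_lit 608) (nat_lit 0) (XT.nd (nat_lit 156) (nat_lit 152) (nat_lit 0) (XT.nd (nat_lit 78) (nat_lit 152) (nat_lit 0) (XT.lf (nat_lit 0) (nat_lit 4832150469) (nat_lit 228) (nat_lit 8466889096) (nat_lit 0) (nat_lit 2329580843) (nat_lit 19) (nat_lit 5) (nat_lit 22) (nat_lit 4) (nat_lit 19) (nat_lit 4) (nat_lit 380) (nat_lit 262) (nat_lit 258)) (XT.lf (nat_lit 0) (nat_lit 4803369116) (nat_lit 152) (nat_lit 7111900304) (nat_lit 152) (nat_lit 4028571626)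 (nat_lit 17) (nat_lit 4) (nat_lit 19) (nat_lit 5) (nat_lit 19) (nat_lit 4) (nat_lit 381) (nat_lit 262) (nat_lit 257))) (XT.nd (nat_lit 78) (nat_lit 0) (nat_lit 0) (XT.lf (nat_lit 0) (nat_lit 2073162598) (nat_lit 76) (nat_lit 758686418) (nat_lit 152) (nat_lit 13437751333) (nat_lit 15) (nat_lit 5) (nat_lit 16) (nat_lit 5) (nat_lit 17) (nat_lit 4) (nat_lit 382) (nat_lit 262) (nat_lit 256)) (XT.lf (nat_lit 0) (nat_lit 9815901261) (nat_lit 152) (nat_lit 1085717770) (nat_lit 0) (nat_lit 5703554670) (nat_lit 15) (nat_lit 5) (nat_lit 17) (nat_lit 4) (nat_lit 15) (nat_lit 4) (nat_lit 383) (nat_lit 262) (nat_lit 255)))) (XT.nd (nat_lit 156) (nat_lit 304) (nat_lit 0) (XT.nd (nat_lit 78) (nat_lit 76) (nat_lit 0) (XT.lf (nat_lit 0) (nat_lit 5451144) (nat_lit 228) (nat_lit 4622390968) (nat_lit 76) (nat_lit 12324037008) (nat_lit 12) (nat_lit 5) (nat_lit 15) (nat_lit 5) (nat_lit 13) (nat_lit 4) (nat_lit 384) (nat_lit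 262) (nat_lit 254)) (XT.lf (nat_lit 0) (nat_lit 6852302374) (nat_lit 152) (nat_lit 8643207250) (nat_lit 0) (nat_lit 1813791013) (nat_lit 11) (nat_lit 5) (nat_lit 13) (nat_lit 4) (nat_lit 11) (nat_lit 4) (nat_lit 385) (nat_lit 262) (nat_lit 253))) (XT.nd (nat_lit 78) (nat_lit 152) (nat_lit 0) (XT.lf (nat_lit 0) (nat_lit 4526570443) (nat_lit 152) (nat_lit 9335882415) (nat_lit 152) (nat_lit 3815856386) (nat_lit 9) (nat_lit 4) (nat_lit 11) (nat_lit 5) (nat_lit 11) (nat_lit 4) (nat_lit 386) (nat_lit 262) (nat_lit 252)) (XT.nd (nat_lit 78) (nat_lit 76) (nat_lit 0) (XT.lf (nat_lit 0) (nat_lit 2911302912) (nat_lit 228) (nat_lit 106684111) (nat_lit 76) (nat_lit 15041500580) (nat_lit 8) (nat_lit 5) (nat_lit 11) (nat_lit 5) (nat_lit 9) (nat_lit 4) (nat_lit 387) (nat_lit 262) (nat_lit 251)) (XT.lf (nat_lit 0) (nat_lit 9768804377) (nat_lit 152) (nat_lit 5229489323) (nat_lit 0) (nat_lit 3453716385) (nat_lit 7)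 (nat_lit 5) (nat_lit 9) (nat_lit 4) (nat_lit 7) (nat_lit 4) (nat_lit 388) (nat_lit 262) (nat_lit 250)))))) (XT.nd (nat_lit 390) (nat_lit 684) (nat_lit 0) (XT.nd (nat_lit 156) (nat_lit 532) (nat_lit 0) (XT.nd (nat_lit 78) (nat_lit 76) (nat_lit 0) (XT.lf (nat_lit 0) (nat_lit 254120581) (nat_lit 228) (nat_lit 3355869444) (nat_lit 228) (nat_lit 3355869444) (nat_lit 32) (nat_lit 4) (nat_lit 35) (nat_lit 5) (nat_lit 35) (nat_lit 4) (nat_lit 374) (nat_lit 263) (nat_lit 263)) (XT.lf (nat_lit 0) (nat_lit 190909385) (nat_lit 304) (nat_lit 328830785) (nat_lit 76) (nat_lit 13674500558) (nat_lit 31) (nat_lit 5) (nat_lit 35) (nat_lit 5) (nat_lit 32) (nat_lit 4) (nat_lit 375) (nat_lit 263) (nat_lit 262))) (XT.nd (nat_lit 78) (nat_lit 380) (nat_lit 0) (XT.lf (nat_lit 0) (nat_lit 7183164828) (nat_lit 228) (nat_lit 1478493899) (nat_lit 0) (nat_lit 5802649391) (nat_lit 29) (nat_lit 5) (nat_lit 32) (nat_lit 4) (nat_lit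 29) (nat_lit 4) (nat_lit 376) (nat_lit 263) (nat_lit 261)) (XT.nd (nat_lit 78) (nat_lit 228) (nat_lit 0) (XT.lf (nat_lit 0) (nat_lit 11856084938) (nat_lit 152) (nat_lit 2464242613) (nat_lit 152) (nat_lit 423477790) (nat_lit 27) (nat_lit 4) (nat_lit 29) (nat_lit 5) (nat_lit 29) (nat_lit 4) (nat_lit 377) (nat_lit 263) (nat_lit 260)) (XT.lf (nat_lit 0) (nat_lit 6510192352) (nat_lit 228) (nat_lit 4640522172) (nat_lit 0) (nat_lit 3880992703) (nat_lit 24) (nat_lit 5) (nat_lit 27) (nat_lit 4) (nat_lit 24) (nat_lit 4) (nat_lit 378) (nat_lit 263) (nat_lit 259))))) (XT.nd (nat_lit 156) (nat_lit 304) (nat_lit 0) (XT.nd (nat_lit 78) (nat_lit 228) (nat_lit 0) (XT.lf (nat_lit 0) (nat_lit 8620029437) (nat_lit 152) (nat_lit 4974285116) (nat_lit 152) (nat_lit 1734940007) (nat_lit 22) (nat_lit 4) (nat_lit 24) (nat_lit 5) (nat_lit 24) (nat_lit 4) (nat_lit 379) (nat_lit 263) (nat_lit 258)) (XT.lf (nat_lit 0) (nat_lit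 5126848756) (nat_lit 228) (nat_lit 9139152101) (nat_lit 0) (nat_lit 1370261166) (nat_lit 19) (nat_lit 5) (nat_lit 22) (nat_lit 4) (nat_lit 19) (nat_lit 4) (nat_lit 380) (nat_lit 263) (nat_lit 257))) (XT.nd (nat_lit 78) (nat_lit 152) (nat_lit 0) (XT.lf (nat_lit 0) (nat_lit 3997602600) (nat_lit 152) (nat_lit 8137906715) (nat_lit 152) (nat_lit 3817475387) (nat_lit 17) (nat_lit 4) (nat_lit 19) (nat_lit 5) (nat_lit 19) (nat_lit 4) (nat_lit 381) (nat_lit 263) (nat_lit 256)) (XT.nd (nat_lit 78) (nat_lit 0) (nat_lit 0) (XT.lf (nat_lit 0) (nat_lit 1122551127) (nat_lit 76) (nat_lit 1842995190) (nat_lit 152) (nat_lit 13314675138) (nat_lit 15) (nat_lit 5) (nat_lit 16) (nat_lit 5) (nat_lit 17) (nat_lit 4) (nat_lit 382) (nat_lit 263) (nat_lit 255)) (XT.lf (nat_lit 0) (nat_lit 9874973893) (nat_lit 152) (nat_lit 2160811448) (nat_lit 0) (nat_lit 4581513857) (nat_lit 15) (nat_lit 5) (nat_lit 17) (nat_lit 4) (nat_lit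 15) (nat_lit 4) (nat_lit 383) (nat_lit 263) (nat_lit 254))))))) (XT.nd (nat_lit 46332) (nat_lit 0) (nat_lit 152) (XT.nd (nat_lit 45942) (nat_lit 0) (nat_lit 1672) (XT.nd (nat_lit 156) (nat_lit 304) (nat_lit 0) (XT.nd (nat_lit 78) (nat_lit 152) (nat_lit 0) (XT.lf (nat_lit 0) (nat_lit 11121203950) (nat_lit 152) (nat_lit 5821810753) (nat_lit 152) (nat_lit 22471408) (nat_lit 13) (nat_lit 4) (nat_lit 15) (nat_lit 5) (nat_lit 15) (nat_lit 4) (nat_lit 384) (nat_lit 263) (nat_lit 253)) (XT.lf (nat_lit 0) (nat_lit 6742833251) (nat_lit 152) (nat_lit 10006033340) (nat_lit 0) (nat_lit 575691775) (nat_lit 11) (nat_lit 5) (nat_lit 13) (nat_lit 4) (nat_lit 11) (nat_lit 4) (nat_lit 385) (nat_lit 263) (nat_lit 252))) (XT.nd (nat_lit 78) (nat_lit 152) (nat_lit 0) (XT.lf (nat_lit 0) (nat_lit 3028681788) (nat_lit 152) (nat_lit 10650501655) (nat_lit 152) (nat_lit 4015870211) (nat_lit 9) (nat_lit 4) (nat_lit 11) (nat_lit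 5) (nat_lit 11) (nat_lit 4) (nat_lit 386) (nat_lit 263) (nat_lit 251)) (XT.nd (nat_lit 78) (nat_lit 76) (nat_lit 0) (XT.lf (nat_lit 0) (nat_lit 2650539265) (nat_lit 228) (nat_lit 1734415883) (nat_lit 76) (nat_lit 13692580460) (nat_lit 8) (nat_lit 5) (nat_lit 11) (nat_lit 5) (nat_lit 9) (nat_lit 4) (nat_lit 387) (nat_lit 263) (nat_lit 250)) (XT.lf (nat_lit 0) (nat_lit 9425801394) (nat_lit 152) (nat_lit 7001638706) (nat_lit 0) (nat_lit 2044272639) (nat_lit 7) (nat_lit 5) (nat_lit 9) (nat_lit 4) (nat_lit 7) (nat_lit 4) (nat_lit 388) (nat_lit 263) (nat_lit 249))))) (XT.nd (nat_lit 156) (nat_lit 456) (nat_lit 0) (XT.nd (nat_lit 78) (nat_lit 228) (nat_lit 0) (XT.lf (nat_lit 0) (nat_lit 793737729) (nat_lit 228) (nat_lit 2960716755) (nat_lit 228) (nat_lit 2960716755) (nat_lit 38) (nat_lit 4) (nat_lit 41) (nat_lit 5) (nat_lit 41) (nat_lit 4) (nat_lit 372) (nat_lit 264) (nat_lit 264)) (XT.lf (nat_lit 0) (nat_lit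 930967188) (nat_lit 228) (nat_lit 12552137610) (nat_lit 0) (nat_lit 195065412) (nat_lit 35) (nat_lit 5) (nat_lit 38) (nat_lit 4) (nat_lit 35) (nat_lit 4) (nat_lit 373) (nat_lit 264) (nat_lit 263))) (XT.nd (nat_lit 78) (nat_lit 228) (nat_lit 0) (XT.lf (nat_lit 0) (nat_lit 377425451) (nat_lit 228) (nat_lit 7503093292) (nat_lit 228) (nat_lit 6052723773) (nat_lit 32) (nat_lit 4) (nat_lit 35) (nat_lit 5) (nat_lit 35) (nat_lit 4) (nat_lit 374) (nat_lit 264) (nat_lit 262)) (XT.nd (nat_lit 78) (nat_lit 152) (nat_lit 0) (XT.lf (nat_lit 0) (nat_lit 767613168) (nat_lit 304) (nat_lit 593448921) (nat_lit 76) (nat_lit 12836105531) (nat_lit 31) (nat_lit 5) (nat_lit 35) (nat_lit 5) (nat_lit 32) (nat_lit 4) (nat_lit 375) (nat_lit 264) (nat_lit 261)) (XT.lf (nat_lit 0) (nat_lit 7679965723) (nat_lit 228) (nat_lit 1871153848) (nat_lit 0) (nat_lit 4917728572) (nat_lit 29) (nat_lit 5) (nat_lit 32) (nat_lit 4) (nat_lit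 29) (nat_lit 4) (nat_lit 376) (nat_lit 264) (nat_lit 260)))))) (XT.nd (nat_lit 390) (nat_lit 608) (nat_lit 0) (XT.nd (nat_lit 156) (nat_lit 532) (nat_lit 0) (XT.nd (nat_lit 78) (nat_lit 228) (nat_lit 0) (XT.lf (nat_lit 0) (nat_lit 11333230360) (nat_lit 152) (nat_lit 3409932463) (nat_lit 152) (nat_lit 6676492) (nat_lit 27) (nat_lit 4) (nat_lit 29) (nat_lit 5) (nat_lit 29) (nat_lit 4) (nat_lit 377) (nat_lit 264) (nat_lit 259)) (XT.lf (nat_lit 0) (nat_lit 6840957727) (nat_lit 228) (nat_lit 5304067866) (nat_lit 0) (nat_lit 2894286806) (nat_lit 24) (nat_lit 5) (nat_lit 27) (nat_lit 4) (nat_lit 24) (nat_lit 4) (nat_lit 378) (nat_lit 264) (nat_lit 258))) (XT.nd (nat_lit 78) (nat_lit 380) (nat_lit 0) (XT.lf (nat_lit 0) (nat_lit 7824711388) (nat_lit 152) (nat_lit 6026343760) (nat_lit 152) (nat_lit 1487298606) (nat_lit 22) (nat_lit 4) (nat_lit 24) (nat_lit 5) (nat_lit 24) (nat_lit 4) (nat_lit 379) (nat_lit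 264) (nat_lit 257)) (XT.nd (nat_lit 78) (nat_lit 152) (nat_lit 0) (XT.lf (nat_lit 0) (nat_lit 5289857546) (nat_lit 228) (nat_lit 10081142545) (nat_lit 0) (nat_lit 275969538) (nat_lit 19) (nat_lit 5) (nat_lit 22) (nat_lit 4) (nat_lit 19) (nat_lit 4) (nat_lit 380) (nat_lit 264) (nat_lit 256)) (XT.lf (nat_lit 0) (nat_lit 2922152347) (nat_lit 152) (nat_lit 9302172718) (nat_lit 152) (nat_lit 3740863604) (nat_lit 17) (nat_lit 4) (nat_lit 19) (nat_lit 5) (nat_lit 19) (nat_lit 4) (nat_lit 381) (nat_lit 264) (nat_lit 255))))) (XT.nd (nat_lit 156) (nat_lit 456) (nat_lit 0) (XT.nd (nat_lit 78) (nat_lit 76) (nat_lit 0) (XT.lf (nat_lit 0) (nat_lit 2967400537) (nat_lit 228) (nat_lit 98636831) (nat_lit 76) (nat_lit 13227865059) (nat_lit 16) (nat_lit 5) (nat_lit 19) (nat_lit 5) (nat_lit 17) (nat_lit 4) (nat_lit 382) (nat_lit 264) (nat_lit 254)) (XT.lf (nat_lit 0) (nat_lit 9802617954) (nat_lit 152) (nat_lit 3506438849)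 (nat_lit 0) (nat_lit 3323419119) (nat_lit 15) (nat_lit 5) (nat_lit 17) (nat_lit 4) (nat_lit 15) (nat_lit 4) (nat_lit 383) (nat_lit 264) (nat_lit 253))) (XT.nd (nat_lit 78) (nat_lit 304) (nat_lit 0) (XT.lf (nat_lit 0) (nat_lit 9642218456) (nat_lit 152) (nat_lit 7155132770) (nat_lit 152) (nat_lit 184788975) (nat_lit 13) (nat_lit 4) (nat_lit 15) (nat_lit 5) (nat_lit 15) (nat_lit 4) (nat_lit 384) (nat_lit 264) (nat_lit 252)) (XT.nd (nat_lit 78) (nat_lit 152) (nat_lit 0) (XT.lf (nat_lit 0) (nat_lit 5693479079) (nat_lit 76) (nat_lit 811799455) (nat_lit 152) (nat_lit 10837512994) (nat_lit 11) (nat_lit 5) (nat_lit 12) (nat_lit 5) (nat_lit 13) (nat_lit 4) (nat_lit 385) (nat_lit 264) (nat_lit 251)) (XT.lf (nat_lit 0) (nat_lit 1255360176) (nat_lit 152) (nat_lit 12107275487) (nat_lit 152) (nat_lit 4352241377) (nat_lit 9) (nat_lit 4) (nat_lit 11) (nat_lit 5) (nat_lit 11) (nat_lit 4) (nat_lit 386) (nat_lit 264)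 (nat_lit 250))))))))
noncomputable def xc2 : XT := (XT.nd (nat_lit 46878) (nat_lit 0) (nat_lit 0) (XT.nd (nat_lit 46098) (nat_lit 0) (nat_lit 304) (XT.nd (nat_lit 45708) (nat_lit 0) (nat_lit 1672) (XT.nd (nat_lit 45552) (nat_lit 0) (nat_lit 2584) (XT.nd (nat_lit 78) (nat_lit 76) (nat_lit 0) (XT.lf (nat_lit 0) (nat_lit 2257052444) (nat_lit 228) (nat_lit 3636442303) (nat_lit 76) (nat_lit 12205148334) (nat_lit 8) (nat_lit 5) (nat_lit 11) (nat_lit 5) (nat_lit 9) (nat_lit 4) (nat_lit 387) (nat_lit 264) (nat_lit 249)) (XT.lf (nat_lit 0) (nat_lit 8949162389) (nat_lit 152) (nat_lit 9050587454) (nat_lit 0) (nat_lit 494742990) (nat_lit 7) (nat_lit 5) (nat_lit 9) (nat_lit 4) (nat_lit 7) (nat_lit 4) (nat_lit 388) (nat_lit 264) (nat_lit 248))) (XT.nd (nat_lit 78) (nat_lit 228) (nat_lit 0) (XT.lf (nat_lit 0) (nat_lit 994681834) (nat_lit 228) (nat_lit 2741895991) (nat_lit 228) (nat_lit 2741895991) (nat_lit 44) (nat_lit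 4) (nat_lit 47) (nat_lit 5) (nat_lit 47) (nat_lit 4) (nat_lit 370) (nat_lit 265) (nat_lit 265)) (XT.lf (nat_lit 0) (nat_lit 1311545039) (nat_lit 228) (nat_lit 11340995133) (nat_lit 0) (nat_lit 538406634) (nat_lit 41) (nat_lit 5) (nat_lit 44) (nat_lit 4) (nat_lit 41) (nat_lit 4) (nat_lit 371) (nat_lit 265) (nat_lit 264)))) (XT.nd (nat_lit 156) (nat_lit 456) (nat_lit 0) (XT.nd (nat_lit 78) (nat_lit 228) (nat_lit 0) (XT.lf (nat_lit 0) (nat_lit 1458436356) (nat_lit 228) (nat_lit 6748590941) (nat_lit 228) (nat_lit 5224832724) (nat_lit 38) (nat_lit 4) (nat_lit 41) (nat_lit 5) (nat_lit 41) (nat_lit 4) (nat_lit 372) (nat_lit 265) (nat_lit 263)) (XT.lf (nat_lit 0) (nat_lit 862517376) (nat_lit 152) (nat_lit 679578015) (nat_lit 228) (nat_lit 12139044948) (nat_lit 35) (nat_lit 5) (nat_lit 37) (nat_lit 5) (nat_lit 38) (nat_lit 4) (nat_lit 373) (nat_lit 265) (nat_lit 262))) (XT.nd (nat_lit 78) (nat_lit 456) (nat_lit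 0) (XT.lf (nat_lit 0) (nat_lit 8412440740) (nat_lit 228) (nat_lit 14937479) (nat_lit 0) (nat_lit 5510434389) (nat_lit 35) (nat_lit 5) (nat_lit 38) (nat_lit 4) (nat_lit 35) (nat_lit 4) (nat_lit 374) (nat_lit 265) (nat_lit 261)) (XT.nd (nat_lit 78) (nat_lit 152) (nat_lit 0) (XT.lf (nat_lit 0) (nat_lit 1216427281) (nat_lit 304) (nat_lit 1118277615) (nat_lit 76) (nat_lit 11868411842) (nat_lit 31) (nat_lit 5) (nat_lit 35) (nat_lit 5) (nat_lit 32) (nat_lit 4) (nat_lit 375) (nat_lit 265) (nat_lit 260)) (XT.lf (nat_lit 0) (nat_lit 8048411710) (nat_lit 228) (nat_lit 2525968309) (nat_lit 0) (nat_lit 3902039241) (nat_lit 29) (nat_lit 5) (nat_lit 32) (nat_lit 4) (nat_lit 29) (nat_lit 4) (nat_lit 376) (nat_lit 265) (nat_lit 259)))))) (XT.nd (nat_lit 390) (nat_lit 456) (nat_lit 0) (XT.nd (nat_lit 156) (nat_lit 532) (nat_lit 0) (XT.nd (nat_lit 78) (nat_lit 152) (nat_lit 0) (XT.lf (nat_lit 0) (nat_lit 275440261)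 (nat_lit 228) (nat_lit 4212331511) (nat_lit 76) (nat_lit 10271088853) (nat_lit 26) (nat_lit 5) (nat_lit 29) (nat_lit 5) (nat_lit 27) (nat_lit 4) (nat_lit 377) (nat_lit 265) (nat_lit 258)) (XT.lf (nat_lit 0) (nat_lit 7041858136) (nat_lit 228) (nat_lit 6233843412) (nat_lit 0) (nat_lit 1774267395) (nat_lit 24) (nat_lit 5) (nat_lit 27) (nat_lit 4) (nat_lit 24) (nat_lit 4) (nat_lit 378) (nat_lit 265) (nat_lit 257))) (XT.nd (nat_lit 78) (nat_lit 380) (nat_lit 0) (XT.lf (nat_lit 0) (nat_lit 6763206621) (nat_lit 152) (nat_lit 7215001555) (nat_lit 152) (nat_lit 1372290200) (nat_lit 22) (nat_lit 4) (nat_lit 24) (nat_lit 5) (nat_lit 24) (nat_lit 4) (nat_lit 379) (nat_lit 265) (nat_lit 256)) (XT.nd (nat_lit 78) (nat_lit 152) (nat_lit 0) (XT.lf (nat_lit 0) (nat_lit 4360665537) (nat_lit 152) (nat_lit 966931700) (nat_lit 228) (nat_lit 10333029787) (nat_lit 19) (nat_lit 5) (nat_lit 21) (nat_lit 5) (nat_lit 22) (nat_lit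 4) (nat_lit 380) (nat_lit 265) (nat_lit 255)) (XT.lf (nat_lit 0) (nat_lit 1576078644) (nat_lit 152) (nat_lit 10605715630) (nat_lit 152) (nat_lit 3798669334) (nat_lit 17) (nat_lit 4) (nat_lit 19) (nat_lit 5) (nat_lit 19) (nat_lit 4) (nat_lit 381) (nat_lit 265) (nat_lit 254))))) (XT.nd (nat_lit 156) (nat_lit 304) (nat_lit 0) (XT.nd (nat_lit 78) (nat_lit 76) (nat_lit 0) (XT.lf (nat_lit 0) (nat_lit 2845824356) (nat_lit 228) (nat_lit 1574477991) (nat_lit 76) (nat_lit 11890184648) (nat_lit 16) (nat_lit 5) (nat_lit 19) (nat_lit 5) (nat_lit 17) (nat_lit 4) (nat_lit 382) (nat_lit 265) (nat_lit 253)) (XT.lf (nat_lit 0) (nat_lit 9598770220) (nat_lit 152) (nat_lit 5123775764) (nat_lit 0) (nat_lit 1928171151) (nat_lit 15) (nat_lit 5) (nat_lit 17) (nat_lit 4) (nat_lit 15) (nat_lit 4) (nat_lit 383) (nat_lit 265) (nat_lit 252))) (XT.nd (nat_lit 78) (nat_lit 152) (nat_lit 0) (XT.lf (nat_lit 0) (nat_lit 7891275933)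 (nat_lit 152) (nat_lit 8629009781) (nat_lit 152) (nat_lit 481570945) (nat_lit 13) (nat_lit 4) (nat_lit 15) (nat_lit 5) (nat_lit 15) (nat_lit 4) (nat_lit 384) (nat_lit 265) (nat_lit 251)) (XT.nd (nat_lit 78) (nat_lit 0) (nat_lit 0) (XT.lf (nat_lit 0) (nat_lit 3790114131) (nat_lit 76) (nat_lit 2348749332) (nat_lit 152) (nat_lit 11225163932) (nat_lit 11) (nat_lit 5) (nat_lit 12) (nat_lit 5) (nat_lit 13) (nat_lit 4) (nat_lit 385) (nat_lit 265) (nat_lit 250)) (XT.lf (nat_lit 0) (nat_lit 12917694226) (nat_lit 152) (nat_lit 784518064) (nat_lit 0) (nat_lit 4035481206) (nat_lit 11) (nat_lit 5) (nat_lit 13) (nat_lit 4) (nat_lit 11) (nat_lit 4) (nat_lit 386) (nat_lit 265) (nat_lit 249))))))) (XT.nd (nat_lit 45942) (nat_lit 0) (nat_lit 456) (XT.nd (nat_lit 45552) (nat_lit 0) (nat_lit 2128) (XT.nd (nat_lit 45396) (nat_lit 0) (nat_lit 3040) (XT.nd (nat_lit 78) (nat_lit 76) (nat_lit 0) (XT.lf (nat_lit 0) (nat_lit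 1730498627) (nat_lit 228) (nat_lit 5814425337) (nat_lit 76) (nat_lit 10577904503) (nat_lit 8) (nat_lit 5) (nat_lit 11) (nat_lit 5) (nat_lit 9) (nat_lit 4) (nat_lit 387) (nat_lit 265) (nat_lit 248)) (XT.lf (nat_lit 0) (nat_lit 7134217050) (nat_lit 76) (nat_lit 1212123740) (nat_lit 152) (nat_lit 10173872084) (nat_lit 7) (nat_lit 5) (nat_lit 8) (nat_lit 5) (nat_lit 9) (nat_lit 4) (nat_lit 388) (nat_lit 265) (nat_lit 247))) (XT.nd (nat_lit 78) (nat_lit 228) (nat_lit 0) (XT.lf (nat_lit 0) (nat_lit 909471438) (nat_lit 228) (nat_lit 2672712665) (nat_lit 228) (nat_lit 2672712665) (nat_lit 50) (nat_lit 4) (nat_lit 53) (nat_lit 5) (nat_lit 53) (nat_lit 4) (nat_lit 368) (nat_lit 266) (nat_lit 266)) (XT.lf (nat_lit 0) (nat_lit 1382433304) (nat_lit 228) (nat_lit 10778250387) (nat_lit 0) (nat_lit 570174095) (nat_lit 47) (nat_lit 5) (nat_lit 50) (nat_lit 4) (nat_lit 47) (nat_lit 4) (nat_lit 369) (nat_lit 266) (nat_lit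 265)))) (XT.nd (nat_lit 156) (nat_lit 456) (nat_lit 0) (XT.nd (nat_lit 78) (nat_lit 228) (nat_lit 0) (XT.lf (nat_lit 0) (nat_lit 1862107148) (nat_lit 228) (nat_lit 6348606450) (nat_lit 228) (nat_lit 4747746067) (nat_lit 44) (nat_lit 4) (nat_lit 47) (nat_lit 5) (nat_lit 47) (nat_lit 4) (nat_lit 370) (nat_lit 266) (nat_lit 264)) (XT.lf (nat_lit 0) (nat_lit 1592049801) (nat_lit 152) (nat_lit 367624649) (nat_lit 228) (nat_lit 11234271210) (nat_lit 41) (nat_lit 5) (nat_lit 43) (nat_lit 5) (nat_lit 44) (nat_lit 4) (nat_lit 371) (nat_lit 266) (nat_lit 263))) (XT.nd (nat_lit 78) (nat_lit 228) (nat_lit 0) (XT.lf (nat_lit 0) (nat_lit 1071206297) (nat_lit 228) (nat_lit 7707027772) (nat_lit 228) (nat_lit 4658179899) (nat_lit 38) (nat_lit 4) (nat_lit 41) (nat_lit 5) (nat_lit 41) (nat_lit 4) (nat_lit 372) (nat_lit 266) (nat_lit 262)) (XT.nd (nat_lit 78) (nat_lit 0) (nat_lit 0) (XT.lf (nat_lit 0) (nat_lit 337575831)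 (nat_lit 152) (nat_lit 1689134498) (nat_lit 228) (nat_lit 11660418336) (nat_lit 35) (nat_lit 5) (nat_lit 37) (nat_lit 5) (nat_lit 38) (nat_lit 4) (nat_lit 373) (nat_lit 266) (nat_lit 261)) (XT.lf (nat_lit 0) (nat_lit 8820264620) (nat_lit 228) (nat_lit 661001810) (nat_lit 0) (nat_lit 4464085703) (nat_lit 35) (nat_lit 5) (nat_lit 38) (nat_lit 4) (nat_lit 35) (nat_lit 4) (nat_lit 374) (nat_lit 266) (nat_lit 260)))))) (XT.nd (nat_lit 390) (nat_lit 684) (nat_lit 0) (XT.nd (nat_lit 156) (nat_lit 532) (nat_lit 0) (XT.nd (nat_lit 78) (nat_lit 152) (nat_lit 0) (XT.lf (nat_lit 0) (nat_lit 1537743890) (nat_lit 304) (nat_lit 1903775454) (nat_lit 76) (nat_lit 10770573936) (nat_lit 31) (nat_lit 5) (nat_lit 35) (nat_lit 5) (nat_lit 32) (nat_lit 4) (nat_lit 375) (nat_lit 266) (nat_lit 259)) (XT.lf (nat_lit 0) (nat_lit 8288824733) (nat_lit 228) (nat_lit 3443509450) (nat_lit 0) (nat_lit 2754693901) (nat_lit 29) (nat_lit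 5) (nat_lit 32) (nat_lit 4) (nat_lit 29) (nat_lit 4) (nat_lit 376) (nat_lit 266) (nat_lit 258))) (XT.nd (nat_lit 78) (nat_lit 304) (nat_lit 0) (XT.lf (nat_lit 0) (nat_lit 428410201) (nat_lit 228) (nat_lit 5272963943) (nat_lit 76) (nat_lit 9069555396) (nat_lit 26) (nat_lit 5) (nat_lit 29) (nat_lit 5) (nat_lit 27) (nat_lit 4) (nat_lit 377) (nat_lit 266) (nat_lit 257)) (XT.nd (nat_lit 78) (nat_lit 152) (nat_lit 0) (XT.lf (nat_lit 0) (nat_lit 7113069122) (nat_lit 228) (nat_lit 7430661235) (nat_lit 0) (nat_lit 519955812) (nat_lit 24) (nat_lit 5) (nat_lit 27) (nat_lit 4) (nat_lit 24) (nat_lit 4) (nat_lit 378) (nat_lit 266) (nat_lit 256)) (XT.lf (nat_lit 0) (nat_lit 5434587610) (nat_lit 152) (nat_lit 8541297134) (nat_lit 152) (nat_lit 1389814296) (nat_lit 22) (nat_lit 4) (nat_lit 24) (nat_lit 5) (nat_lit 24) (nat_lit 4) (nat_lit 379) (nat_lit 266) (nat_lit 255))))) (XT.nd (nat_lit 156) (nat_lit 456) (nat_lit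 0) (XT.nd (nat_lit 78) (nat_lit 0) (nat_lit 0) (XT.lf (nat_lit 0) (nat_lit 2884210079) (nat_lit 152) (nat_lit 2352324205) (nat_lit 228) (nat_lit 10440783188) (nat_lit 19) (nat_lit 5) (nat_lit 21) (nat_lit 5) (nat_lit 22) (nat_lit 4) (nat_lit 380) (nat_lit 266) (nat_lit 254)) (XT.lf (nat_lit 0) (nat_lit 12008151140) (nat_lit 228) (nat_lit 41246544) (nat_lit 0) (nat_lit 3949419758) (nat_lit 19) (nat_lit 5) (nat_lit 22) (nat_lit 4) (nat_lit 19) (nat_lit 4) (nat_lit 381) (nat_lit 266) (nat_lit 253))) (XT.nd (nat_lit 78) (nat_lit 228) (nat_lit 0) (XT.lf (nat_lit 0) (nat_lit 2593423196) (nat_lit 228) (nat_lit 3320984383) (nat_lit 76) (nat_lit 10415727840) (nat_lit 16) (nat_lit 5) (nat_lit 19) (nat_lit 5) (nat_lit 17) (nat_lit 4) (nat_lit 382) (nat_lit 266) (nat_lit 252)) (XT.nd (nat_lit 78) (nat_lit 152) (nat_lit 0) (XT.lf (nat_lit 0) (nat_lit 9263252573) (nat_lit 152) (nat_lit 7014235400) (nat_lit 0) (nat_lit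 394550805) (nat_lit 15) (nat_lit 5) (nat_lit 17) (nat_lit 4) (nat_lit 15) (nat_lit 4) (nat_lit 383) (nat_lit 266) (nat_lit 251)) (XT.lf (nat_lit 0) (nat_lit 5866846432) (nat_lit 152) (nat_lit 10244729639) (nat_lit 152) (nat_lit 913076640) (nat_lit 13) (nat_lit 4) (nat_lit 15) (nat_lit 5) (nat_lit 15) (nat_lit 4) (nat_lit 384) (nat_lit 266) (nat_lit 250))))))))
noncomputable def xc3 : XT := (XT.nd (nat_lit 46566) (nat_lit 0) (nat_lit 0) (XT.nd (nat_lit 45786) (nat_lit 0) (nat_lit 912) (XT.nd (nat_lit 45396) (nat_lit 0) (nat_lit 2812) (XT.nd (nat_lit 156) (nat_lit 304) (nat_lit 0) (XT.nd (nat_lit 78) (nat_lit 0) (nat_lit 0) (XT.lf (nat_lit 0) (nat_lit 1610630245) (nat_lit 76) (nat_lit 4028850179) (nat_lit 152) (nat_lit 11748879850) (nat_lit 11) (nat_lit 5) (nat_lit 12) (nat_lit 5) (nat_lit 13) (nat_lit 4) (nat_lit 385) (nat_lit 266) (nat_lit 249)) (XT.lf (nat_lit 0) (nat_lit 12348765151) (nat_lit 152)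 (nat_lit 3083049849) (nat_lit 0) (nat_lit 2331612064) (nat_lit 11) (nat_lit 5) (nat_lit 13) (nat_lit 4) (nat_lit 11) (nat_lit 4) (nat_lit 386) (nat_lit 266) (nat_lit 248))) (XT.nd (nat_lit 78) (nat_lit 76) (nat_lit 0) (XT.lf (nat_lit 0) (nat_lit 1070417717) (nat_lit 228) (nat_lit 8270268078) (nat_lit 76) (nat_lit 8809427104) (nat_lit 8) (nat_lit 5) (nat_lit 11) (nat_lit 5) (nat_lit 9) (nat_lit 4) (nat_lit 387) (nat_lit 266) (nat_lit 247)) (XT.lf (nat_lit 0) (nat_lit 4542746158) (nat_lit 76) (nat_lit 3070382049) (nat_lit 152) (nat_lit 10935840759) (nat_lit 7) (nat_lit 5) (nat_lit 8) (nat_lit 5) (nat_lit 9) (nat_lit 4) (nat_lit 388) (nat_lit 266) (nat_lit 246)))) (XT.nd (nat_lit 156) (nat_lit 684) (nat_lit 0) (XT.nd (nat_lit 78) (nat_lit 304) (nat_lit 0) (XT.lf (nat_lit 0) (nat_lit 585145042) (nat_lit 228) (nat_lit 2729247705) (nat_lit 228) (nat_lit 2729247705) (nat_lit 57) (nat_lit 4) (nat_lit 60)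 (nat_lit 5) (nat_lit 60) (nat_lit 4) (nat_lit 366) (nat_lit 267) (nat_lit 267)) (XT.lf (nat_lit 0) (nat_lit 1193219137) (nat_lit 304) (nat_lit 10763149351) (nat_lit 0) (nat_lit 339859612) (nat_lit 53) (nat_lit 5) (nat_lit 57) (nat_lit 4) (nat_lit 53) (nat_lit 4) (nat_lit 367) (nat_lit 267) (nat_lit 266))) (XT.nd (nat_lit 78) (nat_lit 456) (nat_lit 0) (XT.lf (nat_lit 0) (nat_lit 1693476046) (nat_lit 228) (nat_lit 6249844238) (nat_lit 228) (nat_lit 4567980320) (nat_lit 50) (nat_lit 4) (nat_lit 53) (nat_lit 5) (nat_lit 53) (nat_lit 4) (nat_lit 368) (nat_lit 267) (nat_lit 265)) (XT.nd (nat_lit 78) (nat_lit 228) (nat_lit 0) (XT.lf (nat_lit 0) (nat_lit 1698228480) (nat_lit 152) (nat_lit 373289140) (nat_lit 228) (nat_lit 10662327572) (nat_lit 47) (nat_lit 5) (nat_lit 49) (nat_lit 5) (nat_lit 50) (nat_lit 4) (nat_lit 369) (nat_lit 267) (nat_lit 264)) (XT.lf (nat_lit 0) (nat_lit 1480226387) (nat_lit 228) (nat_lit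 7342945134) (nat_lit 228) (nat_lit 4139825559) (nat_lit 44) (nat_lit 4) (nat_lit 47) (nat_lit 5) (nat_lit 47) (nat_lit 4) (nat_lit 370) (nat_lit 267) (nat_lit 263)))))) (XT.nd (nat_lit 390) (nat_lit 912) (nat_lit 0) (XT.nd (nat_lit 156) (nat_lit 532) (nat_lit 0) (XT.nd (nat_lit 78) (nat_lit 228) (nat_lit 0) (XT.lf (nat_lit 0) (nat_lit 1073979731) (nat_lit 152) (nat_lit 1411382420) (nat_lit 228) (nat_lit 10714543821) (nat_lit 41) (nat_lit 5) (nat_lit 43) (nat_lit 5) (nat_lit 44) (nat_lit 4) (nat_lit 371) (nat_lit 267) (nat_lit 262)) (XT.lf (nat_lit 0) (nat_lit 425446926) (nat_lit 228) (nat_lit 8797581473) (nat_lit 228) (nat_lit 4220979903) (nat_lit 38) (nat_lit 4) (nat_lit 41) (nat_lit 5) (nat_lit 41) (nat_lit 4) (nat_lit 372) (nat_lit 267) (nat_lit 261))) (XT.nd (nat_lit 78) (nat_lit 456) (nat_lit 0) (XT.lf (nat_lit 0) (nat_lit 2386860464) (nat_lit 304) (nat_lit 442066891) (nat_lit 76) (nat_lit 10867180567)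 (nat_lit 37) (nat_lit 5) (nat_lit 41) (nat_lit 5) (nat_lit 38) (nat_lit 4) (nat_lit 373) (nat_lit 267) (nat_lit 260)) (XT.nd (nat_lit 78) (nat_lit 304) (nat_lit 0) (XT.lf (nat_lit 0) (nat_lit 9101896237) (nat_lit 228) (nat_lit 1566282066) (nat_lit 0) (nat_lit 3287738385) (nat_lit 35) (nat_lit 5) (nat_lit 38) (nat_lit 4) (nat_lit 35) (nat_lit 4) (nat_lit 374) (nat_lit 267) (nat_lit 259)) (XT.lf (nat_lit 0) (nat_lit 1731843758) (nat_lit 304) (nat_lit 2950628796) (nat_lit 76) (nat_lit 9541632535) (nat_lit 31) (nat_lit 5) (nat_lit 35) (nat_lit 5) (nat_lit 32) (nat_lit 4) (nat_lit 375) (nat_lit 267) (nat_lit 258))))) (XT.nd (nat_lit 156) (nat_lit 532) (nat_lit 0) (XT.nd (nat_lit 78) (nat_lit 228) (nat_lit 0) (XT.lf (nat_lit 0) (nat_lit 8401414861) (nat_lit 228) (nat_lit 4624579005) (nat_lit 0) (nat_lit 1474690018) (nat_lit 29) (nat_lit 5) (nat_lit 32) (nat_lit 4) (nat_lit 29) (nat_lit 4) (nat_lit 376)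 (nat_lit 267) (nat_lit 257)) (XT.lf (nat_lit 0) (nat_lit 452454553) (nat_lit 228) (nat_lit 6599389671) (nat_lit 76) (nat_lit 7734213249) (nat_lit 26) (nat_lit 5) (nat_lit 29) (nat_lit 5) (nat_lit 27) (nat_lit 4) (nat_lit 377) (nat_lit 267) (nat_lit 256))) (XT.nd (nat_lit 78) (nat_lit 380) (nat_lit 0) (XT.lf (nat_lit 0) (nat_lit 6179072526) (nat_lit 152) (nat_lit 881302382) (nat_lit 228) (nat_lit 8019986716) (nat_lit 24) (nat_lit 5) (nat_lit 26) (nat_lit 5) (nat_lit 27) (nat_lit 4) (nat_lit 378) (nat_lit 267) (nat_lit 255)) (XT.nd (nat_lit 78) (nat_lit 228) (nat_lit 0) (XT.lf (nat_lit 0) (nat_lit 3837693424) (nat_lit 152) (nat_lit 10006389396) (nat_lit 152) (nat_lit 1539886207) (nat_lit 22) (nat_lit 4) (nat_lit 24) (nat_lit 5) (nat_lit 24) (nat_lit 4) (nat_lit 379) (nat_lit 267) (nat_lit 254)) (XT.lf (nat_lit 0) (nat_lit 1137022504) (nat_lit 152) (nat_lit 3877751023) (nat_lit 228) (nat_lit 10682318341)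 (nat_lit 19) (nat_lit 5) (nat_lit 21) (nat_lit 5) (nat_lit 22) (nat_lit 4) (nat_lit 380) (nat_lit 267) (nat_lit 253))))))) (XT.nd (nat_lit 45708) (nat_lit 0) (nat_lit 1824) (XT.nd (nat_lit 390) (nat_lit 380) (nat_lit 0) (XT.nd (nat_lit 156) (nat_lit 304) (nat_lit 0) (XT.nd (nat_lit 78) (nat_lit 228) (nat_lit 0) (XT.lf (nat_lit 0) (nat_lit 11714979168) (nat_lit 228) (nat_lit 1907531244) (nat_lit 0) (nat_lit 2397521090) (nat_lit 19) (nat_lit 5) (nat_lit 22) (nat_lit 4) (nat_lit 19) (nat_lit 4) (nat_lit 381) (nat_lit 267) (nat_lit 252)) (XT.lf (nat_lit 0) (nat_lit 2209976514) (nat_lit 228) (nat_lit 5339682080) (nat_lit 76) (nat_lit 8803206274) (nat_lit 16) (nat_lit 5) (nat_lit 19) (nat_lit 5) (nat_lit 17) (nat_lit 4) (nat_lit 382) (nat_lit 267) (nat_lit 251))) (XT.nd (nat_lit 78) (nat_lit 228) (nat_lit 0) (XT.lf (nat_lit 0) (nat_lit 7508408564) (nat_lit 76) (nat_lit 1295776316) (nat_lit 152) (nat_lit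 7892106338) (nat_lit 15) (nat_lit 5) (nat_lit 16) (nat_lit 5) (nat_lit 17) (nat_lit 4) (nat_lit 383) (nat_lit 267) (nat_lit 250)) (XT.nd (nat_lit 78) (nat_lit 76) (nat_lit 0) (XT.lf (nat_lit 0) (nat_lit 3567161033) (nat_lit 152) (nat_lit 12003704139) (nat_lit 152) (nat_lit 1479683106) (nat_lit 13) (nat_lit 4) (nat_lit 15) (nat_lit 5) (nat_lit 15) (nat_lit 4) (nat_lit 384) (nat_lit 267) (nat_lit 249)) (XT.lf (nat_lit 0) (nat_lit 5012191549) (nat_lit 228) (nat_lit 835770038) (nat_lit 76) (nat_lit 11567739869) (nat_lit 12) (nat_lit 5) (nat_lit 15) (nat_lit 5) (nat_lit 13) (nat_lit 4) (nat_lit 385) (nat_lit 267) (nat_lit 248))))) (XT.nd (nat_lit 156) (nat_lit 76) (nat_lit 0) (XT.nd (nat_lit 78) (nat_lit 228) (nat_lit 0) (XT.lf (nat_lit 0) (nat_lit 11647200685) (nat_lit 152) (nat_lit 5658707878) (nat_lit 0) (nat_lit 486354679) (nat_lit 11) (nat_lit 5) (nat_lit 13) (nat_lit 4) (nat_lit 11) (nat_lit 4) (nat_lit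 386) (nat_lit 267) (nat_lit 247)) (XT.lf (nat_lit 0) (nat_lit 276232946) (nat_lit 228) (nat_lit 11006116406) (nat_lit 76) (nat_lit 6898170865) (nat_lit 8) (nat_lit 5) (nat_lit 11) (nat_lit 5) (nat_lit 9) (nat_lit 4) (nat_lit 387) (nat_lit 267) (nat_lit 246))) (XT.nd (nat_lit 45006) (nat_lit 0) (nat_lit 4028) (XT.lf (nat_lit 0) (nat_lit 1670548297) (nat_lit 76) (nat_lit 5075080783) (nat_lit 152) (nat_lit 11835222255) (nat_lit 7) (nat_lit 5) (nat_lit 8) (nat_lit 5) (nat_lit 9) (nat_lit 4) (nat_lit 388) (nat_lit 267) (nat_lit 245)) (XT.nd (nat_lit 78) (nat_lit 304) (nat_lit 0) (XT.lf (nat_lit 0) (nat_lit 63812378) (nat_lit 228) (nat_lit 2890078846) (nat_lit 228) (nat_lit 2890078846) (nat_lit 64) (nat_lit 4) (nat_lit 67) (nat_lit 5) (nat_lit 67) (nat_lit 4) (nat_lit 364) (nat_lit 268) (nat_lit 268)) (XT.lf (nat_lit 0) (nat_lit 679358227) (nat_lit 228) (nat_lit 109665799) (nat_lit 304) (nat_lit 11096480599)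 (nat_lit 60) (nat_lit 5) (nat_lit 63) (nat_lit 5) (nat_lit 64) (nat_lit 4) (nat_lit 365) (nat_lit 268) (nat_lit 267)))))) (XT.nd (nat_lit 390) (nat_lit 988) (nat_lit 0) (XT.nd (nat_lit 156) (nat_lit 684) (nat_lit 0) (XT.nd (nat_lit 78) (nat_lit 304) (nat_lit 0) (XT.lf (nat_lit 0) (nat_lit 1046621247) (nat_lit 228) (nat_lit 6404564278) (nat_lit 228) (nat_lit 4637598046) (nat_lit 57) (nat_lit 4) (nat_lit 60) (nat_lit 5) (nat_lit 60) (nat_lit 4) (nat_lit 366) (nat_lit 268) (nat_lit 266)) (XT.lf (nat_lit 0) (nat_lit 1280466188) (nat_lit 228) (nat_lit 646517426) (nat_lit 304) (nat_lit 10372186806) (nat_lit 53) (nat_lit 5) (nat_lit 56) (nat_lit 5) (nat_lit 57) (nat_lit 4) (nat_lit 367) (nat_lit 268) (nat_lit 265))) (XT.nd (nat_lit 78) (nat_lit 456) (nat_lit 0) (XT.lf (nat_lit 0) (nat_lit 1316965922) (nat_lit 228) (nat_lit 7282027311) (nat_lit 228) (nat_lit 3916829886) (nat_lit 50) (nat_lit 4) (nat_lit 53)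 (nat_lit 5) (nat_lit 53) (nat_lit 4) (nat_lit 368) (nat_lit 268) (nat_lit 264)) (XT.nd (nat_lit 78) (nat_lit 228) (nat_lit 0) (XT.lf (nat_lit 0) (nat_lit 1187043374) (nat_lit 152) (nat_lit 1453147541) (nat_lit 228) (nat_lit 10099588463) (nat_lit 47) (nat_lit 5) (nat_lit 49) (nat_lit 5) (nat_lit 50) (nat_lit 4) (nat_lit 369) (nat_lit 268) (nat_lit 263)) (XT.lf (nat_lit 0) (nat_lit 843387706) (nat_lit 228) (nat_lit 8467676874) (nat_lit 228) (nat_lit 3659499264) (nat_lit 44) (nat_lit 4) (nat_lit 47) (nat_lit 5) (nat_lit 47) (nat_lit 4) (nat_lit 370) (nat_lit 268) (nat_lit 262))))) (XT.nd (nat_lit 156) (nat_lit 760) (nat_lit 0) (XT.nd (nat_lit 78) (nat_lit 0) (nat_lit 0) (XT.lf (nat_lit 0) (nat_lit 298901772) (nat_lit 152) (nat_lit 2586623558) (nat_lit 228) (nat_lit 10323378460) (nat_lit 41) (nat_lit 5) (nat_lit 43) (nat_lit 5) (nat_lit 44) (nat_lit 4) (nat_lit 371) (nat_lit 268) (nat_lit 261)) (XT.lf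 (nat_lit 0) (nat_lit 9544911564) (nat_lit 228) (nat_lit 473118517) (nat_lit 0) (nat_lit 3436557324) (nat_lit 41) (nat_lit 5) (nat_lit 44) (nat_lit 4) (nat_lit 41) (nat_lit 4) (nat_lit 372) (nat_lit 268) (nat_lit 260))) (XT.nd (nat_lit 78) (nat_lit 456) (nat_lit 0) (XT.lf (nat_lit 0) (nat_lit 2623837666) (nat_lit 304) (nat_lit 1475118133) (nat_lit 76) (nat_lit 9609110612) (nat_lit 37) (nat_lit 5) (nat_lit 41) (nat_lit 5) (nat_lit 38) (nat_lit 4) (nat_lit 373) (nat_lit 268) (nat_lit 259)) (XT.nd (nat_lit 78) (nat_lit 304) (nat_lit 0) (XT.lf (nat_lit 0) (nat_lit 9257581679) (nat_lit 228) (nat_lit 2731569270) (nat_lit 0) (nat_lit 1980364558) (nat_lit 35) (nat_lit 5) (nat_lit 38) (nat_lit 4) (nat_lit 35) (nat_lit 4) (nat_lit 374) (nat_lit 268) (nat_lit 258)) (XT.lf (nat_lit 0) (nat_lit 1798896487) (nat_lit 304) (nat_lit 4259752367) (nat_lit 76) (nat_lit 8180513807) (nat_lit 31) (nat_lit 5) (nat_lit 35)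 (nat_lit 5) (nat_lit 32) (nat_lit 4) (nat_lit 375) (nat_lit 268) (nat_lit 257))))))))
noncomputable def xc4 : XT := (XT.nd (nat_lit 46254) (nat_lit 0) (nat_lit 228) (XT.nd (nat_lit 702) (nat_lit 380) (nat_lit 0) (XT.nd (nat_lit 312) (nat_lit 684) (nat_lit 0) (XT.nd (nat_lit 156) (nat_lit 304) (nat_lit 0) (XT.nd (nat_lit 78) (nat_lit 228) (nat_lit 0) (XT.lf (nat_lit 0) (nat_lit 8386280474) (nat_lit 228) (nat_lit 6070208977) (nat_lit 0) (nat_lit 60909142) (nat_lit 29) (nat_lit 5) (nat_lit 32) (nat_lit 4) (nat_lit 29) (nat_lit 4) (nat_lit 376) (nat_lit 268) (nat_lit 256)) (XT.lf (nat_lit 0) (nat_lit 347594328) (nat_lit 228) (nat_lit 8192767707) (nat_lit 76) (nat_lit 6263895609) (nat_lit 26) (nat_lit 5) (nat_lit 29) (nat_lit 5) (nat_lit 27) (nat_lit 4) (nat_lit 377) (nat_lit 268) (nat_lit 255))) (XT.nd (nat_lit 78) (nat_lit 152) (nat_lit 0) (XT.lf (nat_lit 0) (nat_lit 4454433549) (nat_lit 152) (nat_lit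 2427888364) (nat_lit 228) (nat_lit 8217716115) (nat_lit 24) (nat_lit 5) (nat_lit 26) (nat_lit 5) (nat_lit 27) (nat_lit 4) (nat_lit 378) (nat_lit 268) (nat_lit 254)) (XT.lf (nat_lit 0) (nat_lit 1971128719) (nat_lit 152) (nat_lit 11611558519) (nat_lit 152) (nat_lit 1822637062) (nat_lit 22) (nat_lit 4) (nat_lit 24) (nat_lit 5) (nat_lit 24) (nat_lit 4) (nat_lit 379) (nat_lit 268) (nat_lit 253)))) (XT.nd (nat_lit 156) (nat_lit 456) (nat_lit 0) (XT.nd (nat_lit 78) (nat_lit 152) (nat_lit 0) (XT.lf (nat_lit 0) (nat_lit 4667850477) (nat_lit 228) (nat_lit 870850707) (nat_lit 76) (nat_lit 10181151723) (nat_lit 21) (nat_lit 5) (nat_lit 24) (nat_lit 5) (nat_lit 22) (nat_lit 4) (nat_lit 380) (nat_lit 268) (nat_lit 252)) (XT.lf (nat_lit 0) (nat_lit 11291789241) (nat_lit 228) (nat_lit 4045076743) (nat_lit 0) (nat_lit 707462999) (nat_lit 19) (nat_lit 5) (nat_lit 22) (nat_lit 4) (nat_lit 19) (nat_lit 4) (nat_lit 381)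 (nat_lit 268) (nat_lit 251))) (XT.nd (nat_lit 78) (nat_lit 228) (nat_lit 0) (XT.lf (nat_lit 0) (nat_lit 1695149259) (nat_lit 228) (nat_lit 7632334992) (nat_lit 76) (nat_lit 7051210951) (nat_lit 16) (nat_lit 5) (nat_lit 19) (nat_lit 5) (nat_lit 17) (nat_lit 4) (nat_lit 382) (nat_lit 268) (nat_lit 250)) (XT.nd (nat_lit 78) (nat_lit 152) (nat_lit 0) (XT.lf (nat_lit 0) (nat_lit 5081872616) (nat_lit 76) (nat_lit 3134397518) (nat_lit 152) (nat_lit 8507323431) (nat_lit 15) (nat_lit 5) (nat_lit 16) (nat_lit 5) (nat_lit 17) (nat_lit 4) (nat_lit 383) (nat_lit 268) (nat_lit 249)) (XT.lf (nat_lit 0) (nat_lit 990210303) (nat_lit 152) (nat_lit 13907470248) (nat_lit 152) (nat_lit 2181885434) (nat_lit 13) (nat_lit 4) (nat_lit 15) (nat_lit 5) (nat_lit 15) (nat_lit 4) (nat_lit 384) (nat_lit 268) (nat_lit 248)))))) (XT.nd (nat_lit 45162) (nat_lit 0) (nat_lit 3420) (XT.nd (nat_lit 156) (nat_lit 228) (nat_lit 0) (XT.nd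 (nat_lit 78) (nat_lit 76) (nat_lit 0) (XT.lf (nat_lit 0) (nat_lit 4263221764) (nat_lit 228) (nat_lit 3537542807) (nat_lit 76) (nat_lit 9645174800) (nat_lit 12) (nat_lit 5) (nat_lit 15) (nat_lit 5) (nat_lit 13) (nat_lit 4) (nat_lit 385) (nat_lit 268) (nat_lit 247)) (XT.lf (nat_lit 0) (nat_lit 9300405938) (nat_lit 76) (nat_lit 1521862814) (nat_lit 152) (nat_lit 7001760854) (nat_lit 11) (nat_lit 5) (nat_lit 12) (nat_lit 5) (nat_lit 13) (nat_lit 4) (nat_lit 386) (nat_lit 268) (nat_lit 246))) (XT.nd (nat_lit 78) (nat_lit 76) (nat_lit 0) (XT.lf (nat_lit 0) (nat_lit 4185335829) (nat_lit 152) (nat_lit 13367230942) (nat_lit 152) (nat_lit 661424333) (nat_lit 9) (nat_lit 4) (nat_lit 11) (nat_lit 5) (nat_lit 11) (nat_lit 4) (nat_lit 387) (nat_lit 268) (nat_lit 245)) (XT.nd (nat_lit 44850) (nat_lit 0) (nat_lit 5092) (XT.lf (nat_lit 0) (nat_lit 5752726269) (nat_lit 228) (nat_lit 1465411668) (nat_lit 76) (nat_lit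 11397557087) (nat_lit 8) (nat_lit 5) (nat_lit 11) (nat_lit 5) (nat_lit 9) (nat_lit 4) (nat_lit 388) (nat_lit 268) (nat_lit 244)) (XT.lf (nat_lit 0) (nat_lit 2523186711) (nat_lit 304) (nat_lit 608756747) (nat_lit 0) (nat_lit 2523186711) (nat_lit 75) (nat_lit 5) (nat_lit 79) (nat_lit 4) (nat_lit 75) (nat_lit 4) (nat_lit 362) (nat_lit 269) (nat_lit 269))))) (XT.nd (nat_lit 156) (nat_lit 836) (nat_lit 0) (XT.nd (nat_lit 78) (nat_lit 456) (nat_lit 0) (XT.lf (nat_lit 0) (nat_lit 215751700) (nat_lit 380) (nat_lit 524924070) (nat_lit 76) (nat_lit 10756474503) (nat_lit 70) (nat_lit 5) (nat_lit 75) (nat_lit 5) (nat_lit 71) (nat_lit 4) (nat_lit 363) (nat_lit 269) (nat_lit 268)) (XT.lf (nat_lit 0) (nat_lit 5763454) (nat_lit 228) (nat_lit 6770025129) (nat_lit 228) (nat_lit 4913650405) (nat_lit 64) (nat_lit 4) (nat_lit 67) (nat_lit 5) (nat_lit 67) (nat_lit 4) (nat_lit 364) (nat_lit 269) (nat_lit 267))) (XT.nd (nat_lit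 78) (nat_lit 532) (nat_lit 0) (XT.lf (nat_lit 0) (nat_lit 427780792) (nat_lit 228) (nat_lit 1142511665) (nat_lit 304) (nat_lit 10318095859) (nat_lit 60) (nat_lit 5) (nat_lit 63) (nat_lit 5) (nat_lit 64) (nat_lit 4) (nat_lit 365) (nat_lit 269) (nat_lit 266)) (XT.nd (nat_lit 78) (nat_lit 304) (nat_lit 0) (XT.lf (nat_lit 0) (nat_lit 675506672) (nat_lit 228) (nat_lit 7476631310) (nat_lit 228) (nat_lit 3941154895) (nat_lit 57) (nat_lit 4) (nat_lit 60) (nat_lit 5) (nat_lit 60) (nat_lit 4) (nat_lit 366) (nat_lit 269) (nat_lit 265)) (XT.lf (nat_lit 0) (nat_lit 776183560) (nat_lit 228) (nat_lit 1764470220) (nat_lit 304) (nat_lit 9764426656) (nat_lit 53) (nat_lit 5) (nat_lit 56) (nat_lit 5) (nat_lit 57) (nat_lit 4) (nat_lit 367) (nat_lit 269) (nat_lit 264))))))) (XT.nd (nat_lit 702) (nat_lit 1368) (nat_lit 0) (XT.nd (nat_lit 312) (nat_lit 1064) (nat_lit 0) (XT.nd (nat_lit 156) (nat_lit 304) (nat_lit 0) (XT.nd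 (nat_lit 78) (nat_lit 228) (nat_lit 0) (XT.lf (nat_lit 0) (nat_lit 689083517) (nat_lit 228) (nat_lit 8442876458) (nat_lit 228) (nat_lit 3391405061) (nat_lit 50) (nat_lit 4) (nat_lit 53) (nat_lit 5) (nat_lit 53) (nat_lit 4) (nat_lit 368) (nat_lit 269) (nat_lit 263)) (XT.lf (nat_lit 0) (nat_lit 422431584) (nat_lit 152) (nat_lit 2662767359) (nat_lit 228) (nat_lit 9663541612) (nat_lit 47) (nat_lit 5) (nat_lit 49) (nat_lit 5) (nat_lit 50) (nat_lit 4) (nat_lit 369) (nat_lit 269) (nat_lit 262))) (XT.nd (nat_lit 78) (nat_lit 304) (nat_lit 0) (XT.lf (nat_lit 0) (nat_lit 9675137004) (nat_lit 228) (nat_lit 48323167) (nat_lit 0) (nat_lit 3257700039) (nat_lit 47) (nat_lit 5) (nat_lit 50) (nat_lit 4) (nat_lit 47) (nat_lit 4) (nat_lit 370) (nat_lit 269) (nat_lit 261)) (XT.lf (nat_lit 0) (nat_lit 3165278360) (nat_lit 304) (nat_lit 724236605) (nat_lit 76) (nat_lit 9331336718) (nat_lit 43) (nat_lit 5) (nat_lit 47)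 (nat_lit 5) (nat_lit 44) (nat_lit 4) (nat_lit 371) (nat_lit 269) (nat_lit 260)))) (XT.nd (nat_lit 156) (nat_lit 608) (nat_lit 0) (XT.nd (nat_lit 78) (nat_lit 304) (nat_lit 0) (XT.lf (nat_lit 0) (nat_lit 9745499102) (nat_lit 228) (nat_lit 1622579937) (nat_lit 0) (nat_lit 2100054796) (nat_lit 41) (nat_lit 5) (nat_lit 44) (nat_lit 4) (nat_lit 41) (nat_lit 4) (nat_lit 372) (nat_lit 269) (nat_lit 259)) (XT.lf (nat_lit 0) (nat_lit 2735657238) (nat_lit 304) (nat_lit 2766907927) (nat_lit 76) (nat_lit 8220493252) (nat_lit 37) (nat_lit 5) (nat_lit 41) (nat_lit 5) (nat_lit 38) (nat_lit 4) (nat_lit 373) (nat_lit 269) (nat_lit 258))) (XT.nd (nat_lit 78) (nat_lit 456) (nat_lit 0) (XT.lf (nat_lit 0) (nat_lit 9287456980) (nat_lit 228) (nat_lit 4157881633) (nat_lit 0) (nat_lit 540821858) (nat_lit 35) (nat_lit 5) (nat_lit 38) (nat_lit 4) (nat_lit 35) (nat_lit 4) (nat_lit 374) (nat_lit 269) (nat_lit 257)) (XT.nd (nat_lit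 78) (nat_lit 152) (nat_lit 0) (XT.lf (nat_lit 0) (nat_lit 1738960666) (nat_lit 304) (nat_lit 5832290062) (nat_lit 76) (nat_lit 6686028426) (nat_lit 31) (nat_lit 5) (nat_lit 35) (nat_lit 5) (nat_lit 32) (nat_lit 4) (nat_lit 375) (nat_lit 269) (nat_lit 256)) (XT.lf (nat_lit 0) (nat_lit 6745539793) (nat_lit 152) (nat_lit 1507657265) (nat_lit 228) (nat_lit 6283793984) (nat_lit 29) (nat_lit 5) (nat_lit 31) (nat_lit 5) (nat_lit 32) (nat_lit 4) (nat_lit 376) (nat_lit 269) (nat_lit 255)))))) (XT.nd (nat_lit 390) (nat_lit 608) (nat_lit 0) (XT.nd (nat_lit 156) (nat_lit 380) (nat_lit 0) (XT.nd (nat_lit 78) (nat_lit 152) (nat_lit 0) (XT.lf (nat_lit 0) (nat_lit 113737899) (nat_lit 228) (nat_lit 10054490324) (nat_lit 76) (nat_lit 4657317732) (nat_lit 26) (nat_lit 5) (nat_lit 29) (nat_lit 5) (nat_lit 27) (nat_lit 4) (nat_lit 377) (nat_lit 269) (nat_lit 254)) (XT.lf (nat_lit 0) (nat_lit 2461090216) (nat_lit 152)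 (nat_lit 4114243579) (nat_lit 228) (nat_lit 8547467195) (nat_lit 24) (nat_lit 5) (nat_lit 26) (nat_lit 5) (nat_lit 27) (nat_lit 4) (nat_lit 378) (nat_lit 269) (nat_lit 253))) (XT.nd (nat_lit 78) (nat_lit 380) (nat_lit 0) (XT.lf (nat_lit 0) (nat_lit 13192552164) (nat_lit 228) (nat_lit 164550691) (nat_lit 0) (nat_lit 2072659014) (nat_lit 24) (nat_lit 5) (nat_lit 27) (nat_lit 4) (nat_lit 24) (nat_lit 4) (nat_lit 379) (nat_lit 269) (nat_lit 252)) (XT.nd (nat_lit 78) (nat_lit 152) (nat_lit 0) (XT.lf (nat_lit 0) (nat_lit 4198889155) (nat_lit 228) (nat_lit 3134241150) (nat_lit 76) (nat_lit 8412421628) (nat_lit 21) (nat_lit 5) (nat_lit 24) (nat_lit 5) (nat_lit 22) (nat_lit 4) (nat_lit 380) (nat_lit 269) (nat_lit 251)) (XT.lf (nat_lit 0) (nat_lit 9608449554) (nat_lit 152) (nat_lit 1137145127) (nat_lit 228) (nat_lit 5325988773) (nat_lit 19) (nat_lit 5) (nat_lit 21) (nat_lit 5) (nat_lit 22) (nat_lit 4) (nat_lit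 381) (nat_lit 269) (nat_lit 250))))) (XT.nd (nat_lit 156) (nat_lit 304) (nat_lit 0) (XT.nd (nat_lit 78) (nat_lit 76) (nat_lit 0) (XT.lf (nat_lit 0) (nat_lit 1048491581) (nat_lit 228) (nat_lit 10200946410) (nat_lit 76) (nat_lit 5158211001) (nat_lit 16) (nat_lit 5) (nat_lit 19) (nat_lit 5) (nat_lit 17) (nat_lit 4) (nat_lit 382) (nat_lit 269) (nat_lit 249)) (XT.lf (nat_lit 0) (nat_lit 2378722904) (nat_lit 76) (nat_lit 5117675988) (nat_lit 152) (nat_lit 9257622696) (nat_lit 15) (nat_lit 5) (nat_lit 16) (nat_lit 5) (nat_lit 17) (nat_lit 4) (nat_lit 383) (nat_lit 269) (nat_lit 248))) (XT.nd (nat_lit 78) (nat_lit 304) (nat_lit 0) (XT.lf (nat_lit 0) (nat_lit 14103550970) (nat_lit 152) (nat_lit 1841781160) (nat_lit 0) (nat_lit 1166156719) (nat_lit 15) (nat_lit 5) (nat_lit 17) (nat_lit 4) (nat_lit 15) (nat_lit 4) (nat_lit 384) (nat_lit 269) (nat_lit 247)) (XT.nd (nat_lit 78) (nat_lit 76) (nat_lit 0) (XT.lf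 (nat_lit 0) (nat_lit 3381459349) (nat_lit 228) (nat_lit 6518172537) (nat_lit 76) (nat_lit 7579677699) (nat_lit 12) (nat_lit 5) (nat_lit 15) (nat_lit 5) (nat_lit 13) (nat_lit 4) (nat_lit 385) (nat_lit 269) (nat_lit 246)) (XT.lf (nat_lit 0) (nat_lit 6184305775) (nat_lit 76) (nat_lit 3683205114) (nat_lit 152) (nat_lit 7991357781) (nat_lit 11) (nat_lit 5) (nat_lit 12) (nat_lit 5) (nat_lit 13) (nat_lit 4) (nat_lit 386) (nat_lit 269) (nat_lit 245))))))))
noncomputable def xc5 : XT := (XT.nd (nat_lit 46098) (nat_lit 0) (nat_lit 228) (XT.nd (nat_lit 45318) (nat_lit 0) (nat_lit 1596) (XT.nd (nat_lit 44928) (nat_lit 0) (nat_lit 3724) (XT.nd (nat_lit 44772) (nat_lit 0) (nat_lit 5396) (XT.nd (nat_lit 78) (nat_lit 76) (nat_lit 0) (XT.lf (nat_lit 0) (nat_lit 911649509) (nat_lit 152) (nat_lit 15598772745) (nat_lit 152) (nat_lit 1740164325) (nat_lit 9) (nat_lit 4) (nat_lit 11) (nat_lit 5) (nat_lit 11) (nat_lit 4)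 (nat_lit 387) (nat_lit 269) (nat_lit 244)) (XT.lf (nat_lit 0) (nat_lit 4636606065) (nat_lit 228) (nat_lit 4861705065) (nat_lit 76) (nat_lit 9155158270) (nat_lit 8) (nat_lit 5) (nat_lit 11) (nat_lit 5) (nat_lit 9) (nat_lit 4) (nat_lit 388) (nat_lit 269) (nat_lit 243))) (XT.nd (nat_lit 78) (nat_lit 304) (nat_lit 0) (XT.lf (nat_lit 0) (nat_lit 2036044327) (nat_lit 304) (nat_lit 1404466791) (nat_lit 0) (nat_lit 2036044327) (nat_lit 83) (nat_lit 5) (nat_lit 87) (nat_lit 4) (nat_lit 83) (nat_lit 4) (nat_lit 360) (nat_lit 270) (nat_lit 270)) (XT.lf (nat_lit 0) (nat_lit 9126009419) (nat_lit 304) (nat_lit 1506570408) (nat_lit 304) (nat_lit 497214333) (nat_lit 79) (nat_lit 4) (nat_lit 83) (nat_lit 5) (nat_lit 83) (nat_lit 4) (nat_lit 361) (nat_lit 270) (nat_lit 269)))) (XT.nd (nat_lit 156) (nat_lit 988) (nat_lit 0) (XT.nd (nat_lit 78) (nat_lit 380) (nat_lit 0) (XT.lf (nat_lit 0) (nat_lit 5963032816) (nat_lit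 304) (nat_lit 1335982037) (nat_lit 0) (nat_lit 4012725532) (nat_lit 75) (nat_lit 5) (nat_lit 79) (nat_lit 4) (nat_lit 75) (nat_lit 4) (nat_lit 362) (nat_lit 270) (nat_lit 268)) (XT.lf (nat_lit 0) (nat_lit 1046110338) (nat_lit 380) (nat_lit 769924114) (nat_lit 76) (nat_lit 9683954265) (nat_lit 70) (nat_lit 5) (nat_lit 75) (nat_lit 5) (nat_lit 71) (nat_lit 4) (nat_lit 363) (nat_lit 270) (nat_lit 267))) (XT.nd (nat_lit 78) (nat_lit 760) (nat_lit 0) (XT.lf (nat_lit 0) (nat_lit 7526527596) (nat_lit 304) (nat_lit 355206426) (nat_lit 0) (nat_lit 3812156074) (nat_lit 67) (nat_lit 5) (nat_lit 71) (nat_lit 4) (nat_lit 67) (nat_lit 4) (nat_lit 364) (nat_lit 270) (nat_lit 266)) (XT.nd (nat_lit 78) (nat_lit 456) (nat_lit 0) (XT.lf (nat_lit 0) (nat_lit 2231525922) (nat_lit 304) (nat_lit 68665127) (nat_lit 76) (nat_lit 9594076098) (nat_lit 63) (nat_lit 5) (nat_lit 67) (nat_lit 5) (nat_lit 64) (nat_lit 4) (nat_lit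 365) (nat_lit 270) (nat_lit 265)) (XT.lf (nat_lit 0) (nat_lit 56622085) (nat_lit 228) (nat_lit 8675633264) (nat_lit 228) (nat_lit 3368557415) (nat_lit 57) (nat_lit 4) (nat_lit 60) (nat_lit 5) (nat_lit 60) (nat_lit 4) (nat_lit 366) (nat_lit 270) (nat_lit 264)))))) (XT.nd (nat_lit 390) (nat_lit 1064) (nat_lit 0) (XT.nd (nat_lit 156) (nat_lit 760) (nat_lit 0) (XT.nd (nat_lit 78) (nat_lit 0) (nat_lit 0) (XT.lf (nat_lit 0) (nat_lit 22070867) (nat_lit 228) (nat_lit 3010459065) (nat_lit 304) (nat_lit 9281478100) (nat_lit 53) (nat_lit 5) (nat_lit 56) (nat_lit 5) (nat_lit 57) (nat_lit 4) (nat_lit 367) (nat_lit 270) (nat_lit 263)) (XT.lf (nat_lit 0) (nat_lit 9543924486) (nat_lit 304) (nat_lit 188218480) (nat_lit 0) (nat_lit 2801765211) (nat_lit 53) (nat_lit 5) (nat_lit 57) (nat_lit 4) (nat_lit 53) (nat_lit 4) (nat_lit 368) (nat_lit 270) (nat_lit 262))) (XT.nd (nat_lit 78) (nat_lit 456) (nat_lit 0) (XT.lf (nat_lit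 0) (nat_lit 3410801957) (nat_lit 304) (nat_lit 588454743) (nat_lit 76) (nat_lit 8761402422) (nat_lit 49) (nat_lit 5) (nat_lit 53) (nat_lit 5) (nat_lit 50) (nat_lit 4) (nat_lit 369) (nat_lit 270) (nat_lit 261)) (XT.nd (nat_lit 78) (nat_lit 304) (nat_lit 0) (XT.lf (nat_lit 0) (nat_lit 9922528584) (nat_lit 228) (nat_lit 1181905623) (nat_lit 0) (nat_lit 1890224796) (nat_lit 47) (nat_lit 5) (nat_lit 50) (nat_lit 4) (nat_lit 47) (nat_lit 4) (nat_lit 370) (nat_lit 270) (nat_lit 260)) (XT.lf (nat_lit 0) (nat_lit 3323716397) (nat_lit 304) (nat_lit 1998650966) (nat_lit 76) (nat_lit 7913415714) (nat_lit 43) (nat_lit 5) (nat_lit 47) (nat_lit 5) (nat_lit 44) (nat_lit 4) (nat_lit 371) (nat_lit 270) (nat_lit 259))))) (XT.nd (nat_lit 156) (nat_lit 608) (nat_lit 0) (XT.nd (nat_lit 78) (nat_lit 304) (nat_lit 0) (XT.lf (nat_lit 0) (nat_lit 9822204003) (nat_lit 228) (nat_lit 3029521529) (nat_lit 0) (nat_lit 632989144)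 (nat_lit 41) (nat_lit 5) (nat_lit 44) (nat_lit 4) (nat_lit 41) (nat_lit 4) (nat_lit 372) (nat_lit 270) (nat_lit 258)) (XT.lf (nat_lit 0) (nat_lit 2722416886) (nat_lit 304) (nat_lit 4318565022) (nat_lit 76) (nat_lit 6700115132) (nat_lit 37) (nat_lit 5) (nat_lit 41) (nat_lit 5) (nat_lit 38) (nat_lit 4) (nat_lit 373) (nat_lit 270) (nat_lit 257))) (XT.nd (nat_lit 78) (nat_lit 456) (nat_lit 0) (XT.lf (nat_lit 0) (nat_lit 8152474423) (nat_lit 152) (nat_lit 1045864266) (nat_lit 228) (nat_lit 4807391626) (nat_lit 35) (nat_lit 5) (nat_lit 37) (nat_lit 5) (nat_lit 38) (nat_lit 4) (nat_lit 374) (nat_lit 270) (nat_lit 256)) (XT.nd (nat_lit 78) (nat_lit 152) (nat_lit 0) (XT.lf (nat_lit 0) (nat_lit 1551983924) (nat_lit 304) (nat_lit 7669615943) (nat_lit 76) (nat_lit 5056870530) (nat_lit 31) (nat_lit 5) (nat_lit 35) (nat_lit 5) (nat_lit 32) (nat_lit 4) (nat_lit 375) (nat_lit 270) (nat_lit 255)) (XT.lf (nat_lit 0)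 (nat_lit 4778337924) (nat_lit 152) (nat_lit 3215211001) (nat_lit 228) (nat_lit 6566099414) (nat_lit 29) (nat_lit 5) (nat_lit 31) (nat_lit 5) (nat_lit 32) (nat_lit 4) (nat_lit 376) (nat_lit 270) (nat_lit 254))))))) (XT.nd (nat_lit 780) (nat_lit 0) (nat_lit 0) (XT.nd (nat_lit 390) (nat_lit 608) (nat_lit 0) (XT.nd (nat_lit 156) (nat_lit 380) (nat_lit 0) (XT.nd (nat_lit 78) (nat_lit 228) (nat_lit 0) (XT.lf (nat_lit 0) (nat_lit 2662083676) (nat_lit 152) (nat_lit 11935192135) (nat_lit 152) (nat_lit 252632391) (nat_lit 27) (nat_lit 4) (nat_lit 29) (nat_lit 5) (nat_lit 29) (nat_lit 4) (nat_lit 377) (nat_lit 270) (nat_lit 253)) (XT.lf (nat_lit 0) (nat_lit 197300770) (nat_lit 152) (nat_lit 5941841544) (nat_lit 228) (nat_lit 9009528087) (nat_lit 24) (nat_lit 5) (nat_lit 26) (nat_lit 5) (nat_lit 27) (nat_lit 4) (nat_lit 378) (nat_lit 270) (nat_lit 252))) (XT.nd (nat_lit 78) (nat_lit 380) (nat_lit 0) (XT.lf (nat_lit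 0) (nat_lit 12686824660) (nat_lit 228) (nat_lit 2543965262) (nat_lit 0) (nat_lit 226243405) (nat_lit 24) (nat_lit 5) (nat_lit 27) (nat_lit 4) (nat_lit 24) (nat_lit 4) (nat_lit 379) (nat_lit 270) (nat_lit 251)) (XT.nd (nat_lit 78) (nat_lit 152) (nat_lit 0) (XT.lf (nat_lit 0) (nat_lit 3600097483) (nat_lit 228) (nat_lit 5670038797) (nat_lit 76) (nat_lit 6504222765) (nat_lit 21) (nat_lit 5) (nat_lit 24) (nat_lit 5) (nat_lit 22) (nat_lit 4) (nat_lit 380) (nat_lit 270) (nat_lit 250)) (XT.lf (nat_lit 0) (nat_lit 6939845283) (nat_lit 152) (nat_lit 3134266938) (nat_lit 228) (nat_lit 6027742631) (nat_lit 19) (nat_lit 5) (nat_lit 21) (nat_lit 5) (nat_lit 22) (nat_lit 4) (nat_lit 381) (nat_lit 270) (nat_lit 249))))) (XT.nd (nat_lit 156) (nat_lit 380) (nat_lit 0) (XT.nd (nat_lit 78) (nat_lit 0) (nat_lit 0) (XT.lf (nat_lit 0) (nat_lit 269438440) (nat_lit 228) (nat_lit 13047760749) (nat_lit 76) (nat_lit 3122552347)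 (nat_lit 16) (nat_lit 5) (nat_lit 19) (nat_lit 5) (nat_lit 17) (nat_lit 4) (nat_lit 382) (nat_lit 270) (nat_lit 248)) (XT.lf (nat_lit 0) (nat_lit 6647859833) (nat_lit 228) (nat_lit 595488813) (nat_lit 76) (nat_lit 9544174879) (nat_lit 16) (nat_lit 5) (nat_lit 19) (nat_lit 5) (nat_lit 17) (nat_lit 4) (nat_lit 383) (nat_lit 270) (nat_lit 247))) (XT.nd (nat_lit 78) (nat_lit 304) (nat_lit 0) (XT.lf (nat_lit 0) (nat_lit 12200768496) (nat_lit 76) (nat_lit 989571537) (nat_lit 152) (nat_lit 3955953583) (nat_lit 15) (nat_lit 5) (nat_lit 16) (nat_lit 5) (nat_lit 17) (nat_lit 4) (nat_lit 384) (nat_lit 270) (nat_lit 246)) (XT.nd (nat_lit 78) (nat_lit 76) (nat_lit 0) (XT.lf (nat_lit 0) (nat_lit 2366133832) (nat_lit 228) (nat_lit 9780263663) (nat_lit 76) (nat_lit 5369443761) (nat_lit 12) (nat_lit 5) (nat_lit 15) (nat_lit 5) (nat_lit 13) (nat_lit 4) (nat_lit 385) (nat_lit 270) (nat_lit 245)) (XT.lf (nat_lit 0) (nat_lit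 2785795764) (nat_lit 76) (nat_lit 5993097372) (nat_lit 152) (nat_lit 9117981728) (nat_lit 11) (nat_lit 5) (nat_lit 12) (nat_lit 5) (nat_lit 13) (nat_lit 4) (nat_lit 386) (nat_lit 270) (nat_lit 244)))))) (XT.nd (nat_lit 44928) (nat_lit 0) (nat_lit 3724) (XT.nd (nat_lit 44694) (nat_lit 0) (nat_lit 5092) (XT.nd (nat_lit 44616) (nat_lit 0) (nat_lit 6080) (XT.lf (nat_lit 0) (nat_lit 15350306715) (nat_lit 152) (nat_lit 2612937420) (nat_lit 0) (nat_lit 326787021) (nat_lit 11) (nat_lit 5) (nat_lit 13) (nat_lit 4) (nat_lit 11) (nat_lit 4) (nat_lit 387) (nat_lit 270) (nat_lit 243)) (XT.lf (nat_lit 0) (nat_lit 1506634179) (nat_lit 380) (nat_lit 2294419032) (nat_lit 0) (nat_lit 1506634179) (nat_lit 91) (nat_lit 5) (nat_lit 96) (nat_lit 4) (nat_lit 91) (nat_lit 4) (nat_lit 358) (nat_lit 271) (nat_lit 271))) (XT.nd (nat_lit 78) (nat_lit 684) (nat_lit 0) (XT.lf (nat_lit 0) (nat_lit 7080237689) (nat_lit 304) (nat_lit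 2381278144) (nat_lit 304) (nat_lit 1320848651) (nat_lit 87) (nat_lit 4) (nat_lit 91) (nat_lit 5) (nat_lit 91) (nat_lit 4) (nat_lit 359) (nat_lit 271) (nat_lit 270)) (XT.nd (nat_lit 78) (nat_lit 380) (nat_lit 0) (XT.lf (nat_lit 0) (nat_lit 5038992931) (nat_lit 304) (nat_lit 2925595560) (nat_lit 0) (nat_lit 2990000098) (nat_lit 83) (nat_lit 5) (nat_lit 87) (nat_lit 4) (nat_lit 83) (nat_lit 4) (nat_lit 360) (nat_lit 271) (nat_lit 269)) (XT.lf (nat_lit 0) (nat_lit 389445084) (nat_lit 380) (nat_lit 2242271116) (nat_lit 76) (nat_lit 8500969323) (nat_lit 78) (nat_lit 5) (nat_lit 83) (nat_lit 5) (nat_lit 79) (nat_lit 4) (nat_lit 361) (nat_lit 271) (nat_lit 268))))) (XT.nd (nat_lit 156) (nat_lit 760) (nat_lit 0) (XT.nd (nat_lit 78) (nat_lit 380) (nat_lit 0) (XT.lf (nat_lit 0) (nat_lit 6763504677) (nat_lit 304) (nat_lit 1691491176) (nat_lit 0) (nat_lit 2861185957) (nat_lit 75) (nat_lit 5) (nat_lit 79) (nat_lit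 4) (nat_lit 75) (nat_lit 4) (nat_lit 362) (nat_lit 271) (nat_lit 267)) (XT.lf (nat_lit 0) (nat_lit 1759410976) (nat_lit 380) (nat_lit 1253900502) (nat_lit 76) (nat_lit 8492481364) (nat_lit 70) (nat_lit 5) (nat_lit 75) (nat_lit 5) (nat_lit 71) (nat_lit 4) (nat_lit 363) (nat_lit 271) (nat_lit 266))) (XT.nd (nat_lit 78) (nat_lit 532) (nat_lit 0) (XT.lf (nat_lit 0) (nat_lit 8159939143) (nat_lit 304) (nat_lit 957047286) (nat_lit 0) (nat_lit 2584325256) (nat_lit 67) (nat_lit 5) (nat_lit 71) (nat_lit 4) (nat_lit 67) (nat_lit 4) (nat_lit 364) (nat_lit 271) (nat_lit 265)) (XT.nd (nat_lit 78) (nat_lit 228) (nat_lit 0) (XT.lf (nat_lit 0) (nat_lit 2777226091) (nat_lit 304) (nat_lit 802487057) (nat_lit 76) (nat_lit 8323354632) (nat_lit 63) (nat_lit 5) (nat_lit 67) (nat_lit 5) (nat_lit 64) (nat_lit 4) (nat_lit 365) (nat_lit 271) (nat_lit 264)) (XT.lf (nat_lit 0) (nat_lit 9197307306) (nat_lit 304) (nat_lit 799942471)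 (nat_lit 0) (nat_lit 2113994772) (nat_lit 60) (nat_lit 5) (nat_lit 64) (nat_lit 4) (nat_lit 60) (nat_lit 4) (nat_lit 366) (nat_lit 271) (nat_lit 263))))))))
noncomputable def xc6 : XT := (XT.nd (nat_lit 1482) (nat_lit 76) (nat_lit 0) (XT.nd (nat_lit 702) (nat_lit 1444) (nat_lit 0) (XT.nd (nat_lit 312) (nat_lit 1216) (nat_lit 0) (XT.nd (nat_lit 156) (nat_lit 456) (nat_lit 0) (XT.nd (nat_lit 78) (nat_lit 228) (nat_lit 0) (XT.lf (nat_lit 0) (nat_lit 3409421109) (nat_lit 304) (nat_lit 969644755) (nat_lit 76) (nat_lit 7946767562) (nat_lit 56) (nat_lit 5) (nat_lit 60) (nat_lit 5) (nat_lit 57) (nat_lit 4) (nat_lit 367) (nat_lit 271) (nat_lit 262)) (XT.lf (nat_lit 0) (nat_lit 9840121991) (nat_lit 304) (nat_lit 1305858630) (nat_lit 0) (nat_lit 1401383631) (nat_lit 53) (nat_lit 5) (nat_lit 57) (nat_lit 4) (nat_lit 53) (nat_lit 4) (nat_lit 368) (nat_lit 271) (nat_lit 261))) (XT.nd (nat_lit 78) (nat_lit 152)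 (nat_lit 0) (XT.lf (nat_lit 0) (nat_lit 3617807906) (nat_lit 304) (nat_lit 1845441555) (nat_lit 76) (nat_lit 7312285563) (nat_lit 49) (nat_lit 5) (nat_lit 53) (nat_lit 5) (nat_lit 50) (nat_lit 4) (nat_lit 369) (nat_lit 271) (nat_lit 260)) (XT.lf (nat_lit 0) (nat_lit 10047979657) (nat_lit 228) (nat_lit 2569411353) (nat_lit 0) (nat_lit 393790526) (nat_lit 47) (nat_lit 5) (nat_lit 50) (nat_lit 4) (nat_lit 47) (nat_lit 4) (nat_lit 370) (nat_lit 271) (nat_lit 259)))) (XT.nd (nat_lit 156) (nat_lit 760) (nat_lit 0) (XT.nd (nat_lit 78) (nat_lit 152) (nat_lit 0) (XT.lf (nat_lit 0) (nat_lit 3359037213) (nat_lit 304) (nat_lit 3529375026) (nat_lit 76) (nat_lit 6365337592) (nat_lit 43) (nat_lit 5) (nat_lit 47) (nat_lit 5) (nat_lit 44) (nat_lit 4) (nat_lit 371) (nat_lit 271) (nat_lit 258)) (XT.lf (nat_lit 0) (nat_lit 8802689913) (nat_lit 152) (nat_lit 978758121) (nat_lit 228) (nat_lit 3722769285) (nat_lit 41) (nat_lit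 5) (nat_lit 43) (nat_lit 5) (nat_lit 44) (nat_lit 4) (nat_lit 372) (nat_lit 271) (nat_lit 257))) (XT.nd (nat_lit 78) (nat_lit 456) (nat_lit 0) (XT.lf (nat_lit 0) (nat_lit 2584105041) (nat_lit 304) (nat_lit 6131445235) (nat_lit 76) (nat_lit 5046647766) (nat_lit 37) (nat_lit 5) (nat_lit 41) (nat_lit 5) (nat_lit 38) (nat_lit 4) (nat_lit 373) (nat_lit 271) (nat_lit 256)) (XT.nd (nat_lit 78) (nat_lit 304) (nat_lit 0) (XT.lf (nat_lit 0) (nat_lit 6211467216) (nat_lit 152) (nat_lit 2776330231) (nat_lit 228) (nat_lit 5040491721) (nat_lit 35) (nat_lit 5) (nat_lit 37) (nat_lit 5) (nat_lit 38) (nat_lit 4) (nat_lit 374) (nat_lit 271) (nat_lit 255)) (XT.lf (nat_lit 0) (nat_lit 1237802884) (nat_lit 304) (nat_lit 9773335440) (nat_lit 76) (nat_lit 3291616583) (nat_lit 31) (nat_lit 5) (nat_lit 35) (nat_lit 5) (nat_lit 32) (nat_lit 4) (nat_lit 375) (nat_lit 271) (nat_lit 254)))))) (XT.nd (nat_lit 390) (nat_lit 684)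 (nat_lit 0) (XT.nd (nat_lit 156) (nat_lit 456) (nat_lit 0) (XT.nd (nat_lit 78) (nat_lit 152) (nat_lit 0) (XT.lf (nat_lit 0) (nat_lit 2544273825) (nat_lit 152) (nat_lit 5062434652) (nat_lit 228) (nat_lit 6978689817) (nat_lit 29) (nat_lit 5) (nat_lit 31) (nat_lit 5) (nat_lit 32) (nat_lit 4) (nat_lit 376) (nat_lit 271) (nat_lit 253)) (XT.lf (nat_lit 0) (nat_lit 282773432) (nat_lit 152) (nat_lit 13842839867) (nat_lit 152) (nat_lit 751753201) (nat_lit 27) (nat_lit 4) (nat_lit 29) (nat_lit 5) (nat_lit 29) (nat_lit 4) (nat_lit 377) (nat_lit 271) (nat_lit 252))) (XT.nd (nat_lit 78) (nat_lit 380) (nat_lit 0) (XT.lf (nat_lit 0) (nat_lit 5588552102) (nat_lit 228) (nat_lit 2308237594) (nat_lit 76) (nat_lit 7280575450) (nat_lit 26) (nat_lit 5) (nat_lit 29) (nat_lit 5) (nat_lit 27) (nat_lit 4) (nat_lit 378) (nat_lit 271) (nat_lit 251)) (XT.nd (nat_lit 78) (nat_lit 228) (nat_lit 0) (XT.lf (nat_lit 0) (nat_lit 10280562856)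 (nat_lit 152) (nat_lit 1783280335) (nat_lit 228) (nat_lit 3423343705) (nat_lit 24) (nat_lit 5) (nat_lit 26) (nat_lit 5) (nat_lit 27) (nat_lit 4) (nat_lit 379) (nat_lit 271) (nat_lit 250)) (XT.lf (nat_lit 0) (nat_lit 2870952248) (nat_lit 228) (nat_lit 8480459394) (nat_lit 76) (nat_lit 4454887777) (nat_lit 21) (nat_lit 5) (nat_lit 24) (nat_lit 5) (nat_lit 22) (nat_lit 4) (nat_lit 380) (nat_lit 271) (nat_lit 249))))) (XT.nd (nat_lit 156) (nat_lit 380) (nat_lit 0) (XT.nd (nat_lit 78) (nat_lit 152) (nat_lit 0) (XT.lf (nat_lit 0) (nat_lit 3995855085) (nat_lit 152) (nat_lit 5276245679) (nat_lit 228) (nat_lit 6863161949) (nat_lit 19) (nat_lit 5) (nat_lit 21) (nat_lit 5) (nat_lit 22) (nat_lit 4) (nat_lit 381) (nat_lit 271) (nat_lit 248)) (XT.lf (nat_lit 0) (nat_lit 295452574) (nat_lit 152) (nat_lit 15528261835) (nat_lit 152) (nat_lit 651231912) (nat_lit 17) (nat_lit 4) (nat_lit 19) (nat_lit 5) (nat_lit 19)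 (nat_lit 4) (nat_lit 382) (nat_lit 271) (nat_lit 247))) (XT.nd (nat_lit 78) (nat_lit 304) (nat_lit 0) (XT.lf (nat_lit 0) (nat_lit 5683262860) (nat_lit 228) (nat_lit 3816391640) (nat_lit 76) (nat_lit 7324207119) (nat_lit 16) (nat_lit 5) (nat_lit 19) (nat_lit 5) (nat_lit 17) (nat_lit 4) (nat_lit 383) (nat_lit 271) (nat_lit 246)) (XT.nd (nat_lit 78) (nat_lit 228) (nat_lit 0) (XT.lf (nat_lit 0) (nat_lit 8845178779) (nat_lit 76) (nat_lit 3307838107) (nat_lit 152) (nat_lit 5031078466) (nat_lit 15) (nat_lit 5) (nat_lit 16) (nat_lit 5) (nat_lit 17) (nat_lit 4) (nat_lit 384) (nat_lit 271) (nat_lit 245)) (XT.lf (nat_lit 0) (nat_lit 1216358036) (nat_lit 228) (nat_lit 13326666556) (nat_lit 76) (nat_lit 3012541715) (nat_lit 12) (nat_lit 5) (nat_lit 15) (nat_lit 5) (nat_lit 13) (nat_lit 4) (nat_lit 385) (nat_lit 271) (nat_lit 244))))))) (XT.nd (nat_lit 45084) (nat_lit 0) (nat_lit 2280) (XT.nd (nat_lit 44694) (nat_lit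 0) (nat_lit 4864) (XT.nd (nat_lit 44538) (nat_lit 0) (nat_lit 6460) (XT.nd (nat_lit 78) (nat_lit 76) (nat_lit 0) (XT.lf (nat_lit 0) (nat_lit 7561295297) (nat_lit 228) (nat_lit 886315004) (nat_lit 76) (nat_lit 9490354481) (nat_lit 12) (nat_lit 5) (nat_lit 15) (nat_lit 5) (nat_lit 13) (nat_lit 4) (nat_lit 386) (nat_lit 271) (nat_lit 243)) (XT.lf (nat_lit 0) (nat_lit 11907672261) (nat_lit 76) (nat_lit 2168199889) (nat_lit 152) (nat_lit 4256393841) (nat_lit 11) (nat_lit 5) (nat_lit 12) (nat_lit 5) (nat_lit 13) (nat_lit 4) (nat_lit 387) (nat_lit 271) (nat_lit 242))) (XT.nd (nat_lit 78) (nat_lit 304) (nat_lit 0) (XT.lf (nat_lit 0) (nat_lit 947984107) (nat_lit 380) (nat_lit 3252036630) (nat_lit 0) (nat_lit 947984107) (nat_lit 100) (nat_lit 5) (nat_lit 105) (nat_lit 4) (nat_lit 100) (nat_lit 4) (nat_lit 356) (nat_lit 272) (nat_lit 272)) (XT.lf (nat_lit 0) (nat_lit 4891683879) (nat_lit 304) (nat_lit 3338104816)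 (nat_lit 304) (nat_lit 2224017591) (nat_lit 96) (nat_lit 4) (nat_lit 100) (nat_lit 5) (nat_lit 100) (nat_lit 4) (nat_lit 357) (nat_lit 272) (nat_lit 271)))) (XT.nd (nat_lit 156) (nat_lit 912) (nat_lit 0) (XT.nd (nat_lit 78) (nat_lit 304) (nat_lit 0) (XT.lf (nat_lit 0) (nat_lit 4032921302) (nat_lit 380) (nat_lit 4703680047) (nat_lit 0) (nat_lit 1880249432) (nat_lit 91) (nat_lit 5) (nat_lit 96) (nat_lit 4) (nat_lit 91) (nat_lit 4) (nat_lit 358) (nat_lit 272) (nat_lit 270)) (XT.lf (nat_lit 0) (nat_lit 6850890708) (nat_lit 304) (nat_lit 3558313819) (nat_lit 304) (nat_lit 376098752) (nat_lit 87) (nat_lit 4) (nat_lit 91) (nat_lit 5) (nat_lit 91) (nat_lit 4) (nat_lit 359) (nat_lit 272) (nat_lit 269))) (XT.nd (nat_lit 78) (nat_lit 608) (nat_lit 0) (XT.lf (nat_lit 0) (nat_lit 5891557792) (nat_lit 304) (nat_lit 3275683431) (nat_lit 0) (nat_lit 1791781744) (nat_lit 83) (nat_lit 5) (nat_lit 87) (nat_lit 4) (nat_lit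 83) (nat_lit 4) (nat_lit 360) (nat_lit 272) (nat_lit 268)) (XT.nd (nat_lit 78) (nat_lit 228) (nat_lit 0) (XT.lf (nat_lit 0) (nat_lit 1154372673) (nat_lit 380) (nat_lit 2719358155) (nat_lit 76) (nat_lit 7264741831) (nat_lit 78) (nat_lit 5) (nat_lit 83) (nat_lit 5) (nat_lit 79) (nat_lit 4) (nat_lit 361) (nat_lit 272) (nat_lit 267)) (XT.lf (nat_lit 0) (nat_lit 7448488448) (nat_lit 304) (nat_lit 2284351554) (nat_lit 0) (nat_lit 1590748498) (nat_lit 75) (nat_lit 5) (nat_lit 79) (nat_lit 4) (nat_lit 75) (nat_lit 4) (nat_lit 362) (nat_lit 272) (nat_lit 266)))))) (XT.nd (nat_lit 390) (nat_lit 1140) (nat_lit 0) (XT.nd (nat_lit 156) (nat_lit 836) (nat_lit 0) (XT.nd (nat_lit 78) (nat_lit 228) (nat_lit 0) (XT.lf (nat_lit 0) (nat_lit 2356276887) (nat_lit 380) (nat_lit 1977276126) (nat_lit 76) (nat_lit 7181014707) (nat_lit 70) (nat_lit 5) (nat_lit 75) (nat_lit 5) (nat_lit 71) (nat_lit 4) (nat_lit 363) (nat_lit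 272) (nat_lit 265)) (XT.lf (nat_lit 0) (nat_lit 8676539270) (nat_lit 304) (nat_lit 1800360594) (nat_lit 0) (nat_lit 1234811122) (nat_lit 67) (nat_lit 5) (nat_lit 71) (nat_lit 4) (nat_lit 67) (nat_lit 4) (nat_lit 364) (nat_lit 272) (nat_lit 264))) (XT.nd (nat_lit 78) (nat_lit 532) (nat_lit 0) (XT.lf (nat_lit 0) (nat_lit 3205092351) (nat_lit 304) (nat_lit 1779936622) (nat_lit 76) (nat_lit 6929824477) (nat_lit 63) (nat_lit 5) (nat_lit 67) (nat_lit 5) (nat_lit 64) (nat_lit 4) (nat_lit 365) (nat_lit 272) (nat_lit 263)) (XT.nd (nat_lit 78) (nat_lit 304) (nat_lit 0) (XT.lf (nat_lit 0) (nat_lit 9544417575) (nat_lit 304) (nat_lit 1901566368) (nat_lit 0) (nat_lit 678679053) (nat_lit 60) (nat_lit 5) (nat_lit 64) (nat_lit 4) (nat_lit 60) (nat_lit 4) (nat_lit 366) (nat_lit 272) (nat_lit 262)) (XT.lf (nat_lit 0) (nat_lit 3667047154) (nat_lit 304) (nat_lit 2209140999) (nat_lit 76) (nat_lit 6464470985) (nat_lit 56)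 (nat_lit 5) (nat_lit 60) (nat_lit 5) (nat_lit 57) (nat_lit 4) (nat_lit 367) (nat_lit 272) (nat_lit 261))))) (XT.nd (nat_lit 156) (nat_lit 608) (nat_lit 0) (XT.nd (nat_lit 78) (nat_lit 304) (nat_lit 0) (XT.lf (nat_lit 0) (nat_lit 9889135631) (nat_lit 228) (nat_lit 128032959) (nat_lit 304) (nat_lit 2546649281) (nat_lit 53) (nat_lit 5) (nat_lit 56) (nat_lit 5) (nat_lit 57) (nat_lit 4) (nat_lit 368) (nat_lit 272) (nat_lit 260)) (XT.lf (nat_lit 0) (nat_lit 3703654965) (nat_lit 304) (nat_lit 3355167456) (nat_lit 76) (nat_lit 5734613696) (nat_lit 49) (nat_lit 5) (nat_lit 53) (nat_lit 5) (nat_lit 50) (nat_lit 4) (nat_lit 369) (nat_lit 272) (nat_lit 259))) (XT.nd (nat_lit 78) (nat_lit 456) (nat_lit 0) (XT.lf (nat_lit 0) (nat_lit 8810416029) (nat_lit 152) (nat_lit 1249295061) (nat_lit 228) (nat_lit 2970868930) (nat_lit 47) (nat_lit 5) (nat_lit 49) (nat_lit 5) (nat_lit 50) (nat_lit 4) (nat_lit 370) (nat_lit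 272) (nat_lit 258)) (XT.nd (nat_lit 78) (nat_lit 152) (nat_lit 0) (XT.lf (nat_lit 0) (nat_lit 3271271673) (nat_lit 304) (nat_lit 5317746312) (nat_lit 76) (nat_lit 4685749661) (nat_lit 43) (nat_lit 5) (nat_lit 47) (nat_lit 5) (nat_lit 44) (nat_lit 4) (nat_lit 371) (nat_lit 272) (nat_lit 257)) (XT.lf (nat_lit 0) (nat_lit 6887945952) (nat_lit 152) (nat_lit 2733930330) (nat_lit 228) (nat_lit 3904808911) (nat_lit 41) (nat_lit 5) (nat_lit 43) (nat_lit 5) (nat_lit 44) (nat_lit 4) (nat_lit 372) (nat_lit 272) (nat_lit 256))))))))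
noncomputable def xc7 : XT := (XT.nd (nat_lit 45708) (nat_lit 0) (nat_lit 1368) (XT.nd (nat_lit 702) (nat_lit 608) (nat_lit 0) (XT.nd (nat_lit 312) (nat_lit 760) (nat_lit 0) (XT.nd (nat_lit 156) (nat_lit 456) (nat_lit 0) (XT.nd (nat_lit 78) (nat_lit 152) (nat_lit 0) (XT.lf (nat_lit 0) (nat_lit 2320600847) (nat_lit 304) (nat_lit 8207132635) (nat_lit 76) (nat_lit 3258646378) (nat_lit 37) (nat_lit 5) (nat_lit 41) (nat_lit 5) (nat_lit 38) (nat_lit 4) (nat_lit 373) (nat_lit 272) (nat_lit 255)) (XT.lf (nat_lit 0) (nat_lit 4007190391) (nat_lit 152) (nat_lit 4644900857) (nat_lit 228) (nat_lit 5401836657) (nat_lit 35) (nat_lit 5) (nat_lit 37) (nat_lit 5) (nat_lit 38) (nat_lit 4) (nat_lit 374) (nat_lit 272) (nat_lit 254))) (XT.nd (nat_lit 78) (nat_lit 152) (nat_lit 0) (XT.lf (nat_lit 0) (nat_lit 796143018) (nat_lit 304) (nat_lit 12145286754) (nat_lit 76) (nat_lit 1388724131) (nat_lit 31) (nat_lit 5) (nat_lit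 35) (nat_lit 5) (nat_lit 32) (nat_lit 4) (nat_lit 375) (nat_lit 272) (nat_lit 253)) (XT.lf (nat_lit 0) (nat_lit 41395403) (nat_lit 152) (nat_lit 7050942297) (nat_lit 228) (nat_lit 7521925710) (nat_lit 29) (nat_lit 5) (nat_lit 31) (nat_lit 5) (nat_lit 32) (nat_lit 4) (nat_lit 376) (nat_lit 272) (nat_lit 252)))) (XT.nd (nat_lit 156) (nat_lit 532) (nat_lit 0) (XT.nd (nat_lit 78) (nat_lit 228) (nat_lit 0) (XT.lf (nat_lit 0) (nat_lit 12564009676) (nat_lit 152) (nat_lit 983160188) (nat_lit 228) (nat_lit 1360354759) (nat_lit 29) (nat_lit 5) (nat_lit 31) (nat_lit 5) (nat_lit 32) (nat_lit 4) (nat_lit 377) (nat_lit 272) (nat_lit 251)) (XT.lf (nat_lit 0) (nat_lit 4910947175) (nat_lit 228) (nat_lit 5082226658) (nat_lit 76) (nat_lit 5215979169) (nat_lit 26) (nat_lit 5) (nat_lit 29) (nat_lit 5) (nat_lit 27) (nat_lit 4) (nat_lit 378) (nat_lit 272) (nat_lit 250))) (XT.nd (nat_lit 78) (nat_lit 380) (nat_lit 0) (XT.lf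 (nat_lit 0) (nat_lit 7374747973) (nat_lit 152) (nat_lit 3939146149) (nat_lit 228) (nat_lit 4206538189) (nat_lit 24) (nat_lit 5) (nat_lit 26) (nat_lit 5) (nat_lit 27) (nat_lit 4) (nat_lit 379) (nat_lit 272) (nat_lit 249)) (XT.nd (nat_lit 78) (nat_lit 152) (nat_lit 0) (XT.lf (nat_lit 0) (nat_lit 2010816330) (nat_lit 228) (nat_lit 11567958649) (nat_lit 76) (nat_lit 2262625982) (nat_lit 21) (nat_lit 5) (nat_lit 24) (nat_lit 5) (nat_lit 22) (nat_lit 4) (nat_lit 380) (nat_lit 272) (nat_lit 248)) (XT.lf (nat_lit 0) (nat_lit 773906541) (nat_lit 152) (nat_lit 7564952983) (nat_lit 228) (nat_lit 7832976704) (nat_lit 19) (nat_lit 5) (nat_lit 21) (nat_lit 5) (nat_lit 22) (nat_lit 4) (nat_lit 381) (nat_lit 272) (nat_lit 247)))))) (XT.nd (nat_lit 390) (nat_lit 76) (nat_lit 0) (XT.nd (nat_lit 156) (nat_lit 304) (nat_lit 0) (XT.nd (nat_lit 78) (nat_lit 228) (nat_lit 0) (XT.lf (nat_lit 0) (nat_lit 13460256548) (nat_lit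 152) (nat_lit 1370827607) (nat_lit 228) (nat_lit 1681633040) (nat_lit 19) (nat_lit 5) (nat_lit 21) (nat_lit 5) (nat_lit 22) (nat_lit 4) (nat_lit 382) (nat_lit 272) (nat_lit 246)) (XT.lf (nat_lit 0) (nat_lit 4586320875) (nat_lit 228) (nat_lit 7317997337) (nat_lit 76) (nat_lit 4959058297) (nat_lit 16) (nat_lit 5) (nat_lit 19) (nat_lit 5) (nat_lit 17) (nat_lit 4) (nat_lit 383) (nat_lit 272) (nat_lit 245))) (XT.nd (nat_lit 78) (nat_lit 228) (nat_lit 0) (XT.lf (nat_lit 0) (nat_lit 5207831998) (nat_lit 76) (nat_lit 5775171050) (nat_lit 152) (nat_lit 6242077483) (nat_lit 15) (nat_lit 5) (nat_lit 16) (nat_lit 5) (nat_lit 17) (nat_lit 4) (nat_lit 384) (nat_lit 272) (nat_lit 244)) (XT.nd (nat_lit 78) (nat_lit 76) (nat_lit 0) (XT.lf (nat_lit 0) (nat_lit 437577263) (nat_lit 152) (nat_lit 17091145145) (nat_lit 152) (nat_lit 69787978) (nat_lit 13) (nat_lit 4) (nat_lit 15) (nat_lit 5) (nat_lit 15) (nat_lit 4) (nat_lit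 385) (nat_lit 272) (nat_lit 243)) (XT.lf (nat_lit 0) (nat_lit 6227778341) (nat_lit 228) (nat_lit 4806702894) (nat_lit 76) (nat_lit 6947410595) (nat_lit 12) (nat_lit 5) (nat_lit 15) (nat_lit 5) (nat_lit 13) (nat_lit 4) (nat_lit 386) (nat_lit 272) (nat_lit 242))))) (XT.nd (nat_lit 44382) (nat_lit 0) (nat_lit 6460) (XT.nd (nat_lit 44304) (nat_lit 0) (nat_lit 7524) (XT.lf (nat_lit 0) (nat_lit 7850014616) (nat_lit 76) (nat_lit 4819115744) (nat_lit 152) (nat_lit 5708535117) (nat_lit 11) (nat_lit 5) (nat_lit 12) (nat_lit 5) (nat_lit 13) (nat_lit 4) (nat_lit 387) (nat_lit 272) (nat_lit 241)) (XT.lf (nat_lit 0) (nat_lit 371728568) (nat_lit 380) (nat_lit 4253571534) (nat_lit 0) (nat_lit 371728568) (nat_lit 110) (nat_lit 5) (nat_lit 115) (nat_lit 4) (nat_lit 110) (nat_lit 4) (nat_lit 354) (nat_lit 273) (nat_lit 273))) (XT.nd (nat_lit 78) (nat_lit 684) (nat_lit 0) (XT.lf (nat_lit 0) (nat_lit 2609761471) (nat_lit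 380) (nat_lit 4351910980) (nat_lit 380) (nat_lit 3181450942) (nat_lit 105) (nat_lit 4) (nat_lit 110) (nat_lit 5) (nat_lit 110) (nat_lit 4) (nat_lit 355) (nat_lit 273) (nat_lit 272)) (XT.nd (nat_lit 78) (nat_lit 304) (nat_lit 0) (XT.lf (nat_lit 0) (nat_lit 2971000692) (nat_lit 380) (nat_lit 6617080359) (nat_lit 0) (nat_lit 709403625) (nat_lit 100) (nat_lit 5) (nat_lit 105) (nat_lit 4) (nat_lit 100) (nat_lit 4) (nat_lit 356) (nat_lit 273) (nat_lit 271)) (XT.lf (nat_lit 0) (nat_lit 4666001283) (nat_lit 304) (nat_lit 4566988234) (nat_lit 304) (nat_lit 1223753085) (nat_lit 96) (nat_lit 4) (nat_lit 100) (nat_lit 5) (nat_lit 100) (nat_lit 4) (nat_lit 357) (nat_lit 273) (nat_lit 270))))))) (XT.nd (nat_lit 780) (nat_lit 2052) (nat_lit 0) (XT.nd (nat_lit 390) (nat_lit 1444) (nat_lit 0) (XT.nd (nat_lit 156) (nat_lit 836) (nat_lit 0) (XT.nd (nat_lit 78) (nat_lit 380) (nat_lit 0) (XT.lf (nat_lit 0) (nat_lit 4940099223)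 (nat_lit 380) (nat_lit 5048306345) (nat_lit 0) (nat_lit 632874507) (nat_lit 91) (nat_lit 5) (nat_lit 96) (nat_lit 4) (nat_lit 91) (nat_lit 4) (nat_lit 358) (nat_lit 273) (nat_lit 269)) (XT.lf (nat_lit 0) (nat_lit 447845433) (nat_lit 380) (nat_lit 4402133442) (nat_lit 76) (nat_lit 5941145633) (nat_lit 86) (nat_lit 5) (nat_lit 91) (nat_lit 5) (nat_lit 87) (nat_lit 4) (nat_lit 359) (nat_lit 273) (nat_lit 268))) (XT.nd (nat_lit 78) (nat_lit 608) (nat_lit 0) (XT.lf (nat_lit 0) (nat_lit 6630528200) (nat_lit 304) (nat_lit 3859503099) (nat_lit 0) (nat_lit 476386608) (nat_lit 83) (nat_lit 5) (nat_lit 87) (nat_lit 4) (nat_lit 83) (nat_lit 4) (nat_lit 360) (nat_lit 273) (nat_lit 267)) (XT.nd (nat_lit 78) (nat_lit 228) (nat_lit 0) (XT.lf (nat_lit 0) (nat_lit 1804757871) (nat_lit 380) (nat_lit 3432234484) (nat_lit 76) (nat_lit 5910232832) (nat_lit 78) (nat_lit 5) (nat_lit 83) (nat_lit 5) (nat_lit 79) (nat_lit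 4) (nat_lit 361) (nat_lit 273) (nat_lit 266)) (XT.lf (nat_lit 0) (nat_lit 8018582657) (nat_lit 304) (nat_lit 3115081202) (nat_lit 0) (nat_lit 200303064) (nat_lit 75) (nat_lit 5) (nat_lit 79) (nat_lit 4) (nat_lit 75) (nat_lit 4) (nat_lit 362) (nat_lit 273) (nat_lit 265))))) (XT.nd (nat_lit 156) (nat_lit 836) (nat_lit 0) (XT.nd (nat_lit 78) (nat_lit 228) (nat_lit 0) (XT.lf (nat_lit 0) (nat_lit 2837229605) (nat_lit 380) (nat_lit 2940683061) (nat_lit 76) (nat_lit 5748408350) (nat_lit 70) (nat_lit 5) (nat_lit 75) (nat_lit 5) (nat_lit 71) (nat_lit 4) (nat_lit 363) (nat_lit 273) (nat_lit 264)) (XT.lf (nat_lit 0) (nat_lit 8837619672) (nat_lit 228) (nat_lit 240722634) (nat_lit 304) (nat_lit 2646723522) (nat_lit 67) (nat_lit 5) (nat_lit 70) (nat_lit 5) (nat_lit 71) (nat_lit 4) (nat_lit 364) (nat_lit 273) (nat_lit 263))) (XT.nd (nat_lit 78) (nat_lit 532) (nat_lit 0) (XT.lf (nat_lit 0) (nat_lit 3515498567) (nat_lit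 304) (nat_lit 3001867904) (nat_lit 76) (nat_lit 5412267986) (nat_lit 63) (nat_lit 5) (nat_lit 67) (nat_lit 5) (nat_lit 64) (nat_lit 4) (nat_lit 365) (nat_lit 273) (nat_lit 262)) (XT.nd (nat_lit 78) (nat_lit 304) (nat_lit 0) (XT.lf (nat_lit 0) (nat_lit 8885211091) (nat_lit 228) (nat_lit 894115932) (nat_lit 304) (nat_lit 2361644061) (nat_lit 60) (nat_lit 5) (nat_lit 63) (nat_lit 5) (nat_lit 64) (nat_lit 4) (nat_lit 366) (nat_lit 273) (nat_lit 261)) (XT.lf (nat_lit 0) (nat_lit 3805489880) (nat_lit 304) (nat_lit 3697790383) (nat_lit 76) (nat_lit 4855220727) (nat_lit 56) (nat_lit 5) (nat_lit 60) (nat_lit 5) (nat_lit 57) (nat_lit 4) (nat_lit 367) (nat_lit 273) (nat_lit 260)))))) (XT.nd (nat_lit 390) (nat_lit 912) (nat_lit 0) (XT.nd (nat_lit 156) (nat_lit 608) (nat_lit 0) (XT.nd (nat_lit 78) (nat_lit 304) (nat_lit 0) (XT.lf (nat_lit 0) (nat_lit 8277979078) (nat_lit 228) (nat_lit 1806474185) (nat_lit 304)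 (nat_lit 2498645464) (nat_lit 53) (nat_lit 5) (nat_lit 56) (nat_lit 5) (nat_lit 57) (nat_lit 4) (nat_lit 368) (nat_lit 273) (nat_lit 259)) (XT.lf (nat_lit 0) (nat_lit 3668418144) (nat_lit 304) (nat_lit 5118951623) (nat_lit 76) (nat_lit 4027008273) (nat_lit 49) (nat_lit 5) (nat_lit 53) (nat_lit 5) (nat_lit 50) (nat_lit 4) (nat_lit 369) (nat_lit 273) (nat_lit 258))) (XT.nd (nat_lit 78) (nat_lit 456) (nat_lit 0) (XT.lf (nat_lit 0) (nat_lit 6922019931) (nat_lit 152) (nat_lit 3031051962) (nat_lit 228) (nat_lit 3099892739) (nat_lit 47) (nat_lit 5) (nat_lit 49) (nat_lit 5) (nat_lit 50) (nat_lit 4) (nat_lit 370) (nat_lit 273) (nat_lit 257)) (XT.nd (nat_lit 78) (nat_lit 152) (nat_lit 0) (XT.lf (nat_lit 0) (nat_lit 3060343086) (nat_lit 304) (nat_lit 7365327477) (nat_lit 76) (nat_lit 2873184321) (nat_lit 43) (nat_lit 5) (nat_lit 47) (nat_lit 5) (nat_lit 44) (nat_lit 4) (nat_lit 371) (nat_lit 273) (nat_lit 256))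 (XT.lf (nat_lit 0) (nat_lit 4713535878) (nat_lit 152) (nat_lit 4625649035) (nat_lit 228) (nat_lit 4213036306) (nat_lit 41) (nat_lit 5) (nat_lit 43) (nat_lit 5) (nat_lit 44) (nat_lit 4) (nat_lit 372) (nat_lit 273) (nat_lit 255))))) (XT.nd (nat_lit 156) (nat_lit 456) (nat_lit 0) (XT.nd (nat_lit 78) (nat_lit 152) (nat_lit 0) (XT.lf (nat_lit 0) (nat_lit 1931674059) (nat_lit 304) (nat_lit 10547440930) (nat_lit 76) (nat_lit 1334548634) (nat_lit 37) (nat_lit 5) (nat_lit 41) (nat_lit 5) (nat_lit 38) (nat_lit 4) (nat_lit 373) (nat_lit 273) (nat_lit 254)) (XT.lf (nat_lit 0) (nat_lit 1537717882) (nat_lit 152) (nat_lit 6653208874) (nat_lit 228) (nat_lit 5891742170) (nat_lit 35) (nat_lit 5) (nat_lit 37) (nat_lit 5) (nat_lit 38) (nat_lit 4) (nat_lit 374) (nat_lit 273) (nat_lit 253))) (XT.nd (nat_lit 78) (nat_lit 380) (nat_lit 0) (XT.lf (nat_lit 0) (nat_lit 233717424) (nat_lit 228) (nat_lit 425580519) (nat_lit 76)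 (nat_lit 13701251403) (nat_lit 34) (nat_lit 5) (nat_lit 37) (nat_lit 5) (nat_lit 35) (nat_lit 5) (nat_lit 375) (nat_lit 273) (nat_lit 252)) (XT.nd (nat_lit 78) (nat_lit 152) (nat_lit 0) (XT.lf (nat_lit 0) (nat_lit 6467728244) (nat_lit 304) (nat_lit 2696647300) (nat_lit 76) (nat_lit 5481538540) (nat_lit 31) (nat_lit 5) (nat_lit 35) (nat_lit 5) (nat_lit 32) (nat_lit 4) (nat_lit 376) (nat_lit 273) (nat_lit 251)) (XT.lf (nat_lit 0) (nat_lit 9696431086) (nat_lit 152) (nat_lit 3154560369) (nat_lit 228) (nat_lit 2089626439) (nat_lit 29) (nat_lit 5) (nat_lit 31) (nat_lit 5) (nat_lit 32) (nat_lit 4) (nat_lit 377) (nat_lit 273) (nat_lit 250))))))))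
noncomputable def xc8 : XT := (XT.nd (nat_lit 45552) (nat_lit 0) (nat_lit 988) (XT.nd (nat_lit 702) (nat_lit 76) (nat_lit 0) (XT.nd (nat_lit 312) (nat_lit 684) (nat_lit 0) (XT.nd (nat_lit 156) (nat_lit 228) (nat_lit 0) (XT.nd (nat_lit 78) (nat_lit 152) (nat_lit 0) (XT.lf (nat_lit 0) (nat_lit 4104454442) (nat_lit 228) (nat_lit 8129677929) (nat_lit 76) (nat_lit 3009954990) (nat_lit 26) (nat_lit 5) (nat_lit 29) (nat_lit 5) (nat_lit 27) (nat_lit 4) (nat_lit 378) (nat_lit 273) (nat_lit 249)) (XT.lf (nat_lit 0) (nat_lit 4194602567) (nat_lit 152) (nat_lit 6240231147) (nat_lit 228) (nat_lit 5121994675) (nat_lit 24) (nat_lit 5) (nat_lit 26) (nat_lit 5) (nat_lit 27) (nat_lit 4) (nat_lit 379) (nat_lit 273) (nat_lit 248))) (XT.nd (nat_lit 78) (nat_lit 0) (nat_lit 0) (XT.lf (nat_lit 0) (nat_lit 943960180) (nat_lit 152) (nat_lit 75467964) (nat_lit 228) (nat_lit 14860256399) (nat_lit 21) (nat_lit 5) (nat_lit 23)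 (nat_lit 5) (nat_lit 24) (nat_lit 5) (nat_lit 380) (nat_lit 273) (nat_lit 247)) (XT.lf (nat_lit 0) (nat_lit 7291290330) (nat_lit 228) (nat_lit 2693026734) (nat_lit 76) (nat_lit 6226935946) (nat_lit 21) (nat_lit 5) (nat_lit 24) (nat_lit 5) (nat_lit 22) (nat_lit 4) (nat_lit 381) (nat_lit 273) (nat_lit 246)))) (XT.nd (nat_lit 156) (nat_lit 304) (nat_lit 0) (XT.nd (nat_lit 78) (nat_lit 228) (nat_lit 0) (XT.lf (nat_lit 0) (nat_lit 9869478894) (nat_lit 152) (nat_lit 3846556483) (nat_lit 228) (nat_lit 2837457493) (nat_lit 19) (nat_lit 5) (nat_lit 21) (nat_lit 5) (nat_lit 22) (nat_lit 4) (nat_lit 382) (nat_lit 273) (nat_lit 245)) (XT.lf (nat_lit 0) (nat_lit 3356075386) (nat_lit 228) (nat_lit 11103365559) (nat_lit 76) (nat_lit 2446661776) (nat_lit 16) (nat_lit 5) (nat_lit 19) (nat_lit 5) (nat_lit 17) (nat_lit 4) (nat_lit 383) (nat_lit 273) (nat_lit 244))) (XT.nd (nat_lit 78) (nat_lit 228) (nat_lit 0) (XT.lf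 (nat_lit 0) (nat_lit 1285549887) (nat_lit 76) (nat_lit 8393726289) (nat_lit 152) (nat_lit 7590008790) (nat_lit 15) (nat_lit 5) (nat_lit 16) (nat_lit 5) (nat_lit 17) (nat_lit 4) (nat_lit 384) (nat_lit 273) (nat_lit 243)) (XT.nd (nat_lit 78) (nat_lit 228) (nat_lit 0) (XT.lf (nat_lit 0) (nat_lit 14027423315) (nat_lit 76) (nat_lit 2144249180) (nat_lit 152) (nat_lit 1472117132) (nat_lit 15) (nat_lit 5) (nat_lit 16) (nat_lit 5) (nat_lit 17) (nat_lit 4) (nat_lit 385) (nat_lit 273) (nat_lit 242)) (XT.lf (nat_lit 0) (nat_lit 4759089824) (nat_lit 228) (nat_lit 9015329697) (nat_lit 76) (nat_lit 4254636611) (nat_lit 12) (nat_lit 5) (nat_lit 15) (nat_lit 5) (nat_lit 13) (nat_lit 4) (nat_lit 386) (nat_lit 273) (nat_lit 241)))))) (XT.nd (nat_lit 44460) (nat_lit 0) (nat_lit 5472) (XT.nd (nat_lit 44226) (nat_lit 0) (nat_lit 7144) (XT.nd (nat_lit 44148) (nat_lit 0) (nat_lit 8740) (XT.lf (nat_lit 0) (nat_lit 3502768189)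 (nat_lit 76) (nat_lit 7623934051) (nat_lit 152) (nat_lit 7299610043) (nat_lit 11) (nat_lit 5) (nat_lit 12) (nat_lit 5) (nat_lit 13) (nat_lit 4) (nat_lit 387) (nat_lit 273) (nat_lit 240)) (XT.lf (nat_lit 0) (nat_lit 4433506806) (nat_lit 380) (nat_lit 210350644) (nat_lit 380) (nat_lit 210350644) (nat_lit 126) (nat_lit 4) (nat_lit 131) (nat_lit 5) (nat_lit 131) (nat_lit 4) (nat_lit 352) (nat_lit 274) (nat_lit 274))) (XT.nd (nat_lit 78) (nat_lit 760) (nat_lit 0) (XT.lf (nat_lit 0) (nat_lit 278595409) (nat_lit 380) (nat_lit 5400244925) (nat_lit 380) (nat_lit 4170559609) (nat_lit 115) (nat_lit 4) (nat_lit 120) (nat_lit 5) (nat_lit 120) (nat_lit 4) (nat_lit 353) (nat_lit 274) (nat_lit 273)) (XT.nd (nat_lit 78) (nat_lit 380) (nat_lit 0) (XT.lf (nat_lit 0) (nat_lit 1373881910) (nat_lit 304) (nat_lit 506037132) (nat_lit 380) (nat_lit 8115547263) (nat_lit 110) (nat_lit 5) (nat_lit 114) (nat_lit 5) (nat_lit 115)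 (nat_lit 4) (nat_lit 354) (nat_lit 274) (nat_lit 272)) (XT.lf (nat_lit 0) (nat_lit 2387776045) (nat_lit 380) (nat_lit 5635342709) (nat_lit 380) (nat_lit 2122939861) (nat_lit 105) (nat_lit 4) (nat_lit 110) (nat_lit 5) (nat_lit 110) (nat_lit 4) (nat_lit 355) (nat_lit 274) (nat_lit 271))))) (XT.nd (nat_lit 156) (nat_lit 988) (nat_lit 0) (XT.nd (nat_lit 78) (nat_lit 304) (nat_lit 0) (XT.lf (nat_lit 0) (nat_lit 3341753125) (nat_lit 304) (nat_lit 597567081) (nat_lit 380) (nat_lit 6362513118) (nat_lit 100) (nat_lit 5) (nat_lit 104) (nat_lit 5) (nat_lit 105) (nat_lit 4) (nat_lit 356) (nat_lit 274) (nat_lit 270)) (XT.lf (nat_lit 0) (nat_lit 4214438894) (nat_lit 304) (nat_lit 5911741626) (nat_lit 304) (nat_lit 336437279) (nat_lit 96) (nat_lit 4) (nat_lit 100) (nat_lit 5) (nat_lit 100) (nat_lit 4) (nat_lit 357) (nat_lit 274) (nat_lit 269))) (XT.nd (nat_lit 78) (nat_lit 608) (nat_lit 0) (XT.lf (nat_lit 0) (nat_lit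 5000750122) (nat_lit 304) (nat_lit 739646957) (nat_lit 380) (nat_lit 4888173407) (nat_lit 91) (nat_lit 5) (nat_lit 95) (nat_lit 5) (nat_lit 96) (nat_lit 4) (nat_lit 358) (nat_lit 274) (nat_lit 268)) (XT.nd (nat_lit 78) (nat_lit 228) (nat_lit 0) (XT.lf (nat_lit 0) (nat_lit 1154224905) (nat_lit 380) (nat_lit 5104450052) (nat_lit 76) (nat_lit 4541183261) (nat_lit 86) (nat_lit 5) (nat_lit 91) (nat_lit 5) (nat_lit 87) (nat_lit 4) (nat_lit 359) (nat_lit 274) (nat_lit 267)) (XT.lf (nat_lit 0) (nat_lit 6292790950) (nat_lit 228) (nat_lit 970057158) (nat_lit 304) (nat_lit 3713805791) (nat_lit 83) (nat_lit 5) (nat_lit 86) (nat_lit 5) (nat_lit 87) (nat_lit 4) (nat_lit 360) (nat_lit 274) (nat_lit 266))))))) (XT.nd (nat_lit 702) (nat_lit 1900) (nat_lit 0) (XT.nd (nat_lit 312) (nat_lit 1368) (nat_lit 0) (XT.nd (nat_lit 156) (nat_lit 608) (nat_lit 0) (XT.nd (nat_lit 78) (nat_lit 228) (nat_lit 0) (XT.lf (nat_lit 0)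 (nat_lit 2341168977) (nat_lit 380) (nat_lit 4381523005) (nat_lit 76) (nat_lit 4436258775) (nat_lit 78) (nat_lit 5) (nat_lit 83) (nat_lit 5) (nat_lit 79) (nat_lit 4) (nat_lit 361) (nat_lit 274) (nat_lit 265)) (XT.lf (nat_lit 0) (nat_lit 7154120197) (nat_lit 228) (nat_lit 1328792651) (nat_lit 304) (nat_lit 2864240754) (nat_lit 75) (nat_lit 5) (nat_lit 78) (nat_lit 5) (nat_lit 79) (nat_lit 4) (nat_lit 362) (nat_lit 274) (nat_lit 264))) (XT.nd (nat_lit 78) (nat_lit 228) (nat_lit 0) (XT.lf (nat_lit 0) (nat_lit 3202689378) (nat_lit 380) (nat_lit 4144963121) (nat_lit 76) (nat_lit 4193410504) (nat_lit 70) (nat_lit 5) (nat_lit 75) (nat_lit 5) (nat_lit 71) (nat_lit 4) (nat_lit 363) (nat_lit 274) (nat_lit 263)) (XT.lf (nat_lit 0) (nat_lit 7514610272) (nat_lit 228) (nat_lit 1858465302) (nat_lit 304) (nat_lit 2368164783) (nat_lit 67) (nat_lit 5) (nat_lit 70) (nat_lit 5) (nat_lit 71) (nat_lit 4) (nat_lit 364) (nat_lit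 274) (nat_lit 262)))) (XT.nd (nat_lit 156) (nat_lit 836) (nat_lit 0) (XT.nd (nat_lit 78) (nat_lit 228) (nat_lit 0) (XT.lf (nat_lit 0) (nat_lit 3708715967) (nat_lit 304) (nat_lit 4469348610) (nat_lit 76) (nat_lit 3769359139) (nat_lit 63) (nat_lit 5) (nat_lit 67) (nat_lit 5) (nat_lit 64) (nat_lit 4) (nat_lit 365) (nat_lit 274) (nat_lit 261)) (XT.lf (nat_lit 0) (nat_lit 7296995594) (nat_lit 228) (nat_lit 2604736338) (nat_lit 304) (nat_lit 2258461305) (nat_lit 60) (nat_lit 5) (nat_lit 63) (nat_lit 5) (nat_lit 64) (nat_lit 4) (nat_lit 366) (nat_lit 274) (nat_lit 260))) (XT.nd (nat_lit 78) (nat_lit 532) (nat_lit 0) (XT.lf (nat_lit 0) (nat_lit 3824870255) (nat_lit 304) (nat_lit 5436893668) (nat_lit 76) (nat_lit 3117610648) (nat_lit 56) (nat_lit 5) (nat_lit 60) (nat_lit 5) (nat_lit 57) (nat_lit 4) (nat_lit 367) (nat_lit 274) (nat_lit 259)) (XT.nd (nat_lit 78) (nat_lit 304) (nat_lit 0) (XT.lf (nat_lit 0) (nat_lit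 6416032178) (nat_lit 228) (nat_lit 3616782993) (nat_lit 304) (nat_lit 2572592886) (nat_lit 53) (nat_lit 5) (nat_lit 56) (nat_lit 5) (nat_lit 57) (nat_lit 4) (nat_lit 368) (nat_lit 274) (nat_lit 258)) (XT.lf (nat_lit 0) (nat_lit 3512066655) (nat_lit 304) (nat_lit 7138335227) (nat_lit 76) (nat_lit 2187977210) (nat_lit 49) (nat_lit 5) (nat_lit 53) (nat_lit 5) (nat_lit 50) (nat_lit 4) (nat_lit 369) (nat_lit 274) (nat_lit 257)))))) (XT.nd (nat_lit 390) (nat_lit 988) (nat_lit 0) (XT.nd (nat_lit 156) (nat_lit 456) (nat_lit 0) (XT.nd (nat_lit 78) (nat_lit 304) (nat_lit 0) (XT.lf (nat_lit 0) (nat_lit 4777574376) (nat_lit 152) (nat_lit 4947803780) (nat_lit 228) (nat_lit 3353028588) (nat_lit 47) (nat_lit 5) (nat_lit 49) (nat_lit 5) (nat_lit 50) (nat_lit 4) (nat_lit 370) (nat_lit 274) (nat_lit 256)) (XT.lf (nat_lit 0) (nat_lit 2726067148) (nat_lit 304) (nat_lit 9673907672) (nat_lit 76) (nat_lit 926057777) (nat_lit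 43) (nat_lit 5) (nat_lit 47) (nat_lit 5) (nat_lit 44) (nat_lit 4) (nat_lit 371) (nat_lit 274) (nat_lit 255))) (XT.nd (nat_lit 78) (nat_lit 304) (nat_lit 0) (XT.lf (nat_lit 0) (nat_lit 2277559719) (nat_lit 152) (nat_lit 6655567194) (nat_lit 228) (nat_lit 4647720794) (nat_lit 41) (nat_lit 5) (nat_lit 43) (nat_lit 5) (nat_lit 44) (nat_lit 4) (nat_lit 372) (nat_lit 274) (nat_lit 254)) (XT.nd (nat_lit 78) (nat_lit 0) (nat_lit 0) (XT.lf (nat_lit 0) (nat_lit 684777380) (nat_lit 228) (nat_lit 736992502) (nat_lit 304) (nat_lit 12422207592) (nat_lit 37) (nat_lit 5) (nat_lit 40) (nat_lit 5) (nat_lit 41) (nat_lit 5) (nat_lit 373) (nat_lit 274) (nat_lit 253)) (XT.lf (nat_lit 0) (nat_lit 7611686416) (nat_lit 304) (nat_lit 1183381585) (nat_lit 76) (nat_lit 5319313636) (nat_lit 37) (nat_lit 5) (nat_lit 41) (nat_lit 5) (nat_lit 38) (nat_lit 4) (nat_lit 374) (nat_lit 274) (nat_lit 252))))) (XT.nd (nat_lit 156) (nat_lit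 532) (nat_lit 0) (XT.nd (nat_lit 78) (nat_lit 304) (nat_lit 0) (XT.lf (nat_lit 0) (nat_lit 11107277662) (nat_lit 152) (nat_lit 2849522061) (nat_lit 228) (nat_lit 436732142) (nat_lit 35) (nat_lit 5) (nat_lit 37) (nat_lit 5) (nat_lit 38) (nat_lit 4) (nat_lit 375) (nat_lit 274) (nat_lit 251)) (XT.lf (nat_lit 0) (nat_lit 5716621754) (nat_lit 304) (nat_lit 5703986159) (nat_lit 76) (nat_lit 3260084313) (nat_lit 31) (nat_lit 5) (nat_lit 35) (nat_lit 5) (nat_lit 32) (nat_lit 4) (nat_lit 376) (nat_lit 274) (nat_lit 250))) (XT.nd (nat_lit 78) (nat_lit 380) (nat_lit 0) (XT.lf (nat_lit 0) (nat_lit 6558156507) (nat_lit 152) (nat_lit 5469683283) (nat_lit 228) (nat_lit 2949008040) (nat_lit 29) (nat_lit 5) (nat_lit 31) (nat_lit 5) (nat_lit 32) (nat_lit 4) (nat_lit 377) (nat_lit 274) (nat_lit 249)) (XT.nd (nat_lit 78) (nat_lit 152) (nat_lit 0) (XT.lf (nat_lit 0) (nat_lit 3168369202) (nat_lit 228) (nat_lit 11453254228)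 (nat_lit 76) (nat_lit 660575317) (nat_lit 26) (nat_lit 5) (nat_lit 29) (nat_lit 5) (nat_lit 27) (nat_lit 4) (nat_lit 378) (nat_lit 274) (nat_lit 248)) (XT.lf (nat_lit 0) (nat_lit 737347870) (nat_lit 152) (nat_lit 8688545986) (nat_lit 228) (nat_lit 6170513078) (nat_lit 24) (nat_lit 5) (nat_lit 26) (nat_lit 5) (nat_lit 27) (nat_lit 4) (nat_lit 379) (nat_lit 274) (nat_lit 247))))))))
noncomputable def xc9 : XT := (XT.nd (nat_lit 45396) (nat_lit 0) (nat_lit 912) (XT.nd (nat_lit 44616) (nat_lit 0) (nat_lit 5396) (XT.nd (nat_lit 312) (nat_lit 304) (nat_lit 0) (XT.nd (nat_lit 156) (nat_lit 380) (nat_lit 0) (XT.nd (nat_lit 78) (nat_lit 228) (nat_lit 0) (XT.lf (nat_lit 0) (nat_lit 13274029433) (nat_lit 152) (nat_lit 2574232833) (nat_lit 228) (nat_lit 72256575) (nat_lit 24) (nat_lit 5) (nat_lit 26) (nat_lit 5) (nat_lit 27) (nat_lit 4) (nat_lit 380) (nat_lit 274) (nat_lit 246)) (XT.lf (nat_lit 0) (nat_lit 6117612620)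 (nat_lit 228) (nat_lit 6429921820) (nat_lit 76) (nat_lit 3706230363) (nat_lit 21) (nat_lit 5) (nat_lit 24) (nat_lit 5) (nat_lit 22) (nat_lit 4) (nat_lit 381) (nat_lit 274) (nat_lit 245))) (XT.nd (nat_lit 78) (nat_lit 228) (nat_lit 0) (XT.lf (nat_lit 0) (nat_lit 5997431691) (nat_lit 152) (nat_lit 6472028226) (nat_lit 228) (nat_lit 4128011733) (nat_lit 19) (nat_lit 5) (nat_lit 21) (nat_lit 5) (nat_lit 22) (nat_lit 4) (nat_lit 382) (nat_lit 274) (nat_lit 244)) (XT.lf (nat_lit 0) (nat_lit 1774829725) (nat_lit 152) (nat_lit 218037338) (nat_lit 228) (nat_lit 14959182213) (nat_lit 16) (nat_lit 5) (nat_lit 18) (nat_lit 5) (nat_lit 19) (nat_lit 5) (nat_lit 383) (nat_lit 274) (nat_lit 243)))) (XT.nd (nat_lit 156) (nat_lit 228) (nat_lit 0) (XT.nd (nat_lit 78) (nat_lit 76) (nat_lit 0) (XT.lf (nat_lit 0) (nat_lit 8259688747) (nat_lit 228) (nat_lit 2886731645) (nat_lit 76) (nat_lit 6169947055) (nat_lit 16) (nat_lit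 5) (nat_lit 19) (nat_lit 5) (nat_lit 17) (nat_lit 4) (nat_lit 384) (nat_lit 274) (nat_lit 242)) (XT.lf (nat_lit 0) (nat_lit 9735141973) (nat_lit 76) (nat_lit 4952162347) (nat_lit 152) (nat_lit 3004871504) (nat_lit 15) (nat_lit 5) (nat_lit 16) (nat_lit 5) (nat_lit 17) (nat_lit 4) (nat_lit 385) (nat_lit 274) (nat_lit 241))) (XT.nd (nat_lit 78) (nat_lit 0) (nat_lit 0) (XT.lf (nat_lit 0) (nat_lit 3153946427) (nat_lit 228) (nat_lit 13515872855) (nat_lit 76) (nat_lit 1409679620) (nat_lit 12) (nat_lit 5) (nat_lit 15) (nat_lit 5) (nat_lit 13) (nat_lit 4) (nat_lit 386) (nat_lit 274) (nat_lit 240)) (XT.nd (nat_lit 43992) (nat_lit 0) (nat_lit 9500) (XT.lf (nat_lit 0) (nat_lit 9454627814) (nat_lit 228) (nat_lit 1122942272) (nat_lit 76) (nat_lit 7900531073) (nat_lit 12) (nat_lit 5) (nat_lit 15) (nat_lit 5) (nat_lit 13) (nat_lit 4) (nat_lit 387) (nat_lit 274) (nat_lit 239)) (XT.lf (nat_lit 0) (nat_lit 3143180410)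 (nat_lit 456) (nat_lit 787937861) (nat_lit 456) (nat_lit 787937861) (nat_lit 137) (nat_lit 4) (nat_lit 143) (nat_lit 5) (nat_lit 143) (nat_lit 4) (nat_lit 350) (nat_lit 275) (nat_lit 275)))))) (XT.nd (nat_lit 390) (nat_lit 1672) (nat_lit 0) (XT.nd (nat_lit 156) (nat_lit 1520) (nat_lit 0) (XT.nd (nat_lit 78) (nat_lit 456) (nat_lit 0) (XT.lf (nat_lit 0) (nat_lit 4414034302) (nat_lit 456) (nat_lit 2035365129) (nat_lit 0) (nat_lit 3122126909) (nat_lit 131) (nat_lit 5) (nat_lit 137) (nat_lit 4) (nat_lit 131) (nat_lit 4) (nat_lit 351) (nat_lit 275) (nat_lit 274)) (XT.lf (nat_lit 0) (nat_lit 788363925) (nat_lit 456) (nat_lit 953691287) (nat_lit 76) (nat_lit 7967704251) (nat_lit 125) (nat_lit 5) (nat_lit 131) (nat_lit 5) (nat_lit 126) (nat_lit 4) (nat_lit 352) (nat_lit 275) (nat_lit 273))) (XT.nd (nat_lit 78) (nat_lit 760) (nat_lit 0) (XT.lf (nat_lit 0) (nat_lit 60343120) (nat_lit 380) (nat_lit 6741061413)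 (nat_lit 380) (nat_lit 3050930981) (nat_lit 115) (nat_lit 4) (nat_lit 120) (nat_lit 5) (nat_lit 120) (nat_lit 4) (nat_lit 353) (nat_lit 275) (nat_lit 272)) (XT.nd (nat_lit 78) (nat_lit 380) (nat_lit 0) (XT.lf (nat_lit 0) (nat_lit 1035659169) (nat_lit 304) (nat_lit 1877650707) (nat_lit 380) (nat_lit 7086403632) (nat_lit 110) (nat_lit 5) (nat_lit 114) (nat_lit 5) (nat_lit 115) (nat_lit 4) (nat_lit 354) (nat_lit 275) (nat_lit 271)) (XT.lf (nat_lit 0) (nat_lit 1943611224) (nat_lit 380) (nat_lit 7032867574) (nat_lit 380) (nat_lit 1175452827) (nat_lit 105) (nat_lit 4) (nat_lit 110) (nat_lit 5) (nat_lit 110) (nat_lit 4) (nat_lit 355) (nat_lit 275) (nat_lit 270))))) (XT.nd (nat_lit 156) (nat_lit 912) (nat_lit 0) (XT.nd (nat_lit 78) (nat_lit 380) (nat_lit 0) (XT.lf (nat_lit 0) (nat_lit 2774124314) (nat_lit 304) (nat_lit 2029180538) (nat_lit 380) (nat_lit 5505723943) (nat_lit 100) (nat_lit 5) (nat_lit 104)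 (nat_lit 5) (nat_lit 105) (nat_lit 4) (nat_lit 356) (nat_lit 275) (nat_lit 269)) (XT.lf (nat_lit 0) (nat_lit 432951453) (nat_lit 380) (nat_lit 6937683233) (nat_lit 76) (nat_lit 3100745355) (nat_lit 95) (nat_lit 5) (nat_lit 100) (nat_lit 5) (nat_lit 96) (nat_lit 4) (nat_lit 357) (nat_lit 275) (nat_lit 268))) (XT.nd (nat_lit 78) (nat_lit 608) (nat_lit 0) (XT.lf (nat_lit 0) (nat_lit 4195872896) (nat_lit 304) (nat_lit 2238765785) (nat_lit 380) (nat_lit 4204087214) (nat_lit 91) (nat_lit 5) (nat_lit 95) (nat_lit 5) (nat_lit 96) (nat_lit 4) (nat_lit 358) (nat_lit 275) (nat_lit 267)) (XT.nd (nat_lit 78) (nat_lit 228) (nat_lit 0) (XT.lf (nat_lit 0) (nat_lit 1748589491) (nat_lit 380) (nat_lit 6039534193) (nat_lit 76) (nat_lit 3023437196) (nat_lit 86) (nat_lit 5) (nat_lit 91) (nat_lit 5) (nat_lit 87) (nat_lit 4) (nat_lit 359) (nat_lit 275) (nat_lit 266)) (XT.lf (nat_lit 0) (nat_lit 5242687184) (nat_lit 228)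 (nat_lit 2543999918) (nat_lit 304) (nat_lit 3203100449) (nat_lit 83) (nat_lit 5) (nat_lit 86) (nat_lit 5) (nat_lit 87) (nat_lit 4) (nat_lit 360) (nat_lit 275) (nat_lit 265))))))) (XT.nd (nat_lit 780) (nat_lit 1748) (nat_lit 0) (XT.nd (nat_lit 390) (nat_lit 1216) (nat_lit 0) (XT.nd (nat_lit 156) (nat_lit 912) (nat_lit 0) (XT.nd (nat_lit 78) (nat_lit 228) (nat_lit 0) (XT.lf (nat_lit 0) (nat_lit 2764074699) (nat_lit 380) (nat_lit 5568053194) (nat_lit 76) (nat_lit 2841531721) (nat_lit 78) (nat_lit 5) (nat_lit 83) (nat_lit 5) (nat_lit 79) (nat_lit 4) (nat_lit 361) (nat_lit 275) (nat_lit 264)) (XT.lf (nat_lit 0) (nat_lit 5850651164) (nat_lit 228) (nat_lit 2984722634) (nat_lit 304) (nat_lit 2527916479) (nat_lit 75) (nat_lit 5) (nat_lit 78) (nat_lit 5) (nat_lit 79) (nat_lit 4) (nat_lit 362) (nat_lit 275) (nat_lit 263))) (XT.nd (nat_lit 78) (nat_lit 532) (nat_lit 0) (XT.lf (nat_lit 0) (nat_lit 3452975541)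 (nat_lit 380) (nat_lit 5591168588) (nat_lit 76) (nat_lit 2514662431) (nat_lit 70) (nat_lit 5) (nat_lit 75) (nat_lit 5) (nat_lit 71) (nat_lit 4) (nat_lit 363) (nat_lit 275) (nat_lit 262)) (XT.nd (nat_lit 78) (nat_lit 304) (nat_lit 0) (XT.lf (nat_lit 0) (nat_lit 5949452395) (nat_lit 228) (nat_lit 3603420452) (nat_lit 304) (nat_lit 2207538331) (nat_lit 67) (nat_lit 5) (nat_lit 70) (nat_lit 5) (nat_lit 71) (nat_lit 4) (nat_lit 364) (nat_lit 275) (nat_lit 261)) (XT.lf (nat_lit 0) (nat_lit 3784913383) (nat_lit 304) (nat_lit 6183661006) (nat_lit 76) (nat_lit 1999662383) (nat_lit 63) (nat_lit 5) (nat_lit 67) (nat_lit 5) (nat_lit 64) (nat_lit 4) (nat_lit 365) (nat_lit 275) (nat_lit 260))))) (XT.nd (nat_lit 156) (nat_lit 684) (nat_lit 0) (XT.nd (nat_lit 78) (nat_lit 304) (nat_lit 0) (XT.lf (nat_lit 0) (nat_lit 5461616672) (nat_lit 228) (nat_lit 4445657594) (nat_lit 304) (nat_lit 2275161288) (nat_lit 60) (nat_lit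 5) (nat_lit 63) (nat_lit 5) (nat_lit 64) (nat_lit 4) (nat_lit 366) (nat_lit 275) (nat_lit 259)) (XT.lf (nat_lit 0) (nat_lit 3725205213) (nat_lit 304) (nat_lit 7427970458) (nat_lit 76) (nat_lit 1250122447) (nat_lit 56) (nat_lit 5) (nat_lit 60) (nat_lit 5) (nat_lit 57) (nat_lit 4) (nat_lit 367) (nat_lit 275) (nat_lit 258))) (XT.nd (nat_lit 78) (nat_lit 456) (nat_lit 0) (XT.lf (nat_lit 0) (nat_lit 4301667989) (nat_lit 228) (nat_lit 5560541208) (nat_lit 304) (nat_lit 2768556162) (nat_lit 53) (nat_lit 5) (nat_lit 56) (nat_lit 5) (nat_lit 57) (nat_lit 4) (nat_lit 368) (nat_lit 275) (nat_lit 257)) (XT.nd (nat_lit 78) (nat_lit 152) (nat_lit 0) (XT.lf (nat_lit 0) (nat_lit 3234463879) (nat_lit 304) (nat_lit 9415082778) (nat_lit 76) (nat_lit 215913588) (nat_lit 49) (nat_lit 5) (nat_lit 53) (nat_lit 5) (nat_lit 50) (nat_lit 4) (nat_lit 369) (nat_lit 275) (nat_lit 256)) (XT.lf (nat_lit 0) (nat_lit 2375205576)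 (nat_lit 152) (nat_lit 7001225348) (nat_lit 228) (nat_lit 3730497662) (nat_lit 47) (nat_lit 5) (nat_lit 49) (nat_lit 5) (nat_lit 50) (nat_lit 4) (nat_lit 370) (nat_lit 275) (nat_lit 255)))))) (XT.nd (nat_lit 390) (nat_lit 836) (nat_lit 0) (XT.nd (nat_lit 156) (nat_lit 608) (nat_lit 0) (XT.nd (nat_lit 78) (nat_lit 0) (nat_lit 0) (XT.lf (nat_lit 0) (nat_lit 1103054126) (nat_lit 228) (nat_lit 1172711667) (nat_lit 304) (nat_lit 11080406455) (nat_lit 43) (nat_lit 5) (nat_lit 46) (nat_lit 5) (nat_lit 47) (nat_lit 5) (nat_lit 371) (nat_lit 275) (nat_lit 254)) (XT.lf (nat_lit 0) (nat_lit 8406088100) (nat_lit 304) (nat_lit 416574983) (nat_lit 76) (nat_lit 4789871777) (nat_lit 43) (nat_lit 5) (nat_lit 47) (nat_lit 5) (nat_lit 44) (nat_lit 4) (nat_lit 372) (nat_lit 275) (nat_lit 253))) (XT.nd (nat_lit 78) (nat_lit 380) (nat_lit 0) (XT.lf (nat_lit 0) (nat_lit 809456099) (nat_lit 228) (nat_lit 2143860732) (nat_lit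 76) (nat_lit 10923650798) (nat_lit 40) (nat_lit 5) (nat_lit 43) (nat_lit 5) (nat_lit 41) (nat_lit 5) (nat_lit 373) (nat_lit 275) (nat_lit 252)) (XT.nd (nat_lit 78) (nat_lit 152) (nat_lit 0) (XT.lf (nat_lit 0) (nat_lit 6917807135) (nat_lit 304) (nat_lit 4150520732) (nat_lit 76) (nat_lit 3080687022) (nat_lit 37) (nat_lit 5) (nat_lit 41) (nat_lit 5) (nat_lit 38) (nat_lit 4) (nat_lit 374) (nat_lit 275) (nat_lit 251)) (XT.lf (nat_lit 0) (nat_lit 8010965491) (nat_lit 152) (nat_lit 5180416787) (nat_lit 228) (nat_lit 1238225043) (nat_lit 35) (nat_lit 5) (nat_lit 37) (nat_lit 5) (nat_lit 38) (nat_lit 4) (nat_lit 375) (nat_lit 275) (nat_lit 250))))) (XT.nd (nat_lit 156) (nat_lit 380) (nat_lit 0) (XT.nd (nat_lit 78) (nat_lit 152) (nat_lit 0) (XT.lf (nat_lit 0) (nat_lit 4838093158) (nat_lit 304) (nat_lit 8983791854) (nat_lit 76) (nat_lit 896748586) (nat_lit 31) (nat_lit 5) (nat_lit 35) (nat_lit 5) (nat_lit 32)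 (nat_lit 4) (nat_lit 376) (nat_lit 275) (nat_lit 249)) (XT.lf (nat_lit 0) (nat_lit 3146443756) (nat_lit 152) (nat_lit 7930551856) (nat_lit 228) (nat_lit 3939250476) (nat_lit 29) (nat_lit 5) (nat_lit 31) (nat_lit 5) (nat_lit 32) (nat_lit 4) (nat_lit 377) (nat_lit 275) (nat_lit 248))) (XT.nd (nat_lit 78) (nat_lit 152) (nat_lit 0) (XT.lf (nat_lit 0) (nat_lit 255352280) (nat_lit 152) (nat_lit 1858588424) (nat_lit 228) (nat_lit 13209338418) (nat_lit 26) (nat_lit 5) (nat_lit 28) (nat_lit 5) (nat_lit 29) (nat_lit 5) (nat_lit 378) (nat_lit 275) (nat_lit 247)) (XT.nd (nat_lit 78) (nat_lit 152) (nat_lit 0) (XT.lf (nat_lit 0) (nat_lit 8305671180) (nat_lit 228) (nat_lit 2960690994) (nat_lit 76) (nat_lit 4372450788) (nat_lit 26) (nat_lit 5) (nat_lit 29) (nat_lit 5) (nat_lit 27) (nat_lit 4) (nat_lit 379) (nat_lit 275) (nat_lit 246)) (XT.lf (nat_lit 0) (nat_lit 9452272956) (nat_lit 152) (nat_lit 5208226396) (nat_lit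 228) (nat_lit 1303785809) (nat_lit 24) (nat_lit 5) (nat_lit 26) (nat_lit 5) (nat_lit 27) (nat_lit 4) (nat_lit 380) (nat_lit 275) (nat_lit 245))))))))
noncomputable def xc10 : XT := (XT.nd (nat_lit 45240) (nat_lit 0) (nat_lit 1216) (XT.nd (nat_lit 44460) (nat_lit 0) (nat_lit 5624) (XT.nd (nat_lit 312) (nat_lit 304) (nat_lit 0) (XT.nd (nat_lit 156) (nat_lit 228) (nat_lit 0) (XT.nd (nat_lit 78) (nat_lit 152) (nat_lit 0) (XT.lf (nat_lit 0) (nat_lit 4811776139) (nat_lit 228) (nat_lit 10450193888) (nat_lit 76) (nat_lit 1037539224) (nat_lit 21) (nat_lit 5) (nat_lit 24) (nat_lit 5) (nat_lit 22) (nat_lit 4) (nat_lit 381) (nat_lit 275) (nat_lit 244)) (XT.lf (nat_lit 0) (nat_lit 1840731596) (nat_lit 152) (nat_lit 9249536937) (nat_lit 228) (nat_lit 5554423428) (nat_lit 19) (nat_lit 5) (nat_lit 21) (nat_lit 5) (nat_lit 22) (nat_lit 4) (nat_lit 382) (nat_lit 275) (nat_lit 243))) (XT.nd (nat_lit 78) (nat_lit 152)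 (nat_lit 0) (XT.lf (nat_lit 0) (nat_lit 527790100) (nat_lit 228) (nat_lit 2524307571) (nat_lit 76) (nat_lit 13948512944) (nat_lit 18) (nat_lit 5) (nat_lit 21) (nat_lit 5) (nat_lit 19) (nat_lit 5) (nat_lit 383) (nat_lit 275) (nat_lit 242)) (XT.lf (nat_lit 0) (nat_lit 6714234865) (nat_lit 228) (nat_lit 7330364549) (nat_lit 76) (nat_lit 3321945011) (nat_lit 16) (nat_lit 5) (nat_lit 19) (nat_lit 5) (nat_lit 17) (nat_lit 4) (nat_lit 384) (nat_lit 275) (nat_lit 241)))) (XT.nd (nat_lit 156) (nat_lit 152) (nat_lit 0) (XT.nd (nat_lit 78) (nat_lit 76) (nat_lit 0) (XT.lf (nat_lit 0) (nat_lit 5153196628) (nat_lit 76) (nat_lit 7914963957) (nat_lit 152) (nat_lit 4675673880) (nat_lit 15) (nat_lit 5) (nat_lit 16) (nat_lit 5) (nat_lit 17) (nat_lit 4) (nat_lit 385) (nat_lit 275) (nat_lit 240)) (XT.lf (nat_lit 0) (nat_lit 1422637235) (nat_lit 152) (nat_lit 187182484) (nat_lit 76) (nat_lit 16523210665) (nat_lit 14) (nat_lit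 5) (nat_lit 16) (nat_lit 5) (nat_lit 15) (nat_lit 5) (nat_lit 386) (nat_lit 275) (nat_lit 239))) (XT.nd (nat_lit 43836) (nat_lit 0) (nat_lit 9956) (XT.lf (nat_lit 0) (nat_lit 7668725301) (nat_lit 228) (nat_lit 5996254559) (nat_lit 76) (nat_lit 4867751915) (nat_lit 12) (nat_lit 5) (nat_lit 15) (nat_lit 5) (nat_lit 13) (nat_lit 4) (nat_lit 387) (nat_lit 275) (nat_lit 238)) (XT.nd (nat_lit 78) (nat_lit 456) (nat_lit 0) (XT.lf (nat_lit 0) (nat_lit 1880904055) (nat_lit 456) (nat_lit 1355247557) (nat_lit 456) (nat_lit 1355247557) (nat_lit 149) (nat_lit 4) (nat_lit 155) (nat_lit 5) (nat_lit 155) (nat_lit 4) (nat_lit 348) (nat_lit 276) (nat_lit 276)) (XT.lf (nat_lit 0) (nat_lit 3172790162) (nat_lit 456) (nat_lit 4320661722) (nat_lit 0) (nat_lit 1815512255) (nat_lit 143) (nat_lit 5) (nat_lit 149) (nat_lit 4) (nat_lit 143) (nat_lit 4) (nat_lit 349) (nat_lit 276) (nat_lit 275)))))) (XT.nd (nat_lit 390) (nat_lit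 1824) (nat_lit 0) (XT.nd (nat_lit 156) (nat_lit 1596) (nat_lit 0) (XT.nd (nat_lit 78) (nat_lit 456) (nat_lit 0) (XT.lf (nat_lit 0) (nat_lit 6182585137) (nat_lit 456) (nat_lit 2965999630) (nat_lit 456) (nat_lit 290976181) (nat_lit 137) (nat_lit 4) (nat_lit 143) (nat_lit 5) (nat_lit 143) (nat_lit 4) (nat_lit 350) (nat_lit 276) (nat_lit 274)) (XT.lf (nat_lit 0) (nat_lit 5602127449) (nat_lit 456) (nat_lit 2247032041) (nat_lit 0) (nat_lit 1725276417) (nat_lit 131) (nat_lit 5) (nat_lit 137) (nat_lit 4) (nat_lit 131) (nat_lit 4) (nat_lit 351) (nat_lit 276) (nat_lit 273))) (XT.nd (nat_lit 78) (nat_lit 1140) (nat_lit 0) (XT.lf (nat_lit 0) (nat_lit 1887265769) (nat_lit 456) (nat_lit 1282320801) (nat_lit 76) (nat_lit 6544370575) (nat_lit 125) (nat_lit 5) (nat_lit 131) (nat_lit 5) (nat_lit 126) (nat_lit 4) (nat_lit 352) (nat_lit 276) (nat_lit 272)) (XT.nd (nat_lit 78) (nat_lit 760) (nat_lit 0) (XT.lf (nat_lit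 0) (nat_lit 7820272023) (nat_lit 456) (nat_lit 371416237) (nat_lit 0) (nat_lit 1666472090) (nat_lit 120) (nat_lit 5) (nat_lit 126) (nat_lit 4) (nat_lit 120) (nat_lit 4) (nat_lit 353) (nat_lit 276) (nat_lit 271)) (XT.lf (nat_lit 0) (nat_lit 476939504) (nat_lit 304) (nat_lit 3362701930) (nat_lit 380) (nat_lit 6167259050) (nat_lit 110) (nat_lit 5) (nat_lit 114) (nat_lit 5) (nat_lit 115) (nat_lit 4) (nat_lit 354) (nat_lit 276) (nat_lit 270))))) (XT.nd (nat_lit 156) (nat_lit 1064) (nat_lit 0) (XT.nd (nat_lit 78) (nat_lit 380) (nat_lit 0) (XT.lf (nat_lit 0) (nat_lit 1276878905) (nat_lit 380) (nat_lit 8545706712) (nat_lit 380) (nat_lit 338161937) (nat_lit 105) (nat_lit 4) (nat_lit 110) (nat_lit 5) (nat_lit 110) (nat_lit 4) (nat_lit 355) (nat_lit 276) (nat_lit 269)) (XT.lf (nat_lit 0) (nat_lit 1981782371) (nat_lit 304) (nat_lit 3577260069) (nat_lit 380) (nat_lit 4760128280) (nat_lit 100) (nat_lit 5) (nat_lit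 104) (nat_lit 5) (nat_lit 105) (nat_lit 4) (nat_lit 356) (nat_lit 276) (nat_lit 268))) (XT.nd (nat_lit 78) (nat_lit 684) (nat_lit 0) (XT.lf (nat_lit 0) (nat_lit 1087893974) (nat_lit 380) (nat_lit 7858466397) (nat_lit 76) (nat_lit 1536704426) (nat_lit 95) (nat_lit 5) (nat_lit 100) (nat_lit 5) (nat_lit 96) (nat_lit 4) (nat_lit 357) (nat_lit 276) (nat_lit 267)) (XT.nd (nat_lit 78) (nat_lit 380) (nat_lit 0) (XT.lf (nat_lit 0) (nat_lit 3161885683) (nat_lit 304) (nat_lit 3857381315) (nat_lit 380) (nat_lit 3632571449) (nat_lit 91) (nat_lit 5) (nat_lit 95) (nat_lit 5) (nat_lit 96) (nat_lit 4) (nat_lit 358) (nat_lit 276) (nat_lit 266)) (XT.lf (nat_lit 0) (nat_lit 2231458540) (nat_lit 380) (nat_lit 7208202930) (nat_lit 76) (nat_lit 1386581251) (nat_lit 86) (nat_lit 5) (nat_lit 91) (nat_lit 5) (nat_lit 87) (nat_lit 4) (nat_lit 359) (nat_lit 276) (nat_lit 265))))))) (XT.nd (nat_lit 702) (nat_lit 1900) (nat_lit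 0) (XT.nd (nat_lit 312) (nat_lit 1292) (nat_lit 0) (XT.nd (nat_lit 156) (nat_lit 608) (nat_lit 0) (XT.nd (nat_lit 78) (nat_lit 380) (nat_lit 0) (XT.lf (nat_lit 0) (nat_lit 3958882747) (nat_lit 228) (nat_lit 4240486031) (nat_lit 304) (nat_lit 2806524239) (nat_lit 83) (nat_lit 5) (nat_lit 86) (nat_lit 5) (nat_lit 87) (nat_lit 4) (nat_lit 360) (nat_lit 276) (nat_lit 264)) (XT.lf (nat_lit 0) (nat_lit 3073844566) (nat_lit 380) (nat_lit 6992861824) (nat_lit 76) (nat_lit 1124658220) (nat_lit 78) (nat_lit 5) (nat_lit 83) (nat_lit 5) (nat_lit 79) (nat_lit 4) (nat_lit 361) (nat_lit 276) (nat_lit 263))) (XT.nd (nat_lit 78) (nat_lit 380) (nat_lit 0) (XT.lf (nat_lit 0) (nat_lit 4308683807) (nat_lit 228) (nat_lit 4766271891) (nat_lit 304) (nat_lit 2307461706) (nat_lit 75) (nat_lit 5) (nat_lit 78) (nat_lit 5) (nat_lit 79) (nat_lit 4) (nat_lit 362) (nat_lit 276) (nat_lit 262)) (XT.lf (nat_lit 0) (nat_lit 3588306791)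 (nat_lit 380) (nat_lit 7280563136) (nat_lit 76) (nat_lit 710697264) (nat_lit 70) (nat_lit 5) (nat_lit 75) (nat_lit 5) (nat_lit 71) (nat_lit 4) (nat_lit 363) (nat_lit 276) (nat_lit 261)))) (XT.nd (nat_lit 156) (nat_lit 760) (nat_lit 0) (XT.nd (nat_lit 78) (nat_lit 304) (nat_lit 0) (XT.lf (nat_lit 0) (nat_lit 4140778429) (nat_lit 228) (nat_lit 5477112802) (nat_lit 304) (nat_lit 2164703813) (nat_lit 67) (nat_lit 5) (nat_lit 70) (nat_lit 5) (nat_lit 71) (nat_lit 4) (nat_lit 364) (nat_lit 276) (nat_lit 260)) (XT.lf (nat_lit 0) (nat_lit 3744157394) (nat_lit 304) (nat_lit 8146303033) (nat_lit 76) (nat_lit 101631383) (nat_lit 63) (nat_lit 5) (nat_lit 67) (nat_lit 5) (nat_lit 64) (nat_lit 4) (nat_lit 365) (nat_lit 276) (nat_lit 259))) (XT.nd (nat_lit 78) (nat_lit 532) (nat_lit 0) (XT.lf (nat_lit 0) (nat_lit 3377470595) (nat_lit 228) (nat_lit 6418488271) (nat_lit 304) (nat_lit 2411758603) (nat_lit 60) (nat_lit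 5) (nat_lit 63) (nat_lit 5) (nat_lit 64) (nat_lit 4) (nat_lit 366) (nat_lit 276) (nat_lit 258)) (XT.nd (nat_lit 78) (nat_lit 228) (nat_lit 0) (XT.lf (nat_lit 0) (nat_lit 2752506660) (nat_lit 228) (nat_lit 758827824) (nat_lit 304) (nat_lit 8918859520) (nat_lit 56) (nat_lit 5) (nat_lit 59) (nat_lit 5) (nat_lit 60) (nat_lit 5) (nat_lit 367) (nat_lit 276) (nat_lit 257)) (XT.lf (nat_lit 0) (nat_lit 1933039007) (nat_lit 228) (nat_lit 7639447258) (nat_lit 304) (nat_lit 3086706522) (nat_lit 53) (nat_lit 5) (nat_lit 56) (nat_lit 5) (nat_lit 57) (nat_lit 4) (nat_lit 368) (nat_lit 276) (nat_lit 256)))))) (XT.nd (nat_lit 390) (nat_lit 912) (nat_lit 0) (XT.nd (nat_lit 156) (nat_lit 684) (nat_lit 0) (XT.nd (nat_lit 78) (nat_lit 0) (nat_lit 0) (XT.lf (nat_lit 0) (nat_lit 931772524) (nat_lit 228) (nat_lit 1916034896) (nat_lit 304) (nat_lit 10047588940) (nat_lit 49) (nat_lit 5) (nat_lit 52) (nat_lit 5) (nat_lit 53)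 (nat_lit 5) (nat_lit 369) (nat_lit 276) (nat_lit 255)) (XT.lf (nat_lit 0) (nat_lit 8907789893) (nat_lit 304) (nat_lit 283419133) (nat_lit 76) (nat_lit 3947308765) (nat_lit 49) (nat_lit 5) (nat_lit 53) (nat_lit 5) (nat_lit 50) (nat_lit 4) (nat_lit 370) (nat_lit 276) (nat_lit 254))) (XT.nd (nat_lit 78) (nat_lit 456) (nat_lit 0) (XT.lf (nat_lit 0) (nat_lit 1719562544) (nat_lit 228) (nat_lit 1692783982) (nat_lit 76) (nat_lit 9976743308) (nat_lit 46) (nat_lit 5) (nat_lit 49) (nat_lit 5) (nat_lit 47) (nat_lit 5) (nat_lit 371) (nat_lit 276) (nat_lit 253)) (XT.nd (nat_lit 78) (nat_lit 228) (nat_lit 0) (XT.lf (nat_lit 0) (nat_lit 7771379759) (nat_lit 304) (nat_lit 3343403283) (nat_lit 76) (nat_lit 2532251887) (nat_lit 43) (nat_lit 5) (nat_lit 47) (nat_lit 5) (nat_lit 44) (nat_lit 4) (nat_lit 372) (nat_lit 276) (nat_lit 252)) (XT.lf (nat_lit 0) (nat_lit 77495097) (nat_lit 228) (nat_lit 5229211514) (nat_lit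 76) (nat_lit 8606290360) (nat_lit 40) (nat_lit 5) (nat_lit 43) (nat_lit 5) (nat_lit 41) (nat_lit 5) (nat_lit 373) (nat_lit 276) (nat_lit 251))))) (XT.nd (nat_lit 156) (nat_lit 532) (nat_lit 0) (XT.nd (nat_lit 78) (nat_lit 152) (nat_lit 0) (XT.lf (nat_lit 0) (nat_lit 6098698727) (nat_lit 304) (nat_lit 7386459650) (nat_lit 76) (nat_lit 701640243) (nat_lit 37) (nat_lit 5) (nat_lit 41) (nat_lit 5) (nat_lit 38) (nat_lit 4) (nat_lit 374) (nat_lit 276) (nat_lit 250)) (XT.lf (nat_lit 0) (nat_lit 4644895165) (nat_lit 152) (nat_lit 7655587194) (nat_lit 228) (nat_lit 2168355632) (nat_lit 35) (nat_lit 5) (nat_lit 37) (nat_lit 5) (nat_lit 38) (nat_lit 4) (nat_lit 375) (nat_lit 276) (nat_lit 249))) (XT.nd (nat_lit 78) (nat_lit 228) (nat_lit 0) (XT.lf (nat_lit 0) (nat_lit 2210033592) (nat_lit 228) (nat_lit 1631936833) (nat_lit 304) (nat_lit 10917589017) (nat_lit 31) (nat_lit 5) (nat_lit 34) (nat_lit 5) (nat_lit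 35) (nat_lit 5) (nat_lit 376) (nat_lit 276) (nat_lit 248)) (XT.nd (nat_lit 78) (nat_lit 228) (nat_lit 0) (XT.lf (nat_lit 0) (nat_lit 10001145084) (nat_lit 304) (nat_lit 534583935) (nat_lit 76) (nat_lit 4523047734) (nat_lit 31) (nat_lit 5) (nat_lit 35) (nat_lit 5) (nat_lit 32) (nat_lit 4) (nat_lit 377) (nat_lit 276) (nat_lit 247)) (XT.lf (nat_lit 0) (nat_lit 956877164) (nat_lit 228) (nat_lit 3555345093) (nat_lit 76) (nat_lit 10854809528) (nat_lit 28) (nat_lit 5) (nat_lit 31) (nat_lit 5) (nat_lit 29) (nat_lit 5) (nat_lit 378) (nat_lit 276) (nat_lit 246))))))))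
noncomputable def xc11 : XT := (XT.nd (nat_lit 45084) (nat_lit 0) (nat_lit 1748) (XT.nd (nat_lit 44304) (nat_lit 0) (nat_lit 6992) (XT.nd (nat_lit 312) (nat_lit 684) (nat_lit 0) (XT.nd (nat_lit 156) (nat_lit 228) (nat_lit 0) (XT.nd (nat_lit 78) (nat_lit 152) (nat_lit 0) (XT.lf (nat_lit 0) (nat_lit 7060318946) (nat_lit 228) (nat_lit 6928738490) (nat_lit 76) (nat_lit 1695283451) (nat_lit 26) (nat_lit 5) (nat_lit 29) (nat_lit 5) (nat_lit 27) (nat_lit 4) (nat_lit 379) (nat_lit 276) (nat_lit 245)) (XT.lf (nat_lit 0) (nat_lit 5349578034) (nat_lit 152) (nat_lit 7992801364) (nat_lit 228) (nat_lit 2668898252) (nat_lit 24) (nat_lit 5) (nat_lit 26) (nat_lit 5) (nat_lit 27) (nat_lit 4) (nat_lit 380) (nat_lit 276) (nat_lit 244))) (XT.nd (nat_lit 78) (nat_lit 0) (nat_lit 0) (XT.lf (nat_lit 0) (nat_lit 1579215929) (nat_lit 152) (nat_lit 1805144126) (nat_lit 228) (nat_lit 12963931863) (nat_lit 21) (nat_lit 5) (nat_lit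 23) (nat_lit 5) (nat_lit 24) (nat_lit 5) (nat_lit 381) (nat_lit 276) (nat_lit 243)) (XT.lf (nat_lit 0) (nat_lit 9594164650) (nat_lit 228) (nat_lit 2570098204) (nat_lit 76) (nat_lit 4530594042) (nat_lit 21) (nat_lit 5) (nat_lit 24) (nat_lit 5) (nat_lit 22) (nat_lit 4) (nat_lit 382) (nat_lit 276) (nat_lit 242)))) (XT.nd (nat_lit 156) (nat_lit 304) (nat_lit 0) (XT.nd (nat_lit 78) (nat_lit 228) (nat_lit 0) (XT.lf (nat_lit 0) (nat_lit 9956623595) (nat_lit 152) (nat_lit 6021635034) (nat_lit 228) (nat_lit 1073817064) (nat_lit 19) (nat_lit 5) (nat_lit 21) (nat_lit 5) (nat_lit 22) (nat_lit 4) (nat_lit 383) (nat_lit 276) (nat_lit 241)) (XT.lf (nat_lit 0) (nat_lit 5033217492) (nat_lit 228) (nat_lit 12066091830) (nat_lit 76) (nat_lit 320717356) (nat_lit 16) (nat_lit 5) (nat_lit 19) (nat_lit 5) (nat_lit 17) (nat_lit 4) (nat_lit 384) (nat_lit 276) (nat_lit 240))) (XT.nd (nat_lit 78) (nat_lit 228) (nat_lit 0) (XT.lf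 (nat_lit 0) (nat_lit 277583638) (nat_lit 76) (nat_lit 11035242866) (nat_lit 152) (nat_lit 6485984185) (nat_lit 15) (nat_lit 5) (nat_lit 16) (nat_lit 5) (nat_lit 17) (nat_lit 4) (nat_lit 385) (nat_lit 276) (nat_lit 239)) (XT.nd (nat_lit 78) (nat_lit 228) (nat_lit 0) (XT.lf (nat_lit 0) (nat_lit 13005072442) (nat_lit 76) (nat_lit 4772450882) (nat_lit 152) (nat_lit 411515956) (nat_lit 15) (nat_lit 5) (nat_lit 16) (nat_lit 5) (nat_lit 17) (nat_lit 4) (nat_lit 386) (nat_lit 276) (nat_lit 238)) (XT.lf (nat_lit 0) (nat_lit 5744691909) (nat_lit 228) (nat_lit 11167366341) (nat_lit 76) (nat_lit 1678648461) (nat_lit 12) (nat_lit 5) (nat_lit 15) (nat_lit 5) (nat_lit 13) (nat_lit 4) (nat_lit 387) (nat_lit 276) (nat_lit 237)))))) (XT.nd (nat_lit 390) (nat_lit 2432) (nat_lit 0) (XT.nd (nat_lit 156) (nat_lit 1444) (nat_lit 0) (XT.nd (nat_lit 78) (nat_lit 532) (nat_lit 0) (XT.lf (nat_lit 0) (nat_lit 661051247) (nat_lit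 456) (nat_lit 1904924362) (nat_lit 456) (nat_lit 1904924362) (nat_lit 162) (nat_lit 4) (nat_lit 168) (nat_lit 5) (nat_lit 168) (nat_lit 4) (nat_lit 346) (nat_lit 277) (nat_lit 277)) (XT.lf (nat_lit 0) (nat_lit 1968536387) (nat_lit 532) (nat_lit 6549926907) (nat_lit 0) (nat_lit 542580218) (nat_lit 155) (nat_lit 5) (nat_lit 162) (nat_lit 4) (nat_lit 155) (nat_lit 4) (nat_lit 347) (nat_lit 277) (nat_lit 276))) (XT.nd (nat_lit 78) (nat_lit 988) (nat_lit 0) (XT.lf (nat_lit 0) (nat_lit 3659934715) (nat_lit 456) (nat_lit 4167347211) (nat_lit 456) (nat_lit 1356967575) (nat_lit 149) (nat_lit 4) (nat_lit 155) (nat_lit 5) (nat_lit 155) (nat_lit 4) (nat_lit 348) (nat_lit 277) (nat_lit 275)) (XT.nd (nat_lit 78) (nat_lit 532) (nat_lit 0) (XT.lf (nat_lit 0) (nat_lit 4428166924) (nat_lit 456) (nat_lit 4528563454) (nat_lit 0) (nat_lit 355147230) (nat_lit 143) (nat_lit 5) (nat_lit 149) (nat_lit 4) (nat_lit 143) (nat_lit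 4) (nat_lit 349) (nat_lit 277) (nat_lit 274)) (XT.lf (nat_lit 0) (nat_lit 878151552) (nat_lit 532) (nat_lit 3578518162) (nat_lit 76) (nat_lit 4987122999) (nat_lit 136) (nat_lit 5) (nat_lit 143) (nat_lit 5) (nat_lit 137) (nat_lit 4) (nat_lit 350) (nat_lit 277) (nat_lit 273))))) (XT.nd (nat_lit 156) (nat_lit 1596) (nat_lit 0) (XT.nd (nat_lit 78) (nat_lit 456) (nat_lit 0) (XT.lf (nat_lit 0) (nat_lit 6687444488) (nat_lit 456) (nat_lit 2670550817) (nat_lit 0) (nat_lit 222262278) (nat_lit 131) (nat_lit 5) (nat_lit 137) (nat_lit 4) (nat_lit 131) (nat_lit 4) (nat_lit 351) (nat_lit 277) (nat_lit 272)) (XT.lf (nat_lit 0) (nat_lit 2882482022) (nat_lit 456) (nat_lit 1824846800) (nat_lit 76) (nat_lit 5013738715) (nat_lit 125) (nat_lit 5) (nat_lit 131) (nat_lit 5) (nat_lit 126) (nat_lit 4) (nat_lit 352) (nat_lit 277) (nat_lit 271))) (XT.nd (nat_lit 78) (nat_lit 1216) (nat_lit 0) (XT.lf (nat_lit 0) (nat_lit 8735699955)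 (nat_lit 456) (nat_lit 1018338834) (nat_lit 0) (nat_lit 112853413) (nat_lit 120) (nat_lit 5) (nat_lit 126) (nat_lit 4) (nat_lit 120) (nat_lit 4) (nat_lit 353) (nat_lit 277) (nat_lit 270)) (XT.nd (nat_lit 78) (nat_lit 760) (nat_lit 0) (XT.lf (nat_lit 0) (nat_lit 4661688887) (nat_lit 456) (nat_lit 298794465) (nat_lit 76) (nat_lit 5056510848) (nat_lit 114) (nat_lit 5) (nat_lit 120) (nat_lit 5) (nat_lit 115) (nat_lit 4) (nat_lit 354) (nat_lit 277) (nat_lit 269)) (XT.lf (nat_lit 0) (nat_lit 384415020) (nat_lit 380) (nat_lit 139790) (nat_lit 456) (nat_lit 9787908678) (nat_lit 104) (nat_lit 5) (nat_lit 109) (nat_lit 5) (nat_lit 110) (nat_lit 5) (nat_lit 355) (nat_lit 277) (nat_lit 268))))))) (XT.nd (nat_lit 780) (nat_lit 2128) (nat_lit 0) (XT.nd (nat_lit 390) (nat_lit 1520) (nat_lit 0) (XT.nd (nat_lit 156) (nat_lit 912) (nat_lit 0) (XT.nd (nat_lit 78) (nat_lit 380) (nat_lit 0) (XT.lf (nat_lit 0) (nat_lit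 964034958) (nat_lit 304) (nat_lit 5243158365) (nat_lit 380) (nat_lit 4125074637) (nat_lit 100) (nat_lit 5) (nat_lit 104) (nat_lit 5) (nat_lit 105) (nat_lit 4) (nat_lit 356) (nat_lit 277) (nat_lit 267)) (XT.lf (nat_lit 0) (nat_lit 1487605702) (nat_lit 304) (nat_lit 146721912) (nat_lit 380) (nat_lit 8863379295) (nat_lit 95) (nat_lit 5) (nat_lit 99) (nat_lit 5) (nat_lit 100) (nat_lit 5) (nat_lit 357) (nat_lit 277) (nat_lit 266))) (XT.nd (nat_lit 78) (nat_lit 608) (nat_lit 0) (XT.lf (nat_lit 0) (nat_lit 1897884999) (nat_lit 304) (nat_lit 5596907872) (nat_lit 380) (nat_lit 3173126729) (nat_lit 91) (nat_lit 5) (nat_lit 95) (nat_lit 5) (nat_lit 96) (nat_lit 4) (nat_lit 358) (nat_lit 277) (nat_lit 265)) (XT.nd (nat_lit 78) (nat_lit 228) (nat_lit 0) (XT.lf (nat_lit 0) (nat_lit 2229950775) (nat_lit 304) (nat_lit 375742771) (nat_lit 380) (nat_lit 8238174228) (nat_lit 86) (nat_lit 5) (nat_lit 90) (nat_lit 5)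 (nat_lit 91) (nat_lit 5) (nat_lit 359) (nat_lit 277) (nat_lit 264)) (XT.lf (nat_lit 0) (nat_lit 2440255869) (nat_lit 228) (nat_lit 6060997866) (nat_lit 304) (nat_lit 2523730638) (nat_lit 83) (nat_lit 5) (nat_lit 86) (nat_lit 5) (nat_lit 87) (nat_lit 4) (nat_lit 360) (nat_lit 277) (nat_lit 263))))) (XT.nd (nat_lit 156) (nat_lit 912) (nat_lit 0) (XT.nd (nat_lit 78) (nat_lit 228) (nat_lit 0) (XT.lf (nat_lit 0) (nat_lit 2550083533) (nat_lit 304) (nat_lit 725375336) (nat_lit 380) (nat_lit 7936528155) (nat_lit 78) (nat_lit 5) (nat_lit 82) (nat_lit 5) (nat_lit 83) (nat_lit 5) (nat_lit 361) (nat_lit 277) (nat_lit 262)) (XT.lf (nat_lit 0) (nat_lit 2526870777) (nat_lit 228) (nat_lit 6674997117) (nat_lit 304) (nat_lit 2202683803) (nat_lit 75) (nat_lit 5) (nat_lit 78) (nat_lit 5) (nat_lit 79) (nat_lit 4) (nat_lit 362) (nat_lit 277) (nat_lit 261))) (XT.nd (nat_lit 78) (nat_lit 532) (nat_lit 0) (XT.lf (nat_lit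 0) (nat_lit 2380552848) (nat_lit 304) (nat_lit 1236275247) (nat_lit 380) (nat_lit 7986374408) (nat_lit 70) (nat_lit 5) (nat_lit 74) (nat_lit 5) (nat_lit 75) (nat_lit 5) (nat_lit 363) (nat_lit 277) (nat_lit 260)) (XT.nd (nat_lit 78) (nat_lit 304) (nat_lit 0) (XT.lf (nat_lit 0) (nat_lit 2087007980) (nat_lit 228) (nat_lit 7481179560) (nat_lit 304) (nat_lit 2239623800) (nat_lit 67) (nat_lit 5) (nat_lit 70) (nat_lit 5) (nat_lit 71) (nat_lit 4) (nat_lit 364) (nat_lit 277) (nat_lit 259)) (XT.lf (nat_lit 0) (nat_lit 1647092948) (nat_lit 228) (nat_lit 1951993075) (nat_lit 304) (nat_lit 8419670181) (nat_lit 63) (nat_lit 5) (nat_lit 66) (nat_lit 5) (nat_lit 67) (nat_lit 5) (nat_lit 365) (nat_lit 277) (nat_lit 258)))))) (XT.nd (nat_lit 390) (nat_lit 1064) (nat_lit 0) (XT.nd (nat_lit 156) (nat_lit 532) (nat_lit 0) (XT.nd (nat_lit 78) (nat_lit 304) (nat_lit 0) (XT.lf (nat_lit 0) (nat_lit 1042736265) (nat_lit 228)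 (nat_lit 8524952202) (nat_lit 304) (nat_lit 2668372607) (nat_lit 60) (nat_lit 5) (nat_lit 63) (nat_lit 5) (nat_lit 64) (nat_lit 4) (nat_lit 366) (nat_lit 277) (nat_lit 257)) (XT.lf (nat_lit 0) (nat_lit 267822168) (nat_lit 228) (nat_lit 2919419080) (nat_lit 304) (nat_lit 9272761078) (nat_lit 56) (nat_lit 5) (nat_lit 59) (nat_lit 5) (nat_lit 60) (nat_lit 5) (nat_lit 367) (nat_lit 277) (nat_lit 256))) (XT.nd (nat_lit 78) (nat_lit 532) (nat_lit 0) (XT.lf (nat_lit 0) (nat_lit 9167885651) (nat_lit 304) (nat_lit 682849730) (nat_lit 76) (nat_lit 2839889950) (nat_lit 56) (nat_lit 5) (nat_lit 60) (nat_lit 5) (nat_lit 57) (nat_lit 4) (nat_lit 368) (nat_lit 277) (nat_lit 255)) (XT.nd (nat_lit 78) (nat_lit 228) (nat_lit 0) (XT.lf (nat_lit 0) (nat_lit 2353623618) (nat_lit 304) (nat_lit 1823405064) (nat_lit 76) (nat_lit 8751147628) (nat_lit 52) (nat_lit 5) (nat_lit 56) (nat_lit 5) (nat_lit 53) (nat_lit 5) (nat_lit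 369) (nat_lit 277) (nat_lit 254)) (XT.lf (nat_lit 0) (nat_lit 8334304092) (nat_lit 304) (nat_lit 3169800606) (nat_lit 76) (nat_lit 1668792090) (nat_lit 49) (nat_lit 5) (nat_lit 53) (nat_lit 5) (nat_lit 50) (nat_lit 4) (nat_lit 370) (nat_lit 277) (nat_lit 253))))) (XT.nd (nat_lit 156) (nat_lit 608) (nat_lit 0) (XT.nd (nat_lit 78) (nat_lit 228) (nat_lit 0) (XT.lf (nat_lit 0) (nat_lit 1048618081) (nat_lit 228) (nat_lit 4736184906) (nat_lit 76) (nat_lit 7640178198) (nat_lit 46) (nat_lit 5) (nat_lit 49) (nat_lit 5) (nat_lit 47) (nat_lit 5) (nat_lit 371) (nat_lit 277) (nat_lit 252)) (XT.lf (nat_lit 0) (nat_lit 7013659863) (nat_lit 304) (nat_lit 6535353208) (nat_lit 76) (nat_lit 135660739) (nat_lit 43) (nat_lit 5) (nat_lit 47) (nat_lit 5) (nat_lit 44) (nat_lit 4) (nat_lit 372) (nat_lit 277) (nat_lit 251))) (XT.nd (nat_lit 78) (nat_lit 456) (nat_lit 0) (XT.lf (nat_lit 0) (nat_lit 5364005186) (nat_lit 152)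 (nat_lit 7798524317) (nat_lit 228) (nat_lit 789553871) (nat_lit 41) (nat_lit 5) (nat_lit 43) (nat_lit 5) (nat_lit 44) (nat_lit 4) (nat_lit 373) (nat_lit 277) (nat_lit 250)) (XT.nd (nat_lit 78) (nat_lit 152) (nat_lit 0) (XT.lf (nat_lit 0) (nat_lit 3321527464) (nat_lit 228) (nat_lit 1844091064) (nat_lit 304) (nat_lit 9061907857) (nat_lit 37) (nat_lit 5) (nat_lit 40) (nat_lit 5) (nat_lit 41) (nat_lit 5) (nat_lit 374) (nat_lit 277) (nat_lit 249)) (XT.lf (nat_lit 0) (nat_lit 1006125459) (nat_lit 152) (nat_lit 10277196052) (nat_lit 228) (nat_lit 3227936642) (nat_lit 35) (nat_lit 5) (nat_lit 37) (nat_lit 5) (nat_lit 38) (nat_lit 4) (nat_lit 375) (nat_lit 277) (nat_lit 248))))))))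
noncomputable def xc12 : XT := (XT.nd (nat_lit 44928) (nat_lit 0) (nat_lit 3040) (XT.nd (nat_lit 702) (nat_lit 304) (nat_lit 0) (XT.nd (nat_lit 312) (nat_lit 760) (nat_lit 0) (XT.nd (nat_lit 156) (nat_lit 380) (nat_lit 0) (XT.nd (nat_lit 78) (nat_lit 228) (nat_lit 0) (XT.lf (nat_lit 0) (nat_lit 2734008026) (nat_lit 228) (nat_lit 1576034986) (nat_lit 76) (nat_lit 10493330008) (nat_lit 34) (nat_lit 5) (nat_lit 37) (nat_lit 5) (nat_lit 35) (nat_lit 5) (nat_lit 376) (nat_lit 277) (nat_lit 247)) (XT.lf (nat_lit 0) (nat_lit 8818072492) (nat_lit 304) (nat_lit 4450319816) (nat_lit 76) (nat_lit 1835710194) (nat_lit 31) (nat_lit 5) (nat_lit 35) (nat_lit 5) (nat_lit 32) (nat_lit 4) (nat_lit 377) (nat_lit 277) (nat_lit 246))) (XT.nd (nat_lit 78) (nat_lit 228) (nat_lit 0) (XT.lf (nat_lit 0) (nat_lit 7769508430) (nat_lit 152) (nat_lit 7311976428) (nat_lit 228) (nat_lit 332452133) (nat_lit 29) (nat_lit 5) (nat_lit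 31) (nat_lit 5) (nat_lit 32) (nat_lit 4) (nat_lit 378) (nat_lit 277) (nat_lit 245)) (XT.lf (nat_lit 0) (nat_lit 4545605898) (nat_lit 152) (nat_lit 1145794994) (nat_lit 228) (nat_lit 10041576560) (nat_lit 26) (nat_lit 5) (nat_lit 28) (nat_lit 5) (nat_lit 29) (nat_lit 5) (nat_lit 379) (nat_lit 277) (nat_lit 244)))) (XT.nd (nat_lit 156) (nat_lit 532) (nat_lit 0) (XT.nd (nat_lit 78) (nat_lit 76) (nat_lit 0) (XT.lf (nat_lit 0) (nat_lit 962359790) (nat_lit 152) (nat_lit 10930390861) (nat_lit 228) (nat_lit 4168786720) (nat_lit 24) (nat_lit 5) (nat_lit 26) (nat_lit 5) (nat_lit 27) (nat_lit 4) (nat_lit 380) (nat_lit 277) (nat_lit 243)) (XT.lf (nat_lit 0) (nat_lit 1849606182) (nat_lit 228) (nat_lit 2947044434) (nat_lit 76) (nat_lit 11603195033) (nat_lit 23) (nat_lit 5) (nat_lit 26) (nat_lit 5) (nat_lit 24) (nat_lit 5) (nat_lit 381) (nat_lit 277) (nat_lit 242))) (XT.nd (nat_lit 78) (nat_lit 380) (nat_lit 0)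 (XT.lf (nat_lit 0) (nat_lit 7976765881) (nat_lit 228) (nat_lit 7245123557) (nat_lit 76) (nat_lit 1526182350) (nat_lit 21) (nat_lit 5) (nat_lit 24) (nat_lit 5) (nat_lit 22) (nat_lit 4) (nat_lit 382) (nat_lit 277) (nat_lit 241)) (XT.nd (nat_lit 78) (nat_lit 228) (nat_lit 0) (XT.lf (nat_lit 0) (nat_lit 5143512192) (nat_lit 152) (nat_lit 9143665522) (nat_lit 228) (nat_lit 2819594537) (nat_lit 19) (nat_lit 5) (nat_lit 21) (nat_lit 5) (nat_lit 22) (nat_lit 4) (nat_lit 383) (nat_lit 277) (nat_lit 240)) (XT.lf (nat_lit 0) (nat_lit 359775980) (nat_lit 152) (nat_lit 2874052050) (nat_lit 228) (nat_lit 14242659702) (nat_lit 16) (nat_lit 5) (nat_lit 18) (nat_lit 5) (nat_lit 19) (nat_lit 5) (nat_lit 384) (nat_lit 277) (nat_lit 239)))))) (XT.nd (nat_lit 43836) (nat_lit 0) (nat_lit 9424) (XT.nd (nat_lit 156) (nat_lit 228) (nat_lit 0) (XT.nd (nat_lit 78) (nat_lit 76) (nat_lit 0) (XT.lf (nat_lit 0) (nat_lit 9451556091)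 (nat_lit 228) (nat_lit 4831745880) (nat_lit 76) (nat_lit 3573214804) (nat_lit 16) (nat_lit 5) (nat_lit 19) (nat_lit 5) (nat_lit 17) (nat_lit 4) (nat_lit 385) (nat_lit 277) (nat_lit 238)) (XT.lf (nat_lit 0) (nat_lit 7758998443) (nat_lit 76) (nat_lit 8084783652) (nat_lit 152) (nat_lit 2404419885) (nat_lit 15) (nat_lit 5) (nat_lit 16) (nat_lit 5) (nat_lit 17) (nat_lit 4) (nat_lit 386) (nat_lit 277) (nat_lit 237))) (XT.nd (nat_lit 43524) (nat_lit 0) (nat_lit 11856) (XT.lf (nat_lit 0) (nat_lit 2000076895) (nat_lit 152) (nat_lit 1691753533) (nat_lit 228) (nat_lit 14960026517) (nat_lit 12) (nat_lit 5) (nat_lit 14) (nat_lit 5) (nat_lit 15) (nat_lit 5) (nat_lit 387) (nat_lit 277) (nat_lit 236)) (XT.nd (nat_lit 78) (nat_lit 1064) (nat_lit 0) (XT.lf (nat_lit 0) (nat_lit 1930128385) (nat_lit 608) (nat_lit 496927073) (nat_lit 0) (nat_lit 1930128385) (nat_lit 182) (nat_lit 5) (nat_lit 190) (nat_lit 4) (nat_lit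 182) (nat_lit 4) (nat_lit 344) (nat_lit 278) (nat_lit 278)) (XT.lf (nat_lit 0) (nat_lit 127102253) (nat_lit 456) (nat_lit 692290814) (nat_lit 532) (nat_lit 8007633686) (nat_lit 168) (nat_lit 5) (nat_lit 174) (nat_lit 5) (nat_lit 175) (nat_lit 4) (nat_lit 345) (nat_lit 278) (nat_lit 277))))) (XT.nd (nat_lit 156) (nat_lit 1444) (nat_lit 0) (XT.nd (nat_lit 78) (nat_lit 532) (nat_lit 0) (XT.lf (nat_lit 0) (nat_lit 1222156139) (nat_lit 456) (nat_lit 5336841561) (nat_lit 456) (nat_lit 2384256715) (nat_lit 162) (nat_lit 4) (nat_lit 168) (nat_lit 5) (nat_lit 168) (nat_lit 4) (nat_lit 346) (nat_lit 278) (nat_lit 276)) (XT.lf (nat_lit 0) (nat_lit 2303337791) (nat_lit 456) (nat_lit 997669422) (nat_lit 532) (nat_lit 5762825749) (nat_lit 155) (nat_lit 5) (nat_lit 161) (nat_lit 5) (nat_lit 162) (nat_lit 4) (nat_lit 347) (nat_lit 278) (nat_lit 275))) (XT.nd (nat_lit 78) (nat_lit 988) (nat_lit 0) (XT.lf (nat_lit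 0) (nat_lit 3354225515) (nat_lit 456) (nat_lit 5728796838) (nat_lit 456) (nat_lit 105581895) (nat_lit 149) (nat_lit 4) (nat_lit 155) (nat_lit 5) (nat_lit 155) (nat_lit 4) (nat_lit 348) (nat_lit 278) (nat_lit 274)) (XT.nd (nat_lit 78) (nat_lit 532) (nat_lit 0) (XT.lf (nat_lit 0) (nat_lit 4365041587) (nat_lit 380) (nat_lit 1225655653) (nat_lit 456) (nat_lit 3726850695) (nat_lit 143) (nat_lit 5) (nat_lit 148) (nat_lit 5) (nat_lit 149) (nat_lit 4) (nat_lit 349) (nat_lit 278) (nat_lit 273)) (XT.lf (nat_lit 0) (nat_lit 1941744988) (nat_lit 532) (nat_lit 4112097109) (nat_lit 76) (nat_lit 3397060408) (nat_lit 136) (nat_lit 5) (nat_lit 143) (nat_lit 5) (nat_lit 137) (nat_lit 4) (nat_lit 350) (nat_lit 278) (nat_lit 272))))))) (XT.nd (nat_lit 702) (nat_lit 2584) (nat_lit 0) (XT.nd (nat_lit 312) (nat_lit 2128) (nat_lit 0) (XT.nd (nat_lit 156) (nat_lit 836) (nat_lit 0) (XT.nd (nat_lit 78) (nat_lit 456) (nat_lit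 0) (XT.lf (nat_lit 0) (nat_lit 6273389186) (nat_lit 380) (nat_lit 1406677652) (nat_lit 456) (nat_lit 1908746953) (nat_lit 131) (nat_lit 5) (nat_lit 136) (nat_lit 5) (nat_lit 137) (nat_lit 4) (nat_lit 351) (nat_lit 278) (nat_lit 271)) (XT.lf (nat_lit 0) (nat_lit 3774882290) (nat_lit 456) (nat_lit 2581743336) (nat_lit 76) (nat_lit 3374471224) (nat_lit 125) (nat_lit 5) (nat_lit 131) (nat_lit 5) (nat_lit 126) (nat_lit 4) (nat_lit 352) (nat_lit 278) (nat_lit 270))) (XT.nd (nat_lit 78) (nat_lit 456) (nat_lit 0) (XT.lf (nat_lit 0) (nat_lit 7986354936) (nat_lit 380) (nat_lit 1571947620) (nat_lit 456) (nat_lit 320039859) (nat_lit 120) (nat_lit 5) (nat_lit 125) (nat_lit 5) (nat_lit 126) (nat_lit 4) (nat_lit 353) (nat_lit 278) (nat_lit 269)) (XT.lf (nat_lit 0) (nat_lit 5382738869) (nat_lit 456) (nat_lit 1287032514) (nat_lit 76) (nat_lit 3360180723) (nat_lit 114) (nat_lit 5) (nat_lit 120) (nat_lit 5) (nat_lit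 115) (nat_lit 4) (nat_lit 354) (nat_lit 278) (nat_lit 268)))) (XT.nd (nat_lit 156) (nat_lit 1368) (nat_lit 0) (XT.nd (nat_lit 78) (nat_lit 380) (nat_lit 0) (XT.lf (nat_lit 0) (nat_lit 1011645600) (nat_lit 380) (nat_lit 735323374) (nat_lit 76) (nat_lit 8439817364) (nat_lit 109) (nat_lit 5) (nat_lit 114) (nat_lit 5) (nat_lit 110) (nat_lit 5) (nat_lit 355) (nat_lit 278) (nat_lit 267)) (XT.lf (nat_lit 0) (nat_lit 6750141839) (nat_lit 456) (nat_lit 276334874) (nat_lit 76) (nat_lit 3321818886) (nat_lit 104) (nat_lit 5) (nat_lit 110) (nat_lit 5) (nat_lit 105) (nat_lit 4) (nat_lit 356) (nat_lit 278) (nat_lit 266))) (XT.nd (nat_lit 78) (nat_lit 684) (nat_lit 0) (XT.lf (nat_lit 0) (nat_lit 111587563) (nat_lit 304) (nat_lit 1971081163) (nat_lit 380) (nat_lit 8432451667) (nat_lit 95) (nat_lit 5) (nat_lit 99) (nat_lit 5) (nat_lit 100) (nat_lit 5) (nat_lit 357) (nat_lit 278) (nat_lit 265)) (XT.nd (nat_lit 78) (nat_lit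 380) (nat_lit 0) (XT.lf (nat_lit 0) (nat_lit 402766377) (nat_lit 304) (nat_lit 7458865431) (nat_lit 380) (nat_lit 2825351598) (nat_lit 91) (nat_lit 5) (nat_lit 95) (nat_lit 5) (nat_lit 96) (nat_lit 4) (nat_lit 358) (nat_lit 278) (nat_lit 264)) (XT.lf (nat_lit 0) (nat_lit 598913401) (nat_lit 304) (nat_lit 2280191782) (nat_lit 380) (nat_lit 7985196586) (nat_lit 86) (nat_lit 5) (nat_lit 90) (nat_lit 5) (nat_lit 91) (nat_lit 5) (nat_lit 359) (nat_lit 278) (nat_lit 263)))))) (XT.nd (nat_lit 390) (nat_lit 1368) (nat_lit 0) (XT.nd (nat_lit 156) (nat_lit 608) (nat_lit 0) (XT.nd (nat_lit 78) (nat_lit 380) (nat_lit 0) (XT.lf (nat_lit 0) (nat_lit 685479595) (nat_lit 228) (nat_lit 8007126159) (nat_lit 304) (nat_lit 2354472545) (nat_lit 83) (nat_lit 5) (nat_lit 86) (nat_lit 5) (nat_lit 87) (nat_lit 4) (nat_lit 360) (nat_lit 278) (nat_lit 262)) (XT.lf (nat_lit 0) (nat_lit 655328725) (nat_lit 304) (nat_lit 2717274430)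 (nat_lit 380) (nat_lit 7862871532) (nat_lit 78) (nat_lit 5) (nat_lit 82) (nat_lit 5) (nat_lit 83) (nat_lit 5) (nat_lit 361) (nat_lit 278) (nat_lit 261))) (XT.nd (nat_lit 78) (nat_lit 380) (nat_lit 0) (XT.lf (nat_lit 0) (nat_lit 503655149) (nat_lit 228) (nat_lit 8712566128) (nat_lit 304) (nat_lit 2213491217) (nat_lit 75) (nat_lit 5) (nat_lit 78) (nat_lit 5) (nat_lit 79) (nat_lit 4) (nat_lit 362) (nat_lit 278) (nat_lit 260)) (XT.nd (nat_lit 78) (nat_lit 0) (nat_lit 0) (XT.lf (nat_lit 0) (nat_lit 213171118) (nat_lit 304) (nat_lit 3322880435) (nat_lit 380) (nat_lit 8093731853) (nat_lit 70) (nat_lit 5) (nat_lit 74) (nat_lit 5) (nat_lit 75) (nat_lit 5) (nat_lit 363) (nat_lit 278) (nat_lit 259)) (XT.lf (nat_lit 0) (nat_lit 9405105521) (nat_lit 380) (nat_lit 210851405) (nat_lit 76) (nat_lit 2220097427) (nat_lit 70) (nat_lit 5) (nat_lit 75) (nat_lit 5) (nat_lit 71) (nat_lit 4) (nat_lit 364) (nat_lit 278) (nat_lit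 258))))) (XT.nd (nat_lit 156) (nat_lit 836) (nat_lit 0) (XT.nd (nat_lit 78) (nat_lit 228) (nat_lit 0) (XT.lf (nat_lit 0) (nat_lit 3343630811) (nat_lit 304) (nat_lit 791541552) (nat_lit 76) (nat_lit 7913199719) (nat_lit 66) (nat_lit 5) (nat_lit 70) (nat_lit 5) (nat_lit 67) (nat_lit 5) (nat_lit 365) (nat_lit 278) (nat_lit 257)) (XT.lf (nat_lit 0) (nat_lit 9232292350) (nat_lit 304) (nat_lit 1524368324) (nat_lit 76) (nat_lit 1510629887) (nat_lit 63) (nat_lit 5) (nat_lit 67) (nat_lit 5) (nat_lit 64) (nat_lit 4) (nat_lit 366) (nat_lit 278) (nat_lit 256))) (XT.nd (nat_lit 78) (nat_lit 532) (nat_lit 0) (XT.lf (nat_lit 0) (nat_lit 2760470989) (nat_lit 304) (nat_lit 2440080532) (nat_lit 76) (nat_lit 7292041034) (nat_lit 59) (nat_lit 5) (nat_lit 63) (nat_lit 5) (nat_lit 60) (nat_lit 5) (nat_lit 367) (nat_lit 278) (nat_lit 255)) (XT.nd (nat_lit 78) (nat_lit 304) (nat_lit 0) (XT.lf (nat_lit 0) (nat_lit 8657787221)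 (nat_lit 304) (nat_lit 3528622485) (nat_lit 76) (nat_lit 538486084) (nat_lit 56) (nat_lit 5) (nat_lit 60) (nat_lit 5) (nat_lit 57) (nat_lit 4) (nat_lit 368) (nat_lit 278) (nat_lit 254)) (XT.lf (nat_lit 0) (nat_lit 1745802970) (nat_lit 304) (nat_lit 4824713392) (nat_lit 76) (nat_lit 6393425928) (nat_lit 52) (nat_lit 5) (nat_lit 56) (nat_lit 5) (nat_lit 53) (nat_lit 5) (nat_lit 369) (nat_lit 278) (nat_lit 253))))))))
noncomputable def xc13 : XT := (XT.nd (nat_lit 44772) (nat_lit 0) (nat_lit 4864) (XT.nd (nat_lit 702) (nat_lit 1140) (nat_lit 0) (XT.nd (nat_lit 312) (nat_lit 912) (nat_lit 0) (XT.nd (nat_lit 156) (nat_lit 380) (nat_lit 0) (XT.nd (nat_lit 78) (nat_lit 228) (nat_lit 0) (XT.lf (nat_lit 0) (nat_lit 6887777374) (nat_lit 228) (nat_lit 757189811) (nat_lit 304) (nat_lit 5565338538) (nat_lit 49) (nat_lit 5) (nat_lit 52) (nat_lit 5) (nat_lit 53) (nat_lit 5) (nat_lit 370) (nat_lit 278) (nat_lit 252))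 (XT.lf (nat_lit 0) (nat_lit 255184383) (nat_lit 228) (nat_lit 8044274682) (nat_lit 76) (nat_lit 5164561831) (nat_lit 46) (nat_lit 5) (nat_lit 49) (nat_lit 5) (nat_lit 47) (nat_lit 5) (nat_lit 371) (nat_lit 278) (nat_lit 251))) (XT.nd (nat_lit 78) (nat_lit 152) (nat_lit 0) (XT.lf (nat_lit 0) (nat_lit 3714151893) (nat_lit 228) (nat_lit 2433917036) (nat_lit 304) (nat_lit 7577099408) (nat_lit 43) (nat_lit 5) (nat_lit 46) (nat_lit 5) (nat_lit 47) (nat_lit 5) (nat_lit 372) (nat_lit 278) (nat_lit 250)) (XT.lf (nat_lit 0) (nat_lit 1774736627) (nat_lit 152) (nat_lit 10434818586) (nat_lit 228) (nat_lit 1784781685) (nat_lit 41) (nat_lit 5) (nat_lit 43) (nat_lit 5) (nat_lit 44) (nat_lit 4) (nat_lit 373) (nat_lit 278) (nat_lit 249)))) (XT.nd (nat_lit 156) (nat_lit 608) (nat_lit 0) (XT.nd (nat_lit 78) (nat_lit 228) (nat_lit 0) (XT.lf (nat_lit 0) (nat_lit 4114156393) (nat_lit 228) (nat_lit 428738598) (nat_lit 76)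 (nat_lit 9728410675) (nat_lit 40) (nat_lit 5) (nat_lit 43) (nat_lit 5) (nat_lit 41) (nat_lit 5) (nat_lit 374) (nat_lit 278) (nat_lit 248)) (XT.lf (nat_lit 0) (nat_lit 10157895014) (nat_lit 304) (nat_lit 2870377330) (nat_lit 76) (nat_lit 1528254850) (nat_lit 37) (nat_lit 5) (nat_lit 41) (nat_lit 5) (nat_lit 38) (nat_lit 4) (nat_lit 375) (nat_lit 278) (nat_lit 247))) (XT.nd (nat_lit 78) (nat_lit 380) (nat_lit 0) (XT.lf (nat_lit 0) (nat_lit 1513124259) (nat_lit 228) (nat_lit 5608966664) (nat_lit 76) (nat_lit 7728023964) (nat_lit 34) (nat_lit 5) (nat_lit 37) (nat_lit 5) (nat_lit 35) (nat_lit 5) (nat_lit 376) (nat_lit 278) (nat_lit 246)) (XT.nd (nat_lit 78) (nat_lit 152) (nat_lit 0) (XT.lf (nat_lit 0) (nat_lit 6500515479) (nat_lit 228) (nat_lit 1012372797) (nat_lit 304) (nat_lit 7639651777) (nat_lit 31) (nat_lit 5) (nat_lit 34) (nat_lit 5) (nat_lit 35) (nat_lit 5) (nat_lit 377) (nat_lit 278) (nat_lit 245))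 (XT.lf (nat_lit 0) (nat_lit 3440154251) (nat_lit 152) (nat_lit 10256893867) (nat_lit 228) (nat_lit 1766920871) (nat_lit 29) (nat_lit 5) (nat_lit 31) (nat_lit 5) (nat_lit 32) (nat_lit 4) (nat_lit 378) (nat_lit 278) (nat_lit 244)))))) (XT.nd (nat_lit 390) (nat_lit 380) (nat_lit 0) (XT.nd (nat_lit 156) (nat_lit 532) (nat_lit 0) (XT.nd (nat_lit 78) (nat_lit 0) (nat_lit 0) (XT.lf (nat_lit 0) (nat_lit 39656605) (nat_lit 152) (nat_lit 4162767435) (nat_lit 228) (nat_lit 11582247051) (nat_lit 26) (nat_lit 5) (nat_lit 28) (nat_lit 5) (nat_lit 29) (nat_lit 5) (nat_lit 379) (nat_lit 278) (nat_lit 243)) (XT.lf (nat_lit 0) (nat_lit 10334455099) (nat_lit 228) (nat_lit 3664515783) (nat_lit 76) (nat_lit 2115655183) (nat_lit 26) (nat_lit 5) (nat_lit 29) (nat_lit 5) (nat_lit 27) (nat_lit 4) (nat_lit 380) (nat_lit 278) (nat_lit 242))) (XT.nd (nat_lit 78) (nat_lit 304) (nat_lit 0) (XT.lf (nat_lit 0) (nat_lit 192093626)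 (nat_lit 228) (nat_lit 7741111214) (nat_lit 76) (nat_lit 8521292248) (nat_lit 23) (nat_lit 5) (nat_lit 26) (nat_lit 5) (nat_lit 24) (nat_lit 5) (nat_lit 381) (nat_lit 278) (nat_lit 241)) (XT.nd (nat_lit 78) (nat_lit 152) (nat_lit 0) (XT.lf (nat_lit 0) (nat_lit 4581095216) (nat_lit 152) (nat_lit 1654353659) (nat_lit 228) (nat_lit 10568958464) (nat_lit 21) (nat_lit 5) (nat_lit 23) (nat_lit 5) (nat_lit 24) (nat_lit 5) (nat_lit 382) (nat_lit 278) (nat_lit 240)) (XT.lf (nat_lit 0) (nat_lit 36304955) (nat_lit 152) (nat_lit 12424458873) (nat_lit 228) (nat_lit 4704053702) (nat_lit 19) (nat_lit 5) (nat_lit 21) (nat_lit 5) (nat_lit 22) (nat_lit 4) (nat_lit 383) (nat_lit 278) (nat_lit 239))))) (XT.nd (nat_lit 156) (nat_lit 152) (nat_lit 0) (XT.nd (nat_lit 78) (nat_lit 152) (nat_lit 0) (XT.lf (nat_lit 0) (nat_lit 1331011257) (nat_lit 228) (nat_lit 4870105842) (nat_lit 76) (nat_lit 11334529480) (nat_lit 18) (nat_lit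 5) (nat_lit 21) (nat_lit 5) (nat_lit 19) (nat_lit 5) (nat_lit 384) (nat_lit 278) (nat_lit 238)) (XT.lf (nat_lit 0) (nat_lit 7454673368) (nat_lit 228) (nat_lit 10235916633) (nat_lit 76) (nat_lit 226974139) (nat_lit 16) (nat_lit 5) (nat_lit 19) (nat_lit 5) (nat_lit 17) (nat_lit 4) (nat_lit 385) (nat_lit 278) (nat_lit 237))) (XT.nd (nat_lit 78) (nat_lit 76) (nat_lit 0) (XT.lf (nat_lit 0) (nat_lit 2212588601) (nat_lit 76) (nat_lit 11559258946) (nat_lit 152) (nat_lit 4538909822) (nat_lit 15) (nat_lit 5) (nat_lit 16) (nat_lit 5) (nat_lit 17) (nat_lit 4) (nat_lit 386) (nat_lit 278) (nat_lit 236)) (XT.nd (nat_lit 43368) (nat_lit 0) (nat_lit 13908) (XT.lf (nat_lit 0) (nat_lit 1533740590) (nat_lit 152) (nat_lit 3690150337) (nat_lit 76) (nat_lit 13491837114) (nat_lit 14) (nat_lit 5) (nat_lit 16) (nat_lit 5) (nat_lit 15) (nat_lit 5) (nat_lit 387) (nat_lit 278) (nat_lit 235)) (XT.lf (nat_lit 0) (nat_lit 1334806049)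 (nat_lit 608) (nat_lit 1580343551) (nat_lit 0) (nat_lit 1334806049) (nat_lit 197) (nat_lit 5) (nat_lit 205) (nat_lit 4) (nat_lit 197) (nat_lit 4) (nat_lit 342) (nat_lit 279) (nat_lit 279))))))) (XT.nd (nat_lit 780) (nat_lit 3572) (nat_lit 0) (XT.nd (nat_lit 390) (nat_lit 2280) (nat_lit 0) (XT.nd (nat_lit 156) (nat_lit 2052) (nat_lit 0) (XT.nd (nat_lit 78) (nat_lit 608) (nat_lit 0) (XT.lf (nat_lit 0) (nat_lit 6494255440) (nat_lit 532) (nat_lit 1858586283) (nat_lit 532) (nat_lit 253194110) (nat_lit 190) (nat_lit 4) (nat_lit 197) (nat_lit 5) (nat_lit 197) (nat_lit 4) (nat_lit 343) (nat_lit 279) (nat_lit 278)) (XT.lf (nat_lit 0) (nat_lit 5363618848) (nat_lit 608) (nat_lit 1090561558) (nat_lit 0) (nat_lit 2261633209) (nat_lit 182) (nat_lit 5) (nat_lit 190) (nat_lit 4) (nat_lit 182) (nat_lit 4) (nat_lit 344) (nat_lit 279) (nat_lit 277))) (XT.nd (nat_lit 78) (nat_lit 1444) (nat_lit 0) (XT.lf (nat_lit 0)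 (nat_lit 2230539883) (nat_lit 608) (nat_lit 79859873) (nat_lit 76) (nat_lit 6519332534) (nat_lit 174) (nat_lit 5) (nat_lit 182) (nat_lit 5) (nat_lit 175) (nat_lit 4) (nat_lit 345) (nat_lit 279) (nat_lit 276)) (XT.nd (nat_lit 78) (nat_lit 532) (nat_lit 0) (XT.lf (nat_lit 0) (nat_lit 922229737) (nat_lit 456) (nat_lit 6966569491) (nat_lit 456) (nat_lit 1058819872) (nat_lit 162) (nat_lit 4) (nat_lit 168) (nat_lit 5) (nat_lit 168) (nat_lit 4) (nat_lit 346) (nat_lit 279) (nat_lit 275)) (XT.lf (nat_lit 0) (nat_lit 1889882345) (nat_lit 456) (nat_lit 2649035687) (nat_lit 532) (nat_lit 4530541047) (nat_lit 155) (nat_lit 5) (nat_lit 161) (nat_lit 5) (nat_lit 162) (nat_lit 4) (nat_lit 347) (nat_lit 279) (nat_lit 274))))) (XT.nd (nat_lit 156) (nat_lit 1368) (nat_lit 0) (XT.nd (nat_lit 78) (nat_lit 380) (nat_lit 0) (XT.lf (nat_lit 0) (nat_lit 1031053212) (nat_lit 532) (nat_lit 6358236249) (nat_lit 76) (nat_lit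 1806441263) (nat_lit 148) (nat_lit 5) (nat_lit 155) (nat_lit 5) (nat_lit 149) (nat_lit 4) (nat_lit 348) (nat_lit 279) (nat_lit 273)) (XT.lf (nat_lit 0) (nat_lit 3738150520) (nat_lit 380) (nat_lit 2918313760) (nat_lit 456) (nat_lit 2669614448) (nat_lit 143) (nat_lit 5) (nat_lit 148) (nat_lit 5) (nat_lit 149) (nat_lit 4) (nat_lit 349) (nat_lit 279) (nat_lit 272))) (XT.nd (nat_lit 78) (nat_lit 836) (nat_lit 0) (XT.lf (nat_lit 0) (nat_lit 2904549686) (nat_lit 532) (nat_lit 4856289676) (nat_lit 76) (nat_lit 1700094959) (nat_lit 136) (nat_lit 5) (nat_lit 143) (nat_lit 5) (nat_lit 137) (nat_lit 4) (nat_lit 350) (nat_lit 279) (nat_lit 271)) (XT.nd (nat_lit 78) (nat_lit 456) (nat_lit 0) (XT.lf (nat_lit 0) (nat_lit 5424996841) (nat_lit 380) (nat_lit 3148902530) (nat_lit 456) (nat_lit 1026351888) (nat_lit 131) (nat_lit 5) (nat_lit 136) (nat_lit 5) (nat_lit 137) (nat_lit 4) (nat_lit 351) (nat_lit 279) (nat_lit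 270)) (XT.lf (nat_lit 0) (nat_lit 4565246339) (nat_lit 456) (nat_lit 3553671775) (nat_lit 76) (nat_lit 1625135734) (nat_lit 125) (nat_lit 5) (nat_lit 131) (nat_lit 5) (nat_lit 126) (nat_lit 4) (nat_lit 352) (nat_lit 279) (nat_lit 269)))))) (XT.nd (nat_lit 390) (nat_lit 1596) (nat_lit 0) (XT.nd (nat_lit 156) (nat_lit 1140) (nat_lit 0) (XT.nd (nat_lit 78) (nat_lit 380) (nat_lit 0) (XT.lf (nat_lit 0) (nat_lit 382286896) (nat_lit 456) (nat_lit 2986904988) (nat_lit 76) (nat_lit 6523453521) (nat_lit 119) (nat_lit 5) (nat_lit 125) (nat_lit 5) (nat_lit 120) (nat_lit 5) (nat_lit 353) (nat_lit 279) (nat_lit 268)) (XT.lf (nat_lit 0) (nat_lit 6000324818) (nat_lit 456) (nat_lit 2494893298) (nat_lit 76) (nat_lit 1550629344) (nat_lit 114) (nat_lit 5) (nat_lit 120) (nat_lit 5) (nat_lit 115) (nat_lit 4) (nat_lit 354) (nat_lit 279) (nat_lit 267))) (XT.nd (nat_lit 78) (nat_lit 760) (nat_lit 0) (XT.lf (nat_lit 0) (nat_lit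 1536597264) (nat_lit 380) (nat_lit 2072040558) (nat_lit 76) (nat_lit 6595364633) (nat_lit 109) (nat_lit 5) (nat_lit 114) (nat_lit 5) (nat_lit 110) (nat_lit 5) (nat_lit 355) (nat_lit 279) (nat_lit 266)) (XT.nd (nat_lit 78) (nat_lit 380) (nat_lit 0) (XT.lf (nat_lit 0) (nat_lit 7194278294) (nat_lit 456) (nat_lit 1728460853) (nat_lit 76) (nat_lit 1444410177) (nat_lit 104) (nat_lit 5) (nat_lit 110) (nat_lit 5) (nat_lit 105) (nat_lit 4) (nat_lit 356) (nat_lit 279) (nat_lit 265)) (XT.lf (nat_lit 0) (nat_lit 2432901455) (nat_lit 380) (nat_lit 1474747647) (nat_lit 76) (nat_lit 6627679517) (nat_lit 99) (nat_lit 5) (nat_lit 104) (nat_lit 5) (nat_lit 100) (nat_lit 5) (nat_lit 357) (nat_lit 279) (nat_lit 264))))) (XT.nd (nat_lit 156) (nat_lit 912) (nat_lit 0) (XT.nd (nat_lit 78) (nat_lit 380) (nat_lit 0) (XT.lf (nat_lit 0) (nat_lit 8128705677) (nat_lit 380) (nat_lit 1307401912) (nat_lit 76) (nat_lit 1272766907)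 (nat_lit 95) (nat_lit 5) (nat_lit 100) (nat_lit 5) (nat_lit 96) (nat_lit 4) (nat_lit 358) (nat_lit 279) (nat_lit 263)) (XT.lf (nat_lit 0) (nat_lit 3051037565) (nat_lit 380) (nat_lit 1250573356) (nat_lit 76) (nat_lit 6585969533) (nat_lit 90) (nat_lit 5) (nat_lit 95) (nat_lit 5) (nat_lit 91) (nat_lit 5) (nat_lit 359) (nat_lit 279) (nat_lit 262))) (XT.nd (nat_lit 78) (nat_lit 608) (nat_lit 0) (XT.lf (nat_lit 0) (nat_lit 8782077814) (nat_lit 380) (nat_lit 1289838106) (nat_lit 76) (nat_lit 1000108466) (nat_lit 86) (nat_lit 5) (nat_lit 91) (nat_lit 5) (nat_lit 87) (nat_lit 4) (nat_lit 360) (nat_lit 279) (nat_lit 261)) (XT.nd (nat_lit 78) (nat_lit 304) (nat_lit 0) (XT.lf (nat_lit 0) (nat_lit 3367571540) (nat_lit 304) (nat_lit 1460461434) (nat_lit 76) (nat_lit 6433770965) (nat_lit 82) (nat_lit 5) (nat_lit 86) (nat_lit 5) (nat_lit 83) (nat_lit 5) (nat_lit 361) (nat_lit 279) (nat_lit 260)) (XT.lf (nat_lit 0)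 (nat_lit 9129473210) (nat_lit 380) (nat_lit 1739612400) (nat_lit 76) (nat_lit 588607277) (nat_lit 78) (nat_lit 5) (nat_lit 83) (nat_lit 5) (nat_lit 79) (nat_lit 4) (nat_lit 362) (nat_lit 279) (nat_lit 259))))))))
noncomputable def xc14 : XT := (XT.nd (nat_lit 1482) (nat_lit 684) (nat_lit 0) (XT.nd (nat_lit 702) (nat_lit 1748) (nat_lit 0) (XT.nd (nat_lit 312) (nat_lit 1216) (nat_lit 0) (XT.nd (nat_lit 156) (nat_lit 532) (nat_lit 0) (XT.nd (nat_lit 78) (nat_lit 304) (nat_lit 0) (XT.lf (nat_lit 0) (nat_lit 3355516524) (nat_lit 304) (nat_lit 2171408930) (nat_lit 76) (nat_lit 6132215470) (nat_lit 74) (nat_lit 5) (nat_lit 78) (nat_lit 5) (nat_lit 75) (nat_lit 5) (nat_lit 363) (nat_lit 279) (nat_lit 258)) (XT.lf (nat_lit 0) (nat_lit 9140082307) (nat_lit 304) (nat_lit 2212615) (nat_lit 380) (nat_lit 2724777999) (nat_lit 70) (nat_lit 5) (nat_lit 74) (nat_lit 5) (nat_lit 75) (nat_lit 5) (nat_lit 364) (nat_lit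 279) (nat_lit 257))) (XT.nd (nat_lit 78) (nat_lit 228) (nat_lit 0) (XT.lf (nat_lit 0) (nat_lit 2984017482) (nat_lit 304) (nat_lit 3457186089) (nat_lit 76) (nat_lit 5639632777) (nat_lit 66) (nat_lit 5) (nat_lit 70) (nat_lit 5) (nat_lit 67) (nat_lit 5) (nat_lit 365) (nat_lit 279) (nat_lit 256)) (XT.lf (nat_lit 0) (nat_lit 7966647962) (nat_lit 228) (nat_lit 826583757) (nat_lit 304) (nat_lit 3508126411) (nat_lit 63) (nat_lit 5) (nat_lit 66) (nat_lit 5) (nat_lit 67) (nat_lit 5) (nat_lit 366) (nat_lit 279) (nat_lit 255)))) (XT.nd (nat_lit 156) (nat_lit 684) (nat_lit 0) (XT.nd (nat_lit 78) (nat_lit 228) (nat_lit 0) (XT.lf (nat_lit 0) (nat_lit 2217997858) (nat_lit 304) (nat_lit 5399126513) (nat_lit 76) (nat_lit 4911121858) (nat_lit 59) (nat_lit 5) (nat_lit 63) (nat_lit 5) (nat_lit 60) (nat_lit 5) (nat_lit 367) (nat_lit 279) (nat_lit 254)) (XT.lf (nat_lit 0) (nat_lit 6117423638) (nat_lit 228) (nat_lit 1924264650)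 (nat_lit 304) (nat_lit 4720346961) (nat_lit 56) (nat_lit 5) (nat_lit 59) (nat_lit 5) (nat_lit 60) (nat_lit 5) (nat_lit 368) (nat_lit 279) (nat_lit 253))) (XT.nd (nat_lit 78) (nat_lit 380) (nat_lit 0) (XT.lf (nat_lit 0) (nat_lit 1017764687) (nat_lit 304) (nat_lit 8086995328) (nat_lit 76) (nat_lit 3898086533) (nat_lit 52) (nat_lit 5) (nat_lit 56) (nat_lit 5) (nat_lit 53) (nat_lit 5) (nat_lit 369) (nat_lit 279) (nat_lit 252)) (XT.nd (nat_lit 78) (nat_lit 152) (nat_lit 0) (XT.lf (nat_lit 0) (nat_lit 3499303423) (nat_lit 228) (nat_lit 3346850561) (nat_lit 304) (nat_lit 6404483756) (nat_lit 49) (nat_lit 5) (nat_lit 52) (nat_lit 5) (nat_lit 53) (nat_lit 5) (nat_lit 370) (nat_lit 279) (nat_lit 251)) (XT.lf (nat_lit 0) (nat_lit 1881860652) (nat_lit 152) (nat_lit 10954073477) (nat_lit 228) (nat_lit 670221921) (nat_lit 47) (nat_lit 5) (nat_lit 49) (nat_lit 5) (nat_lit 50) (nat_lit 4) (nat_lit 371) (nat_lit 279)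 (nat_lit 250)))))) (XT.nd (nat_lit 390) (nat_lit 760) (nat_lit 0) (XT.nd (nat_lit 156) (nat_lit 684) (nat_lit 0) (XT.nd (nat_lit 78) (nat_lit 0) (nat_lit 0) (XT.lf (nat_lit 0) (nat_lit 9384798) (nat_lit 228) (nat_lit 5150484562) (nat_lit 304) (nat_lit 8608964159) (nat_lit 43) (nat_lit 5) (nat_lit 46) (nat_lit 5) (nat_lit 47) (nat_lit 5) (nat_lit 372) (nat_lit 279) (nat_lit 249)) (XT.lf (nat_lit 0) (nat_lit 11145324401) (nat_lit 304) (nat_lit 2059269827) (nat_lit 76) (nat_lit 834939479) (nat_lit 43) (nat_lit 5) (nat_lit 47) (nat_lit 5) (nat_lit 44) (nat_lit 4) (nat_lit 373) (nat_lit 279) (nat_lit 248))) (XT.nd (nat_lit 78) (nat_lit 456) (nat_lit 0) (XT.lf (nat_lit 0) (nat_lit 2959310154) (nat_lit 228) (nat_lit 4407551839) (nat_lit 76) (nat_lit 6950994394) (nat_lit 40) (nat_lit 5) (nat_lit 43) (nat_lit 5) (nat_lit 41) (nat_lit 5) (nat_lit 374) (nat_lit 279) (nat_lit 247)) (XT.nd (nat_lit 78) (nat_lit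 228) (nat_lit 0) (XT.lf (nat_lit 0) (nat_lit 7586736398) (nat_lit 228) (nat_lit 1334593419) (nat_lit 304) (nat_lit 5683392643) (nat_lit 37) (nat_lit 5) (nat_lit 40) (nat_lit 5) (nat_lit 41) (nat_lit 5) (nat_lit 375) (nat_lit 279) (nat_lit 246)) (XT.lf (nat_lit 0) (nat_lit 163903328) (nat_lit 228) (nat_lit 9921270350) (nat_lit 76) (nat_lit 4814939189) (nat_lit 34) (nat_lit 5) (nat_lit 37) (nat_lit 5) (nat_lit 35) (nat_lit 5) (nat_lit 376) (nat_lit 279) (nat_lit 245))))) (XT.nd (nat_lit 156) (nat_lit 532) (nat_lit 0) (XT.nd (nat_lit 78) (nat_lit 0) (nat_lit 0) (XT.lf (nat_lit 0) (nat_lit 2054147653) (nat_lit 228) (nat_lit 4036789117) (nat_lit 304) (nat_lit 9113065269) (nat_lit 31) (nat_lit 5) (nat_lit 34) (nat_lit 5) (nat_lit 35) (nat_lit 5) (nat_lit 377) (nat_lit 279) (nat_lit 244)) (XT.lf (nat_lit 0) (nat_lit 12189852011) (nat_lit 304) (nat_lit 1158343845) (nat_lit 76) (nat_lit 2168949132) (nat_lit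 31) (nat_lit 5) (nat_lit 35) (nat_lit 5) (nat_lit 32) (nat_lit 4) (nat_lit 378) (nat_lit 279) (nat_lit 243))) (XT.nd (nat_lit 78) (nat_lit 304) (nat_lit 0) (XT.lf (nat_lit 0) (nat_lit 2611805518) (nat_lit 228) (nat_lit 4692446332) (nat_lit 76) (nat_lit 8534820760) (nat_lit 28) (nat_lit 5) (nat_lit 31) (nat_lit 5) (nat_lit 29) (nat_lit 5) (nat_lit 379) (nat_lit 279) (nat_lit 242)) (XT.nd (nat_lit 78) (nat_lit 152) (nat_lit 0) (XT.lf (nat_lit 0) (nat_lit 7596509766) (nat_lit 152) (nat_lit 1060524272) (nat_lit 228) (nat_lit 7513738025) (nat_lit 26) (nat_lit 5) (nat_lit 28) (nat_lit 5) (nat_lit 29) (nat_lit 5) (nat_lit 380) (nat_lit 279) (nat_lit 241)) (XT.lf (nat_lit 0) (nat_lit 3673877923) (nat_lit 152) (nat_lit 11217269830) (nat_lit 228) (nat_lit 1621140793) (nat_lit 24) (nat_lit 5) (nat_lit 26) (nat_lit 5) (nat_lit 27) (nat_lit 4) (nat_lit 381) (nat_lit 279) (nat_lit 240))))))) (XT.nd (nat_lit 43914)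 (nat_lit 0) (nat_lit 7904) (XT.nd (nat_lit 390) (nat_lit 76) (nat_lit 0) (XT.nd (nat_lit 156) (nat_lit 380) (nat_lit 0) (XT.nd (nat_lit 78) (nat_lit 152) (nat_lit 0) (XT.lf (nat_lit 0) (nat_lit 4373206920) (nat_lit 228) (nat_lit 636966787) (nat_lit 76) (nat_lit 11853648772) (nat_lit 23) (nat_lit 5) (nat_lit 26) (nat_lit 5) (nat_lit 24) (nat_lit 5) (nat_lit 382) (nat_lit 279) (nat_lit 239)) (XT.lf (nat_lit 0) (nat_lit 10532283174) (nat_lit 228) (nat_lit 5299039282) (nat_lit 76) (nat_lit 1394242548) (nat_lit 21) (nat_lit 5) (nat_lit 24) (nat_lit 5) (nat_lit 22) (nat_lit 4) (nat_lit 383) (nat_lit 279) (nat_lit 238))) (XT.nd (nat_lit 78) (nat_lit 228) (nat_lit 0) (XT.lf (nat_lit 0) (nat_lit 7199195041) (nat_lit 152) (nat_lit 9682700793) (nat_lit 228) (nat_lit 716163594) (nat_lit 19) (nat_lit 5) (nat_lit 21) (nat_lit 5) (nat_lit 22) (nat_lit 4) (nat_lit 384) (nat_lit 279) (nat_lit 237)) (XT.nd (nat_lit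 78) (nat_lit 0) (nat_lit 0) (XT.lf (nat_lit 0) (nat_lit 2016741179) (nat_lit 152) (nat_lit 3323468211) (nat_lit 228) (nat_lit 12641401217) (nat_lit 16) (nat_lit 5) (nat_lit 18) (nat_lit 5) (nat_lit 19) (nat_lit 5) (nat_lit 385) (nat_lit 279) (nat_lit 236)) (XT.lf (nat_lit 0) (nat_lit 11583536076) (nat_lit 228) (nat_lit 3591277276) (nat_lit 76) (nat_lit 3201474220) (nat_lit 16) (nat_lit 5) (nat_lit 19) (nat_lit 5) (nat_lit 17) (nat_lit 4) (nat_lit 386) (nat_lit 279) (nat_lit 235))))) (XT.nd (nat_lit 43290) (nat_lit 0) (nat_lit 13224) (XT.nd (nat_lit 43212) (nat_lit 0) (nat_lit 15048) (XT.lf (nat_lit 0) (nat_lit 9117899768) (nat_lit 76) (nat_lit 8902984260) (nat_lit 152) (nat_lit 761799761) (nat_lit 15) (nat_lit 5) (nat_lit 16) (nat_lit 5) (nat_lit 17) (nat_lit 4) (nat_lit 387) (nat_lit 279) (nat_lit 234)) (XT.lf (nat_lit 0) (nat_lit 780673700) (nat_lit 608) (nat_lit 2587695977) (nat_lit 0) (nat_lit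 780673700) (nat_lit 213) (nat_lit 5) (nat_lit 221) (nat_lit 4) (nat_lit 213) (nat_lit 4) (nat_lit 340) (nat_lit 280) (nat_lit 280))) (XT.nd (nat_lit 78) (nat_lit 1216) (nat_lit 0) (XT.lf (nat_lit 0) (nat_lit 4186158430) (nat_lit 608) (nat_lit 2949140578) (nat_lit 608) (nat_lit 1262515560) (nat_lit 205) (nat_lit 4) (nat_lit 213) (nat_lit 5) (nat_lit 213) (nat_lit 4) (nat_lit 341) (nat_lit 280) (nat_lit 279)) (XT.nd (nat_lit 78) (nat_lit 608) (nat_lit 0) (XT.lf (nat_lit 0) (nat_lit 4252435348) (nat_lit 608) (nat_lit 3255437984) (nat_lit 0) (nat_lit 993489236) (nat_lit 197) (nat_lit 5) (nat_lit 205) (nat_lit 4) (nat_lit 197) (nat_lit 4) (nat_lit 342) (nat_lit 280) (nat_lit 278)) (XT.lf (nat_lit 0) (nat_lit 1240361412) (nat_lit 608) (nat_lit 2312049236) (nat_lit 76) (nat_lit 5056346820) (nat_lit 189) (nat_lit 5) (nat_lit 197) (nat_lit 5) (nat_lit 190) (nat_lit 4) (nat_lit 343) (nat_lit 280) (nat_lit 277))))))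 (XT.nd (nat_lit 390) (nat_lit 2204) (nat_lit 0) (XT.nd (nat_lit 156) (nat_lit 1976) (nat_lit 0) (XT.nd (nat_lit 78) (nat_lit 608) (nat_lit 0) (XT.lf (nat_lit 0) (nat_lit 6773033058) (nat_lit 608) (nat_lit 1380768293) (nat_lit 0) (nat_lit 566351308) (nat_lit 182) (nat_lit 5) (nat_lit 190) (nat_lit 4) (nat_lit 182) (nat_lit 4) (nat_lit 344) (nat_lit 280) (nat_lit 276)) (XT.lf (nat_lit 0) (nat_lit 3547686933) (nat_lit 608) (nat_lit 480708317) (nat_lit 76) (nat_lit 4806915878) (nat_lit 174) (nat_lit 5) (nat_lit 182) (nat_lit 5) (nat_lit 175) (nat_lit 4) (nat_lit 345) (nat_lit 280) (nat_lit 275))) (XT.nd (nat_lit 78) (nat_lit 988) (nat_lit 0) (XT.lf (nat_lit 0) (nat_lit 165421588) (nat_lit 532) (nat_lit 8533924895) (nat_lit 76) (nat_lit 255529564) (nat_lit 161) (nat_lit 5) (nat_lit 168) (nat_lit 5) (nat_lit 162) (nat_lit 4) (nat_lit 346) (nat_lit 280) (nat_lit 274)) (XT.nd (nat_lit 78) (nat_lit 532) (nat_lit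 0) (XT.lf (nat_lit 0) (nat_lit 1274029994) (nat_lit 456) (nat_lit 4405750912) (nat_lit 532) (nat_lit 3398217264) (nat_lit 155) (nat_lit 5) (nat_lit 161) (nat_lit 5) (nat_lit 162) (nat_lit 4) (nat_lit 347) (nat_lit 280) (nat_lit 273)) (XT.lf (nat_lit 0) (nat_lit 2067572413) (nat_lit 532) (nat_lit 7089591859) (nat_lit 76) (nat_lit 48605947) (nat_lit 148) (nat_lit 5) (nat_lit 155) (nat_lit 5) (nat_lit 149) (nat_lit 4) (nat_lit 348) (nat_lit 280) (nat_lit 272))))) (XT.nd (nat_lit 156) (nat_lit 1292) (nat_lit 0) (XT.nd (nat_lit 78) (nat_lit 532) (nat_lit 0) (XT.lf (nat_lit 0) (nat_lit 2904476410) (nat_lit 380) (nat_lit 4719586392) (nat_lit 456) (nat_lit 1713461369) (nat_lit 143) (nat_lit 5) (nat_lit 148) (nat_lit 5) (nat_lit 149) (nat_lit 4) (nat_lit 349) (nat_lit 280) (nat_lit 271)) (XT.lf (nat_lit 0) (nat_lit 3661444476) (nat_lit 456) (nat_lit 106654930) (nat_lit 532) (nat_lit 5705783673) (nat_lit 136)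 (nat_lit 5) (nat_lit 142) (nat_lit 5) (nat_lit 143) (nat_lit 5) (nat_lit 350) (nat_lit 280) (nat_lit 270))) (XT.nd (nat_lit 78) (nat_lit 912) (nat_lit 0) (XT.lf (nat_lit 0) (nat_lit 4365279913) (nat_lit 380) (nat_lit 5002980940) (nat_lit 456) (nat_lit 246348373) (nat_lit 131) (nat_lit 5) (nat_lit 136) (nat_lit 5) (nat_lit 137) (nat_lit 4) (nat_lit 351) (nat_lit 280) (nat_lit 269)) (XT.nd (nat_lit 78) (nat_lit 456) (nat_lit 0) (XT.lf (nat_lit 0) (nat_lit 5016886161) (nat_lit 380) (nat_lit 238929910) (nat_lit 456) (nat_lit 4504102756) (nat_lit 125) (nat_lit 5) (nat_lit 130) (nat_lit 5) (nat_lit 131) (nat_lit 5) (nat_lit 352) (nat_lit 280) (nat_lit 268)) (XT.lf (nat_lit 0) (nat_lit 977894309) (nat_lit 456) (nat_lit 4302191808) (nat_lit 76) (nat_lit 4629764676) (nat_lit 119) (nat_lit 5) (nat_lit 125) (nat_lit 5) (nat_lit 120) (nat_lit 5) (nat_lit 353) (nat_lit 280) (nat_lit 267))))))))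
noncomputable def xc15 : XT := (XT.nd (nat_lit 1482) (nat_lit 2356) (nat_lit 0) (XT.nd (nat_lit 702) (nat_lit 2432) (nat_lit 0) (XT.nd (nat_lit 312) (nat_lit 1596) (nat_lit 0) (XT.nd (nat_lit 156) (nat_lit 760) (nat_lit 0) (XT.nd (nat_lit 78) (nat_lit 380) (nat_lit 0) (XT.lf (nat_lit 0) (nat_lit 6138754031) (nat_lit 380) (nat_lit 378691053) (nat_lit 456) (nat_lit 3547199889) (nat_lit 114) (nat_lit 5) (nat_lit 119) (nat_lit 5) (nat_lit 120) (nat_lit 5) (nat_lit 354) (nat_lit 280) (nat_lit 266)) (XT.lf (nat_lit 0) (nat_lit 1957372621) (nat_lit 380) (nat_lit 3631946209) (nat_lit 76) (nat_lit 4634857971) (nat_lit 109) (nat_lit 5) (nat_lit 114) (nat_lit 5) (nat_lit 110) (nat_lit 5) (nat_lit 355) (nat_lit 280) (nat_lit 265))) (XT.nd (nat_lit 78) (nat_lit 380) (nat_lit 0) (XT.lf (nat_lit 0) (nat_lit 6979017867) (nat_lit 380) (nat_lit 558338854) (nat_lit 456) (nat_lit 2851541571) (nat_lit 104) (nat_lit 5)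 (nat_lit 109) (nat_lit 5) (nat_lit 110) (nat_lit 5) (nat_lit 356) (nat_lit 280) (nat_lit 264)) (XT.lf (nat_lit 0) (nat_lit 2677847439) (nat_lit 380) (nat_lit 3287904514) (nat_lit 76) (nat_lit 4592746979) (nat_lit 99) (nat_lit 5) (nat_lit 104) (nat_lit 5) (nat_lit 100) (nat_lit 5) (nat_lit 357) (nat_lit 280) (nat_lit 263)))) (XT.nd (nat_lit 156) (nat_lit 912) (nat_lit 0) (XT.nd (nat_lit 78) (nat_lit 380) (nat_lit 0) (XT.lf (nat_lit 0) (nat_lit 7485171237) (nat_lit 304) (nat_lit 811872858) (nat_lit 380) (nat_lit 2436551978) (nat_lit 95) (nat_lit 5) (nat_lit 99) (nat_lit 5) (nat_lit 100) (nat_lit 5) (nat_lit 358) (nat_lit 280) (nat_lit 262)) (XT.lf (nat_lit 0) (nat_lit 3118831633) (nat_lit 380) (nat_lit 3325800326) (nat_lit 76) (nat_lit 4469148401) (nat_lit 90) (nat_lit 5) (nat_lit 95) (nat_lit 5) (nat_lit 91) (nat_lit 5) (nat_lit 359) (nat_lit 280) (nat_lit 261))) (XT.nd (nat_lit 78) (nat_lit 608) (nat_lit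 0) (XT.lf (nat_lit 0) (nat_lit 7599662010) (nat_lit 304) (nat_lit 1175228338) (nat_lit 380) (nat_lit 2324851237) (nat_lit 86) (nat_lit 5) (nat_lit 90) (nat_lit 5) (nat_lit 91) (nat_lit 5) (nat_lit 360) (nat_lit 280) (nat_lit 260)) (XT.nd (nat_lit 78) (nat_lit 304) (nat_lit 0) (XT.lf (nat_lit 0) (nat_lit 3256570996) (nat_lit 304) (nat_lit 3806788726) (nat_lit 76) (nat_lit 4227713834) (nat_lit 82) (nat_lit 5) (nat_lit 86) (nat_lit 5) (nat_lit 83) (nat_lit 5) (nat_lit 361) (nat_lit 280) (nat_lit 259)) (XT.lf (nat_lit 0) (nat_lit 7259269391) (nat_lit 304) (nat_lit 1686636188) (nat_lit 380) (nat_lit 2542524592) (nat_lit 78) (nat_lit 5) (nat_lit 82) (nat_lit 5) (nat_lit 83) (nat_lit 5) (nat_lit 362) (nat_lit 280) (nat_lit 258)))))) (XT.nd (nat_lit 390) (nat_lit 988) (nat_lit 0) (XT.nd (nat_lit 156) (nat_lit 836) (nat_lit 0) (XT.nd (nat_lit 78) (nat_lit 304) (nat_lit 0) (XT.lf (nat_lit 0) (nat_lit 3063762487)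 (nat_lit 304) (nat_lit 4798102513) (nat_lit 76) (nat_lit 3829661767) (nat_lit 74) (nat_lit 5) (nat_lit 78) (nat_lit 5) (nat_lit 75) (nat_lit 5) (nat_lit 363) (nat_lit 280) (nat_lit 257)) (XT.lf (nat_lit 0) (nat_lit 6394421413) (nat_lit 304) (nat_lit 2387009389) (nat_lit 380) (nat_lit 3119425248) (nat_lit 70) (nat_lit 5) (nat_lit 74) (nat_lit 5) (nat_lit 75) (nat_lit 5) (nat_lit 364) (nat_lit 280) (nat_lit 256))) (XT.nd (nat_lit 78) (nat_lit 532) (nat_lit 0) (XT.lf (nat_lit 0) (nat_lit 2509237790) (nat_lit 304) (nat_lit 6373771786) (nat_lit 76) (nat_lit 3233381670) (nat_lit 66) (nat_lit 5) (nat_lit 70) (nat_lit 5) (nat_lit 67) (nat_lit 5) (nat_lit 365) (nat_lit 280) (nat_lit 255)) (XT.nd (nat_lit 78) (nat_lit 304) (nat_lit 0) (XT.lf (nat_lit 0) (nat_lit 4928446214) (nat_lit 228) (nat_lit 3320359681) (nat_lit 304) (nat_lit 4089513996) (nat_lit 63) (nat_lit 5) (nat_lit 66) (nat_lit 5) (nat_lit 67) (nat_lit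 5) (nat_lit 366) (nat_lit 280) (nat_lit 254)) (XT.lf (nat_lit 0) (nat_lit 1557608972) (nat_lit 304) (nat_lit 8615413884) (nat_lit 76) (nat_lit 2394006424) (nat_lit 59) (nat_lit 5) (nat_lit 63) (nat_lit 5) (nat_lit 60) (nat_lit 5) (nat_lit 367) (nat_lit 280) (nat_lit 253))))) (XT.nd (nat_lit 156) (nat_lit 456) (nat_lit 0) (XT.nd (nat_lit 78) (nat_lit 304) (nat_lit 0) (XT.lf (nat_lit 0) (nat_lit 2776749764) (nat_lit 228) (nat_lit 4534248374) (nat_lit 304) (nat_lit 5491239069) (nat_lit 56) (nat_lit 5) (nat_lit 59) (nat_lit 5) (nat_lit 60) (nat_lit 5) (nat_lit 368) (nat_lit 280) (nat_lit 252)) (XT.lf (nat_lit 0) (nat_lit 168872618) (nat_lit 304) (nat_lit 11613101409) (nat_lit 76) (nat_lit 1262949050) (nat_lit 52) (nat_lit 5) (nat_lit 56) (nat_lit 5) (nat_lit 53) (nat_lit 5) (nat_lit 369) (nat_lit 280) (nat_lit 251))) (XT.nd (nat_lit 78) (nat_lit 456) (nat_lit 0) (XT.lf (nat_lit 0) (nat_lit 5927188041)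 (nat_lit 304) (nat_lit 152067106) (nat_lit 76) (nat_lit 7214872503) (nat_lit 52) (nat_lit 5) (nat_lit 56) (nat_lit 5) (nat_lit 53) (nat_lit 5) (nat_lit 370) (nat_lit 280) (nat_lit 250)) (XT.nd (nat_lit 78) (nat_lit 228) (nat_lit 0) (XT.lf (nat_lit 0) (nat_lit 11649149768) (nat_lit 228) (nat_lit 191408260) (nat_lit 304) (nat_lit 1710627693) (nat_lit 49) (nat_lit 5) (nat_lit 52) (nat_lit 5) (nat_lit 53) (nat_lit 5) (nat_lit 371) (nat_lit 280) (nat_lit 249)) (XT.lf (nat_lit 0) (nat_lit 4073063566) (nat_lit 228) (nat_lit 3915275551) (nat_lit 76) (nat_lit 5826871077) (nat_lit 46) (nat_lit 5) (nat_lit 49) (nat_lit 5) (nat_lit 47) (nat_lit 5) (nat_lit 372) (nat_lit 280) (nat_lit 248))))))) (XT.nd (nat_lit 780) (nat_lit 608) (nat_lit 0) (XT.nd (nat_lit 390) (nat_lit 836) (nat_lit 0) (XT.nd (nat_lit 156) (nat_lit 456) (nat_lit 0) (XT.nd (nat_lit 78) (nat_lit 228) (nat_lit 0) (XT.lf (nat_lit 0) (nat_lit 7932278297)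 (nat_lit 228) (nat_lit 2049688483) (nat_lit 304) (nat_lit 4105485317) (nat_lit 43) (nat_lit 5) (nat_lit 46) (nat_lit 5) (nat_lit 47) (nat_lit 5) (nat_lit 373) (nat_lit 280) (nat_lit 247)) (XT.lf (nat_lit 0) (nat_lit 1678505164) (nat_lit 228) (nat_lit 8661951321) (nat_lit 76) (nat_lit 4027194049) (nat_lit 40) (nat_lit 5) (nat_lit 43) (nat_lit 5) (nat_lit 41) (nat_lit 5) (nat_lit 374) (nat_lit 280) (nat_lit 246))) (XT.nd (nat_lit 78) (nat_lit 228) (nat_lit 0) (XT.lf (nat_lit 0) (nat_lit 3200090142) (nat_lit 228) (nat_lit 4368281869) (nat_lit 304) (nat_lit 7087597522) (nat_lit 37) (nat_lit 5) (nat_lit 40) (nat_lit 5) (nat_lit 41) (nat_lit 5) (nat_lit 375) (nat_lit 280) (nat_lit 245)) (XT.nd (nat_lit 78) (nat_lit 76) (nat_lit 0) (XT.lf (nat_lit 0) (nat_lit 427873344) (nat_lit 152) (nat_lit 13193057153) (nat_lit 228) (nat_lit 1332307145) (nat_lit 35) (nat_lit 5) (nat_lit 37) (nat_lit 5) (nat_lit 38) (nat_lit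 4) (nat_lit 376) (nat_lit 280) (nat_lit 244)) (XT.lf (nat_lit 0) (nat_lit 4556278578) (nat_lit 228) (nat_lit 2641779526) (nat_lit 76) (nat_lit 8060369259) (nat_lit 34) (nat_lit 5) (nat_lit 37) (nat_lit 5) (nat_lit 35) (nat_lit 5) (nat_lit 377) (nat_lit 280) (nat_lit 243))))) (XT.nd (nat_lit 156) (nat_lit 380) (nat_lit 0) (XT.nd (nat_lit 78) (nat_lit 228) (nat_lit 0) (XT.lf (nat_lit 0) (nat_lit 9569971102) (nat_lit 228) (nat_lit 1011759483) (nat_lit 304) (nat_lit 4991317846) (nat_lit 31) (nat_lit 5) (nat_lit 34) (nat_lit 5) (nat_lit 35) (nat_lit 5) (nat_lit 378) (nat_lit 280) (nat_lit 242)) (XT.lf (nat_lit 0) (nat_lit 889415033) (nat_lit 228) (nat_lit 9712893435) (nat_lit 76) (nat_lit 5294495885) (nat_lit 28) (nat_lit 5) (nat_lit 31) (nat_lit 5) (nat_lit 29) (nat_lit 5) (nat_lit 379) (nat_lit 280) (nat_lit 241))) (XT.nd (nat_lit 78) (nat_lit 228) (nat_lit 0) (XT.lf (nat_lit 0) (nat_lit 2438144926)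 (nat_lit 152) (nat_lit 4422680635) (nat_lit 228) (nat_lit 9369162788) (nat_lit 26) (nat_lit 5) (nat_lit 28) (nat_lit 5) (nat_lit 29) (nat_lit 5) (nat_lit 380) (nat_lit 280) (nat_lit 240)) (XT.nd (nat_lit 78) (nat_lit 228) (nat_lit 0) (XT.lf (nat_lit 0) (nat_lit 13009464271) (nat_lit 228) (nat_lit 1639790581) (nat_lit 76) (nat_lit 1923967425) (nat_lit 26) (nat_lit 5) (nat_lit 29) (nat_lit 5) (nat_lit 27) (nat_lit 4) (nat_lit 381) (nat_lit 280) (nat_lit 239)) (XT.lf (nat_lit 0) (nat_lit 2405862717) (nat_lit 228) (nat_lit 6090024797) (nat_lit 76) (nat_lit 8430132609) (nat_lit 23) (nat_lit 5) (nat_lit 26) (nat_lit 5) (nat_lit 24) (nat_lit 5) (nat_lit 382) (nat_lit 280) (nat_lit 238)))))) (XT.nd (nat_lit 43368) (nat_lit 0) (nat_lit 13832) (XT.nd (nat_lit 156) (nat_lit 304) (nat_lit 0) (XT.nd (nat_lit 78) (nat_lit 152) (nat_lit 0) (XT.lf (nat_lit 0) (nat_lit 6342344871) (nat_lit 152) (nat_lit 2138905253)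 (nat_lit 228) (nat_lit 8808193644) (nat_lit 21) (nat_lit 5) (nat_lit 23) (nat_lit 5) (nat_lit 24) (nat_lit 5) (nat_lit 383) (nat_lit 280) (nat_lit 237)) (XT.lf (nat_lit 0) (nat_lit 1422660245) (nat_lit 152) (nat_lit 13319109762) (nat_lit 228) (nat_lit 2921957167) (nat_lit 19) (nat_lit 5) (nat_lit 21) (nat_lit 5) (nat_lit 22) (nat_lit 4) (nat_lit 384) (nat_lit 280) (nat_lit 236))) (XT.nd (nat_lit 78) (nat_lit 228) (nat_lit 0) (XT.lf (nat_lit 0) (nat_lit 3112971302) (nat_lit 228) (nat_lit 3903613565) (nat_lit 76) (nat_lit 11031994180) (nat_lit 18) (nat_lit 5) (nat_lit 21) (nat_lit 5) (nat_lit 19) (nat_lit 5) (nat_lit 385) (nat_lit 280) (nat_lit 235)) (XT.nd (nat_lit 78) (nat_lit 76) (nat_lit 0) (XT.lf (nat_lit 0) (nat_lit 8769309561) (nat_lit 152) (nat_lit 503628659) (nat_lit 228) (nat_lit 9171991574) (nat_lit 16) (nat_lit 5) (nat_lit 18) (nat_lit 5) (nat_lit 19) (nat_lit 5) (nat_lit 386) (nat_lit 280)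 (nat_lit 234)) (XT.lf (nat_lit 0) (nat_lit 2891567705) (nat_lit 76) (nat_lit 12739295187) (nat_lit 152) (nat_lit 3222057979) (nat_lit 15) (nat_lit 5) (nat_lit 16) (nat_lit 5) (nat_lit 17) (nat_lit 4) (nat_lit 387) (nat_lit 280) (nat_lit 233))))) (XT.nd (nat_lit 156) (nat_lit 1824) (nat_lit 0) (XT.nd (nat_lit 78) (nat_lit 608) (nat_lit 0) (XT.lf (nat_lit 0) (nat_lit 272184042) (nat_lit 684) (nat_lit 3509843506) (nat_lit 0) (nat_lit 272184042) (nat_lit 229) (nat_lit 5) (nat_lit 238) (nat_lit 4) (nat_lit 229) (nat_lit 4) (nat_lit 338) (nat_lit 281) (nat_lit 281)) (XT.lf (nat_lit 0) (nat_lit 2052530521) (nat_lit 608) (nat_lit 3960716622) (nat_lit 608) (nat_lit 2188748378) (nat_lit 221) (nat_lit 4) (nat_lit 229) (nat_lit 5) (nat_lit 229) (nat_lit 4) (nat_lit 339) (nat_lit 281) (nat_lit 280))) (XT.nd (nat_lit 78) (nat_lit 1216) (nat_lit 0) (XT.lf (nat_lit 0) (nat_lit 3030071731) (nat_lit 532) (nat_lit 198837918)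 (nat_lit 608) (nat_lit 5070608846) (nat_lit 213) (nat_lit 5) (nat_lit 220) (nat_lit 5) (nat_lit 221) (nat_lit 4) (nat_lit 340) (nat_lit 281) (nat_lit 279)) (XT.nd (nat_lit 78) (nat_lit 532) (nat_lit 0) (XT.lf (nat_lit 0) (nat_lit 326432135) (nat_lit 684) (nat_lit 4401955888) (nat_lit 76) (nat_lit 3672280318) (nat_lit 204) (nat_lit 5) (nat_lit 213) (nat_lit 5) (nat_lit 205) (nat_lit 4) (nat_lit 341) (nat_lit 281) (nat_lit 278)) (XT.lf (nat_lit 0) (nat_lit 4960727479) (nat_lit 532) (nat_lit 787729016) (nat_lit 608) (nat_lit 2757158860) (nat_lit 197) (nat_lit 5) (nat_lit 204) (nat_lit 5) (nat_lit 205) (nat_lit 4) (nat_lit 342) (nat_lit 281) (nat_lit 277))))))))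
noncomputable def xc16 : XT := (XT.nd (nat_lit 1482) (nat_lit 4104) (nat_lit 0) (XT.nd (nat_lit 702) (nat_lit 3648) (nat_lit 0) (XT.nd (nat_lit 312) (nat_lit 2812) (nat_lit 0) (XT.nd (nat_lit 156) (nat_lit 1140) (nat_lit 0) (XT.nd (nat_lit 78) (nat_lit 532) (nat_lit 0) (XT.lf (nat_lit 0) (nat_lit 2637796065) (nat_lit 608) (nat_lit 2705627889) (nat_lit 76) (nat_lit 3270921843) (nat_lit 189) (nat_lit 5) (nat_lit 197) (nat_lit 5) (nat_lit 190) (nat_lit 4) (nat_lit 343) (nat_lit 281) (nat_lit 276)) (XT.lf (nat_lit 0) (nat_lit 6854426394) (nat_lit 532) (nat_lit 1243377364) (nat_lit 608) (nat_lit 629423396) (nat_lit 182) (nat_lit 5) (nat_lit 189) (nat_lit 5) (nat_lit 190) (nat_lit 4) (nat_lit 344) (nat_lit 281) (nat_lit 275))) (XT.nd (nat_lit 78) (nat_lit 532) (nat_lit 0) (XT.lf (nat_lit 0) (nat_lit 4771159892) (nat_lit 608) (nat_lit 1077460303) (nat_lit 76) (nat_lit 2995164454) (nat_lit 174) (nat_lit 5)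 (nat_lit 182) (nat_lit 5) (nat_lit 175) (nat_lit 4) (nat_lit 345) (nat_lit 281) (nat_lit 274)) (XT.lf (nat_lit 0) (nat_lit 1291375381) (nat_lit 532) (nat_lit 293975426) (nat_lit 76) (nat_lit 7379332999) (nat_lit 167) (nat_lit 5) (nat_lit 174) (nat_lit 5) (nat_lit 168) (nat_lit 5) (nat_lit 346) (nat_lit 281) (nat_lit 273)))) (XT.nd (nat_lit 156) (nat_lit 1368) (nat_lit 0) (XT.nd (nat_lit 78) (nat_lit 532) (nat_lit 0) (XT.lf (nat_lit 0) (nat_lit 455242614) (nat_lit 456) (nat_lit 6269350092) (nat_lit 532) (nat_lit 2364864991) (nat_lit 155) (nat_lit 5) (nat_lit 161) (nat_lit 5) (nat_lit 162) (nat_lit 4) (nat_lit 347) (nat_lit 281) (nat_lit 272)) (XT.lf (nat_lit 0) (nat_lit 1178160331) (nat_lit 456) (nat_lit 1840052638) (nat_lit 532) (nat_lit 6200293310) (nat_lit 148) (nat_lit 5) (nat_lit 154) (nat_lit 5) (nat_lit 155) (nat_lit 5) (nat_lit 348) (nat_lit 281) (nat_lit 271))) (XT.nd (nat_lit 78) (nat_lit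 988) (nat_lit 0) (XT.lf (nat_lit 0) (nat_lit 1863290804) (nat_lit 380) (nat_lit 6631047478) (nat_lit 456) (nat_lit 857555984) (nat_lit 143) (nat_lit 5) (nat_lit 148) (nat_lit 5) (nat_lit 149) (nat_lit 4) (nat_lit 349) (nat_lit 281) (nat_lit 270)) (XT.nd (nat_lit 78) (nat_lit 456) (nat_lit 0) (XT.lf (nat_lit 0) (nat_lit 2496941230) (nat_lit 456) (nat_lit 2047422673) (nat_lit 532) (nat_lit 4945171884) (nat_lit 136) (nat_lit 5) (nat_lit 142) (nat_lit 5) (nat_lit 143) (nat_lit 5) (nat_lit 350) (nat_lit 281) (nat_lit 269)) (XT.lf (nat_lit 0) (nat_lit 426280110) (nat_lit 456) (nat_lit 6541392277) (nat_lit 76) (nat_lit 2664171763) (nat_lit 130) (nat_lit 5) (nat_lit 136) (nat_lit 5) (nat_lit 131) (nat_lit 5) (nat_lit 351) (nat_lit 281) (nat_lit 268)))))) (XT.nd (nat_lit 390) (nat_lit 1672) (nat_lit 0) (XT.nd (nat_lit 156) (nat_lit 1140) (nat_lit 0) (XT.nd (nat_lit 78) (nat_lit 456) (nat_lit 0) (XT.lf (nat_lit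 0) (nat_lit 3617758793) (nat_lit 380) (nat_lit 2239320025) (nat_lit 456) (nat_lit 3921429153) (nat_lit 125) (nat_lit 5) (nat_lit 130) (nat_lit 5) (nat_lit 131) (nat_lit 5) (nat_lit 352) (nat_lit 281) (nat_lit 267)) (XT.lf (nat_lit 0) (nat_lit 1471500194) (nat_lit 456) (nat_lit 5836919308) (nat_lit 76) (nat_lit 2621595672) (nat_lit 119) (nat_lit 5) (nat_lit 125) (nat_lit 5) (nat_lit 120) (nat_lit 5) (nat_lit 353) (nat_lit 281) (nat_lit 266))) (XT.nd (nat_lit 78) (nat_lit 760) (nat_lit 0) (XT.lf (nat_lit 0) (nat_lit 4496408110) (nat_lit 380) (nat_lit 2446650400) (nat_lit 456) (nat_lit 3143132424) (nat_lit 114) (nat_lit 5) (nat_lit 119) (nat_lit 5) (nat_lit 120) (nat_lit 5) (nat_lit 354) (nat_lit 281) (nat_lit 265)) (XT.nd (nat_lit 78) (nat_lit 380) (nat_lit 0) (XT.lf (nat_lit 0) (nat_lit 2274339337) (nat_lit 380) (nat_lit 5416403352) (nat_lit 76) (nat_lit 2556584312) (nat_lit 109) (nat_lit 5) (nat_lit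 114) (nat_lit 5) (nat_lit 110) (nat_lit 5) (nat_lit 355) (nat_lit 281) (nat_lit 264)) (XT.lf (nat_lit 0) (nat_lit 5084703139) (nat_lit 380) (nat_lit 2701636086) (nat_lit 456) (nat_lit 2627089032) (nat_lit 104) (nat_lit 5) (nat_lit 109) (nat_lit 5) (nat_lit 110) (nat_lit 5) (nat_lit 356) (nat_lit 281) (nat_lit 263))))) (XT.nd (nat_lit 156) (nat_lit 988) (nat_lit 0) (XT.nd (nat_lit 78) (nat_lit 304) (nat_lit 0) (XT.lf (nat_lit 0) (nat_lit 2816996209) (nat_lit 380) (nat_lit 5330930837) (nat_lit 76) (nat_lit 2436739020) (nat_lit 99) (nat_lit 5) (nat_lit 104) (nat_lit 5) (nat_lit 100) (nat_lit 5) (nat_lit 357) (nat_lit 281) (nat_lit 262)) (XT.lf (nat_lit 0) (nat_lit 5329955803) (nat_lit 304) (nat_lit 3038130629) (nat_lit 380) (nat_lit 2393057461) (nat_lit 95) (nat_lit 5) (nat_lit 99) (nat_lit 5) (nat_lit 100) (nat_lit 5) (nat_lit 358) (nat_lit 281) (nat_lit 261))) (XT.nd (nat_lit 78) (nat_lit 608) (nat_lit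 0) (XT.lf (nat_lit 0) (nat_lit 3078658081) (nat_lit 380) (nat_lit 5636435670) (nat_lit 76) (nat_lit 2227908398) (nat_lit 90) (nat_lit 5) (nat_lit 95) (nat_lit 5) (nat_lit 91) (nat_lit 5) (nat_lit 359) (nat_lit 281) (nat_lit 260)) (XT.nd (nat_lit 78) (nat_lit 304) (nat_lit 0) (XT.lf (nat_lit 0) (nat_lit 5174407033) (nat_lit 304) (nat_lit 3491953785) (nat_lit 380) (nat_lit 2463986824) (nat_lit 86) (nat_lit 5) (nat_lit 90) (nat_lit 5) (nat_lit 91) (nat_lit 5) (nat_lit 360) (nat_lit 281) (nat_lit 259)) (XT.lf (nat_lit 0) (nat_lit 3035249705) (nat_lit 304) (nat_lit 6394298094) (nat_lit 76) (nat_lit 1893846413) (nat_lit 82) (nat_lit 5) (nat_lit 86) (nat_lit 5) (nat_lit 83) (nat_lit 5) (nat_lit 361) (nat_lit 281) (nat_lit 258))))))) (XT.nd (nat_lit 702) (nat_lit 1824) (nat_lit 0) (XT.nd (nat_lit 312) (nat_lit 1064) (nat_lit 0) (XT.nd (nat_lit 156) (nat_lit 608) (nat_lit 0) (XT.nd (nat_lit 78) (nat_lit 304)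 (nat_lit 0) (XT.lf (nat_lit 0) (nat_lit 4554604244) (nat_lit 304) (nat_lit 4101249860) (nat_lit 380) (nat_lit 2866287173) (nat_lit 78) (nat_lit 5) (nat_lit 82) (nat_lit 5) (nat_lit 83) (nat_lit 5) (nat_lit 362) (nat_lit 281) (nat_lit 257)) (XT.lf (nat_lit 0) (nat_lit 2659150463) (nat_lit 304) (nat_lit 7672000577) (nat_lit 76) (nat_lit 1395845873) (nat_lit 74) (nat_lit 5) (nat_lit 78) (nat_lit 5) (nat_lit 75) (nat_lit 5) (nat_lit 363) (nat_lit 281) (nat_lit 256))) (XT.nd (nat_lit 78) (nat_lit 304) (nat_lit 0) (XT.lf (nat_lit 0) (nat_lit 3400719168) (nat_lit 304) (nat_lit 4906872770) (nat_lit 380) (nat_lit 3630133440) (nat_lit 70) (nat_lit 5) (nat_lit 74) (nat_lit 5) (nat_lit 75) (nat_lit 5) (nat_lit 364) (nat_lit 281) (nat_lit 255)) (XT.lf (nat_lit 0) (nat_lit 1918876881) (nat_lit 304) (nat_lit 9543847117) (nat_lit 76) (nat_lit 692343849) (nat_lit 66) (nat_lit 5) (nat_lit 70) (nat_lit 5) (nat_lit 67)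 (nat_lit 5) (nat_lit 365) (nat_lit 281) (nat_lit 254)))) (XT.nd (nat_lit 156) (nat_lit 532) (nat_lit 0) (XT.nd (nat_lit 78) (nat_lit 304) (nat_lit 0) (XT.lf (nat_lit 0) (nat_lit 1635799375) (nat_lit 228) (nat_lit 5952801435) (nat_lit 304) (nat_lit 4789806098) (nat_lit 63) (nat_lit 5) (nat_lit 66) (nat_lit 5) (nat_lit 67) (nat_lit 5) (nat_lit 366) (nat_lit 281) (nat_lit 253)) (XT.lf (nat_lit 0) (nat_lit 515467767) (nat_lit 228) (nat_lit 264979949) (nat_lit 304) (nat_lit 11828493469) (nat_lit 59) (nat_lit 5) (nat_lit 62) (nat_lit 5) (nat_lit 63) (nat_lit 5) (nat_lit 367) (nat_lit 281) (nat_lit 252))) (XT.nd (nat_lit 78) (nat_lit 532) (nat_lit 0) (XT.lf (nat_lit 0) (nat_lit 6466892429) (nat_lit 304) (nat_lit 814233096) (nat_lit 76) (nat_lit 5564374984) (nat_lit 59) (nat_lit 5) (nat_lit 63) (nat_lit 5) (nat_lit 60) (nat_lit 5) (nat_lit 368) (nat_lit 281) (nat_lit 251)) (XT.nd (nat_lit 78) (nat_lit 304)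 (nat_lit 0) (XT.lf (nat_lit 0) (nat_lit 10788937326) (nat_lit 228) (nat_lit 1513797704) (nat_lit 304) (nat_lit 786870139) (nat_lit 56) (nat_lit 5) (nat_lit 59) (nat_lit 5) (nat_lit 60) (nat_lit 5) (nat_lit 369) (nat_lit 281) (nat_lit 250)) (XT.lf (nat_lit 0) (nat_lit 4910725607) (nat_lit 304) (nat_lit 4022137090) (nat_lit 76) (nat_lit 4407481573) (nat_lit 52) (nat_lit 5) (nat_lit 56) (nat_lit 5) (nat_lit 53) (nat_lit 5) (nat_lit 370) (nat_lit 281) (nat_lit 249)))))) (XT.nd (nat_lit 390) (nat_lit 912) (nat_lit 0) (XT.nd (nat_lit 156) (nat_lit 456) (nat_lit 0) (XT.nd (nat_lit 78) (nat_lit 228) (nat_lit 0) (XT.lf (nat_lit 0) (nat_lit 7651840082) (nat_lit 228) (nat_lit 3101666567) (nat_lit 304) (nat_lit 2845318691) (nat_lit 49) (nat_lit 5) (nat_lit 52) (nat_lit 5) (nat_lit 53) (nat_lit 5) (nat_lit 371) (nat_lit 281) (nat_lit 248)) (XT.lf (nat_lit 0) (nat_lit 2862770024) (nat_lit 228) (nat_lit 8111600882)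 (nat_lit 76) (nat_lit 2890446615) (nat_lit 46) (nat_lit 5) (nat_lit 49) (nat_lit 5) (nat_lit 47) (nat_lit 5) (nat_lit 372) (nat_lit 281) (nat_lit 247))) (XT.nd (nat_lit 78) (nat_lit 228) (nat_lit 0) (XT.lf (nat_lit 0) (nat_lit 3605529539) (nat_lit 228) (nat_lit 5094555314) (nat_lit 304) (nat_lit 5438416709) (nat_lit 43) (nat_lit 5) (nat_lit 46) (nat_lit 5) (nat_lit 47) (nat_lit 5) (nat_lit 373) (nat_lit 281) (nat_lit 246)) (XT.nd (nat_lit 78) (nat_lit 0) (nat_lit 0) (XT.lf (nat_lit 0) (nat_lit 270622273) (nat_lit 228) (nat_lit 13195654480) (nat_lit 76) (nat_lit 954454864) (nat_lit 40) (nat_lit 5) (nat_lit 43) (nat_lit 5) (nat_lit 41) (nat_lit 5) (nat_lit 374) (nat_lit 281) (nat_lit 245)) (XT.lf (nat_lit 0) (nat_lit 6097312207) (nat_lit 228) (nat_lit 1448121725) (nat_lit 76) (nat_lit 7164889803) (nat_lit 40) (nat_lit 5) (nat_lit 43) (nat_lit 5) (nat_lit 41) (nat_lit 5) (nat_lit 375) (nat_lit 281) (nat_lit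 244))))) (XT.nd (nat_lit 156) (nat_lit 456) (nat_lit 0) (XT.nd (nat_lit 78) (nat_lit 228) (nat_lit 0) (XT.lf (nat_lit 0) (nat_lit 10648529270) (nat_lit 228) (nat_lit 1435846220) (nat_lit 304) (nat_lit 2924535561) (nat_lit 37) (nat_lit 5) (nat_lit 40) (nat_lit 5) (nat_lit 41) (nat_lit 5) (nat_lit 376) (nat_lit 281) (nat_lit 243)) (XT.lf (nat_lit 0) (nat_lit 2905389399) (nat_lit 228) (nat_lit 7595779640) (nat_lit 76) (nat_lit 4814738208) (nat_lit 34) (nat_lit 5) (nat_lit 37) (nat_lit 5) (nat_lit 35) (nat_lit 5) (nat_lit 377) (nat_lit 281) (nat_lit 242))) (XT.nd (nat_lit 78) (nat_lit 228) (nat_lit 0) (XT.lf (nat_lit 0) (nat_lit 4479892418) (nat_lit 228) (nat_lit 4377761054) (nat_lit 304) (nat_lit 6774347198) (nat_lit 31) (nat_lit 5) (nat_lit 34) (nat_lit 5) (nat_lit 35) (nat_lit 5) (nat_lit 378) (nat_lit 281) (nat_lit 241)) (XT.nd (nat_lit 78) (nat_lit 76) (nat_lit 0) (XT.lf (nat_lit 0) (nat_lit 924844520)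 (nat_lit 152) (nat_lit 14053595923) (nat_lit 228) (nat_lit 979354300) (nat_lit 29) (nat_lit 5) (nat_lit 31) (nat_lit 5) (nat_lit 32) (nat_lit 4) (nat_lit 379) (nat_lit 281) (nat_lit 240)) (XT.lf (nat_lit 0) (nat_lit 4949918673) (nat_lit 228) (nat_lit 2975748257) (nat_lit 76) (nat_lit 8366546566) (nat_lit 28) (nat_lit 5) (nat_lit 31) (nat_lit 5) (nat_lit 29) (nat_lit 5) (nat_lit 380) (nat_lit 281) (nat_lit 239))))))))
noncomputable def xc17 : XT := (XT.nd (nat_lit 44304) (nat_lit 0) (nat_lit 3572) (XT.nd (nat_lit 43524) (nat_lit 0) (nat_lit 11020) (XT.nd (nat_lit 312) (nat_lit 380) (nat_lit 0) (XT.nd (nat_lit 156) (nat_lit 152) (nat_lit 0) (XT.nd (nat_lit 78) (nat_lit 228) (nat_lit 0) (XT.lf (nat_lit 0) (nat_lit 9425791674) (nat_lit 152) (nat_lit 1602083441) (nat_lit 228) (nat_lit 5608993667) (nat_lit 26) (nat_lit 5) (nat_lit 28) (nat_lit 5) (nat_lit 29) (nat_lit 5) (nat_lit 381) (nat_lit 281) (nat_lit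 238)) (XT.lf (nat_lit 0) (nat_lit 301953719) (nat_lit 228) (nat_lit 11842925508) (nat_lit 76) (nat_lit 4846770263) (nat_lit 23) (nat_lit 5) (nat_lit 26) (nat_lit 5) (nat_lit 24) (nat_lit 5) (nat_lit 382) (nat_lit 281) (nat_lit 237))) (XT.nd (nat_lit 78) (nat_lit 0) (nat_lit 0) (XT.lf (nat_lit 0) (nat_lit 446961358) (nat_lit 152) (nat_lit 5855016381) (nat_lit 228) (nat_lit 11054609791) (nat_lit 21) (nat_lit 5) (nat_lit 23) (nat_lit 5) (nat_lit 24) (nat_lit 5) (nat_lit 383) (nat_lit 281) (nat_lit 236)) (XT.lf (nat_lit 0) (nat_lit 12492530893) (nat_lit 228) (nat_lit 4599060229) (nat_lit 76) (nat_lit 640686070) (nat_lit 21) (nat_lit 5) (nat_lit 24) (nat_lit 5) (nat_lit 22) (nat_lit 4) (nat_lit 384) (nat_lit 281) (nat_lit 235)))) (XT.nd (nat_lit 156) (nat_lit 0) (nat_lit 0) (XT.nd (nat_lit 78) (nat_lit 152) (nat_lit 0) (XT.lf (nat_lit 0) (nat_lit 758928986) (nat_lit 228) (nat_lit 10104460019) (nat_lit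 76) (nat_lit 7255380647) (nat_lit 18) (nat_lit 5) (nat_lit 21) (nat_lit 5) (nat_lit 19) (nat_lit 5) (nat_lit 385) (nat_lit 281) (nat_lit 234)) (XT.lf (nat_lit 0) (nat_lit 2422996347) (nat_lit 152) (nat_lit 4419555226) (nat_lit 228) (nat_lit 11674102109) (nat_lit 16) (nat_lit 5) (nat_lit 18) (nat_lit 5) (nat_lit 19) (nat_lit 5) (nat_lit 386) (nat_lit 281) (nat_lit 233))) (XT.nd (nat_lit 42900) (nat_lit 0) (nat_lit 16872) (XT.lf (nat_lit 0) (nat_lit 13121590184) (nat_lit 228) (nat_lit 3600715154) (nat_lit 76) (nat_lit 2203923352) (nat_lit 16) (nat_lit 5) (nat_lit 19) (nat_lit 5) (nat_lit 17) (nat_lit 4) (nat_lit 387) (nat_lit 281) (nat_lit 232)) (XT.nd (nat_lit 78) (nat_lit 1368) (nat_lit 0) (XT.lf (nat_lit 0) (nat_lit 3594303692) (nat_lit 684) (nat_lit 185422428) (nat_lit 684) (nat_lit 185422428) (nat_lit 256) (nat_lit 4) (nat_lit 265) (nat_lit 5) (nat_lit 265) (nat_lit 4) (nat_lit 336) (nat_lit 282)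 (nat_lit 282)) (XT.lf (nat_lit 0) (nat_lit 110329370) (nat_lit 684) (nat_lit 4884715363) (nat_lit 684) (nat_lit 3023085527) (nat_lit 238) (nat_lit 4) (nat_lit 247) (nat_lit 5) (nat_lit 247) (nat_lit 4) (nat_lit 337) (nat_lit 282) (nat_lit 281)))))) (XT.nd (nat_lit 390) (nat_lit 2736) (nat_lit 0) (XT.nd (nat_lit 156) (nat_lit 1824) (nat_lit 0) (XT.nd (nat_lit 78) (nat_lit 608) (nat_lit 0) (XT.lf (nat_lit 0) (nat_lit 990741243) (nat_lit 608) (nat_lit 1316079888) (nat_lit 684) (nat_lit 5802895994) (nat_lit 229) (nat_lit 5) (nat_lit 237) (nat_lit 5) (nat_lit 238) (nat_lit 4) (nat_lit 338) (nat_lit 282) (nat_lit 280)) (XT.lf (nat_lit 0) (nat_lit 1871308778) (nat_lit 608) (nat_lit 5825525172) (nat_lit 608) (nat_lit 508072121) (nat_lit 221) (nat_lit 4) (nat_lit 229) (nat_lit 5) (nat_lit 229) (nat_lit 4) (nat_lit 339) (nat_lit 282) (nat_lit 279))) (XT.nd (nat_lit 78) (nat_lit 1216) (nat_lit 0) (XT.lf (nat_lit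 0) (nat_lit 2743655874) (nat_lit 532) (nat_lit 2073848552) (nat_lit 608) (nat_lit 3486144549) (nat_lit 213) (nat_lit 5) (nat_lit 220) (nat_lit 5) (nat_lit 221) (nat_lit 4) (nat_lit 340) (nat_lit 282) (nat_lit 278)) (XT.nd (nat_lit 78) (nat_lit 532) (nat_lit 0) (XT.lf (nat_lit 0) (nat_lit 1808080596) (nat_lit 684) (nat_lit 4788172319) (nat_lit 76) (nat_lit 1810016453) (nat_lit 204) (nat_lit 5) (nat_lit 213) (nat_lit 5) (nat_lit 205) (nat_lit 4) (nat_lit 341) (nat_lit 282) (nat_lit 277)) (XT.lf (nat_lit 0) (nat_lit 4481291848) (nat_lit 532) (nat_lit 2679741710) (nat_lit 608) (nat_lit 1351598803) (nat_lit 197) (nat_lit 5) (nat_lit 204) (nat_lit 5) (nat_lit 205) (nat_lit 4) (nat_lit 342) (nat_lit 282) (nat_lit 276))))) (XT.nd (nat_lit 156) (nat_lit 1520) (nat_lit 0) (XT.nd (nat_lit 78) (nat_lit 608) (nat_lit 0) (XT.lf (nat_lit 0) (nat_lit 3943651594) (nat_lit 608) (nat_lit 3291216350) (nat_lit 76) (nat_lit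 1387970636) (nat_lit 189) (nat_lit 5) (nat_lit 197) (nat_lit 5) (nat_lit 190) (nat_lit 4) (nat_lit 343) (nat_lit 282) (nat_lit 275)) (XT.lf (nat_lit 0) (nat_lit 590426887) (nat_lit 608) (nat_lit 2567275356) (nat_lit 76) (nat_lit 5579337311) (nat_lit 181) (nat_lit 5) (nat_lit 189) (nat_lit 5) (nat_lit 182) (nat_lit 5) (nat_lit 344) (nat_lit 282) (nat_lit 274))) (XT.nd (nat_lit 78) (nat_lit 988) (nat_lit 0) (XT.lf (nat_lit 0) (nat_lit 5902027812) (nat_lit 608) (nat_lit 1870637265) (nat_lit 76) (nat_lit 1082495178) (nat_lit 174) (nat_lit 5) (nat_lit 182) (nat_lit 5) (nat_lit 175) (nat_lit 4) (nat_lit 345) (nat_lit 282) (nat_lit 273)) (XT.nd (nat_lit 78) (nat_lit 456) (nat_lit 0) (XT.lf (nat_lit 0) (nat_lit 2328084596) (nat_lit 532) (nat_lit 1203786659) (nat_lit 76) (nat_lit 5445433731) (nat_lit 167) (nat_lit 5) (nat_lit 174) (nat_lit 5) (nat_lit 168) (nat_lit 5) (nat_lit 346) (nat_lit 282) (nat_lit 272))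 (XT.lf (nat_lit 0) (nat_lit 7677948983) (nat_lit 532) (nat_lit 559756369) (nat_lit 76) (nat_lit 866068668) (nat_lit 161) (nat_lit 5) (nat_lit 168) (nat_lit 5) (nat_lit 162) (nat_lit 4) (nat_lit 347) (nat_lit 282) (nat_lit 271))))))) (XT.nd (nat_lit 780) (nat_lit 2736) (nat_lit 0) (XT.nd (nat_lit 390) (nat_lit 1976) (nat_lit 0) (XT.nd (nat_lit 156) (nat_lit 1368) (nat_lit 0) (XT.nd (nat_lit 78) (nat_lit 380) (nat_lit 0) (XT.lf (nat_lit 0) (nat_lit 33764133) (nat_lit 456) (nat_lit 3839116531) (nat_lit 532) (nat_lit 5361287866) (nat_lit 148) (nat_lit 5) (nat_lit 154) (nat_lit 5) (nat_lit 155) (nat_lit 5) (nat_lit 348) (nat_lit 282) (nat_lit 270)) (XT.lf (nat_lit 0) (nat_lit 613683928) (nat_lit 380) (nat_lit 8654367225) (nat_lit 456) (nat_lit 101150414) (nat_lit 143) (nat_lit 5) (nat_lit 148) (nat_lit 5) (nat_lit 149) (nat_lit 4) (nat_lit 349) (nat_lit 282) (nat_lit 269))) (XT.nd (nat_lit 78) (nat_lit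 836) (nat_lit 0) (XT.lf (nat_lit 0) (nat_lit 1121525912) (nat_lit 456) (nat_lit 4101310720) (nat_lit 532) (nat_lit 4285293188) (nat_lit 136) (nat_lit 5) (nat_lit 142) (nat_lit 5) (nat_lit 143) (nat_lit 5) (nat_lit 350) (nat_lit 282) (nat_lit 268)) (XT.nd (nat_lit 78) (nat_lit 380) (nat_lit 0) (XT.lf (nat_lit 0) (nat_lit 995886553) (nat_lit 456) (nat_lit 8050708306) (nat_lit 76) (nat_lit 605413507) (nat_lit 130) (nat_lit 5) (nat_lit 136) (nat_lit 5) (nat_lit 131) (nat_lit 5) (nat_lit 351) (nat_lit 282) (nat_lit 267)) (XT.lf (nat_lit 0) (nat_lit 2002682947) (nat_lit 380) (nat_lit 4356185325) (nat_lit 456) (nat_lit 3441183084) (nat_lit 125) (nat_lit 5) (nat_lit 130) (nat_lit 5) (nat_lit 131) (nat_lit 5) (nat_lit 352) (nat_lit 282) (nat_lit 266))))) (XT.nd (nat_lit 156) (nat_lit 1140) (nat_lit 0) (XT.nd (nat_lit 78) (nat_lit 380) (nat_lit 0) (XT.lf (nat_lit 0) (nat_lit 1863535857) (nat_lit 456) (nat_lit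 7592428513) (nat_lit 76) (nat_lit 497191796) (nat_lit 119) (nat_lit 5) (nat_lit 125) (nat_lit 5) (nat_lit 120) (nat_lit 5) (nat_lit 353) (nat_lit 282) (nat_lit 265)) (XT.lf (nat_lit 0) (nat_lit 2632886879) (nat_lit 380) (nat_lit 4634448601) (nat_lit 456) (nat_lit 2843372716) (nat_lit 114) (nat_lit 5) (nat_lit 119) (nat_lit 5) (nat_lit 120) (nat_lit 5) (nat_lit 354) (nat_lit 282) (nat_lit 264))) (XT.nd (nat_lit 78) (nat_lit 760) (nat_lit 0) (XT.lf (nat_lit 0) (nat_lit 2487774375) (nat_lit 380) (nat_lit 7426971221) (nat_lit 76) (nat_lit 358727690) (nat_lit 109) (nat_lit 5) (nat_lit 114) (nat_lit 5) (nat_lit 110) (nat_lit 5) (nat_lit 355) (nat_lit 282) (nat_lit 263)) (XT.nd (nat_lit 78) (nat_lit 380) (nat_lit 0) (XT.lf (nat_lit 0) (nat_lit 2963781816) (nat_lit 380) (nat_lit 4968158851) (nat_lit 456) (nat_lit 2509010044) (nat_lit 104) (nat_lit 5) (nat_lit 109) (nat_lit 5) (nat_lit 110) (nat_lit 5) (nat_lit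 356) (nat_lit 282) (nat_lit 262)) (XT.lf (nat_lit 0) (nat_lit 2850469351) (nat_lit 380) (nat_lit 7605611787) (nat_lit 76) (nat_lit 157771749) (nat_lit 99) (nat_lit 5) (nat_lit 104) (nat_lit 5) (nat_lit 100) (nat_lit 5) (nat_lit 357) (nat_lit 282) (nat_lit 261)))))) (XT.nd (nat_lit 390) (nat_lit 1140) (nat_lit 0) (XT.nd (nat_lit 156) (nat_lit 912) (nat_lit 0) (XT.nd (nat_lit 78) (nat_lit 380) (nat_lit 0) (XT.lf (nat_lit 0) (nat_lit 2942484021) (nat_lit 304) (nat_lit 5391037275) (nat_lit 380) (nat_lit 2458188201) (nat_lit 95) (nat_lit 5) (nat_lit 99) (nat_lit 5) (nat_lit 100) (nat_lit 5) (nat_lit 358) (nat_lit 282) (nat_lit 260)) (XT.lf (nat_lit 0) (nat_lit 2789835444) (nat_lit 304) (nat_lit 141565497) (nat_lit 380) (nat_lit 8043852029) (nat_lit 90) (nat_lit 5) (nat_lit 94) (nat_lit 5) (nat_lit 95) (nat_lit 5) (nat_lit 359) (nat_lit 282) (nat_lit 259))) (XT.nd (nat_lit 78) (nat_lit 608) (nat_lit 0)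 (XT.lf (nat_lit 0) (nat_lit 2511013449) (nat_lit 304) (nat_lit 5938801279) (nat_lit 380) (nat_lit 2714186163) (nat_lit 86) (nat_lit 5) (nat_lit 90) (nat_lit 5) (nat_lit 91) (nat_lit 5) (nat_lit 360) (nat_lit 282) (nat_lit 258)) (XT.nd (nat_lit 78) (nat_lit 304) (nat_lit 0) (XT.lf (nat_lit 0) (nat_lit 2129719549) (nat_lit 228) (nat_lit 577443878) (nat_lit 304) (nat_lit 8651555739) (nat_lit 82) (nat_lit 5) (nat_lit 85) (nat_lit 5) (nat_lit 86) (nat_lit 5) (nat_lit 361) (nat_lit 282) (nat_lit 257)) (XT.lf (nat_lit 0) (nat_lit 1605671614) (nat_lit 304) (nat_lit 6649521314) (nat_lit 380) (nat_lit 3303740187) (nat_lit 78) (nat_lit 5) (nat_lit 82) (nat_lit 5) (nat_lit 83) (nat_lit 5) (nat_lit 362) (nat_lit 282) (nat_lit 256))))) (XT.nd (nat_lit 156) (nat_lit 532) (nat_lit 0) (XT.nd (nat_lit 78) (nat_lit 304) (nat_lit 0) (XT.lf (nat_lit 0) (nat_lit 962107627) (nat_lit 228) (nat_lit 1186925587) (nat_lit 304)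 (nat_lit 9616395016) (nat_lit 74) (nat_lit 5) (nat_lit 77) (nat_lit 5) (nat_lit 78) (nat_lit 5) (nat_lit 363) (nat_lit 282) (nat_lit 255)) (XT.lf (nat_lit 0) (nat_lit 156359715) (nat_lit 304) (nat_lit 7564004580) (nat_lit 380) (nat_lit 4257348826) (nat_lit 70) (nat_lit 5) (nat_lit 74) (nat_lit 5) (nat_lit 75) (nat_lit 5) (nat_lit 364) (nat_lit 282) (nat_lit 254))) (XT.nd (nat_lit 78) (nat_lit 456) (nat_lit 0) (XT.lf (nat_lit 0) (nat_lit 1230589902) (nat_lit 380) (nat_lit 776290709) (nat_lit 76) (nat_lit 10189655911) (nat_lit 69) (nat_lit 5) (nat_lit 74) (nat_lit 5) (nat_lit 70) (nat_lit 5) (nat_lit 365) (nat_lit 282) (nat_lit 253)) (XT.nd (nat_lit 78) (nat_lit 228) (nat_lit 0) (XT.lf (nat_lit 0) (nat_lit 6824467645) (nat_lit 304) (nat_lit 1889064945) (nat_lit 76) (nat_lit 3707873056) (nat_lit 66) (nat_lit 5) (nat_lit 70) (nat_lit 5) (nat_lit 67) (nat_lit 5) (nat_lit 366) (nat_lit 282) (nat_lit 252))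 (XT.lf (nat_lit 0) (nat_lit 9497136067) (nat_lit 228) (nat_lit 3076665019) (nat_lit 304) (nat_lit 79492866) (nat_lit 63) (nat_lit 5) (nat_lit 66) (nat_lit 5) (nat_lit 67) (nat_lit 5) (nat_lit 367) (nat_lit 282) (nat_lit 251))))))))
noncomputable def xc18 : XT := (XT.nd (nat_lit 1482) (nat_lit 152) (nat_lit 0) (XT.nd (nat_lit 702) (nat_lit 1444) (nat_lit 0) (XT.nd (nat_lit 312) (nat_lit 912) (nat_lit 0) (XT.nd (nat_lit 156) (nat_lit 532) (nat_lit 0) (XT.nd (nat_lit 78) (nat_lit 228) (nat_lit 0) (XT.lf (nat_lit 0) (nat_lit 5523016476) (nat_lit 304) (nat_lit 4629609268) (nat_lit 76) (nat_lit 2738949554) (nat_lit 59) (nat_lit 5) (nat_lit 63) (nat_lit 5) (nat_lit 60) (nat_lit 5) (nat_lit 368) (nat_lit 282) (nat_lit 250)) (XT.lf (nat_lit 0) (nat_lit 6848141228) (nat_lit 228) (nat_lit 4440645276) (nat_lit 304) (nat_lit 1848306695) (nat_lit 56) (nat_lit 5) (nat_lit 59) (nat_lit 5) (nat_lit 60) (nat_lit 5)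 (nat_lit 369) (nat_lit 282) (nat_lit 249))) (XT.nd (nat_lit 78) (nat_lit 228) (nat_lit 0) (XT.lf (nat_lit 0) (nat_lit 3773158710) (nat_lit 304) (nat_lit 8160182135) (nat_lit 76) (nat_lit 1456441533) (nat_lit 52) (nat_lit 5) (nat_lit 56) (nat_lit 5) (nat_lit 53) (nat_lit 5) (nat_lit 370) (nat_lit 282) (nat_lit 248)) (XT.lf (nat_lit 0) (nat_lit 3385202101) (nat_lit 228) (nat_lit 6159700120) (nat_lit 304) (nat_lit 4104792871) (nat_lit 49) (nat_lit 5) (nat_lit 52) (nat_lit 5) (nat_lit 53) (nat_lit 5) (nat_lit 371) (nat_lit 282) (nat_lit 247)))) (XT.nd (nat_lit 156) (nat_lit 684) (nat_lit 0) (XT.nd (nat_lit 78) (nat_lit 0) (nat_lit 0) (XT.lf (nat_lit 0) (nat_lit 1333020265) (nat_lit 152) (nat_lit 196123361) (nat_lit 228) (nat_lit 12388530972) (nat_lit 46) (nat_lit 5) (nat_lit 48) (nat_lit 5) (nat_lit 49) (nat_lit 5) (nat_lit 372) (nat_lit 282) (nat_lit 246)) (XT.lf (nat_lit 0) (nat_lit 7299546223) (nat_lit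 228) (nat_lit 985069113) (nat_lit 76) (nat_lit 5908091615) (nat_lit 46) (nat_lit 5) (nat_lit 49) (nat_lit 5) (nat_lit 47) (nat_lit 5) (nat_lit 373) (nat_lit 282) (nat_lit 245))) (XT.nd (nat_lit 78) (nat_lit 456) (nat_lit 0) (XT.lf (nat_lit 0) (nat_lit 10964007677) (nat_lit 228) (nat_lit 2268321615) (nat_lit 304) (nat_lit 1243895457) (nat_lit 43) (nat_lit 5) (nat_lit 46) (nat_lit 5) (nat_lit 47) (nat_lit 5) (nat_lit 374) (nat_lit 282) (nat_lit 244)) (XT.nd (nat_lit 78) (nat_lit 228) (nat_lit 0) (XT.lf (nat_lit 0) (nat_lit 4519956366) (nat_lit 228) (nat_lit 6335516216) (nat_lit 76) (nat_lit 3912098153) (nat_lit 40) (nat_lit 5) (nat_lit 43) (nat_lit 5) (nat_lit 41) (nat_lit 5) (nat_lit 375) (nat_lit 282) (nat_lit 243)) (XT.lf (nat_lit 0) (nat_lit 5626900294) (nat_lit 228) (nat_lit 4807549727) (nat_lit 304) (nat_lit 4633168455) (nat_lit 37) (nat_lit 5) (nat_lit 40) (nat_lit 5) (nat_lit 41) (nat_lit 5)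 (nat_lit 376) (nat_lit 282) (nat_lit 242)))))) (XT.nd (nat_lit 390) (nat_lit 608) (nat_lit 0) (XT.nd (nat_lit 156) (nat_lit 608) (nat_lit 0) (XT.nd (nat_lit 78) (nat_lit 0) (nat_lit 0) (XT.lf (nat_lit 0) (nat_lit 1123489818) (nat_lit 228) (nat_lit 12839121941) (nat_lit 76) (nat_lit 1414146895) (nat_lit 34) (nat_lit 5) (nat_lit 37) (nat_lit 5) (nat_lit 35) (nat_lit 5) (nat_lit 377) (nat_lit 282) (nat_lit 241)) (XT.lf (nat_lit 0) (nat_lit 7007696813) (nat_lit 228) (nat_lit 889506683) (nat_lit 76) (nat_lit 7797018071) (nat_lit 34) (nat_lit 5) (nat_lit 37) (nat_lit 5) (nat_lit 35) (nat_lit 5) (nat_lit 378) (nat_lit 282) (nat_lit 240))) (XT.nd (nat_lit 78) (nat_lit 380) (nat_lit 0) (XT.lf (nat_lit 0) (nat_lit 11435937250) (nat_lit 228) (nat_lit 1629936231) (nat_lit 304) (nat_lit 2955402467) (nat_lit 31) (nat_lit 5) (nat_lit 34) (nat_lit 5) (nat_lit 35) (nat_lit 5) (nat_lit 379) (nat_lit 282) (nat_lit 239))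 (XT.nd (nat_lit 78) (nat_lit 152) (nat_lit 0) (XT.lf (nat_lit 0) (nat_lit 2920826062) (nat_lit 228) (nat_lit 8653571896) (nat_lit 76) (nat_lit 4783140267) (nat_lit 28) (nat_lit 5) (nat_lit 31) (nat_lit 5) (nat_lit 29) (nat_lit 5) (nat_lit 380) (nat_lit 282) (nat_lit 238)) (XT.lf (nat_lit 0) (nat_lit 3607355908) (nat_lit 152) (nat_lit 5316745023) (nat_lit 228) (nat_lit 7779593702) (nat_lit 26) (nat_lit 5) (nat_lit 28) (nat_lit 5) (nat_lit 29) (nat_lit 5) (nat_lit 381) (nat_lit 282) (nat_lit 237))))) (XT.nd (nat_lit 156) (nat_lit 380) (nat_lit 0) (XT.nd (nat_lit 78) (nat_lit 228) (nat_lit 0) (XT.lf (nat_lit 0) (nat_lit 15099905741) (nat_lit 228) (nat_lit 841762052) (nat_lit 76) (nat_lit 1118734064) (nat_lit 26) (nat_lit 5) (nat_lit 29) (nat_lit 5) (nat_lit 27) (nat_lit 4) (nat_lit 382) (nat_lit 282) (nat_lit 236)) (XT.lf (nat_lit 0) (nat_lit 4020757157) (nat_lit 228) (nat_lit 5679936651) (nat_lit 76)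 (nat_lit 7725797247) (nat_lit 23) (nat_lit 5) (nat_lit 26) (nat_lit 5) (nat_lit 24) (nat_lit 5) (nat_lit 383) (nat_lit 282) (nat_lit 235))) (XT.nd (nat_lit 78) (nat_lit 228) (nat_lit 0) (XT.lf (nat_lit 0) (nat_lit 6872895526) (nat_lit 152) (nat_lit 3261469919) (nat_lit 228) (nat_lit 7669360888) (nat_lit 21) (nat_lit 5) (nat_lit 23) (nat_lit 5) (nat_lit 24) (nat_lit 5) (nat_lit 384) (nat_lit 282) (nat_lit 234)) (XT.nd (nat_lit 78) (nat_lit 76) (nat_lit 0) (XT.lf (nat_lit 0) (nat_lit 1563182673) (nat_lit 152) (nat_lit 14868941169) (nat_lit 228) (nat_lit 1760153234) (nat_lit 19) (nat_lit 5) (nat_lit 21) (nat_lit 5) (nat_lit 22) (nat_lit 4) (nat_lit 385) (nat_lit 282) (nat_lit 233)) (XT.lf (nat_lit 0) (nat_lit 4296706014) (nat_lit 228) (nat_lit 4182409075) (nat_lit 76) (nat_lit 10112277748) (nat_lit 18) (nat_lit 5) (nat_lit 21) (nat_lit 5) (nat_lit 19) (nat_lit 5) (nat_lit 386) (nat_lit 282) (nat_lit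 232))))))) (XT.nd (nat_lit 43368) (nat_lit 0) (nat_lit 9044) (XT.nd (nat_lit 42978) (nat_lit 0) (nat_lit 14288) (XT.nd (nat_lit 42822) (nat_lit 0) (nat_lit 18164) (XT.nd (nat_lit 42744) (nat_lit 0) (nat_lit 19684) (XT.lf (nat_lit 0) (nat_lit 8619874755) (nat_lit 152) (nat_lit 1880345909) (nat_lit 228) (nat_lit 8502263687) (nat_lit 16) (nat_lit 5) (nat_lit 18) (nat_lit 5) (nat_lit 19) (nat_lit 5) (nat_lit 387) (nat_lit 282) (nat_lit 231)) (XT.lf (nat_lit 0) (nat_lit 2705036819) (nat_lit 760) (nat_lit 588302908) (nat_lit 760) (nat_lit 588302908) (nat_lit 275) (nat_lit 4) (nat_lit 285) (nat_lit 5) (nat_lit 285) (nat_lit 4) (nat_lit 334) (nat_lit 283) (nat_lit 283))) (XT.nd (nat_lit 78) (nat_lit 760) (nat_lit 0) (XT.lf (nat_lit 0) (nat_lit 4098803928) (nat_lit 760) (nat_lit 1603820262) (nat_lit 0) (nat_lit 2142975622) (nat_lit 265) (nat_lit 5) (nat_lit 275) (nat_lit 4) (nat_lit 265) (nat_lit 4) (nat_lit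 335) (nat_lit 283) (nat_lit 282)) (XT.lf (nat_lit 0) (nat_lit 1493333813) (nat_lit 760) (nat_lit 838156435) (nat_lit 76) (nat_lit 5600060785) (nat_lit 255) (nat_lit 5) (nat_lit 265) (nat_lit 5) (nat_lit 256) (nat_lit 4) (nat_lit 336) (nat_lit 283) (nat_lit 281)))) (XT.nd (nat_lit 156) (nat_lit 1900) (nat_lit 0) (XT.nd (nat_lit 78) (nat_lit 1368) (nat_lit 0) (XT.lf (nat_lit 0) (nat_lit 6770825759) (nat_lit 684) (nat_lit 65912645) (nat_lit 0) (nat_lit 1184309584) (nat_lit 247) (nat_lit 5) (nat_lit 256) (nat_lit 4) (nat_lit 247) (nat_lit 4) (nat_lit 337) (nat_lit 283) (nat_lit 280)) (XT.lf (nat_lit 0) (nat_lit 709847057) (nat_lit 608) (nat_lit 3275859824) (nat_lit 684) (nat_lit 4128151566) (nat_lit 229) (nat_lit 5) (nat_lit 237) (nat_lit 5) (nat_lit 238) (nat_lit 4) (nat_lit 338) (nat_lit 283) (nat_lit 279))) (XT.nd (nat_lit 78) (nat_lit 1216) (nat_lit 0) (XT.lf (nat_lit 0) (nat_lit 1068579839) (nat_lit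 684) (nat_lit 6709052901) (nat_lit 76) (nat_lit 432956371) (nat_lit 220) (nat_lit 5) (nat_lit 229) (nat_lit 5) (nat_lit 221) (nat_lit 4) (nat_lit 339) (nat_lit 283) (nat_lit 278)) (XT.nd (nat_lit 78) (nat_lit 684) (nat_lit 0) (XT.lf (nat_lit 0) (nat_lit 2273674425) (nat_lit 532) (nat_lit 4044573376) (nat_lit 608) (nat_lit 1992439441) (nat_lit 213) (nat_lit 5) (nat_lit 220) (nat_lit 5) (nat_lit 221) (nat_lit 4) (nat_lit 340) (nat_lit 283) (nat_lit 277)) (XT.lf (nat_lit 0) (nat_lit 3051347901) (nat_lit 608) (nat_lit 149907985) (nat_lit 684) (nat_lit 5213511131) (nat_lit 204) (nat_lit 5) (nat_lit 212) (nat_lit 5) (nat_lit 213) (nat_lit 5) (nat_lit 341) (nat_lit 283) (nat_lit 276)))))) (XT.nd (nat_lit 390) (nat_lit 2432) (nat_lit 0) (XT.nd (nat_lit 156) (nat_lit 1672) (nat_lit 0) (XT.nd (nat_lit 78) (nat_lit 608) (nat_lit 0) (XT.lf (nat_lit 0) (nat_lit 3813865602) (nat_lit 532) (nat_lit 4670999111) (nat_lit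 608) (nat_lit 37685727) (nat_lit 197) (nat_lit 5) (nat_lit 204) (nat_lit 5) (nat_lit 205) (nat_lit 4) (nat_lit 342) (nat_lit 283) (nat_lit 275)) (XT.lf (nat_lit 0) (nat_lit 4560929868) (nat_lit 532) (nat_lit 602048066) (nat_lit 608) (nat_lit 3471187129) (nat_lit 189) (nat_lit 5) (nat_lit 196) (nat_lit 5) (nat_lit 197) (nat_lit 5) (nat_lit 343) (nat_lit 283) (nat_lit 274))) (XT.nd (nat_lit 78) (nat_lit 1064) (nat_lit 0) (XT.lf (nat_lit 0) (nat_lit 1710511075) (nat_lit 608) (nat_lit 3460669713) (nat_lit 76) (nat_lit 3578500228) (nat_lit 181) (nat_lit 5) (nat_lit 189) (nat_lit 5) (nat_lit 182) (nat_lit 5) (nat_lit 344) (nat_lit 283) (nat_lit 273)) (XT.nd (nat_lit 78) (nat_lit 532) (nat_lit 0) (XT.lf (nat_lit 0) (nat_lit 6002256284) (nat_lit 532) (nat_lit 945159146) (nat_lit 608) (nat_lit 1921909724) (nat_lit 174) (nat_lit 5) (nat_lit 181) (nat_lit 5) (nat_lit 182) (nat_lit 5) (nat_lit 345) (nat_lit 283)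 (nat_lit 272)) (XT.lf (nat_lit 0) (nat_lit 3272029753) (nat_lit 532) (nat_lit 2313106126) (nat_lit 76) (nat_lit 3407703243) (nat_lit 167) (nat_lit 5) (nat_lit 174) (nat_lit 5) (nat_lit 168) (nat_lit 5) (nat_lit 346) (nat_lit 283) (nat_lit 271))))) (XT.nd (nat_lit 156) (nat_lit 1444) (nat_lit 0) (XT.nd (nat_lit 78) (nat_lit 532) (nat_lit 0) (XT.lf (nat_lit 0) (nat_lit 7342309595) (nat_lit 456) (nat_lit 1206806505) (nat_lit 532) (nat_lit 571674885) (nat_lit 161) (nat_lit 5) (nat_lit 167) (nat_lit 5) (nat_lit 168) (nat_lit 5) (nat_lit 347) (nat_lit 283) (nat_lit 270)) (XT.lf (nat_lit 0) (nat_lit 4640557797) (nat_lit 532) (nat_lit 1300402357) (nat_lit 76) (nat_lit 3311645793) (nat_lit 154) (nat_lit 5) (nat_lit 161) (nat_lit 5) (nat_lit 155) (nat_lit 5) (nat_lit 348) (nat_lit 283) (nat_lit 269))) (XT.nd (nat_lit 78) (nat_lit 912) (nat_lit 0) (XT.lf (nat_lit 0) (nat_lit 563891698) (nat_lit 532) (nat_lit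 847244475) (nat_lit 76) (nat_lit 7977957316) (nat_lit 147) (nat_lit 5) (nat_lit 154) (nat_lit 5) (nat_lit 148) (nat_lit 5) (nat_lit 349) (nat_lit 283) (nat_lit 268)) (XT.nd (nat_lit 78) (nat_lit 532) (nat_lit 0) (XT.lf (nat_lit 0) (nat_lit 5807136035) (nat_lit 456) (nat_lit 459891578) (nat_lit 76) (nat_lit 3262593300) (nat_lit 142) (nat_lit 5) (nat_lit 148) (nat_lit 5) (nat_lit 143) (nat_lit 5) (nat_lit 350) (nat_lit 283) (nat_lit 267)) (XT.lf (nat_lit 0) (nat_lit 1477245223) (nat_lit 532) (nat_lit 110893961) (nat_lit 76) (nat_lit 8086791388) (nat_lit 135) (nat_lit 5) (nat_lit 142) (nat_lit 5) (nat_lit 136) (nat_lit 5) (nat_lit 351) (nat_lit 283) (nat_lit 266))))))))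
noncomputable def xc19 : XT := (XT.nd (nat_lit 1482) (nat_lit 2736) (nat_lit 0) (XT.nd (nat_lit 702) (nat_lit 2888) (nat_lit 0) (XT.nd (nat_lit 312) (nat_lit 1444) (nat_lit 0) (XT.nd (nat_lit 156) (nat_lit 760) (nat_lit 0) (XT.nd (nat_lit 78) (nat_lit 456) (nat_lit 0) (XT.lf (nat_lit 0) (nat_lit 170247392) (nat_lit 380) (nat_lit 6591375498) (nat_lit 456) (nat_lit 3062944918) (nat_lit 125) (nat_lit 5) (nat_lit 130) (nat_lit 5) (nat_lit 131) (nat_lit 5) (nat_lit 352) (nat_lit 283) (nat_lit 265)) (XT.lf (nat_lit 0) (nat_lit 397328724) (nat_lit 380) (nat_lit 1768497386) (nat_lit 456) (nat_lit 7813238235) (nat_lit 119) (nat_lit 5) (nat_lit 124) (nat_lit 5) (nat_lit 125) (nat_lit 5) (nat_lit 353) (nat_lit 283) (nat_lit 264))) (XT.nd (nat_lit 78) (nat_lit 380) (nat_lit 0) (XT.lf (nat_lit 0) (nat_lit 546562018) (nat_lit 380) (nat_lit 6943997327) (nat_lit 456) (nat_lit 2647658841) (nat_lit 114) (nat_lit 5)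 (nat_lit 119) (nat_lit 5) (nat_lit 120) (nat_lit 5) (nat_lit 354) (nat_lit 283) (nat_lit 263)) (XT.lf (nat_lit 0) (nat_lit 624075004) (nat_lit 304) (nat_lit 1986688124) (nat_lit 380) (nat_lit 7691617395) (nat_lit 109) (nat_lit 5) (nat_lit 113) (nat_lit 5) (nat_lit 114) (nat_lit 5) (nat_lit 355) (nat_lit 283) (nat_lit 262)))) (XT.nd (nat_lit 156) (nat_lit 684) (nat_lit 0) (XT.nd (nat_lit 78) (nat_lit 380) (nat_lit 0) (XT.lf (nat_lit 0) (nat_lit 614400663) (nat_lit 380) (nat_lit 7359887604) (nat_lit 456) (nat_lit 2497201430) (nat_lit 104) (nat_lit 5) (nat_lit 109) (nat_lit 5) (nat_lit 110) (nat_lit 5) (nat_lit 356) (nat_lit 283) (nat_lit 261)) (XT.lf (nat_lit 0) (nat_lit 517077126) (nat_lit 304) (nat_lit 2275996264) (nat_lit 380) (nat_lit 7852715962) (nat_lit 99) (nat_lit 5) (nat_lit 103) (nat_lit 5) (nat_lit 104) (nat_lit 5) (nat_lit 357) (nat_lit 283) (nat_lit 260))) (XT.nd (nat_lit 78) (nat_lit 380)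 (nat_lit 0) (XT.lf (nat_lit 0) (nat_lit 320669749) (nat_lit 304) (nat_lit 7872648734) (nat_lit 380) (nat_lit 2632001108) (nat_lit 95) (nat_lit 5) (nat_lit 99) (nat_lit 5) (nat_lit 100) (nat_lit 5) (nat_lit 358) (nat_lit 283) (nat_lit 259)) (XT.nd (nat_lit 78) (nat_lit 0) (nat_lit 0) (XT.lf (nat_lit 0) (nat_lit 20713805) (nat_lit 304) (nat_lit 2670800131) (nat_lit 380) (nat_lit 8318755421) (nat_lit 90) (nat_lit 5) (nat_lit 94) (nat_lit 5) (nat_lit 95) (nat_lit 5) (nat_lit 359) (nat_lit 283) (nat_lit 258)) (XT.lf (nat_lit 0) (nat_lit 8127613483) (nat_lit 380) (nat_lit 387693732) (nat_lit 76) (nat_lit 2685372513) (nat_lit 90) (nat_lit 5) (nat_lit 95) (nat_lit 5) (nat_lit 91) (nat_lit 5) (nat_lit 360) (nat_lit 283) (nat_lit 257)))))) (XT.nd (nat_lit 390) (nat_lit 1292) (nat_lit 0) (XT.nd (nat_lit 156) (nat_lit 988) (nat_lit 0) (XT.nd (nat_lit 78) (nat_lit 228) (nat_lit 0) (XT.lf (nat_lit 0) (nat_lit 2287613596)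 (nat_lit 380) (nat_lit 913912556) (nat_lit 76) (nat_lit 8195241368) (nat_lit 85) (nat_lit 5) (nat_lit 90) (nat_lit 5) (nat_lit 86) (nat_lit 5) (nat_lit 361) (nat_lit 283) (nat_lit 256)) (XT.lf (nat_lit 0) (nat_lit 7753895976) (nat_lit 304) (nat_lit 1569250721) (nat_lit 76) (nat_lit 2275484653) (nat_lit 82) (nat_lit 5) (nat_lit 86) (nat_lit 5) (nat_lit 83) (nat_lit 5) (nat_lit 362) (nat_lit 283) (nat_lit 255))) (XT.nd (nat_lit 78) (nat_lit 608) (nat_lit 0) (XT.lf (nat_lit 0) (nat_lit 1550847245) (nat_lit 380) (nat_lit 2359004194) (nat_lit 76) (nat_lit 7896645216) (nat_lit 77) (nat_lit 5) (nat_lit 82) (nat_lit 5) (nat_lit 78) (nat_lit 5) (nat_lit 363) (nat_lit 283) (nat_lit 254)) (XT.nd (nat_lit 78) (nat_lit 380) (nat_lit 0) (XT.lf (nat_lit 0) (nat_lit 7040929945) (nat_lit 304) (nat_lit 3297667555) (nat_lit 76) (nat_lit 1681822817) (nat_lit 74) (nat_lit 5) (nat_lit 78) (nat_lit 5) (nat_lit 75) (nat_lit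 5) (nat_lit 364) (nat_lit 283) (nat_lit 253)) (XT.lf (nat_lit 0) (nat_lit 449712747) (nat_lit 380) (nat_lit 4387766554) (nat_lit 76) (nat_lit 7403235461) (nat_lit 69) (nat_lit 5) (nat_lit 74) (nat_lit 5) (nat_lit 70) (nat_lit 5) (nat_lit 365) (nat_lit 283) (nat_lit 252))))) (XT.nd (nat_lit 156) (nat_lit 836) (nat_lit 0) (XT.nd (nat_lit 78) (nat_lit 228) (nat_lit 0) (XT.lf (nat_lit 0) (nat_lit 5955611333) (nat_lit 304) (nat_lit 5649484029) (nat_lit 76) (nat_lit 862260864) (nat_lit 66) (nat_lit 5) (nat_lit 70) (nat_lit 5) (nat_lit 67) (nat_lit 5) (nat_lit 366) (nat_lit 283) (nat_lit 251)) (XT.lf (nat_lit 0) (nat_lit 5613126365) (nat_lit 228) (nat_lit 6022247469) (nat_lit 304) (nat_lit 1065274502) (nat_lit 63) (nat_lit 5) (nat_lit 66) (nat_lit 5) (nat_lit 67) (nat_lit 5) (nat_lit 367) (nat_lit 283) (nat_lit 250))) (XT.nd (nat_lit 78) (nat_lit 532) (nat_lit 0) (XT.lf (nat_lit 0) (nat_lit 4230196994) (nat_lit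 228) (nat_lit 231825202) (nat_lit 304) (nat_lit 8478810109) (nat_lit 59) (nat_lit 5) (nat_lit 62) (nat_lit 5) (nat_lit 63) (nat_lit 5) (nat_lit 368) (nat_lit 283) (nat_lit 249)) (XT.nd (nat_lit 78) (nat_lit 304) (nat_lit 0) (XT.lf (nat_lit 0) (nat_lit 2641866260) (nat_lit 228) (nat_lit 7513920281) (nat_lit 304) (nat_lit 3032015223) (nat_lit 56) (nat_lit 5) (nat_lit 59) (nat_lit 5) (nat_lit 60) (nat_lit 5) (nat_lit 369) (nat_lit 283) (nat_lit 248)) (XT.lf (nat_lit 0) (nat_lit 861656356) (nat_lit 228) (nat_lit 1662631914) (nat_lit 304) (nat_lit 10917981004) (nat_lit 52) (nat_lit 5) (nat_lit 55) (nat_lit 5) (nat_lit 56) (nat_lit 5) (nat_lit 370) (nat_lit 283) (nat_lit 247))))))) (XT.nd (nat_lit 780) (nat_lit 912) (nat_lit 0) (XT.nd (nat_lit 390) (nat_lit 912) (nat_lit 0) (XT.nd (nat_lit 156) (nat_lit 608) (nat_lit 0) (XT.nd (nat_lit 78) (nat_lit 304) (nat_lit 0) (XT.lf (nat_lit 0) (nat_lit 8221184412)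 (nat_lit 304) (nat_lit 1139350929) (nat_lit 76) (nat_lit 4343154172) (nat_lit 52) (nat_lit 5) (nat_lit 56) (nat_lit 5) (nat_lit 53) (nat_lit 5) (nat_lit 371) (nat_lit 283) (nat_lit 246)) (XT.lf (nat_lit 0) (nat_lit 111718011) (nat_lit 304) (nat_lit 3339244809) (nat_lit 76) (nat_lit 10522050813) (nat_lit 48) (nat_lit 5) (nat_lit 52) (nat_lit 5) (nat_lit 49) (nat_lit 5) (nat_lit 372) (nat_lit 283) (nat_lit 245))) (XT.nd (nat_lit 78) (nat_lit 456) (nat_lit 0) (XT.lf (nat_lit 0) (nat_lit 5797874428) (nat_lit 228) (nat_lit 5805659297) (nat_lit 76) (nat_lit 2646206959) (nat_lit 46) (nat_lit 5) (nat_lit 49) (nat_lit 5) (nat_lit 47) (nat_lit 5) (nat_lit 373) (nat_lit 283) (nat_lit 244)) (XT.nd (nat_lit 78) (nat_lit 228) (nat_lit 0) (XT.lf (nat_lit 0) (nat_lit 6011033139) (nat_lit 228) (nat_lit 5647661120) (nat_lit 304) (nat_lit 2876012976) (nat_lit 43) (nat_lit 5) (nat_lit 46) (nat_lit 5) (nat_lit 47) (nat_lit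 5) (nat_lit 374) (nat_lit 283) (nat_lit 243)) (XT.lf (nat_lit 0) (nat_lit 2814149108) (nat_lit 228) (nat_lit 11508333627) (nat_lit 76) (nat_lit 505693360) (nat_lit 40) (nat_lit 5) (nat_lit 43) (nat_lit 5) (nat_lit 41) (nat_lit 5) (nat_lit 375) (nat_lit 283) (nat_lit 242))))) (XT.nd (nat_lit 156) (nat_lit 684) (nat_lit 0) (XT.nd (nat_lit 78) (nat_lit 0) (nat_lit 0) (XT.lf (nat_lit 0) (nat_lit 318073246) (nat_lit 228) (nat_lit 8337299263) (nat_lit 304) (nat_lit 6474325502) (nat_lit 37) (nat_lit 5) (nat_lit 40) (nat_lit 5) (nat_lit 41) (nat_lit 5) (nat_lit 376) (nat_lit 283) (nat_lit 241)) (XT.lf (nat_lit 0) (nat_lit 12524228172) (nat_lit 228) (nat_lit 2148254292) (nat_lit 304) (nat_lit 767787405) (nat_lit 37) (nat_lit 5) (nat_lit 40) (nat_lit 5) (nat_lit 41) (nat_lit 5) (nat_lit 377) (nat_lit 283) (nat_lit 240))) (XT.nd (nat_lit 78) (nat_lit 456) (nat_lit 0) (XT.lf (nat_lit 0) (nat_lit 5055394253) (nat_lit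 228) (nat_lit 6492114681) (nat_lit 76) (nat_lit 4211753551) (nat_lit 34) (nat_lit 5) (nat_lit 37) (nat_lit 5) (nat_lit 35) (nat_lit 5) (nat_lit 378) (nat_lit 283) (nat_lit 239)) (XT.nd (nat_lit 78) (nat_lit 228) (nat_lit 0) (XT.lf (nat_lit 0) (nat_lit 5694591689) (nat_lit 228) (nat_lit 5344969037) (nat_lit 304) (nat_lit 5048244212) (nat_lit 31) (nat_lit 5) (nat_lit 34) (nat_lit 5) (nat_lit 35) (nat_lit 5) (nat_lit 379) (nat_lit 283) (nat_lit 238)) (XT.lf (nat_lit 0) (nat_lit 755944681) (nat_lit 228) (nat_lit 14632263904) (nat_lit 76) (nat_lit 1038127633) (nat_lit 28) (nat_lit 5) (nat_lit 31) (nat_lit 5) (nat_lit 29) (nat_lit 5) (nat_lit 380) (nat_lit 283) (nat_lit 237)))))) (XT.nd (nat_lit 390) (nat_lit 380) (nat_lit 0) (XT.nd (nat_lit 156) (nat_lit 380) (nat_lit 0) (XT.nd (nat_lit 78) (nat_lit 152) (nat_lit 0) (XT.lf (nat_lit 0) (nat_lit 6699968659) (nat_lit 228) (nat_lit 2481076634) (nat_lit 76)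 (nat_lit 7592639621) (nat_lit 28) (nat_lit 5) (nat_lit 31) (nat_lit 5) (nat_lit 29) (nat_lit 5) (nat_lit 381) (nat_lit 283) (nat_lit 236)) (XT.lf (nat_lit 0) (nat_lit 10043325785) (nat_lit 152) (nat_lit 2773579998) (nat_lit 228) (nat_lit 4314670768) (nat_lit 26) (nat_lit 5) (nat_lit 28) (nat_lit 5) (nat_lit 29) (nat_lit 5) (nat_lit 382) (nat_lit 283) (nat_lit 235))) (XT.nd (nat_lit 78) (nat_lit 152) (nat_lit 0) (XT.lf (nat_lit 0) (nat_lit 1603124812) (nat_lit 228) (nat_lit 12109292694) (nat_lit 76) (nat_lit 3787447322) (nat_lit 23) (nat_lit 5) (nat_lit 26) (nat_lit 5) (nat_lit 24) (nat_lit 5) (nat_lit 383) (nat_lit 283) (nat_lit 234)) (XT.nd (nat_lit 78) (nat_lit 0) (nat_lit 0) (XT.lf (nat_lit 0) (nat_lit 297670124) (nat_lit 152) (nat_lit 7342432717) (nat_lit 228) (nat_lit 10238536394) (nat_lit 21) (nat_lit 5) (nat_lit 23) (nat_lit 5) (nat_lit 24) (nat_lit 5) (nat_lit 384) (nat_lit 283) (nat_lit 233))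 (XT.lf (nat_lit 0) (nat_lit 13123502533) (nat_lit 152) (nat_lit 749080297) (nat_lit 228) (nat_lit 4395919048) (nat_lit 21) (nat_lit 5) (nat_lit 23) (nat_lit 5) (nat_lit 24) (nat_lit 5) (nat_lit 385) (nat_lit 283) (nat_lit 232))))) (XT.nd (nat_lit 42666) (nat_lit 0) (nat_lit 19608) (XT.nd (nat_lit 78) (nat_lit 152) (nat_lit 0) (XT.lf (nat_lit 0) (nat_lit 1623449687) (nat_lit 228) (nat_lit 11072327626) (nat_lit 76) (nat_lit 5973629799) (nat_lit 18) (nat_lit 5) (nat_lit 21) (nat_lit 5) (nat_lit 19) (nat_lit 5) (nat_lit 386) (nat_lit 283) (nat_lit 231)) (XT.lf (nat_lit 0) (nat_lit 1580683271) (nat_lit 152) (nat_lit 6168420020) (nat_lit 228) (nat_lit 11332958409) (nat_lit 16) (nat_lit 5) (nat_lit 18) (nat_lit 5) (nat_lit 19) (nat_lit 5) (nat_lit 387) (nat_lit 283) (nat_lit 230))) (XT.nd (nat_lit 78) (nat_lit 1672) (nat_lit 0) (XT.lf (nat_lit 0) (nat_lit 1933724950) (nat_lit 760) (nat_lit 934968078) (nat_lit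 760) (nat_lit 934968078) (nat_lit 296) (nat_lit 4) (nat_lit 306) (nat_lit 5) (nat_lit 306) (nat_lit 4) (nat_lit 332) (nat_lit 284) (nat_lit 284)) (XT.nd (nat_lit 78) (nat_lit 836) (nat_lit 0) (XT.lf (nat_lit 0) (nat_lit 3320130480) (nat_lit 836) (nat_lit 3098791871) (nat_lit 0) (nat_lit 1265337261) (nat_lit 285) (nat_lit 5) (nat_lit 296) (nat_lit 4) (nat_lit 285) (nat_lit 4) (nat_lit 333) (nat_lit 284) (nat_lit 283)) (XT.lf (nat_lit 0) (nat_lit 795415500) (nat_lit 836) (nat_lit 2442998779) (nat_lit 76) (nat_lit 4526226701) (nat_lit 274) (nat_lit 5) (nat_lit 285) (nat_lit 5) (nat_lit 275) (nat_lit 4) (nat_lit 334) (nat_lit 284) (nat_lit 282))))))))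
noncomputable def xc20 : XT := (XT.nd (nat_lit 1482) (nat_lit 5700) (nat_lit 0) (XT.nd (nat_lit 702) (nat_lit 4940) (nat_lit 0) (XT.nd (nat_lit 312) (nat_lit 3040) (nat_lit 0) (XT.nd (nat_lit 156) (nat_lit 1976) (nat_lit 0) (XT.nd (nat_lit 78) (nat_lit 760) (nat_lit 0) (XT.lf (nat_lit 0) (nat_lit 5971612137) (nat_lit 760) (nat_lit 1774491344) (nat_lit 0) (nat_lit 102418243) (nat_lit 265) (nat_lit 5) (nat_lit 275) (nat_lit 4) (nat_lit 265) (nat_lit 4) (nat_lit 335) (nat_lit 284) (nat_lit 281)) (XT.lf (nat_lit 0) (nat_lit 3268767600) (nat_lit 760) (nat_lit 1109839100) (nat_lit 76) (nat_lit 3557063276) (nat_lit 255) (nat_lit 5) (nat_lit 265) (nat_lit 5) (nat_lit 256) (nat_lit 4) (nat_lit 336) (nat_lit 284) (nat_lit 280))) (XT.nd (nat_lit 78) (nat_lit 1292) (nat_lit 0) (XT.lf (nat_lit 0) (nat_lit 436801721) (nat_lit 684) (nat_lit 424137948) (nat_lit 76) (nat_lit 7165748011) (nat_lit 246) (nat_lit 5) (nat_lit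 255) (nat_lit 5) (nat_lit 247) (nat_lit 5) (nat_lit 337) (nat_lit 284) (nat_lit 279)) (XT.lf (nat_lit 0) (nat_lit 249461167) (nat_lit 608) (nat_lit 5329449783) (nat_lit 684) (nat_lit 2542011439) (nat_lit 229) (nat_lit 5) (nat_lit 237) (nat_lit 5) (nat_lit 238) (nat_lit 4) (nat_lit 338) (nat_lit 284) (nat_lit 278)))) (XT.nd (nat_lit 156) (nat_lit 1824) (nat_lit 0) (XT.nd (nat_lit 78) (nat_lit 532) (nat_lit 0) (XT.lf (nat_lit 0) (nat_lit 936523917) (nat_lit 608) (nat_lit 1625323555) (nat_lit 684) (nat_lit 5657077316) (nat_lit 220) (nat_lit 5) (nat_lit 228) (nat_lit 5) (nat_lit 229) (nat_lit 5) (nat_lit 339) (nat_lit 284) (nat_lit 277)) (XT.lf (nat_lit 0) (nat_lit 1619716723) (nat_lit 532) (nat_lit 6112734383) (nat_lit 608) (nat_lit 588188344) (nat_lit 213) (nat_lit 5) (nat_lit 220) (nat_lit 5) (nat_lit 221) (nat_lit 4) (nat_lit 340) (nat_lit 284) (nat_lit 276))) (XT.nd (nat_lit 78) (nat_lit 1140) (nat_lit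 0) (XT.lf (nat_lit 0) (nat_lit 2286163624) (nat_lit 608) (nat_lit 2232586395) (nat_lit 684) (nat_lit 3907187202) (nat_lit 204) (nat_lit 5) (nat_lit 212) (nat_lit 5) (nat_lit 213) (nat_lit 5) (nat_lit 341) (nat_lit 284) (nat_lit 275)) (XT.nd (nat_lit 78) (nat_lit 532) (nat_lit 0) (XT.lf (nat_lit 0) (nat_lit 1170177407) (nat_lit 608) (nat_lit 5585211237) (nat_lit 76) (nat_lit 1779835640) (nat_lit 196) (nat_lit 5) (nat_lit 204) (nat_lit 5) (nat_lit 197) (nat_lit 5) (nat_lit 342) (nat_lit 284) (nat_lit 274)) (XT.lf (nat_lit 0) (nat_lit 3589966827) (nat_lit 532) (nat_lit 2712756601) (nat_lit 608) (nat_lit 2345494053) (nat_lit 189) (nat_lit 5) (nat_lit 196) (nat_lit 5) (nat_lit 197) (nat_lit 5) (nat_lit 343) (nat_lit 284) (nat_lit 273)))))) (XT.nd (nat_lit 390) (nat_lit 2280) (nat_lit 0) (XT.nd (nat_lit 156) (nat_lit 1520) (nat_lit 0) (XT.nd (nat_lit 78) (nat_lit 532) (nat_lit 0) (XT.lf (nat_lit 0) (nat_lit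 2740062884) (nat_lit 608) (nat_lit 4549677832) (nat_lit 76) (nat_lit 1475503603) (nat_lit 181) (nat_lit 5) (nat_lit 189) (nat_lit 5) (nat_lit 182) (nat_lit 5) (nat_lit 344) (nat_lit 284) (nat_lit 272)) (XT.lf (nat_lit 0) (nat_lit 4816966383) (nat_lit 532) (nat_lit 3092936042) (nat_lit 608) (nat_lit 976355976) (nat_lit 174) (nat_lit 5) (nat_lit 181) (nat_lit 5) (nat_lit 182) (nat_lit 5) (nat_lit 345) (nat_lit 284) (nat_lit 271))) (XT.nd (nat_lit 78) (nat_lit 988) (nat_lit 0) (XT.lf (nat_lit 0) (nat_lit 4124035658) (nat_lit 532) (nat_lit 3622903135) (nat_lit 76) (nat_lit 1264360992) (nat_lit 167) (nat_lit 5) (nat_lit 174) (nat_lit 5) (nat_lit 168) (nat_lit 5) (nat_lit 346) (nat_lit 284) (nat_lit 270)) (XT.nd (nat_lit 78) (nat_lit 456) (nat_lit 0) (XT.lf (nat_lit 0) (nat_lit 191310383) (nat_lit 532) (nat_lit 3207791106) (nat_lit 76) (nat_lit 5741484619) (nat_lit 160) (nat_lit 5) (nat_lit 167) (nat_lit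 5) (nat_lit 161) (nat_lit 5) (nat_lit 347) (nat_lit 284) (nat_lit 269)) (XT.lf (nat_lit 0) (nat_lit 5314923605) (nat_lit 532) (nat_lit 2839627846) (nat_lit 76) (nat_lit 1119423022) (nat_lit 154) (nat_lit 5) (nat_lit 161) (nat_lit 5) (nat_lit 155) (nat_lit 5) (nat_lit 348) (nat_lit 284) (nat_lit 268))))) (XT.nd (nat_lit 156) (nat_lit 1368) (nat_lit 0) (XT.nd (nat_lit 78) (nat_lit 380) (nat_lit 0) (XT.lf (nat_lit 0) (nat_lit 1141463866) (nat_lit 532) (nat_lit 2513645830) (nat_lit 76) (nat_lit 5756628727) (nat_lit 147) (nat_lit 5) (nat_lit 154) (nat_lit 5) (nat_lit 148) (nat_lit 5) (nat_lit 349) (nat_lit 284) (nat_lit 267)) (XT.lf (nat_lit 0) (nat_lit 6303412299) (nat_lit 456) (nat_lit 2237301003) (nat_lit 76) (nat_lit 1013201751) (nat_lit 142) (nat_lit 5) (nat_lit 148) (nat_lit 5) (nat_lit 143) (nat_lit 5) (nat_lit 350) (nat_lit 284) (nat_lit 266))) (XT.nd (nat_lit 78) (nat_lit 836) (nat_lit 0) (XT.lf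 (nat_lit 0) (nat_lit 1876298717) (nat_lit 532) (nat_lit 2019523816) (nat_lit 76) (nat_lit 5804697824) (nat_lit 135) (nat_lit 5) (nat_lit 142) (nat_lit 5) (nat_lit 136) (nat_lit 5) (nat_lit 351) (nat_lit 284) (nat_lit 265)) (XT.nd (nat_lit 78) (nat_lit 456) (nat_lit 0) (XT.lf (nat_lit 0) (nat_lit 7077908262) (nat_lit 456) (nat_lit 1856477421) (nat_lit 76) (nat_lit 917448793) (nat_lit 130) (nat_lit 5) (nat_lit 136) (nat_lit 5) (nat_lit 131) (nat_lit 5) (nat_lit 352) (nat_lit 284) (nat_lit 264)) (XT.lf (nat_lit 0) (nat_lit 2382833502) (nat_lit 456) (nat_lit 1767744008) (nat_lit 76) (nat_lit 5857100869) (nat_lit 124) (nat_lit 5) (nat_lit 130) (nat_lit 5) (nat_lit 125) (nat_lit 5) (nat_lit 353) (nat_lit 284) (nat_lit 263))))))) (XT.nd (nat_lit 702) (nat_lit 2508) (nat_lit 0) (XT.nd (nat_lit 312) (nat_lit 1596) (nat_lit 0) (XT.nd (nat_lit 156) (nat_lit 760) (nat_lit 0) (XT.nd (nat_lit 78) (nat_lit 456)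 (nat_lit 0) (XT.lf (nat_lit 0) (nat_lit 7624380741) (nat_lit 456) (nat_lit 1741249188) (nat_lit 76) (nat_lit 802885897) (nat_lit 119) (nat_lit 5) (nat_lit 125) (nat_lit 5) (nat_lit 120) (nat_lit 5) (nat_lit 354) (nat_lit 284) (nat_lit 262)) (XT.lf (nat_lit 0) (nat_lit 2645546615) (nat_lit 456) (nat_lit 1804387927) (nat_lit 76) (nat_lit 5884096757) (nat_lit 113) (nat_lit 5) (nat_lit 119) (nat_lit 5) (nat_lit 114) (nat_lit 5) (nat_lit 355) (nat_lit 284) (nat_lit 261))) (XT.nd (nat_lit 78) (nat_lit 456) (nat_lit 0) (XT.lf (nat_lit 0) (nat_lit 7926180318) (nat_lit 380) (nat_lit 1939715378) (nat_lit 76) (nat_lit 638920984) (nat_lit 109) (nat_lit 5) (nat_lit 114) (nat_lit 5) (nat_lit 110) (nat_lit 5) (nat_lit 356) (nat_lit 284) (nat_lit 260)) (XT.lf (nat_lit 0) (nat_lit 2646182549) (nat_lit 456) (nat_lit 2179790486) (nat_lit 76) (nat_lit 5854501844) (nat_lit 103) (nat_lit 5) (nat_lit 109) (nat_lit 5) (nat_lit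 104) (nat_lit 5) (nat_lit 357) (nat_lit 284) (nat_lit 259)))) (XT.nd (nat_lit 156) (nat_lit 912) (nat_lit 0) (XT.nd (nat_lit 78) (nat_lit 380) (nat_lit 0) (XT.lf (nat_lit 0) (nat_lit 7963832426) (nat_lit 380) (nat_lit 2504494502) (nat_lit 76) (nat_lit 393347077) (nat_lit 99) (nat_lit 5) (nat_lit 104) (nat_lit 5) (nat_lit 100) (nat_lit 5) (nat_lit 358) (nat_lit 284) (nat_lit 258)) (XT.lf (nat_lit 0) (nat_lit 2363531979) (nat_lit 380) (nat_lit 2949075953) (nat_lit 76) (nat_lit 5735379085) (nat_lit 94) (nat_lit 5) (nat_lit 99) (nat_lit 5) (nat_lit 95) (nat_lit 5) (nat_lit 359) (nat_lit 284) (nat_lit 257))) (XT.nd (nat_lit 78) (nat_lit 608) (nat_lit 0) (XT.lf (nat_lit 0) (nat_lit 7714803603) (nat_lit 380) (nat_lit 3493284688) (nat_lit 76) (nat_lit 32021349) (nat_lit 90) (nat_lit 5) (nat_lit 95) (nat_lit 5) (nat_lit 91) (nat_lit 5) (nat_lit 360) (nat_lit 284) (nat_lit 256)) (XT.nd (nat_lit 78) (nat_lit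 228) (nat_lit 0) (XT.lf (nat_lit 0) (nat_lit 1773183362) (nat_lit 380) (nat_lit 4172744265) (nat_lit 76) (nat_lit 5491705901) (nat_lit 85) (nat_lit 5) (nat_lit 90) (nat_lit 5) (nat_lit 86) (nat_lit 5) (nat_lit 361) (nat_lit 284) (nat_lit 255)) (XT.lf (nat_lit 0) (nat_lit 6668528436) (nat_lit 228) (nat_lit 487877260) (nat_lit 304) (nat_lit 4484767364) (nat_lit 82) (nat_lit 5) (nat_lit 85) (nat_lit 5) (nat_lit 86) (nat_lit 5) (nat_lit 362) (nat_lit 284) (nat_lit 254)))))) (XT.nd (nat_lit 390) (nat_lit 1064) (nat_lit 0) (XT.nd (nat_lit 156) (nat_lit 836) (nat_lit 0) (XT.nd (nat_lit 78) (nat_lit 228) (nat_lit 0) (XT.lf (nat_lit 0) (nat_lit 847243509) (nat_lit 380) (nat_lit 5917313394) (nat_lit 76) (nat_lit 5086017695) (nat_lit 77) (nat_lit 5) (nat_lit 82) (nat_lit 5) (nat_lit 78) (nat_lit 5) (nat_lit 363) (nat_lit 284) (nat_lit 253)) (XT.lf (nat_lit 0) (nat_lit 5055476833) (nat_lit 228) (nat_lit 1201989219)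 (nat_lit 304) (nat_lit 5808642813) (nat_lit 74) (nat_lit 5) (nat_lit 77) (nat_lit 5) (nat_lit 78) (nat_lit 5) (nat_lit 364) (nat_lit 284) (nat_lit 252))) (XT.nd (nat_lit 78) (nat_lit 532) (nat_lit 0) (XT.lf (nat_lit 0) (nat_lit 4029055181) (nat_lit 304) (nat_lit 7807055560) (nat_lit 380) (nat_lit 451902522) (nat_lit 70) (nat_lit 5) (nat_lit 74) (nat_lit 5) (nat_lit 75) (nat_lit 5) (nat_lit 365) (nat_lit 284) (nat_lit 251)) (XT.nd (nat_lit 78) (nat_lit 228) (nat_lit 0) (XT.lf (nat_lit 0) (nat_lit 2832058301) (nat_lit 228) (nat_lit 2152569592) (nat_lit 304) (nat_lit 7531603801) (nat_lit 66) (nat_lit 5) (nat_lit 69) (nat_lit 5) (nat_lit 70) (nat_lit 5) (nat_lit 366) (nat_lit 284) (nat_lit 250)) (XT.lf (nat_lit 0) (nat_lit 1467507292) (nat_lit 228) (nat_lit 9112929557) (nat_lit 304) (nat_lit 2170778050) (nat_lit 63) (nat_lit 5) (nat_lit 66) (nat_lit 5) (nat_lit 67) (nat_lit 5) (nat_lit 367) (nat_lit 284)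 (nat_lit 249))))) (XT.nd (nat_lit 156) (nat_lit 760) (nat_lit 0) (XT.nd (nat_lit 78) (nat_lit 228) (nat_lit 0) (XT.lf (nat_lit 0) (nat_lit 3301003069) (nat_lit 304) (nat_lit 84258406) (nat_lit 76) (nat_lit 9607692680) (nat_lit 62) (nat_lit 5) (nat_lit 66) (nat_lit 5) (nat_lit 63) (nat_lit 5) (nat_lit 368) (nat_lit 284) (nat_lit 248)) (XT.lf (nat_lit 0) (nat_lit 8914649849) (nat_lit 304) (nat_lit 1809515454) (nat_lit 76) (nat_lit 2517371775) (nat_lit 59) (nat_lit 5) (nat_lit 63) (nat_lit 5) (nat_lit 60) (nat_lit 5) (nat_lit 369) (nat_lit 284) (nat_lit 247))) (XT.nd (nat_lit 78) (nat_lit 456) (nat_lit 0) (XT.lf (nat_lit 0) (nat_lit 1187382340) (nat_lit 304) (nat_lit 3739497661) (nat_lit 76) (nat_lit 8570483635) (nat_lit 55) (nat_lit 5) (nat_lit 59) (nat_lit 5) (nat_lit 56) (nat_lit 5) (nat_lit 370) (nat_lit 284) (nat_lit 246)) (XT.nd (nat_lit 78) (nat_lit 228) (nat_lit 0) (XT.lf (nat_lit 0) (nat_lit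 6797471891) (nat_lit 304) (nat_lit 5892896366) (nat_lit 76) (nat_lit 1070162018) (nat_lit 52) (nat_lit 5) (nat_lit 56) (nat_lit 5) (nat_lit 53) (nat_lit 5) (nat_lit 371) (nat_lit 284) (nat_lit 245)) (XT.lf (nat_lit 0) (nat_lit 5750446079) (nat_lit 228) (nat_lit 6840703488) (nat_lit 304) (nat_lit 1440156877) (nat_lit 49) (nat_lit 5) (nat_lit 52) (nat_lit 5) (nat_lit 53) (nat_lit 5) (nat_lit 372) (nat_lit 284) (nat_lit 244))))))))
noncomputable def xc21 : XT := (XT.nd (nat_lit 43836) (nat_lit 0) (nat_lit 8056) (XT.nd (nat_lit 702) (nat_lit 760) (nat_lit 0) (XT.nd (nat_lit 312) (nat_lit 912) (nat_lit 0) (XT.nd (nat_lit 156) (nat_lit 228) (nat_lit 0) (XT.nd (nat_lit 78) (nat_lit 228) (nat_lit 0) (XT.lf (nat_lit 0) (nat_lit 3397226973) (nat_lit 152) (nat_lit 778173282) (nat_lit 228) (nat_lit 10134619481) (nat_lit 46) (nat_lit 5) (nat_lit 48) (nat_lit 5) (nat_lit 49) (nat_lit 5) (nat_lit 373) (nat_lit 284)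 (nat_lit 243)) (XT.lf (nat_lit 0) (nat_lit 774816810) (nat_lit 228) (nat_lit 9183708005) (nat_lit 304) (nat_lit 4638024592) (nat_lit 43) (nat_lit 5) (nat_lit 46) (nat_lit 5) (nat_lit 47) (nat_lit 5) (nat_lit 374) (nat_lit 284) (nat_lit 242))) (XT.nd (nat_lit 78) (nat_lit 152) (nat_lit 0) (XT.lf (nat_lit 0) (nat_lit 1012144554) (nat_lit 304) (nat_lit 2071882985) (nat_lit 76) (nat_lit 11807490340) (nat_lit 42) (nat_lit 5) (nat_lit 46) (nat_lit 5) (nat_lit 43) (nat_lit 5) (nat_lit 375) (nat_lit 284) (nat_lit 241)) (XT.lf (nat_lit 0) (nat_lit 6779886504) (nat_lit 228) (nat_lit 5213308527) (nat_lit 76) (nat_lit 3201322907) (nat_lit 40) (nat_lit 5) (nat_lit 43) (nat_lit 5) (nat_lit 41) (nat_lit 5) (nat_lit 376) (nat_lit 284) (nat_lit 240)))) (XT.nd (nat_lit 156) (nat_lit 456) (nat_lit 0) (XT.nd (nat_lit 78) (nat_lit 228) (nat_lit 0) (XT.lf (nat_lit 0) (nat_lit 6860159977) (nat_lit 228) (nat_lit 5865552293)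 (nat_lit 304) (nat_lit 2780811476) (nat_lit 37) (nat_lit 5) (nat_lit 40) (nat_lit 5) (nat_lit 41) (nat_lit 5) (nat_lit 377) (nat_lit 284) (nat_lit 239)) (XT.lf (nat_lit 0) (nat_lit 2969953465) (nat_lit 228) (nat_lit 12391581651) (nat_lit 76) (nat_lit 466226869) (nat_lit 34) (nat_lit 5) (nat_lit 37) (nat_lit 5) (nat_lit 35) (nat_lit 5) (nat_lit 378) (nat_lit 284) (nat_lit 238))) (XT.nd (nat_lit 78) (nat_lit 456) (nat_lit 0) (XT.lf (nat_lit 0) (nat_lit 8881483209) (nat_lit 228) (nat_lit 341151928) (nat_lit 76) (nat_lit 6935129674) (nat_lit 34) (nat_lit 5) (nat_lit 37) (nat_lit 5) (nat_lit 35) (nat_lit 5) (nat_lit 379) (nat_lit 284) (nat_lit 237)) (XT.nd (nat_lit 78) (nat_lit 228) (nat_lit 0) (XT.lf (nat_lit 0) (nat_lit 12108203764) (nat_lit 228) (nat_lit 2870480994) (nat_lit 304) (nat_lit 1518831500) (nat_lit 31) (nat_lit 5) (nat_lit 34) (nat_lit 5) (nat_lit 35) (nat_lit 5) (nat_lit 380) (nat_lit 284)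 (nat_lit 236)) (XT.lf (nat_lit 0) (nat_lit 4362620901) (nat_lit 228) (nat_lit 8826472191) (nat_lit 76) (nat_lit 3657625973) (nat_lit 28) (nat_lit 5) (nat_lit 31) (nat_lit 5) (nat_lit 29) (nat_lit 5) (nat_lit 381) (nat_lit 284) (nat_lit 235)))))) (XT.nd (nat_lit 390) (nat_lit 76) (nat_lit 0) (XT.nd (nat_lit 156) (nat_lit 532) (nat_lit 0) (XT.nd (nat_lit 78) (nat_lit 0) (nat_lit 0) (XT.lf (nat_lit 0) (nat_lit 3553975522) (nat_lit 152) (nat_lit 6849676555) (nat_lit 228) (nat_lit 6802483597) (nat_lit 26) (nat_lit 5) (nat_lit 28) (nat_lit 5) (nat_lit 29) (nat_lit 5) (nat_lit 382) (nat_lit 284) (nat_lit 234)) (XT.lf (nat_lit 0) (nat_lit 16309136068) (nat_lit 152) (nat_lit 309264187) (nat_lit 228) (nat_lit 958098313) (nat_lit 26) (nat_lit 5) (nat_lit 28) (nat_lit 5) (nat_lit 29) (nat_lit 5) (nat_lit 383) (nat_lit 284) (nat_lit 233))) (XT.nd (nat_lit 78) (nat_lit 304) (nat_lit 0) (XT.lf (nat_lit 0) (nat_lit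 5046160593) (nat_lit 228) (nat_lit 6507424991) (nat_lit 76) (nat_lit 6402723831) (nat_lit 23) (nat_lit 5) (nat_lit 26) (nat_lit 5) (nat_lit 24) (nat_lit 5) (nat_lit 384) (nat_lit 284) (nat_lit 232)) (XT.nd (nat_lit 78) (nat_lit 152) (nat_lit 0) (XT.lf (nat_lit 0) (nat_lit 6174969297) (nat_lit 152) (nat_lit 5028498203) (nat_lit 228) (nat_lit 7144214169) (nat_lit 21) (nat_lit 5) (nat_lit 23) (nat_lit 5) (nat_lit 24) (nat_lit 5) (nat_lit 385) (nat_lit 284) (nat_lit 231)) (XT.lf (nat_lit 0) (nat_lit 458500662) (nat_lit 152) (nat_lit 17081251703) (nat_lit 228) (nat_lit 1211169668) (nat_lit 19) (nat_lit 5) (nat_lit 21) (nat_lit 5) (nat_lit 22) (nat_lit 4) (nat_lit 386) (nat_lit 284) (nat_lit 230))))) (XT.nd (nat_lit 42510) (nat_lit 0) (nat_lit 20292) (XT.nd (nat_lit 42432) (nat_lit 0) (nat_lit 22724) (XT.lf (nat_lit 0) (nat_lit 4888884491) (nat_lit 228) (nat_lit 5707571558) (nat_lit 76) (nat_lit 8568113213)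 (nat_lit 18) (nat_lit 5) (nat_lit 21) (nat_lit 5) (nat_lit 19) (nat_lit 5) (nat_lit 387) (nat_lit 284) (nat_lit 229)) (XT.lf (nat_lit 0) (nat_lit 1286212965) (nat_lit 836) (nat_lit 1222416838) (nat_lit 836) (nat_lit 1222416838) (nat_lit 317) (nat_lit 4) (nat_lit 328) (nat_lit 5) (nat_lit 328) (nat_lit 4) (nat_lit 330) (nat_lit 285) (nat_lit 285))) (XT.nd (nat_lit 78) (nat_lit 1596) (nat_lit 0) (XT.lf (nat_lit 0) (nat_lit 2664512260) (nat_lit 836) (nat_lit 4363532756) (nat_lit 0) (nat_lit 505746505) (nat_lit 306) (nat_lit 5) (nat_lit 317) (nat_lit 4) (nat_lit 306) (nat_lit 4) (nat_lit 331) (nat_lit 285) (nat_lit 284)) (XT.nd (nat_lit 78) (nat_lit 760) (nat_lit 0) (XT.lf (nat_lit 0) (nat_lit 213343448) (nat_lit 836) (nat_lit 3823701070) (nat_lit 76) (nat_lit 3571721067) (nat_lit 295) (nat_lit 5) (nat_lit 306) (nat_lit 5) (nat_lit 296) (nat_lit 4) (nat_lit 332) (nat_lit 285) (nat_lit 283)) (XT.lf (nat_lit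 0) (nat_lit 4416089923) (nat_lit 760) (nat_lit 883706378) (nat_lit 836) (nat_lit 2387291202) (nat_lit 285) (nat_lit 5) (nat_lit 295) (nat_lit 5) (nat_lit 296) (nat_lit 4) (nat_lit 333) (nat_lit 285) (nat_lit 282))))))) (XT.nd (nat_lit 780) (nat_lit 4940) (nat_lit 0) (XT.nd (nat_lit 390) (nat_lit 3648) (nat_lit 0) (XT.nd (nat_lit 156) (nat_lit 2128) (nat_lit 0) (XT.nd (nat_lit 78) (nat_lit 684) (nat_lit 0) (XT.lf (nat_lit 0) (nat_lit 2670269856) (nat_lit 836) (nat_lit 2709069676) (nat_lit 76) (nat_lit 2389437137) (nat_lit 274) (nat_lit 5) (nat_lit 285) (nat_lit 5) (nat_lit 275) (nat_lit 4) (nat_lit 334) (nat_lit 285) (nat_lit 281)) (XT.lf (nat_lit 0) (nat_lit 5724798991) (nat_lit 684) (nat_lit 2051557767) (nat_lit 760) (nat_lit 77744944) (nat_lit 265) (nat_lit 5) (nat_lit 274) (nat_lit 5) (nat_lit 275) (nat_lit 4) (nat_lit 335) (nat_lit 285) (nat_lit 280))) (XT.nd (nat_lit 78) (nat_lit 1368) (nat_lit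 0) (XT.lf (nat_lit 0) (nat_lit 4961871551) (nat_lit 760) (nat_lit 1554567330) (nat_lit 76) (nat_lit 1426266798) (nat_lit 255) (nat_lit 5) (nat_lit 265) (nat_lit 5) (nat_lit 256) (nat_lit 4) (nat_lit 336) (nat_lit 285) (nat_lit 279)) (XT.nd (nat_lit 78) (nat_lit 684) (nat_lit 0) (XT.lf (nat_lit 0) (nat_lit 2031972498) (nat_lit 684) (nat_lit 973622665) (nat_lit 76) (nat_lit 5029323104) (nat_lit 246) (nat_lit 5) (nat_lit 255) (nat_lit 5) (nat_lit 247) (nat_lit 5) (nat_lit 337) (nat_lit 285) (nat_lit 278)) (XT.lf (nat_lit 0) (nat_lit 7090362915) (nat_lit 760) (nat_lit 385693047) (nat_lit 76) (nat_lit 654808415) (nat_lit 237) (nat_lit 5) (nat_lit 247) (nat_lit 5) (nat_lit 238) (nat_lit 4) (nat_lit 338) (nat_lit 285) (nat_lit 277))))) (XT.nd (nat_lit 156) (nat_lit 1748) (nat_lit 0) (XT.nd (nat_lit 78) (nat_lit 608) (nat_lit 0) (XT.lf (nat_lit 0) (nat_lit 186369043) (nat_lit 608) (nat_lit 3786245551) (nat_lit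 684) (nat_lit 4257513455) (nat_lit 220) (nat_lit 5) (nat_lit 228) (nat_lit 5) (nat_lit 229) (nat_lit 5) (nat_lit 339) (nat_lit 285) (nat_lit 276)) (XT.lf (nat_lit 0) (nat_lit 718290060) (nat_lit 608) (nat_lit 7557028537) (nat_lit 76) (nat_lit 58101181) (nat_lit 212) (nat_lit 5) (nat_lit 220) (nat_lit 5) (nat_lit 213) (nat_lit 5) (nat_lit 340) (nat_lit 285) (nat_lit 275))) (XT.nd (nat_lit 78) (nat_lit 1140) (nat_lit 0) (XT.lf (nat_lit 0) (nat_lit 1334021774) (nat_lit 608) (nat_lit 4415784427) (nat_lit 684) (nat_lit 2690221700) (nat_lit 204) (nat_lit 5) (nat_lit 212) (nat_lit 5) (nat_lit 213) (nat_lit 5) (nat_lit 341) (nat_lit 285) (nat_lit 274)) (XT.nd (nat_lit 78) (nat_lit 532) (nat_lit 0) (XT.lf (nat_lit 0) (nat_lit 1894550155) (nat_lit 532) (nat_lit 397318780) (nat_lit 608) (nat_lit 6258905267) (nat_lit 196) (nat_lit 5) (nat_lit 203) (nat_lit 5) (nat_lit 204) (nat_lit 5) (nat_lit 342) (nat_lit 285)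 (nat_lit 273)) (XT.lf (nat_lit 0) (nat_lit 2427198707) (nat_lit 532) (nat_lit 4927553879) (nat_lit 608) (nat_lit 1310438157) (nat_lit 189) (nat_lit 5) (nat_lit 196) (nat_lit 5) (nat_lit 197) (nat_lit 5) (nat_lit 343) (nat_lit 285) (nat_lit 272)))))) (XT.nd (nat_lit 390) (nat_lit 2280) (nat_lit 0) (XT.nd (nat_lit 156) (nat_lit 1520) (nat_lit 0) (XT.nd (nat_lit 78) (nat_lit 532) (nat_lit 0) (XT.lf (nat_lit 0) (nat_lit 2943583102) (nat_lit 532) (nat_lit 741211252) (nat_lit 608) (nat_lit 5098852457) (nat_lit 181) (nat_lit 5) (nat_lit 188) (nat_lit 5) (nat_lit 189) (nat_lit 5) (nat_lit 344) (nat_lit 285) (nat_lit 271)) (XT.lf (nat_lit 0) (nat_lit 3434881707) (nat_lit 532) (nat_lit 5348326414) (nat_lit 608) (nat_lit 122909100) (nat_lit 174) (nat_lit 5) (nat_lit 181) (nat_lit 5) (nat_lit 182) (nat_lit 5) (nat_lit 345) (nat_lit 285) (nat_lit 270))) (XT.nd (nat_lit 78) (nat_lit 988) (nat_lit 0) (XT.lf (nat_lit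 0) (nat_lit 3891761234) (nat_lit 456) (nat_lit 999575455) (nat_lit 532) (nat_lit 4141236623) (nat_lit 167) (nat_lit 5) (nat_lit 173) (nat_lit 5) (nat_lit 174) (nat_lit 5) (nat_lit 346) (nat_lit 285) (nat_lit 269)) (XT.nd (nat_lit 78) (nat_lit 456) (nat_lit 0) (XT.lf (nat_lit 0) (nat_lit 854262443) (nat_lit 532) (nat_lit 4845079795) (nat_lit 76) (nat_lit 3463911544) (nat_lit 160) (nat_lit 5) (nat_lit 167) (nat_lit 5) (nat_lit 161) (nat_lit 5) (nat_lit 347) (nat_lit 285) (nat_lit 268)) (XT.lf (nat_lit 0) (nat_lit 4704653459) (nat_lit 456) (nat_lit 1199482496) (nat_lit 532) (nat_lit 3394005450) (nat_lit 154) (nat_lit 5) (nat_lit 160) (nat_lit 5) (nat_lit 161) (nat_lit 5) (nat_lit 348) (nat_lit 285) (nat_lit 267))))) (XT.nd (nat_lit 156) (nat_lit 1368) (nat_lit 0) (XT.nd (nat_lit 78) (nat_lit 380) (nat_lit 0) (XT.lf (nat_lit 0) (nat_lit 1624678925) (nat_lit 532) (nat_lit 4389634052) (nat_lit 76) (nat_lit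 3423030686) (nat_lit 147) (nat_lit 5) (nat_lit 154) (nat_lit 5) (nat_lit 148) (nat_lit 5) (nat_lit 349) (nat_lit 285) (nat_lit 266)) (XT.lf (nat_lit 0) (nat_lit 5345151394) (nat_lit 380) (nat_lit 1368551524) (nat_lit 456) (nat_lit 2867298471) (nat_lit 142) (nat_lit 5) (nat_lit 147) (nat_lit 5) (nat_lit 148) (nat_lit 5) (nat_lit 350) (nat_lit 285) (nat_lit 265))) (XT.nd (nat_lit 78) (nat_lit 836) (nat_lit 0) (XT.lf (nat_lit 0) (nat_lit 2178989659) (nat_lit 532) (nat_lit 4143249217) (nat_lit 76) (nat_lit 3406849326) (nat_lit 135) (nat_lit 5) (nat_lit 142) (nat_lit 5) (nat_lit 136) (nat_lit 5) (nat_lit 351) (nat_lit 285) (nat_lit 264)) (XT.nd (nat_lit 78) (nat_lit 456) (nat_lit 0) (XT.lf (nat_lit 0) (nat_lit 5773074416) (nat_lit 380) (nat_lit 1535208221) (nat_lit 456) (nat_lit 2573586907) (nat_lit 130) (nat_lit 5) (nat_lit 135) (nat_lit 5) (nat_lit 136) (nat_lit 5) (nat_lit 352) (nat_lit 285) (nat_lit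 263)) (XT.lf (nat_lit 0) (nat_lit 2503868997) (nat_lit 456) (nat_lit 4148413398) (nat_lit 76) (nat_lit 3386958451) (nat_lit 124) (nat_lit 5) (nat_lit 130) (nat_lit 5) (nat_lit 125) (nat_lit 5) (nat_lit 353) (nat_lit 285) (nat_lit 262))))))))
noncomputable def xc22 : XT := (XT.nd (nat_lit 1482) (nat_lit 2356) (nat_lit 0) (XT.nd (nat_lit 702) (nat_lit 2508) (nat_lit 0) (XT.nd (nat_lit 312) (nat_lit 1596) (nat_lit 0) (XT.nd (nat_lit 156) (nat_lit 760) (nat_lit 0) (XT.nd (nat_lit 78) (nat_lit 456) (nat_lit 0) (XT.lf (nat_lit 0) (nat_lit 5944740918) (nat_lit 380) (nat_lit 1728955790) (nat_lit 456) (nat_lit 2527835282) (nat_lit 119) (nat_lit 5) (nat_lit 124) (nat_lit 5) (nat_lit 125) (nat_lit 5) (nat_lit 354) (nat_lit 285) (nat_lit 261)) (XT.lf (nat_lit 0) (nat_lit 2583457437) (nat_lit 456) (nat_lit 4451403674) (nat_lit 76) (nat_lit 3333766116) (nat_lit 113) (nat_lit 5) (nat_lit 119) (nat_lit 5) (nat_lit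 114) (nat_lit 5) (nat_lit 355) (nat_lit 285) (nat_lit 260))) (XT.nd (nat_lit 78) (nat_lit 456) (nat_lit 0) (XT.lf (nat_lit 0) (nat_lit 5812501633) (nat_lit 304) (nat_lit 1980660848) (nat_lit 380) (nat_lit 2747686542) (nat_lit 109) (nat_lit 5) (nat_lit 113) (nat_lit 5) (nat_lit 114) (nat_lit 5) (nat_lit 356) (nat_lit 285) (nat_lit 259)) (XT.lf (nat_lit 0) (nat_lit 2399166689) (nat_lit 456) (nat_lit 5102776398) (nat_lit 76) (nat_lit 3216206726) (nat_lit 103) (nat_lit 5) (nat_lit 109) (nat_lit 5) (nat_lit 104) (nat_lit 5) (nat_lit 357) (nat_lit 285) (nat_lit 258)))) (XT.nd (nat_lit 156) (nat_lit 912) (nat_lit 0) (XT.nd (nat_lit 78) (nat_lit 380) (nat_lit 0) (XT.lf (nat_lit 0) (nat_lit 5324230549) (nat_lit 304) (nat_lit 2322856842) (nat_lit 380) (nat_lit 3253672619) (nat_lit 99) (nat_lit 5) (nat_lit 103) (nat_lit 5) (nat_lit 104) (nat_lit 5) (nat_lit 358) (nat_lit 285) (nat_lit 257)) (XT.lf (nat_lit 0)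 (nat_lit 1929458601) (nat_lit 380) (nat_lit 6157902754) (nat_lit 76) (nat_lit 3001431749) (nat_lit 94) (nat_lit 5) (nat_lit 99) (nat_lit 5) (nat_lit 95) (nat_lit 5) (nat_lit 359) (nat_lit 285) (nat_lit 256))) (XT.nd (nat_lit 78) (nat_lit 608) (nat_lit 0) (XT.lf (nat_lit 0) (nat_lit 4422768441) (nat_lit 304) (nat_lit 2790067745) (nat_lit 380) (nat_lit 4069452658) (nat_lit 90) (nat_lit 5) (nat_lit 94) (nat_lit 5) (nat_lit 95) (nat_lit 5) (nat_lit 360) (nat_lit 285) (nat_lit 255)) (XT.nd (nat_lit 78) (nat_lit 228) (nat_lit 0) (XT.lf (nat_lit 0) (nat_lit 1149595671) (nat_lit 380) (nat_lit 7677554754) (nat_lit 76) (nat_lit 2654479022) (nat_lit 85) (nat_lit 5) (nat_lit 90) (nat_lit 5) (nat_lit 86) (nat_lit 5) (nat_lit 361) (nat_lit 285) (nat_lit 254)) (XT.lf (nat_lit 0) (nat_lit 3045313650) (nat_lit 228) (nat_lit 3419155061) (nat_lit 304) (nat_lit 5222081334) (nat_lit 82) (nat_lit 5) (nat_lit 85) (nat_lit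 5) (nat_lit 86) (nat_lit 5) (nat_lit 362) (nat_lit 285) (nat_lit 253)))))) (XT.nd (nat_lit 390) (nat_lit 1292) (nat_lit 0) (XT.nd (nat_lit 156) (nat_lit 608) (nat_lit 0) (XT.nd (nat_lit 78) (nat_lit 228) (nat_lit 0) (XT.lf (nat_lit 0) (nat_lit 31360566) (nat_lit 380) (nat_lit 9728547389) (nat_lit 76) (nat_lit 2137917551) (nat_lit 77) (nat_lit 5) (nat_lit 82) (nat_lit 5) (nat_lit 78) (nat_lit 5) (nat_lit 363) (nat_lit 285) (nat_lit 252)) (XT.lf (nat_lit 0) (nat_lit 1122754137) (nat_lit 228) (nat_lit 4249691371) (nat_lit 304) (nat_lit 6742310029) (nat_lit 74) (nat_lit 5) (nat_lit 77) (nat_lit 5) (nat_lit 78) (nat_lit 5) (nat_lit 364) (nat_lit 285) (nat_lit 251))) (XT.nd (nat_lit 78) (nat_lit 608) (nat_lit 0) (XT.lf (nat_lit 0) (nat_lit 10862194130) (nat_lit 304) (nat_lit 54843845) (nat_lit 76) (nat_lit 1421412517) (nat_lit 74) (nat_lit 5) (nat_lit 78) (nat_lit 5) (nat_lit 75) (nat_lit 5) (nat_lit 365)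 (nat_lit 285) (nat_lit 250)) (XT.nd (nat_lit 78) (nat_lit 228) (nat_lit 0) (XT.lf (nat_lit 0) (nat_lit 3912524757) (nat_lit 380) (nat_lit 1402428153) (nat_lit 76) (nat_lit 7253084728) (nat_lit 69) (nat_lit 5) (nat_lit 74) (nat_lit 5) (nat_lit 70) (nat_lit 5) (nat_lit 366) (nat_lit 285) (nat_lit 249)) (XT.lf (nat_lit 0) (nat_lit 9427178482) (nat_lit 304) (nat_lit 2904741057) (nat_lit 76) (nat_lit 472736084) (nat_lit 66) (nat_lit 5) (nat_lit 70) (nat_lit 5) (nat_lit 67) (nat_lit 5) (nat_lit 367) (nat_lit 285) (nat_lit 248))))) (XT.nd (nat_lit 156) (nat_lit 760) (nat_lit 0) (XT.nd (nat_lit 78) (nat_lit 228) (nat_lit 0) (XT.lf (nat_lit 0) (nat_lit 2049583441) (nat_lit 304) (nat_lit 4608900656) (nat_lit 76) (nat_lit 6389289519) (nat_lit 62) (nat_lit 5) (nat_lit 66) (nat_lit 5) (nat_lit 63) (nat_lit 5) (nat_lit 368) (nat_lit 285) (nat_lit 247)) (XT.lf (nat_lit 0) (nat_lit 6797314488) (nat_lit 228) (nat_lit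 779046090) (nat_lit 304) (nat_lit 5721744143) (nat_lit 59) (nat_lit 5) (nat_lit 62) (nat_lit 5) (nat_lit 63) (nat_lit 5) (nat_lit 369) (nat_lit 285) (nat_lit 246))) (XT.nd (nat_lit 78) (nat_lit 532) (nat_lit 0) (XT.lf (nat_lit 0) (nat_lit 4950956058) (nat_lit 228) (nat_lit 8335591593) (nat_lit 304) (nat_lit 269067236) (nat_lit 56) (nat_lit 5) (nat_lit 59) (nat_lit 5) (nat_lit 60) (nat_lit 5) (nat_lit 370) (nat_lit 285) (nat_lit 245)) (XT.nd (nat_lit 78) (nat_lit 228) (nat_lit 0) (XT.lf (nat_lit 0) (nat_lit 2880925927) (nat_lit 228) (nat_lit 2385101392) (nat_lit 304) (nat_lit 8554369592) (nat_lit 52) (nat_lit 5) (nat_lit 55) (nat_lit 5) (nat_lit 56) (nat_lit 5) (nat_lit 371) (nat_lit 285) (nat_lit 244)) (XT.lf (nat_lit 0) (nat_lit 587103509) (nat_lit 228) (nat_lit 10385088785) (nat_lit 304) (nat_lit 3120740720) (nat_lit 49) (nat_lit 5) (nat_lit 52) (nat_lit 5) (nat_lit 53) (nat_lit 5) (nat_lit 372)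 (nat_lit 285) (nat_lit 243))))))) (XT.nd (nat_lit 702) (nat_lit 760) (nat_lit 0) (XT.nd (nat_lit 312) (nat_lit 912) (nat_lit 0) (XT.nd (nat_lit 156) (nat_lit 456) (nat_lit 0) (XT.nd (nat_lit 78) (nat_lit 152) (nat_lit 0) (XT.lf (nat_lit 0) (nat_lit 2456747002) (nat_lit 304) (nat_lit 1925389301) (nat_lit 76) (nat_lit 9990939657) (nat_lit 48) (nat_lit 5) (nat_lit 52) (nat_lit 5) (nat_lit 49) (nat_lit 5) (nat_lit 373) (nat_lit 285) (nat_lit 242)) (XT.lf (nat_lit 0) (nat_lit 8161170438) (nat_lit 228) (nat_lit 4686929814) (nat_lit 76) (nat_lit 1813088344) (nat_lit 46) (nat_lit 5) (nat_lit 49) (nat_lit 5) (nat_lit 47) (nat_lit 5) (nat_lit 374) (nat_lit 285) (nat_lit 241))) (XT.nd (nat_lit 78) (nat_lit 228) (nat_lit 0) (XT.lf (nat_lit 0) (nat_lit 7239869843) (nat_lit 228) (nat_lit 6812353817) (nat_lit 304) (nat_lit 905428641) (nat_lit 43) (nat_lit 5) (nat_lit 46) (nat_lit 5) (nat_lit 47) (nat_lit 5) (nat_lit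 375) (nat_lit 285) (nat_lit 240)) (XT.lf (nat_lit 0) (nat_lit 4225715754) (nat_lit 152) (nat_lit 553897408) (nat_lit 228) (nat_lit 10483056535) (nat_lit 40) (nat_lit 5) (nat_lit 42) (nat_lit 5) (nat_lit 43) (nat_lit 5) (nat_lit 376) (nat_lit 285) (nat_lit 239)))) (XT.nd (nat_lit 156) (nat_lit 608) (nat_lit 0) (XT.nd (nat_lit 78) (nat_lit 76) (nat_lit 0) (XT.lf (nat_lit 0) (nat_lit 901207872) (nat_lit 228) (nat_lit 9746436148) (nat_lit 304) (nat_lit 4928595409) (nat_lit 37) (nat_lit 5) (nat_lit 40) (nat_lit 5) (nat_lit 41) (nat_lit 5) (nat_lit 377) (nat_lit 285) (nat_lit 238)) (XT.lf (nat_lit 0) (nat_lit 789839026) (nat_lit 304) (nat_lit 2680759891) (nat_lit 76) (nat_lit 12428375268) (nat_lit 36) (nat_lit 5) (nat_lit 40) (nat_lit 5) (nat_lit 37) (nat_lit 5) (nat_lit 378) (nat_lit 285) (nat_lit 237))) (XT.nd (nat_lit 78) (nat_lit 456) (nat_lit 0) (XT.lf (nat_lit 0) (nat_lit 6626457048) (nat_lit 228)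 (nat_lit 6602429884) (nat_lit 76) (nat_lit 3001595729) (nat_lit 34) (nat_lit 5) (nat_lit 37) (nat_lit 5) (nat_lit 35) (nat_lit 5) (nat_lit 379) (nat_lit 285) (nat_lit 236)) (XT.nd (nat_lit 78) (nat_lit 228) (nat_lit 0) (XT.lf (nat_lit 0) (nat_lit 5704889718) (nat_lit 228) (nat_lit 6943577894) (nat_lit 304) (nat_lit 3923277516) (nat_lit 31) (nat_lit 5) (nat_lit 34) (nat_lit 5) (nat_lit 35) (nat_lit 5) (nat_lit 380) (nat_lit 285) (nat_lit 235)) (XT.lf (nat_lit 0) (nat_lit 1438657067) (nat_lit 152) (nat_lit 450864207) (nat_lit 228) (nat_lit 15033749507) (nat_lit 28) (nat_lit 5) (nat_lit 30) (nat_lit 5) (nat_lit 31) (nat_lit 5) (nat_lit 381) (nat_lit 285) (nat_lit 234)))))) (XT.nd (nat_lit 390) (nat_lit 228) (nat_lit 0) (XT.nd (nat_lit 156) (nat_lit 380) (nat_lit 0) (XT.nd (nat_lit 78) (nat_lit 152) (nat_lit 0) (XT.lf (nat_lit 0) (nat_lit 7871761267) (nat_lit 228) (nat_lit 3204981475) (nat_lit 76) (nat_lit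 6207127125) (nat_lit 28) (nat_lit 5) (nat_lit 31) (nat_lit 5) (nat_lit 29) (nat_lit 5) (nat_lit 382) (nat_lit 285) (nat_lit 233)) (XT.lf (nat_lit 0) (nat_lit 9451381690) (nat_lit 152) (nat_lit 4581843345) (nat_lit 228) (nat_lit 3622079873) (nat_lit 26) (nat_lit 5) (nat_lit 28) (nat_lit 5) (nat_lit 29) (nat_lit 5) (nat_lit 383) (nat_lit 285) (nat_lit 232))) (XT.nd (nat_lit 78) (nat_lit 152) (nat_lit 0) (XT.lf (nat_lit 0) (nat_lit 2311448457) (nat_lit 228) (nat_lit 13626759879) (nat_lit 76) (nat_lit 2099372880) (nat_lit 23) (nat_lit 5) (nat_lit 26) (nat_lit 5) (nat_lit 24) (nat_lit 5) (nat_lit 384) (nat_lit 285) (nat_lit 231)) (XT.nd (nat_lit 78) (nat_lit 152) (nat_lit 0) (XT.lf (nat_lit 0) (nat_lit 8397603886) (nat_lit 228) (nat_lit 1079925068) (nat_lit 76) (nat_lit 8952853515) (nat_lit 23) (nat_lit 5) (nat_lit 26) (nat_lit 5) (nat_lit 24) (nat_lit 5) (nat_lit 385) (nat_lit 285) (nat_lit 230)) (XT.lf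 (nat_lit 0) (nat_lit 11891719053) (nat_lit 152) (nat_lit 2790619531) (nat_lit 228) (nat_lit 4152321048) (nat_lit 21) (nat_lit 5) (nat_lit 23) (nat_lit 5) (nat_lit 24) (nat_lit 5) (nat_lit 386) (nat_lit 285) (nat_lit 229))))) (XT.nd (nat_lit 42354) (nat_lit 0) (nat_lit 21888) (XT.nd (nat_lit 42276) (nat_lit 0) (nat_lit 24472) (XT.lf (nat_lit 0) (nat_lit 1891896600) (nat_lit 228) (nat_lit 13302098368) (nat_lit 76) (nat_lit 4056587532) (nat_lit 18) (nat_lit 5) (nat_lit 21) (nat_lit 5) (nat_lit 19) (nat_lit 5) (nat_lit 387) (nat_lit 285) (nat_lit 228)) (XT.lf (nat_lit 0) (nat_lit 767891443) (nat_lit 912) (nat_lit 1447883418) (nat_lit 912) (nat_lit 1447883418) (nat_lit 340) (nat_lit 4) (nat_lit 352) (nat_lit 5) (nat_lit 352) (nat_lit 4) (nat_lit 328) (nat_lit 286) (nat_lit 286))) (XT.nd (nat_lit 78) (nat_lit 1672) (nat_lit 0) (XT.lf (nat_lit 0) (nat_lit 2006455794) (nat_lit 836) (nat_lit 132066523) (nat_lit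 912) (nat_lit 5255357286) (nat_lit 328) (nat_lit 5) (nat_lit 339) (nat_lit 5) (nat_lit 340) (nat_lit 4) (nat_lit 329) (nat_lit 286) (nat_lit 285)) (XT.nd (nat_lit 78) (nat_lit 836) (nat_lit 0) (XT.lf (nat_lit 0) (nat_lit 2493657101) (nat_lit 836) (nat_lit 4719930133) (nat_lit 836) (nat_lit 249989760) (nat_lit 317) (nat_lit 4) (nat_lit 328) (nat_lit 5) (nat_lit 328) (nat_lit 4) (nat_lit 330) (nat_lit 286) (nat_lit 284)) (XT.lf (nat_lit 0) (nat_lit 2999410502) (nat_lit 760) (nat_lit 1756608180) (nat_lit 836) (nat_lit 2780510432) (nat_lit 306) (nat_lit 5) (nat_lit 316) (nat_lit 5) (nat_lit 317) (nat_lit 4) (nat_lit 331) (nat_lit 286) (nat_lit 283))))))))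
noncomputable def xc23 : XT := (XT.nd (nat_lit 1482) (nat_lit 6308) (nat_lit 0) (XT.nd (nat_lit 702) (nat_lit 5852) (nat_lit 0) (XT.nd (nat_lit 312) (nat_lit 3420) (nat_lit 0) (XT.nd (nat_lit 156) (nat_lit 1596) (nat_lit 0) (XT.nd (nat_lit 78) (nat_lit 760) (nat_lit 0) (XT.lf (nat_lit 0) (nat_lit 2192553255) (nat_lit 836) (nat_lit 4084069759) (nat_lit 76) (nat_lit 1336297771) (nat_lit 295) (nat_lit 5) (nat_lit 306) (nat_lit 5) (nat_lit 296) (nat_lit 4) (nat_lit 332) (nat_lit 286) (nat_lit 282)) (XT.lf (nat_lit 0) (nat_lit 4073985454) (nat_lit 760) (nat_lit 3135217151) (nat_lit 836) (nat_lit 483480391) (nat_lit 285) (nat_lit 5) (nat_lit 295) (nat_lit 5) (nat_lit 296) (nat_lit 4) (nat_lit 333) (nat_lit 286) (nat_lit 281))) (XT.nd (nat_lit 78) (nat_lit 760) (nat_lit 0) (XT.lf (nat_lit 0) (nat_lit 4465026870) (nat_lit 836) (nat_lit 3144017509) (nat_lit 76) (nat_lit 166804360) (nat_lit 274) (nat_lit 5)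 (nat_lit 285) (nat_lit 5) (nat_lit 275) (nat_lit 4) (nat_lit 334) (nat_lit 286) (nat_lit 280)) (XT.lf (nat_lit 0) (nat_lit 1618443813) (nat_lit 760) (nat_lit 2667135527) (nat_lit 76) (nat_lit 3576793857) (nat_lit 264) (nat_lit 5) (nat_lit 274) (nat_lit 5) (nat_lit 265) (nat_lit 5) (nat_lit 335) (nat_lit 286) (nat_lit 279)))) (XT.nd (nat_lit 156) (nat_lit 2052) (nat_lit 0) (XT.nd (nat_lit 78) (nat_lit 684) (nat_lit 0) (XT.lf (nat_lit 0) (nat_lit 5774605132) (nat_lit 684) (nat_lit 804744882) (nat_lit 760) (nat_lit 1373209778) (nat_lit 255) (nat_lit 5) (nat_lit 264) (nat_lit 5) (nat_lit 265) (nat_lit 5) (nat_lit 336) (nat_lit 286) (nat_lit 278)) (XT.lf (nat_lit 0) (nat_lit 3545237719) (nat_lit 684) (nat_lit 1698886544) (nat_lit 76) (nat_lit 2801941883) (nat_lit 246) (nat_lit 5) (nat_lit 255) (nat_lit 5) (nat_lit 247) (nat_lit 5) (nat_lit 337) (nat_lit 286) (nat_lit 277))) (XT.nd (nat_lit 78) (nat_lit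 1292) (nat_lit 0) (XT.lf (nat_lit 0) (nat_lit 383411423) (nat_lit 760) (nat_lit 1208537442) (nat_lit 76) (nat_lit 6551481699) (nat_lit 236) (nat_lit 5) (nat_lit 246) (nat_lit 5) (nat_lit 237) (nat_lit 5) (nat_lit 338) (nat_lit 286) (nat_lit 276)) (XT.nd (nat_lit 78) (nat_lit 684) (nat_lit 0) (XT.lf (nat_lit 0) (nat_lit 5304113449) (nat_lit 684) (nat_lit 736885699) (nat_lit 76) (nat_lit 2203169544) (nat_lit 228) (nat_lit 5) (nat_lit 237) (nat_lit 5) (nat_lit 229) (nat_lit 5) (nat_lit 339) (nat_lit 286) (nat_lit 275)) (XT.lf (nat_lit 0) (nat_lit 1947259463) (nat_lit 684) (nat_lit 266662983) (nat_lit 76) (nat_lit 6134823670) (nat_lit 219) (nat_lit 5) (nat_lit 228) (nat_lit 5) (nat_lit 220) (nat_lit 5) (nat_lit 340) (nat_lit 286) (nat_lit 274)))))) (XT.nd (nat_lit 390) (nat_lit 2356) (nat_lit 0) (XT.nd (nat_lit 156) (nat_lit 1748) (nat_lit 0) (XT.nd (nat_lit 78) (nat_lit 608) (nat_lit 0) (XT.lf (nat_lit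 0) (nat_lit 194090381) (nat_lit 608) (nat_lit 6701409729) (nat_lit 684) (nat_lit 1561551258) (nat_lit 204) (nat_lit 5) (nat_lit 212) (nat_lit 5) (nat_lit 213) (nat_lit 5) (nat_lit 341) (nat_lit 286) (nat_lit 273)) (XT.lf (nat_lit 0) (nat_lit 636807207) (nat_lit 532) (nat_lit 2701857045) (nat_lit 608) (nat_lit 5230358399) (nat_lit 196) (nat_lit 5) (nat_lit 203) (nat_lit 5) (nat_lit 204) (nat_lit 5) (nat_lit 342) (nat_lit 286) (nat_lit 272))) (XT.nd (nat_lit 78) (nat_lit 1216) (nat_lit 0) (XT.lf (nat_lit 0) (nat_lit 1071609498) (nat_lit 532) (nat_lit 7248375158) (nat_lit 608) (nat_lit 365115022) (nat_lit 189) (nat_lit 5) (nat_lit 196) (nat_lit 5) (nat_lit 197) (nat_lit 5) (nat_lit 343) (nat_lit 286) (nat_lit 271)) (XT.nd (nat_lit 78) (nat_lit 608) (nat_lit 0) (XT.lf (nat_lit 0) (nat_lit 1466250460) (nat_lit 532) (nat_lit 3084868021) (nat_lit 608) (nat_lit 4253674344) (nat_lit 181) (nat_lit 5) (nat_lit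 188) (nat_lit 5) (nat_lit 189) (nat_lit 5) (nat_lit 344) (nat_lit 286) (nat_lit 270)) (XT.lf (nat_lit 0) (nat_lit 630793716) (nat_lit 608) (nat_lit 7078274319) (nat_lit 76) (nat_lit 1219767937) (nat_lit 173) (nat_lit 5) (nat_lit 181) (nat_lit 5) (nat_lit 174) (nat_lit 5) (nat_lit 345) (nat_lit 286) (nat_lit 269))))) (XT.nd (nat_lit 156) (nat_lit 1368) (nat_lit 0) (XT.nd (nat_lit 78) (nat_lit 532) (nat_lit 0) (XT.lf (nat_lit 0) (nat_lit 2185925493) (nat_lit 456) (nat_lit 3391220473) (nat_lit 532) (nat_lit 3479481470) (nat_lit 167) (nat_lit 5) (nat_lit 173) (nat_lit 5) (nat_lit 174) (nat_lit 5) (nat_lit 346) (nat_lit 286) (nat_lit 268)) (XT.lf (nat_lit 0) (nat_lit 1425258192) (nat_lit 532) (nat_lit 6688066404) (nat_lit 76) (nat_lit 1075563451) (nat_lit 160) (nat_lit 5) (nat_lit 167) (nat_lit 5) (nat_lit 161) (nat_lit 5) (nat_lit 347) (nat_lit 286) (nat_lit 267))) (XT.nd (nat_lit 78) (nat_lit 912) (nat_lit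 0) (XT.lf (nat_lit 0) (nat_lit 2761293273) (nat_lit 456) (nat_lit 3647729588) (nat_lit 532) (nat_lit 2916098737) (nat_lit 154) (nat_lit 5) (nat_lit 160) (nat_lit 5) (nat_lit 161) (nat_lit 5) (nat_lit 348) (nat_lit 286) (nat_lit 266)) (XT.nd (nat_lit 78) (nat_lit 380) (nat_lit 0) (XT.lf (nat_lit 0) (nat_lit 2013959099) (nat_lit 532) (nat_lit 6476848355) (nat_lit 76) (nat_lit 975124125) (nat_lit 147) (nat_lit 5) (nat_lit 154) (nat_lit 5) (nat_lit 148) (nat_lit 5) (nat_lit 349) (nat_lit 286) (nat_lit 265)) (XT.lf (nat_lit 0) (nat_lit 3155109154) (nat_lit 380) (nat_lit 3881796041) (nat_lit 456) (nat_lit 2574027618) (nat_lit 142) (nat_lit 5) (nat_lit 147) (nat_lit 5) (nat_lit 148) (nat_lit 5) (nat_lit 350) (nat_lit 286) (nat_lit 264))))))) (XT.nd (nat_lit 780) (nat_lit 2356) (nat_lit 0) (XT.nd (nat_lit 390) (nat_lit 1748) (nat_lit 0) (XT.nd (nat_lit 156) (nat_lit 1292) (nat_lit 0) (XT.nd (nat_lit 78) (nat_lit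 380) (nat_lit 0) (XT.lf (nat_lit 0) (nat_lit 2385582537) (nat_lit 532) (nat_lit 6483925845) (nat_lit 76) (nat_lit 891150688) (nat_lit 135) (nat_lit 5) (nat_lit 142) (nat_lit 5) (nat_lit 136) (nat_lit 5) (nat_lit 351) (nat_lit 286) (nat_lit 263)) (XT.lf (nat_lit 0) (nat_lit 3327028700) (nat_lit 380) (nat_lit 4121662345) (nat_lit 456) (nat_lit 2466093341) (nat_lit 130) (nat_lit 5) (nat_lit 135) (nat_lit 5) (nat_lit 136) (nat_lit 5) (nat_lit 352) (nat_lit 286) (nat_lit 262))) (XT.nd (nat_lit 78) (nat_lit 836) (nat_lit 0) (XT.lf (nat_lit 0) (nat_lit 2526458633) (nat_lit 456) (nat_lit 6751970678) (nat_lit 76) (nat_lit 795401606) (nat_lit 124) (nat_lit 5) (nat_lit 130) (nat_lit 5) (nat_lit 125) (nat_lit 5) (nat_lit 353) (nat_lit 286) (nat_lit 261)) (XT.nd (nat_lit 78) (nat_lit 456) (nat_lit 0) (XT.lf (nat_lit 0) (nat_lit 3233179582) (nat_lit 380) (nat_lit 4396681897) (nat_lit 456) (nat_lit 2607607825) (nat_lit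 119) (nat_lit 5) (nat_lit 124) (nat_lit 5) (nat_lit 125) (nat_lit 5) (nat_lit 354) (nat_lit 286) (nat_lit 260)) (XT.lf (nat_lit 0) (nat_lit 2420389433) (nat_lit 456) (nat_lit 7327470019) (nat_lit 76) (nat_lit 658420124) (nat_lit 113) (nat_lit 5) (nat_lit 119) (nat_lit 5) (nat_lit 114) (nat_lit 5) (nat_lit 355) (nat_lit 286) (nat_lit 259))))) (XT.nd (nat_lit 156) (nat_lit 988) (nat_lit 0) (XT.nd (nat_lit 78) (nat_lit 456) (nat_lit 0) (XT.lf (nat_lit 0) (nat_lit 2825695462) (nat_lit 304) (nat_lit 4737603107) (nat_lit 380) (nat_lit 3016556043) (nat_lit 109) (nat_lit 5) (nat_lit 113) (nat_lit 5) (nat_lit 114) (nat_lit 5) (nat_lit 356) (nat_lit 286) (nat_lit 258)) (XT.lf (nat_lit 0) (nat_lit 2048452763) (nat_lit 456) (nat_lit 8261216235) (nat_lit 76) (nat_lit 449245219) (nat_lit 103) (nat_lit 5) (nat_lit 109) (nat_lit 5) (nat_lit 104) (nat_lit 5) (nat_lit 357) (nat_lit 286) (nat_lit 257))) (XT.nd (nat_lit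 78) (nat_lit 684) (nat_lit 0) (XT.lf (nat_lit 0) (nat_lit 2052207327) (nat_lit 304) (nat_lit 5176871205) (nat_lit 380) (nat_lit 3713807787) (nat_lit 99) (nat_lit 5) (nat_lit 103) (nat_lit 5) (nat_lit 104) (nat_lit 5) (nat_lit 358) (nat_lit 286) (nat_lit 256)) (XT.nd (nat_lit 78) (nat_lit 304) (nat_lit 0) (XT.lf (nat_lit 0) (nat_lit 1388780028) (nat_lit 380) (nat_lit 9608842091) (nat_lit 76) (nat_lit 135103844) (nat_lit 94) (nat_lit 5) (nat_lit 99) (nat_lit 5) (nat_lit 95) (nat_lit 5) (nat_lit 359) (nat_lit 286) (nat_lit 255)) (XT.lf (nat_lit 0) (nat_lit 855287382) (nat_lit 304) (nat_lit 5748950499) (nat_lit 380) (nat_lit 4723357010) (nat_lit 90) (nat_lit 5) (nat_lit 94) (nat_lit 5) (nat_lit 95) (nat_lit 5) (nat_lit 360) (nat_lit 286) (nat_lit 254)))))) (XT.nd (nat_lit 390) (nat_lit 1140) (nat_lit 0) (XT.nd (nat_lit 156) (nat_lit 836) (nat_lit 0) (XT.nd (nat_lit 78) (nat_lit 0) (nat_lit 0) (XT.lf (nat_lit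 0) (nat_lit 95247131) (nat_lit 304) (nat_lit 323156656) (nat_lit 380) (nat_lit 11110347970) (nat_lit 85) (nat_lit 5) (nat_lit 89) (nat_lit 5) (nat_lit 90) (nat_lit 5) (nat_lit 361) (nat_lit 286) (nat_lit 253)) (XT.lf (nat_lit 0) (nat_lit 5667887088) (nat_lit 380) (nat_lit 817298476) (nat_lit 76) (nat_lit 5249808257) (nat_lit 85) (nat_lit 5) (nat_lit 90) (nat_lit 5) (nat_lit 86) (nat_lit 5) (nat_lit 362) (nat_lit 286) (nat_lit 252))) (XT.nd (nat_lit 78) (nat_lit 608) (nat_lit 0) (XT.lf (nat_lit 0) (nat_lit 10112219696) (nat_lit 228) (nat_lit 944680280) (nat_lit 304) (nat_lit 890909212) (nat_lit 82) (nat_lit 5) (nat_lit 85) (nat_lit 5) (nat_lit 86) (nat_lit 5) (nat_lit 363) (nat_lit 286) (nat_lit 251)) (XT.nd (nat_lit 78) (nat_lit 228) (nat_lit 0) (XT.lf (nat_lit 0) (nat_lit 4393947043) (nat_lit 380) (nat_lit 3027334091) (nat_lit 76) (nat_lit 4744944667) (nat_lit 77) (nat_lit 5) (nat_lit 82) (nat_lit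 5) (nat_lit 78) (nat_lit 5) (nat_lit 364) (nat_lit 286) (nat_lit 250)) (XT.lf (nat_lit 0) (nat_lit 8036052232) (nat_lit 228) (nat_lit 1776841105) (nat_lit 304) (nat_lit 2578455730) (nat_lit 74) (nat_lit 5) (nat_lit 77) (nat_lit 5) (nat_lit 78) (nat_lit 5) (nat_lit 365) (nat_lit 286) (nat_lit 249))))) (XT.nd (nat_lit 156) (nat_lit 532) (nat_lit 0) (XT.nd (nat_lit 78) (nat_lit 228) (nat_lit 0) (XT.lf (nat_lit 0) (nat_lit 2743567520) (nat_lit 380) (nat_lit 5861533169) (nat_lit 76) (nat_lit 4017614591) (nat_lit 69) (nat_lit 5) (nat_lit 74) (nat_lit 5) (nat_lit 70) (nat_lit 5) (nat_lit 366) (nat_lit 286) (nat_lit 248)) (XT.lf (nat_lit 0) (nat_lit 5318891493) (nat_lit 228) (nat_lit 2866458765) (nat_lit 304) (nat_lit 4675451761) (nat_lit 66) (nat_lit 5) (nat_lit 69) (nat_lit 5) (nat_lit 70) (nat_lit 5) (nat_lit 367) (nat_lit 286) (nat_lit 247))) (XT.nd (nat_lit 78) (nat_lit 228) (nat_lit 0) (XT.lf (nat_lit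 0) (nat_lit 679204596) (nat_lit 304) (nat_lit 9403163120) (nat_lit 76) (nat_lit 3023520180) (nat_lit 62) (nat_lit 5) (nat_lit 66) (nat_lit 5) (nat_lit 63) (nat_lit 5) (nat_lit 368) (nat_lit 286) (nat_lit 246)) (XT.nd (nat_lit 78) (nat_lit 0) (nat_lit 0) (XT.lf (nat_lit 0) (nat_lit 1874457574) (nat_lit 228) (nat_lit 4260623148) (nat_lit 304) (nat_lit 7222566771) (nat_lit 59) (nat_lit 5) (nat_lit 62) (nat_lit 5) (nat_lit 63) (nat_lit 5) (nat_lit 369) (nat_lit 286) (nat_lit 245)) (XT.lf (nat_lit 0) (nat_lit 11752143915) (nat_lit 304) (nat_lit 137376640) (nat_lit 76) (nat_lit 1727509751) (nat_lit 59) (nat_lit 5) (nat_lit 63) (nat_lit 5) (nat_lit 60) (nat_lit 5) (nat_lit 370) (nat_lit 286) (nat_lit 244))))))))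
noncomputable def xc24 : XT := (XT.nd (nat_lit 43602) (nat_lit 0) (nat_lit 10564) (XT.nd (nat_lit 702) (nat_lit 988) (nat_lit 0) (XT.nd (nat_lit 312) (nat_lit 912) (nat_lit 0) (XT.nd (nat_lit 156) (nat_lit 456) (nat_lit 0) (XT.nd (nat_lit 78) (nat_lit 228) (nat_lit 0) (XT.lf (nat_lit 0) (nat_lit 3633600942) (nat_lit 304) (nat_lit 2361169457) (nat_lit 76) (nat_lit 7888409567) (nat_lit 55) (nat_lit 5) (nat_lit 59) (nat_lit 5) (nat_lit 56) (nat_lit 5) (nat_lit 371) (nat_lit 286) (nat_lit 243)) (XT.lf (nat_lit 0) (nat_lit 9259499056) (nat_lit 304) (nat_lit 4796280809) (nat_lit 76) (nat_lit 101550937) (nat_lit 52) (nat_lit 5) (nat_lit 56) (nat_lit 5) (nat_lit 53) (nat_lit 5) (nat_lit 372) (nat_lit 286) (nat_lit 242))) (XT.nd (nat_lit 78) (nat_lit 152) (nat_lit 0) (XT.lf (nat_lit 0) (nat_lit 634254232) (nat_lit 304) (nat_lit 7487934703) (nat_lit 76) (nat_lit 6316898692) (nat_lit 48) (nat_lit 5) (nat_lit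 52) (nat_lit 5) (nat_lit 49) (nat_lit 5) (nat_lit 373) (nat_lit 286) (nat_lit 241)) (XT.lf (nat_lit 0) (nat_lit 4288825810) (nat_lit 152) (nat_lit 1965061957) (nat_lit 228) (nat_lit 8475016979) (nat_lit 46) (nat_lit 5) (nat_lit 48) (nat_lit 5) (nat_lit 49) (nat_lit 5) (nat_lit 374) (nat_lit 286) (nat_lit 240)))) (XT.nd (nat_lit 156) (nat_lit 608) (nat_lit 0) (XT.nd (nat_lit 78) (nat_lit 76) (nat_lit 0) (XT.lf (nat_lit 0) (nat_lit 1362489892) (nat_lit 228) (nat_lit 10696166319) (nat_lit 304) (nat_lit 2968446364) (nat_lit 43) (nat_lit 5) (nat_lit 46) (nat_lit 5) (nat_lit 47) (nat_lit 5) (nat_lit 375) (nat_lit 286) (nat_lit 239)) (XT.lf (nat_lit 0) (nat_lit 2681259140) (nat_lit 304) (nat_lit 1822548106) (nat_lit 76) (nat_lit 10829836504) (nat_lit 42) (nat_lit 5) (nat_lit 46) (nat_lit 5) (nat_lit 43) (nat_lit 5) (nat_lit 376) (nat_lit 286) (nat_lit 238))) (XT.nd (nat_lit 78) (nat_lit 456) (nat_lit 0)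 (XT.lf (nat_lit 0) (nat_lit 8471248548) (nat_lit 228) (nat_lit 5287566023) (nat_lit 76) (nat_lit 1889967531) (nat_lit 40) (nat_lit 5) (nat_lit 43) (nat_lit 5) (nat_lit 41) (nat_lit 5) (nat_lit 377) (nat_lit 286) (nat_lit 237)) (XT.nd (nat_lit 78) (nat_lit 228) (nat_lit 0) (XT.lf (nat_lit 0) (nat_lit 6906447752) (nat_lit 228) (nat_lit 7547936312) (nat_lit 304) (nat_lit 1518616968) (nat_lit 37) (nat_lit 5) (nat_lit 40) (nat_lit 5) (nat_lit 41) (nat_lit 5) (nat_lit 378) (nat_lit 286) (nat_lit 236)) (XT.lf (nat_lit 0) (nat_lit 3129993359) (nat_lit 152) (nat_lit 1112770248) (nat_lit 228) (nat_lit 12063853386) (nat_lit 34) (nat_lit 5) (nat_lit 36) (nat_lit 5) (nat_lit 37) (nat_lit 5) (nat_lit 379) (nat_lit 286) (nat_lit 235)))))) (XT.nd (nat_lit 390) (nat_lit 380) (nat_lit 0) (XT.nd (nat_lit 156) (nat_lit 380) (nat_lit 0) (XT.nd (nat_lit 78) (nat_lit 228) (nat_lit 0) (XT.lf (nat_lit 0) (nat_lit 10187872098)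 (nat_lit 228) (nat_lit 993264382) (nat_lit 76) (nat_lit 5468288012) (nat_lit 34) (nat_lit 5) (nat_lit 37) (nat_lit 5) (nat_lit 35) (nat_lit 5) (nat_lit 380) (nat_lit 286) (nat_lit 234)) (XT.lf (nat_lit 0) (nat_lit 11589059264) (nat_lit 228) (nat_lit 4740636022) (nat_lit 304) (nat_lit 672467478) (nat_lit 31) (nat_lit 5) (nat_lit 34) (nat_lit 5) (nat_lit 35) (nat_lit 5) (nat_lit 381) (nat_lit 286) (nat_lit 233))) (XT.nd (nat_lit 78) (nat_lit 152) (nat_lit 0) (XT.lf (nat_lit 0) (nat_lit 5223057550) (nat_lit 228) (nat_lit 10231297306) (nat_lit 76) (nat_lit 1910411468) (nat_lit 28) (nat_lit 5) (nat_lit 31) (nat_lit 5) (nat_lit 29) (nat_lit 5) (nat_lit 382) (nat_lit 286) (nat_lit 232)) (XT.nd (nat_lit 78) (nat_lit 0) (nat_lit 0) (XT.lf (nat_lit 0) (nat_lit 2277121994) (nat_lit 152) (nat_lit 9029912394) (nat_lit 228) (nat_lit 6430722989) (nat_lit 26) (nat_lit 5) (nat_lit 28) (nat_lit 5) (nat_lit 29) (nat_lit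 5) (nat_lit 383) (nat_lit 286) (nat_lit 231)) (XT.lf (nat_lit 0) (nat_lit 15193295186) (nat_lit 152) (nat_lit 2387954027) (nat_lit 228) (nat_lit 540546934) (nat_lit 26) (nat_lit 5) (nat_lit 28) (nat_lit 5) (nat_lit 29) (nat_lit 5) (nat_lit 384) (nat_lit 286) (nat_lit 230))))) (XT.nd (nat_lit 42276) (nat_lit 0) (nat_lit 24244) (XT.nd (nat_lit 78) (nat_lit 152) (nat_lit 0) (XT.lf (nat_lit 0) (nat_lit 5487644799) (nat_lit 228) (nat_lit 8576608623) (nat_lit 76) (nat_lit 4451721027) (nat_lit 23) (nat_lit 5) (nat_lit 26) (nat_lit 5) (nat_lit 24) (nat_lit 5) (nat_lit 385) (nat_lit 286) (nat_lit 229)) (XT.lf (nat_lit 0) (nat_lit 4243284002) (nat_lit 152) (nat_lit 7450160242) (nat_lit 228) (nat_lit 7228391702) (nat_lit 21) (nat_lit 5) (nat_lit 23) (nat_lit 5) (nat_lit 24) (nat_lit 5) (nat_lit 386) (nat_lit 286) (nat_lit 228))) (XT.nd (nat_lit 78) (nat_lit 1900) (nat_lit 0) (XT.lf (nat_lit 0) (nat_lit 383775302)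 (nat_lit 1748) (nat_lit 1608797641) (nat_lit 1748) (nat_lit 1608797641) (nat_lit 365) (nat_lit 4) (nat_lit 388) (nat_lit 5) (nat_lit 388) (nat_lit 4) (nat_lit 326) (nat_lit 287) (nat_lit 287)) (XT.nd (nat_lit 78) (nat_lit 912) (nat_lit 0) (XT.lf (nat_lit 0) (nat_lit 1102754727) (nat_lit 912) (nat_lit 646339329) (nat_lit 988) (nat_lit 5515130443) (nat_lit 352) (nat_lit 5) (nat_lit 364) (nat_lit 5) (nat_lit 365) (nat_lit 4) (nat_lit 327) (nat_lit 287) (nat_lit 286)) (XT.lf (nat_lit 0) (nat_lit 1459246732) (nat_lit 912) (nat_lit 5282843201) (nat_lit 912) (nat_lit 586723846) (nat_lit 340) (nat_lit 4) (nat_lit 352) (nat_lit 5) (nat_lit 352) (nat_lit 4) (nat_lit 328) (nat_lit 287) (nat_lit 285))))))) (XT.nd (nat_lit 702) (nat_lit 6536) (nat_lit 0) (XT.nd (nat_lit 312) (nat_lit 3724) (nat_lit 0) (XT.nd (nat_lit 156) (nat_lit 1596) (nat_lit 0) (XT.nd (nat_lit 78) (nat_lit 912) (nat_lit 0) (XT.lf (nat_lit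 0) (nat_lit 1835897808) (nat_lit 836) (nat_lit 2509645288) (nat_lit 912) (nat_lit 3051018939) (nat_lit 328) (nat_lit 5) (nat_lit 339) (nat_lit 5) (nat_lit 340) (nat_lit 4) (nat_lit 329) (nat_lit 287) (nat_lit 284)) (XT.lf (nat_lit 0) (nat_lit 1842039700) (nat_lit 912) (nat_lit 5222866322) (nat_lit 76) (nat_lit 402881025) (nat_lit 316) (nat_lit 5) (nat_lit 328) (nat_lit 5) (nat_lit 317) (nat_lit 4) (nat_lit 330) (nat_lit 287) (nat_lit 283))) (XT.nd (nat_lit 78) (nat_lit 836) (nat_lit 0) (XT.lf (nat_lit 0) (nat_lit 2665260529) (nat_lit 760) (nat_lit 4109287833) (nat_lit 836) (nat_lit 767609229) (nat_lit 306) (nat_lit 5) (nat_lit 316) (nat_lit 5) (nat_lit 317) (nat_lit 4) (nat_lit 331) (nat_lit 287) (nat_lit 282)) (XT.lf (nat_lit 0) (nat_lit 3104372939) (nat_lit 760) (nat_lit 996041239) (nat_lit 836) (nat_lit 3519490739) (nat_lit 295) (nat_lit 5) (nat_lit 305) (nat_lit 5) (nat_lit 306) (nat_lit 5) (nat_lit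 332) (nat_lit 287) (nat_lit 281)))) (XT.nd (nat_lit 156) (nat_lit 2128) (nat_lit 0) (XT.nd (nat_lit 78) (nat_lit 760) (nat_lit 0) (XT.lf (nat_lit 0) (nat_lit 1322895164) (nat_lit 836) (nat_lit 4142574243) (nat_lit 76) (nat_lit 2235573998) (nat_lit 284) (nat_lit 5) (nat_lit 295) (nat_lit 5) (nat_lit 285) (nat_lit 5) (nat_lit 333) (nat_lit 287) (nat_lit 280)) (XT.lf (nat_lit 0) (nat_lit 4023256265) (nat_lit 760) (nat_lit 2172101232) (nat_lit 836) (nat_lit 1590223817) (nat_lit 274) (nat_lit 5) (nat_lit 284) (nat_lit 5) (nat_lit 285) (nat_lit 5) (nat_lit 334) (nat_lit 287) (nat_lit 279))) (XT.nd (nat_lit 78) (nat_lit 1368) (nat_lit 0) (XT.lf (nat_lit 0) (nat_lit 3234016724) (nat_lit 760) (nat_lit 3377110092) (nat_lit 76) (nat_lit 1262443615) (nat_lit 264) (nat_lit 5) (nat_lit 274) (nat_lit 5) (nat_lit 265) (nat_lit 5) (nat_lit 335) (nat_lit 287) (nat_lit 278)) (XT.nd (nat_lit 78) (nat_lit 608) (nat_lit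 0) (XT.lf (nat_lit 0) (nat_lit 160099358) (nat_lit 760) (nat_lit 2986355553) (nat_lit 76) (nat_lit 4818669817) (nat_lit 254) (nat_lit 5) (nat_lit 264) (nat_lit 5) (nat_lit 255) (nat_lit 5) (nat_lit 336) (nat_lit 287) (nat_lit 277)) (XT.lf (nat_lit 0) (nat_lit 4977919655) (nat_lit 684) (nat_lit 2600563313) (nat_lit 76) (nat_lit 481658094) (nat_lit 246) (nat_lit 5) (nat_lit 255) (nat_lit 5) (nat_lit 247) (nat_lit 5) (nat_lit 337) (nat_lit 287) (nat_lit 276)))))) (XT.nd (nat_lit 390) (nat_lit 3268) (nat_lit 0) (XT.nd (nat_lit 156) (nat_lit 1900) (nat_lit 0) (XT.nd (nat_lit 78) (nat_lit 608) (nat_lit 0) (XT.lf (nat_lit 0) (nat_lit 1716266325) (nat_lit 760) (nat_lit 2221357744) (nat_lit 76) (nat_lit 4221074352) (nat_lit 236) (nat_lit 5) (nat_lit 246) (nat_lit 5) (nat_lit 237) (nat_lit 5) (nat_lit 338) (nat_lit 287) (nat_lit 275)) (XT.lf (nat_lit 0) (nat_lit 6421221053) (nat_lit 608) (nat_lit 134711682)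 (nat_lit 684) (nat_lit 1705157746) (nat_lit 228) (nat_lit 5) (nat_lit 236) (nat_lit 5) (nat_lit 237) (nat_lit 5) (nat_lit 339) (nat_lit 287) (nat_lit 274))) (XT.nd (nat_lit 78) (nat_lit 1216) (nat_lit 0) (XT.lf (nat_lit 0) (nat_lit 3098651362) (nat_lit 684) (nat_lit 1483757673) (nat_lit 76) (nat_lit 3784476328) (nat_lit 219) (nat_lit 5) (nat_lit 228) (nat_lit 5) (nat_lit 220) (nat_lit 5) (nat_lit 340) (nat_lit 287) (nat_lit 273)) (XT.nd (nat_lit 78) (nat_lit 684) (nat_lit 0) (XT.lf (nat_lit 0) (nat_lit 7353055624) (nat_lit 532) (nat_lit 615137846) (nat_lit 608) (nat_lit 508601814) (nat_lit 212) (nat_lit 5) (nat_lit 219) (nat_lit 5) (nat_lit 220) (nat_lit 5) (nat_lit 341) (nat_lit 287) (nat_lit 272)) (XT.lf (nat_lit 0) (nat_lit 4305043044) (nat_lit 684) (nat_lit 801716766) (nat_lit 76) (nat_lit 3483354470) (nat_lit 203) (nat_lit 5) (nat_lit 212) (nat_lit 5) (nat_lit 204) (nat_lit 5) (nat_lit 342) (nat_lit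 287) (nat_lit 271))))) (XT.nd (nat_lit 156) (nat_lit 2128) (nat_lit 0) (XT.nd (nat_lit 78) (nat_lit 532) (nat_lit 0) (XT.lf (nat_lit 0) (nat_lit 494380368) (nat_lit 608) (nat_lit 481325404) (nat_lit 76) (nat_lit 7732001664) (nat_lit 195) (nat_lit 5) (nat_lit 203) (nat_lit 5) (nat_lit 196) (nat_lit 5) (nat_lit 343) (nat_lit 287) (nat_lit 270)) (XT.lf (nat_lit 0) (nat_lit 5331434297) (nat_lit 608) (nat_lit 205095299) (nat_lit 76) (nat_lit 3292338399) (nat_lit 188) (nat_lit 5) (nat_lit 196) (nat_lit 5) (nat_lit 189) (nat_lit 5) (nat_lit 344) (nat_lit 287) (nat_lit 269))) (XT.nd (nat_lit 78) (nat_lit 988) (nat_lit 0) (XT.lf (nat_lit 0) (nat_lit 58413156) (nat_lit 532) (nat_lit 1243036261) (nat_lit 608) (nat_lit 7652902561) (nat_lit 173) (nat_lit 5) (nat_lit 180) (nat_lit 5) (nat_lit 181) (nat_lit 5) (nat_lit 345) (nat_lit 287) (nat_lit 268)) (XT.nd (nat_lit 78) (nat_lit 532) (nat_lit 0) (XT.lf (nat_lit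 0) (nat_lit 277883419) (nat_lit 456) (nat_lit 5895861155) (nat_lit 532) (nat_lit 2909904963) (nat_lit 167) (nat_lit 5) (nat_lit 173) (nat_lit 5) (nat_lit 174) (nat_lit 5) (nat_lit 346) (nat_lit 287) (nat_lit 267)) (XT.lf (nat_lit 0) (nat_lit 469583152) (nat_lit 456) (nat_lit 1444592659) (nat_lit 532) (nat_lit 7303147904) (nat_lit 160) (nat_lit 5) (nat_lit 166) (nat_lit 5) (nat_lit 167) (nat_lit 5) (nat_lit 347) (nat_lit 287) (nat_lit 266))))))))
noncomputable def xc25 : XT := (XT.nd (nat_lit 1482) (nat_lit 3496) (nat_lit 0) (XT.nd (nat_lit 702) (nat_lit 3344) (nat_lit 0) (XT.nd (nat_lit 312) (nat_lit 1672) (nat_lit 0) (XT.nd (nat_lit 156) (nat_lit 912) (nat_lit 0) (XT.nd (nat_lit 78) (nat_lit 532) (nat_lit 0) (XT.lf (nat_lit 0) (nat_lit 610079906) (nat_lit 456) (nat_lit 6212580956) (nat_lit 532) (nat_lit 2532425056) (nat_lit 154) (nat_lit 5) (nat_lit 160) (nat_lit 5) (nat_lit 161) (nat_lit 5) (nat_lit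 348) (nat_lit 287) (nat_lit 265)) (XT.lf (nat_lit 0) (nat_lit 709750068) (nat_lit 456) (nat_lit 1610349930) (nat_lit 532) (nat_lit 7177218047) (nat_lit 147) (nat_lit 5) (nat_lit 153) (nat_lit 5) (nat_lit 154) (nat_lit 5) (nat_lit 349) (nat_lit 287) (nat_lit 264))) (XT.nd (nat_lit 78) (nat_lit 532) (nat_lit 0) (XT.lf (nat_lit 0) (nat_lit 751372821) (nat_lit 380) (nat_lit 6515262920) (nat_lit 456) (nat_lit 2377233055) (nat_lit 142) (nat_lit 5) (nat_lit 147) (nat_lit 5) (nat_lit 148) (nat_lit 5) (nat_lit 350) (nat_lit 287) (nat_lit 263)) (XT.lf (nat_lit 0) (nat_lit 739954435) (nat_lit 456) (nat_lit 1767781040) (nat_lit 532) (nat_lit 7287295520) (nat_lit 135) (nat_lit 5) (nat_lit 141) (nat_lit 5) (nat_lit 142) (nat_lit 5) (nat_lit 351) (nat_lit 287) (nat_lit 262)))) (XT.nd (nat_lit 156) (nat_lit 836) (nat_lit 0) (XT.nd (nat_lit 78) (nat_lit 456) (nat_lit 0) (XT.lf (nat_lit 0) (nat_lit 661239148) (nat_lit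 380) (nat_lit 6831981173) (nat_lit 456) (nat_lit 2457508155) (nat_lit 130) (nat_lit 5) (nat_lit 135) (nat_lit 5) (nat_lit 136) (nat_lit 5) (nat_lit 352) (nat_lit 287) (nat_lit 261)) (XT.lf (nat_lit 0) (nat_lit 517904921) (nat_lit 380) (nat_lit 1945347716) (nat_lit 456) (nat_lit 7647973573) (nat_lit 124) (nat_lit 5) (nat_lit 129) (nat_lit 5) (nat_lit 130) (nat_lit 5) (nat_lit 353) (nat_lit 287) (nat_lit 260))) (XT.nd (nat_lit 78) (nat_lit 456) (nat_lit 0) (XT.lf (nat_lit 0) (nat_lit 295601092) (nat_lit 380) (nat_lit 7191953515) (nat_lit 456) (nat_lit 2788910204) (nat_lit 119) (nat_lit 5) (nat_lit 124) (nat_lit 5) (nat_lit 125) (nat_lit 5) (nat_lit 354) (nat_lit 287) (nat_lit 259)) (XT.nd (nat_lit 78) (nat_lit 380) (nat_lit 0) (XT.lf (nat_lit 0) (nat_lit 2170323238) (nat_lit 456) (nat_lit 2435655) (nat_lit 76) (nat_lit 8273979888) (nat_lit 118) (nat_lit 5) (nat_lit 124) (nat_lit 5) (nat_lit 119) (nat_lit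 5) (nat_lit 355) (nat_lit 287) (nat_lit 258)) (XT.lf (nat_lit 0) (nat_lit 7234740067) (nat_lit 456) (nat_lit 388476893) (nat_lit 76) (nat_lit 2998683520) (nat_lit 113) (nat_lit 5) (nat_lit 119) (nat_lit 5) (nat_lit 114) (nat_lit 5) (nat_lit 356) (nat_lit 287) (nat_lit 257)))))) (XT.nd (nat_lit 390) (nat_lit 1596) (nat_lit 0) (XT.nd (nat_lit 156) (nat_lit 988) (nat_lit 0) (XT.nd (nat_lit 78) (nat_lit 380) (nat_lit 0) (XT.lf (nat_lit 0) (nat_lit 1615503199) (nat_lit 380) (nat_lit 860068962) (nat_lit 76) (nat_lit 8326796171) (nat_lit 108) (nat_lit 5) (nat_lit 113) (nat_lit 5) (nat_lit 109) (nat_lit 5) (nat_lit 357) (nat_lit 287) (nat_lit 256)) (XT.lf (nat_lit 0) (nat_lit 6716326299) (nat_lit 456) (nat_lit 1439973158) (nat_lit 76) (nat_lit 2831652571) (nat_lit 103) (nat_lit 5) (nat_lit 109) (nat_lit 5) (nat_lit 104) (nat_lit 5) (nat_lit 358) (nat_lit 287) (nat_lit 255))) (XT.nd (nat_lit 78) (nat_lit 608)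 (nat_lit 0) (XT.lf (nat_lit 0) (nat_lit 773802141) (nat_lit 380) (nat_lit 2116195343) (nat_lit 76) (nat_lit 8289170933) (nat_lit 98) (nat_lit 5) (nat_lit 103) (nat_lit 5) (nat_lit 99) (nat_lit 5) (nat_lit 359) (nat_lit 287) (nat_lit 254)) (XT.nd (nat_lit 78) (nat_lit 304) (nat_lit 0) (XT.lf (nat_lit 0) (nat_lit 5907474913) (nat_lit 380) (nat_lit 2919719032) (nat_lit 76) (nat_lit 2548493462) (nat_lit 94) (nat_lit 5) (nat_lit 99) (nat_lit 5) (nat_lit 95) (nat_lit 5) (nat_lit 360) (nat_lit 287) (nat_lit 253)) (XT.lf (nat_lit 0) (nat_lit 7745134488) (nat_lit 304) (nat_lit 3448429902) (nat_lit 380) (nat_lit 384597752) (nat_lit 90) (nat_lit 5) (nat_lit 94) (nat_lit 5) (nat_lit 95) (nat_lit 5) (nat_lit 361) (nat_lit 287) (nat_lit 252))))) (XT.nd (nat_lit 156) (nat_lit 988) (nat_lit 0) (XT.nd (nat_lit 78) (nat_lit 228) (nat_lit 0) (XT.lf (nat_lit 0) (nat_lit 4782002137) (nat_lit 380) (nat_lit 4890287586)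 (nat_lit 76) (nat_lit 2113936247) (nat_lit 85) (nat_lit 5) (nat_lit 90) (nat_lit 5) (nat_lit 86) (nat_lit 5) (nat_lit 362) (nat_lit 287) (nat_lit 251)) (XT.lf (nat_lit 0) (nat_lit 5919370633) (nat_lit 228) (nat_lit 4183400428) (nat_lit 304) (nat_lit 1897648040) (nat_lit 82) (nat_lit 5) (nat_lit 85) (nat_lit 5) (nat_lit 86) (nat_lit 5) (nat_lit 363) (nat_lit 287) (nat_lit 250))) (XT.nd (nat_lit 78) (nat_lit 608) (nat_lit 0) (XT.lf (nat_lit 0) (nat_lit 3310167512) (nat_lit 380) (nat_lit 7420529399) (nat_lit 76) (nat_lit 1490086683) (nat_lit 77) (nat_lit 5) (nat_lit 82) (nat_lit 5) (nat_lit 78) (nat_lit 5) (nat_lit 364) (nat_lit 287) (nat_lit 249)) (XT.nd (nat_lit 78) (nat_lit 380) (nat_lit 0) (XT.lf (nat_lit 0) (nat_lit 3519645580) (nat_lit 228) (nat_lit 5140241105) (nat_lit 304) (nat_lit 3787416625) (nat_lit 74) (nat_lit 5) (nat_lit 77) (nat_lit 5) (nat_lit 78) (nat_lit 5) (nat_lit 365) (nat_lit 287)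 (nat_lit 248)) (XT.lf (nat_lit 0) (nat_lit 1458347162) (nat_lit 380) (nat_lit 10586296006) (nat_lit 76) (nat_lit 636036980) (nat_lit 69) (nat_lit 5) (nat_lit 74) (nat_lit 5) (nat_lit 70) (nat_lit 5) (nat_lit 366) (nat_lit 287) (nat_lit 247))))))) (XT.nd (nat_lit 780) (nat_lit 1444) (nat_lit 0) (XT.nd (nat_lit 390) (nat_lit 988) (nat_lit 0) (XT.nd (nat_lit 156) (nat_lit 836) (nat_lit 0) (XT.nd (nat_lit 78) (nat_lit 0) (nat_lit 0) (XT.lf (nat_lit 0) (nat_lit 467425253) (nat_lit 228) (nat_lit 6362373435) (nat_lit 304) (nat_lit 6090385827) (nat_lit 66) (nat_lit 5) (nat_lit 69) (nat_lit 5) (nat_lit 70) (nat_lit 5) (nat_lit 367) (nat_lit 287) (nat_lit 246)) (XT.lf (nat_lit 0) (nat_lit 11871699024) (nat_lit 228) (nat_lit 485079453) (nat_lit 304) (nat_lit 810229529) (nat_lit 66) (nat_lit 5) (nat_lit 69) (nat_lit 5) (nat_lit 70) (nat_lit 5) (nat_lit 368) (nat_lit 287) (nat_lit 245))) (XT.nd (nat_lit 78) (nat_lit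 532) (nat_lit 0) (XT.lf (nat_lit 0) (nat_lit 4594570594) (nat_lit 304) (nat_lit 3280363447) (nat_lit 76) (nat_lit 5545182988) (nat_lit 62) (nat_lit 5) (nat_lit 66) (nat_lit 5) (nat_lit 63) (nat_lit 5) (nat_lit 369) (nat_lit 287) (nat_lit 244)) (XT.nd (nat_lit 78) (nat_lit 304) (nat_lit 0) (XT.lf (nat_lit 0) (nat_lit 8231674063) (nat_lit 228) (nat_lit 1909912794) (nat_lit 304) (nat_lit 3539323797) (nat_lit 59) (nat_lit 5) (nat_lit 62) (nat_lit 5) (nat_lit 63) (nat_lit 5) (nat_lit 370) (nat_lit 287) (nat_lit 243)) (XT.lf (nat_lit 0) (nat_lit 1896728290) (nat_lit 304) (nat_lit 7845946385) (nat_lit 76) (nat_lit 4206300383) (nat_lit 55) (nat_lit 5) (nat_lit 59) (nat_lit 5) (nat_lit 56) (nat_lit 5) (nat_lit 371) (nat_lit 287) (nat_lit 242))))) (XT.nd (nat_lit 156) (nat_lit 532) (nat_lit 0) (XT.nd (nat_lit 78) (nat_lit 228) (nat_lit 0) (XT.lf (nat_lit 0) (nat_lit 3743809134) (nat_lit 228) (nat_lit 3705928755)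 (nat_lit 304) (nat_lit 6774854899) (nat_lit 52) (nat_lit 5) (nat_lit 55) (nat_lit 5) (nat_lit 56) (nat_lit 5) (nat_lit 372) (nat_lit 287) (nat_lit 241)) (XT.lf (nat_lit 0) (nat_lit 1159899381) (nat_lit 228) (nat_lit 12015268151) (nat_lit 304) (nat_lit 1333212903) (nat_lit 49) (nat_lit 5) (nat_lit 52) (nat_lit 5) (nat_lit 53) (nat_lit 5) (nat_lit 373) (nat_lit 287) (nat_lit 240))) (XT.nd (nat_lit 78) (nat_lit 456) (nat_lit 0) (XT.lf (nat_lit 0) (nat_lit 4241235696) (nat_lit 304) (nat_lit 1677885299) (nat_lit 76) (nat_lit 8880511518) (nat_lit 48) (nat_lit 5) (nat_lit 52) (nat_lit 5) (nat_lit 49) (nat_lit 5) (nat_lit 374) (nat_lit 287) (nat_lit 239)) (XT.nd (nat_lit 78) (nat_lit 304) (nat_lit 0) (XT.lf (nat_lit 0) (nat_lit 9966037405) (nat_lit 228) (nat_lit 4747753363) (nat_lit 76) (nat_lit 385647095) (nat_lit 46) (nat_lit 5) (nat_lit 49) (nat_lit 5) (nat_lit 47) (nat_lit 5) (nat_lit 375) (nat_lit 287)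 (nat_lit 238)) (XT.lf (nat_lit 0) (nat_lit 479317899) (nat_lit 304) (nat_lit 8112260114) (nat_lit 76) (nat_lit 6815997560) (nat_lit 42) (nat_lit 5) (nat_lit 46) (nat_lit 5) (nat_lit 43) (nat_lit 5) (nat_lit 376) (nat_lit 287) (nat_lit 237)))))) (XT.nd (nat_lit 390) (nat_lit 608) (nat_lit 0) (XT.nd (nat_lit 156) (nat_lit 456) (nat_lit 0) (XT.nd (nat_lit 78) (nat_lit 228) (nat_lit 0) (XT.lf (nat_lit 0) (nat_lit 3943858734) (nat_lit 152) (nat_lit 2238316167) (nat_lit 228) (nat_lit 9542289236) (nat_lit 40) (nat_lit 5) (nat_lit 42) (nat_lit 5) (nat_lit 43) (nat_lit 5) (nat_lit 377) (nat_lit 287) (nat_lit 236)) (XT.lf (nat_lit 0) (nat_lit 285511165) (nat_lit 228) (nat_lit 11789783188) (nat_lit 304) (nat_lit 3975196380) (nat_lit 37) (nat_lit 5) (nat_lit 40) (nat_lit 5) (nat_lit 41) (nat_lit 5) (nat_lit 378) (nat_lit 287) (nat_lit 235))) (XT.nd (nat_lit 78) (nat_lit 380) (nat_lit 0) (XT.lf (nat_lit 0) (nat_lit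 1765957817) (nat_lit 304) (nat_lit 3648660600) (nat_lit 76) (nat_lit 10970863160) (nat_lit 36) (nat_lit 5) (nat_lit 40) (nat_lit 5) (nat_lit 37) (nat_lit 5) (nat_lit 379) (nat_lit 287) (nat_lit 234)) (XT.nd (nat_lit 78) (nat_lit 228) (nat_lit 0) (XT.lf (nat_lit 0) (nat_lit 7627285839) (nat_lit 228) (nat_lit 7926385223) (nat_lit 76) (nat_lit 1176300409) (nat_lit 34) (nat_lit 5) (nat_lit 37) (nat_lit 5) (nat_lit 35) (nat_lit 5) (nat_lit 380) (nat_lit 287) (nat_lit 233)) (XT.lf (nat_lit 0) (nat_lit 4509965856) (nat_lit 228) (nat_lit 9182417212) (nat_lit 304) (nat_lit 3391867783) (nat_lit 31) (nat_lit 5) (nat_lit 34) (nat_lit 5) (nat_lit 35) (nat_lit 5) (nat_lit 381) (nat_lit 287) (nat_lit 232))))) (XT.nd (nat_lit 156) (nat_lit 380) (nat_lit 0) (XT.nd (nat_lit 78) (nat_lit 152) (nat_lit 0) (XT.lf (nat_lit 0) (nat_lit 2449942257) (nat_lit 304) (nat_lit 143638803) (nat_lit 76) (nat_lit 14855420355) (nat_lit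 30) (nat_lit 5) (nat_lit 34) (nat_lit 5) (nat_lit 31) (nat_lit 5) (nat_lit 382) (nat_lit 287) (nat_lit 231)) (XT.lf (nat_lit 0) (nat_lit 8471337331) (nat_lit 228) (nat_lit 5151451711) (nat_lit 76) (nat_lit 4200461149) (nat_lit 28) (nat_lit 5) (nat_lit 31) (nat_lit 5) (nat_lit 29) (nat_lit 5) (nat_lit 383) (nat_lit 287) (nat_lit 230))) (XT.nd (nat_lit 78) (nat_lit 228) (nat_lit 0) (XT.lf (nat_lit 0) (nat_lit 7644825988) (nat_lit 152) (nat_lit 7037368388) (nat_lit 228) (nat_lit 3526367654) (nat_lit 26) (nat_lit 5) (nat_lit 28) (nat_lit 5) (nat_lit 29) (nat_lit 5) (nat_lit 384) (nat_lit 287) (nat_lit 229)) (XT.nd (nat_lit 78) (nat_lit 0) (nat_lit 0) (XT.lf (nat_lit 0) (nat_lit 2201184934) (nat_lit 152) (nat_lit 231272200) (nat_lit 228) (nat_lit 16172847074) (nat_lit 23) (nat_lit 5) (nat_lit 25) (nat_lit 5) (nat_lit 26) (nat_lit 5) (nat_lit 385) (nat_lit 287) (nat_lit 228)) (XT.lf (nat_lit 0) (nat_lit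 8580780966) (nat_lit 228) (nat_lit 3688319125) (nat_lit 76) (nat_lit 6743220588) (nat_lit 23) (nat_lit 5) (nat_lit 26) (nat_lit 5) (nat_lit 24) (nat_lit 5) (nat_lit 386) (nat_lit 287) (nat_lit 227))))))))
noncomputable def xc26 : XT := (XT.nd (nat_lit 1482) (nat_lit 8588) (nat_lit 0) (XT.nd (nat_lit 702) (nat_lit 6992) (nat_lit 0) (XT.nd (nat_lit 312) (nat_lit 4332) (nat_lit 0) (XT.nd (nat_lit 156) (nat_lit 2736) (nat_lit 0) (XT.nd (nat_lit 78) (nat_lit 1748) (nat_lit 0) (XT.lf (nat_lit 0) (nat_lit 138575656) (nat_lit 1596) (nat_lit 1702748624) (nat_lit 1596) (nat_lit 1702748624) (nat_lit 411) (nat_lit 4) (nat_lit 432) (nat_lit 5) (nat_lit 432) (nat_lit 4) (nat_lit 324) (nat_lit 288) (nat_lit 288)) (XT.lf (nat_lit 0) (nat_lit 472257860) (nat_lit 1672) (nat_lit 1025589734) (nat_lit 1748) (nat_lit 5646809238) (nat_lit 388) (nat_lit 5) (nat_lit 410) (nat_lit 5) (nat_lit 411) (nat_lit 4) (nat_lit 325)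 (nat_lit 288) (nat_lit 287))) (XT.nd (nat_lit 78) (nat_lit 988) (nat_lit 0) (XT.lf (nat_lit 0) (nat_lit 693297941) (nat_lit 1748) (nat_lit 5722349125) (nat_lit 1748) (nat_lit 788606130) (nat_lit 365) (nat_lit 4) (nat_lit 388) (nat_lit 5) (nat_lit 388) (nat_lit 4) (nat_lit 326) (nat_lit 288) (nat_lit 286)) (XT.lf (nat_lit 0) (nat_lit 935942301) (nat_lit 912) (nat_lit 3137974416) (nat_lit 988) (nat_lit 3193003412) (nat_lit 352) (nat_lit 5) (nat_lit 364) (nat_lit 5) (nat_lit 365) (nat_lit 4) (nat_lit 327) (nat_lit 288) (nat_lit 285)))) (XT.nd (nat_lit 156) (nat_lit 2508) (nat_lit 0) (XT.nd (nat_lit 78) (nat_lit 836) (nat_lit 0) (XT.lf (nat_lit 0) (nat_lit 1215943959) (nat_lit 912) (nat_lit 411439194) (nat_lit 988) (nat_lit 5705656383) (nat_lit 339) (nat_lit 5) (nat_lit 351) (nat_lit 5) (nat_lit 352) (nat_lit 5) (nat_lit 328) (nat_lit 288) (nat_lit 284)) (XT.lf (nat_lit 0) (nat_lit 1509852275) (nat_lit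 836) (nat_lit 4968740493) (nat_lit 912) (nat_lit 923634896) (nat_lit 328) (nat_lit 5) (nat_lit 339) (nat_lit 5) (nat_lit 340) (nat_lit 4) (nat_lit 329) (nat_lit 288) (nat_lit 283))) (XT.nd (nat_lit 78) (nat_lit 1596) (nat_lit 0) (XT.lf (nat_lit 0) (nat_lit 1823679867) (nat_lit 836) (nat_lit 2044905295) (nat_lit 912) (nat_lit 3606096480) (nat_lit 316) (nat_lit 5) (nat_lit 327) (nat_lit 5) (nat_lit 328) (nat_lit 5) (nat_lit 330) (nat_lit 288) (nat_lit 282)) (XT.nd (nat_lit 78) (nat_lit 760) (nat_lit 0) (XT.lf (nat_lit 0) (nat_lit 1152473600) (nat_lit 836) (nat_lit 5387419783) (nat_lit 76) (nat_lit 1010703389) (nat_lit 305) (nat_lit 5) (nat_lit 316) (nat_lit 5) (nat_lit 306) (nat_lit 5) (nat_lit 331) (nat_lit 288) (nat_lit 281)) (XT.lf (nat_lit 0) (nat_lit 2508317860) (nat_lit 760) (nat_lit 3433159236) (nat_lit 836) (nat_lit 1688189313) (nat_lit 295) (nat_lit 5) (nat_lit 305) (nat_lit 5) (nat_lit 306)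 (nat_lit 5) (nat_lit 332) (nat_lit 288) (nat_lit 280)))))) (XT.nd (nat_lit 390) (nat_lit 3268) (nat_lit 0) (XT.nd (nat_lit 156) (nat_lit 2052) (nat_lit 0) (XT.nd (nat_lit 78) (nat_lit 836) (nat_lit 0) (XT.lf (nat_lit 0) (nat_lit 2874148610) (nat_lit 760) (nat_lit 172667730) (nat_lit 836) (nat_lit 4665458873) (nat_lit 284) (nat_lit 5) (nat_lit 294) (nat_lit 5) (nat_lit 295) (nat_lit 5) (nat_lit 333) (nat_lit 288) (nat_lit 279)) (XT.lf (nat_lit 0) (nat_lit 51431907) (nat_lit 836) (nat_lit 4552444106) (nat_lit 76) (nat_lit 3194348656) (nat_lit 273) (nat_lit 5) (nat_lit 284) (nat_lit 5) (nat_lit 274) (nat_lit 5) (nat_lit 334) (nat_lit 288) (nat_lit 278))) (XT.nd (nat_lit 78) (nat_lit 1368) (nat_lit 0) (XT.lf (nat_lit 0) (nat_lit 3620700926) (nat_lit 684) (nat_lit 1158224125) (nat_lit 760) (nat_lit 3108637832) (nat_lit 264) (nat_lit 5) (nat_lit 273) (nat_lit 5) (nat_lit 274) (nat_lit 5) (nat_lit 335) (nat_lit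 288) (nat_lit 277)) (XT.nd (nat_lit 78) (nat_lit 608) (nat_lit 0) (XT.lf (nat_lit 0) (nat_lit 1596036351) (nat_lit 760) (nat_lit 3978432506) (nat_lit 76) (nat_lit 2405983490) (nat_lit 254) (nat_lit 5) (nat_lit 264) (nat_lit 5) (nat_lit 255) (nat_lit 5) (nat_lit 336) (nat_lit 288) (nat_lit 276)) (XT.lf (nat_lit 0) (nat_lit 4384739290) (nat_lit 608) (nat_lit 1959251634) (nat_lit 684) (nat_lit 1732909970) (nat_lit 246) (nat_lit 5) (nat_lit 254) (nat_lit 5) (nat_lit 255) (nat_lit 5) (nat_lit 337) (nat_lit 288) (nat_lit 275))))) (XT.nd (nat_lit 156) (nat_lit 1900) (nat_lit 0) (XT.nd (nat_lit 78) (nat_lit 608) (nat_lit 0) (XT.lf (nat_lit 0) (nat_lit 2968537757) (nat_lit 760) (nat_lit 3413946838) (nat_lit 76) (nat_lit 1794418537) (nat_lit 236) (nat_lit 5) (nat_lit 246) (nat_lit 5) (nat_lit 237) (nat_lit 5) (nat_lit 338) (nat_lit 288) (nat_lit 274)) (XT.lf (nat_lit 0) (nat_lit 5140388694) (nat_lit 608) (nat_lit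 2601835719) (nat_lit 684) (nat_lit 538422627) (nat_lit 228) (nat_lit 5) (nat_lit 236) (nat_lit 5) (nat_lit 237) (nat_lit 5) (nat_lit 339) (nat_lit 288) (nat_lit 273))) (XT.nd (nat_lit 78) (nat_lit 1216) (nat_lit 0) (XT.lf (nat_lit 0) (nat_lit 4168046205) (nat_lit 684) (nat_lit 2885754043) (nat_lit 76) (nat_lit 1334161633) (nat_lit 219) (nat_lit 5) (nat_lit 228) (nat_lit 5) (nat_lit 220) (nat_lit 5) (nat_lit 340) (nat_lit 288) (nat_lit 272)) (XT.nd (nat_lit 78) (nat_lit 608) (nat_lit 0) (XT.lf (nat_lit 0) (nat_lit 466748569) (nat_lit 608) (nat_lit 2641765422) (nat_lit 76) (nat_lit 5390634738) (nat_lit 211) (nat_lit 5) (nat_lit 219) (nat_lit 5) (nat_lit 212) (nat_lit 5) (nat_lit 341) (nat_lit 288) (nat_lit 271)) (XT.lf (nat_lit 0) (nat_lit 5191956377) (nat_lit 684) (nat_lit 2422063274) (nat_lit 76) (nat_lit 1000045731) (nat_lit 203) (nat_lit 5) (nat_lit 212) (nat_lit 5) (nat_lit 204) (nat_lit 5) (nat_lit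 342) (nat_lit 288) (nat_lit 270))))))) (XT.nd (nat_lit 702) (nat_lit 3876) (nat_lit 0) (XT.nd (nat_lit 312) (nat_lit 2432) (nat_lit 0) (XT.nd (nat_lit 156) (nat_lit 1140) (nat_lit 0) (XT.nd (nat_lit 78) (nat_lit 532) (nat_lit 0) (XT.lf (nat_lit 0) (nat_lit 1280535674) (nat_lit 608) (nat_lit 2225026238) (nat_lit 76) (nat_lit 5227321351) (nat_lit 195) (nat_lit 5) (nat_lit 203) (nat_lit 5) (nat_lit 196) (nat_lit 5) (nat_lit 343) (nat_lit 288) (nat_lit 269)) (XT.lf (nat_lit 0) (nat_lit 6035879866) (nat_lit 608) (nat_lit 2052812978) (nat_lit 76) (nat_lit 767011390) (nat_lit 188) (nat_lit 5) (nat_lit 196) (nat_lit 5) (nat_lit 189) (nat_lit 5) (nat_lit 344) (nat_lit 288) (nat_lit 268))) (XT.nd (nat_lit 78) (nat_lit 532) (nat_lit 0) (XT.lf (nat_lit 0) (nat_lit 1904551405) (nat_lit 608) (nat_lit 1917526566) (nat_lit 76) (nat_lit 5160359617) (nat_lit 180) (nat_lit 5) (nat_lit 188) (nat_lit 5) (nat_lit 181)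 (nat_lit 5) (nat_lit 345) (nat_lit 288) (nat_lit 267)) (XT.lf (nat_lit 0) (nat_lit 6693561567) (nat_lit 608) (nat_lit 1809978547) (nat_lit 76) (nat_lit 609884960) (nat_lit 173) (nat_lit 5) (nat_lit 181) (nat_lit 5) (nat_lit 174) (nat_lit 5) (nat_lit 346) (nat_lit 288) (nat_lit 266)))) (XT.nd (nat_lit 156) (nat_lit 1444) (nat_lit 0) (XT.nd (nat_lit 78) (nat_lit 456) (nat_lit 0) (XT.lf (nat_lit 0) (nat_lit 2331417250) (nat_lit 532) (nat_lit 1752441753) (nat_lit 76) (nat_lit 5164527135) (nat_lit 166) (nat_lit 5) (nat_lit 173) (nat_lit 5) (nat_lit 167) (nat_lit 5) (nat_lit 347) (nat_lit 288) (nat_lit 265)) (XT.lf (nat_lit 0) (nat_lit 7156779174) (nat_lit 532) (nat_lit 1727903416) (nat_lit 76) (nat_lit 503150603) (nat_lit 160) (nat_lit 5) (nat_lit 167) (nat_lit 5) (nat_lit 161) (nat_lit 5) (nat_lit 348) (nat_lit 288) (nat_lit 264))) (XT.nd (nat_lit 78) (nat_lit 912) (nat_lit 0) (XT.lf (nat_lit 0) (nat_lit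 2551715696) (nat_lit 532) (nat_lit 1765485309) (nat_lit 76) (nat_lit 5214162548) (nat_lit 153) (nat_lit 5) (nat_lit 160) (nat_lit 5) (nat_lit 154) (nat_lit 5) (nat_lit 349) (nat_lit 288) (nat_lit 263)) (XT.nd (nat_lit 78) (nat_lit 456) (nat_lit 0) (XT.lf (nat_lit 0) (nat_lit 7415224610) (nat_lit 532) (nat_lit 1843656730) (nat_lit 76) (nat_lit 420714187) (nat_lit 147) (nat_lit 5) (nat_lit 154) (nat_lit 5) (nat_lit 148) (nat_lit 5) (nat_lit 350) (nat_lit 288) (nat_lit 262)) (XT.lf (nat_lit 0) (nat_lit 2553862202) (nat_lit 456) (nat_lit 1995281490) (nat_lit 76) (nat_lit 5282924177) (nat_lit 141) (nat_lit 5) (nat_lit 147) (nat_lit 5) (nat_lit 142) (nat_lit 5) (nat_lit 351) (nat_lit 288) (nat_lit 261)))))) (XT.nd (nat_lit 390) (nat_lit 1748) (nat_lit 0) (XT.nd (nat_lit 156) (nat_lit 1216) (nat_lit 0) (XT.nd (nat_lit 78) (nat_lit 456) (nat_lit 0) (XT.lf (nat_lit 0) (nat_lit 7456366094) (nat_lit 532) (nat_lit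 2197421000) (nat_lit 76) (nat_lit 335656994) (nat_lit 135) (nat_lit 5) (nat_lit 142) (nat_lit 5) (nat_lit 136) (nat_lit 5) (nat_lit 352) (nat_lit 288) (nat_lit 260)) (XT.lf (nat_lit 0) (nat_lit 2323957037) (nat_lit 456) (nat_lit 2483769656) (nat_lit 76) (nat_lit 5343537478) (nat_lit 129) (nat_lit 5) (nat_lit 135) (nat_lit 5) (nat_lit 130) (nat_lit 5) (nat_lit 353) (nat_lit 288) (nat_lit 259))) (XT.nd (nat_lit 78) (nat_lit 836) (nat_lit 0) (XT.lf (nat_lit 0) (nat_lit 7265289335) (nat_lit 456) (nat_lit 2832913438) (nat_lit 76) (nat_lit 219977062) (nat_lit 124) (nat_lit 5) (nat_lit 130) (nat_lit 5) (nat_lit 125) (nat_lit 5) (nat_lit 354) (nat_lit 288) (nat_lit 258)) (XT.nd (nat_lit 78) (nat_lit 380) (nat_lit 0) (XT.lf (nat_lit 0) (nat_lit 1845615379) (nat_lit 456) (nat_lit 3276644263) (nat_lit 76) (nat_lit 5367529052) (nat_lit 118) (nat_lit 5) (nat_lit 124) (nat_lit 5) (nat_lit 119) (nat_lit 5) (nat_lit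 355) (nat_lit 288) (nat_lit 257)) (XT.lf (nat_lit 0) (nat_lit 6824516169) (nat_lit 456) (nat_lit 3797845042) (nat_lit 76) (nat_lit 44315831) (nat_lit 113) (nat_lit 5) (nat_lit 119) (nat_lit 5) (nat_lit 114) (nat_lit 5) (nat_lit 356) (nat_lit 288) (nat_lit 256))))) (XT.nd (nat_lit 156) (nat_lit 988) (nat_lit 0) (XT.nd (nat_lit 78) (nat_lit 380) (nat_lit 0) (XT.lf (nat_lit 0) (nat_lit 1099773889) (nat_lit 380) (nat_lit 4423834743) (nat_lit 76) (nat_lit 5324944812) (nat_lit 108) (nat_lit 5) (nat_lit 113) (nat_lit 5) (nat_lit 109) (nat_lit 5) (nat_lit 357) (nat_lit 288) (nat_lit 255)) (XT.lf (nat_lit 0) (nat_lit 5889974380) (nat_lit 380) (nat_lit 225287066) (nat_lit 456) (nat_lit 4920597494) (nat_lit 103) (nat_lit 5) (nat_lit 108) (nat_lit 5) (nat_lit 109) (nat_lit 5) (nat_lit 358) (nat_lit 288) (nat_lit 254))) (XT.nd (nat_lit 78) (nat_lit 608) (nat_lit 0) (XT.lf (nat_lit 0) (nat_lit 64471742) (nat_lit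 380) (nat_lit 5980029900) (nat_lit 76) (nat_lit 5184049719) (nat_lit 98) (nat_lit 5) (nat_lit 103) (nat_lit 5) (nat_lit 99) (nat_lit 5) (nat_lit 359) (nat_lit 288) (nat_lit 253)) (XT.nd (nat_lit 78) (nat_lit 304) (nat_lit 0) (XT.lf (nat_lit 0) (nat_lit 4492843147) (nat_lit 304) (nat_lit 621076337) (nat_lit 380) (nat_lit 6312849313) (nat_lit 94) (nat_lit 5) (nat_lit 98) (nat_lit 5) (nat_lit 99) (nat_lit 5) (nat_lit 360) (nat_lit 288) (nat_lit 252)) (XT.lf (nat_lit 0) (nat_lit 3616984486) (nat_lit 304) (nat_lit 6711230098) (nat_lit 380) (nat_lit 1302478373) (nat_lit 90) (nat_lit 5) (nat_lit 94) (nat_lit 5) (nat_lit 95) (nat_lit 5) (nat_lit 361) (nat_lit 288) (nat_lit 251))))))))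
noncomputable def xc27 : XT := (XT.nd (nat_lit 1482) (nat_lit 836) (nat_lit 0) (XT.nd (nat_lit 702) (nat_lit 1900) (nat_lit 0) (XT.nd (nat_lit 312) (nat_lit 1368) (nat_lit 0) (XT.nd (nat_lit 156) (nat_lit 380) (nat_lit 0) (XT.nd (nat_lit 78) (nat_lit 228) (nat_lit 0) (XT.lf (nat_lit 0) (nat_lit 2615731712) (nat_lit 304) (nat_lit 1178185437) (nat_lit 380) (nat_lit 8046616561) (nat_lit 85) (nat_lit 5) (nat_lit 89) (nat_lit 5) (nat_lit 90) (nat_lit 5) (nat_lit 362) (nat_lit 288) (nat_lit 250)) (XT.lf (nat_lit 0) (nat_lit 1471186480) (nat_lit 228) (nat_lit 7567143057) (nat_lit 304) (nat_lit 3017936945) (nat_lit 82) (nat_lit 5) (nat_lit 85) (nat_lit 5) (nat_lit 86) (nat_lit 5) (nat_lit 363) (nat_lit 288) (nat_lit 249))) (XT.nd (nat_lit 78) (nat_lit 0) (nat_lit 0) (XT.lf (nat_lit 0) (nat_lit 190412045) (nat_lit 304) (nat_lit 1935021657) (nat_lit 380) (nat_lit 10152937408) (nat_lit 77) (nat_lit 5) (nat_lit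 81) (nat_lit 5) (nat_lit 82) (nat_lit 5) (nat_lit 364) (nat_lit 288) (nat_lit 248)) (XT.lf (nat_lit 0) (nat_lit 7400996184) (nat_lit 380) (nat_lit 1243495854) (nat_lit 76) (nat_lit 3861893481) (nat_lit 77) (nat_lit 5) (nat_lit 82) (nat_lit 5) (nat_lit 78) (nat_lit 5) (nat_lit 365) (nat_lit 288) (nat_lit 247)))) (XT.nd (nat_lit 156) (nat_lit 760) (nat_lit 0) (XT.nd (nat_lit 78) (nat_lit 304) (nat_lit 0) (XT.lf (nat_lit 0) (nat_lit 93342006) (nat_lit 304) (nat_lit 2820799573) (nat_lit 76) (nat_lit 9827089284) (nat_lit 73) (nat_lit 5) (nat_lit 77) (nat_lit 5) (nat_lit 74) (nat_lit 5) (nat_lit 366) (nat_lit 288) (nat_lit 246)) (XT.lf (nat_lit 0) (nat_lit 5386456128) (nat_lit 380) (nat_lit 4594492603) (nat_lit 76) (nat_lit 3001363931) (nat_lit 69) (nat_lit 5) (nat_lit 74) (nat_lit 5) (nat_lit 70) (nat_lit 5) (nat_lit 367) (nat_lit 288) (nat_lit 245))) (XT.nd (nat_lit 78) (nat_lit 532) (nat_lit 0) (XT.lf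 (nat_lit 0) (nat_lit 6688477899) (nat_lit 228) (nat_lit 4157736798) (nat_lit 304) (nat_lit 2384276251) (nat_lit 66) (nat_lit 5) (nat_lit 69) (nat_lit 5) (nat_lit 70) (nat_lit 5) (nat_lit 368) (nat_lit 288) (nat_lit 244)) (XT.nd (nat_lit 78) (nat_lit 228) (nat_lit 0) (XT.lf (nat_lit 0) (nat_lit 2945872740) (nat_lit 304) (nat_lit 8687027768) (nat_lit 76) (nat_lit 1852819633) (nat_lit 62) (nat_lit 5) (nat_lit 66) (nat_lit 5) (nat_lit 63) (nat_lit 5) (nat_lit 369) (nat_lit 288) (nat_lit 243)) (XT.lf (nat_lit 0) (nat_lit 2693782507) (nat_lit 228) (nat_lit 5727516535) (nat_lit 304) (nat_lit 5326656108) (nat_lit 59) (nat_lit 5) (nat_lit 62) (nat_lit 5) (nat_lit 63) (nat_lit 5) (nat_lit 370) (nat_lit 288) (nat_lit 242)))))) (XT.nd (nat_lit 390) (nat_lit 912) (nat_lit 0) (XT.nd (nat_lit 156) (nat_lit 684) (nat_lit 0) (XT.nd (nat_lit 78) (nat_lit 0) (nat_lit 0) (XT.lf (nat_lit 0) (nat_lit 35186827) (nat_lit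 304) (nat_lit 13615981241) (nat_lit 76) (nat_lit 367045707) (nat_lit 55) (nat_lit 5) (nat_lit 59) (nat_lit 5) (nat_lit 56) (nat_lit 5) (nat_lit 371) (nat_lit 288) (nat_lit 241)) (XT.lf (nat_lit 0) (nat_lit 5529185116) (nat_lit 304) (nat_lit 2133059781) (nat_lit 76) (nat_lit 6632775692) (nat_lit 55) (nat_lit 5) (nat_lit 59) (nat_lit 5) (nat_lit 56) (nat_lit 5) (nat_lit 372) (nat_lit 288) (nat_lit 240))) (XT.nd (nat_lit 78) (nat_lit 456) (nat_lit 0) (XT.lf (nat_lit 0) (nat_lit 9707884872) (nat_lit 228) (nat_lit 1474751271) (nat_lit 304) (nat_lit 3397620267) (nat_lit 52) (nat_lit 5) (nat_lit 55) (nat_lit 5) (nat_lit 56) (nat_lit 5) (nat_lit 373) (nat_lit 288) (nat_lit 239)) (XT.nd (nat_lit 78) (nat_lit 152) (nat_lit 0) (XT.lf (nat_lit 0) (nat_lit 2128250923) (nat_lit 304) (nat_lit 7881099851) (nat_lit 76) (nat_lit 4863947018) (nat_lit 48) (nat_lit 5) (nat_lit 52) (nat_lit 5) (nat_lit 49) (nat_lit 5)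 (nat_lit 374) (nat_lit 288) (nat_lit 238)) (XT.lf (nat_lit 0) (nat_lit 4012676818) (nat_lit 152) (nat_lit 3763839517) (nat_lit 228) (nat_lit 7398125480) (nat_lit 46) (nat_lit 5) (nat_lit 48) (nat_lit 5) (nat_lit 49) (nat_lit 5) (nat_lit 375) (nat_lit 288) (nat_lit 237))))) (XT.nd (nat_lit 156) (nat_lit 608) (nat_lit 0) (XT.nd (nat_lit 78) (nat_lit 76) (nat_lit 0) (XT.lf (nat_lit 0) (nat_lit 768289480) (nat_lit 228) (nat_lit 12836314563) (nat_lit 304) (nat_lit 1880230293) (nat_lit 43) (nat_lit 5) (nat_lit 46) (nat_lit 5) (nat_lit 47) (nat_lit 5) (nat_lit 376) (nat_lit 288) (nat_lit 236)) (XT.lf (nat_lit 0) (nat_lit 3789689514) (nat_lit 304) (nat_lit 2754308628) (nat_lit 76) (nat_lit 9259128191) (nat_lit 42) (nat_lit 5) (nat_lit 46) (nat_lit 5) (nat_lit 43) (nat_lit 5) (nat_lit 377) (nat_lit 288) (nat_lit 235))) (XT.nd (nat_lit 78) (nat_lit 456) (nat_lit 0) (XT.lf (nat_lit 0) (nat_lit 9572619035) (nat_lit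 152) (nat_lit 30790883) (nat_lit 228) (nat_lit 6527338121) (nat_lit 40) (nat_lit 5) (nat_lit 42) (nat_lit 5) (nat_lit 43) (nat_lit 5) (nat_lit 378) (nat_lit 288) (nat_lit 234)) (XT.nd (nat_lit 78) (nat_lit 228) (nat_lit 0) (XT.lf (nat_lit 0) (nat_lit 5764979703) (nat_lit 228) (nat_lit 9863956803) (nat_lit 304) (nat_lit 838528053) (nat_lit 37) (nat_lit 5) (nat_lit 40) (nat_lit 5) (nat_lit 41) (nat_lit 5) (nat_lit 379) (nat_lit 288) (nat_lit 233)) (XT.lf (nat_lit 0) (nat_lit 1616777580) (nat_lit 152) (nat_lit 3332289355) (nat_lit 228) (nat_lit 11864697603) (nat_lit 34) (nat_lit 5) (nat_lit 36) (nat_lit 5) (nat_lit 37) (nat_lit 5) (nat_lit 380) (nat_lit 288) (nat_lit 232))))))) (XT.nd (nat_lit 42588) (nat_lit 0) (nat_lit 18316) (XT.nd (nat_lit 390) (nat_lit 228) (nat_lit 0) (XT.nd (nat_lit 156) (nat_lit 380) (nat_lit 0) (XT.nd (nat_lit 78) (nat_lit 228) (nat_lit 0) (XT.lf (nat_lit 0) (nat_lit 10933379287)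 (nat_lit 228) (nat_lit 2849730996) (nat_lit 76) (nat_lit 3386555730) (nat_lit 34) (nat_lit 5) (nat_lit 37) (nat_lit 5) (nat_lit 35) (nat_lit 5) (nat_lit 381) (nat_lit 288) (nat_lit 231)) (XT.lf (nat_lit 0) (nat_lit 9873490047) (nat_lit 228) (nat_lit 7251255127) (nat_lit 304) (nat_lit 410961484) (nat_lit 31) (nat_lit 5) (nat_lit 34) (nat_lit 5) (nat_lit 35) (nat_lit 5) (nat_lit 382) (nat_lit 288) (nat_lit 230))) (XT.nd (nat_lit 78) (nat_lit 152) (nat_lit 0) (XT.lf (nat_lit 0) (nat_lit 5033880284) (nat_lit 152) (nat_lit 475867474) (nat_lit 228) (nat_lit 12402388467) (nat_lit 28) (nat_lit 5) (nat_lit 30) (nat_lit 5) (nat_lit 31) (nat_lit 5) (nat_lit 383) (nat_lit 288) (nat_lit 229)) (XT.nd (nat_lit 78) (nat_lit 152) (nat_lit 0) (XT.lf (nat_lit 0) (nat_lit 11639595704) (nat_lit 228) (nat_lit 228434216) (nat_lit 76) (nat_lit 6431044064) (nat_lit 28) (nat_lit 5) (nat_lit 31) (nat_lit 5) (nat_lit 29) (nat_lit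 5) (nat_lit 384) (nat_lit 288) (nat_lit 228)) (XT.lf (nat_lit 0) (nat_lit 12869354418) (nat_lit 152) (nat_lit 5114978857) (nat_lit 228) (nat_lit 712678030) (nat_lit 26) (nat_lit 5) (nat_lit 28) (nat_lit 5) (nat_lit 29) (nat_lit 5) (nat_lit 385) (nat_lit 288) (nat_lit 227))))) (XT.nd (nat_lit 41964) (nat_lit 0) (nat_lit 27740) (XT.nd (nat_lit 41886) (nat_lit 0) (nat_lit 32680) (XT.lf (nat_lit 0) (nat_lit 5347094736) (nat_lit 228) (nat_lit 11898979964) (nat_lit 76) (nat_lit 1860008884) (nat_lit 23) (nat_lit 5) (nat_lit 26) (nat_lit 5) (nat_lit 24) (nat_lit 5) (nat_lit 386) (nat_lit 288) (nat_lit 226)) (XT.lf (nat_lit 0) (nat_lit 36765586) (nat_lit 1444) (nat_lit 1727451563) (nat_lit 1444) (nat_lit 1727451563) (nat_lit 453) (nat_lit 4) (nat_lit 472) (nat_lit 5) (nat_lit 472) (nat_lit 4) (nat_lit 322) (nat_lit 289) (nat_lit 289))) (XT.nd (nat_lit 78) (nat_lit 3344) (nat_lit 0) (XT.lf (nat_lit 0) (nat_lit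 124133289) (nat_lit 1520) (nat_lit 1265336671) (nat_lit 1596) (nat_lit 5645499610) (nat_lit 432) (nat_lit 5) (nat_lit 452) (nat_lit 5) (nat_lit 453) (nat_lit 4) (nat_lit 323) (nat_lit 289) (nat_lit 288)) (XT.nd (nat_lit 78) (nat_lit 1748) (nat_lit 0) (XT.lf (nat_lit 0) (nat_lit 205236143) (nat_lit 1596) (nat_lit 6033914123) (nat_lit 1596) (nat_lit 850523733) (nat_lit 411) (nat_lit 4) (nat_lit 432) (nat_lit 5) (nat_lit 432) (nat_lit 4) (nat_lit 324) (nat_lit 289) (nat_lit 287)) (XT.lf (nat_lit 0) (nat_lit 309256809) (nat_lit 1672) (nat_lit 3637114860) (nat_lit 1748) (nat_lit 3200995884) (nat_lit 388) (nat_lit 5) (nat_lit 410) (nat_lit 5) (nat_lit 411) (nat_lit 4) (nat_lit 325) (nat_lit 289) (nat_lit 286)))))) (XT.nd (nat_lit 390) (nat_lit 3952) (nat_lit 0) (XT.nd (nat_lit 156) (nat_lit 2736) (nat_lit 0) (XT.nd (nat_lit 78) (nat_lit 912) (nat_lit 0) (XT.lf (nat_lit 0) (nat_lit 452811042) (nat_lit 1748)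 (nat_lit 1100526972) (nat_lit 1824) (nat_lit 5655106224) (nat_lit 364) (nat_lit 5) (nat_lit 387) (nat_lit 5) (nat_lit 388) (nat_lit 5) (nat_lit 326) (nat_lit 289) (nat_lit 285)) (XT.lf (nat_lit 0) (nat_lit 618161265) (nat_lit 912) (nat_lit 5708996052) (nat_lit 988) (nat_lit 945469950) (nat_lit 352) (nat_lit 5) (nat_lit 364) (nat_lit 5) (nat_lit 365) (nat_lit 4) (nat_lit 327) (nat_lit 289) (nat_lit 284))) (XT.nd (nat_lit 78) (nat_lit 1748) (nat_lit 0) (XT.lf (nat_lit 0) (nat_lit 801667037) (nat_lit 912) (nat_lit 2972994908) (nat_lit 988) (nat_lit 3565257249) (nat_lit 339) (nat_lit 5) (nat_lit 351) (nat_lit 5) (nat_lit 352) (nat_lit 5) (nat_lit 328) (nat_lit 289) (nat_lit 283)) (XT.nd (nat_lit 78) (nat_lit 836) (nat_lit 0) (XT.lf (nat_lit 0) (nat_lit 1019933738) (nat_lit 836) (nat_lit 94531246) (nat_lit 912) (nat_lit 6296257623) (nat_lit 327) (nat_lit 5) (nat_lit 338) (nat_lit 5) (nat_lit 339) (nat_lit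 5) (nat_lit 329) (nat_lit 289) (nat_lit 282)) (XT.lf (nat_lit 0) (nat_lit 1241509439) (nat_lit 836) (nat_lit 4583100900) (nat_lit 912) (nat_lit 1659890638) (nat_lit 316) (nat_lit 5) (nat_lit 327) (nat_lit 5) (nat_lit 328) (nat_lit 5) (nat_lit 330) (nat_lit 289) (nat_lit 281))))) (XT.nd (nat_lit 156) (nat_lit 2280) (nat_lit 0) (XT.nd (nat_lit 78) (nat_lit 836) (nat_lit 0) (XT.lf (nat_lit 0) (nat_lit 1485869484) (nat_lit 760) (nat_lit 1511616832) (nat_lit 836) (nat_lit 4564233370) (nat_lit 305) (nat_lit 5) (nat_lit 315) (nat_lit 5) (nat_lit 316) (nat_lit 5) (nat_lit 331) (nat_lit 289) (nat_lit 280)) (XT.lf (nat_lit 0) (nat_lit 65301826) (nat_lit 836) (nat_lit 5893687012) (nat_lit 76) (nat_lit 1683392190) (nat_lit 294) (nat_lit 5) (nat_lit 305) (nat_lit 5) (nat_lit 295) (nat_lit 5) (nat_lit 332) (nat_lit 289) (nat_lit 279))) (XT.nd (nat_lit 78) (nat_lit 1520) (nat_lit 0) (XT.lf (nat_lit 0) (nat_lit 2009170891)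 (nat_lit 760) (nat_lit 2701132864) (nat_lit 836) (nat_lit 3015863794) (nat_lit 284) (nat_lit 5) (nat_lit 294) (nat_lit 5) (nat_lit 295) (nat_lit 5) (nat_lit 333) (nat_lit 289) (nat_lit 278)) (XT.nd (nat_lit 78) (nat_lit 684) (nat_lit 0) (XT.lf (nat_lit 0) (nat_lit 1595310684) (nat_lit 836) (nat_lit 5523447740) (nat_lit 76) (nat_lit 694863773) (nat_lit 273) (nat_lit 5) (nat_lit 284) (nat_lit 5) (nat_lit 274) (nat_lit 5) (nat_lit 334) (nat_lit 289) (nat_lit 277)) (XT.lf (nat_lit 0) (nat_lit 2565773985) (nat_lit 684) (nat_lit 3690137098) (nat_lit 760) (nat_lit 1648423849) (nat_lit 264) (nat_lit 5) (nat_lit 273) (nat_lit 5) (nat_lit 274) (nat_lit 5) (nat_lit 335) (nat_lit 289) (nat_lit 276))))))))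
noncomputable def xc28 : XT := (XT.nd (nat_lit 1482) (nat_lit 5472) (nat_lit 0) (XT.nd (nat_lit 702) (nat_lit 4864) (nat_lit 0) (XT.nd (nat_lit 312) (nat_lit 2964) (nat_lit 0) (XT.nd (nat_lit 156) (nat_lit 1444) (nat_lit 0) (XT.nd (nat_lit 78) (nat_lit 608) (nat_lit 0) (XT.lf (nat_lit 0) (nat_lit 2851918199) (nat_lit 684) (nat_lit 102613831) (nat_lit 760) (nat_lit 5044189001) (nat_lit 254) (nat_lit 5) (nat_lit 263) (nat_lit 5) (nat_lit 264) (nat_lit 5) (nat_lit 336) (nat_lit 289) (nat_lit 275)) (XT.lf (nat_lit 0) (nat_lit 3130828190) (nat_lit 608) (nat_lit 4504892343) (nat_lit 684) (nat_lit 460818249) (nat_lit 246) (nat_lit 5) (nat_lit 254) (nat_lit 5) (nat_lit 255) (nat_lit 5) (nat_lit 337) (nat_lit 289) (nat_lit 274))) (XT.nd (nat_lit 78) (nat_lit 684) (nat_lit 0) (XT.lf (nat_lit 0) (nat_lit 3405811063) (nat_lit 684) (nat_lit 740315493) (nat_lit 760) (nat_lit 4051837916) (nat_lit 236) (nat_lit 5)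 (nat_lit 245) (nat_lit 5) (nat_lit 246) (nat_lit 5) (nat_lit 338) (nat_lit 289) (nat_lit 273)) (XT.lf (nat_lit 0) (nat_lit 539219223) (nat_lit 684) (nat_lit 4628241673) (nat_lit 76) (nat_lit 3135613500) (nat_lit 227) (nat_lit 5) (nat_lit 236) (nat_lit 5) (nat_lit 228) (nat_lit 5) (nat_lit 339) (nat_lit 289) (nat_lit 272)))) (XT.nd (nat_lit 156) (nat_lit 1748) (nat_lit 0) (XT.nd (nat_lit 78) (nat_lit 608) (nat_lit 0) (XT.lf (nat_lit 0) (nat_lit 3929941775) (nat_lit 608) (nat_lit 1234451518) (nat_lit 684) (nat_lit 3247440499) (nat_lit 219) (nat_lit 5) (nat_lit 227) (nat_lit 5) (nat_lit 228) (nat_lit 5) (nat_lit 340) (nat_lit 289) (nat_lit 271)) (XT.lf (nat_lit 0) (nat_lit 1352928197) (nat_lit 608) (nat_lit 4352002896) (nat_lit 76) (nat_lit 2819462464) (nat_lit 211) (nat_lit 5) (nat_lit 219) (nat_lit 5) (nat_lit 212) (nat_lit 5) (nat_lit 341) (nat_lit 289) (nat_lit 270))) (XT.nd (nat_lit 78) (nat_lit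 1140) (nat_lit 0) (XT.lf (nat_lit 0) (nat_lit 4396316123) (nat_lit 608) (nat_lit 1610182903) (nat_lit 684) (nat_lit 2634271467) (nat_lit 203) (nat_lit 5) (nat_lit 211) (nat_lit 5) (nat_lit 212) (nat_lit 5) (nat_lit 342) (nat_lit 289) (nat_lit 269)) (XT.nd (nat_lit 78) (nat_lit 532) (nat_lit 0) (XT.lf (nat_lit 0) (nat_lit 1982354045) (nat_lit 608) (nat_lit 4163185677) (nat_lit 76) (nat_lit 2615486296) (nat_lit 195) (nat_lit 5) (nat_lit 203) (nat_lit 5) (nat_lit 196) (nat_lit 5) (nat_lit 343) (nat_lit 289) (nat_lit 268)) (XT.lf (nat_lit 0) (nat_lit 4775234358) (nat_lit 532) (nat_lit 1892604539) (nat_lit 608) (nat_lit 2217430730) (nat_lit 188) (nat_lit 5) (nat_lit 195) (nat_lit 5) (nat_lit 196) (nat_lit 5) (nat_lit 344) (nat_lit 289) (nat_lit 267)))))) (XT.nd (nat_lit 390) (nat_lit 2204) (nat_lit 0) (XT.nd (nat_lit 156) (nat_lit 1520) (nat_lit 0) (XT.nd (nat_lit 78) (nat_lit 532) (nat_lit 0) (XT.lf (nat_lit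 0) (nat_lit 2421671756) (nat_lit 608) (nat_lit 4092877613) (nat_lit 76) (nat_lit 2498947073) (nat_lit 180) (nat_lit 5) (nat_lit 188) (nat_lit 5) (nat_lit 181) (nat_lit 5) (nat_lit 345) (nat_lit 289) (nat_lit 266)) (XT.lf (nat_lit 0) (nat_lit 5034985303) (nat_lit 532) (nat_lit 2106967389) (nat_lit 608) (nat_lit 2003929341) (nat_lit 173) (nat_lit 5) (nat_lit 180) (nat_lit 5) (nat_lit 181) (nat_lit 5) (nat_lit 346) (nat_lit 289) (nat_lit 265))) (XT.nd (nat_lit 78) (nat_lit 988) (nat_lit 0) (XT.lf (nat_lit 0) (nat_lit 2663136359) (nat_lit 532) (nat_lit 4174389053) (nat_lit 76) (nat_lit 2444861263) (nat_lit 166) (nat_lit 5) (nat_lit 173) (nat_lit 5) (nat_lit 167) (nat_lit 5) (nat_lit 347) (nat_lit 289) (nat_lit 264)) (XT.nd (nat_lit 78) (nat_lit 532) (nat_lit 0) (XT.lf (nat_lit 0) (nat_lit 5141517233) (nat_lit 456) (nat_lit 2278907132) (nat_lit 532) (nat_lit 2002792580) (nat_lit 160) (nat_lit 5) (nat_lit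 166) (nat_lit 5) (nat_lit 167) (nat_lit 5) (nat_lit 348) (nat_lit 289) (nat_lit 263)) (XT.lf (nat_lit 0) (nat_lit 2696972219) (nat_lit 532) (nat_lit 4443596688) (nat_lit 76) (nat_lit 2427769670) (nat_lit 153) (nat_lit 5) (nat_lit 160) (nat_lit 5) (nat_lit 154) (nat_lit 5) (nat_lit 349) (nat_lit 289) (nat_lit 262))))) (XT.nd (nat_lit 156) (nat_lit 1292) (nat_lit 0) (XT.nd (nat_lit 78) (nat_lit 456) (nat_lit 0) (XT.lf (nat_lit 0) (nat_lit 5058082377) (nat_lit 456) (nat_lit 2434681260) (nat_lit 532) (nat_lit 2225181352) (nat_lit 147) (nat_lit 5) (nat_lit 153) (nat_lit 5) (nat_lit 154) (nat_lit 5) (nat_lit 350) (nat_lit 289) (nat_lit 261)) (XT.lf (nat_lit 0) (nat_lit 2511243660) (nat_lit 456) (nat_lit 4939315462) (nat_lit 76) (nat_lit 2421498122) (nat_lit 141) (nat_lit 5) (nat_lit 147) (nat_lit 5) (nat_lit 142) (nat_lit 5) (nat_lit 351) (nat_lit 289) (nat_lit 260))) (XT.nd (nat_lit 78) (nat_lit 836) (nat_lit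 0) (XT.lf (nat_lit 0) (nat_lit 4744851692) (nat_lit 456) (nat_lit 2601416675) (nat_lit 532) (nat_lit 2684533243) (nat_lit 135) (nat_lit 5) (nat_lit 141) (nat_lit 5) (nat_lit 142) (nat_lit 5) (nat_lit 352) (nat_lit 289) (nat_lit 259)) (XT.nd (nat_lit 78) (nat_lit 380) (nat_lit 0) (XT.lf (nat_lit 0) (nat_lit 2091705523) (nat_lit 456) (nat_lit 5703702365) (nat_lit 76) (nat_lit 2398906793) (nat_lit 129) (nat_lit 5) (nat_lit 135) (nat_lit 5) (nat_lit 130) (nat_lit 5) (nat_lit 353) (nat_lit 289) (nat_lit 258)) (XT.lf (nat_lit 0) (nat_lit 4158496198) (nat_lit 380) (nat_lit 2807370006) (nat_lit 456) (nat_lit 3396724726) (nat_lit 124) (nat_lit 5) (nat_lit 129) (nat_lit 5) (nat_lit 130) (nat_lit 5) (nat_lit 354) (nat_lit 289) (nat_lit 257))))))) (XT.nd (nat_lit 702) (nat_lit 2508) (nat_lit 0) (XT.nd (nat_lit 312) (nat_lit 1368) (nat_lit 0) (XT.nd (nat_lit 156) (nat_lit 760) (nat_lit 0) (XT.nd (nat_lit 78) (nat_lit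 380) (nat_lit 0) (XT.lf (nat_lit 0) (nat_lit 1421632059) (nat_lit 456) (nat_lit 6782695970) (nat_lit 76) (nat_lit 2331625907) (nat_lit 118) (nat_lit 5) (nat_lit 124) (nat_lit 5) (nat_lit 119) (nat_lit 5) (nat_lit 355) (nat_lit 289) (nat_lit 256)) (XT.lf (nat_lit 0) (nat_lit 3251730862) (nat_lit 380) (nat_lit 3082202982) (nat_lit 456) (nat_lit 4380256273) (nat_lit 113) (nat_lit 5) (nat_lit 118) (nat_lit 5) (nat_lit 119) (nat_lit 5) (nat_lit 356) (nat_lit 289) (nat_lit 255))) (XT.nd (nat_lit 78) (nat_lit 380) (nat_lit 0) (XT.lf (nat_lit 0) (nat_lit 481622349) (nat_lit 380) (nat_lit 8226495956) (nat_lit 76) (nat_lit 2189775442) (nat_lit 108) (nat_lit 5) (nat_lit 113) (nat_lit 5) (nat_lit 109) (nat_lit 5) (nat_lit 357) (nat_lit 289) (nat_lit 254)) (XT.lf (nat_lit 0) (nat_lit 1972816620) (nat_lit 380) (nat_lit 3457275369) (nat_lit 456) (nat_lit 5656462262) (nat_lit 103) (nat_lit 5) (nat_lit 108) (nat_lit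 5) (nat_lit 109) (nat_lit 5) (nat_lit 358) (nat_lit 289) (nat_lit 253)))) (XT.nd (nat_lit 156) (nat_lit 684) (nat_lit 0) (XT.nd (nat_lit 78) (nat_lit 380) (nat_lit 0) (XT.lf (nat_lit 0) (nat_lit 1186009424) (nat_lit 304) (nat_lit 9334430431) (nat_lit 380) (nat_lit 760595104) (nat_lit 99) (nat_lit 5) (nat_lit 103) (nat_lit 5) (nat_lit 104) (nat_lit 5) (nat_lit 359) (nat_lit 289) (nat_lit 252)) (XT.lf (nat_lit 0) (nat_lit 265015713) (nat_lit 304) (nat_lit 3965958180) (nat_lit 380) (nat_lit 7249747885) (nat_lit 94) (nat_lit 5) (nat_lit 98) (nat_lit 5) (nat_lit 99) (nat_lit 5) (nat_lit 360) (nat_lit 289) (nat_lit 251))) (XT.nd (nat_lit 78) (nat_lit 684) (nat_lit 0) (XT.lf (nat_lit 0) (nat_lit 9360301678) (nat_lit 380) (nat_lit 752491280) (nat_lit 76) (nat_lit 1573565471) (nat_lit 94) (nat_lit 5) (nat_lit 99) (nat_lit 5) (nat_lit 95) (nat_lit 5) (nat_lit 361) (nat_lit 289) (nat_lit 250)) (XT.nd (nat_lit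 78) (nat_lit 304) (nat_lit 0) (XT.lf (nat_lit 0) (nat_lit 2722521960) (nat_lit 380) (nat_lit 1908640126) (nat_lit 76) (nat_lit 7266407345) (nat_lit 89) (nat_lit 5) (nat_lit 94) (nat_lit 5) (nat_lit 90) (nat_lit 5) (nat_lit 362) (nat_lit 289) (nat_lit 249)) (XT.lf (nat_lit 0) (nat_lit 7883656993) (nat_lit 380) (nat_lit 3193775923) (nat_lit 76) (nat_lit 1037546980) (nat_lit 85) (nat_lit 5) (nat_lit 90) (nat_lit 5) (nat_lit 86) (nat_lit 5) (nat_lit 363) (nat_lit 289) (nat_lit 248)))))) (XT.nd (nat_lit 390) (nat_lit 1064) (nat_lit 0) (XT.nd (nat_lit 156) (nat_lit 836) (nat_lit 0) (XT.nd (nat_lit 78) (nat_lit 304) (nat_lit 0) (XT.lf (nat_lit 0) (nat_lit 867380793) (nat_lit 304) (nat_lit 4631280930) (nat_lit 76) (nat_lit 6839803537) (nat_lit 81) (nat_lit 5) (nat_lit 85) (nat_lit 5) (nat_lit 82) (nat_lit 5) (nat_lit 364) (nat_lit 289) (nat_lit 247)) (XT.lf (nat_lit 0) (nat_lit 6051522042) (nat_lit 380) (nat_lit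 6224405619) (nat_lit 76) (nat_lit 292391658) (nat_lit 77) (nat_lit 5) (nat_lit 82) (nat_lit 5) (nat_lit 78) (nat_lit 5) (nat_lit 365) (nat_lit 289) (nat_lit 246))) (XT.nd (nat_lit 78) (nat_lit 608) (nat_lit 0) (XT.lf (nat_lit 0) (nat_lit 4814627343) (nat_lit 228) (nat_lit 6602052341) (nat_lit 304) (nat_lit 1387901594) (nat_lit 74) (nat_lit 5) (nat_lit 77) (nat_lit 5) (nat_lit 78) (nat_lit 5) (nat_lit 366) (nat_lit 289) (nat_lit 245)) (XT.nd (nat_lit 78) (nat_lit 228) (nat_lit 0) (XT.lf (nat_lit 0) (nat_lit 3120381333) (nat_lit 304) (nat_lit 712881958) (nat_lit 380) (nat_lit 9214393418) (nat_lit 69) (nat_lit 5) (nat_lit 73) (nat_lit 5) (nat_lit 74) (nat_lit 5) (nat_lit 367) (nat_lit 289) (nat_lit 244)) (XT.lf (nat_lit 0) (nat_lit 1231025089) (nat_lit 228) (nat_lit 7986397834) (nat_lit 304) (nat_lit 4079934123) (nat_lit 66) (nat_lit 5) (nat_lit 69) (nat_lit 5) (nat_lit 70) (nat_lit 5) (nat_lit 368)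 (nat_lit 289) (nat_lit 243))))) (XT.nd (nat_lit 156) (nat_lit 760) (nat_lit 0) (XT.nd (nat_lit 78) (nat_lit 228) (nat_lit 0) (XT.lf (nat_lit 0) (nat_lit 1193915854) (nat_lit 304) (nat_lit 822545353) (nat_lit 76) (nat_lit 11537925559) (nat_lit 65) (nat_lit 5) (nat_lit 69) (nat_lit 5) (nat_lit 66) (nat_lit 5) (nat_lit 369) (nat_lit 289) (nat_lit 242)) (XT.lf (nat_lit 0) (nat_lit 6598716406) (nat_lit 304) (nat_lit 3086252760) (nat_lit 76) (nat_lit 4133074431) (nat_lit 62) (nat_lit 5) (nat_lit 66) (nat_lit 5) (nat_lit 63) (nat_lit 5) (nat_lit 370) (nat_lit 289) (nat_lit 241))) (XT.nd (nat_lit 78) (nat_lit 532) (nat_lit 0) (XT.lf (nat_lit 0) (nat_lit 8540887802) (nat_lit 228) (nat_lit 3631136845) (nat_lit 304) (nat_lit 1917476552) (nat_lit 59) (nat_lit 5) (nat_lit 62) (nat_lit 5) (nat_lit 63) (nat_lit 5) (nat_lit 371) (nat_lit 289) (nat_lit 240)) (XT.nd (nat_lit 78) (nat_lit 228) (nat_lit 0) (XT.lf (nat_lit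 0) (nat_lit 3507655032) (nat_lit 304) (nat_lit 8249446119) (nat_lit 76) (nat_lit 2611344747) (nat_lit 55) (nat_lit 5) (nat_lit 59) (nat_lit 5) (nat_lit 56) (nat_lit 5) (nat_lit 372) (nat_lit 289) (nat_lit 239)) (XT.lf (nat_lit 0) (nat_lit 3455072575) (nat_lit 228) (nat_lit 5632724213) (nat_lit 304) (nat_lit 5567359465) (nat_lit 52) (nat_lit 5) (nat_lit 55) (nat_lit 5) (nat_lit 56) (nat_lit 5) (nat_lit 373) (nat_lit 289) (nat_lit 238))))))))
noncomputable def xc29 : XT := (XT.nd (nat_lit 43134) (nat_lit 0) (nat_lit 11780) (XT.nd (nat_lit 702) (nat_lit 456) (nat_lit 0) (XT.nd (nat_lit 312) (nat_lit 836) (nat_lit 0) (XT.nd (nat_lit 156) (nat_lit 456) (nat_lit 0) (XT.nd (nat_lit 78) (nat_lit 76) (nat_lit 0) (XT.lf (nat_lit 0) (nat_lit 567264926) (nat_lit 228) (nat_lit 14266958010) (nat_lit 304) (nat_lit 116283834) (nat_lit 49) (nat_lit 5) (nat_lit 52) (nat_lit 5) (nat_lit 53) (nat_lit 5) (nat_lit 374)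 (nat_lit 289) (nat_lit 237)) (XT.lf (nat_lit 0) (nat_lit 5475584479) (nat_lit 304) (nat_lit 2594938964) (nat_lit 76) (nat_lit 7182508609) (nat_lit 48) (nat_lit 5) (nat_lit 52) (nat_lit 5) (nat_lit 49) (nat_lit 5) (nat_lit 375) (nat_lit 289) (nat_lit 236))) (XT.nd (nat_lit 78) (nat_lit 304) (nat_lit 0) (XT.lf (nat_lit 0) (nat_lit 9566053480) (nat_lit 152) (nat_lit 1666883474) (nat_lit 228) (nat_lit 4331709814) (nat_lit 46) (nat_lit 5) (nat_lit 48) (nat_lit 5) (nat_lit 49) (nat_lit 5) (nat_lit 376) (nat_lit 289) (nat_lit 235)) (XT.lf (nat_lit 0) (nat_lit 1288754451) (nat_lit 304) (nat_lit 9707293202) (nat_lit 76) (nat_lit 4888848719) (nat_lit 42) (nat_lit 5) (nat_lit 46) (nat_lit 5) (nat_lit 43) (nat_lit 5) (nat_lit 377) (nat_lit 289) (nat_lit 234)))) (XT.nd (nat_lit 156) (nat_lit 684) (nat_lit 0) (XT.nd (nat_lit 78) (nat_lit 0) (nat_lit 0) (XT.lf (nat_lit 0) (nat_lit 2475306855) (nat_lit 152) (nat_lit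 4550933328) (nat_lit 228) (nat_lit 9187809511) (nat_lit 40) (nat_lit 5) (nat_lit 42) (nat_lit 5) (nat_lit 43) (nat_lit 5) (nat_lit 378) (nat_lit 289) (nat_lit 233)) (XT.lf (nat_lit 0) (nat_lit 12955250566) (nat_lit 228) (nat_lit 1512772474) (nat_lit 76) (nat_lit 2084680218) (nat_lit 40) (nat_lit 5) (nat_lit 43) (nat_lit 5) (nat_lit 41) (nat_lit 5) (nat_lit 379) (nat_lit 289) (nat_lit 232))) (XT.nd (nat_lit 78) (nat_lit 380) (nat_lit 0) (XT.lf (nat_lit 0) (nat_lit 2176413562) (nat_lit 304) (nat_lit 5820190949) (nat_lit 76) (nat_lit 8903761629) (nat_lit 36) (nat_lit 5) (nat_lit 40) (nat_lit 5) (nat_lit 37) (nat_lit 5) (nat_lit 380) (nat_lit 289) (nat_lit 231)) (XT.nd (nat_lit 78) (nat_lit 228) (nat_lit 0) (XT.lf (nat_lit 0) (nat_lit 6778714256) (nat_lit 152) (nat_lit 1292577971) (nat_lit 228) (nat_lit 9186770273) (nat_lit 34) (nat_lit 5) (nat_lit 36) (nat_lit 5) (nat_lit 37) (nat_lit 5) (nat_lit 381)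 (nat_lit 289) (nat_lit 230)) (XT.lf (nat_lit 0) (nat_lit 2101716316) (nat_lit 228) (nat_lit 12073936791) (nat_lit 304) (nat_lit 3450196168) (nat_lit 31) (nat_lit 5) (nat_lit 34) (nat_lit 5) (nat_lit 35) (nat_lit 5) (nat_lit 382) (nat_lit 289) (nat_lit 229)))))) (XT.nd (nat_lit 42042) (nat_lit 0) (nat_lit 29260) (XT.nd (nat_lit 156) (nat_lit 228) (nat_lit 0) (XT.nd (nat_lit 78) (nat_lit 152) (nat_lit 0) (XT.lf (nat_lit 0) (nat_lit 2449857262) (nat_lit 304) (nat_lit 2922530938) (nat_lit 76) (nat_lit 12631501355) (nat_lit 30) (nat_lit 5) (nat_lit 34) (nat_lit 5) (nat_lit 31) (nat_lit 5) (nat_lit 383) (nat_lit 289) (nat_lit 228)) (XT.lf (nat_lit 0) (nat_lit 8501098876) (nat_lit 228) (nat_lit 8331750364) (nat_lit 76) (nat_lit 1559555773) (nat_lit 28) (nat_lit 5) (nat_lit 31) (nat_lit 5) (nat_lit 29) (nat_lit 5) (nat_lit 384) (nat_lit 289) (nat_lit 227))) (XT.nd (nat_lit 78) (nat_lit 76) (nat_lit 0) (XT.lf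 (nat_lit 0) (nat_lit 4611278777) (nat_lit 152) (nat_lit 10154280221) (nat_lit 228) (nat_lit 4026394295) (nat_lit 26) (nat_lit 5) (nat_lit 28) (nat_lit 5) (nat_lit 29) (nat_lit 5) (nat_lit 385) (nat_lit 289) (nat_lit 226)) (XT.nd (nat_lit 41730) (nat_lit 0) (nat_lit 35416) (XT.lf (nat_lit 0) (nat_lit 1991367917) (nat_lit 228) (nat_lit 1252658831) (nat_lit 76) (nat_lit 15959143681) (nat_lit 25) (nat_lit 5) (nat_lit 28) (nat_lit 5) (nat_lit 26) (nat_lit 5) (nat_lit 386) (nat_lit 289) (nat_lit 225)) (XT.lf (nat_lit 0) (nat_lit 82640498) (nat_lit 1292) (nat_lit 1680717268) (nat_lit 1292) (nat_lit 1680717268) (nat_lit 491) (nat_lit 4) (nat_lit 508) (nat_lit 5) (nat_lit 508) (nat_lit 4) (nat_lit 320) (nat_lit 290) (nat_lit 290))))) (XT.nd (nat_lit 156) (nat_lit 3268) (nat_lit 0) (XT.nd (nat_lit 78) (nat_lit 1444) (nat_lit 0) (XT.lf (nat_lit 0) (nat_lit 67134713) (nat_lit 1368) (nat_lit 1361315833) (nat_lit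 1444) (nat_lit 5506532798) (nat_lit 472) (nat_lit 5) (nat_lit 490) (nat_lit 5) (nat_lit 491) (nat_lit 4) (nat_lit 321) (nat_lit 290) (nat_lit 289)) (XT.lf (nat_lit 0) (nat_lit 4010854) (nat_lit 1444) (nat_lit 6213271146) (nat_lit 1444) (nat_lit 767601203) (nat_lit 453) (nat_lit 4) (nat_lit 472) (nat_lit 5) (nat_lit 472) (nat_lit 4) (nat_lit 322) (nat_lit 290) (nat_lit 288))) (XT.nd (nat_lit 78) (nat_lit 3192) (nat_lit 0) (XT.lf (nat_lit 0) (nat_lit 3968121263) (nat_lit 1520) (nat_lit 34527157) (nat_lit 76) (nat_lit 3035044396) (nat_lit 452) (nat_lit 5) (nat_lit 472) (nat_lit 5) (nat_lit 453) (nat_lit 4) (nat_lit 323) (nat_lit 290) (nat_lit 287)) (XT.nd (nat_lit 78) (nat_lit 1596) (nat_lit 0) (XT.lf (nat_lit 0) (nat_lit 1622773511) (nat_lit 1596) (nat_lit 31923780) (nat_lit 76) (nat_lit 5439131435) (nat_lit 431) (nat_lit 5) (nat_lit 452) (nat_lit 5) (nat_lit 432) (nat_lit 5) (nat_lit 324) (nat_lit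 290) (nat_lit 286)) (XT.lf (nat_lit 0) (nat_lit 6325762897) (nat_lit 1672) (nat_lit 87906) (nat_lit 76) (nat_lit 827269935) (nat_lit 410) (nat_lit 5) (nat_lit 432) (nat_lit 5) (nat_lit 411) (nat_lit 4) (nat_lit 325) (nat_lit 290) (nat_lit 285))))))) (XT.nd (nat_lit 780) (nat_lit 6384) (nat_lit 0) (XT.nd (nat_lit 390) (nat_lit 3876) (nat_lit 0) (XT.nd (nat_lit 156) (nat_lit 2736) (nat_lit 0) (XT.nd (nat_lit 78) (nat_lit 988) (nat_lit 0) (XT.lf (nat_lit 0) (nat_lit 48379704) (nat_lit 1748) (nat_lit 3776140892) (nat_lit 1824) (nat_lit 3390846380) (nat_lit 364) (nat_lit 5) (nat_lit 387) (nat_lit 5) (nat_lit 388) (nat_lit 5) (nat_lit 326) (nat_lit 290) (nat_lit 284)) (XT.lf (nat_lit 0) (nat_lit 133796186) (nat_lit 912) (nat_lit 1086568097) (nat_lit 988) (nat_lit 6060685876) (nat_lit 351) (nat_lit 5) (nat_lit 363) (nat_lit 5) (nat_lit 364) (nat_lit 5) (nat_lit 327) (nat_lit 290) (nat_lit 283))) (XT.nd (nat_lit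 78) (nat_lit 1824) (nat_lit 0) (XT.lf (nat_lit 0) (nat_lit 233643542) (nat_lit 912) (nat_lit 5617604967) (nat_lit 988) (nat_lit 1498555148) (nat_lit 339) (nat_lit 5) (nat_lit 351) (nat_lit 5) (nat_lit 352) (nat_lit 5) (nat_lit 328) (nat_lit 290) (nat_lit 282)) (XT.nd (nat_lit 78) (nat_lit 912) (nat_lit 0) (XT.lf (nat_lit 0) (nat_lit 351341234) (nat_lit 836) (nat_lit 2733288001) (nat_lit 912) (nat_lit 4337143227) (nat_lit 327) (nat_lit 5) (nat_lit 338) (nat_lit 5) (nat_lit 339) (nat_lit 5) (nat_lit 329) (nat_lit 290) (nat_lit 281)) (XT.lf (nat_lit 0) (nat_lit 209088525) (nat_lit 912) (nat_lit 6998077933) (nat_lit 76) (nat_lit 290112673) (nat_lit 315) (nat_lit 5) (nat_lit 327) (nat_lit 5) (nat_lit 316) (nat_lit 5) (nat_lit 330) (nat_lit 290) (nat_lit 280))))) (XT.nd (nat_lit 156) (nat_lit 2280) (nat_lit 0) (XT.nd (nat_lit 78) (nat_lit 836) (nat_lit 0) (XT.lf (nat_lit 0) (nat_lit 640479633) (nat_lit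 760) (nat_lit 4136030789) (nat_lit 836) (nat_lit 2799177268) (nat_lit 305) (nat_lit 5) (nat_lit 315) (nat_lit 5) (nat_lit 316) (nat_lit 5) (nat_lit 331) (nat_lit 290) (nat_lit 279)) (XT.lf (nat_lit 0) (nat_lit 808504876) (nat_lit 760) (nat_lit 919697956) (nat_lit 836) (nat_lit 5929536800) (nat_lit 294) (nat_lit 5) (nat_lit 304) (nat_lit 5) (nat_lit 305) (nat_lit 5) (nat_lit 332) (nat_lit 290) (nat_lit 278))) (XT.nd (nat_lit 78) (nat_lit 1520) (nat_lit 0) (XT.lf (nat_lit 0) (nat_lit 977782078) (nat_lit 760) (nat_lit 5322321139) (nat_lit 836) (nat_lit 1442923488) (nat_lit 284) (nat_lit 5) (nat_lit 294) (nat_lit 5) (nat_lit 295) (nat_lit 5) (nat_lit 333) (nat_lit 290) (nat_lit 277)) (XT.nd (nat_lit 78) (nat_lit 684) (nat_lit 0) (XT.lf (nat_lit 0) (nat_lit 1153401122) (nat_lit 760) (nat_lit 1922699924) (nat_lit 836) (nat_lit 4755643134) (nat_lit 273) (nat_lit 5) (nat_lit 283) (nat_lit 5) (nat_lit 284)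 (nat_lit 5) (nat_lit 334) (nat_lit 290) (nat_lit 276)) (XT.lf (nat_lit 0) (nat_lit 1339229399) (nat_lit 684) (nat_lit 6318730443) (nat_lit 760) (nat_lit 266107504) (nat_lit 264) (nat_lit 5) (nat_lit 273) (nat_lit 5) (nat_lit 274) (nat_lit 5) (nat_lit 335) (nat_lit 290) (nat_lit 275)))))) (XT.nd (nat_lit 390) (nat_lit 2964) (nat_lit 0) (XT.nd (nat_lit 156) (nat_lit 1976) (nat_lit 0) (XT.nd (nat_lit 78) (nat_lit 684) (nat_lit 0) (XT.lf (nat_lit 0) (nat_lit 1511344762) (nat_lit 684) (nat_lit 2741227241) (nat_lit 760) (nat_lit 3767058766) (nat_lit 254) (nat_lit 5) (nat_lit 263) (nat_lit 5) (nat_lit 264) (nat_lit 5) (nat_lit 336) (nat_lit 290) (nat_lit 274)) (XT.lf (nat_lit 0) (nat_lit 722333676) (nat_lit 684) (nat_lit 6423906481) (nat_lit 76) (nat_lit 972800061) (nat_lit 245) (nat_lit 5) (nat_lit 254) (nat_lit 5) (nat_lit 246) (nat_lit 5) (nat_lit 337) (nat_lit 290) (nat_lit 273))) (XT.nd (nat_lit 78)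 (nat_lit 1292) (nat_lit 0) (XT.lf (nat_lit 0) (nat_lit 1856909756) (nat_lit 684) (nat_lit 3400808172) (nat_lit 760) (nat_lit 2964029791) (nat_lit 236) (nat_lit 5) (nat_lit 245) (nat_lit 5) (nat_lit 246) (nat_lit 5) (nat_lit 338) (nat_lit 290) (nat_lit 272)) (XT.nd (nat_lit 78) (nat_lit 608) (nat_lit 0) (XT.lf (nat_lit 0) (nat_lit 1529882186) (nat_lit 684) (nat_lit 6304539019) (nat_lit 76) (nat_lit 493982554) (nat_lit 227) (nat_lit 5) (nat_lit 236) (nat_lit 5) (nat_lit 228) (nat_lit 5) (nat_lit 339) (nat_lit 290) (nat_lit 271)) (XT.lf (nat_lit 0) (nat_lit 2163484898) (nat_lit 608) (nat_lit 3926520259) (nat_lit 684) (nat_lit 2348487956) (nat_lit 219) (nat_lit 5) (nat_lit 227) (nat_lit 5) (nat_lit 228) (nat_lit 5) (nat_lit 340) (nat_lit 290) (nat_lit 270))))) (XT.nd (nat_lit 156) (nat_lit 1748) (nat_lit 0) (XT.nd (nat_lit 78) (nat_lit 608) (nat_lit 0) (XT.lf (nat_lit 0) (nat_lit 2157381804) (nat_lit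 608) (nat_lit 6252644285) (nat_lit 76) (nat_lit 142591781) (nat_lit 211) (nat_lit 5) (nat_lit 219) (nat_lit 5) (nat_lit 212) (nat_lit 5) (nat_lit 341) (nat_lit 290) (nat_lit 269)) (XT.lf (nat_lit 0) (nat_lit 2403007289) (nat_lit 608) (nat_lit 4343202127) (nat_lit 684) (nat_lit 1924106995) (nat_lit 203) (nat_lit 5) (nat_lit 211) (nat_lit 5) (nat_lit 212) (nat_lit 5) (nat_lit 342) (nat_lit 290) (nat_lit 268))) (XT.nd (nat_lit 78) (nat_lit 1140) (nat_lit 0) (XT.lf (nat_lit 0) (nat_lit 2493953153) (nat_lit 532) (nat_lit 107191524) (nat_lit 608) (nat_lit 6191001691) (nat_lit 195) (nat_lit 5) (nat_lit 202) (nat_lit 5) (nat_lit 203) (nat_lit 5) (nat_lit 343) (nat_lit 290) (nat_lit 267)) (XT.nd (nat_lit 78) (nat_lit 608) (nat_lit 0) (XT.lf (nat_lit 0) (nat_lit 2545677937) (nat_lit 532) (nat_lit 4675668321) (nat_lit 608) (nat_lit 1696374096) (nat_lit 188) (nat_lit 5) (nat_lit 195) (nat_lit 5) (nat_lit 196)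 (nat_lit 5) (nat_lit 344) (nat_lit 290) (nat_lit 266)) (XT.lf (nat_lit 0) (nat_lit 2575406786) (nat_lit 532) (nat_lit 279289612) (nat_lit 608) (nat_lit 6192830597) (nat_lit 180) (nat_lit 5) (nat_lit 187) (nat_lit 5) (nat_lit 188) (nat_lit 5) (nat_lit 345) (nat_lit 290) (nat_lit 265))))))))
noncomputable def xc30 : XT := (XT.nd (nat_lit 1482) (nat_lit 4104) (nat_lit 0) (XT.nd (nat_lit 702) (nat_lit 3192) (nat_lit 0) (XT.nd (nat_lit 312) (nat_lit 2204) (nat_lit 0) (XT.nd (nat_lit 156) (nat_lit 988) (nat_lit 0) (XT.nd (nat_lit 78) (nat_lit 532) (nat_lit 0) (XT.lf (nat_lit 0) (nat_lit 2559656834) (nat_lit 532) (nat_lit 4948928996) (nat_lit 608) (nat_lit 1672677422) (nat_lit 173) (nat_lit 5) (nat_lit 180) (nat_lit 5) (nat_lit 181) (nat_lit 5) (nat_lit 346) (nat_lit 290) (nat_lit 264)) (XT.lf (nat_lit 0) (nat_lit 2512253873) (nat_lit 456) (nat_lit 396897190) (nat_lit 532) (nat_lit 6410213409) (nat_lit 166)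 (nat_lit 5) (nat_lit 172) (nat_lit 5) (nat_lit 173) (nat_lit 5) (nat_lit 347) (nat_lit 290) (nat_lit 263))) (XT.nd (nat_lit 78) (nat_lit 532) (nat_lit 0) (XT.lf (nat_lit 0) (nat_lit 2410734664) (nat_lit 456) (nat_lit 5188416279) (nat_lit 532) (nat_lit 1862410664) (nat_lit 160) (nat_lit 5) (nat_lit 166) (nat_lit 5) (nat_lit 167) (nat_lit 5) (nat_lit 348) (nat_lit 290) (nat_lit 262)) (XT.lf (nat_lit 0) (nat_lit 2268918882) (nat_lit 456) (nat_lit 485622424) (nat_lit 532) (nat_lit 6853763225) (nat_lit 153) (nat_lit 5) (nat_lit 159) (nat_lit 5) (nat_lit 160) (nat_lit 5) (nat_lit 349) (nat_lit 290) (nat_lit 261)))) (XT.nd (nat_lit 156) (nat_lit 1292) (nat_lit 0) (XT.nd (nat_lit 78) (nat_lit 456) (nat_lit 0) (XT.lf (nat_lit 0) (nat_lit 2061978027) (nat_lit 456) (nat_lit 5420219287) (nat_lit 532) (nat_lit 2277095840) (nat_lit 147) (nat_lit 5) (nat_lit 153) (nat_lit 5) (nat_lit 154) (nat_lit 5) (nat_lit 350)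 (nat_lit 290) (nat_lit 260)) (XT.lf (nat_lit 0) (nat_lit 1806918603) (nat_lit 380) (nat_lit 571832446) (nat_lit 456) (nat_lit 7536304842) (nat_lit 141) (nat_lit 5) (nat_lit 146) (nat_lit 5) (nat_lit 147) (nat_lit 5) (nat_lit 351) (nat_lit 290) (nat_lit 259))) (XT.nd (nat_lit 78) (nat_lit 836) (nat_lit 0) (XT.lf (nat_lit 0) (nat_lit 1473344803) (nat_lit 456) (nat_lit 5671329840) (nat_lit 532) (nat_lit 2930525658) (nat_lit 135) (nat_lit 5) (nat_lit 141) (nat_lit 5) (nat_lit 142) (nat_lit 5) (nat_lit 352) (nat_lit 290) (nat_lit 258)) (XT.nd (nat_lit 78) (nat_lit 380) (nat_lit 0) (XT.lf (nat_lit 0) (nat_lit 1084460897) (nat_lit 380) (nat_lit 682905552) (nat_lit 456) (nat_lit 8473027477) (nat_lit 129) (nat_lit 5) (nat_lit 134) (nat_lit 5) (nat_lit 135) (nat_lit 5) (nat_lit 353) (nat_lit 290) (nat_lit 257)) (XT.lf (nat_lit 0) (nat_lit 601265983) (nat_lit 380) (nat_lit 5969901067) (nat_lit 456) (nat_lit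 3838926982) (nat_lit 124) (nat_lit 5) (nat_lit 129) (nat_lit 5) (nat_lit 130) (nat_lit 5) (nat_lit 354) (nat_lit 290) (nat_lit 256)))))) (XT.nd (nat_lit 390) (nat_lit 1596) (nat_lit 0) (XT.nd (nat_lit 156) (nat_lit 1140) (nat_lit 0) (XT.nd (nat_lit 78) (nat_lit 0) (nat_lit 0) (XT.lf (nat_lit 0) (nat_lit 56007965) (nat_lit 380) (nat_lit 847497357) (nat_lit 456) (nat_lit 9681659471) (nat_lit 118) (nat_lit 5) (nat_lit 123) (nat_lit 5) (nat_lit 124) (nat_lit 5) (nat_lit 355) (nat_lit 290) (nat_lit 255)) (XT.lf (nat_lit 0) (nat_lit 5747618506) (nat_lit 456) (nat_lit 593917219) (nat_lit 76) (nat_lit 4423244410) (nat_lit 118) (nat_lit 5) (nat_lit 124) (nat_lit 5) (nat_lit 119) (nat_lit 5) (nat_lit 356) (nat_lit 290) (nat_lit 254))) (XT.nd (nat_lit 78) (nat_lit 760) (nat_lit 0) (XT.lf (nat_lit 0) (nat_lit 9637835600) (nat_lit 380) (nat_lit 1085525798) (nat_lit 456) (nat_lit 226726746) (nat_lit 113) (nat_lit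 5) (nat_lit 118) (nat_lit 5) (nat_lit 119) (nat_lit 5) (nat_lit 357) (nat_lit 290) (nat_lit 253)) (XT.nd (nat_lit 78) (nat_lit 380) (nat_lit 0) (XT.lf (nat_lit 0) (nat_lit 4655795340) (nat_lit 380) (nat_lit 2159220387) (nat_lit 76) (nat_lit 4325155008) (nat_lit 108) (nat_lit 5) (nat_lit 113) (nat_lit 5) (nat_lit 109) (nat_lit 5) (nat_lit 358) (nat_lit 290) (nat_lit 252)) (XT.lf (nat_lit 0) (nat_lit 8243633274) (nat_lit 380) (nat_lit 1428258811) (nat_lit 456) (nat_lit 1664258187) (nat_lit 103) (nat_lit 5) (nat_lit 108) (nat_lit 5) (nat_lit 109) (nat_lit 5) (nat_lit 359) (nat_lit 290) (nat_lit 251))))) (XT.nd (nat_lit 156) (nat_lit 912) (nat_lit 0) (XT.nd (nat_lit 78) (nat_lit 304) (nat_lit 0) (XT.lf (nat_lit 0) (nat_lit 3268461005) (nat_lit 380) (nat_lit 4158837648) (nat_lit 76) (nat_lit 4110082956) (nat_lit 98) (nat_lit 5) (nat_lit 103) (nat_lit 5) (nat_lit 99) (nat_lit 5) (nat_lit 360) (nat_lit 290)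 (nat_lit 250)) (XT.lf (nat_lit 0) (nat_lit 6405779932) (nat_lit 304) (nat_lit 1915824348) (nat_lit 380) (nat_lit 3422950431) (nat_lit 94) (nat_lit 5) (nat_lit 98) (nat_lit 5) (nat_lit 99) (nat_lit 5) (nat_lit 361) (nat_lit 290) (nat_lit 249))) (XT.nd (nat_lit 78) (nat_lit 532) (nat_lit 0) (XT.lf (nat_lit 0) (nat_lit 1559071850) (nat_lit 380) (nat_lit 6654625010) (nat_lit 76) (nat_lit 3743842282) (nat_lit 89) (nat_lit 5) (nat_lit 94) (nat_lit 5) (nat_lit 90) (nat_lit 5) (nat_lit 362) (nat_lit 290) (nat_lit 248)) (XT.nd (nat_lit 78) (nat_lit 228) (nat_lit 0) (XT.lf (nat_lit 0) (nat_lit 4060365966) (nat_lit 304) (nat_lit 2584389718) (nat_lit 380) (nat_lit 5531714738) (nat_lit 85) (nat_lit 5) (nat_lit 89) (nat_lit 5) (nat_lit 90) (nat_lit 5) (nat_lit 363) (nat_lit 290) (nat_lit 247)) (XT.lf (nat_lit 0) (nat_lit 2683861693) (nat_lit 228) (nat_lit 9208845300) (nat_lit 304) (nat_lit 509091950) (nat_lit 82)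 (nat_lit 5) (nat_lit 85) (nat_lit 5) (nat_lit 86) (nat_lit 5) (nat_lit 364) (nat_lit 290) (nat_lit 246))))))) (XT.nd (nat_lit 780) (nat_lit 1824) (nat_lit 0) (XT.nd (nat_lit 390) (nat_lit 1064) (nat_lit 0) (XT.nd (nat_lit 156) (nat_lit 836) (nat_lit 0) (XT.nd (nat_lit 78) (nat_lit 0) (nat_lit 0) (XT.lf (nat_lit 0) (nat_lit 1137019361) (nat_lit 304) (nat_lit 3472962649) (nat_lit 380) (nat_lit 8023182878) (nat_lit 77) (nat_lit 5) (nat_lit 81) (nat_lit 5) (nat_lit 82) (nat_lit 5) (nat_lit 365) (nat_lit 290) (nat_lit 245)) (XT.lf (nat_lit 0) (nat_lit 9885877277) (nat_lit 380) (nat_lit 554551991) (nat_lit 76) (nat_lit 2430793406) (nat_lit 77) (nat_lit 5) (nat_lit 82) (nat_lit 5) (nat_lit 78) (nat_lit 5) (nat_lit 366) (nat_lit 290) (nat_lit 244))) (XT.nd (nat_lit 78) (nat_lit 532) (nat_lit 0) (XT.lf (nat_lit 0) (nat_lit 2197813353) (nat_lit 304) (nat_lit 2409807418) (nat_lit 76) (nat_lit 8508073975) (nat_lit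 73) (nat_lit 5) (nat_lit 77) (nat_lit 5) (nat_lit 74) (nat_lit 5) (nat_lit 367) (nat_lit 290) (nat_lit 243)) (XT.nd (nat_lit 78) (nat_lit 228) (nat_lit 0) (XT.lf (nat_lit 0) (nat_lit 7498232162) (nat_lit 380) (nat_lit 4446338557) (nat_lit 76) (nat_lit 1422508957) (nat_lit 69) (nat_lit 5) (nat_lit 74) (nat_lit 5) (nat_lit 70) (nat_lit 5) (nat_lit 368) (nat_lit 290) (nat_lit 242)) (XT.lf (nat_lit 0) (nat_lit 6948267474) (nat_lit 228) (nat_lit 6033760749) (nat_lit 304) (nat_lit 643509906) (nat_lit 66) (nat_lit 5) (nat_lit 69) (nat_lit 5) (nat_lit 70) (nat_lit 5) (nat_lit 369) (nat_lit 290) (nat_lit 241))))) (XT.nd (nat_lit 156) (nat_lit 532) (nat_lit 0) (XT.nd (nat_lit 78) (nat_lit 228) (nat_lit 0) (XT.lf (nat_lit 0) (nat_lit 4671285663) (nat_lit 304) (nat_lit 9115422945) (nat_lit 76) (nat_lit 104547843) (nat_lit 62) (nat_lit 5) (nat_lit 66) (nat_lit 5) (nat_lit 63) (nat_lit 5) (nat_lit 370) (nat_lit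 290) (nat_lit 240)) (XT.lf (nat_lit 0) (nat_lit 2377256114) (nat_lit 228) (nat_lit 7794708976) (nat_lit 304) (nat_lit 3992210311) (nat_lit 59) (nat_lit 5) (nat_lit 62) (nat_lit 5) (nat_lit 63) (nat_lit 5) (nat_lit 371) (nat_lit 290) (nat_lit 239))) (XT.nd (nat_lit 78) (nat_lit 456) (nat_lit 0) (XT.lf (nat_lit 0) (nat_lit 1370886028) (nat_lit 304) (nat_lit 221984626) (nat_lit 76) (nat_lit 12852312121) (nat_lit 58) (nat_lit 5) (nat_lit 62) (nat_lit 5) (nat_lit 59) (nat_lit 5) (nat_lit 372) (nat_lit 290) (nat_lit 238)) (XT.nd (nat_lit 78) (nat_lit 228) (nat_lit 0) (XT.lf (nat_lit 0) (nat_lit 6885023998) (nat_lit 304) (nat_lit 3053424404) (nat_lit 76) (nat_lit 4794772909) (nat_lit 55) (nat_lit 5) (nat_lit 59) (nat_lit 5) (nat_lit 56) (nat_lit 5) (nat_lit 373) (nat_lit 290) (nat_lit 237)) (XT.lf (nat_lit 0) (nat_lit 8913915448) (nat_lit 228) (nat_lit 3658118980) (nat_lit 304) (nat_lit 2457733585) (nat_lit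 52) (nat_lit 5) (nat_lit 55) (nat_lit 5) (nat_lit 56) (nat_lit 5) (nat_lit 374) (nat_lit 290) (nat_lit 236)))))) (XT.nd (nat_lit 390) (nat_lit 912) (nat_lit 0) (XT.nd (nat_lit 156) (nat_lit 456) (nat_lit 0) (XT.nd (nat_lit 78) (nat_lit 152) (nat_lit 0) (XT.lf (nat_lit 0) (nat_lit 3069648999) (nat_lit 304) (nat_lit 9452219825) (nat_lit 76) (nat_lit 2812639893) (nat_lit 48) (nat_lit 5) (nat_lit 52) (nat_lit 5) (nat_lit 49) (nat_lit 5) (nat_lit 375) (nat_lit 290) (nat_lit 235)) (XT.lf (nat_lit 0) (nat_lit 2566446677) (nat_lit 152) (nat_lit 6185068909) (nat_lit 228) (nat_lit 6896124838) (nat_lit 46) (nat_lit 5) (nat_lit 48) (nat_lit 5) (nat_lit 49) (nat_lit 5) (nat_lit 376) (nat_lit 290) (nat_lit 234))) (XT.nd (nat_lit 78) (nat_lit 456) (nat_lit 0) (XT.lf (nat_lit 0) (nat_lit 14610406755) (nat_lit 228) (nat_lit 998318491) (nat_lit 76) (nat_lit 361323797) (nat_lit 46) (nat_lit 5) (nat_lit 49) (nat_lit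 5) (nat_lit 47) (nat_lit 5) (nat_lit 377) (nat_lit 290) (nat_lit 233)) (XT.nd (nat_lit 78) (nat_lit 152) (nat_lit 0) (XT.lf (nat_lit 0) (nat_lit 4343716745) (nat_lit 304) (nat_lit 4872511368) (nat_lit 76) (nat_lit 7084196701) (nat_lit 42) (nat_lit 5) (nat_lit 46) (nat_lit 5) (nat_lit 43) (nat_lit 5) (nat_lit 378) (nat_lit 290) (nat_lit 232)) (XT.lf (nat_lit 0) (nat_lit 7592403420) (nat_lit 152) (nat_lit 2605811686) (nat_lit 228) (nat_lit 6442360038) (nat_lit 40) (nat_lit 5) (nat_lit 42) (nat_lit 5) (nat_lit 43) (nat_lit 5) (nat_lit 379) (nat_lit 290) (nat_lit 231))))) (XT.nd (nat_lit 156) (nat_lit 608) (nat_lit 0) (XT.nd (nat_lit 78) (nat_lit 76) (nat_lit 0) (XT.lf (nat_lit 0) (nat_lit 3427788717) (nat_lit 228) (nat_lit 12826436170) (nat_lit 304) (nat_lit 736200426) (nat_lit 37) (nat_lit 5) (nat_lit 40) (nat_lit 5) (nat_lit 41) (nat_lit 5) (nat_lit 380) (nat_lit 290) (nat_lit 230)) (XT.lf (nat_lit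 0) (nat_lit 5096612264) (nat_lit 304) (nat_lit 1095408569) (nat_lit 76) (nat_lit 11157636895) (nat_lit 36) (nat_lit 5) (nat_lit 40) (nat_lit 5) (nat_lit 37) (nat_lit 5) (nat_lit 381) (nat_lit 290) (nat_lit 229))) (XT.nd (nat_lit 78) (nat_lit 456) (nat_lit 0) (XT.lf (nat_lit 0) (nat_lit 11120929386) (nat_lit 228) (nat_lit 5921613917) (nat_lit 76) (nat_lit 676507931) (nat_lit 34) (nat_lit 5) (nat_lit 37) (nat_lit 5) (nat_lit 35) (nat_lit 5) (nat_lit 382) (nat_lit 290) (nat_lit 228)) (XT.nd (nat_lit 78) (nat_lit 228) (nat_lit 0) (XT.lf (nat_lit 0) (nat_lit 6949334504) (nat_lit 228) (nat_lit 10416771643) (nat_lit 304) (nat_lit 732629330) (nat_lit 31) (nat_lit 5) (nat_lit 34) (nat_lit 5) (nat_lit 35) (nat_lit 5) (nat_lit 383) (nat_lit 290) (nat_lit 227)) (XT.lf (nat_lit 0) (nat_lit 1693695280) (nat_lit 152) (nat_lit 3543638610) (nat_lit 228) (nat_lit 13251835331) (nat_lit 28) (nat_lit 5) (nat_lit 30) (nat_lit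 5) (nat_lit 31) (nat_lit 5) (nat_lit 384) (nat_lit 290) (nat_lit 226))))))))
noncomputable def xc31 : XT := (XT.nd (nat_lit 42978) (nat_lit 0) (nat_lit 7828) (XT.nd (nat_lit 42198) (nat_lit 0) (nat_lit 19532) (XT.nd (nat_lit 41808) (nat_lit 0) (nat_lit 30780) (XT.nd (nat_lit 41652) (nat_lit 0) (nat_lit 36632) (XT.nd (nat_lit 78) (nat_lit 152) (nat_lit 0) (XT.lf (nat_lit 0) (nat_lit 11422962856) (nat_lit 228) (nat_lit 3935015234) (nat_lit 76) (nat_lit 3532321287) (nat_lit 28) (nat_lit 5) (nat_lit 31) (nat_lit 5) (nat_lit 29) (nat_lit 5) (nat_lit 385) (nat_lit 290) (nat_lit 225)) (XT.lf (nat_lit 0) (nat_lit 9320917795) (nat_lit 152) (nat_lit 8506444213) (nat_lit 228) (nat_lit 1475447755) (nat_lit 26) (nat_lit 5) (nat_lit 28) (nat_lit 5) (nat_lit 29) (nat_lit 5) (nat_lit 386) (nat_lit 290) (nat_lit 224))) (XT.nd (nat_lit 78) (nat_lit 1292) (nat_lit 0) (XT.lf (nat_lit 0) (nat_lit 280373634) (nat_lit 1140)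 (nat_lit 1560424147) (nat_lit 1140) (nat_lit 1560424147) (nat_lit 525) (nat_lit 4) (nat_lit 540) (nat_lit 5) (nat_lit 540) (nat_lit 4) (nat_lit 318) (nat_lit 291) (nat_lit 291)) (XT.lf (nat_lit 0) (nat_lit 309717154) (nat_lit 1216) (nat_lit 1309421615) (nat_lit 1292) (nat_lit 5225406576) (nat_lit 508) (nat_lit 5) (nat_lit 524) (nat_lit 5) (nat_lit 525) (nat_lit 4) (nat_lit 319) (nat_lit 291) (nat_lit 290)))) (XT.nd (nat_lit 156) (nat_lit 4484) (nat_lit 0) (XT.nd (nat_lit 78) (nat_lit 76) (nat_lit 0) (XT.lf (nat_lit 0) (nat_lit 98216393) (nat_lit 1292) (nat_lit 6256359685) (nat_lit 1292) (nat_lit 535138842) (nat_lit 491) (nat_lit 4) (nat_lit 508) (nat_lit 5) (nat_lit 508) (nat_lit 4) (nat_lit 320) (nat_lit 291) (nat_lit 289)) (XT.lf (nat_lit 0) (nat_lit 4143859225) (nat_lit 1368) (nat_lit 86873158) (nat_lit 76) (nat_lit 2706986450) (nat_lit 490) (nat_lit 5) (nat_lit 508) (nat_lit 5) (nat_lit 491) (nat_lit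 4) (nat_lit 321) (nat_lit 291) (nat_lit 288))) (XT.nd (nat_lit 78) (nat_lit 3040) (nat_lit 0) (XT.lf (nat_lit 0) (nat_lit 1841648455) (nat_lit 1444) (nat_lit 227558349) (nat_lit 76) (nat_lit 4919775889) (nat_lit 471) (nat_lit 5) (nat_lit 490) (nat_lit 5) (nat_lit 472) (nat_lit 5) (nat_lit 322) (nat_lit 291) (nat_lit 287)) (XT.nd (nat_lit 78) (nat_lit 1596) (nat_lit 0) (XT.lf (nat_lit 0) (nat_lit 6481876373) (nat_lit 1520) (nat_lit 331312010) (nat_lit 76) (nat_lit 230269397) (nat_lit 452) (nat_lit 5) (nat_lit 472) (nat_lit 5) (nat_lit 453) (nat_lit 4) (nat_lit 323) (nat_lit 291) (nat_lit 286)) (XT.lf (nat_lit 0) (nat_lit 4026537637) (nat_lit 1596) (nat_lit 421146739) (nat_lit 76) (nat_lit 2653064186) (nat_lit 431) (nat_lit 5) (nat_lit 452) (nat_lit 5) (nat_lit 432) (nat_lit 5) (nat_lit 324) (nat_lit 291) (nat_lit 285)))))) (XT.nd (nat_lit 390) (nat_lit 4180) (nat_lit 0) (XT.nd (nat_lit 156) (nat_lit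 3724) (nat_lit 0) (XT.nd (nat_lit 78) (nat_lit 1672) (nat_lit 0) (XT.lf (nat_lit 0) (nat_lit 1472574028) (nat_lit 1672) (nat_lit 472449442) (nat_lit 76) (nat_lit 5216391149) (nat_lit 409) (nat_lit 5) (nat_lit 431) (nat_lit 5) (nat_lit 410) (nat_lit 5) (nat_lit 325) (nat_lit 291) (nat_lit 284)) (XT.lf (nat_lit 0) (nat_lit 6030833375) (nat_lit 1748) (nat_lit 498590892) (nat_lit 76) (nat_lit 695834308) (nat_lit 387) (nat_lit 5) (nat_lit 410) (nat_lit 5) (nat_lit 388) (nat_lit 5) (nat_lit 326) (nat_lit 291) (nat_lit 283))) (XT.nd (nat_lit 78) (nat_lit 1900) (nat_lit 0) (XT.lf (nat_lit 0) (nat_lit 3318148724) (nat_lit 1824) (nat_lit 512208743) (nat_lit 76) (nat_lit 3461743072) (nat_lit 363) (nat_lit 5) (nat_lit 387) (nat_lit 5) (nat_lit 364) (nat_lit 5) (nat_lit 327) (nat_lit 291) (nat_lit 282)) (XT.nd (nat_lit 78) (nat_lit 912) (nat_lit 0) (XT.lf (nat_lit 0) (nat_lit 499442130) (nat_lit 988) (nat_lit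 491958877) (nat_lit 76) (nat_lit 6371042218) (nat_lit 350) (nat_lit 5) (nat_lit 363) (nat_lit 5) (nat_lit 351) (nat_lit 5) (nat_lit 328) (nat_lit 291) (nat_lit 281)) (XT.lf (nat_lit 0) (nat_lit 4987800858) (nat_lit 988) (nat_lit 467884972) (nat_lit 76) (nat_lit 1980078839) (nat_lit 338) (nat_lit 5) (nat_lit 351) (nat_lit 5) (nat_lit 339) (nat_lit 5) (nat_lit 329) (nat_lit 291) (nat_lit 280))))) (XT.nd (nat_lit 156) (nat_lit 2432) (nat_lit 0) (XT.nd (nat_lit 78) (nat_lit 836) (nat_lit 0) (XT.lf (nat_lit 0) (nat_lit 2002998941) (nat_lit 912) (nat_lit 423460125) (nat_lit 76) (nat_lit 5086018481) (nat_lit 326) (nat_lit 5) (nat_lit 338) (nat_lit 5) (nat_lit 327) (nat_lit 5) (nat_lit 330) (nat_lit 291) (nat_lit 279)) (XT.lf (nat_lit 0) (nat_lit 6486833515) (nat_lit 912) (nat_lit 362136301) (nat_lit 76) (nat_lit 743628508) (nat_lit 315) (nat_lit 5) (nat_lit 327) (nat_lit 5) (nat_lit 316) (nat_lit 5) (nat_lit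 331) (nat_lit 291) (nat_lit 278))) (XT.nd (nat_lit 78) (nat_lit 1596) (nat_lit 0) (XT.lf (nat_lit 0) (nat_lit 3331803479) (nat_lit 836) (nat_lit 303667439) (nat_lit 76) (nat_lit 4040350023) (nat_lit 304) (nat_lit 5) (nat_lit 315) (nat_lit 5) (nat_lit 305) (nat_lit 5) (nat_lit 332) (nat_lit 291) (nat_lit 277)) (XT.nd (nat_lit 78) (nat_lit 760) (nat_lit 0) (XT.lf (nat_lit 0) (nat_lit 57278463) (nat_lit 836) (nat_lit 220202568) (nat_lit 76) (nat_lit 7485314077) (nat_lit 293) (nat_lit 5) (nat_lit 304) (nat_lit 5) (nat_lit 294) (nat_lit 5) (nat_lit 333) (nat_lit 291) (nat_lit 276)) (XT.lf (nat_lit 0) (nat_lit 4488826273) (nat_lit 836) (nat_lit 156016381) (nat_lit 76) (nat_lit 3207889210) (nat_lit 283) (nat_lit 5) (nat_lit 294) (nat_lit 5) (nat_lit 284) (nat_lit 5) (nat_lit 334) (nat_lit 291) (nat_lit 275))))))) (XT.nd (nat_lit 780) (nat_lit 4484) (nat_lit 0) (XT.nd (nat_lit 390) (nat_lit 2964) (nat_lit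 0) (XT.nd (nat_lit 156) (nat_lit 2736) (nat_lit 0) (XT.nd (nat_lit 78) (nat_lit 684) (nat_lit 0) (XT.lf (nat_lit 0) (nat_lit 1033556776) (nat_lit 836) (nat_lit 73248460) (nat_lit 76) (nat_lit 6839683719) (nat_lit 272) (nat_lit 5) (nat_lit 283) (nat_lit 5) (nat_lit 273) (nat_lit 5) (nat_lit 335) (nat_lit 291) (nat_lit 274)) (XT.lf (nat_lit 0) (nat_lit 5475492331) (nat_lit 760) (nat_lit 4664438) (nat_lit 76) (nat_lit 2563359031) (nat_lit 263) (nat_lit 5) (nat_lit 273) (nat_lit 5) (nat_lit 264) (nat_lit 5) (nat_lit 336) (nat_lit 291) (nat_lit 273))) (XT.nd (nat_lit 78) (nat_lit 1368) (nat_lit 0) (XT.lf (nat_lit 0) (nat_lit 67020199) (nat_lit 608) (nat_lit 1766620506) (nat_lit 684) (nat_lit 6310600212) (nat_lit 245) (nat_lit 5) (nat_lit 253) (nat_lit 5) (nat_lit 254) (nat_lit 5) (nat_lit 337) (nat_lit 291) (nat_lit 272)) (XT.nd (nat_lit 78) (nat_lit 684) (nat_lit 0) (XT.lf (nat_lit 0) (nat_lit 126940458)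 (nat_lit 684) (nat_lit 6165537323) (nat_lit 760) (nat_lit 1956031980) (nat_lit 236) (nat_lit 5) (nat_lit 245) (nat_lit 5) (nat_lit 246) (nat_lit 5) (nat_lit 338) (nat_lit 291) (nat_lit 271)) (XT.lf (nat_lit 0) (nat_lit 174496527) (nat_lit 608) (nat_lit 2281811906) (nat_lit 684) (nat_lit 5900122443) (nat_lit 227) (nat_lit 5) (nat_lit 235) (nat_lit 5) (nat_lit 236) (nat_lit 5) (nat_lit 339) (nat_lit 291) (nat_lit 270))))) (XT.nd (nat_lit 156) (nat_lit 1748) (nat_lit 0) (XT.nd (nat_lit 78) (nat_lit 608) (nat_lit 0) (XT.lf (nat_lit 0) (nat_lit 210246628) (nat_lit 608) (nat_lit 6726666577) (nat_lit 684) (nat_lit 1531225483) (nat_lit 219) (nat_lit 5) (nat_lit 227) (nat_lit 5) (nat_lit 228) (nat_lit 5) (nat_lit 340) (nat_lit 291) (nat_lit 269)) (XT.lf (nat_lit 0) (nat_lit 220764653) (nat_lit 532) (nat_lit 2677431317) (nat_lit 608) (nat_lit 5685302685) (nat_lit 211) (nat_lit 5) (nat_lit 218) (nat_lit 5) (nat_lit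 219) (nat_lit 5) (nat_lit 341) (nat_lit 291) (nat_lit 268))) (XT.nd (nat_lit 78) (nat_lit 1140) (nat_lit 0) (XT.lf (nat_lit 0) (nat_lit 217044714) (nat_lit 608) (nat_lit 7188109932) (nat_lit 684) (nat_lit 1297705891) (nat_lit 203) (nat_lit 5) (nat_lit 211) (nat_lit 5) (nat_lit 212) (nat_lit 5) (nat_lit 342) (nat_lit 291) (nat_lit 267)) (XT.nd (nat_lit 78) (nat_lit 532) (nat_lit 0) (XT.lf (nat_lit 0) (nat_lit 176765987) (nat_lit 532) (nat_lit 2977928480) (nat_lit 608) (nat_lit 5671232119) (nat_lit 195) (nat_lit 5) (nat_lit 202) (nat_lit 5) (nat_lit 203) (nat_lit 5) (nat_lit 343) (nat_lit 291) (nat_lit 266)) (XT.lf (nat_lit 0) (nat_lit 117420889) (nat_lit 532) (nat_lit 7574418581) (nat_lit 608) (nat_lit 1261346224) (nat_lit 188) (nat_lit 5) (nat_lit 195) (nat_lit 5) (nat_lit 196) (nat_lit 5) (nat_lit 344) (nat_lit 291) (nat_lit 265)))))) (XT.nd (nat_lit 390) (nat_lit 2280) (nat_lit 0) (XT.nd (nat_lit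 156) (nat_lit 1596) (nat_lit 0) (XT.nd (nat_lit 78) (nat_lit 0) (nat_lit 0) (XT.lf (nat_lit 0) (nat_lit 11532007) (nat_lit 532) (nat_lit 3207857652) (nat_lit 608) (nat_lit 5864861605) (nat_lit 180) (nat_lit 5) (nat_lit 187) (nat_lit 5) (nat_lit 188) (nat_lit 5) (nat_lit 345) (nat_lit 291) (nat_lit 264)) (XT.lf (nat_lit 0) (nat_lit 7790552016) (nat_lit 608) (nat_lit 119027327) (nat_lit 76) (nat_lit 1310084891) (nat_lit 180) (nat_lit 5) (nat_lit 188) (nat_lit 5) (nat_lit 181) (nat_lit 5) (nat_lit 346) (nat_lit 291) (nat_lit 263))) (XT.nd (nat_lit 78) (nat_lit 988) (nat_lit 0) (XT.lf (nat_lit 0) (nat_lit 3085967667) (nat_lit 608) (nat_lit 304090344) (nat_lit 76) (nat_lit 5968968002) (nat_lit 172) (nat_lit 5) (nat_lit 180) (nat_lit 5) (nat_lit 173) (nat_lit 5) (nat_lit 347) (nat_lit 291) (nat_lit 262)) (XT.nd (nat_lit 78) (nat_lit 532) (nat_lit 0) (XT.lf (nat_lit 0) (nat_lit 7693255257) (nat_lit 532)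 (nat_lit 524457874) (nat_lit 76) (nat_lit 1285184752) (nat_lit 166) (nat_lit 5) (nat_lit 173) (nat_lit 5) (nat_lit 167) (nat_lit 5) (nat_lit 348) (nat_lit 291) (nat_lit 261)) (XT.lf (nat_lit 0) (nat_lit 2743410926) (nat_lit 532) (nat_lit 807257428) (nat_lit 76) (nat_lit 6100249229) (nat_lit 159) (nat_lit 5) (nat_lit 166) (nat_lit 5) (nat_lit 160) (nat_lit 5) (nat_lit 349) (nat_lit 291) (nat_lit 260))))) (XT.nd (nat_lit 156) (nat_lit 1292) (nat_lit 0) (XT.nd (nat_lit 78) (nat_lit 532) (nat_lit 0) (XT.lf (nat_lit 0) (nat_lit 7388229196) (nat_lit 532) (nat_lit 1137058090) (nat_lit 76) (nat_lit 1278294609) (nat_lit 153) (nat_lit 5) (nat_lit 160) (nat_lit 5) (nat_lit 154) (nat_lit 5) (nat_lit 350) (nat_lit 291) (nat_lit 259)) (XT.lf (nat_lit 0) (nat_lit 2179426465) (nat_lit 532) (nat_lit 1536309294) (nat_lit 76) (nat_lit 6244902468) (nat_lit 146) (nat_lit 5) (nat_lit 153) (nat_lit 5) (nat_lit 147) (nat_lit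 5) (nat_lit 351) (nat_lit 291) (nat_lit 258))) (XT.nd (nat_lit 78) (nat_lit 912) (nat_lit 0) (XT.lf (nat_lit 0) (nat_lit 6862335836) (nat_lit 456) (nat_lit 1996570371) (nat_lit 76) (nat_lit 1263554211) (nat_lit 141) (nat_lit 5) (nat_lit 147) (nat_lit 5) (nat_lit 142) (nat_lit 5) (nat_lit 352) (nat_lit 291) (nat_lit 257)) (XT.nd (nat_lit 78) (nat_lit 380) (nat_lit 0) (XT.lf (nat_lit 0) (nat_lit 1379524877) (nat_lit 532) (nat_lit 2532727275) (nat_lit 76) (nat_lit 6376712653) (nat_lit 134) (nat_lit 5) (nat_lit 141) (nat_lit 5) (nat_lit 135) (nat_lit 5) (nat_lit 353) (nat_lit 291) (nat_lit 256)) (XT.lf (nat_lit 0) (nat_lit 6100098749) (nat_lit 456) (nat_lit 3146244413) (nat_lit 76) (nat_lit 1214002452) (nat_lit 129) (nat_lit 5) (nat_lit 135) (nat_lit 5) (nat_lit 130) (nat_lit 5) (nat_lit 354) (nat_lit 291) (nat_lit 255))))))))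
noncomputable def xc32 : XT := (XT.nd (nat_lit 1482) (nat_lit 2204) (nat_lit 0) (XT.nd (nat_lit 702) (nat_lit 2584) (nat_lit 0) (XT.nd (nat_lit 312) (nat_lit 1444) (nat_lit 0) (XT.nd (nat_lit 156) (nat_lit 760) (nat_lit 0) (XT.nd (nat_lit 78) (nat_lit 380) (nat_lit 0) (XT.lf (nat_lit 0) (nat_lit 326776526) (nat_lit 456) (nat_lit 3841715837) (nat_lit 76) (nat_lit 6468252019) (nat_lit 123) (nat_lit 5) (nat_lit 129) (nat_lit 5) (nat_lit 124) (nat_lit 5) (nat_lit 355) (nat_lit 291) (nat_lit 254)) (XT.lf (nat_lit 0) (nat_lit 5083522974) (nat_lit 456) (nat_lit 4633286632) (nat_lit 76) (nat_lit 1101312396) (nat_lit 118) (nat_lit 5) (nat_lit 124) (nat_lit 5) (nat_lit 119) (nat_lit 5) (nat_lit 356) (nat_lit 291) (nat_lit 253))) (XT.nd (nat_lit 78) (nat_lit 380) (nat_lit 0) (XT.lf (nat_lit 0) (nat_lit 5485526711) (nat_lit 380) (nat_lit 4507592419) (nat_lit 456) (nat_lit 1011648322) (nat_lit 113) (nat_lit 5)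 (nat_lit 118) (nat_lit 5) (nat_lit 119) (nat_lit 5) (nat_lit 357) (nat_lit 291) (nat_lit 252)) (XT.lf (nat_lit 0) (nat_lit 3791891001) (nat_lit 380) (nat_lit 6509351089) (nat_lit 76) (nat_lit 895509228) (nat_lit 108) (nat_lit 5) (nat_lit 113) (nat_lit 5) (nat_lit 109) (nat_lit 5) (nat_lit 358) (nat_lit 291) (nat_lit 251)))) (XT.nd (nat_lit 156) (nat_lit 684) (nat_lit 0) (XT.nd (nat_lit 78) (nat_lit 380) (nat_lit 0) (XT.lf (nat_lit 0) (nat_lit 3777158083) (nat_lit 380) (nat_lit 4963774059) (nat_lit 456) (nat_lit 2653153233) (nat_lit 103) (nat_lit 5) (nat_lit 108) (nat_lit 5) (nat_lit 109) (nat_lit 5) (nat_lit 359) (nat_lit 291) (nat_lit 250)) (XT.lf (nat_lit 0) (nat_lit 2201532746) (nat_lit 380) (nat_lit 8831076664) (nat_lit 76) (nat_lit 564668528) (nat_lit 98) (nat_lit 5) (nat_lit 103) (nat_lit 5) (nat_lit 99) (nat_lit 5) (nat_lit 360) (nat_lit 291) (nat_lit 249))) (XT.nd (nat_lit 78) (nat_lit 380)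 (nat_lit 0) (XT.lf (nat_lit 0) (nat_lit 1613658499) (nat_lit 304) (nat_lit 5572928301) (nat_lit 380) (nat_lit 4619238412) (nat_lit 94) (nat_lit 5) (nat_lit 98) (nat_lit 5) (nat_lit 99) (nat_lit 5) (nat_lit 361) (nat_lit 291) (nat_lit 248)) (XT.nd (nat_lit 78) (nat_lit 0) (nat_lit 0) (XT.lf (nat_lit 0) (nat_lit 285567146) (nat_lit 380) (nat_lit 11660675708) (nat_lit 76) (nat_lit 74592049) (nat_lit 89) (nat_lit 5) (nat_lit 94) (nat_lit 5) (nat_lit 90) (nat_lit 5) (nat_lit 362) (nat_lit 291) (nat_lit 247)) (XT.lf (nat_lit 0) (nat_lit 5308946409) (nat_lit 380) (nat_lit 1055222142) (nat_lit 76) (nat_lit 5876855172) (nat_lit 89) (nat_lit 5) (nat_lit 94) (nat_lit 5) (nat_lit 90) (nat_lit 5) (nat_lit 363) (nat_lit 291) (nat_lit 246)))))) (XT.nd (nat_lit 390) (nat_lit 1064) (nat_lit 0) (XT.nd (nat_lit 156) (nat_lit 912) (nat_lit 0) (XT.nd (nat_lit 78) (nat_lit 304) (nat_lit 0) (XT.lf (nat_lit 0) (nat_lit 9887136002)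 (nat_lit 304) (nat_lit 589247783) (nat_lit 380) (nat_lit 1991589852) (nat_lit 85) (nat_lit 5) (nat_lit 89) (nat_lit 5) (nat_lit 90) (nat_lit 5) (nat_lit 364) (nat_lit 291) (nat_lit 245)) (XT.lf (nat_lit 0) (nat_lit 3083675059) (nat_lit 304) (nat_lit 4285365498) (nat_lit 76) (nat_lit 5331767158) (nat_lit 81) (nat_lit 5) (nat_lit 85) (nat_lit 5) (nat_lit 82) (nat_lit 5) (nat_lit 365) (nat_lit 291) (nat_lit 244))) (XT.nd (nat_lit 78) (nat_lit 608) (nat_lit 0) (XT.lf (nat_lit 0) (nat_lit 6799023640) (nat_lit 304) (nat_lit 1482072248) (nat_lit 380) (nat_lit 4659349374) (nat_lit 77) (nat_lit 5) (nat_lit 81) (nat_lit 5) (nat_lit 82) (nat_lit 5) (nat_lit 366) (nat_lit 291) (nat_lit 243)) (XT.nd (nat_lit 78) (nat_lit 304) (nat_lit 0) (XT.lf (nat_lit 0) (nat_lit 465137864) (nat_lit 304) (nat_lit 8174900740) (nat_lit 76) (nat_lit 4546718410) (nat_lit 73) (nat_lit 5) (nat_lit 77) (nat_lit 5) (nat_lit 74) (nat_lit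 5) (nat_lit 367) (nat_lit 291) (nat_lit 242)) (XT.lf (nat_lit 0) (nat_lit 3034712661) (nat_lit 304) (nat_lit 2650193205) (nat_lit 380) (nat_lit 7754858585) (nat_lit 69) (nat_lit 5) (nat_lit 73) (nat_lit 5) (nat_lit 74) (nat_lit 5) (nat_lit 368) (nat_lit 291) (nat_lit 241))))) (XT.nd (nat_lit 156) (nat_lit 760) (nat_lit 0) (XT.nd (nat_lit 78) (nat_lit 76) (nat_lit 0) (XT.lf (nat_lit 0) (nat_lit 874274764) (nat_lit 228) (nat_lit 10205262542) (nat_lit 304) (nat_lit 2620478106) (nat_lit 66) (nat_lit 5) (nat_lit 69) (nat_lit 5) (nat_lit 70) (nat_lit 5) (nat_lit 369) (nat_lit 291) (nat_lit 240)) (XT.lf (nat_lit 0) (nat_lit 2656413740) (nat_lit 304) (nat_lit 1474147791) (nat_lit 76) (nat_lit 9836714330) (nat_lit 65) (nat_lit 5) (nat_lit 69) (nat_lit 5) (nat_lit 66) (nat_lit 5) (nat_lit 370) (nat_lit 291) (nat_lit 239))) (XT.nd (nat_lit 78) (nat_lit 532) (nat_lit 0) (XT.lf (nat_lit 0) (nat_lit 8073416920)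 (nat_lit 304) (nat_lit 4024887268) (nat_lit 76) (nat_lit 2143572664) (nat_lit 62) (nat_lit 5) (nat_lit 66) (nat_lit 5) (nat_lit 63) (nat_lit 5) (nat_lit 371) (nat_lit 291) (nat_lit 238)) (XT.nd (nat_lit 78) (nat_lit 304) (nat_lit 0) (XT.lf (nat_lit 0) (nat_lit 7725547661) (nat_lit 228) (nat_lit 5952821187) (nat_lit 304) (nat_lit 845855037) (nat_lit 59) (nat_lit 5) (nat_lit 62) (nat_lit 5) (nat_lit 63) (nat_lit 5) (nat_lit 372) (nat_lit 291) (nat_lit 237)) (XT.lf (nat_lit 0) (nat_lit 4576680464) (nat_lit 304) (nat_lit 9814632469) (nat_lit 76) (nat_lit 423121116) (nat_lit 55) (nat_lit 5) (nat_lit 59) (nat_lit 5) (nat_lit 56) (nat_lit 5) (nat_lit 373) (nat_lit 291) (nat_lit 236))))))) (XT.nd (nat_lit 702) (nat_lit 608) (nat_lit 0) (XT.nd (nat_lit 312) (nat_lit 912) (nat_lit 0) (XT.nd (nat_lit 156) (nat_lit 380) (nat_lit 0) (XT.nd (nat_lit 78) (nat_lit 76) (nat_lit 0) (XT.lf (nat_lit 0) (nat_lit 2012391375)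 (nat_lit 228) (nat_lit 8176554255) (nat_lit 304) (nat_lit 4923537667) (nat_lit 52) (nat_lit 5) (nat_lit 55) (nat_lit 5) (nat_lit 56) (nat_lit 5) (nat_lit 374) (nat_lit 291) (nat_lit 235)) (XT.lf (nat_lit 0) (nat_lit 549781836) (nat_lit 304) (nat_lit 1193855090) (nat_lit 76) (nat_lit 13675642592) (nat_lit 51) (nat_lit 5) (nat_lit 55) (nat_lit 5) (nat_lit 52) (nat_lit 5) (nat_lit 375) (nat_lit 291) (nat_lit 234))) (XT.nd (nat_lit 78) (nat_lit 152) (nat_lit 0) (XT.lf (nat_lit 0) (nat_lit 6166593322) (nat_lit 304) (nat_lit 4681830690) (nat_lit 76) (nat_lit 4885295376) (nat_lit 48) (nat_lit 5) (nat_lit 52) (nat_lit 5) (nat_lit 49) (nat_lit 5) (nat_lit 376) (nat_lit 291) (nat_lit 233)) (XT.lf (nat_lit 0) (nat_lit 7615401379) (nat_lit 152) (nat_lit 4348275753) (nat_lit 228) (nat_lit 4093693878) (nat_lit 46) (nat_lit 5) (nat_lit 48) (nat_lit 5) (nat_lit 49) (nat_lit 5) (nat_lit 377) (nat_lit 291) (nat_lit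 232)))) (XT.nd (nat_lit 156) (nat_lit 608) (nat_lit 0) (XT.nd (nat_lit 78) (nat_lit 0) (nat_lit 0) (XT.lf (nat_lit 0) (nat_lit 1539571902) (nat_lit 304) (nat_lit 12505382031) (nat_lit 76) (nat_lit 2345273414) (nat_lit 42) (nat_lit 5) (nat_lit 46) (nat_lit 5) (nat_lit 43) (nat_lit 5) (nat_lit 378) (nat_lit 291) (nat_lit 231)) (XT.lf (nat_lit 0) (nat_lit 7317179967) (nat_lit 304) (nat_lit 186939486) (nat_lit 76) (nat_lit 9227802364) (nat_lit 42) (nat_lit 5) (nat_lit 46) (nat_lit 5) (nat_lit 43) (nat_lit 5) (nat_lit 379) (nat_lit 291) (nat_lit 230))) (XT.nd (nat_lit 78) (nat_lit 456) (nat_lit 0) (XT.lf (nat_lit 0) (nat_lit 12573533387) (nat_lit 152) (nat_lit 721831599) (nat_lit 228) (nat_lit 3787969647) (nat_lit 40) (nat_lit 5) (nat_lit 42) (nat_lit 5) (nat_lit 43) (nat_lit 5) (nat_lit 380) (nat_lit 291) (nat_lit 229)) (XT.nd (nat_lit 78) (nat_lit 152) (nat_lit 0) (XT.lf (nat_lit 0) (nat_lit 2023412308)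 (nat_lit 304) (nat_lit 9207904912) (nat_lit 76) (nat_lit 6212881071) (nat_lit 36) (nat_lit 5) (nat_lit 40) (nat_lit 5) (nat_lit 37) (nat_lit 5) (nat_lit 381) (nat_lit 291) (nat_lit 228)) (XT.lf (nat_lit 0) (nat_lit 3536250928) (nat_lit 152) (nat_lit 4427242385) (nat_lit 228) (nat_lit 9851788888) (nat_lit 34) (nat_lit 5) (nat_lit 36) (nat_lit 5) (nat_lit 37) (nat_lit 5) (nat_lit 382) (nat_lit 291) (nat_lit 227)))))) (XT.nd (nat_lit 41730) (nat_lit 0) (nat_lit 35264) (XT.nd (nat_lit 156) (nat_lit 304) (nat_lit 0) (XT.nd (nat_lit 78) (nat_lit 304) (nat_lit 0) (XT.lf (nat_lit 0) (nat_lit 14109041604) (nat_lit 228) (nat_lit 1514974716) (nat_lit 76) (nat_lit 2572948213) (nat_lit 34) (nat_lit 5) (nat_lit 37) (nat_lit 5) (nat_lit 35) (nat_lit 5) (nat_lit 383) (nat_lit 291) (nat_lit 226)) (XT.lf (nat_lit 0) (nat_lit 1879545230) (nat_lit 304) (nat_lit 6933654432) (nat_lit 76) (nat_lit 9775569569) (nat_lit 30)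 (nat_lit 5) (nat_lit 34) (nat_lit 5) (nat_lit 31) (nat_lit 5) (nat_lit 384) (nat_lit 291) (nat_lit 225))) (XT.nd (nat_lit 78) (nat_lit 152) (nat_lit 0) (XT.lf (nat_lit 0) (nat_lit 6216092726) (nat_lit 152) (nat_lit 1755215646) (nat_lit 228) (nat_lit 11020473431) (nat_lit 28) (nat_lit 5) (nat_lit 30) (nat_lit 5) (nat_lit 31) (nat_lit 5) (nat_lit 385) (nat_lit 291) (nat_lit 224)) (XT.nd (nat_lit 41418) (nat_lit 0) (nat_lit 40204) (XT.lf (nat_lit 0) (nat_lit 331227174) (nat_lit 152) (nat_lit 13950319117) (nat_lit 228) (nat_lit 5124634074) (nat_lit 26) (nat_lit 5) (nat_lit 28) (nat_lit 5) (nat_lit 29) (nat_lit 5) (nat_lit 386) (nat_lit 291) (nat_lit 223)) (XT.lf (nat_lit 0) (nat_lit 634067299) (nat_lit 988) (nat_lit 1364492375) (nat_lit 988) (nat_lit 1364492375) (nat_lit 555) (nat_lit 4) (nat_lit 568) (nat_lit 5) (nat_lit 568) (nat_lit 4) (nat_lit 316) (nat_lit 292) (nat_lit 292))))) (XT.nd (nat_lit 156)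 (nat_lit 2660) (nat_lit 0) (XT.nd (nat_lit 78) (nat_lit 1140) (nat_lit 0) (XT.lf (nat_lit 0) (nat_lit 860143579) (nat_lit 1064) (nat_lit 1105653680) (nat_lit 1140) (nat_lit 4797731130) (nat_lit 540) (nat_lit 5) (nat_lit 554) (nat_lit 5) (nat_lit 555) (nat_lit 4) (nat_lit 317) (nat_lit 292) (nat_lit 291)) (XT.lf (nat_lit 0) (nat_lit 496202927) (nat_lit 1140) (nat_lit 6159270514) (nat_lit 1140) (nat_lit 148555896) (nat_lit 525) (nat_lit 4) (nat_lit 540) (nat_lit 5) (nat_lit 540) (nat_lit 4) (nat_lit 318) (nat_lit 292) (nat_lit 290))) (XT.nd (nat_lit 78) (nat_lit 1368) (nat_lit 0) (XT.lf (nat_lit 0) (nat_lit 158591890) (nat_lit 1216) (nat_lit 4318640092) (nat_lit 1292) (nat_lit 2370081571) (nat_lit 508) (nat_lit 5) (nat_lit 524) (nat_lit 5) (nat_lit 525) (nat_lit 4) (nat_lit 319) (nat_lit 292) (nat_lit 289)) (XT.nd (nat_lit 78) (nat_lit 1292) (nat_lit 0) (XT.lf (nat_lit 0) (nat_lit 2211902158) (nat_lit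 1292) (nat_lit 131548275) (nat_lit 76) (nat_lit 4550349750) (nat_lit 507) (nat_lit 5) (nat_lit 524) (nat_lit 5) (nat_lit 508) (nat_lit 5) (nat_lit 320) (nat_lit 292) (nat_lit 288)) (XT.lf (nat_lit 0) (nat_lit 6567047689) (nat_lit 1292) (nat_lit 231001126) (nat_lit 1368) (nat_lit 145461919) (nat_lit 490) (nat_lit 5) (nat_lit 507) (nat_lit 5) (nat_lit 508) (nat_lit 5) (nat_lit 321) (nat_lit 292) (nat_lit 287))))))))
noncomputable def xc33 : XT := (XT.nd (nat_lit 1482) (nat_lit 9500) (nat_lit 0) (XT.nd (nat_lit 702) (nat_lit 7524) (nat_lit 0) (XT.nd (nat_lit 312) (nat_lit 6308) (nat_lit 0) (XT.nd (nat_lit 156) (nat_lit 3192) (nat_lit 0) (XT.nd (nat_lit 78) (nat_lit 1520) (nat_lit 0) (XT.lf (nat_lit 0) (nat_lit 4381795093) (nat_lit 1444) (nat_lit 606676852) (nat_lit 76) (nat_lit 2007485685) (nat_lit 471) (nat_lit 5) (nat_lit 490) (nat_lit 5) (nat_lit 472) (nat_lit 5) (nat_lit 322) (nat_lit 292) (nat_lit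 286)) (XT.lf (nat_lit 0) (nat_lit 1872721844) (nat_lit 1520) (nat_lit 797849880) (nat_lit 76) (nat_lit 4381119067) (nat_lit 451) (nat_lit 5) (nat_lit 471) (nat_lit 5) (nat_lit 452) (nat_lit 5) (nat_lit 323) (nat_lit 292) (nat_lit 285))) (XT.nd (nat_lit 78) (nat_lit 1672) (nat_lit 0) (XT.lf (nat_lit 0) (nat_lit 6156370550) (nat_lit 1520) (nat_lit 210696908) (nat_lit 1596) (nat_lit 743621663) (nat_lit 431) (nat_lit 5) (nat_lit 451) (nat_lit 5) (nat_lit 452) (nat_lit 5) (nat_lit 324) (nat_lit 292) (nat_lit 284)) (XT.lf (nat_lit 0) (nat_lit 3701414699) (nat_lit 1672) (nat_lit 1100827381) (nat_lit 76) (nat_lit 2370283904) (nat_lit 409) (nat_lit 5) (nat_lit 431) (nat_lit 5) (nat_lit 410) (nat_lit 5) (nat_lit 325) (nat_lit 292) (nat_lit 283)))) (XT.nd (nat_lit 156) (nat_lit 2812) (nat_lit 0) (XT.nd (nat_lit 78) (nat_lit 1748) (nat_lit 0) (XT.lf (nat_lit 0) (nat_lit 935872935) (nat_lit 1748) (nat_lit 1212761496)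 (nat_lit 76) (nat_lit 5089130225) (nat_lit 386) (nat_lit 5) (nat_lit 409) (nat_lit 5) (nat_lit 387) (nat_lit 5) (nat_lit 326) (nat_lit 292) (nat_lit 282)) (XT.lf (nat_lit 0) (nat_lit 5350354549) (nat_lit 1824) (nat_lit 1306765682) (nat_lit 76) (nat_lit 649025845) (nat_lit 363) (nat_lit 5) (nat_lit 387) (nat_lit 5) (nat_lit 364) (nat_lit 5) (nat_lit 327) (nat_lit 292) (nat_lit 281))) (XT.nd (nat_lit 78) (nat_lit 1824) (nat_lit 0) (XT.lf (nat_lit 0) (nat_lit 2423112582) (nat_lit 988) (nat_lit 1388646610) (nat_lit 76) (nat_lit 3565871725) (nat_lit 350) (nat_lit 5) (nat_lit 363) (nat_lit 5) (nat_lit 351) (nat_lit 5) (nat_lit 328) (nat_lit 292) (nat_lit 280)) (XT.nd (nat_lit 78) (nat_lit 912) (nat_lit 0) (XT.lf (nat_lit 0) (nat_lit 6009254028) (nat_lit 912) (nat_lit 821948751) (nat_lit 988) (nat_lit 621397472) (nat_lit 338) (nat_lit 5) (nat_lit 350) (nat_lit 5) (nat_lit 351) (nat_lit 5) (nat_lit 329) (nat_lit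 292) (nat_lit 279)) (XT.lf (nat_lit 0) (nat_lit 3733394371) (nat_lit 912) (nat_lit 1499690126) (nat_lit 76) (nat_lit 2297476222) (nat_lit 326) (nat_lit 5) (nat_lit 338) (nat_lit 5) (nat_lit 327) (nat_lit 5) (nat_lit 330) (nat_lit 292) (nat_lit 278)))))) (XT.nd (nat_lit 390) (nat_lit 3420) (nat_lit 0) (XT.nd (nat_lit 156) (nat_lit 2432) (nat_lit 0) (XT.nd (nat_lit 78) (nat_lit 760) (nat_lit 0) (XT.lf (nat_lit 0) (nat_lit 527040605) (nat_lit 912) (nat_lit 1534006502) (nat_lit 76) (nat_lit 5551025186) (nat_lit 314) (nat_lit 5) (nat_lit 326) (nat_lit 5) (nat_lit 315) (nat_lit 5) (nat_lit 331) (nat_lit 292) (nat_lit 277)) (XT.lf (nat_lit 0) (nat_lit 4870755632) (nat_lit 836) (nat_lit 1568760547) (nat_lit 76) (nat_lit 1257259562) (nat_lit 304) (nat_lit 5) (nat_lit 315) (nat_lit 5) (nat_lit 305) (nat_lit 5) (nat_lit 332) (nat_lit 292) (nat_lit 276))) (XT.nd (nat_lit 78) (nat_lit 1596) (nat_lit 0) (XT.lf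 (nat_lit 0) (nat_lit 1489652404) (nat_lit 836) (nat_lit 1597059468) (nat_lit 76) (nat_lit 4698190810) (nat_lit 293) (nat_lit 5) (nat_lit 304) (nat_lit 5) (nat_lit 294) (nat_lit 5) (nat_lit 333) (nat_lit 292) (nat_lit 275)) (XT.nd (nat_lit 78) (nat_lit 836) (nat_lit 0) (XT.lf (nat_lit 0) (nat_lit 5837722183) (nat_lit 836) (nat_lit 1619262102) (nat_lit 76) (nat_lit 419559275) (nat_lit 283) (nat_lit 5) (nat_lit 294) (nat_lit 5) (nat_lit 284) (nat_lit 5) (nat_lit 334) (nat_lit 292) (nat_lit 274)) (XT.lf (nat_lit 0) (nat_lit 2276279996) (nat_lit 836) (nat_lit 1652313228) (nat_lit 76) (nat_lit 4042867904) (nat_lit 272) (nat_lit 5) (nat_lit 283) (nat_lit 5) (nat_lit 273) (nat_lit 5) (nat_lit 335) (nat_lit 292) (nat_lit 273))))) (XT.nd (nat_lit 156) (nat_lit 1976) (nat_lit 0) (XT.nd (nat_lit 78) (nat_lit 760) (nat_lit 0) (XT.lf (nat_lit 0) (nat_lit 6393209221) (nat_lit 684) (nat_lit 243664378) (nat_lit 760)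 (nat_lit 1433273152) (nat_lit 263) (nat_lit 5) (nat_lit 272) (nat_lit 5) (nat_lit 273) (nat_lit 5) (nat_lit 336) (nat_lit 292) (nat_lit 272)) (XT.lf (nat_lit 0) (nat_lit 2887058843) (nat_lit 760) (nat_lit 1724473868) (nat_lit 76) (nat_lit 3560551200) (nat_lit 253) (nat_lit 5) (nat_lit 263) (nat_lit 5) (nat_lit 254) (nat_lit 5) (nat_lit 337) (nat_lit 292) (nat_lit 271))) (XT.nd (nat_lit 78) (nat_lit 1368) (nat_lit 0) (XT.lf (nat_lit 0) (nat_lit 6510839132) (nat_lit 608) (nat_lit 756979308) (nat_lit 684) (nat_lit 1010125380) (nat_lit 245) (nat_lit 5) (nat_lit 253) (nat_lit 5) (nat_lit 254) (nat_lit 5) (nat_lit 338) (nat_lit 292) (nat_lit 270)) (XT.nd (nat_lit 78) (nat_lit 608) (nat_lit 0) (XT.lf (nat_lit 0) (nat_lit 3320531911) (nat_lit 760) (nat_lit 1839349805) (nat_lit 76) (nat_lit 3227274032) (nat_lit 235) (nat_lit 5) (nat_lit 245) (nat_lit 5) (nat_lit 236) (nat_lit 5) (nat_lit 339) (nat_lit 292)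 (nat_lit 269)) (XT.lf (nat_lit 0) (nat_lit 6586854937) (nat_lit 608) (nat_lit 1138937704) (nat_lit 684) (nat_lit 774605076) (nat_lit 227) (nat_lit 5) (nat_lit 235) (nat_lit 5) (nat_lit 236) (nat_lit 5) (nat_lit 340) (nat_lit 292) (nat_lit 268))))))) (XT.nd (nat_lit 780) (nat_lit 3876) (nat_lit 0) (XT.nd (nat_lit 390) (nat_lit 2584) (nat_lit 0) (XT.nd (nat_lit 156) (nat_lit 1824) (nat_lit 0) (XT.nd (nat_lit 78) (nat_lit 532) (nat_lit 0) (XT.lf (nat_lit 0) (nat_lit 3573600527) (nat_lit 684) (nat_lit 2024104986) (nat_lit 76) (nat_lit 3019405736) (nat_lit 218) (nat_lit 5) (nat_lit 227) (nat_lit 5) (nat_lit 219) (nat_lit 5) (nat_lit 341) (nat_lit 292) (nat_lit 267)) (XT.lf (nat_lit 0) (nat_lit 6593682553) (nat_lit 532) (nat_lit 1413451766) (nat_lit 608) (nat_lit 730832514) (nat_lit 211) (nat_lit 5) (nat_lit 218) (nat_lit 5) (nat_lit 219) (nat_lit 5) (nat_lit 342) (nat_lit 292) (nat_lit 266))) (XT.nd (nat_lit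 78) (nat_lit 1140) (nat_lit 0) (XT.lf (nat_lit 0) (nat_lit 3641461061) (nat_lit 684) (nat_lit 2307528751) (nat_lit 76) (nat_lit 2913446894) (nat_lit 202) (nat_lit 5) (nat_lit 211) (nat_lit 5) (nat_lit 203) (nat_lit 5) (nat_lit 343) (nat_lit 292) (nat_lit 265)) (XT.nd (nat_lit 78) (nat_lit 608) (nat_lit 0) (XT.lf (nat_lit 0) (nat_lit 6502027439) (nat_lit 532) (nat_lit 1604426559) (nat_lit 608) (nat_lit 884708151) (nat_lit 195) (nat_lit 5) (nat_lit 202) (nat_lit 5) (nat_lit 203) (nat_lit 5) (nat_lit 344) (nat_lit 292) (nat_lit 264)) (XT.lf (nat_lit 0) (nat_lit 3517526636) (nat_lit 608) (nat_lit 2720324852) (nat_lit 76) (nat_lit 2885820722) (nat_lit 187) (nat_lit 5) (nat_lit 195) (nat_lit 5) (nat_lit 188) (nat_lit 5) (nat_lit 345) (nat_lit 292) (nat_lit 263))))) (XT.nd (nat_lit 156) (nat_lit 1444) (nat_lit 0) (XT.nd (nat_lit 78) (nat_lit 608) (nat_lit 0) (XT.lf (nat_lit 0) (nat_lit 6280576294) (nat_lit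 532) (nat_lit 1735973449) (nat_lit 608) (nat_lit 1243999747) (nat_lit 180) (nat_lit 5) (nat_lit 187) (nat_lit 5) (nat_lit 188) (nat_lit 5) (nat_lit 346) (nat_lit 292) (nat_lit 262)) (XT.lf (nat_lit 0) (nat_lit 3193332932) (nat_lit 608) (nat_lit 3295422314) (nat_lit 76) (nat_lit 2912658863) (nat_lit 172) (nat_lit 5) (nat_lit 180) (nat_lit 5) (nat_lit 173) (nat_lit 5) (nat_lit 347) (nat_lit 292) (nat_lit 261))) (XT.nd (nat_lit 78) (nat_lit 988) (nat_lit 0) (XT.lf (nat_lit 0) (nat_lit 5895675757) (nat_lit 456) (nat_lit 1832630229) (nat_lit 532) (nat_lit 1818446176) (nat_lit 166) (nat_lit 5) (nat_lit 172) (nat_lit 5) (nat_lit 173) (nat_lit 5) (nat_lit 348) (nat_lit 292) (nat_lit 260)) (XT.nd (nat_lit 78) (nat_lit 456) (nat_lit 0) (XT.lf (nat_lit 0) (nat_lit 2658427037) (nat_lit 532) (nat_lit 4068311090) (nat_lit 76) (nat_lit 2969579728) (nat_lit 159) (nat_lit 5) (nat_lit 166) (nat_lit 5) (nat_lit 160)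 (nat_lit 5) (nat_lit 349) (nat_lit 292) (nat_lit 259)) (XT.lf (nat_lit 0) (nat_lit 5310985065) (nat_lit 456) (nat_lit 1919589819) (nat_lit 532) (nat_lit 2619879072) (nat_lit 153) (nat_lit 5) (nat_lit 159) (nat_lit 5) (nat_lit 160) (nat_lit 5) (nat_lit 350) (nat_lit 292) (nat_lit 258)))))) (XT.nd (nat_lit 390) (nat_lit 1672) (nat_lit 0) (XT.nd (nat_lit 156) (nat_lit 1292) (nat_lit 0) (XT.nd (nat_lit 78) (nat_lit 380) (nat_lit 0) (XT.lf (nat_lit 0) (nat_lit 1900238090) (nat_lit 532) (nat_lit 5077405667) (nat_lit 76) (nat_lit 3031457475) (nat_lit 146) (nat_lit 5) (nat_lit 153) (nat_lit 5) (nat_lit 147) (nat_lit 5) (nat_lit 351) (nat_lit 292) (nat_lit 257)) (XT.lf (nat_lit 0) (nat_lit 4487099367) (nat_lit 380) (nat_lit 2022939567) (nat_lit 456) (nat_lit 3662363646) (nat_lit 141) (nat_lit 5) (nat_lit 146) (nat_lit 5) (nat_lit 147) (nat_lit 5) (nat_lit 352) (nat_lit 292) (nat_lit 256))) (XT.nd (nat_lit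 78) (nat_lit 760) (nat_lit 0) (XT.lf (nat_lit 0) (nat_lit 903928352) (nat_lit 532) (nat_lit 6364440112) (nat_lit 76) (nat_lit 3072179563) (nat_lit 134) (nat_lit 5) (nat_lit 141) (nat_lit 5) (nat_lit 135) (nat_lit 5) (nat_lit 353) (nat_lit 292) (nat_lit 255)) (XT.nd (nat_lit 78) (nat_lit 380) (nat_lit 0) (XT.lf (nat_lit 0) (nat_lit 3381140082) (nat_lit 380) (nat_lit 2169913270) (nat_lit 456) (nat_lit 4962360159) (nat_lit 129) (nat_lit 5) (nat_lit 134) (nat_lit 5) (nat_lit 135) (nat_lit 5) (nat_lit 354) (nat_lit 292) (nat_lit 254)) (XT.lf (nat_lit 0) (nat_lit 2714280048) (nat_lit 380) (nat_lit 7624787673) (nat_lit 456) (nat_lit 352398667) (nat_lit 124) (nat_lit 5) (nat_lit 129) (nat_lit 5) (nat_lit 130) (nat_lit 5) (nat_lit 355) (nat_lit 292) (nat_lit 253))))) (XT.nd (nat_lit 156) (nat_lit 836) (nat_lit 0) (XT.nd (nat_lit 78) (nat_lit 380) (nat_lit 0) (XT.lf (nat_lit 0) (nat_lit 1946308375) (nat_lit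 380) (nat_lit 2389158199) (nat_lit 456) (nat_lit 6538907758) (nat_lit 118) (nat_lit 5) (nat_lit 123) (nat_lit 5) (nat_lit 124) (nat_lit 5) (nat_lit 356) (nat_lit 292) (nat_lit 252)) (XT.lf (nat_lit 0) (nat_lit 1091857764) (nat_lit 380) (nat_lit 8071120537) (nat_lit 456) (nat_lit 1899697256) (nat_lit 113) (nat_lit 5) (nat_lit 118) (nat_lit 5) (nat_lit 119) (nat_lit 5) (nat_lit 357) (nat_lit 292) (nat_lit 251))) (XT.nd (nat_lit 78) (nat_lit 456) (nat_lit 0) (XT.lf (nat_lit 0) (nat_lit 131397431) (nat_lit 304) (nat_lit 2711019579) (nat_lit 380) (nat_lit 8413832574) (nat_lit 108) (nat_lit 5) (nat_lit 112) (nat_lit 5) (nat_lit 113) (nat_lit 5) (nat_lit 358) (nat_lit 292) (nat_lit 250)) (XT.nd (nat_lit 78) (nat_lit 456) (nat_lit 0) (XT.lf (nat_lit 0) (nat_lit 7712384748) (nat_lit 380) (nat_lit 926362715) (nat_lit 76) (nat_lit 2816430662) (nat_lit 108) (nat_lit 5) (nat_lit 113) (nat_lit 5) (nat_lit 109)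 (nat_lit 5) (nat_lit 359) (nat_lit 292) (nat_lit 249)) (XT.lf (nat_lit 0) (nat_lit 1061866709) (nat_lit 456) (nat_lit 2091940406) (nat_lit 76) (nat_lit 8506003790) (nat_lit 102) (nat_lit 5) (nat_lit 108) (nat_lit 5) (nat_lit 103) (nat_lit 5) (nat_lit 360) (nat_lit 292) (nat_lit 248))))))))
noncomputable def xc34 : XT := (XT.nd (nat_lit 1482) (nat_lit 1064) (nat_lit 0) (XT.nd (nat_lit 702) (nat_lit 2052) (nat_lit 0) (XT.nd (nat_lit 312) (nat_lit 1216) (nat_lit 0) (XT.nd (nat_lit 156) (nat_lit 684) (nat_lit 0) (XT.nd (nat_lit 78) (nat_lit 304) (nat_lit 0) (XT.lf (nat_lit 0) (nat_lit 5966214674) (nat_lit 380) (nat_lit 3391059589) (nat_lit 76) (nat_lit 2512710065) (nat_lit 98) (nat_lit 5) (nat_lit 103) (nat_lit 5) (nat_lit 99) (nat_lit 5) (nat_lit 361) (nat_lit 292) (nat_lit 247)) (XT.lf (nat_lit 0) (nat_lit 7274461603) (nat_lit 304) (nat_lit 3755070865) (nat_lit 380) (nat_lit 1056717403) (nat_lit 94)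 (nat_lit 5) (nat_lit 98) (nat_lit 5) (nat_lit 99) (nat_lit 5) (nat_lit 362) (nat_lit 292) (nat_lit 246))) (XT.nd (nat_lit 78) (nat_lit 304) (nat_lit 0) (XT.lf (nat_lit 0) (nat_lit 3889379212) (nat_lit 380) (nat_lit 6380358486) (nat_lit 76) (nat_lit 2038672161) (nat_lit 89) (nat_lit 5) (nat_lit 94) (nat_lit 5) (nat_lit 90) (nat_lit 5) (nat_lit 363) (nat_lit 292) (nat_lit 245)) (XT.lf (nat_lit 0) (nat_lit 4437472346) (nat_lit 304) (nat_lit 4550082645) (nat_lit 380) (nat_lit 3549200805) (nat_lit 85) (nat_lit 5) (nat_lit 89) (nat_lit 5) (nat_lit 90) (nat_lit 5) (nat_lit 364) (nat_lit 292) (nat_lit 244)))) (XT.nd (nat_lit 156) (nat_lit 608) (nat_lit 0) (XT.nd (nat_lit 78) (nat_lit 304) (nat_lit 0) (XT.lf (nat_lit 0) (nat_lit 1450295560) (nat_lit 304) (nat_lit 9964494413) (nat_lit 76) (nat_lit 1356936372) (nat_lit 81) (nat_lit 5) (nat_lit 85) (nat_lit 5) (nat_lit 82) (nat_lit 5) (nat_lit 365) (nat_lit 292)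 (nat_lit 243)) (XT.lf (nat_lit 0) (nat_lit 991389241) (nat_lit 304) (nat_lit 5585673990) (nat_lit 380) (nat_lit 6435723697) (nat_lit 77) (nat_lit 5) (nat_lit 81) (nat_lit 5) (nat_lit 82) (nat_lit 5) (nat_lit 366) (nat_lit 292) (nat_lit 242))) (XT.nd (nat_lit 78) (nat_lit 608) (nat_lit 0) (XT.lf (nat_lit 0) (nat_lit 11862455706) (nat_lit 380) (nat_lit 956147353) (nat_lit 76) (nat_lit 442399487) (nat_lit 77) (nat_lit 5) (nat_lit 82) (nat_lit 5) (nat_lit 78) (nat_lit 5) (nat_lit 367) (nat_lit 292) (nat_lit 241)) (XT.nd (nat_lit 78) (nat_lit 304) (nat_lit 0) (XT.lf (nat_lit 0) (nat_lit 3781475247) (nat_lit 304) (nat_lit 3102658927) (nat_lit 76) (nat_lit 6631228394) (nat_lit 73) (nat_lit 5) (nat_lit 77) (nat_lit 5) (nat_lit 74) (nat_lit 5) (nat_lit 368) (nat_lit 292) (nat_lit 240)) (XT.lf (nat_lit 0) (nat_lit 8356972937) (nat_lit 304) (nat_lit 738641976) (nat_lit 380) (nat_lit 4681617399) (nat_lit 69)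 (nat_lit 5) (nat_lit 73) (nat_lit 5) (nat_lit 74) (nat_lit 5) (nat_lit 369) (nat_lit 292) (nat_lit 239)))))) (XT.nd (nat_lit 390) (nat_lit 988) (nat_lit 0) (XT.nd (nat_lit 156) (nat_lit 532) (nat_lit 0) (XT.nd (nat_lit 78) (nat_lit 228) (nat_lit 0) (XT.lf (nat_lit 0) (nat_lit 550419258) (nat_lit 304) (nat_lit 7951107454) (nat_lit 76) (nat_lit 5544679958) (nat_lit 65) (nat_lit 5) (nat_lit 69) (nat_lit 5) (nat_lit 66) (nat_lit 5) (nat_lit 370) (nat_lit 292) (nat_lit 238)) (XT.lf (nat_lit 0) (nat_lit 3618287229) (nat_lit 228) (nat_lit 2261808938) (nat_lit 304) (nat_lit 8442466289) (nat_lit 62) (nat_lit 5) (nat_lit 65) (nat_lit 5) (nat_lit 66) (nat_lit 5) (nat_lit 371) (nat_lit 292) (nat_lit 237))) (XT.nd (nat_lit 78) (nat_lit 304) (nat_lit 0) (XT.lf (nat_lit 0) (nat_lit 922548417) (nat_lit 228) (nat_lit 10473801770) (nat_lit 304) (nat_lit 3210341288) (nat_lit 59) (nat_lit 5) (nat_lit 62) (nat_lit 5)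 (nat_lit 63) (nat_lit 5) (nat_lit 372) (nat_lit 292) (nat_lit 236)) (XT.nd (nat_lit 78) (nat_lit 228) (nat_lit 0) (XT.lf (nat_lit 0) (nat_lit 2178451678) (nat_lit 304) (nat_lit 1981761869) (nat_lit 76) (nat_lit 10738297832) (nat_lit 58) (nat_lit 5) (nat_lit 62) (nat_lit 5) (nat_lit 59) (nat_lit 5) (nat_lit 373) (nat_lit 292) (nat_lit 235)) (XT.lf (nat_lit 0) (nat_lit 7708451881) (nat_lit 304) (nat_lit 5127493154) (nat_lit 76) (nat_lit 2362268310) (nat_lit 55) (nat_lit 5) (nat_lit 59) (nat_lit 5) (nat_lit 56) (nat_lit 5) (nat_lit 374) (nat_lit 292) (nat_lit 234))))) (XT.nd (nat_lit 156) (nat_lit 456) (nat_lit 0) (XT.nd (nat_lit 78) (nat_lit 304) (nat_lit 0) (XT.lf (nat_lit 0) (nat_lit 6973521216) (nat_lit 228) (nat_lit 6460165156) (nat_lit 304) (nat_lit 2072647932) (nat_lit 52) (nat_lit 5) (nat_lit 55) (nat_lit 5) (nat_lit 56) (nat_lit 5) (nat_lit 375) (nat_lit 292) (nat_lit 233)) (XT.lf (nat_lit 0)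 (nat_lit 3463806111) (nat_lit 304) (nat_lit 12209564939) (nat_lit 76) (nat_lit 149829931) (nat_lit 48) (nat_lit 5) (nat_lit 52) (nat_lit 5) (nat_lit 49) (nat_lit 5) (nat_lit 376) (nat_lit 292) (nat_lit 232))) (XT.nd (nat_lit 78) (nat_lit 456) (nat_lit 0) (XT.lf (nat_lit 0) (nat_lit 9183955013) (nat_lit 304) (nat_lit 58447615) (nat_lit 76) (nat_lit 6905995330) (nat_lit 48) (nat_lit 5) (nat_lit 52) (nat_lit 5) (nat_lit 49) (nat_lit 5) (nat_lit 377) (nat_lit 292) (nat_lit 231)) (XT.nd (nat_lit 78) (nat_lit 304) (nat_lit 0) (XT.lf (nat_lit 0) (nat_lit 12530413804) (nat_lit 152) (nat_lit 2572469691) (nat_lit 228) (nat_lit 1379936964) (nat_lit 46) (nat_lit 5) (nat_lit 48) (nat_lit 5) (nat_lit 49) (nat_lit 5) (nat_lit 378) (nat_lit 292) (nat_lit 230)) (XT.lf (nat_lit 0) (nat_lit 4346100535) (nat_lit 304) (nat_lit 8189526770) (nat_lit 76) (nat_lit 4290466337) (nat_lit 42) (nat_lit 5) (nat_lit 46) (nat_lit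 5) (nat_lit 43) (nat_lit 5) (nat_lit 379) (nat_lit 292) (nat_lit 229))))))) (XT.nd (nat_lit 41886) (nat_lit 0) (nat_lit 28956) (XT.nd (nat_lit 312) (nat_lit 456) (nat_lit 0) (XT.nd (nat_lit 156) (nat_lit 456) (nat_lit 0) (XT.nd (nat_lit 78) (nat_lit 0) (nat_lit 0) (XT.lf (nat_lit 0) (nat_lit 4419804019) (nat_lit 152) (nat_lit 5825530826) (nat_lit 228) (nat_lit 6933756599) (nat_lit 40) (nat_lit 5) (nat_lit 42) (nat_lit 5) (nat_lit 43) (nat_lit 5) (nat_lit 380) (nat_lit 292) (nat_lit 228)) (XT.lf (nat_lit 0) (nat_lit 16332383964) (nat_lit 228) (nat_lit 118563844) (nat_lit 76) (nat_lit 1091526386) (nat_lit 40) (nat_lit 5) (nat_lit 43) (nat_lit 5) (nat_lit 41) (nat_lit 5) (nat_lit 381) (nat_lit 292) (nat_lit 227))) (XT.nd (nat_lit 78) (nat_lit 152) (nat_lit 0) (XT.lf (nat_lit 0) (nat_lit 4696758361) (nat_lit 304) (nat_lit 5000507896) (nat_lit 76) (nat_lit 8217436558) (nat_lit 36) (nat_lit 5) (nat_lit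 40) (nat_lit 5) (nat_lit 37) (nat_lit 5) (nat_lit 382) (nat_lit 292) (nat_lit 226)) (XT.lf (nat_lit 0) (nat_lit 8053230981) (nat_lit 152) (nat_lit 2714352837) (nat_lit 228) (nat_lit 7530301144) (nat_lit 34) (nat_lit 5) (nat_lit 36) (nat_lit 5) (nat_lit 37) (nat_lit 5) (nat_lit 383) (nat_lit 292) (nat_lit 225)))) (XT.nd (nat_lit 156) (nat_lit 152) (nat_lit 0) (XT.nd (nat_lit 78) (nat_lit 76) (nat_lit 0) (XT.lf (nat_lit 0) (nat_lit 2797395136) (nat_lit 228) (nat_lit 14255186337) (nat_lit 304) (nat_lit 1639350711) (nat_lit 31) (nat_lit 5) (nat_lit 34) (nat_lit 5) (nat_lit 35) (nat_lit 5) (nat_lit 384) (nat_lit 292) (nat_lit 224)) (XT.lf (nat_lit 0) (nat_lit 4409545140) (nat_lit 304) (nat_lit 2857255400) (nat_lit 76) (nat_lit 11829649395) (nat_lit 30) (nat_lit 5) (nat_lit 34) (nat_lit 5) (nat_lit 31) (nat_lit 5) (nat_lit 385) (nat_lit 292) (nat_lit 223))) (XT.nd (nat_lit 41262) (nat_lit 0) (nat_lit 41040)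 (XT.lf (nat_lit 0) (nat_lit 10617474733) (nat_lit 152) (nat_lit 21905368) (nat_lit 228) (nat_lit 8873081262) (nat_lit 28) (nat_lit 5) (nat_lit 30) (nat_lit 5) (nat_lit 31) (nat_lit 5) (nat_lit 386) (nat_lit 292) (nat_lit 222)) (XT.nd (nat_lit 78) (nat_lit 988) (nat_lit 0) (XT.lf (nat_lit 0) (nat_lit 1147800280) (nat_lit 836) (nat_lit 1090859992) (nat_lit 836) (nat_lit 1090859992) (nat_lit 581) (nat_lit 4) (nat_lit 592) (nat_lit 5) (nat_lit 592) (nat_lit 4) (nat_lit 314) (nat_lit 293) (nat_lit 293)) (XT.lf (nat_lit 0) (nat_lit 1726583414) (nat_lit 912) (nat_lit 746067627) (nat_lit 988) (nat_lit 4219179034) (nat_lit 568) (nat_lit 5) (nat_lit 580) (nat_lit 5) (nat_lit 581) (nat_lit 4) (nat_lit 315) (nat_lit 293) (nat_lit 292)))))) (XT.nd (nat_lit 390) (nat_lit 7448) (nat_lit 0) (XT.nd (nat_lit 156) (nat_lit 2508) (nat_lit 0) (XT.nd (nat_lit 78) (nat_lit 1064) (nat_lit 0) (XT.lf (nat_lit 0) (nat_lit 391459641)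 (nat_lit 1064) (nat_lit 5524108300) (nat_lit 76) (nat_lit 812092389) (nat_lit 554) (nat_lit 5) (nat_lit 568) (nat_lit 5) (nat_lit 555) (nat_lit 4) (nat_lit 316) (nat_lit 293) (nat_lit 291)) (XT.lf (nat_lit 0) (nat_lit 713140861) (nat_lit 1064) (nat_lit 4261195605) (nat_lit 1140) (nat_lit 1791983672) (nat_lit 540) (nat_lit 5) (nat_lit 554) (nat_lit 5) (nat_lit 555) (nat_lit 4) (nat_lit 317) (nat_lit 293) (nat_lit 290))) (XT.nd (nat_lit 78) (nat_lit 1292) (nat_lit 0) (XT.lf (nat_lit 0) (nat_lit 267861874) (nat_lit 1140) (nat_lit 2472192500) (nat_lit 1216) (nat_lit 4068053341) (nat_lit 524) (nat_lit 5) (nat_lit 539) (nat_lit 5) (nat_lit 540) (nat_lit 5) (nat_lit 318) (nat_lit 293) (nat_lit 289)) (XT.nd (nat_lit 78) (nat_lit 1216) (nat_lit 0) (XT.lf (nat_lit 0) (nat_lit 419596947) (nat_lit 1216) (nat_lit 129021221) (nat_lit 76) (nat_lit 6304473223) (nat_lit 523) (nat_lit 5) (nat_lit 539) (nat_lit 5) (nat_lit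 524) (nat_lit 5) (nat_lit 319) (nat_lit 293) (nat_lit 288)) (XT.lf (nat_lit 0) (nat_lit 4895184801) (nat_lit 1292) (nat_lit 500348914) (nat_lit 76) (nat_lit 1505302246) (nat_lit 507) (nat_lit 5) (nat_lit 524) (nat_lit 5) (nat_lit 508) (nat_lit 5) (nat_lit 320) (nat_lit 293) (nat_lit 287))))) (XT.nd (nat_lit 156) (nat_lit 4712) (nat_lit 0) (XT.nd (nat_lit 78) (nat_lit 1368) (nat_lit 0) (XT.lf (nat_lit 0) (nat_lit 2425409849) (nat_lit 1368) (nat_lit 835502043) (nat_lit 76) (nat_lit 3690806262) (nat_lit 489) (nat_lit 5) (nat_lit 507) (nat_lit 5) (nat_lit 490) (nat_lit 5) (nat_lit 321) (nat_lit 293) (nat_lit 286)) (XT.lf (nat_lit 0) (nat_lit 5875821511) (nat_lit 1368) (nat_lit 990599549) (nat_lit 1444) (nat_lit 139466816) (nat_lit 471) (nat_lit 5) (nat_lit 489) (nat_lit 5) (nat_lit 490) (nat_lit 5) (nat_lit 322) (nat_lit 293) (nat_lit 285))) (XT.nd (nat_lit 78) (nat_lit 3192) (nat_lit 0) (XT.lf (nat_lit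 0) (nat_lit 4238097676) (nat_lit 1520) (nat_lit 1410036980) (nat_lit 76) (nat_lit 1414754618) (nat_lit 451) (nat_lit 5) (nat_lit 471) (nat_lit 5) (nat_lit 452) (nat_lit 5) (nat_lit 323) (nat_lit 293) (nat_lit 284)) (XT.nd (nat_lit 78) (nat_lit 1596) (nat_lit 0) (XT.lf (nat_lit 0) (nat_lit 1519482379) (nat_lit 1596) (nat_lit 1658496353) (nat_lit 76) (nat_lit 3945148538) (nat_lit 430) (nat_lit 5) (nat_lit 451) (nat_lit 5) (nat_lit 431) (nat_lit 5) (nat_lit 324) (nat_lit 293) (nat_lit 283)) (XT.lf (nat_lit 0) (nat_lit 5308038640) (nat_lit 1596) (nat_lit 562094891) (nat_lit 1672) (nat_lit 1316475027) (nat_lit 409) (nat_lit 5) (nat_lit 430) (nat_lit 5) (nat_lit 431) (nat_lit 5) (nat_lit 325) (nat_lit 293) (nat_lit 282))))))))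
noncomputable def xc35 : XT := (XT.nd (nat_lit 1482) (nat_lit 8056) (nat_lit 0) (XT.nd (nat_lit 702) (nat_lit 6688) (nat_lit 0) (XT.nd (nat_lit 312) (nat_lit 4104) (nat_lit 0) (XT.nd (nat_lit 156) (nat_lit 1900) (nat_lit 0) (XT.nd (nat_lit 78) (nat_lit 1824) (nat_lit 0) (XT.lf (nat_lit 0) (nat_lit 2990110126) (nat_lit 1748) (nat_lit 2087699022) (nat_lit 76) (nat_lit 2175247119) (nat_lit 386) (nat_lit 5) (nat_lit 409) (nat_lit 5) (nat_lit 387) (nat_lit 5) (nat_lit 326) (nat_lit 293) (nat_lit 281)) (XT.lf (nat_lit 0) (nat_lit 9623003) (nat_lit 1824) (nat_lit 2267169842) (nat_lit 76) (nat_lit 5046126648) (nat_lit 362) (nat_lit 5) (nat_lit 386) (nat_lit 5) (nat_lit 363) (nat_lit 5) (nat_lit 327) (nat_lit 293) (nat_lit 280))) (XT.nd (nat_lit 78) (nat_lit 988) (nat_lit 0) (XT.lf (nat_lit 0) (nat_lit 4280802423) (nat_lit 988) (nat_lit 2439066317) (nat_lit 76) (nat_lit 675965629) (nat_lit 350) (nat_lit 5)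 (nat_lit 363) (nat_lit 5) (nat_lit 351) (nat_lit 5) (nat_lit 328) (nat_lit 293) (nat_lit 279)) (XT.lf (nat_lit 0) (nat_lit 1135166128) (nat_lit 988) (nat_lit 2596232570) (nat_lit 76) (nat_lit 3740626250) (nat_lit 337) (nat_lit 5) (nat_lit 350) (nat_lit 5) (nat_lit 338) (nat_lit 5) (nat_lit 329) (nat_lit 293) (nat_lit 278)))) (XT.nd (nat_lit 156) (nat_lit 2356) (nat_lit 0) (XT.nd (nat_lit 78) (nat_lit 912) (nat_lit 0) (XT.lf (nat_lit 0) (nat_lit 4812700341) (nat_lit 836) (nat_lit 587740046) (nat_lit 912) (nat_lit 2151130987) (nat_lit 326) (nat_lit 5) (nat_lit 337) (nat_lit 5) (nat_lit 338) (nat_lit 5) (nat_lit 330) (nat_lit 293) (nat_lit 277)) (XT.lf (nat_lit 0) (nat_lit 2081698606) (nat_lit 912) (nat_lit 2879924365) (nat_lit 76) (nat_lit 2672679420) (nat_lit 314) (nat_lit 5) (nat_lit 326) (nat_lit 5) (nat_lit 315) (nat_lit 5) (nat_lit 331) (nat_lit 293) (nat_lit 276))) (XT.nd (nat_lit 78) (nat_lit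 1596) (nat_lit 0) (XT.lf (nat_lit 0) (nat_lit 4711380029) (nat_lit 760) (nat_lit 1640425358) (nat_lit 836) (nat_lit 1368708928) (nat_lit 304) (nat_lit 5) (nat_lit 314) (nat_lit 5) (nat_lit 315) (nat_lit 5) (nat_lit 332) (nat_lit 293) (nat_lit 275)) (XT.nd (nat_lit 78) (nat_lit 760) (nat_lit 0) (XT.lf (nat_lit 0) (nat_lit 2851994550) (nat_lit 836) (nat_lit 3141415908) (nat_lit 76) (nat_lit 1816593246) (nat_lit 293) (nat_lit 5) (nat_lit 304) (nat_lit 5) (nat_lit 294) (nat_lit 5) (nat_lit 333) (nat_lit 293) (nat_lit 274)) (XT.lf (nat_lit 0) (nat_lit 4634060892) (nat_lit 760) (nat_lit 2498640719) (nat_lit 836) (nat_lit 770323780) (nat_lit 283) (nat_lit 5) (nat_lit 293) (nat_lit 5) (nat_lit 294) (nat_lit 5) (nat_lit 334) (nat_lit 293) (nat_lit 273)))))) (XT.nd (nat_lit 390) (nat_lit 3040) (nat_lit 0) (XT.nd (nat_lit 156) (nat_lit 2128) (nat_lit 0) (XT.nd (nat_lit 78) (nat_lit 684) (nat_lit 0) (XT.lf (nat_lit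 0) (nat_lit 3447311542) (nat_lit 836) (nat_lit 3404549786) (nat_lit 76) (nat_lit 1147565441) (nat_lit 272) (nat_lit 5) (nat_lit 283) (nat_lit 5) (nat_lit 273) (nat_lit 5) (nat_lit 335) (nat_lit 293) (nat_lit 272)) (XT.lf (nat_lit 0) (nat_lit 4556721388) (nat_lit 684) (nat_lit 3187142134) (nat_lit 760) (nat_lit 355560711) (nat_lit 263) (nat_lit 5) (nat_lit 272) (nat_lit 5) (nat_lit 273) (nat_lit 5) (nat_lit 336) (nat_lit 293) (nat_lit 271))) (XT.nd (nat_lit 78) (nat_lit 1368) (nat_lit 0) (XT.lf (nat_lit 0) (nat_lit 3867366034) (nat_lit 760) (nat_lit 3694065733) (nat_lit 76) (nat_lit 641484614) (nat_lit 253) (nat_lit 5) (nat_lit 263) (nat_lit 5) (nat_lit 254) (nat_lit 5) (nat_lit 337) (nat_lit 293) (nat_lit 270)) (XT.nd (nat_lit 78) (nat_lit 760) (nat_lit 0) (XT.lf (nat_lit 0) (nat_lit 4454369886) (nat_lit 608) (nat_lit 3730108845) (nat_lit 684) (nat_lit 125599152) (nat_lit 245) (nat_lit 5) (nat_lit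 253) (nat_lit 5) (nat_lit 254) (nat_lit 5) (nat_lit 338) (nat_lit 293) (nat_lit 269)) (XT.lf (nat_lit 0) (nat_lit 4110295915) (nat_lit 760) (nat_lit 4035838213) (nat_lit 76) (nat_lit 274731330) (nat_lit 235) (nat_lit 5) (nat_lit 245) (nat_lit 5) (nat_lit 236) (nat_lit 5) (nat_lit 339) (nat_lit 293) (nat_lit 268))))) (XT.nd (nat_lit 156) (nat_lit 1748) (nat_lit 0) (XT.nd (nat_lit 78) (nat_lit 684) (nat_lit 0) (XT.lf (nat_lit 0) (nat_lit 4300800655) (nat_lit 608) (nat_lit 4151344318) (nat_lit 684) (nat_lit 83257168) (nat_lit 227) (nat_lit 5) (nat_lit 235) (nat_lit 5) (nat_lit 236) (nat_lit 5) (nat_lit 340) (nat_lit 293) (nat_lit 267)) (XT.lf (nat_lit 0) (nat_lit 4172609665) (nat_lit 684) (nat_lit 4457128485) (nat_lit 76) (nat_lit 23978387) (nat_lit 218) (nat_lit 5) (nat_lit 227) (nat_lit 5) (nat_lit 219) (nat_lit 5) (nat_lit 341) (nat_lit 293) (nat_lit 266))) (XT.nd (nat_lit 78) (nat_lit 1216) (nat_lit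 0) (XT.lf (nat_lit 0) (nat_lit 4068334489) (nat_lit 532) (nat_lit 4474478923) (nat_lit 608) (nat_lit 233049783) (nat_lit 211) (nat_lit 5) (nat_lit 218) (nat_lit 5) (nat_lit 219) (nat_lit 5) (nat_lit 342) (nat_lit 293) (nat_lit 265)) (XT.nd (nat_lit 78) (nat_lit 532) (nat_lit 0) (XT.lf (nat_lit 0) (nat_lit 3914210841) (nat_lit 608) (nat_lit 135792252) (nat_lit 684) (nat_lit 4851942872) (nat_lit 202) (nat_lit 5) (nat_lit 210) (nat_lit 5) (nat_lit 211) (nat_lit 5) (nat_lit 343) (nat_lit 293) (nat_lit 264)) (XT.lf (nat_lit 0) (nat_lit 3727541579) (nat_lit 532) (nat_lit 4723175990) (nat_lit 608) (nat_lit 581262023) (nat_lit 195) (nat_lit 5) (nat_lit 202) (nat_lit 5) (nat_lit 203) (nat_lit 5) (nat_lit 344) (nat_lit 293) (nat_lit 263))))))) (XT.nd (nat_lit 780) (nat_lit 3420) (nat_lit 0) (XT.nd (nat_lit 390) (nat_lit 1900) (nat_lit 0) (XT.nd (nat_lit 156) (nat_lit 1596) (nat_lit 0) (XT.nd (nat_lit 78) (nat_lit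 532) (nat_lit 0) (XT.lf (nat_lit 0) (nat_lit 3508786598) (nat_lit 532) (nat_lit 225549087) (nat_lit 608) (nat_lit 5431789236) (nat_lit 187) (nat_lit 5) (nat_lit 194) (nat_lit 5) (nat_lit 195) (nat_lit 5) (nat_lit 345) (nat_lit 293) (nat_lit 262)) (XT.lf (nat_lit 0) (nat_lit 3246944045) (nat_lit 532) (nat_lit 4921342952) (nat_lit 608) (nat_lit 1136037538) (nat_lit 180) (nat_lit 5) (nat_lit 187) (nat_lit 5) (nat_lit 188) (nat_lit 5) (nat_lit 346) (nat_lit 293) (nat_lit 261))) (XT.nd (nat_lit 78) (nat_lit 988) (nat_lit 0) (XT.lf (nat_lit 0) (nat_lit 2947806286) (nat_lit 532) (nat_lit 268969498) (nat_lit 608) (nat_lit 6230081312) (nat_lit 172) (nat_lit 5) (nat_lit 179) (nat_lit 5) (nat_lit 180) (nat_lit 5) (nat_lit 347) (nat_lit 293) (nat_lit 260)) (XT.nd (nat_lit 78) (nat_lit 532) (nat_lit 0) (XT.lf (nat_lit 0) (nat_lit 2592695346) (nat_lit 456) (nat_lit 5093349374) (nat_lit 532) (nat_lit 1907483822)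 (nat_lit 166) (nat_lit 5) (nat_lit 172) (nat_lit 5) (nat_lit 173) (nat_lit 5) (nat_lit 348) (nat_lit 293) (nat_lit 259)) (XT.lf (nat_lit 0) (nat_lit 2196066261) (nat_lit 456) (nat_lit 290604589) (nat_lit 532) (nat_lit 7258131055) (nat_lit 159) (nat_lit 5) (nat_lit 165) (nat_lit 5) (nat_lit 166) (nat_lit 5) (nat_lit 349) (nat_lit 293) (nat_lit 258))))) (XT.nd (nat_lit 156) (nat_lit 912) (nat_lit 0) (XT.nd (nat_lit 78) (nat_lit 532) (nat_lit 0) (XT.lf (nat_lit 0) (nat_lit 1728233527) (nat_lit 456) (nat_lit 5264253753) (nat_lit 532) (nat_lit 2907795202) (nat_lit 153) (nat_lit 5) (nat_lit 159) (nat_lit 5) (nat_lit 160) (nat_lit 5) (nat_lit 350) (nat_lit 293) (nat_lit 257)) (XT.lf (nat_lit 0) (nat_lit 1215467806) (nat_lit 456) (nat_lit 315792789) (nat_lit 532) (nat_lit 8529420286) (nat_lit 146) (nat_lit 5) (nat_lit 152) (nat_lit 5) (nat_lit 153) (nat_lit 5) (nat_lit 351) (nat_lit 293) (nat_lit 256))) (XT.nd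 (nat_lit 78) (nat_lit 532) (nat_lit 0) (XT.lf (nat_lit 0) (nat_lit 613905021) (nat_lit 380) (nat_lit 5460041090) (nat_lit 456) (nat_lit 4151394918) (nat_lit 141) (nat_lit 5) (nat_lit 146) (nat_lit 5) (nat_lit 147) (nat_lit 5) (nat_lit 352) (nat_lit 293) (nat_lit 255)) (XT.nd (nat_lit 78) (nat_lit 456) (nat_lit 0) (XT.lf (nat_lit 0) (nat_lit 335758099) (nat_lit 456) (nat_lit 34911487) (nat_lit 76) (nat_lit 10024607144) (nat_lit 140) (nat_lit 5) (nat_lit 146) (nat_lit 5) (nat_lit 141) (nat_lit 5) (nat_lit 353) (nat_lit 293) (nat_lit 254)) (XT.lf (nat_lit 0) (nat_lit 4919580304) (nat_lit 532) (nat_lit 783038446) (nat_lit 76) (nat_lit 4866804761) (nat_lit 134) (nat_lit 5) (nat_lit 141) (nat_lit 5) (nat_lit 135) (nat_lit 5) (nat_lit 354) (nat_lit 293) (nat_lit 253)))))) (XT.nd (nat_lit 390) (nat_lit 1444) (nat_lit 0) (XT.nd (nat_lit 156) (nat_lit 1140) (nat_lit 0) (XT.nd (nat_lit 78) (nat_lit 456) (nat_lit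 0) (XT.lf (nat_lit 0) (nat_lit 9161259879) (nat_lit 380) (nat_lit 465558073) (nat_lit 456) (nat_lit 1122288766) (nat_lit 129) (nat_lit 5) (nat_lit 134) (nat_lit 5) (nat_lit 135) (nat_lit 5) (nat_lit 355) (nat_lit 293) (nat_lit 252)) (XT.lf (nat_lit 0) (nat_lit 3511935455) (nat_lit 456) (nat_lit 2507592368) (nat_lit 76) (nat_lit 4913875663) (nat_lit 123) (nat_lit 5) (nat_lit 129) (nat_lit 5) (nat_lit 124) (nat_lit 5) (nat_lit 356) (nat_lit 293) (nat_lit 251))) (XT.nd (nat_lit 78) (nat_lit 760) (nat_lit 0) (XT.lf (nat_lit 0) (nat_lit 7618668502) (nat_lit 380) (nat_lit 640734663) (nat_lit 456) (nat_lit 2863916100) (nat_lit 118) (nat_lit 5) (nat_lit 123) (nat_lit 5) (nat_lit 124) (nat_lit 5) (nat_lit 357) (nat_lit 293) (nat_lit 250)) (XT.nd (nat_lit 78) (nat_lit 304) (nat_lit 0) (XT.lf (nat_lit 0) (nat_lit 1826154411) (nat_lit 456) (nat_lit 4618668545) (nat_lit 76) (nat_lit 4873502352) (nat_lit 112) (nat_lit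 5) (nat_lit 118) (nat_lit 5) (nat_lit 113) (nat_lit 5) (nat_lit 358) (nat_lit 293) (nat_lit 249)) (XT.lf (nat_lit 0) (nat_lit 5682429925) (nat_lit 304) (nat_lit 929022820) (nat_lit 380) (nat_lit 4907507128) (nat_lit 108) (nat_lit 5) (nat_lit 112) (nat_lit 5) (nat_lit 113) (nat_lit 5) (nat_lit 359) (nat_lit 293) (nat_lit 248))))) (XT.nd (nat_lit 156) (nat_lit 684) (nat_lit 0) (XT.nd (nat_lit 78) (nat_lit 380) (nat_lit 0) (XT.lf (nat_lit 0) (nat_lit 4552120921) (nat_lit 380) (nat_lit 7009405496) (nat_lit 456) (nat_lit 163687634) (nat_lit 103) (nat_lit 5) (nat_lit 108) (nat_lit 5) (nat_lit 109) (nat_lit 5) (nat_lit 360) (nat_lit 293) (nat_lit 247)) (XT.lf (nat_lit 0) (nat_lit 3295012332) (nat_lit 304) (nat_lit 1363108837) (nat_lit 380) (nat_lit 7278992958) (nat_lit 98) (nat_lit 5) (nat_lit 102) (nat_lit 5) (nat_lit 103) (nat_lit 5) (nat_lit 361) (nat_lit 293) (nat_lit 246))) (XT.nd (nat_lit 78) (nat_lit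 380) (nat_lit 0) (XT.lf (nat_lit 0) (nat_lit 1909716845) (nat_lit 304) (nat_lit 7734202528) (nat_lit 380) (nat_lit 2511022026) (nat_lit 94) (nat_lit 5) (nat_lit 98) (nat_lit 5) (nat_lit 99) (nat_lit 5) (nat_lit 362) (nat_lit 293) (nat_lit 245)) (XT.nd (nat_lit 78) (nat_lit 0) (nat_lit 0) (XT.lf (nat_lit 0) (nat_lit 393166252) (nat_lit 304) (nat_lit 1978128173) (nat_lit 380) (nat_lit 10007663672) (nat_lit 89) (nat_lit 5) (nat_lit 93) (nat_lit 5) (nat_lit 94) (nat_lit 5) (nat_lit 363) (nat_lit 293) (nat_lit 244)) (XT.lf (nat_lit 0) (nat_lit 7394923867) (nat_lit 380) (nat_lit 1264824671) (nat_lit 76) (nat_lit 3949056901) (nat_lit 89) (nat_lit 5) (nat_lit 94) (nat_lit 5) (nat_lit 90) (nat_lit 5) (nat_lit 364) (nat_lit 293) (nat_lit 243))))))))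
noncomputable def xc36 : XT := (XT.nd (nat_lit 1482) (nat_lit 608) (nat_lit 0) (XT.nd (nat_lit 702) (nat_lit 1748) (nat_lit 0) (XT.nd (nat_lit 312) (nat_lit 1064) (nat_lit 0) (XT.nd (nat_lit 156) (nat_lit 608) (nat_lit 0) (XT.nd (nat_lit 78) (nat_lit 304) (nat_lit 0) (XT.lf (nat_lit 0) (nat_lit 9791442215) (nat_lit 304) (nat_lit 2789795142) (nat_lit 380) (nat_lit 264091989) (nat_lit 85) (nat_lit 5) (nat_lit 89) (nat_lit 5) (nat_lit 90) (nat_lit 5) (nat_lit 365) (nat_lit 293) (nat_lit 242)) (XT.lf (nat_lit 0) (nat_lit 4789378373) (nat_lit 304) (nat_lit 5028173462) (nat_lit 76) (nat_lit 3270417287) (nat_lit 81) (nat_lit 5) (nat_lit 85) (nat_lit 5) (nat_lit 82) (nat_lit 5) (nat_lit 366) (nat_lit 293) (nat_lit 241))) (XT.nd (nat_lit 78) (nat_lit 304) (nat_lit 0) (XT.lf (nat_lit 0) (nat_lit 6171450896) (nat_lit 304) (nat_lit 3835949880) (nat_lit 380) (nat_lit 3330140766) (nat_lit 77) (nat_lit 5) (nat_lit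 81) (nat_lit 5) (nat_lit 82) (nat_lit 5) (nat_lit 367) (nat_lit 293) (nat_lit 240)) (XT.lf (nat_lit 0) (nat_lit 1778064475) (nat_lit 304) (nat_lit 9484875747) (nat_lit 76) (nat_lit 2331164114) (nat_lit 73) (nat_lit 5) (nat_lit 77) (nat_lit 5) (nat_lit 74) (nat_lit 5) (nat_lit 368) (nat_lit 293) (nat_lit 239)))) (XT.nd (nat_lit 156) (nat_lit 760) (nat_lit 0) (XT.nd (nat_lit 78) (nat_lit 0) (nat_lit 0) (XT.lf (nat_lit 0) (nat_lit 1840644917) (nat_lit 304) (nat_lit 5179038215) (nat_lit 380) (nat_lit 6837750055) (nat_lit 69) (nat_lit 5) (nat_lit 73) (nat_lit 5) (nat_lit 74) (nat_lit 5) (nat_lit 369) (nat_lit 293) (nat_lit 238)) (XT.lf (nat_lit 0) (nat_lit 12429892244) (nat_lit 380) (nat_lit 597234999) (nat_lit 76) (nat_lit 1101324942) (nat_lit 69) (nat_lit 5) (nat_lit 74) (nat_lit 5) (nat_lit 70) (nat_lit 5) (nat_lit 370) (nat_lit 293) (nat_lit 237))) (XT.nd (nat_lit 78) (nat_lit 456) (nat_lit 0) (XT.lf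 (nat_lit 0) (nat_lit 3596541248) (nat_lit 304) (nat_lit 3248664983) (nat_lit 76) (nat_lit 7560967384) (nat_lit 65) (nat_lit 5) (nat_lit 69) (nat_lit 5) (nat_lit 66) (nat_lit 5) (nat_lit 371) (nat_lit 293) (nat_lit 236)) (XT.nd (nat_lit 78) (nat_lit 228) (nat_lit 0) (XT.lf (nat_lit 0) (nat_lit 8587650080) (nat_lit 228) (nat_lit 441776963) (nat_lit 304) (nat_lit 5662550747) (nat_lit 62) (nat_lit 5) (nat_lit 65) (nat_lit 5) (nat_lit 66) (nat_lit 5) (nat_lit 372) (nat_lit 293) (nat_lit 235)) (XT.lf (nat_lit 0) (nat_lit 5779403487) (nat_lit 228) (nat_lit 8888429689) (nat_lit 304) (nat_lit 317687601) (nat_lit 59) (nat_lit 5) (nat_lit 62) (nat_lit 5) (nat_lit 63) (nat_lit 5) (nat_lit 373) (nat_lit 293) (nat_lit 234)))))) (XT.nd (nat_lit 390) (nat_lit 760) (nat_lit 0) (XT.nd (nat_lit 156) (nat_lit 684) (nat_lit 0) (XT.nd (nat_lit 78) (nat_lit 0) (nat_lit 0) (XT.lf (nat_lit 0) (nat_lit 2721806256) (nat_lit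 228) (nat_lit 2403518439) (nat_lit 304) (nat_lit 10161769592) (nat_lit 55) (nat_lit 5) (nat_lit 58) (nat_lit 5) (nat_lit 59) (nat_lit 5) (nat_lit 374) (nat_lit 293) (nat_lit 233)) (XT.lf (nat_lit 0) (nat_lit 10762281554) (nat_lit 304) (nat_lit 585702633) (nat_lit 76) (nat_lit 4249003604) (nat_lit 55) (nat_lit 5) (nat_lit 59) (nat_lit 5) (nat_lit 56) (nat_lit 5) (nat_lit 375) (nat_lit 293) (nat_lit 232))) (XT.nd (nat_lit 78) (nat_lit 380) (nat_lit 0) (XT.lf (nat_lit 0) (nat_lit 682565883) (nat_lit 304) (nat_lit 4117746911) (nat_lit 76) (nat_lit 11115015129) (nat_lit 51) (nat_lit 5) (nat_lit 55) (nat_lit 5) (nat_lit 52) (nat_lit 5) (nat_lit 376) (nat_lit 293) (nat_lit 231)) (XT.nd (nat_lit 78) (nat_lit 152) (nat_lit 0) (XT.lf (nat_lit 0) (nat_lit 6317588150) (nat_lit 304) (nat_lit 7950766455) (nat_lit 76) (nat_lit 1973879288) (nat_lit 48) (nat_lit 5) (nat_lit 52) (nat_lit 5) (nat_lit 49) (nat_lit 5)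 (nat_lit 377) (nat_lit 293) (nat_lit 230)) (XT.lf (nat_lit 0) (nat_lit 4489047831) (nat_lit 152) (nat_lit 7669346325) (nat_lit 228) (nat_lit 4419830961) (nat_lit 46) (nat_lit 5) (nat_lit 48) (nat_lit 5) (nat_lit 49) (nat_lit 5) (nat_lit 378) (nat_lit 293) (nat_lit 229))))) (XT.nd (nat_lit 156) (nat_lit 456) (nat_lit 0) (XT.nd (nat_lit 78) (nat_lit 0) (nat_lit 0) (XT.lf (nat_lit 0) (nat_lit 396656618) (nat_lit 228) (nat_lit 841895326) (nat_lit 304) (nat_lit 15685497536) (nat_lit 42) (nat_lit 5) (nat_lit 45) (nat_lit 5) (nat_lit 46) (nat_lit 5) (nat_lit 379) (nat_lit 293) (nat_lit 228)) (XT.lf (nat_lit 0) (nat_lit 7078370134) (nat_lit 304) (nat_lit 4013479402) (nat_lit 76) (nat_lit 6186391866) (nat_lit 42) (nat_lit 5) (nat_lit 46) (nat_lit 5) (nat_lit 43) (nat_lit 5) (nat_lit 380) (nat_lit 293) (nat_lit 227))) (XT.nd (nat_lit 78) (nat_lit 304) (nat_lit 0) (XT.lf (nat_lit 0) (nat_lit 8902393944) (nat_lit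 152) (nat_lit 4204647483) (nat_lit 228) (nat_lit 4535755909) (nat_lit 40) (nat_lit 5) (nat_lit 42) (nat_lit 5) (nat_lit 43) (nat_lit 5) (nat_lit 381) (nat_lit 293) (nat_lit 226)) (XT.nd (nat_lit 78) (nat_lit 0) (nat_lit 0) (XT.lf (nat_lit 0) (nat_lit 1305692249) (nat_lit 304) (nat_lit 13831367562) (nat_lit 76) (nat_lit 2880583696) (nat_lit 36) (nat_lit 5) (nat_lit 40) (nat_lit 5) (nat_lit 37) (nat_lit 5) (nat_lit 382) (nat_lit 293) (nat_lit 225)) (XT.lf (nat_lit 0) (nat_lit 7300328360) (nat_lit 304) (nat_lit 924267913) (nat_lit 76) (nat_lit 10177758369) (nat_lit 36) (nat_lit 5) (nat_lit 40) (nat_lit 5) (nat_lit 37) (nat_lit 5) (nat_lit 383) (nat_lit 293) (nat_lit 224))))))) (XT.nd (nat_lit 41730) (nat_lit 0) (nat_lit 25384) (XT.nd (nat_lit 41340) (nat_lit 0) (nat_lit 38836) (XT.nd (nat_lit 156) (nat_lit 152) (nat_lit 0) (XT.nd (nat_lit 78) (nat_lit 304) (nat_lit 0) (XT.lf (nat_lit 0) (nat_lit 12452517161)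 (nat_lit 152) (nat_lit 1056027724) (nat_lit 228) (nat_lit 5289397651) (nat_lit 34) (nat_lit 5) (nat_lit 36) (nat_lit 5) (nat_lit 37) (nat_lit 5) (nat_lit 384) (nat_lit 293) (nat_lit 223)) (XT.lf (nat_lit 0) (nat_lit 735180714) (nat_lit 304) (nat_lit 12200790031) (nat_lit 76) (nat_lit 6268412090) (nat_lit 30) (nat_lit 5) (nat_lit 34) (nat_lit 5) (nat_lit 31) (nat_lit 5) (nat_lit 385) (nat_lit 293) (nat_lit 222))) (XT.nd (nat_lit 41106) (nat_lit 0) (nat_lit 43700) (XT.lf (nat_lit 0) (nat_lit 1110051544) (nat_lit 152) (nat_lit 5770605157) (nat_lit 228) (nat_lit 12741429408) (nat_lit 28) (nat_lit 5) (nat_lit 30) (nat_lit 5) (nat_lit 31) (nat_lit 5) (nat_lit 386) (nat_lit 293) (nat_lit 221)) (XT.lf (nat_lit 0) (nat_lit 1825671909) (nat_lit 684) (nat_lit 737460708) (nat_lit 684) (nat_lit 737460708) (nat_lit 603) (nat_lit 4) (nat_lit 612) (nat_lit 5) (nat_lit 612) (nat_lit 4) (nat_lit 312) (nat_lit 294)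 (nat_lit 294)))) (XT.nd (nat_lit 156) (nat_lit 3116) (nat_lit 0) (XT.nd (nat_lit 78) (nat_lit 912) (nat_lit 0) (XT.lf (nat_lit 0) (nat_lit 2917203931) (nat_lit 760) (nat_lit 226729290) (nat_lit 836) (nat_lit 3485438873) (nat_lit 592) (nat_lit 5) (nat_lit 602) (nat_lit 5) (nat_lit 603) (nat_lit 4) (nat_lit 313) (nat_lit 294) (nat_lit 293)) (XT.lf (nat_lit 0) (nat_lit 1090518743) (nat_lit 912) (nat_lit 4431540668) (nat_lit 76) (nat_lit 1138469331) (nat_lit 580) (nat_lit 5) (nat_lit 592) (nat_lit 5) (nat_lit 581) (nat_lit 4) (nat_lit 314) (nat_lit 294) (nat_lit 292))) (XT.nd (nat_lit 78) (nat_lit 2204) (nat_lit 0) (XT.lf (nat_lit 0) (nat_lit 1583794195) (nat_lit 912) (nat_lit 4055396373) (nat_lit 988) (nat_lit 1055457155) (nat_lit 568) (nat_lit 5) (nat_lit 580) (nat_lit 5) (nat_lit 581) (nat_lit 4) (nat_lit 315) (nat_lit 294) (nat_lit 291)) (XT.nd (nat_lit 78) (nat_lit 1140) (nat_lit 0) (XT.lf (nat_lit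 0) (nat_lit 981103058) (nat_lit 988) (nat_lit 2450888210) (nat_lit 1064) (nat_lit 3299777447) (nat_lit 554) (nat_lit 5) (nat_lit 567) (nat_lit 5) (nat_lit 568) (nat_lit 5) (nat_lit 316) (nat_lit 294) (nat_lit 290)) (XT.lf (nat_lit 0) (nat_lit 427113489) (nat_lit 1064) (nat_lit 714317545) (nat_lit 1140) (nat_lit 5630633996) (nat_lit 539) (nat_lit 5) (nat_lit 553) (nat_lit 5) (nat_lit 554) (nat_lit 5) (nat_lit 317) (nat_lit 294) (nat_lit 289)))))) (XT.nd (nat_lit 390) (nat_lit 8208) (nat_lit 0) (XT.nd (nat_lit 156) (nat_lit 4028) (nat_lit 0) (XT.nd (nat_lit 78) (nat_lit 1216) (nat_lit 0) (XT.lf (nat_lit 0) (nat_lit 5571830577) (nat_lit 1140) (nat_lit 93906772) (nat_lit 76) (nat_lit 1149507766) (nat_lit 539) (nat_lit 5) (nat_lit 554) (nat_lit 5) (nat_lit 540) (nat_lit 5) (nat_lit 318) (nat_lit 294) (nat_lit 288)) (XT.lf (nat_lit 0) (nat_lit 3135995204) (nat_lit 1216) (nat_lit 577041584) (nat_lit 76)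 (nat_lit 3148308579) (nat_lit 523) (nat_lit 5) (nat_lit 539) (nat_lit 5) (nat_lit 524) (nat_lit 5) (nat_lit 319) (nat_lit 294) (nat_lit 287))) (XT.nd (nat_lit 78) (nat_lit 2736) (nat_lit 0) (XT.lf (nat_lit 0) (nat_lit 610932988) (nat_lit 1292) (nat_lit 1016740872) (nat_lit 76) (nat_lit 5283028396) (nat_lit 506) (nat_lit 5) (nat_lit 523) (nat_lit 5) (nat_lit 507) (nat_lit 5) (nat_lit 320) (nat_lit 294) (nat_lit 286)) (XT.nd (nat_lit 78) (nat_lit 1444) (nat_lit 0) (XT.lf (nat_lit 0) (nat_lit 4933992053) (nat_lit 1368) (nat_lit 1431158732) (nat_lit 76) (nat_lit 597862127) (nat_lit 489) (nat_lit 5) (nat_lit 507) (nat_lit 5) (nat_lit 490) (nat_lit 5) (nat_lit 321) (nat_lit 294) (nat_lit 285)) (XT.lf (nat_lit 0) (nat_lit 2256341038) (nat_lit 1444) (nat_lit 1820294591) (nat_lit 76) (nat_lit 2941704271) (nat_lit 470) (nat_lit 5) (nat_lit 489) (nat_lit 5) (nat_lit 471) (nat_lit 5) (nat_lit 322) (nat_lit 294)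 (nat_lit 284))))) (XT.nd (nat_lit 156) (nat_lit 5168) (nat_lit 0) (XT.nd (nat_lit 78) (nat_lit 1596) (nat_lit 0) (XT.lf (nat_lit 0) (nat_lit 4903001075) (nat_lit 1444) (nat_lit 1650166096) (nat_lit 1520) (nat_lit 523784985) (nat_lit 451) (nat_lit 5) (nat_lit 470) (nat_lit 5) (nat_lit 471) (nat_lit 5) (nat_lit 323) (nat_lit 294) (nat_lit 283)) (XT.lf (nat_lit 0) (nat_lit 3710560822) (nat_lit 1596) (nat_lit 2511254078) (nat_lit 76) (nat_lit 916719797) (nat_lit 430) (nat_lit 5) (nat_lit 451) (nat_lit 5) (nat_lit 431) (nat_lit 5) (nat_lit 324) (nat_lit 294) (nat_lit 282))) (XT.nd (nat_lit 78) (nat_lit 3496) (nat_lit 0) (XT.lf (nat_lit 0) (nat_lit 779320835) (nat_lit 1672) (nat_lit 2823960929) (nat_lit 76) (nat_lit 3600040796) (nat_lit 408) (nat_lit 5) (nat_lit 430) (nat_lit 5) (nat_lit 409) (nat_lit 5) (nat_lit 325) (nat_lit 294) (nat_lit 281)) (XT.nd (nat_lit 78) (nat_lit 1824) (nat_lit 0) (XT.lf (nat_lit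 0) (nat_lit 4154076203) (nat_lit 1672) (nat_lit 832466988) (nat_lit 1748) (nat_lit 2284742741) (nat_lit 386) (nat_lit 5) (nat_lit 408) (nat_lit 5) (nat_lit 409) (nat_lit 5) (nat_lit 326) (nat_lit 294) (nat_lit 280)) (XT.lf (nat_lit 0) (nat_lit 1889126996) (nat_lit 1824) (nat_lit 3396537721) (nat_lit 76) (nat_lit 2056725181) (nat_lit 362) (nat_lit 5) (nat_lit 386) (nat_lit 5) (nat_lit 363) (nat_lit 5) (nat_lit 327) (nat_lit 294) (nat_lit 279))))))))
noncomputable def xc37 : XT := (XT.nd (nat_lit 1482) (nat_lit 7524) (nat_lit 0) (XT.nd (nat_lit 702) (nat_lit 6232) (nat_lit 0) (XT.nd (nat_lit 312) (nat_lit 3952) (nat_lit 0) (XT.nd (nat_lit 156) (nat_lit 1748) (nat_lit 0) (XT.nd (nat_lit 78) (nat_lit 988) (nat_lit 0) (XT.lf (nat_lit 0) (nat_lit 3757491374) (nat_lit 912) (nat_lit 2331782983) (nat_lit 988) (nat_lit 1327492340) (nat_lit 350) (nat_lit 5) (nat_lit 362) (nat_lit 5) (nat_lit 363) (nat_lit 5)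 (nat_lit 328) (nat_lit 294) (nat_lit 278)) (XT.lf (nat_lit 0) (nat_lit 2817797894) (nat_lit 988) (nat_lit 3910651575) (nat_lit 76) (nat_lit 765944259) (nat_lit 337) (nat_lit 5) (nat_lit 350) (nat_lit 5) (nat_lit 338) (nat_lit 5) (nat_lit 329) (nat_lit 294) (nat_lit 277))) (XT.nd (nat_lit 78) (nat_lit 912) (nat_lit 0) (XT.lf (nat_lit 0) (nat_lit 3421306809) (nat_lit 836) (nat_lit 3596184308) (nat_lit 912) (nat_lit 557798806) (nat_lit 326) (nat_lit 5) (nat_lit 337) (nat_lit 5) (nat_lit 338) (nat_lit 5) (nat_lit 330) (nat_lit 294) (nat_lit 276)) (XT.lf (nat_lit 0) (nat_lit 3268584766) (nat_lit 836) (nat_lit 302524667) (nat_lit 912) (nat_lit 4088401409) (nat_lit 314) (nat_lit 5) (nat_lit 325) (nat_lit 5) (nat_lit 326) (nat_lit 5) (nat_lit 331) (nat_lit 294) (nat_lit 275)))) (XT.nd (nat_lit 156) (nat_lit 2356) (nat_lit 0) (XT.nd (nat_lit 78) (nat_lit 760) (nat_lit 0) (XT.lf (nat_lit 0) (nat_lit 27035292)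 (nat_lit 836) (nat_lit 4624465409) (nat_lit 76) (nat_lit 3095588340) (nat_lit 303) (nat_lit 5) (nat_lit 314) (nat_lit 5) (nat_lit 304) (nat_lit 5) (nat_lit 332) (nat_lit 294) (nat_lit 274)) (XT.lf (nat_lit 0) (nat_lit 2975701173) (nat_lit 760) (nat_lit 1177438838) (nat_lit 836) (nat_lit 3684827202) (nat_lit 293) (nat_lit 5) (nat_lit 303) (nat_lit 5) (nat_lit 304) (nat_lit 5) (nat_lit 333) (nat_lit 294) (nat_lit 273))) (XT.nd (nat_lit 78) (nat_lit 1520) (nat_lit 0) (XT.lf (nat_lit 0) (nat_lit 423983307) (nat_lit 836) (nat_lit 5096533078) (nat_lit 76) (nat_lit 2411884751) (nat_lit 282) (nat_lit 5) (nat_lit 293) (nat_lit 5) (nat_lit 283) (nat_lit 5) (nat_lit 334) (nat_lit 294) (nat_lit 272)) (XT.nd (nat_lit 78) (nat_lit 760) (nat_lit 0) (XT.lf (nat_lit 0) (nat_lit 2686514990) (nat_lit 760) (nat_lit 1873322507) (nat_lit 836) (nat_lit 3470329560) (nat_lit 272) (nat_lit 5) (nat_lit 282) (nat_lit 5) (nat_lit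 283) (nat_lit 5) (nat_lit 335) (nat_lit 294) (nat_lit 271)) (XT.lf (nat_lit 0) (nat_lit 640344217) (nat_lit 760) (nat_lit 5590939251) (nat_lit 76) (nat_lit 1900343390) (nat_lit 262) (nat_lit 5) (nat_lit 272) (nat_lit 5) (nat_lit 263) (nat_lit 5) (nat_lit 336) (nat_lit 294) (nat_lit 270)))))) (XT.nd (nat_lit 390) (nat_lit 2888) (nat_lit 0) (XT.nd (nat_lit 156) (nat_lit 1976) (nat_lit 0) (XT.nd (nat_lit 78) (nat_lit 684) (nat_lit 0) (XT.lf (nat_lit 0) (nat_lit 2376430325) (nat_lit 684) (nat_lit 2414228163) (nat_lit 760) (nat_lit 3445801987) (nat_lit 253) (nat_lit 5) (nat_lit 262) (nat_lit 5) (nat_lit 263) (nat_lit 5) (nat_lit 337) (nat_lit 294) (nat_lit 269)) (XT.lf (nat_lit 0) (nat_lit 674542301) (nat_lit 684) (nat_lit 6133098744) (nat_lit 76) (nat_lit 1537500680) (nat_lit 244) (nat_lit 5) (nat_lit 253) (nat_lit 5) (nat_lit 245) (nat_lit 5) (nat_lit 338) (nat_lit 294) (nat_lit 268))) (XT.nd (nat_lit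 78) (nat_lit 1292) (nat_lit 0) (XT.lf (nat_lit 0) (nat_lit 2019735240) (nat_lit 684) (nat_lit 2823756041) (nat_lit 760) (nat_lit 3613754166) (nat_lit 235) (nat_lit 5) (nat_lit 244) (nat_lit 5) (nat_lit 245) (nat_lit 5) (nat_lit 339) (nat_lit 294) (nat_lit 267)) (XT.nd (nat_lit 78) (nat_lit 608) (nat_lit 0) (XT.lf (nat_lit 0) (nat_lit 523397259) (nat_lit 684) (nat_lit 6749710354) (nat_lit 76) (nat_lit 1300262331) (nat_lit 226) (nat_lit 5) (nat_lit 235) (nat_lit 5) (nat_lit 227) (nat_lit 5) (nat_lit 340) (nat_lit 294) (nat_lit 266)) (XT.lf (nat_lit 0) (nat_lit 1589350976) (nat_lit 608) (nat_lit 3125253685) (nat_lit 684) (nat_lit 3978364689) (nat_lit 218) (nat_lit 5) (nat_lit 226) (nat_lit 5) (nat_lit 227) (nat_lit 5) (nat_lit 341) (nat_lit 294) (nat_lit 265))))) (XT.nd (nat_lit 156) (nat_lit 1672) (nat_lit 0) (XT.nd (nat_lit 78) (nat_lit 608) (nat_lit 0) (XT.lf (nat_lit 0) (nat_lit 182065010) (nat_lit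 608) (nat_lit 7469016472) (nat_lit 76) (nat_lit 1165704604) (nat_lit 210) (nat_lit 5) (nat_lit 218) (nat_lit 5) (nat_lit 211) (nat_lit 5) (nat_lit 342) (nat_lit 294) (nat_lit 264)) (XT.lf (nat_lit 0) (nat_lit 1056564537) (nat_lit 608) (nat_lit 3342018191) (nat_lit 684) (nat_lit 4545548054) (nat_lit 202) (nat_lit 5) (nat_lit 210) (nat_lit 5) (nat_lit 211) (nat_lit 5) (nat_lit 343) (nat_lit 294) (nat_lit 263))) (XT.nd (nat_lit 78) (nat_lit 1140) (nat_lit 0) (XT.lf (nat_lit 0) (nat_lit 752447088) (nat_lit 532) (nat_lit 7962655715) (nat_lit 608) (nat_lit 360767451) (nat_lit 195) (nat_lit 5) (nat_lit 202) (nat_lit 5) (nat_lit 203) (nat_lit 5) (nat_lit 344) (nat_lit 294) (nat_lit 262)) (XT.nd (nat_lit 78) (nat_lit 532) (nat_lit 0) (XT.lf (nat_lit 0) (nat_lit 390742159) (nat_lit 532) (nat_lit 3497502808) (nat_lit 608) (nat_lit 5323036751) (nat_lit 187) (nat_lit 5) (nat_lit 194) (nat_lit 5) (nat_lit 195)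 (nat_lit 5) (nat_lit 345) (nat_lit 294) (nat_lit 261)) (XT.lf (nat_lit 0) (nat_lit 5880775) (nat_lit 532) (nat_lit 8231396611) (nat_lit 608) (nat_lit 1113922614) (nat_lit 180) (nat_lit 5) (nat_lit 187) (nat_lit 5) (nat_lit 188) (nat_lit 5) (nat_lit 346) (nat_lit 294) (nat_lit 260))))))) (XT.nd (nat_lit 780) (nat_lit 3192) (nat_lit 0) (XT.nd (nat_lit 390) (nat_lit 2204) (nat_lit 0) (XT.nd (nat_lit 156) (nat_lit 1520) (nat_lit 0) (XT.nd (nat_lit 78) (nat_lit 532) (nat_lit 0) (XT.lf (nat_lit 0) (nat_lit 3177413742) (nat_lit 608) (nat_lit 435195503) (nat_lit 76) (nat_lit 5882363495) (nat_lit 179) (nat_lit 5) (nat_lit 187) (nat_lit 5) (nat_lit 180) (nat_lit 5) (nat_lit 347) (nat_lit 294) (nat_lit 259)) (XT.lf (nat_lit 0) (nat_lit 7563983546) (nat_lit 608) (nat_lit 912634622) (nat_lit 76) (nat_lit 1166698750) (nat_lit 172) (nat_lit 5) (nat_lit 180) (nat_lit 5) (nat_lit 173) (nat_lit 5) (nat_lit 348) (nat_lit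 294) (nat_lit 258))) (XT.nd (nat_lit 78) (nat_lit 988) (nat_lit 0) (XT.lf (nat_lit 0) (nat_lit 2256056609) (nat_lit 532) (nat_lit 1454691906) (nat_lit 76) (nat_lit 6085102298) (nat_lit 165) (nat_lit 5) (nat_lit 172) (nat_lit 5) (nat_lit 166) (nat_lit 5) (nat_lit 349) (nat_lit 294) (nat_lit 257)) (XT.nd (nat_lit 78) (nat_lit 532) (nat_lit 0) (XT.lf (nat_lit 0) (nat_lit 6678829122) (nat_lit 532) (nat_lit 2049052510) (nat_lit 76) (nat_lit 1225127964) (nat_lit 159) (nat_lit 5) (nat_lit 166) (nat_lit 5) (nat_lit 160) (nat_lit 5) (nat_lit 350) (nat_lit 294) (nat_lit 256)) (XT.lf (nat_lit 0) (nat_lit 1108769175) (nat_lit 532) (nat_lit 2710716754) (nat_lit 76) (nat_lit 6295204361) (nat_lit 152) (nat_lit 5) (nat_lit 159) (nat_lit 5) (nat_lit 153) (nat_lit 5) (nat_lit 351) (nat_lit 294) (nat_lit 255))))) (XT.nd (nat_lit 156) (nat_lit 1368) (nat_lit 0) (XT.nd (nat_lit 78) (nat_lit 380) (nat_lit 0) (XT.lf (nat_lit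 0) (nat_lit 5568013751) (nat_lit 532) (nat_lit 3442844627) (nat_lit 76) (nat_lit 1270176891) (nat_lit 146) (nat_lit 5) (nat_lit 153) (nat_lit 5) (nat_lit 147) (nat_lit 5) (nat_lit 352) (nat_lit 294) (nat_lit 254)) (XT.lf (nat_lit 0) (nat_lit 6206017326) (nat_lit 380) (nat_lit 3962963629) (nat_lit 456) (nat_lit 283262295) (nat_lit 141) (nat_lit 5) (nat_lit 146) (nat_lit 5) (nat_lit 147) (nat_lit 5) (nat_lit 353) (nat_lit 294) (nat_lit 253))) (XT.nd (nat_lit 78) (nat_lit 836) (nat_lit 0) (XT.lf (nat_lit 0) (nat_lit 4215477078) (nat_lit 532) (nat_lit 5136887460) (nat_lit 76) (nat_lit 1275853030) (nat_lit 134) (nat_lit 5) (nat_lit 141) (nat_lit 5) (nat_lit 135) (nat_lit 5) (nat_lit 354) (nat_lit 294) (nat_lit 252)) (XT.nd (nat_lit 78) (nat_lit 456) (nat_lit 0) (XT.lf (nat_lit 0) (nat_lit 4696039030) (nat_lit 380) (nat_lit 4161194411) (nat_lit 456) (nat_lit 1951991326) (nat_lit 129) (nat_lit 5) (nat_lit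 134) (nat_lit 5) (nat_lit 135) (nat_lit 5) (nat_lit 355) (nat_lit 294) (nat_lit 251)) (XT.lf (nat_lit 0) (nat_lit 2602681727) (nat_lit 456) (nat_lit 7177979531) (nat_lit 76) (nat_lit 1214790349) (nat_lit 123) (nat_lit 5) (nat_lit 129) (nat_lit 5) (nat_lit 124) (nat_lit 5) (nat_lit 356) (nat_lit 294) (nat_lit 250)))))) (XT.nd (nat_lit 390) (nat_lit 1596) (nat_lit 0) (XT.nd (nat_lit 156) (nat_lit 760) (nat_lit 0) (XT.nd (nat_lit 78) (nat_lit 456) (nat_lit 0) (XT.lf (nat_lit 0) (nat_lit 2833312700) (nat_lit 380) (nat_lit 4450360030) (nat_lit 456) (nat_lit 3903037465) (nat_lit 118) (nat_lit 5) (nat_lit 123) (nat_lit 5) (nat_lit 124) (nat_lit 5) (nat_lit 357) (nat_lit 294) (nat_lit 249)) (XT.lf (nat_lit 0) (nat_lit 708411074) (nat_lit 456) (nat_lit 9617322407) (nat_lit 76) (nat_lit 1057975331) (nat_lit 112) (nat_lit 5) (nat_lit 118) (nat_lit 5) (nat_lit 113) (nat_lit 5) (nat_lit 358) (nat_lit 294) (nat_lit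 248))) (XT.nd (nat_lit 78) (nat_lit 456) (nat_lit 0) (XT.lf (nat_lit 0) (nat_lit 565075159) (nat_lit 304) (nat_lit 4861035477) (nat_lit 380) (nat_lit 6159596985) (nat_lit 108) (nat_lit 5) (nat_lit 112) (nat_lit 5) (nat_lit 113) (nat_lit 5) (nat_lit 359) (nat_lit 294) (nat_lit 247)) (XT.nd (nat_lit 78) (nat_lit 456) (nat_lit 0) (XT.lf (nat_lit 0) (nat_lit 10287287170) (nat_lit 380) (nat_lit 717478464) (nat_lit 76) (nat_lit 788986020) (nat_lit 108) (nat_lit 5) (nat_lit 113) (nat_lit 5) (nat_lit 109) (nat_lit 5) (nat_lit 360) (nat_lit 294) (nat_lit 246)) (XT.lf (nat_lit 0) (nat_lit 3273423663) (nat_lit 456) (nat_lit 2138165767) (nat_lit 76) (nat_lit 6595438628) (nat_lit 102) (nat_lit 5) (nat_lit 108) (nat_lit 5) (nat_lit 103) (nat_lit 5) (nat_lit 361) (nat_lit 294) (nat_lit 245))))) (XT.nd (nat_lit 156) (nat_lit 912) (nat_lit 0) (XT.nd (nat_lit 78) (nat_lit 380) (nat_lit 0) (XT.lf (nat_lit 0) (nat_lit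 8173524928) (nat_lit 380) (nat_lit 3671412299) (nat_lit 76) (nat_lit 381643051) (nat_lit 98) (nat_lit 5) (nat_lit 103) (nat_lit 5) (nat_lit 99) (nat_lit 5) (nat_lit 362) (nat_lit 294) (nat_lit 244)) (XT.lf (nat_lit 0) (nat_lit 790175410) (nat_lit 380) (nat_lit 5354153066) (nat_lit 76) (nat_lit 6307665410) (nat_lit 93) (nat_lit 5) (nat_lit 98) (nat_lit 5) (nat_lit 94) (nat_lit 5) (nat_lit 363) (nat_lit 294) (nat_lit 243))) (XT.nd (nat_lit 78) (nat_lit 608) (nat_lit 0) (XT.lf (nat_lit 0) (nat_lit 5502531262) (nat_lit 304) (nat_lit 218248916) (nat_lit 380) (nat_lit 6962931714) (nat_lit 89) (nat_lit 5) (nat_lit 93) (nat_lit 5) (nat_lit 94) (nat_lit 5) (nat_lit 364) (nat_lit 294) (nat_lit 242)) (XT.nd (nat_lit 78) (nat_lit 304) (nat_lit 0) (XT.lf (nat_lit 0) (nat_lit 3748699699) (nat_lit 304) (nat_lit 7086739592) (nat_lit 380) (nat_lit 2086239472) (nat_lit 85) (nat_lit 5) (nat_lit 89) (nat_lit 5) (nat_lit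 90) (nat_lit 5) (nat_lit 365) (nat_lit 294) (nat_lit 241)) (XT.lf (nat_lit 0) (nat_lit 1844497386) (nat_lit 228) (nat_lit 1053997243) (nat_lit 304) (nat_lit 10267922602) (nat_lit 81) (nat_lit 5) (nat_lit 84) (nat_lit 5) (nat_lit 85) (nat_lit 5) (nat_lit 366) (nat_lit 294) (nat_lit 240))))))))
noncomputable def xc38 : XT := (XT.nd (nat_lit 1482) (nat_lit 304) (nat_lit 0) (XT.nd (nat_lit 702) (nat_lit 1596) (nat_lit 0) (XT.nd (nat_lit 312) (nat_lit 1064) (nat_lit 0) (XT.nd (nat_lit 156) (nat_lit 608) (nat_lit 0) (XT.nd (nat_lit 78) (nat_lit 304) (nat_lit 0) (XT.lf (nat_lit 0) (nat_lit 8039454243) (nat_lit 304) (nat_lit 244287982) (nat_lit 76) (nat_lit 5133797808) (nat_lit 81) (nat_lit 5) (nat_lit 85) (nat_lit 5) (nat_lit 82) (nat_lit 5) (nat_lit 367) (nat_lit 294) (nat_lit 239)) (XT.lf (nat_lit 0) (nat_lit 11211264965) (nat_lit 304) (nat_lit 2143794585) (nat_lit 380) (nat_lit 320746618) (nat_lit 77)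 (nat_lit 5) (nat_lit 81) (nat_lit 5) (nat_lit 82) (nat_lit 5) (nat_lit 368) (nat_lit 294) (nat_lit 238))) (XT.nd (nat_lit 78) (nat_lit 304) (nat_lit 0) (XT.lf (nat_lit 0) (nat_lit 4853554895) (nat_lit 304) (nat_lit 4903166463) (nat_lit 76) (nat_lit 4183894220) (nat_lit 73) (nat_lit 5) (nat_lit 77) (nat_lit 5) (nat_lit 74) (nat_lit 5) (nat_lit 369) (nat_lit 294) (nat_lit 237)) (XT.lf (nat_lit 0) (nat_lit 6683170605) (nat_lit 304) (nat_lit 3512310131) (nat_lit 380) (nat_lit 4017527693) (nat_lit 69) (nat_lit 5) (nat_lit 73) (nat_lit 5) (nat_lit 74) (nat_lit 5) (nat_lit 370) (nat_lit 294) (nat_lit 236)))) (XT.nd (nat_lit 156) (nat_lit 532) (nat_lit 0) (XT.nd (nat_lit 78) (nat_lit 228) (nat_lit 0) (XT.lf (nat_lit 0) (nat_lit 1210722992) (nat_lit 304) (nat_lit 10367264182) (nat_lit 76) (nat_lit 2914996887) (nat_lit 65) (nat_lit 5) (nat_lit 69) (nat_lit 5) (nat_lit 66) (nat_lit 5) (nat_lit 371) (nat_lit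 294) (nat_lit 235)) (XT.lf (nat_lit 0) (nat_lit 1328643949) (nat_lit 228) (nat_lit 5240117411) (nat_lit 304) (nat_lit 8211531393) (nat_lit 62) (nat_lit 5) (nat_lit 65) (nat_lit 5) (nat_lit 66) (nat_lit 5) (nat_lit 372) (nat_lit 294) (nat_lit 234))) (XT.nd (nat_lit 78) (nat_lit 532) (nat_lit 0) (XT.lf (nat_lit 0) (nat_lit 12111179044) (nat_lit 304) (nat_lit 1657471074) (nat_lit 76) (nat_lit 1307112737) (nat_lit 62) (nat_lit 5) (nat_lit 66) (nat_lit 5) (nat_lit 63) (nat_lit 5) (nat_lit 373) (nat_lit 294) (nat_lit 233)) (XT.nd (nat_lit 78) (nat_lit 228) (nat_lit 0) (XT.lf (nat_lit 0) (nat_lit 2457507952) (nat_lit 304) (nat_lit 4890541337) (nat_lit 76) (nat_lit 8030750478) (nat_lit 58) (nat_lit 5) (nat_lit 62) (nat_lit 5) (nat_lit 59) (nat_lit 5) (nat_lit 374) (nat_lit 294) (nat_lit 232)) (XT.lf (nat_lit 0) (nat_lit 7318634024) (nat_lit 228) (nat_lit 689217036) (nat_lit 304) (nat_lit 7682581276) (nat_lit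 55) (nat_lit 5) (nat_lit 58) (nat_lit 5) (nat_lit 59) (nat_lit 5) (nat_lit 375) (nat_lit 294) (nat_lit 231)))))) (XT.nd (nat_lit 390) (nat_lit 608) (nat_lit 0) (XT.nd (nat_lit 156) (nat_lit 456) (nat_lit 0) (XT.nd (nat_lit 78) (nat_lit 304) (nat_lit 0) (XT.lf (nat_lit 0) (nat_lit 3873596996) (nat_lit 228) (nat_lit 9897251667) (nat_lit 304) (nat_lit 2239655714) (nat_lit 52) (nat_lit 5) (nat_lit 55) (nat_lit 5) (nat_lit 56) (nat_lit 5) (nat_lit 376) (nat_lit 294) (nat_lit 230)) (XT.lf (nat_lit 0) (nat_lit 150543188) (nat_lit 228) (nat_lit 3182749045) (nat_lit 304) (nat_lit 13006244172) (nat_lit 48) (nat_lit 5) (nat_lit 51) (nat_lit 5) (nat_lit 52) (nat_lit 5) (nat_lit 377) (nat_lit 294) (nat_lit 229))) (XT.nd (nat_lit 78) (nat_lit 456) (nat_lit 0) (XT.lf (nat_lit 0) (nat_lit 9099129987) (nat_lit 304) (nat_lit 3829702840) (nat_lit 76) (nat_lit 3748200257) (nat_lit 48) (nat_lit 5) (nat_lit 52) (nat_lit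 5) (nat_lit 49) (nat_lit 5) (nat_lit 378) (nat_lit 294) (nat_lit 228)) (XT.nd (nat_lit 78) (nat_lit 304) (nat_lit 0) (XT.lf (nat_lit 0) (nat_lit 8912576761) (nat_lit 152) (nat_lit 6154933960) (nat_lit 228) (nat_lit 1956564590) (nat_lit 46) (nat_lit 5) (nat_lit 48) (nat_lit 5) (nat_lit 49) (nat_lit 5) (nat_lit 379) (nat_lit 294) (nat_lit 227)) (XT.lf (nat_lit 0) (nat_lit 3796181855) (nat_lit 304) (nat_lit 12724639694) (nat_lit 76) (nat_lit 859960027) (nat_lit 42) (nat_lit 5) (nat_lit 46) (nat_lit 5) (nat_lit 43) (nat_lit 5) (nat_lit 380) (nat_lit 294) (nat_lit 226))))) (XT.nd (nat_lit 156) (nat_lit 456) (nat_lit 0) (XT.nd (nat_lit 78) (nat_lit 0) (nat_lit 0) (XT.lf (nat_lit 0) (nat_lit 34475972) (nat_lit 152) (nat_lit 9708996755) (nat_lit 228) (nat_lit 8003497856) (nat_lit 40) (nat_lit 5) (nat_lit 42) (nat_lit 5) (nat_lit 43) (nat_lit 5) (nat_lit 381) (nat_lit 294) (nat_lit 225)) (XT.lf (nat_lit 0)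 (nat_lit 13269754012) (nat_lit 152) (nat_lit 2638215254) (nat_lit 228) (nat_lit 2215411027) (nat_lit 40) (nat_lit 5) (nat_lit 42) (nat_lit 5) (nat_lit 43) (nat_lit 5) (nat_lit 382) (nat_lit 294) (nat_lit 224))) (XT.nd (nat_lit 78) (nat_lit 152) (nat_lit 0) (XT.lf (nat_lit 0) (nat_lit 3735802092) (nat_lit 304) (nat_lit 10143148181) (nat_lit 76) (nat_lit 4630883454) (nat_lit 36) (nat_lit 5) (nat_lit 40) (nat_lit 5) (nat_lit 37) (nat_lit 5) (nat_lit 383) (nat_lit 294) (nat_lit 223)) (XT.nd (nat_lit 78) (nat_lit 0) (nat_lit 0) (XT.lf (nat_lit 0) (nat_lit 3071944029) (nat_lit 152) (nat_lit 6788639354) (nat_lit 228) (nat_lit 9046511846) (nat_lit 34) (nat_lit 5) (nat_lit 36) (nat_lit 5) (nat_lit 37) (nat_lit 5) (nat_lit 384) (nat_lit 294) (nat_lit 222)) (XT.lf (nat_lit 0) (nat_lit 16196520614) (nat_lit 228) (nat_lit 2574279243) (nat_lit 76) (nat_lit 544936132) (nat_lit 34) (nat_lit 5) (nat_lit 37) (nat_lit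 5) (nat_lit 35) (nat_lit 5) (nat_lit 385) (nat_lit 294) (nat_lit 221))))))) (XT.nd (nat_lit 41574) (nat_lit 0) (nat_lit 25232) (XT.nd (nat_lit 41184) (nat_lit 0) (nat_lit 39748) (XT.nd (nat_lit 41028) (nat_lit 0) (nat_lit 43472) (XT.nd (nat_lit 40950) (nat_lit 0) (nat_lit 44916) (XT.lf (nat_lit 0) (nat_lit 3020942947) (nat_lit 304) (nat_lit 8645972876) (nat_lit 76) (nat_lit 8067857545) (nat_lit 30) (nat_lit 5) (nat_lit 34) (nat_lit 5) (nat_lit 31) (nat_lit 5) (nat_lit 386) (nat_lit 294) (nat_lit 220)) (XT.lf (nat_lit 0) (nat_lit 2671843177) (nat_lit 532) (nat_lit 302203214) (nat_lit 532) (nat_lit 302203214) (nat_lit 621) (nat_lit 4) (nat_lit 628) (nat_lit 5) (nat_lit 628) (nat_lit 4) (nat_lit 310) (nat_lit 295) (nat_lit 295))) (XT.nd (nat_lit 78) (nat_lit 760) (nat_lit 0) (XT.lf (nat_lit 0) (nat_lit 3986890346) (nat_lit 684) (nat_lit 2138807092) (nat_lit 0) (nat_lit 450342933) (nat_lit 612) (nat_lit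 5) (nat_lit 621) (nat_lit 4) (nat_lit 612) (nat_lit 4) (nat_lit 311) (nat_lit 295) (nat_lit 294)) (XT.lf (nat_lit 0) (nat_lit 1955034432) (nat_lit 760) (nat_lit 3020919036) (nat_lit 76) (nat_lit 1626633396) (nat_lit 602) (nat_lit 5) (nat_lit 612) (nat_lit 5) (nat_lit 603) (nat_lit 4) (nat_lit 312) (nat_lit 295) (nat_lit 293)))) (XT.nd (nat_lit 156) (nat_lit 2052) (nat_lit 0) (XT.nd (nat_lit 78) (nat_lit 912) (nat_lit 0) (XT.lf (nat_lit 0) (nat_lit 2778724939) (nat_lit 760) (nat_lit 3697685284) (nat_lit 836) (nat_lit 155807881) (nat_lit 592) (nat_lit 5) (nat_lit 602) (nat_lit 5) (nat_lit 603) (nat_lit 4) (nat_lit 313) (nat_lit 295) (nat_lit 292)) (XT.lf (nat_lit 0) (nat_lit 2014590942) (nat_lit 836) (nat_lit 2277044020) (nat_lit 912) (nat_lit 2373075376) (nat_lit 580) (nat_lit 5) (nat_lit 591) (nat_lit 5) (nat_lit 592) (nat_lit 5) (nat_lit 314) (nat_lit 295) (nat_lit 291))) (XT.nd (nat_lit 78) (nat_lit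 1064) (nat_lit 0) (XT.lf (nat_lit 0) (nat_lit 1301215019) (nat_lit 912) (nat_lit 725782134) (nat_lit 988) (nat_lit 4673349583) (nat_lit 567) (nat_lit 5) (nat_lit 579) (nat_lit 5) (nat_lit 580) (nat_lit 5) (nat_lit 315) (nat_lit 295) (nat_lit 290)) (XT.nd (nat_lit 78) (nat_lit 76) (nat_lit 0) (XT.lf (nat_lit 0) (nat_lit 629016467) (nat_lit 988) (nat_lit 5791894102) (nat_lit 1064) (nat_lit 318079594) (nat_lit 554) (nat_lit 5) (nat_lit 567) (nat_lit 5) (nat_lit 568) (nat_lit 5) (nat_lit 316) (nat_lit 295) (nat_lit 289)) (XT.lf (nat_lit 0) (nat_lit 4009776229) (nat_lit 1064) (nat_lit 14292389) (nat_lit 76) (nat_lit 2756378096) (nat_lit 553) (nat_lit 5) (nat_lit 567) (nat_lit 5) (nat_lit 554) (nat_lit 5) (nat_lit 317) (nat_lit 295) (nat_lit 288)))))) (XT.nd (nat_lit 390) (nat_lit 8208) (nat_lit 0) (XT.nd (nat_lit 156) (nat_lit 4028) (nat_lit 0) (XT.nd (nat_lit 78) (nat_lit 1140) (nat_lit 0) (XT.lf (nat_lit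 0) (nat_lit 1517361289) (nat_lit 1140) (nat_lit 603972075) (nat_lit 76) (nat_lit 4703702715) (nat_lit 538) (nat_lit 5) (nat_lit 553) (nat_lit 5) (nat_lit 539) (nat_lit 5) (nat_lit 318) (nat_lit 295) (nat_lit 287)) (XT.lf (nat_lit 0) (nat_lit 5716417217) (nat_lit 1140) (nat_lit 78889920) (nat_lit 1216) (nat_lit 1077428595) (nat_lit 523) (nat_lit 5) (nat_lit 538) (nat_lit 5) (nat_lit 539) (nat_lit 5) (nat_lit 319) (nat_lit 295) (nat_lit 286))) (XT.nd (nat_lit 78) (nat_lit 2736) (nat_lit 0) (XT.lf (nat_lit 0) (nat_lit 3152388893) (nat_lit 1292) (nat_lit 1689635420) (nat_lit 76) (nat_lit 2081214175) (nat_lit 506) (nat_lit 5) (nat_lit 523) (nat_lit 5) (nat_lit 507) (nat_lit 5) (nat_lit 320) (nat_lit 295) (nat_lit 285)) (XT.nd (nat_lit 78) (nat_lit 1368) (nat_lit 0) (XT.lf (nat_lit 0) (nat_lit 418642953) (nat_lit 1368) (nat_lit 2182671079) (nat_lit 76) (nat_lit 4375716499) (nat_lit 488) (nat_lit 5) (nat_lit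 506) (nat_lit 5) (nat_lit 489) (nat_lit 5) (nat_lit 321) (nat_lit 295) (nat_lit 284)) (XT.lf (nat_lit 0) (nat_lit 4382069376) (nat_lit 1368) (nat_lit 210151123) (nat_lit 1444) (nat_lit 2441627796) (nat_lit 470) (nat_lit 5) (nat_lit 488) (nat_lit 5) (nat_lit 489) (nat_lit 5) (nat_lit 322) (nat_lit 295) (nat_lit 283))))) (XT.nd (nat_lit 156) (nat_lit 5168) (nat_lit 0) (XT.nd (nat_lit 78) (nat_lit 1520) (nat_lit 0) (XT.lf (nat_lit 0) (nat_lit 1702525734) (nat_lit 1520) (nat_lit 3100568280) (nat_lit 76) (nat_lit 2290591540) (nat_lit 450) (nat_lit 5) (nat_lit 470) (nat_lit 5) (nat_lit 451) (nat_lit 5) (nat_lit 323) (nat_lit 295) (nat_lit 282)) (XT.lf (nat_lit 0) (nat_lit 3633798012) (nat_lit 1520) (nat_lit 2221909027) (nat_lit 1596) (nat_lit 1301025871) (nat_lit 430) (nat_lit 5) (nat_lit 450) (nat_lit 5) (nat_lit 451) (nat_lit 5) (nat_lit 324) (nat_lit 295) (nat_lit 281))) (XT.nd (nat_lit 78) (nat_lit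 3496) (nat_lit 0) (XT.lf (nat_lit 0) (nat_lit 2796122080) (nat_lit 1672) (nat_lit 3925242236) (nat_lit 76) (nat_lit 501569965) (nat_lit 408) (nat_lit 5) (nat_lit 430) (nat_lit 5) (nat_lit 409) (nat_lit 5) (nat_lit 325) (nat_lit 295) (nat_lit 280)) (XT.nd (nat_lit 78) (nat_lit 1824) (nat_lit 0) (XT.lf (nat_lit 0) (nat_lit 2980623217) (nat_lit 1672) (nat_lit 3955757263) (nat_lit 1748) (nat_lit 355899821) (nat_lit 386) (nat_lit 5) (nat_lit 408) (nat_lit 5) (nat_lit 409) (nat_lit 5) (nat_lit 326) (nat_lit 295) (nat_lit 279)) (XT.lf (nat_lit 0) (nat_lit 2679212111) (nat_lit 1748) (nat_lit 1033211290) (nat_lit 1824) (nat_lit 3652356668) (nat_lit 362) (nat_lit 5) (nat_lit 385) (nat_lit 5) (nat_lit 386) (nat_lit 5) (nat_lit 327) (nat_lit 295) (nat_lit 278))))))))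
noncomputable def xc39 : XT := (XT.nd (nat_lit 1482) (nat_lit 7828) (nat_lit 0) (XT.nd (nat_lit 702) (nat_lit 5700) (nat_lit 0) (XT.nd (nat_lit 312) (nat_lit 3952) (nat_lit 0) (XT.nd (nat_lit 156) (nat_lit 1748) (nat_lit 0) (XT.nd (nat_lit 78) (nat_lit 912) (nat_lit 0) (XT.lf (nat_lit 0) (nat_lit 394108264) (nat_lit 988) (nat_lit 5042818278) (nat_lit 76) (nat_lit 2003670077) (nat_lit 349) (nat_lit 5) (nat_lit 362) (nat_lit 5) (nat_lit 350) (nat_lit 5) (nat_lit 328) (nat_lit 295) (nat_lit 277)) (XT.lf (nat_lit 0) (nat_lit 2120655193) (nat_lit 912) (nat_lit 2330594396) (nat_lit 988) (nat_lit 3068254604) (nat_lit 337) (nat_lit 5) (nat_lit 349) (nat_lit 5) (nat_lit 350) (nat_lit 5) (nat_lit 329) (nat_lit 295) (nat_lit 276))) (XT.nd (nat_lit 78) (nat_lit 836) (nat_lit 0) (XT.lf (nat_lit 0) (nat_lit 956099098) (nat_lit 912) (nat_lit 5737438023) (nat_lit 76) (nat_lit 908376465) (nat_lit 325) (nat_lit 5)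 (nat_lit 337) (nat_lit 5) (nat_lit 326) (nat_lit 5) (nat_lit 330) (nat_lit 295) (nat_lit 275)) (XT.lf (nat_lit 0) (nat_lit 1602817115) (nat_lit 836) (nat_lit 3410003112) (nat_lit 912) (nat_lit 2674574528) (nat_lit 314) (nat_lit 5) (nat_lit 325) (nat_lit 5) (nat_lit 326) (nat_lit 5) (nat_lit 331) (nat_lit 295) (nat_lit 274)))) (XT.nd (nat_lit 156) (nat_lit 2356) (nat_lit 0) (XT.nd (nat_lit 78) (nat_lit 760) (nat_lit 0) (XT.lf (nat_lit 0) (nat_lit 1337301397) (nat_lit 836) (nat_lit 6416158216) (nat_lit 76) (nat_lit 23063671) (nat_lit 303) (nat_lit 5) (nat_lit 314) (nat_lit 5) (nat_lit 304) (nat_lit 5) (nat_lit 332) (nat_lit 295) (nat_lit 273)) (XT.lf (nat_lit 0) (nat_lit 1102649913) (nat_lit 760) (nat_lit 4296530904) (nat_lit 836) (nat_lit 2469537722) (nat_lit 293) (nat_lit 5) (nat_lit 303) (nat_lit 5) (nat_lit 304) (nat_lit 5) (nat_lit 333) (nat_lit 295) (nat_lit 272))) (XT.nd (nat_lit 78) (nat_lit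 1520) (nat_lit 0) (XT.lf (nat_lit 0) (nat_lit 857618528) (nat_lit 760) (nat_lit 685619763) (nat_lit 836) (nat_lit 6421389286) (nat_lit 282) (nat_lit 5) (nat_lit 292) (nat_lit 5) (nat_lit 293) (nat_lit 5) (nat_lit 334) (nat_lit 295) (nat_lit 271)) (XT.nd (nat_lit 78) (nat_lit 760) (nat_lit 0) (XT.lf (nat_lit 0) (nat_lit 596415159) (nat_lit 760) (nat_lit 5014472914) (nat_lit 836) (nat_lit 2452899620) (nat_lit 272) (nat_lit 5) (nat_lit 282) (nat_lit 5) (nat_lit 283) (nat_lit 5) (nat_lit 335) (nat_lit 295) (nat_lit 270)) (XT.lf (nat_lit 0) (nat_lit 337623108) (nat_lit 684) (nat_lit 1230481669) (nat_lit 760) (nat_lit 6598565767) (nat_lit 262) (nat_lit 5) (nat_lit 271) (nat_lit 5) (nat_lit 272) (nat_lit 5) (nat_lit 336) (nat_lit 295) (nat_lit 269)))))) (XT.nd (nat_lit 390) (nat_lit 2964) (nat_lit 0) (XT.nd (nat_lit 156) (nat_lit 1976) (nat_lit 0) (XT.nd (nat_lit 78) (nat_lit 76) (nat_lit 0) (XT.lf (nat_lit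 0) (nat_lit 59461107) (nat_lit 684) (nat_lit 5587521750) (nat_lit 760) (nat_lit 2625977850) (nat_lit 253) (nat_lit 5) (nat_lit 262) (nat_lit 5) (nat_lit 263) (nat_lit 5) (nat_lit 337) (nat_lit 295) (nat_lit 268)) (XT.lf (nat_lit 0) (nat_lit 1411375246) (nat_lit 760) (nat_lit 221785476) (nat_lit 76) (nat_lit 6749846039) (nat_lit 252) (nat_lit 5) (nat_lit 262) (nat_lit 5) (nat_lit 253) (nat_lit 5) (nat_lit 338) (nat_lit 295) (nat_lit 267))) (XT.nd (nat_lit 78) (nat_lit 1368) (nat_lit 0) (XT.lf (nat_lit 0) (nat_lit 5508417673) (nat_lit 684) (nat_lit 527008841) (nat_lit 76) (nat_lit 2461147810) (nat_lit 244) (nat_lit 5) (nat_lit 253) (nat_lit 5) (nat_lit 245) (nat_lit 5) (nat_lit 339) (nat_lit 295) (nat_lit 266)) (XT.nd (nat_lit 78) (nat_lit 608) (nat_lit 0) (XT.lf (nat_lit 0) (nat_lit 1070802092) (nat_lit 760) (nat_lit 844754513) (nat_lit 76) (nat_lit 6698485209) (nat_lit 234) (nat_lit 5) (nat_lit 244)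 (nat_lit 5) (nat_lit 235) (nat_lit 5) (nat_lit 340) (nat_lit 295) (nat_lit 265)) (XT.lf (nat_lit 0) (nat_lit 5188531929) (nat_lit 684) (nat_lit 1195319036) (nat_lit 76) (nat_lit 2351283565) (nat_lit 226) (nat_lit 5) (nat_lit 235) (nat_lit 5) (nat_lit 227) (nat_lit 5) (nat_lit 341) (nat_lit 295) (nat_lit 264))))) (XT.nd (nat_lit 156) (nat_lit 1748) (nat_lit 0) (XT.nd (nat_lit 78) (nat_lit 532) (nat_lit 0) (XT.lf (nat_lit 0) (nat_lit 539293152) (nat_lit 684) (nat_lit 1563398631) (nat_lit 76) (nat_lit 6757603458) (nat_lit 217) (nat_lit 5) (nat_lit 226) (nat_lit 5) (nat_lit 218) (nat_lit 5) (nat_lit 342) (nat_lit 295) (nat_lit 263)) (XT.lf (nat_lit 0) (nat_lit 4681328810) (nat_lit 608) (nat_lit 1974733991) (nat_lit 76) (nat_lit 2333088734) (nat_lit 210) (nat_lit 5) (nat_lit 218) (nat_lit 5) (nat_lit 211) (nat_lit 5) (nat_lit 343) (nat_lit 295) (nat_lit 262))) (XT.nd (nat_lit 78) (nat_lit 1140) (nat_lit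 0) (XT.lf (nat_lit 0) (nat_lit 6713840966) (nat_lit 608) (nat_lit 2216138655) (nat_lit 684) (nat_lit 192290086) (nat_lit 202) (nat_lit 5) (nat_lit 210) (nat_lit 5) (nat_lit 211) (nat_lit 5) (nat_lit 344) (nat_lit 295) (nat_lit 261)) (XT.nd (nat_lit 78) (nat_lit 532) (nat_lit 0) (XT.lf (nat_lit 0) (nat_lit 3979453717) (nat_lit 608) (nat_lit 2895663246) (nat_lit 76) (nat_lit 2384063800) (nat_lit 194) (nat_lit 5) (nat_lit 202) (nat_lit 5) (nat_lit 195) (nat_lit 5) (nat_lit 345) (nat_lit 295) (nat_lit 260)) (XT.lf (nat_lit 0) (nat_lit 5985443483) (nat_lit 532) (nat_lit 2275280456) (nat_lit 608) (nat_lit 1139750048) (nat_lit 187) (nat_lit 5) (nat_lit 194) (nat_lit 5) (nat_lit 195) (nat_lit 5) (nat_lit 346) (nat_lit 295) (nat_lit 259))))))) (XT.nd (nat_lit 780) (nat_lit 3344) (nat_lit 0) (XT.nd (nat_lit 390) (nat_lit 1824) (nat_lit 0) (XT.nd (nat_lit 156) (nat_lit 1520) (nat_lit 0) (XT.nd (nat_lit 78) (nat_lit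 532) (nat_lit 0) (XT.lf (nat_lit 0) (nat_lit 3073713194) (nat_lit 608) (nat_lit 3990744832) (nat_lit 76) (nat_lit 2481375041) (nat_lit 179) (nat_lit 5) (nat_lit 187) (nat_lit 5) (nat_lit 180) (nat_lit 5) (nat_lit 347) (nat_lit 295) (nat_lit 258)) (XT.lf (nat_lit 0) (nat_lit 5081977029) (nat_lit 532) (nat_lit 2307255577) (nat_lit 608) (nat_lit 2306383852) (nat_lit 172) (nat_lit 5) (nat_lit 179) (nat_lit 5) (nat_lit 180) (nat_lit 5) (nat_lit 348) (nat_lit 295) (nat_lit 257))) (XT.nd (nat_lit 78) (nat_lit 988) (nat_lit 0) (XT.lf (nat_lit 0) (nat_lit 1952963378) (nat_lit 532) (nat_lit 5295173373) (nat_lit 76) (nat_lit 2601640824) (nat_lit 165) (nat_lit 5) (nat_lit 172) (nat_lit 5) (nat_lit 166) (nat_lit 5) (nat_lit 349) (nat_lit 295) (nat_lit 256)) (XT.nd (nat_lit 78) (nat_lit 532) (nat_lit 0) (XT.lf (nat_lit 0) (nat_lit 3967415566) (nat_lit 456) (nat_lit 2336269264) (nat_lit 532) (nat_lit 3704709371)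 (nat_lit 159) (nat_lit 5) (nat_lit 165) (nat_lit 5) (nat_lit 166) (nat_lit 5) (nat_lit 350) (nat_lit 295) (nat_lit 255)) (XT.lf (nat_lit 0) (nat_lit 603980713) (nat_lit 532) (nat_lit 6847055794) (nat_lit 76) (nat_lit 2720708427) (nat_lit 152) (nat_lit 5) (nat_lit 159) (nat_lit 5) (nat_lit 153) (nat_lit 5) (nat_lit 351) (nat_lit 295) (nat_lit 254))))) (XT.nd (nat_lit 156) (nat_lit 988) (nat_lit 0) (XT.nd (nat_lit 78) (nat_lit 380) (nat_lit 0) (XT.lf (nat_lit 0) (nat_lit 2602684555) (nat_lit 456) (nat_lit 2387443985) (nat_lit 532) (nat_lit 5349438853) (nat_lit 146) (nat_lit 5) (nat_lit 152) (nat_lit 5) (nat_lit 153) (nat_lit 5) (nat_lit 352) (nat_lit 295) (nat_lit 253)) (XT.lf (nat_lit 0) (nat_lit 1818098350) (nat_lit 380) (nat_lit 7692476943) (nat_lit 456) (nat_lit 1001825582) (nat_lit 141) (nat_lit 5) (nat_lit 146) (nat_lit 5) (nat_lit 147) (nat_lit 5) (nat_lit 353) (nat_lit 295) (nat_lit 252))) (XT.nd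 (nat_lit 78) (nat_lit 456) (nat_lit 0) (XT.lf (nat_lit 0) (nat_lit 945259935) (nat_lit 456) (nat_lit 2487063564) (nat_lit 532) (nat_lit 7257639656) (nat_lit 134) (nat_lit 5) (nat_lit 140) (nat_lit 5) (nat_lit 141) (nat_lit 5) (nat_lit 354) (nat_lit 295) (nat_lit 251)) (XT.nd (nat_lit 78) (nat_lit 456) (nat_lit 0) (XT.lf (nat_lit 0) (nat_lit 7992015107) (nat_lit 532) (nat_lit 8489973) (nat_lit 76) (nat_lit 2872120517) (nat_lit 134) (nat_lit 5) (nat_lit 141) (nat_lit 5) (nat_lit 135) (nat_lit 5) (nat_lit 355) (nat_lit 295) (nat_lit 250)) (XT.lf (nat_lit 0) (nat_lit 1618388582) (nat_lit 456) (nat_lit 1037481637) (nat_lit 76) (nat_lit 8404473137) (nat_lit 128) (nat_lit 5) (nat_lit 134) (nat_lit 5) (nat_lit 129) (nat_lit 5) (nat_lit 356) (nat_lit 295) (nat_lit 249)))))) (XT.nd (nat_lit 390) (nat_lit 1368) (nat_lit 0) (XT.nd (nat_lit 156) (nat_lit 1216) (nat_lit 0) (XT.nd (nat_lit 78) (nat_lit 380) (nat_lit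 0) (XT.lf (nat_lit 0) (nat_lit 6222493699) (nat_lit 456) (nat_lit 2171014612) (nat_lit 76) (nat_lit 2859644241) (nat_lit 123) (nat_lit 5) (nat_lit 129) (nat_lit 5) (nat_lit 124) (nat_lit 5) (nat_lit 357) (nat_lit 295) (nat_lit 248)) (XT.lf (nat_lit 0) (nat_lit 8055890703) (nat_lit 380) (nat_lit 2918223068) (nat_lit 456) (nat_lit 477469818) (nat_lit 118) (nat_lit 5) (nat_lit 123) (nat_lit 5) (nat_lit 124) (nat_lit 5) (nat_lit 358) (nat_lit 295) (nat_lit 247))) (XT.nd (nat_lit 78) (nat_lit 760) (nat_lit 0) (XT.lf (nat_lit 0) (nat_lit 4168015591) (nat_lit 456) (nat_lit 4745752080) (nat_lit 76) (nat_lit 2741458164) (nat_lit 112) (nat_lit 5) (nat_lit 118) (nat_lit 5) (nat_lit 113) (nat_lit 5) (nat_lit 359) (nat_lit 295) (nat_lit 246)) (XT.nd (nat_lit 78) (nat_lit 456) (nat_lit 0) (XT.lf (nat_lit 0) (nat_lit 5658401083) (nat_lit 304) (nat_lit 3301658061) (nat_lit 380) (nat_lit 2904604947) (nat_lit 108)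 (nat_lit 5) (nat_lit 112) (nat_lit 5) (nat_lit 113) (nat_lit 5) (nat_lit 360) (nat_lit 295) (nat_lit 245)) (XT.lf (nat_lit 0) (nat_lit 1803419870) (nat_lit 456) (nat_lit 7790237357) (nat_lit 76) (nat_lit 2486279834) (nat_lit 102) (nat_lit 5) (nat_lit 108) (nat_lit 5) (nat_lit 103) (nat_lit 5) (nat_lit 361) (nat_lit 295) (nat_lit 244))))) (XT.nd (nat_lit 156) (nat_lit 760) (nat_lit 0) (XT.nd (nat_lit 78) (nat_lit 304) (nat_lit 0) (XT.lf (nat_lit 0) (nat_lit 2781884139) (nat_lit 304) (nat_lit 3850155594) (nat_lit 380) (nat_lit 5668889861) (nat_lit 98) (nat_lit 5) (nat_lit 102) (nat_lit 5) (nat_lit 103) (nat_lit 5) (nat_lit 362) (nat_lit 295) (nat_lit 243)) (XT.lf (nat_lit 0) (nat_lit 1154729259) (nat_lit 304) (nat_lit 10461974541) (nat_lit 380) (nat_lit 911645453) (nat_lit 94) (nat_lit 5) (nat_lit 98) (nat_lit 5) (nat_lit 99) (nat_lit 5) (nat_lit 363) (nat_lit 295) (nat_lit 242))) (XT.nd (nat_lit 78)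 (nat_lit 684) (nat_lit 0) (XT.lf (nat_lit 0) (nat_lit 3964608938) (nat_lit 380) (nat_lit 630588847) (nat_lit 76) (nat_lit 8166323865) (nat_lit 93) (nat_lit 5) (nat_lit 98) (nat_lit 5) (nat_lit 94) (nat_lit 5) (nat_lit 364) (nat_lit 295) (nat_lit 241)) (XT.nd (nat_lit 78) (nat_lit 380) (nat_lit 0) (XT.lf (nat_lit 0) (nat_lit 8992234021) (nat_lit 380) (nat_lit 2538550463) (nat_lit 76) (nat_lit 1470454306) (nat_lit 89) (nat_lit 5) (nat_lit 94) (nat_lit 5) (nat_lit 90) (nat_lit 5) (nat_lit 365) (nat_lit 295) (nat_lit 240)) (XT.lf (nat_lit 0) (nat_lit 942429529) (nat_lit 380) (nat_lit 4614756520) (nat_lit 76) (nat_lit 7690220358) (nat_lit 84) (nat_lit 5) (nat_lit 89) (nat_lit 5) (nat_lit 85) (nat_lit 5) (nat_lit 366) (nat_lit 295) (nat_lit 239))))))))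
noncomputable def xc40 : XT := (XT.nd (nat_lit 1482) (nat_lit 228) (nat_lit 0) (XT.nd (nat_lit 702) (nat_lit 1824) (nat_lit 0) (XT.nd (nat_lit 312) (nat_lit 1140) (nat_lit 0) (XT.nd (nat_lit 156) (nat_lit 304) (nat_lit 0) (XT.nd (nat_lit 78) (nat_lit 304) (nat_lit 0) (XT.lf (nat_lit 0) (nat_lit 5994317931) (nat_lit 304) (nat_lit 6863528230) (nat_lit 76) (nat_lit 642473332) (nat_lit 81) (nat_lit 5) (nat_lit 85) (nat_lit 5) (nat_lit 82) (nat_lit 5) (nat_lit 367) (nat_lit 295) (nat_lit 238)) (XT.lf (nat_lit 0) (nat_lit 4458311896) (nat_lit 304) (nat_lit 6779347058) (nat_lit 380) (nat_lit 2522380562) (nat_lit 77) (nat_lit 5) (nat_lit 81) (nat_lit 5) (nat_lit 82) (nat_lit 5) (nat_lit 368) (nat_lit 295) (nat_lit 237))) (XT.nd (nat_lit 78) (nat_lit 0) (nat_lit 0) (XT.lf (nat_lit 0) (nat_lit 2106569906) (nat_lit 228) (nat_lit 473444973) (nat_lit 304) (nat_lit 11447143742) (nat_lit 73) (nat_lit 5) (nat_lit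 76) (nat_lit 5) (nat_lit 77) (nat_lit 5) (nat_lit 369) (nat_lit 295) (nat_lit 236)) (XT.lf (nat_lit 0) (nat_lit 7847826340) (nat_lit 304) (nat_lit 463348877) (nat_lit 76) (nat_lit 5989866493) (nat_lit 73) (nat_lit 5) (nat_lit 77) (nat_lit 5) (nat_lit 74) (nat_lit 5) (nat_lit 370) (nat_lit 295) (nat_lit 235)))) (XT.nd (nat_lit 156) (nat_lit 532) (nat_lit 0) (XT.nd (nat_lit 78) (nat_lit 304) (nat_lit 0) (XT.lf (nat_lit 0) (nat_lit 11396161096) (nat_lit 304) (nat_lit 1900176155) (nat_lit 380) (nat_lit 1286366406) (nat_lit 69) (nat_lit 5) (nat_lit 73) (nat_lit 5) (nat_lit 74) (nat_lit 5) (nat_lit 371) (nat_lit 295) (nat_lit 234)) (XT.lf (nat_lit 0) (nat_lit 4019566466) (nat_lit 304) (nat_lit 6156589411) (nat_lit 76) (nat_lit 4695410385) (nat_lit 65) (nat_lit 5) (nat_lit 69) (nat_lit 5) (nat_lit 66) (nat_lit 5) (nat_lit 372) (nat_lit 295) (nat_lit 233))) (XT.nd (nat_lit 78) (nat_lit 304) (nat_lit 0) (XT.lf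 (nat_lit 0) (nat_lit 5816836872) (nat_lit 228) (nat_lit 3669637584) (nat_lit 304) (nat_lit 5682079235) (nat_lit 62) (nat_lit 5) (nat_lit 65) (nat_lit 5) (nat_lit 66) (nat_lit 5) (nat_lit 373) (nat_lit 295) (nat_lit 232)) (XT.nd (nat_lit 78) (nat_lit 76) (nat_lit 0) (XT.lf (nat_lit 0) (nat_lit 2689499601) (nat_lit 228) (nat_lit 12454775394) (nat_lit 304) (nat_lit 329652098) (nat_lit 59) (nat_lit 5) (nat_lit 62) (nat_lit 5) (nat_lit 63) (nat_lit 5) (nat_lit 374) (nat_lit 295) (nat_lit 231)) (XT.lf (nat_lit 0) (nat_lit 5152059522) (nat_lit 304) (nat_lit 711086444) (nat_lit 76) (nat_lit 9923922191) (nat_lit 58) (nat_lit 5) (nat_lit 62) (nat_lit 5) (nat_lit 59) (nat_lit 5) (nat_lit 375) (nat_lit 295) (nat_lit 230)))))) (XT.nd (nat_lit 390) (nat_lit 836) (nat_lit 0) (XT.nd (nat_lit 156) (nat_lit 456) (nat_lit 0) (XT.nd (nat_lit 78) (nat_lit 304) (nat_lit 0) (XT.lf (nat_lit 0) (nat_lit 10826534484) (nat_lit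 304) (nat_lit 4321189970) (nat_lit 76) (nat_lit 961192598) (nat_lit 55) (nat_lit 5) (nat_lit 59) (nat_lit 5) (nat_lit 56) (nat_lit 5) (nat_lit 376) (nat_lit 295) (nat_lit 229)) (XT.lf (nat_lit 0) (nat_lit 276100517) (nat_lit 304) (nat_lit 8224048580) (nat_lit 76) (nat_lit 7939288596) (nat_lit 51) (nat_lit 5) (nat_lit 55) (nat_lit 5) (nat_lit 52) (nat_lit 5) (nat_lit 377) (nat_lit 295) (nat_lit 228))) (XT.nd (nat_lit 78) (nat_lit 228) (nat_lit 0) (XT.lf (nat_lit 0) (nat_lit 4347902237) (nat_lit 228) (nat_lit 1590952461) (nat_lit 304) (nat_lit 10840147260) (nat_lit 48) (nat_lit 5) (nat_lit 51) (nat_lit 5) (nat_lit 52) (nat_lit 5) (nat_lit 378) (nat_lit 295) (nat_lit 227)) (XT.nd (nat_lit 78) (nat_lit 76) (nat_lit 0) (XT.lf (nat_lit 0) (nat_lit 166923811) (nat_lit 152) (nat_lit 11649485828) (nat_lit 228) (nat_lit 5311456803) (nat_lit 46) (nat_lit 5) (nat_lit 48) (nat_lit 5) (nat_lit 49) (nat_lit 5) (nat_lit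 379) (nat_lit 295) (nat_lit 226)) (XT.lf (nat_lit 0) (nat_lit 425926376) (nat_lit 228) (nat_lit 4266445678) (nat_lit 76) (nat_lit 12793829027) (nat_lit 45) (nat_lit 5) (nat_lit 48) (nat_lit 5) (nat_lit 46) (nat_lit 5) (nat_lit 380) (nat_lit 295) (nat_lit 225))))) (XT.nd (nat_lit 156) (nat_lit 456) (nat_lit 0) (XT.nd (nat_lit 78) (nat_lit 152) (nat_lit 0) (XT.lf (nat_lit 0) (nat_lit 6291162115) (nat_lit 304) (nat_lit 9059866654) (nat_lit 76) (nat_lit 2503007728) (nat_lit 42) (nat_lit 5) (nat_lit 46) (nat_lit 5) (nat_lit 43) (nat_lit 5) (nat_lit 381) (nat_lit 295) (nat_lit 224)) (XT.lf (nat_lit 0) (nat_lit 4016372630) (nat_lit 152) (nat_lit 8356993208) (nat_lit 228) (nat_lit 5858731375) (nat_lit 40) (nat_lit 5) (nat_lit 42) (nat_lit 5) (nat_lit 43) (nat_lit 5) (nat_lit 382) (nat_lit 295) (nat_lit 223))) (XT.nd (nat_lit 78) (nat_lit 380) (nat_lit 0) (XT.lf (nat_lit 0) (nat_lit 33095956) (nat_lit 228)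 (nat_lit 1088632548) (nat_lit 76) (nat_lit 17499443515) (nat_lit 39) (nat_lit 5) (nat_lit 42) (nat_lit 5) (nat_lit 40) (nat_lit 5) (nat_lit 383) (nat_lit 295) (nat_lit 222)) (XT.nd (nat_lit 78) (nat_lit 152) (nat_lit 0) (XT.lf (nat_lit 0) (nat_lit 6101565547) (nat_lit 304) (nat_lit 6579820411) (nat_lit 76) (nat_lit 6338178556) (nat_lit 36) (nat_lit 5) (nat_lit 40) (nat_lit 5) (nat_lit 37) (nat_lit 5) (nat_lit 384) (nat_lit 295) (nat_lit 221)) (XT.lf (nat_lit 0) (nat_lit 6968976989) (nat_lit 152) (nat_lit 5400175619) (nat_lit 228) (nat_lit 7060424291) (nat_lit 34) (nat_lit 5) (nat_lit 36) (nat_lit 5) (nat_lit 37) (nat_lit 5) (nat_lit 385) (nat_lit 295) (nat_lit 220))))))) (XT.nd (nat_lit 41418) (nat_lit 0) (nat_lit 28652) (XT.nd (nat_lit 41028) (nat_lit 0) (nat_lit 40736) (XT.nd (nat_lit 40872) (nat_lit 0) (nat_lit 44764) (XT.nd (nat_lit 40794) (nat_lit 0) (nat_lit 45372) (XT.lf (nat_lit 0) (nat_lit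 1090236372) (nat_lit 228) (nat_lit 17757597078) (nat_lit 304) (nat_lit 1003603990) (nat_lit 31) (nat_lit 5) (nat_lit 34) (nat_lit 5) (nat_lit 35) (nat_lit 5) (nat_lit 386) (nat_lit 295) (nat_lit 219)) (XT.lf (nat_lit 0) (nat_lit 218485607) (nat_lit 532) (nat_lit 2819393788) (nat_lit 0) (nat_lit 218485607) (nat_lit 628) (nat_lit 5) (nat_lit 635) (nat_lit 4) (nat_lit 628) (nat_lit 4) (nat_lit 308) (nat_lit 296) (nat_lit 296))) (XT.nd (nat_lit 78) (nat_lit 608) (nat_lit 0) (XT.lf (nat_lit 0) (nat_lit 5005495198) (nat_lit 532) (nat_lit 236317437) (nat_lit 0) (nat_lit 1289998486) (nat_lit 628) (nat_lit 5) (nat_lit 635) (nat_lit 4) (nat_lit 628) (nat_lit 4) (nat_lit 309) (nat_lit 296) (nat_lit 295)) (XT.lf (nat_lit 0) (nat_lit 2989540326) (nat_lit 608) (nat_lit 1283903613) (nat_lit 76) (nat_lit 2280346986) (nat_lit 620) (nat_lit 5) (nat_lit 628) (nat_lit 5) (nat_lit 621) (nat_lit 4) (nat_lit 310) (nat_lit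 296) (nat_lit 294)))) (XT.nd (nat_lit 156) (nat_lit 2660) (nat_lit 0) (XT.nd (nat_lit 78) (nat_lit 684) (nat_lit 0) (XT.lf (nat_lit 0) (nat_lit 899747644) (nat_lit 684) (nat_lit 2278706626) (nat_lit 76) (nat_lit 3400403918) (nat_lit 611) (nat_lit 5) (nat_lit 620) (nat_lit 5) (nat_lit 612) (nat_lit 5) (nat_lit 311) (nat_lit 296) (nat_lit 293)) (XT.lf (nat_lit 0) (nat_lit 3376530946) (nat_lit 684) (nat_lit 1947288064) (nat_lit 760) (nat_lit 1283047201) (nat_lit 602) (nat_lit 5) (nat_lit 611) (nat_lit 5) (nat_lit 612) (nat_lit 5) (nat_lit 312) (nat_lit 296) (nat_lit 292))) (XT.nd (nat_lit 78) (nat_lit 1824) (nat_lit 0) (XT.lf (nat_lit 0) (nat_lit 2499743289) (nat_lit 760) (nat_lit 580697217) (nat_lit 836) (nat_lit 3557434797) (nat_lit 591) (nat_lit 5) (nat_lit 601) (nat_lit 5) (nat_lit 602) (nat_lit 5) (nat_lit 313) (nat_lit 296) (nat_lit 291)) (XT.nd (nat_lit 78) (nat_lit 912) (nat_lit 0) (XT.lf (nat_lit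 0) (nat_lit 763989854) (nat_lit 912) (nat_lit 5003341692) (nat_lit 76) (nat_lit 904577934) (nat_lit 579) (nat_lit 5) (nat_lit 591) (nat_lit 5) (nat_lit 580) (nat_lit 5) (nat_lit 314) (nat_lit 296) (nat_lit 290)) (XT.lf (nat_lit 0) (nat_lit 872270694) (nat_lit 912) (nat_lit 4185436006) (nat_lit 988) (nat_lit 1651101313) (nat_lit 567) (nat_lit 5) (nat_lit 579) (nat_lit 5) (nat_lit 580) (nat_lit 5) (nat_lit 315) (nat_lit 296) (nat_lit 289)))))) (XT.nd (nat_lit 390) (nat_lit 7448) (nat_lit 0) (XT.nd (nat_lit 156) (nat_lit 3496) (nat_lit 0) (XT.nd (nat_lit 78) (nat_lit 76) (nat_lit 0) (XT.lf (nat_lit 0) (nat_lit 118824073) (nat_lit 988) (nat_lit 2469076682) (nat_lit 1064) (nat_lit 4160878060) (nat_lit 553) (nat_lit 5) (nat_lit 566) (nat_lit 5) (nat_lit 567) (nat_lit 5) (nat_lit 316) (nat_lit 296) (nat_lit 288)) (XT.lf (nat_lit 0) (nat_lit 37789634) (nat_lit 1064) (nat_lit 580042197) (nat_lit 76) (nat_lit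 6174046119) (nat_lit 552) (nat_lit 5) (nat_lit 566) (nat_lit 5) (nat_lit 553) (nat_lit 5) (nat_lit 317) (nat_lit 296) (nat_lit 287))) (XT.nd (nat_lit 78) (nat_lit 2432) (nat_lit 0) (XT.lf (nat_lit 0) (nat_lit 4213493404) (nat_lit 1140) (nat_lit 1258236433) (nat_lit 76) (nat_lit 1365955236) (nat_lit 538) (nat_lit 5) (nat_lit 553) (nat_lit 5) (nat_lit 539) (nat_lit 5) (nat_lit 318) (nat_lit 296) (nat_lit 286)) (XT.nd (nat_lit 78) (nat_lit 1216) (nat_lit 0) (XT.lf (nat_lit 0) (nat_lit 1513562084) (nat_lit 1216) (nat_lit 1897994796) (nat_lit 76) (nat_lit 3475102825) (nat_lit 522) (nat_lit 5) (nat_lit 538) (nat_lit 5) (nat_lit 523) (nat_lit 5) (nat_lit 319) (nat_lit 296) (nat_lit 285)) (XT.lf (nat_lit 0) (nat_lit 4434266820) (nat_lit 1216) (nat_lit 1210867765) (nat_lit 1292) (nat_lit 1293623609) (nat_lit 506) (nat_lit 5) (nat_lit 522) (nat_lit 5) (nat_lit 523) (nat_lit 5) (nat_lit 320) (nat_lit 296) (nat_lit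 284))))) (XT.nd (nat_lit 156) (nat_lit 4712) (nat_lit 0) (XT.nd (nat_lit 78) (nat_lit 1368) (nat_lit 0) (XT.lf (nat_lit 0) (nat_lit 2785768134) (nat_lit 1368) (nat_lit 3088279798) (nat_lit 76) (nat_lit 1119783644) (nat_lit 488) (nat_lit 5) (nat_lit 506) (nat_lit 5) (nat_lit 489) (nat_lit 5) (nat_lit 321) (nat_lit 296) (nat_lit 283)) (XT.lf (nat_lit 0) (nat_lit 3409225617) (nat_lit 1368) (nat_lit 3481324699) (nat_lit 1444) (nat_lit 161524237) (nat_lit 470) (nat_lit 5) (nat_lit 488) (nat_lit 5) (nat_lit 489) (nat_lit 5) (nat_lit 322) (nat_lit 296) (nat_lit 282))) (XT.nd (nat_lit 78) (nat_lit 3192) (nat_lit 0) (XT.lf (nat_lit 0) (nat_lit 2934067270) (nat_lit 1444) (nat_lit 935154060) (nat_lit 1520) (nat_lit 3244111413) (nat_lit 450) (nat_lit 5) (nat_lit 469) (nat_lit 5) (nat_lit 470) (nat_lit 5) (nat_lit 323) (nat_lit 296) (nat_lit 281)) (XT.nd (nat_lit 78) (nat_lit 1596) (nat_lit 0) (XT.lf (nat_lit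 0) (nat_lit 760931611) (nat_lit 1596) (nat_lit 4691572435) (nat_lit 76) (nat_lit 1725290769) (nat_lit 429) (nat_lit 5) (nat_lit 450) (nat_lit 5) (nat_lit 430) (nat_lit 5) (nat_lit 324) (nat_lit 296) (nat_lit 280)) (XT.lf (nat_lit 0) (nat_lit 2052804447) (nat_lit 1596) (nat_lit 2717798067) (nat_lit 1672) (nat_lit 2474676376) (nat_lit 408) (nat_lit 5) (nat_lit 429) (nat_lit 5) (nat_lit 430) (nat_lit 5) (nat_lit 325) (nat_lit 296) (nat_lit 279))))))))
noncomputable def xc41 : XT := (XT.nd (nat_lit 1482) (nat_lit 8284) (nat_lit 0) (XT.nd (nat_lit 702) (nat_lit 6840) (nat_lit 0) (XT.nd (nat_lit 312) (nat_lit 3420) (nat_lit 0) (XT.nd (nat_lit 156) (nat_lit 1900) (nat_lit 0) (XT.nd (nat_lit 78) (nat_lit 1748) (nat_lit 0) (XT.lf (nat_lit 0) (nat_lit 1490858239) (nat_lit 1748) (nat_lit 5667582221) (nat_lit 76) (nat_lit 157707310) (nat_lit 385) (nat_lit 5) (nat_lit 408) (nat_lit 5) (nat_lit 386) (nat_lit 5)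 (nat_lit 326) (nat_lit 296) (nat_lit 278)) (XT.lf (nat_lit 0) (nat_lit 1247167660) (nat_lit 1748) (nat_lit 4241344612) (nat_lit 1824) (nat_lit 1901449160) (nat_lit 362) (nat_lit 5) (nat_lit 385) (nat_lit 5) (nat_lit 386) (nat_lit 5) (nat_lit 327) (nat_lit 296) (nat_lit 277))) (XT.nd (nat_lit 78) (nat_lit 912) (nat_lit 0) (XT.lf (nat_lit 0) (nat_lit 867469410) (nat_lit 912) (nat_lit 1175568837) (nat_lit 988) (nat_lit 5424130805) (nat_lit 349) (nat_lit 5) (nat_lit 361) (nat_lit 5) (nat_lit 362) (nat_lit 5) (nat_lit 328) (nat_lit 296) (nat_lit 276)) (XT.lf (nat_lit 0) (nat_lit 494930481) (nat_lit 912) (nat_lit 5532530360) (nat_lit 988) (nat_lit 1520107193) (nat_lit 337) (nat_lit 5) (nat_lit 349) (nat_lit 5) (nat_lit 350) (nat_lit 5) (nat_lit 329) (nat_lit 296) (nat_lit 275)))) (XT.nd (nat_lit 156) (nat_lit 2508) (nat_lit 0) (XT.nd (nat_lit 78) (nat_lit 0) (nat_lit 0) (XT.lf (nat_lit 0) (nat_lit 128880393)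 (nat_lit 836) (nat_lit 2284094193) (nat_lit 912) (nat_lit 5218256417) (nat_lit 325) (nat_lit 5) (nat_lit 336) (nat_lit 5) (nat_lit 337) (nat_lit 5) (nat_lit 330) (nat_lit 296) (nat_lit 274)) (XT.lf (nat_lit 0) (nat_lit 6391977553) (nat_lit 912) (nat_lit 223475493) (nat_lit 76) (nat_lit 1102847717) (nat_lit 325) (nat_lit 5) (nat_lit 337) (nat_lit 5) (nat_lit 326) (nat_lit 5) (nat_lit 331) (nat_lit 296) (nat_lit 273))) (XT.nd (nat_lit 78) (nat_lit 1596) (nat_lit 0) (XT.lf (nat_lit 0) (nat_lit 2605726818) (nat_lit 912) (nat_lit 581278145) (nat_lit 76) (nat_lit 4621524697) (nat_lit 313) (nat_lit 5) (nat_lit 325) (nat_lit 5) (nat_lit 314) (nat_lit 5) (nat_lit 332) (nat_lit 296) (nat_lit 272)) (XT.nd (nat_lit 78) (nat_lit 836) (nat_lit 0) (XT.lf (nat_lit 0) (nat_lit 6585357655) (nat_lit 836) (nat_lit 927683900) (nat_lit 76) (nat_lit 389359960) (nat_lit 303) (nat_lit 5) (nat_lit 314) (nat_lit 5) (nat_lit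 304) (nat_lit 5) (nat_lit 333) (nat_lit 296) (nat_lit 271)) (XT.lf (nat_lit 0) (nat_lit 2619119818) (nat_lit 836) (nat_lit 1292474960) (nat_lit 76) (nat_lit 4087826170) (nat_lit 292) (nat_lit 5) (nat_lit 303) (nat_lit 5) (nat_lit 293) (nat_lit 5) (nat_lit 334) (nat_lit 296) (nat_lit 270)))))) (XT.nd (nat_lit 390) (nat_lit 3192) (nat_lit 0) (XT.nd (nat_lit 156) (nat_lit 2052) (nat_lit 0) (XT.nd (nat_lit 78) (nat_lit 836) (nat_lit 0) (XT.lf (nat_lit 0) (nat_lit 6451580154) (nat_lit 760) (nat_lit 154092016) (nat_lit 836) (nat_lit 1494560071) (nat_lit 282) (nat_lit 5) (nat_lit 292) (nat_lit 5) (nat_lit 293) (nat_lit 5) (nat_lit 335) (nat_lit 296) (nat_lit 269)) (XT.lf (nat_lit 0) (nat_lit 2451767877) (nat_lit 836) (nat_lit 2030379288) (nat_lit 76) (nat_lit 3722113456) (nat_lit 271) (nat_lit 5) (nat_lit 282) (nat_lit 5) (nat_lit 272) (nat_lit 5) (nat_lit 336) (nat_lit 296) (nat_lit 268))) (XT.nd (nat_lit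 78) (nat_lit 1368) (nat_lit 0) (XT.lf (nat_lit 0) (nat_lit 5900785492) (nat_lit 684) (nat_lit 551502969) (nat_lit 760) (nat_lit 1859856484) (nat_lit 262) (nat_lit 5) (nat_lit 271) (nat_lit 5) (nat_lit 272) (nat_lit 5) (nat_lit 337) (nat_lit 296) (nat_lit 267)) (XT.nd (nat_lit 78) (nat_lit 608) (nat_lit 0) (XT.lf (nat_lit 0) (nat_lit 2101593095) (nat_lit 760) (nat_lit 2820011496) (nat_lit 76) (nat_lit 3501829749) (nat_lit 252) (nat_lit 5) (nat_lit 262) (nat_lit 5) (nat_lit 253) (nat_lit 5) (nat_lit 338) (nat_lit 296) (nat_lit 266)) (XT.lf (nat_lit 0) (nat_lit 5299641481) (nat_lit 608) (nat_lit 820403134) (nat_lit 684) (nat_lit 2418554067) (nat_lit 244) (nat_lit 5) (nat_lit 252) (nat_lit 5) (nat_lit 253) (nat_lit 5) (nat_lit 339) (nat_lit 296) (nat_lit 265))))) (XT.nd (nat_lit 156) (nat_lit 1824) (nat_lit 0) (XT.nd (nat_lit 78) (nat_lit 608) (nat_lit 0) (XT.lf (nat_lit 0) (nat_lit 1564942550) (nat_lit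 760) (nat_lit 3687671781) (nat_lit 76) (nat_lit 3404761468) (nat_lit 234) (nat_lit 5) (nat_lit 244) (nat_lit 5) (nat_lit 235) (nat_lit 5) (nat_lit 340) (nat_lit 296) (nat_lit 264)) (XT.lf (nat_lit 0) (nat_lit 4621482686) (nat_lit 608) (nat_lit 983267464) (nat_lit 684) (nat_lit 3175299877) (nat_lit 226) (nat_lit 5) (nat_lit 234) (nat_lit 5) (nat_lit 235) (nat_lit 5) (nat_lit 341) (nat_lit 296) (nat_lit 263))) (XT.nd (nat_lit 78) (nat_lit 1140) (nat_lit 0) (XT.lf (nat_lit 0) (nat_lit 836528886) (nat_lit 684) (nat_lit 4661194098) (nat_lit 76) (nat_lit 3408845441) (nat_lit 217) (nat_lit 5) (nat_lit 226) (nat_lit 5) (nat_lit 218) (nat_lit 5) (nat_lit 342) (nat_lit 296) (nat_lit 262)) (XT.nd (nat_lit 78) (nat_lit 608) (nat_lit 0) (XT.lf (nat_lit 0) (nat_lit 3838021622) (nat_lit 532) (nat_lit 1062537565) (nat_lit 608) (nat_lit 4136446955) (nat_lit 210) (nat_lit 5) (nat_lit 217) (nat_lit 5) (nat_lit 218)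 (nat_lit 5) (nat_lit 343) (nat_lit 296) (nat_lit 261)) (XT.lf (nat_lit 0) (nat_lit 3400721180) (nat_lit 608) (nat_lit 5678966470) (nat_lit 684) (nat_lit 91847806) (nat_lit 202) (nat_lit 5) (nat_lit 210) (nat_lit 5) (nat_lit 211) (nat_lit 5) (nat_lit 344) (nat_lit 296) (nat_lit 260))))))) (XT.nd (nat_lit 780) (nat_lit 3572) (nat_lit 0) (XT.nd (nat_lit 390) (nat_lit 1900) (nat_lit 0) (XT.nd (nat_lit 156) (nat_lit 1672) (nat_lit 0) (XT.nd (nat_lit 78) (nat_lit 532) (nat_lit 0) (XT.lf (nat_lit 0) (nat_lit 2919068347) (nat_lit 532) (nat_lit 1080822419) (nat_lit 608) (nat_lit 5310136160) (nat_lit 194) (nat_lit 5) (nat_lit 201) (nat_lit 5) (nat_lit 202) (nat_lit 5) (nat_lit 345) (nat_lit 296) (nat_lit 259)) (XT.lf (nat_lit 0) (nat_lit 2398198579) (nat_lit 532) (nat_lit 5812892184) (nat_lit 608) (nat_lit 1241649919) (nat_lit 187) (nat_lit 5) (nat_lit 194) (nat_lit 5) (nat_lit 195) (nat_lit 5) (nat_lit 346)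 (nat_lit 296) (nat_lit 258))) (XT.nd (nat_lit 78) (nat_lit 1064) (nat_lit 0) (XT.lf (nat_lit 0) (nat_lit 1832228616) (nat_lit 532) (nat_lit 1061105197) (nat_lit 608) (nat_lit 6706393702) (nat_lit 179) (nat_lit 5) (nat_lit 186) (nat_lit 5) (nat_lit 187) (nat_lit 5) (nat_lit 347) (nat_lit 296) (nat_lit 257)) (XT.nd (nat_lit 78) (nat_lit 532) (nat_lit 0) (XT.lf (nat_lit 0) (nat_lit 1209844180) (nat_lit 532) (nat_lit 5928499487) (nat_lit 608) (nat_lit 2612595103) (nat_lit 172) (nat_lit 5) (nat_lit 179) (nat_lit 5) (nat_lit 180) (nat_lit 5) (nat_lit 348) (nat_lit 296) (nat_lit 256)) (XT.lf (nat_lit 0) (nat_lit 542577726) (nat_lit 456) (nat_lit 1026957963) (nat_lit 532) (nat_lit 8337245432) (nat_lit 165) (nat_lit 5) (nat_lit 171) (nat_lit 5) (nat_lit 172) (nat_lit 5) (nat_lit 349) (nat_lit 296) (nat_lit 255))))) (XT.nd (nat_lit 156) (nat_lit 1368) (nat_lit 0) (XT.nd (nat_lit 78) (nat_lit 532) (nat_lit 0)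 (XT.lf (nat_lit 0) (nat_lit 5850569201) (nat_lit 532) (nat_lit 197994728) (nat_lit 76) (nat_lit 4018243910) (nat_lit 165) (nat_lit 5) (nat_lit 172) (nat_lit 5) (nat_lit 166) (nat_lit 5) (nat_lit 350) (nat_lit 296) (nat_lit 254)) (XT.lf (nat_lit 0) (nat_lit 21485888) (nat_lit 532) (nat_lit 974739235) (nat_lit 76) (nat_lit 9235568905) (nat_lit 158) (nat_lit 5) (nat_lit 165) (nat_lit 5) (nat_lit 159) (nat_lit 5) (nat_lit 351) (nat_lit 296) (nat_lit 253))) (XT.nd (nat_lit 78) (nat_lit 912) (nat_lit 0) (XT.lf (nat_lit 0) (nat_lit 4341709780) (nat_lit 532) (nat_lit 1848012966) (nat_lit 76) (nat_lit 4211227313) (nat_lit 152) (nat_lit 5) (nat_lit 159) (nat_lit 5) (nat_lit 153) (nat_lit 5) (nat_lit 352) (nat_lit 296) (nat_lit 252)) (XT.nd (nat_lit 78) (nat_lit 456) (nat_lit 0) (XT.lf (nat_lit 0) (nat_lit 7800783503) (nat_lit 456) (nat_lit 983562950) (nat_lit 532) (nat_lit 1791007944) (nat_lit 146) (nat_lit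 5) (nat_lit 152) (nat_lit 5) (nat_lit 153) (nat_lit 5) (nat_lit 353) (nat_lit 296) (nat_lit 251)) (XT.lf (nat_lit 0) (nat_lit 2587594619) (nat_lit 456) (nat_lit 3798353227) (nat_lit 76) (nat_lit 4368403192) (nat_lit 140) (nat_lit 5) (nat_lit 146) (nat_lit 5) (nat_lit 141) (nat_lit 5) (nat_lit 354) (nat_lit 296) (nat_lit 250)))))) (XT.nd (nat_lit 390) (nat_lit 1444) (nat_lit 0) (XT.nd (nat_lit 156) (nat_lit 1216) (nat_lit 0) (XT.nd (nat_lit 78) (nat_lit 456) (nat_lit 0) (XT.lf (nat_lit 0) (nat_lit 6040142548) (nat_lit 456) (nat_lit 1028960142) (nat_lit 532) (nat_lit 3869488002) (nat_lit 134) (nat_lit 5) (nat_lit 140) (nat_lit 5) (nat_lit 141) (nat_lit 5) (nat_lit 355) (nat_lit 296) (nat_lit 249)) (XT.lf (nat_lit 0) (nat_lit 569468059) (nat_lit 456) (nat_lit 6095153712) (nat_lit 76) (nat_lit 4463288225) (nat_lit 128) (nat_lit 5) (nat_lit 134) (nat_lit 5) (nat_lit 129) (nat_lit 5) (nat_lit 356) (nat_lit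 296) (nat_lit 248))) (XT.nd (nat_lit 78) (nat_lit 836) (nat_lit 0) (XT.lf (nat_lit 0) (nat_lit 3927809186) (nat_lit 380) (nat_lit 1160401599) (nat_lit 456) (nat_lit 6234228167) (nat_lit 123) (nat_lit 5) (nat_lit 128) (nat_lit 5) (nat_lit 129) (nat_lit 5) (nat_lit 357) (nat_lit 296) (nat_lit 247)) (XT.nd (nat_lit 78) (nat_lit 456) (nat_lit 0) (XT.lf (nat_lit 0) (nat_lit 2722078168) (nat_lit 380) (nat_lit 7043185520) (nat_lit 456) (nat_lit 1757109794) (nat_lit 118) (nat_lit 5) (nat_lit 123) (nat_lit 5) (nat_lit 124) (nat_lit 5) (nat_lit 358) (nat_lit 296) (nat_lit 246)) (XT.lf (nat_lit 0) (nat_lit 1411792805) (nat_lit 380) (nat_lit 1407529744) (nat_lit 456) (nat_lit 8908587625) (nat_lit 112) (nat_lit 5) (nat_lit 117) (nat_lit 5) (nat_lit 118) (nat_lit 5) (nat_lit 359) (nat_lit 296) (nat_lit 245))))) (XT.nd (nat_lit 156) (nat_lit 1064) (nat_lit 0) (XT.nd (nat_lit 78) (nat_lit 380) (nat_lit 0) (XT.lf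 (nat_lit 0) (nat_lit 7534032762) (nat_lit 456) (nat_lit 24244919) (nat_lit 76) (nat_lit 4380628643) (nat_lit 112) (nat_lit 5) (nat_lit 118) (nat_lit 5) (nat_lit 113) (nat_lit 5) (nat_lit 360) (nat_lit 296) (nat_lit 244)) (XT.lf (nat_lit 0) (nat_lit 247293017) (nat_lit 380) (nat_lit 1544432782) (nat_lit 76) (nat_lit 10364169686) (nat_lit 107) (nat_lit 5) (nat_lit 112) (nat_lit 5) (nat_lit 108) (nat_lit 5) (nat_lit 361) (nat_lit 296) (nat_lit 243))) (XT.nd (nat_lit 78) (nat_lit 684) (nat_lit 0) (XT.lf (nat_lit 0) (nat_lit 5005436566) (nat_lit 456) (nat_lit 3220342566) (nat_lit 76) (nat_lit 4152528788) (nat_lit 102) (nat_lit 5) (nat_lit 108) (nat_lit 5) (nat_lit 103) (nat_lit 5) (nat_lit 362) (nat_lit 296) (nat_lit 242)) (XT.nd (nat_lit 78) (nat_lit 380) (nat_lit 0) (XT.lf (nat_lit 0) (nat_lit 7591009840) (nat_lit 304) (nat_lit 2326900545) (nat_lit 380) (nat_lit 2689271072) (nat_lit 98) (nat_lit 5) (nat_lit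 102) (nat_lit 5) (nat_lit 103) (nat_lit 5) (nat_lit 363) (nat_lit 296) (nat_lit 241)) (XT.lf (nat_lit 0) (nat_lit 2132279750) (nat_lit 380) (nat_lit 6966801134) (nat_lit 76) (nat_lit 3743073739) (nat_lit 93) (nat_lit 5) (nat_lit 98) (nat_lit 5) (nat_lit 94) (nat_lit 5) (nat_lit 364) (nat_lit 296) (nat_lit 240))))))))
noncomputable def xc42 : XT := (XT.nd (nat_lit 1482) (nat_lit 456) (nat_lit 0) (XT.nd (nat_lit 702) (nat_lit 1900) (nat_lit 0) (XT.nd (nat_lit 312) (nat_lit 1216) (nat_lit 0) (XT.nd (nat_lit 156) (nat_lit 304) (nat_lit 0) (XT.nd (nat_lit 78) (nat_lit 304) (nat_lit 0) (XT.lf (nat_lit 0) (nat_lit 4006860575) (nat_lit 304) (nat_lit 3072565401) (nat_lit 380) (nat_lit 6004064671) (nat_lit 89) (nat_lit 5) (nat_lit 93) (nat_lit 5) (nat_lit 94) (nat_lit 5) (nat_lit 365) (nat_lit 296) (nat_lit 239)) (XT.lf (nat_lit 0) (nat_lit 1989198725) (nat_lit 304) (nat_lit 10208980747) (nat_lit 380) (nat_lit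 1133441770) (nat_lit 85) (nat_lit 5) (nat_lit 89) (nat_lit 5) (nat_lit 90) (nat_lit 5) (nat_lit 366) (nat_lit 296) (nat_lit 238))) (XT.nd (nat_lit 78) (nat_lit 228) (nat_lit 0) (XT.lf (nat_lit 0) (nat_lit 3857943379) (nat_lit 380) (nat_lit 210395645) (nat_lit 76) (nat_lit 9517858459) (nat_lit 84) (nat_lit 5) (nat_lit 89) (nat_lit 5) (nat_lit 85) (nat_lit 5) (nat_lit 367) (nat_lit 296) (nat_lit 237)) (XT.lf (nat_lit 0) (nat_lit 9016938504) (nat_lit 304) (nat_lit 2553456450) (nat_lit 76) (nat_lit 2277217821) (nat_lit 81) (nat_lit 5) (nat_lit 85) (nat_lit 5) (nat_lit 82) (nat_lit 5) (nat_lit 368) (nat_lit 296) (nat_lit 236)))) (XT.nd (nat_lit 156) (nat_lit 608) (nat_lit 0) (XT.nd (nat_lit 78) (nat_lit 228) (nat_lit 0) (XT.lf (nat_lit 0) (nat_lit 244151842) (nat_lit 380) (nat_lit 5083062309) (nat_lit 76) (nat_lit 8788982279) (nat_lit 76) (nat_lit 5) (nat_lit 81) (nat_lit 5) (nat_lit 77) (nat_lit 5) (nat_lit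 369) (nat_lit 296) (nat_lit 235)) (XT.lf (nat_lit 0) (nat_lit 5419943169) (nat_lit 304) (nat_lit 7821727056) (nat_lit 76) (nat_lit 1150257414) (nat_lit 73) (nat_lit 5) (nat_lit 77) (nat_lit 5) (nat_lit 74) (nat_lit 5) (nat_lit 370) (nat_lit 296) (nat_lit 234))) (XT.nd (nat_lit 78) (nat_lit 304) (nat_lit 0) (XT.lf (nat_lit 0) (nat_lit 3897471732) (nat_lit 304) (nat_lit 6896234155) (nat_lit 380) (nat_lit 3881386156) (nat_lit 69) (nat_lit 5) (nat_lit 73) (nat_lit 5) (nat_lit 74) (nat_lit 5) (nat_lit 371) (nat_lit 296) (nat_lit 233)) (XT.nd (nat_lit 78) (nat_lit 0) (nat_lit 0) (XT.lf (nat_lit 0) (nat_lit 1029412566) (nat_lit 228) (nat_lit 322425875) (nat_lit 304) (nat_lit 13614595160) (nat_lit 65) (nat_lit 5) (nat_lit 68) (nat_lit 5) (nat_lit 69) (nat_lit 5) (nat_lit 372) (nat_lit 296) (nat_lit 232)) (XT.lf (nat_lit 0) (nat_lit 6753521152) (nat_lit 304) (nat_lit 2079158055) (nat_lit 76) (nat_lit 6432053252)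 (nat_lit 65) (nat_lit 5) (nat_lit 69) (nat_lit 5) (nat_lit 66) (nat_lit 5) (nat_lit 373) (nat_lit 296) (nat_lit 231)))))) (XT.nd (nat_lit 390) (nat_lit 836) (nat_lit 0) (XT.nd (nat_lit 156) (nat_lit 532) (nat_lit 0) (XT.nd (nat_lit 78) (nat_lit 304) (nat_lit 0) (XT.lf (nat_lit 0) (nat_lit 10184323037) (nat_lit 228) (nat_lit 2151219454) (nat_lit 304) (nat_lit 3236085678) (nat_lit 62) (nat_lit 5) (nat_lit 65) (nat_lit 5) (nat_lit 66) (nat_lit 5) (nat_lit 374) (nat_lit 296) (nat_lit 230)) (XT.lf (nat_lit 0) (nat_lit 2209403072) (nat_lit 304) (nat_lit 8965589639) (nat_lit 76) (nat_lit 4711647156) (nat_lit 58) (nat_lit 5) (nat_lit 62) (nat_lit 5) (nat_lit 59) (nat_lit 5) (nat_lit 375) (nat_lit 296) (nat_lit 229))) (XT.nd (nat_lit 78) (nat_lit 304) (nat_lit 0) (XT.lf (nat_lit 0) (nat_lit 3389870940) (nat_lit 228) (nat_lit 4409139837) (nat_lit 304) (nat_lit 8411181542) (nat_lit 55) (nat_lit 5) (nat_lit 58)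 (nat_lit 5) (nat_lit 59) (nat_lit 5) (nat_lit 376) (nat_lit 296) (nat_lit 228)) (XT.nd (nat_lit 78) (nat_lit 304) (nat_lit 0) (XT.lf (nat_lit 0) (nat_lit 13586109471) (nat_lit 304) (nat_lit 400346649) (nat_lit 76) (nat_lit 2556411413) (nat_lit 55) (nat_lit 5) (nat_lit 59) (nat_lit 5) (nat_lit 56) (nat_lit 5) (nat_lit 377) (nat_lit 296) (nat_lit 227)) (XT.lf (nat_lit 0) (nat_lit 2690539825) (nat_lit 304) (nat_lit 4453437157) (nat_lit 76) (nat_lit 9739929195) (nat_lit 51) (nat_lit 5) (nat_lit 55) (nat_lit 5) (nat_lit 52) (nat_lit 5) (nat_lit 378) (nat_lit 296) (nat_lit 226))))) (XT.nd (nat_lit 156) (nat_lit 456) (nat_lit 0) (XT.nd (nat_lit 78) (nat_lit 152) (nat_lit 0) (XT.lf (nat_lit 0) (nat_lit 8430495730) (nat_lit 228) (nat_lit 48258699) (nat_lit 304) (nat_lit 8755808614) (nat_lit 48) (nat_lit 5) (nat_lit 51) (nat_lit 5) (nat_lit 52) (nat_lit 5) (nat_lit 379) (nat_lit 296) (nat_lit 225)) (XT.lf (nat_lit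 0) (nat_lit 4096843690) (nat_lit 152) (nat_lit 10402512408) (nat_lit 228) (nat_lit 3095219689) (nat_lit 46) (nat_lit 5) (nat_lit 48) (nat_lit 5) (nat_lit 49) (nat_lit 5) (nat_lit 380) (nat_lit 296) (nat_lit 224))) (XT.nd (nat_lit 78) (nat_lit 380) (nat_lit 0) (XT.lf (nat_lit 0) (nat_lit 2714844602) (nat_lit 228) (nat_lit 553065296) (nat_lit 76) (nat_lit 14696823697) (nat_lit 45) (nat_lit 5) (nat_lit 48) (nat_lit 5) (nat_lit 46) (nat_lit 5) (nat_lit 381) (nat_lit 296) (nat_lit 223)) (XT.nd (nat_lit 78) (nat_lit 152) (nat_lit 0) (XT.lf (nat_lit 0) (nat_lit 8724307201) (nat_lit 304) (nat_lit 5517436777) (nat_lit 76) (nat_lit 4102510156) (nat_lit 42) (nat_lit 5) (nat_lit 46) (nat_lit 5) (nat_lit 43) (nat_lit 5) (nat_lit 382) (nat_lit 296) (nat_lit 222)) (XT.lf (nat_lit 0) (nat_lit 7889208401) (nat_lit 152) (nat_lit 7058760172) (nat_lit 228) (nat_lit 3786523276) (nat_lit 40) (nat_lit 5) (nat_lit 42) (nat_lit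 5) (nat_lit 43) (nat_lit 5) (nat_lit 383) (nat_lit 296) (nat_lit 221))))))) (XT.nd (nat_lit 41262) (nat_lit 0) (nat_lit 34504) (XT.nd (nat_lit 40872) (nat_lit 0) (nat_lit 43852) (XT.nd (nat_lit 156) (nat_lit 152) (nat_lit 0) (XT.nd (nat_lit 78) (nat_lit 0) (nat_lit 0) (XT.lf (nat_lit 0) (nat_lit 2207209521) (nat_lit 304) (nat_lit 16553624244) (nat_lit 76) (nat_lit 375034849) (nat_lit 36) (nat_lit 5) (nat_lit 40) (nat_lit 5) (nat_lit 37) (nat_lit 5) (nat_lit 384) (nat_lit 296) (nat_lit 220)) (XT.lf (nat_lit 0) (nat_lit 8408930916) (nat_lit 304) (nat_lit 3131610145) (nat_lit 76) (nat_lit 8006661738) (nat_lit 36) (nat_lit 5) (nat_lit 40) (nat_lit 5) (nat_lit 37) (nat_lit 5) (nat_lit 385) (nat_lit 296) (nat_lit 219))) (XT.nd (nat_lit 40638) (nat_lit 0) (nat_lit 46056) (XT.lf (nat_lit 0) (nat_lit 10764505569) (nat_lit 152) (nat_lit 4061452340) (nat_lit 228) (nat_lit 5144342864) (nat_lit 34) (nat_lit 5)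 (nat_lit 36) (nat_lit 5) (nat_lit 37) (nat_lit 5) (nat_lit 386) (nat_lit 296) (nat_lit 218)) (XT.lf (nat_lit 0) (nat_lit 827938861) (nat_lit 380) (nat_lit 1584972900) (nat_lit 0) (nat_lit 827938861) (nat_lit 640) (nat_lit 5) (nat_lit 645) (nat_lit 4) (nat_lit 640) (nat_lit 4) (nat_lit 306) (nat_lit 297) (nat_lit 297)))) (XT.nd (nat_lit 156) (nat_lit 1292) (nat_lit 0) (XT.nd (nat_lit 78) (nat_lit 532) (nat_lit 0) (XT.lf (nat_lit 0) (nat_lit 2032055865) (nat_lit 380) (nat_lit 4183942573) (nat_lit 380) (nat_lit 280441728) (nat_lit 635) (nat_lit 4) (nat_lit 640) (nat_lit 5) (nat_lit 640) (nat_lit 4) (nat_lit 307) (nat_lit 297) (nat_lit 296)) (XT.lf (nat_lit 0) (nat_lit 798494906) (nat_lit 456) (nat_lit 3405367666) (nat_lit 532) (nat_lit 2310153677) (nat_lit 628) (nat_lit 5) (nat_lit 634) (nat_lit 5) (nat_lit 635) (nat_lit 4) (nat_lit 308) (nat_lit 297) (nat_lit 295))) (XT.nd (nat_lit 78) (nat_lit 1216)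 (nat_lit 0) (XT.lf (nat_lit 0) (nat_lit 2123686797) (nat_lit 532) (nat_lit 374256628) (nat_lit 76) (nat_lit 4036668581) (nat_lit 627) (nat_lit 5) (nat_lit 634) (nat_lit 5) (nat_lit 628) (nat_lit 5) (nat_lit 309) (nat_lit 297) (nat_lit 294)) (XT.nd (nat_lit 78) (nat_lit 684) (nat_lit 0) (XT.lf (nat_lit 0) (nat_lit 5075252287) (nat_lit 532) (nat_lit 1458213149) (nat_lit 608) (nat_lit 24727770) (nat_lit 620) (nat_lit 5) (nat_lit 627) (nat_lit 5) (nat_lit 628) (nat_lit 5) (nat_lit 310) (nat_lit 297) (nat_lit 293)) (XT.lf (nat_lit 0) (nat_lit 4030956417) (nat_lit 608) (nat_lit 275863816) (nat_lit 684) (nat_lit 2277775815) (nat_lit 611) (nat_lit 5) (nat_lit 619) (nat_lit 5) (nat_lit 620) (nat_lit 5) (nat_lit 311) (nat_lit 297) (nat_lit 292)))))) (XT.nd (nat_lit 390) (nat_lit 5928) (nat_lit 0) (XT.nd (nat_lit 156) (nat_lit 1900) (nat_lit 0) (XT.nd (nat_lit 78) (nat_lit 760) (nat_lit 0) (XT.lf (nat_lit 0)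 (nat_lit 2011192685) (nat_lit 760) (nat_lit 3580381400) (nat_lit 76) (nat_lit 1022412210) (nat_lit 601) (nat_lit 5) (nat_lit 611) (nat_lit 5) (nat_lit 602) (nat_lit 5) (nat_lit 312) (nat_lit 297) (nat_lit 291)) (XT.lf (nat_lit 0) (nat_lit 2083740793) (nat_lit 760) (nat_lit 4197914851) (nat_lit 836) (nat_lit 364766041) (nat_lit 591) (nat_lit 5) (nat_lit 601) (nat_lit 5) (nat_lit 602) (nat_lit 5) (nat_lit 313) (nat_lit 297) (nat_lit 290))) (XT.nd (nat_lit 78) (nat_lit 988) (nat_lit 0) (XT.lf (nat_lit 0) (nat_lit 1170397824) (nat_lit 836) (nat_lit 2662933550) (nat_lit 912) (nat_lit 2848404644) (nat_lit 579) (nat_lit 5) (nat_lit 590) (nat_lit 5) (nat_lit 591) (nat_lit 5) (nat_lit 314) (nat_lit 297) (nat_lit 289)) (XT.nd (nat_lit 78) (nat_lit 0) (nat_lit 0) (XT.lf (nat_lit 0) (nat_lit 305916742) (nat_lit 912) (nat_lit 998637805) (nat_lit 988) (nat_lit 5415667343) (nat_lit 566) (nat_lit 5) (nat_lit 578)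 (nat_lit 5) (nat_lit 579) (nat_lit 5) (nat_lit 315) (nat_lit 297) (nat_lit 288)) (XT.lf (nat_lit 0) (nat_lit 5445503527) (nat_lit 988) (nat_lit 517952389) (nat_lit 76) (nat_lit 798111004) (nat_lit 566) (nat_lit 5) (nat_lit 579) (nat_lit 5) (nat_lit 567) (nat_lit 5) (nat_lit 316) (nat_lit 297) (nat_lit 287))))) (XT.nd (nat_lit 156) (nat_lit 3724) (nat_lit 0) (XT.nd (nat_lit 78) (nat_lit 1140) (nat_lit 0) (XT.lf (nat_lit 0) (nat_lit 2773889652) (nat_lit 1064) (nat_lit 1308317843) (nat_lit 76) (nat_lit 2723574976) (nat_lit 552) (nat_lit 5) (nat_lit 566) (nat_lit 5) (nat_lit 553) (nat_lit 5) (nat_lit 317) (nat_lit 297) (nat_lit 286)) (XT.lf (nat_lit 0) (nat_lit 16019857) (nat_lit 1140) (nat_lit 2055139258) (nat_lit 76) (nat_lit 4782086681) (nat_lit 537) (nat_lit 5) (nat_lit 552) (nat_lit 5) (nat_lit 538) (nat_lit 5) (nat_lit 318) (nat_lit 297) (nat_lit 285))) (XT.nd (nat_lit 78) (nat_lit 2584) (nat_lit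 0) (XT.lf (nat_lit 0) (nat_lit 4035490403) (nat_lit 1216) (nat_lit 2778673576) (nat_lit 76) (nat_lit 89446372) (nat_lit 522) (nat_lit 5) (nat_lit 538) (nat_lit 5) (nat_lit 523) (nat_lit 5) (nat_lit 319) (nat_lit 297) (nat_lit 284)) (XT.nd (nat_lit 78) (nat_lit 1292) (nat_lit 0) (XT.lf (nat_lit 0) (nat_lit 1125573408) (nat_lit 1292) (nat_lit 3475757628) (nat_lit 76) (nat_lit 2355669161) (nat_lit 505) (nat_lit 5) (nat_lit 522) (nat_lit 5) (nat_lit 506) (nat_lit 5) (nat_lit 320) (nat_lit 297) (nat_lit 283)) (XT.lf (nat_lit 0) (nat_lit 2867266852) (nat_lit 1292) (nat_lit 2244379816) (nat_lit 1368) (nat_lit 1901835283) (nat_lit 488) (nat_lit 5) (nat_lit 505) (nat_lit 5) (nat_lit 506) (nat_lit 5) (nat_lit 321) (nat_lit 297) (nat_lit 282))))))))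
noncomputable def xc43 : XT := (XT.nd (nat_lit 1482) (nat_lit 9272) (nat_lit 0) (XT.nd (nat_lit 702) (nat_lit 7752) (nat_lit 0) (XT.nd (nat_lit 312) (nat_lit 5472) (nat_lit 0) (XT.nd (nat_lit 156) (nat_lit 3192) (nat_lit 0) (XT.nd (nat_lit 78) (nat_lit 1444) (nat_lit 0) (XT.lf (nat_lit 0) (nat_lit 2033539089) (nat_lit 1444) (nat_lit 4788395854) (nat_lit 76) (nat_lit 251219151) (nat_lit 469) (nat_lit 5) (nat_lit 488) (nat_lit 5) (nat_lit 470) (nat_lit 5) (nat_lit 322) (nat_lit 297) (nat_lit 281)) (XT.lf (nat_lit 0) (nat_lit 1718661569) (nat_lit 1444) (nat_lit 4275945043) (nat_lit 1520) (nat_lit 1141181455) (nat_lit 450) (nat_lit 5) (nat_lit 469) (nat_lit 5) (nat_lit 470) (nat_lit 5) (nat_lit 323) (nat_lit 297) (nat_lit 280))) (XT.nd (nat_lit 78) (nat_lit 1596) (nat_lit 0) (XT.lf (nat_lit 0) (nat_lit 1176115743) (nat_lit 1520) (nat_lit 1581535946) (nat_lit 1596) (nat_lit 4443941338) (nat_lit 429) (nat_lit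 5) (nat_lit 449) (nat_lit 5) (nat_lit 450) (nat_lit 5) (nat_lit 324) (nat_lit 297) (nat_lit 279)) (XT.lf (nat_lit 0) (nat_lit 657668903) (nat_lit 1596) (nat_lit 6033036320) (nat_lit 1672) (nat_lit 579946333) (nat_lit 408) (nat_lit 5) (nat_lit 429) (nat_lit 5) (nat_lit 430) (nat_lit 5) (nat_lit 325) (nat_lit 297) (nat_lit 278)))) (XT.nd (nat_lit 156) (nat_lit 3724) (nat_lit 0) (XT.nd (nat_lit 78) (nat_lit 0) (nat_lit 0) (XT.lf (nat_lit 0) (nat_lit 143938730) (nat_lit 1672) (nat_lit 3149613424) (nat_lit 1748) (nat_lit 4049106051) (nat_lit 385) (nat_lit 5) (nat_lit 407) (nat_lit 5) (nat_lit 408) (nat_lit 5) (nat_lit 326) (nat_lit 297) (nat_lit 277)) (XT.lf (nat_lit 0) (nat_lit 7084057835) (nat_lit 1672) (nat_lit 124356789) (nat_lit 1748) (nat_lit 209751985) (nat_lit 385) (nat_lit 5) (nat_lit 407) (nat_lit 5) (nat_lit 408) (nat_lit 5) (nat_lit 327) (nat_lit 297) (nat_lit 276))) (XT.nd (nat_lit 78) (nat_lit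 1900) (nat_lit 0) (XT.lf (nat_lit 0) (nat_lit 3649712838) (nat_lit 1824) (nat_lit 821349653) (nat_lit 76) (nat_lit 3025385815) (nat_lit 361) (nat_lit 5) (nat_lit 385) (nat_lit 5) (nat_lit 362) (nat_lit 5) (nat_lit 328) (nat_lit 297) (nat_lit 275)) (XT.nd (nat_lit 78) (nat_lit 988) (nat_lit 0) (XT.lf (nat_lit 0) (nat_lit 6297387997) (nat_lit 912) (nat_lit 1261948900) (nat_lit 988) (nat_lit 19042321) (nat_lit 349) (nat_lit 5) (nat_lit 361) (nat_lit 5) (nat_lit 362) (nat_lit 5) (nat_lit 329) (nat_lit 297) (nat_lit 274)) (XT.lf (nat_lit 0) (nat_lit 3824719426) (nat_lit 988) (nat_lit 1751637655) (nat_lit 76) (nat_lit 2086917080) (nat_lit 336) (nat_lit 5) (nat_lit 349) (nat_lit 5) (nat_lit 337) (nat_lit 5) (nat_lit 330) (nat_lit 297) (nat_lit 273)))))) (XT.nd (nat_lit 390) (nat_lit 3648) (nat_lit 0) (XT.nd (nat_lit 156) (nat_lit 2356) (nat_lit 0) (XT.nd (nat_lit 78) (nat_lit 912) (nat_lit 0) (XT.lf (nat_lit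 0) (nat_lit 5545890080) (nat_lit 836) (nat_lit 2188110007) (nat_lit 912) (nat_lit 17771508) (nat_lit 325) (nat_lit 5) (nat_lit 336) (nat_lit 5) (nat_lit 337) (nat_lit 5) (nat_lit 331) (nat_lit 297) (nat_lit 272)) (XT.lf (nat_lit 0) (nat_lit 3819608406) (nat_lit 912) (nat_lit 2671374243) (nat_lit 76) (nat_lit 1352429718) (nat_lit 313) (nat_lit 5) (nat_lit 325) (nat_lit 5) (nat_lit 314) (nat_lit 5) (nat_lit 332) (nat_lit 297) (nat_lit 271))) (XT.nd (nat_lit 78) (nat_lit 1596) (nat_lit 0) (XT.lf (nat_lit 0) (nat_lit 4806914255) (nat_lit 760) (nat_lit 2926959933) (nat_lit 836) (nat_lit 204748043) (nat_lit 303) (nat_lit 5) (nat_lit 313) (nat_lit 5) (nat_lit 314) (nat_lit 5) (nat_lit 333) (nat_lit 297) (nat_lit 270)) (XT.nd (nat_lit 78) (nat_lit 760) (nat_lit 0) (XT.lf (nat_lit 0) (nat_lit 3634892444) (nat_lit 836) (nat_lit 3603758011) (nat_lit 76) (nat_lit 798514707) (nat_lit 292) (nat_lit 5) (nat_lit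 303) (nat_lit 5) (nat_lit 293) (nat_lit 5) (nat_lit 334) (nat_lit 297) (nat_lit 269)) (XT.lf (nat_lit 0) (nat_lit 4057110713) (nat_lit 760) (nat_lit 3501860140) (nat_lit 836) (nat_lit 580283457) (nat_lit 282) (nat_lit 5) (nat_lit 292) (nat_lit 5) (nat_lit 293) (nat_lit 5) (nat_lit 335) (nat_lit 297) (nat_lit 268))))) (XT.nd (nat_lit 156) (nat_lit 2128) (nat_lit 0) (XT.nd (nat_lit 78) (nat_lit 684) (nat_lit 0) (XT.lf (nat_lit 0) (nat_lit 3269602902) (nat_lit 836) (nat_lit 4572837397) (nat_lit 76) (nat_lit 402439695) (nat_lit 271) (nat_lit 5) (nat_lit 282) (nat_lit 5) (nat_lit 272) (nat_lit 5) (nat_lit 336) (nat_lit 297) (nat_lit 267)) (XT.lf (nat_lit 0) (nat_lit 3272212025) (nat_lit 684) (nat_lit 3935603349) (nat_lit 760) (nat_lit 1146221328) (nat_lit 262) (nat_lit 5) (nat_lit 271) (nat_lit 5) (nat_lit 272) (nat_lit 5) (nat_lit 337) (nat_lit 297) (nat_lit 266))) (XT.nd (nat_lit 78) (nat_lit 1368) (nat_lit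 0) (XT.lf (nat_lit 0) (nat_lit 2721254777) (nat_lit 760) (nat_lit 5603734591) (nat_lit 76) (nat_lit 141961303) (nat_lit 252) (nat_lit 5) (nat_lit 262) (nat_lit 5) (nat_lit 253) (nat_lit 5) (nat_lit 338) (nat_lit 297) (nat_lit 265)) (XT.nd (nat_lit 78) (nat_lit 760) (nat_lit 0) (XT.lf (nat_lit 0) (nat_lit 2426803276) (nat_lit 608) (nat_lit 4250603081) (nat_lit 684) (nat_lit 1905978889) (nat_lit 244) (nat_lit 5) (nat_lit 252) (nat_lit 5) (nat_lit 253) (nat_lit 5) (nat_lit 339) (nat_lit 297) (nat_lit 264)) (XT.lf (nat_lit 0) (nat_lit 1980903231) (nat_lit 684) (nat_lit 4927754) (nat_lit 760) (nat_lit 6717987170) (nat_lit 234) (nat_lit 5) (nat_lit 243) (nat_lit 5) (nat_lit 244) (nat_lit 5) (nat_lit 340) (nat_lit 297) (nat_lit 263))))))) (XT.nd (nat_lit 780) (nat_lit 4028) (nat_lit 0) (XT.nd (nat_lit 390) (nat_lit 2736) (nat_lit 0) (XT.nd (nat_lit 156) (nat_lit 1216) (nat_lit 0) (XT.nd (nat_lit 78) (nat_lit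 684) (nat_lit 0) (XT.lf (nat_lit 0) (nat_lit 1494077882) (nat_lit 608) (nat_lit 4469084620) (nat_lit 684) (nat_lit 2864601797) (nat_lit 226) (nat_lit 5) (nat_lit 234) (nat_lit 5) (nat_lit 235) (nat_lit 5) (nat_lit 341) (nat_lit 297) (nat_lit 262)) (XT.lf (nat_lit 0) (nat_lit 997293810) (nat_lit 608) (nat_lit 60661464) (nat_lit 684) (nat_lit 7898012330) (nat_lit 217) (nat_lit 5) (nat_lit 225) (nat_lit 5) (nat_lit 226) (nat_lit 5) (nat_lit 342) (nat_lit 297) (nat_lit 261))) (XT.nd (nat_lit 78) (nat_lit 684) (nat_lit 0) (XT.lf (nat_lit 0) (nat_lit 445576878) (nat_lit 532) (nat_lit 4613278970) (nat_lit 608) (nat_lit 4028832763) (nat_lit 210) (nat_lit 5) (nat_lit 217) (nat_lit 5) (nat_lit 218) (nat_lit 5) (nat_lit 343) (nat_lit 297) (nat_lit 260)) (XT.nd (nat_lit 78) (nat_lit 684) (nat_lit 0) (XT.lf (nat_lit 0) (nat_lit 9108900096) (nat_lit 532) (nat_lit 44323264) (nat_lit 608) (nat_lit 70709878) (nat_lit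 210) (nat_lit 5) (nat_lit 217) (nat_lit 5) (nat_lit 218) (nat_lit 5) (nat_lit 344) (nat_lit 297) (nat_lit 259)) (XT.lf (nat_lit 0) (nat_lit 3961394247) (nat_lit 684) (nat_lit 739266307) (nat_lit 76) (nat_lit 4662967679) (nat_lit 201) (nat_lit 5) (nat_lit 210) (nat_lit 5) (nat_lit 202) (nat_lit 5) (nat_lit 345) (nat_lit 297) (nat_lit 258))))) (XT.nd (nat_lit 156) (nat_lit 1596) (nat_lit 0) (XT.nd (nat_lit 78) (nat_lit 608) (nat_lit 0) (XT.lf (nat_lit 0) (nat_lit 8090021433) (nat_lit 608) (nat_lit 1381984722) (nat_lit 76) (nat_lit 36005856) (nat_lit 194) (nat_lit 5) (nat_lit 202) (nat_lit 5) (nat_lit 195) (nat_lit 5) (nat_lit 346) (nat_lit 297) (nat_lit 257)) (XT.lf (nat_lit 0) (nat_lit 2660188000) (nat_lit 608) (nat_lit 2094711780) (nat_lit 76) (nat_lit 4901321995) (nat_lit 186) (nat_lit 5) (nat_lit 194) (nat_lit 5) (nat_lit 187) (nat_lit 5) (nat_lit 347) (nat_lit 297) (nat_lit 256))) (XT.nd (nat_lit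 78) (nat_lit 1064) (nat_lit 0) (XT.lf (nat_lit 0) (nat_lit 6822128978) (nat_lit 608) (nat_lit 2843482122) (nat_lit 76) (nat_lit 143500467) (nat_lit 179) (nat_lit 5) (nat_lit 187) (nat_lit 5) (nat_lit 180) (nat_lit 5) (nat_lit 348) (nat_lit 297) (nat_lit 255)) (XT.nd (nat_lit 78) (nat_lit 456) (nat_lit 0) (XT.lf (nat_lit 0) (nat_lit 1140855740) (nat_lit 608) (nat_lit 3661325241) (nat_lit 76) (nat_lit 5164021937) (nat_lit 171) (nat_lit 5) (nat_lit 179) (nat_lit 5) (nat_lit 172) (nat_lit 5) (nat_lit 349) (nat_lit 297) (nat_lit 254)) (XT.lf (nat_lit 0) (nat_lit 5336954933) (nat_lit 532) (nat_lit 4535316293) (nat_lit 76) (nat_lit 255672953) (nat_lit 165) (nat_lit 5) (nat_lit 172) (nat_lit 5) (nat_lit 166) (nat_lit 5) (nat_lit 350) (nat_lit 297) (nat_lit 253)))))) (XT.nd (nat_lit 390) (nat_lit 1672) (nat_lit 0) (XT.nd (nat_lit 156) (nat_lit 1368) (nat_lit 0) (XT.nd (nat_lit 78) (nat_lit 532) (nat_lit 0)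 (XT.lf (nat_lit 0) (nat_lit 4813511500) (nat_lit 456) (nat_lit 4862468932) (nat_lit 532) (nat_lit 618247629) (nat_lit 159) (nat_lit 5) (nat_lit 165) (nat_lit 5) (nat_lit 166) (nat_lit 5) (nat_lit 351) (nat_lit 297) (nat_lit 252)) (XT.lf (nat_lit 0) (nat_lit 3620090883) (nat_lit 532) (nat_lit 6496629360) (nat_lit 76) (nat_lit 348558660) (nat_lit 152) (nat_lit 5) (nat_lit 159) (nat_lit 5) (nat_lit 153) (nat_lit 5) (nat_lit 352) (nat_lit 297) (nat_lit 251))) (XT.nd (nat_lit 78) (nat_lit 912) (nat_lit 0) (XT.lf (nat_lit 0) (nat_lit 3042142412) (nat_lit 456) (nat_lit 4955659103) (nat_lit 532) (nat_lit 2643194473) (nat_lit 146) (nat_lit 5) (nat_lit 152) (nat_lit 5) (nat_lit 153) (nat_lit 5) (nat_lit 353) (nat_lit 297) (nat_lit 250)) (XT.nd (nat_lit 78) (nat_lit 456) (nat_lit 0) (XT.lf (nat_lit 0) (nat_lit 1654866733) (nat_lit 456) (nat_lit 8770022116) (nat_lit 76) (nat_lit 397062340) (nat_lit 140) (nat_lit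 5) (nat_lit 146) (nat_lit 5) (nat_lit 141) (nat_lit 5) (nat_lit 354) (nat_lit 297) (nat_lit 249)) (XT.lf (nat_lit 0) (nat_lit 954659846) (nat_lit 456) (nat_lit 5115706765) (nat_lit 532) (nat_lit 4937157542) (nat_lit 134) (nat_lit 5) (nat_lit 140) (nat_lit 5) (nat_lit 141) (nat_lit 5) (nat_lit 355) (nat_lit 297) (nat_lit 248))))) (XT.nd (nat_lit 156) (nat_lit 1216) (nat_lit 0) (XT.nd (nat_lit 78) (nat_lit 456) (nat_lit 0) (XT.lf (nat_lit 0) (nat_lit 10614629176) (nat_lit 532) (nat_lit 204280899) (nat_lit 76) (nat_lit 379854189) (nat_lit 134) (nat_lit 5) (nat_lit 141) (nat_lit 5) (nat_lit 135) (nat_lit 5) (nat_lit 356) (nat_lit 297) (nat_lit 247)) (XT.lf (nat_lit 0) (nat_lit 3883414822) (nat_lit 456) (nat_lit 1477133227) (nat_lit 76) (nat_lit 6034010250) (nat_lit 128) (nat_lit 5) (nat_lit 134) (nat_lit 5) (nat_lit 129) (nat_lit 5) (nat_lit 357) (nat_lit 297) (nat_lit 246))) (XT.nd (nat_lit 78) (nat_lit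 836) (nat_lit 0) (XT.lf (nat_lit 0) (nat_lit 8474283049) (nat_lit 456) (nat_lit 2829560312) (nat_lit 76) (nat_lit 292384956) (nat_lit 123) (nat_lit 5) (nat_lit 129) (nat_lit 5) (nat_lit 124) (nat_lit 5) (nat_lit 358) (nat_lit 297) (nat_lit 245)) (XT.nd (nat_lit 78) (nat_lit 380) (nat_lit 0) (XT.lf (nat_lit 0) (nat_lit 1413427826) (nat_lit 456) (nat_lit 4307264758) (nat_lit 76) (nat_lit 6082440067) (nat_lit 117) (nat_lit 5) (nat_lit 123) (nat_lit 5) (nat_lit 118) (nat_lit 5) (nat_lit 359) (nat_lit 297) (nat_lit 244)) (XT.lf (nat_lit 0) (nat_lit 6041068774) (nat_lit 456) (nat_lit 5893974791) (nat_lit 76) (nat_lit 80837522) (nat_lit 112) (nat_lit 5) (nat_lit 118) (nat_lit 5) (nat_lit 113) (nat_lit 5) (nat_lit 360) (nat_lit 297) (nat_lit 243))))))))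
noncomputable def xc44 : XT := (XT.nd (nat_lit 1482) (nat_lit 1140) (nat_lit 0) (XT.nd (nat_lit 702) (nat_lit 1976) (nat_lit 0) (XT.nd (nat_lit 312) (nat_lit 1520) (nat_lit 0) (XT.nd (nat_lit 156) (nat_lit 380) (nat_lit 0) (XT.nd (nat_lit 78) (nat_lit 456) (nat_lit 0) (XT.lf (nat_lit 0) (nat_lit 4620296888) (nat_lit 304) (nat_lit 6224686271) (nat_lit 380) (nat_lit 1389301417) (nat_lit 108) (nat_lit 5) (nat_lit 112) (nat_lit 5) (nat_lit 113) (nat_lit 5) (nat_lit 361) (nat_lit 297) (nat_lit 242)) (XT.lf (nat_lit 0) (nat_lit 2999992376) (nat_lit 380) (nat_lit 290314692) (nat_lit 456) (nat_lit 9168515542) (nat_lit 102) (nat_lit 5) (nat_lit 107) (nat_lit 5) (nat_lit 108) (nat_lit 5) (nat_lit 362) (nat_lit 297) (nat_lit 241))) (XT.nd (nat_lit 78) (nat_lit 76) (nat_lit 0) (XT.lf (nat_lit 0) (nat_lit 1226994926) (nat_lit 304) (nat_lit 6903782155) (nat_lit 380) (nat_lit 4558368922) (nat_lit 98) (nat_lit 5)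 (nat_lit 102) (nat_lit 5) (nat_lit 103) (nat_lit 5) (nat_lit 363) (nat_lit 297) (nat_lit 240)) (XT.lf (nat_lit 0) (nat_lit 196322426) (nat_lit 380) (nat_lit 654379502) (nat_lit 76) (nat_lit 12075496717) (nat_lit 97) (nat_lit 5) (nat_lit 102) (nat_lit 5) (nat_lit 98) (nat_lit 5) (nat_lit 364) (nat_lit 297) (nat_lit 239)))) (XT.nd (nat_lit 156) (nat_lit 912) (nat_lit 0) (XT.nd (nat_lit 78) (nat_lit 304) (nat_lit 0) (XT.lf (nat_lit 0) (nat_lit 5079610836) (nat_lit 380) (nat_lit 2706080515) (nat_lit 76) (nat_lit 5383129513) (nat_lit 93) (nat_lit 5) (nat_lit 98) (nat_lit 5) (nat_lit 94) (nat_lit 5) (nat_lit 365) (nat_lit 297) (nat_lit 238)) (XT.lf (nat_lit 0) (nat_lit 8524275073) (nat_lit 304) (nat_lit 1595464534) (nat_lit 380) (nat_lit 3298793120) (nat_lit 89) (nat_lit 5) (nat_lit 93) (nat_lit 5) (nat_lit 94) (nat_lit 5) (nat_lit 366) (nat_lit 297) (nat_lit 237))) (XT.nd (nat_lit 78) (nat_lit 532) (nat_lit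 0) (XT.lf (nat_lit 0) (nat_lit 1651012794) (nat_lit 380) (nat_lit 7264626462) (nat_lit 76) (nat_lit 4759158806) (nat_lit 84) (nat_lit 5) (nat_lit 89) (nat_lit 5) (nat_lit 85) (nat_lit 5) (nat_lit 367) (nat_lit 297) (nat_lit 236)) (XT.nd (nat_lit 78) (nat_lit 304) (nat_lit 0) (XT.lf (nat_lit 0) (nat_lit 4119346517) (nat_lit 228) (nat_lit 2602582213) (nat_lit 304) (nat_lit 7216054316) (nat_lit 81) (nat_lit 5) (nat_lit 84) (nat_lit 5) (nat_lit 85) (nat_lit 5) (nat_lit 368) (nat_lit 297) (nat_lit 235)) (XT.lf (nat_lit 0) (nat_lit 1648299639) (nat_lit 304) (nat_lit 10329452074) (nat_lit 380) (nat_lit 2230672257) (nat_lit 77) (nat_lit 5) (nat_lit 81) (nat_lit 5) (nat_lit 82) (nat_lit 5) (nat_lit 369) (nat_lit 297) (nat_lit 234)))))) (XT.nd (nat_lit 390) (nat_lit 836) (nat_lit 0) (XT.nd (nat_lit 156) (nat_lit 836) (nat_lit 0) (XT.nd (nat_lit 78) (nat_lit 228) (nat_lit 0) (XT.lf (nat_lit 0) (nat_lit 2898408155)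 (nat_lit 380) (nat_lit 1011924371) (nat_lit 76) (nat_lit 10575639138) (nat_lit 76) (nat_lit 5) (nat_lit 81) (nat_lit 5) (nat_lit 77) (nat_lit 5) (nat_lit 370) (nat_lit 297) (nat_lit 233)) (XT.lf (nat_lit 0) (nat_lit 8189473296) (nat_lit 304) (nat_lit 3858704078) (nat_lit 76) (nat_lit 2722619922) (nat_lit 73) (nat_lit 5) (nat_lit 77) (nat_lit 5) (nat_lit 74) (nat_lit 5) (nat_lit 371) (nat_lit 297) (nat_lit 232))) (XT.nd (nat_lit 78) (nat_lit 532) (nat_lit 0) (XT.lf (nat_lit 0) (nat_lit 8143968388) (nat_lit 304) (nat_lit 5531362378) (nat_lit 380) (nat_lit 1388130059) (nat_lit 69) (nat_lit 5) (nat_lit 73) (nat_lit 5) (nat_lit 74) (nat_lit 5) (nat_lit 372) (nat_lit 297) (nat_lit 231)) (XT.nd (nat_lit 78) (nat_lit 228) (nat_lit 0) (XT.lf (nat_lit 0) (nat_lit 3927487577) (nat_lit 304) (nat_lit 10214986104) (nat_lit 76) (nat_lit 1221558391) (nat_lit 65) (nat_lit 5) (nat_lit 69) (nat_lit 5) (nat_lit 66) (nat_lit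 5) (nat_lit 373) (nat_lit 297) (nat_lit 230)) (XT.lf (nat_lit 0) (nat_lit 1900862755) (nat_lit 228) (nat_lit 7530955389) (nat_lit 304) (nat_lit 6240669980) (nat_lit 62) (nat_lit 5) (nat_lit 65) (nat_lit 5) (nat_lit 66) (nat_lit 5) (nat_lit 374) (nat_lit 297) (nat_lit 229))))) (XT.nd (nat_lit 156) (nat_lit 532) (nat_lit 0) (XT.nd (nat_lit 78) (nat_lit 304) (nat_lit 0) (XT.lf (nat_lit 0) (nat_lit 14442139520) (nat_lit 228) (nat_lit 680731759) (nat_lit 304) (nat_lit 866907589) (nat_lit 62) (nat_lit 5) (nat_lit 65) (nat_lit 5) (nat_lit 66) (nat_lit 5) (nat_lit 375) (nat_lit 297) (nat_lit 228)) (XT.lf (nat_lit 0) (nat_lit 4674112522) (nat_lit 304) (nat_lit 5275497900) (nat_lit 76) (nat_lit 6365038644) (nat_lit 58) (nat_lit 5) (nat_lit 62) (nat_lit 5) (nat_lit 59) (nat_lit 5) (nat_lit 376) (nat_lit 297) (nat_lit 227))) (XT.nd (nat_lit 78) (nat_lit 304) (nat_lit 0) (XT.lf (nat_lit 0) (nat_lit 7386395462)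 (nat_lit 228) (nat_lit 3000443699) (nat_lit 304) (nat_lit 6261978417) (nat_lit 55) (nat_lit 5) (nat_lit 58) (nat_lit 5) (nat_lit 59) (nat_lit 5) (nat_lit 377) (nat_lit 297) (nat_lit 226)) (XT.nd (nat_lit 78) (nat_lit 76) (nat_lit 0) (XT.lf (nat_lit 0) (nat_lit 3450866641) (nat_lit 228) (nat_lit 12860244110) (nat_lit 304) (nat_lit 681108671) (nat_lit 52) (nat_lit 5) (nat_lit 55) (nat_lit 5) (nat_lit 56) (nat_lit 5) (nat_lit 378) (nat_lit 297) (nat_lit 225)) (XT.lf (nat_lit 0) (nat_lit 5039289098) (nat_lit 304) (nat_lit 800318734) (nat_lit 76) (nat_lit 11504897306) (nat_lit 51) (nat_lit 5) (nat_lit 55) (nat_lit 5) (nat_lit 52) (nat_lit 5) (nat_lit 379) (nat_lit 297) (nat_lit 224))))))) (XT.nd (nat_lit 41184) (nat_lit 0) (nat_lit 40204) (XT.nd (nat_lit 312) (nat_lit 456) (nat_lit 0) (XT.nd (nat_lit 156) (nat_lit 304) (nat_lit 0) (XT.nd (nat_lit 78) (nat_lit 152) (nat_lit 0) (XT.lf (nat_lit 0) (nat_lit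 10968688547) (nat_lit 304) (nat_lit 5307248901) (nat_lit 76) (nat_lit 1430409733) (nat_lit 48) (nat_lit 5) (nat_lit 52) (nat_lit 5) (nat_lit 49) (nat_lit 5) (nat_lit 380) (nat_lit 297) (nat_lit 223)) (XT.lf (nat_lit 0) (nat_lit 7919355151) (nat_lit 152) (nat_lit 9209773006) (nat_lit 228) (nat_lit 948863519) (nat_lit 46) (nat_lit 5) (nat_lit 48) (nat_lit 5) (nat_lit 49) (nat_lit 5) (nat_lit 381) (nat_lit 297) (nat_lit 222))) (XT.nd (nat_lit 78) (nat_lit 0) (nat_lit 0) (XT.lf (nat_lit 0) (nat_lit 3091754850) (nat_lit 228) (nat_lit 1870089476) (nat_lit 304) (nat_lit 13498019945) (nat_lit 42) (nat_lit 5) (nat_lit 45) (nat_lit 5) (nat_lit 46) (nat_lit 5) (nat_lit 382) (nat_lit 297) (nat_lit 221)) (XT.lf (nat_lit 0) (nat_lit 11101608311) (nat_lit 304) (nat_lit 2087686173) (nat_lit 76) (nat_lit 5662490161) (nat_lit 42) (nat_lit 5) (nat_lit 46) (nat_lit 5) (nat_lit 43) (nat_lit 5) (nat_lit 383) (nat_lit 297)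 (nat_lit 220)))) (XT.nd (nat_lit 40638) (nat_lit 0) (nat_lit 45904) (XT.nd (nat_lit 78) (nat_lit 304) (nat_lit 0) (XT.lf (nat_lit 0) (nat_lit 11662829316) (nat_lit 152) (nat_lit 5810495801) (nat_lit 228) (nat_lit 1781191609) (nat_lit 40) (nat_lit 5) (nat_lit 42) (nat_lit 5) (nat_lit 43) (nat_lit 5) (nat_lit 384) (nat_lit 297) (nat_lit 219)) (XT.lf (nat_lit 0) (nat_lit 4335870856) (nat_lit 304) (nat_lit 13510810759) (nat_lit 76) (nat_lit 1821565337) (nat_lit 36) (nat_lit 5) (nat_lit 40) (nat_lit 5) (nat_lit 37) (nat_lit 5) (nat_lit 385) (nat_lit 297) (nat_lit 218))) (XT.nd (nat_lit 78) (nat_lit 608) (nat_lit 0) (XT.lf (nat_lit 0) (nat_lit 1526448541) (nat_lit 228) (nat_lit 176978815) (nat_lit 0) (nat_lit 1526448541) (nat_lit 648) (nat_lit 5) (nat_lit 651) (nat_lit 4) (nat_lit 648) (nat_lit 4) (nat_lit 304) (nat_lit 298) (nat_lit 298)) (XT.nd (nat_lit 78) (nat_lit 304) (nat_lit 0) (XT.lf (nat_lit 0)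 (nat_lit 1128619783) (nat_lit 304) (nat_lit 1821206025) (nat_lit 76) (nat_lit 3520152713) (nat_lit 644) (nat_lit 5) (nat_lit 648) (nat_lit 5) (nat_lit 645) (nat_lit 4) (nat_lit 305) (nat_lit 298) (nat_lit 297)) (XT.lf (nat_lit 0) (nat_lit 3246200553) (nat_lit 304) (nat_lit 2362111032) (nat_lit 380) (nat_lit 874842231) (nat_lit 640) (nat_lit 5) (nat_lit 644) (nat_lit 5) (nat_lit 645) (nat_lit 4) (nat_lit 306) (nat_lit 298) (nat_lit 296)))))) (XT.nd (nat_lit 390) (nat_lit 3420) (nat_lit 0) (XT.nd (nat_lit 156) (nat_lit 1292) (nat_lit 0) (XT.nd (nat_lit 78) (nat_lit 532) (nat_lit 0) (XT.lf (nat_lit 0) (nat_lit 1894346635) (nat_lit 380) (nat_lit 1640896111) (nat_lit 456) (nat_lit 2964001334) (nat_lit 634) (nat_lit 5) (nat_lit 639) (nat_lit 5) (nat_lit 640) (nat_lit 5) (nat_lit 307) (nat_lit 298) (nat_lit 295)) (XT.lf (nat_lit 0) (nat_lit 599339647) (nat_lit 456) (nat_lit 793052940) (nat_lit 532) (nat_lit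 5126017885) (nat_lit 627) (nat_lit 5) (nat_lit 633) (nat_lit 5) (nat_lit 634) (nat_lit 5) (nat_lit 308) (nat_lit 298) (nat_lit 294))) (XT.nd (nat_lit 78) (nat_lit 1292) (nat_lit 0) (XT.lf (nat_lit 0) (nat_lit 5712548551) (nat_lit 532) (nat_lit 638448040) (nat_lit 76) (nat_lit 189455785) (nat_lit 627) (nat_lit 5) (nat_lit 634) (nat_lit 5) (nat_lit 628) (nat_lit 5) (nat_lit 309) (nat_lit 298) (nat_lit 293)) (XT.nd (nat_lit 78) (nat_lit 684) (nat_lit 0) (XT.lf (nat_lit 0) (nat_lit 3433012968) (nat_lit 608) (nat_lit 1830673681) (nat_lit 76) (nat_lit 1301531751) (nat_lit 619) (nat_lit 5) (nat_lit 627) (nat_lit 5) (nat_lit 620) (nat_lit 5) (nat_lit 310) (nat_lit 298) (nat_lit 292)) (XT.lf (nat_lit 0) (nat_lit 1079416940) (nat_lit 684) (nat_lit 2972132423) (nat_lit 76) (nat_lit 2541543881) (nat_lit 610) (nat_lit 5) (nat_lit 619) (nat_lit 5) (nat_lit 611) (nat_lit 5) (nat_lit 311) (nat_lit 298) (nat_lit 291)))))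 (XT.nd (nat_lit 156) (nat_lit 1900) (nat_lit 0) (XT.nd (nat_lit 78) (nat_lit 836) (nat_lit 0) (XT.lf (nat_lit 0) (nat_lit 2550948416) (nat_lit 684) (nat_lit 2704339832) (nat_lit 760) (nat_lit 1368632899) (nat_lit 601) (nat_lit 5) (nat_lit 610) (nat_lit 5) (nat_lit 611) (nat_lit 5) (nat_lit 312) (nat_lit 298) (nat_lit 290)) (XT.lf (nat_lit 0) (nat_lit 1524600050) (nat_lit 760) (nat_lit 1222045983) (nat_lit 836) (nat_lit 3911105864) (nat_lit 590) (nat_lit 5) (nat_lit 600) (nat_lit 5) (nat_lit 601) (nat_lit 5) (nat_lit 313) (nat_lit 298) (nat_lit 289))) (XT.nd (nat_lit 78) (nat_lit 988) (nat_lit 0) (XT.lf (nat_lit 0) (nat_lit 160984086) (nat_lit 912) (nat_lit 6149298164) (nat_lit 76) (nat_lit 384421381) (nat_lit 578) (nat_lit 5) (nat_lit 590) (nat_lit 5) (nat_lit 579) (nat_lit 5) (nat_lit 314) (nat_lit 298) (nat_lit 288)) (XT.nd (nat_lit 78) (nat_lit 988) (nat_lit 0) (XT.lf (nat_lit 0) (nat_lit 4205677506)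 (nat_lit 912) (nat_lit 405525567) (nat_lit 76) (nat_lit 2123095382) (nat_lit 578) (nat_lit 5) (nat_lit 590) (nat_lit 5) (nat_lit 579) (nat_lit 5) (nat_lit 315) (nat_lit 298) (nat_lit 287)) (XT.lf (nat_lit 0) (nat_lit 1474664373) (nat_lit 988) (nat_lit 1304917974) (nat_lit 76) (nat_lit 3997429174) (nat_lit 565) (nat_lit 5) (nat_lit 578) (nat_lit 5) (nat_lit 566) (nat_lit 5) (nat_lit 316) (nat_lit 298) (nat_lit 286))))))))
noncomputable def xc45 : XT := (XT.nd (nat_lit 1482) (nat_lit 10716) (nat_lit 0) (XT.nd (nat_lit 702) (nat_lit 11172) (nat_lit 0) (XT.nd (nat_lit 312) (nat_lit 5852) (nat_lit 0) (XT.nd (nat_lit 156) (nat_lit 2432) (nat_lit 0) (XT.nd (nat_lit 78) (nat_lit 1140) (nat_lit 0) (XT.lf (nat_lit 0) (nat_lit 4654024970) (nat_lit 988) (nat_lit 809333778) (nat_lit 1064) (nat_lit 1359433448) (nat_lit 552) (nat_lit 5) (nat_lit 565) (nat_lit 5) (nat_lit 566) (nat_lit 5) (nat_lit 317) (nat_lit 298)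 (nat_lit 285)) (XT.lf (nat_lit 0) (nat_lit 2577593310) (nat_lit 1140) (nat_lit 3008040532) (nat_lit 76) (nat_lit 1285844728) (nat_lit 537) (nat_lit 5) (nat_lit 552) (nat_lit 5) (nat_lit 538) (nat_lit 5) (nat_lit 318) (nat_lit 298) (nat_lit 284))) (XT.nd (nat_lit 78) (nat_lit 1292) (nat_lit 0) (XT.lf (nat_lit 0) (nat_lit 3108978265) (nat_lit 1140) (nat_lit 3417903690) (nat_lit 1216) (nat_lit 396416608) (nat_lit 522) (nat_lit 5) (nat_lit 537) (nat_lit 5) (nat_lit 538) (nat_lit 5) (nat_lit 319) (nat_lit 298) (nat_lit 283)) (XT.lf (nat_lit 0) (nat_lit 2379728386) (nat_lit 1216) (nat_lit 1101034934) (nat_lit 1292) (nat_lit 3497335367) (nat_lit 505) (nat_lit 5) (nat_lit 521) (nat_lit 5) (nat_lit 522) (nat_lit 5) (nat_lit 320) (nat_lit 298) (nat_lit 282)))) (XT.nd (nat_lit 156) (nat_lit 3116) (nat_lit 0) (XT.nd (nat_lit 78) (nat_lit 1368) (nat_lit 0) (XT.lf (nat_lit 0) (nat_lit 350835845) (nat_lit 1368)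 (nat_lit 5353029345) (nat_lit 76) (nat_lit 1332221075) (nat_lit 487) (nat_lit 5) (nat_lit 505) (nat_lit 5) (nat_lit 488) (nat_lit 5) (nat_lit 321) (nat_lit 298) (nat_lit 281)) (XT.lf (nat_lit 0) (nat_lit 999502878) (nat_lit 1368) (nat_lit 3192369581) (nat_lit 1444) (nat_lit 2905072451) (nat_lit 469) (nat_lit 5) (nat_lit 487) (nat_lit 5) (nat_lit 488) (nat_lit 5) (nat_lit 322) (nat_lit 298) (nat_lit 280))) (XT.nd (nat_lit 78) (nat_lit 1596) (nat_lit 0) (XT.lf (nat_lit 0) (nat_lit 351618176) (nat_lit 1444) (nat_lit 544153932) (nat_lit 1520) (nat_lit 6265412370) (nat_lit 449) (nat_lit 5) (nat_lit 468) (nat_lit 5) (nat_lit 469) (nat_lit 5) (nat_lit 323) (nat_lit 298) (nat_lit 279)) (XT.nd (nat_lit 78) (nat_lit 1596) (nat_lit 0) (XT.lf (nat_lit 0) (nat_lit 4711481239) (nat_lit 1520) (nat_lit 286921910) (nat_lit 76) (nat_lit 2229843354) (nat_lit 449) (nat_lit 5) (nat_lit 469) (nat_lit 5) (nat_lit 450) (nat_lit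 5) (nat_lit 324) (nat_lit 298) (nat_lit 278)) (XT.lf (nat_lit 0) (nat_lit 1259129473) (nat_lit 1596) (nat_lit 896286453) (nat_lit 76) (nat_lit 5143162864) (nat_lit 428) (nat_lit 5) (nat_lit 449) (nat_lit 5) (nat_lit 429) (nat_lit 5) (nat_lit 325) (nat_lit 298) (nat_lit 277)))))) (XT.nd (nat_lit 390) (nat_lit 4180) (nat_lit 0) (XT.nd (nat_lit 156) (nat_lit 3648) (nat_lit 0) (XT.nd (nat_lit 78) (nat_lit 1748) (nat_lit 0) (XT.lf (nat_lit 0) (nat_lit 5049426237) (nat_lit 1672) (nat_lit 1493173029) (nat_lit 76) (nat_lit 829461689) (nat_lit 407) (nat_lit 5) (nat_lit 429) (nat_lit 5) (nat_lit 408) (nat_lit 5) (nat_lit 326) (nat_lit 298) (nat_lit 276)) (XT.lf (nat_lit 0) (nat_lit 1433081002) (nat_lit 1748) (nat_lit 2081942001) (nat_lit 76) (nat_lit 3933661367) (nat_lit 384) (nat_lit 5) (nat_lit 407) (nat_lit 5) (nat_lit 385) (nat_lit 5) (nat_lit 327) (nat_lit 298) (nat_lit 275))) (XT.nd (nat_lit 78) (nat_lit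 1900) (nat_lit 0) (XT.lf (nat_lit 0) (nat_lit 4872298820) (nat_lit 1748) (nat_lit 333466368) (nat_lit 1824) (nat_lit 2322890194) (nat_lit 361) (nat_lit 5) (nat_lit 384) (nat_lit 5) (nat_lit 385) (nat_lit 5) (nat_lit 328) (nat_lit 298) (nat_lit 274)) (XT.nd (nat_lit 78) (nat_lit 912) (nat_lit 0) (XT.lf (nat_lit 0) (nat_lit 1418971162) (nat_lit 988) (nat_lit 3232002469) (nat_lit 76) (nat_lit 2960773406) (nat_lit 348) (nat_lit 5) (nat_lit 361) (nat_lit 5) (nat_lit 349) (nat_lit 5) (nat_lit 329) (nat_lit 298) (nat_lit 273)) (XT.lf (nat_lit 0) (nat_lit 3897769855) (nat_lit 912) (nat_lit 1287546844) (nat_lit 988) (nat_lit 2512899367) (nat_lit 336) (nat_lit 5) (nat_lit 348) (nat_lit 5) (nat_lit 349) (nat_lit 5) (nat_lit 330) (nat_lit 298) (nat_lit 272))))) (XT.nd (nat_lit 156) (nat_lit 2432) (nat_lit 0) (XT.nd (nat_lit 78) (nat_lit 836) (nat_lit 0) (XT.lf (nat_lit 0) (nat_lit 1218984443) (nat_lit 912) (nat_lit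 4368874821) (nat_lit 76) (nat_lit 2200150958) (nat_lit 324) (nat_lit 5) (nat_lit 336) (nat_lit 5) (nat_lit 325) (nat_lit 5) (nat_lit 331) (nat_lit 298) (nat_lit 271)) (XT.lf (nat_lit 0) (nat_lit 2938394292) (nat_lit 836) (nat_lit 2045910818) (nat_lit 912) (nat_lit 2896810807) (nat_lit 313) (nat_lit 5) (nat_lit 324) (nat_lit 5) (nat_lit 325) (nat_lit 5) (nat_lit 332) (nat_lit 298) (nat_lit 270))) (XT.nd (nat_lit 78) (nat_lit 1596) (nat_lit 0) (XT.lf (nat_lit 0) (nat_lit 833855321) (nat_lit 836) (nat_lit 5515528344) (nat_lit 76) (nat_lit 1628377477) (nat_lit 302) (nat_lit 5) (nat_lit 313) (nat_lit 5) (nat_lit 303) (nat_lit 5) (nat_lit 333) (nat_lit 298) (nat_lit 269)) (XT.nd (nat_lit 78) (nat_lit 836) (nat_lit 0) (XT.lf (nat_lit 0) (nat_lit 1971076836) (nat_lit 760) (nat_lit 2631886625) (nat_lit 836) (nat_lit 3474699341) (nat_lit 292) (nat_lit 5) (nat_lit 302) (nat_lit 5) (nat_lit 303) (nat_lit 5) (nat_lit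 334) (nat_lit 298) (nat_lit 268)) (XT.lf (nat_lit 0) (nat_lit 262849680) (nat_lit 836) (nat_lit 6695701283) (nat_lit 76) (nat_lit 1222780611) (nat_lit 281) (nat_lit 5) (nat_lit 292) (nat_lit 5) (nat_lit 282) (nat_lit 5) (nat_lit 335) (nat_lit 298) (nat_lit 267))))))) (XT.nd (nat_lit 780) (nat_lit 4636) (nat_lit 0) (XT.nd (nat_lit 390) (nat_lit 3192) (nat_lit 0) (XT.nd (nat_lit 156) (nat_lit 1444) (nat_lit 0) (XT.nd (nat_lit 78) (nat_lit 684) (nat_lit 0) (XT.lf (nat_lit 0) (nat_lit 971888251) (nat_lit 760) (nat_lit 3068164700) (nat_lit 836) (nat_lit 4248156631) (nat_lit 271) (nat_lit 5) (nat_lit 281) (nat_lit 5) (nat_lit 282) (nat_lit 5) (nat_lit 336) (nat_lit 298) (nat_lit 266)) (XT.lf (nat_lit 0) (nat_lit 461650600) (nat_lit 684) (nat_lit 7434522285) (nat_lit 760) (nat_lit 502860717) (nat_lit 262) (nat_lit 5) (nat_lit 271) (nat_lit 5) (nat_lit 272) (nat_lit 5) (nat_lit 337) (nat_lit 298) (nat_lit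 265))) (XT.nd (nat_lit 78) (nat_lit 1368) (nat_lit 0) (XT.lf (nat_lit 0) (nat_lit 3293373776) (nat_lit 760) (nat_lit 83053758) (nat_lit 76) (nat_lit 5136716805) (nat_lit 261) (nat_lit 5) (nat_lit 271) (nat_lit 5) (nat_lit 262) (nat_lit 5) (nat_lit 338) (nat_lit 298) (nat_lit 264)) (XT.nd (nat_lit 78) (nat_lit 684) (nat_lit 0) (XT.lf (nat_lit 0) (nat_lit 7168920627) (nat_lit 760) (nat_lit 626616380) (nat_lit 76) (nat_lit 835677528) (nat_lit 252) (nat_lit 5) (nat_lit 262) (nat_lit 5) (nat_lit 253) (nat_lit 5) (nat_lit 339) (nat_lit 298) (nat_lit 263)) (XT.lf (nat_lit 0) (nat_lit 2364927725) (nat_lit 684) (nat_lit 1207295145) (nat_lit 76) (nat_lit 5180564739) (nat_lit 243) (nat_lit 5) (nat_lit 252) (nat_lit 5) (nat_lit 244) (nat_lit 5) (nat_lit 340) (nat_lit 298) (nat_lit 262))))) (XT.nd (nat_lit 156) (nat_lit 1824) (nat_lit 0) (XT.nd (nat_lit 78) (nat_lit 684) (nat_lit 0) (XT.lf (nat_lit 0) (nat_lit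 6260490564) (nat_lit 760) (nat_lit 1805360955) (nat_lit 76) (nat_lit 812539351) (nat_lit 234) (nat_lit 5) (nat_lit 244) (nat_lit 5) (nat_lit 235) (nat_lit 5) (nat_lit 341) (nat_lit 298) (nat_lit 261)) (XT.lf (nat_lit 0) (nat_lit 1242666803) (nat_lit 684) (nat_lit 2441041267) (nat_lit 76) (nat_lit 5324049854) (nat_lit 225) (nat_lit 5) (nat_lit 234) (nat_lit 5) (nat_lit 226) (nat_lit 5) (nat_lit 342) (nat_lit 298) (nat_lit 260))) (XT.nd (nat_lit 78) (nat_lit 1216) (nat_lit 0) (XT.lf (nat_lit 0) (nat_lit 5161461191) (nat_lit 684) (nat_lit 3108908942) (nat_lit 76) (nat_lit 870771015) (nat_lit 217) (nat_lit 5) (nat_lit 226) (nat_lit 5) (nat_lit 218) (nat_lit 5) (nat_lit 343) (nat_lit 298) (nat_lit 259)) (XT.nd (nat_lit 78) (nat_lit 684) (nat_lit 0) (XT.lf (nat_lit 0) (nat_lit 5464514889) (nat_lit 532) (nat_lit 3732172069) (nat_lit 608) (nat_lit 81901158) (nat_lit 210) (nat_lit 5) (nat_lit 217) (nat_lit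 5) (nat_lit 218) (nat_lit 5) (nat_lit 344) (nat_lit 298) (nat_lit 258)) (XT.lf (nat_lit 0) (nat_lit 3863699985) (nat_lit 684) (nat_lit 4567467453) (nat_lit 76) (nat_lit 988868690) (nat_lit 201) (nat_lit 5) (nat_lit 210) (nat_lit 5) (nat_lit 202) (nat_lit 5) (nat_lit 345) (nat_lit 298) (nat_lit 257)))))) (XT.nd (nat_lit 390) (nat_lit 1900) (nat_lit 0) (XT.nd (nat_lit 156) (nat_lit 1596) (nat_lit 0) (XT.nd (nat_lit 78) (nat_lit 608) (nat_lit 0) (XT.lf (nat_lit 0) (nat_lit 4198949626) (nat_lit 532) (nat_lit 3730545939) (nat_lit 608) (nat_lit 1636199000) (nat_lit 194) (nat_lit 5) (nat_lit 201) (nat_lit 5) (nat_lit 202) (nat_lit 5) (nat_lit 346) (nat_lit 298) (nat_lit 256)) (XT.lf (nat_lit 0) (nat_lit 2357270291) (nat_lit 608) (nat_lit 6213476277) (nat_lit 76) (nat_lit 1144954677) (nat_lit 186) (nat_lit 5) (nat_lit 194) (nat_lit 5) (nat_lit 187) (nat_lit 5) (nat_lit 347) (nat_lit 298) (nat_lit 255))) (XT.nd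 (nat_lit 78) (nat_lit 1064) (nat_lit 0) (XT.lf (nat_lit 0) (nat_lit 2745227454) (nat_lit 532) (nat_lit 3709747550) (nat_lit 608) (nat_lit 3414917417) (nat_lit 179) (nat_lit 5) (nat_lit 186) (nat_lit 5) (nat_lit 187) (nat_lit 5) (nat_lit 348) (nat_lit 298) (nat_lit 254)) (XT.nd (nat_lit 78) (nat_lit 456) (nat_lit 0) (XT.lf (nat_lit 0) (nat_lit 630319435) (nat_lit 608) (nat_lit 8081928828) (nat_lit 76) (nat_lit 1316571214) (nat_lit 171) (nat_lit 5) (nat_lit 179) (nat_lit 5) (nat_lit 172) (nat_lit 5) (nat_lit 349) (nat_lit 298) (nat_lit 253)) (XT.lf (nat_lit 0) (nat_lit 1067542016) (nat_lit 456) (nat_lit 3693069987) (nat_lit 532) (nat_lit 5431280261) (nat_lit 165) (nat_lit 5) (nat_lit 171) (nat_lit 5) (nat_lit 172) (nat_lit 5) (nat_lit 350) (nat_lit 298) (nat_lit 252))))) (XT.nd (nat_lit 156) (nat_lit 1368) (nat_lit 0) (XT.nd (nat_lit 78) (nat_lit 76) (nat_lit 0) (XT.lf (nat_lit 0) (nat_lit 140482203)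 (nat_lit 456) (nat_lit 8870737798) (nat_lit 532) (nat_lit 1348739443) (nat_lit 159) (nat_lit 5) (nat_lit 165) (nat_lit 5) (nat_lit 166) (nat_lit 5) (nat_lit 351) (nat_lit 298) (nat_lit 251)) (XT.lf (nat_lit 0) (nat_lit 2837464368) (nat_lit 532) (nat_lit 861498960) (nat_lit 76) (nat_lit 6833390345) (nat_lit 158) (nat_lit 5) (nat_lit 165) (nat_lit 5) (nat_lit 159) (nat_lit 5) (nat_lit 352) (nat_lit 298) (nat_lit 250))) (XT.nd (nat_lit 78) (nat_lit 912) (nat_lit 0) (XT.lf (nat_lit 0) (nat_lit 7132663353) (nat_lit 532) (nat_lit 1928715111) (nat_lit 76) (nat_lit 1648356339) (nat_lit 152) (nat_lit 5) (nat_lit 159) (nat_lit 5) (nat_lit 153) (nat_lit 5) (nat_lit 353) (nat_lit 298) (nat_lit 249)) (XT.nd (nat_lit 78) (nat_lit 380) (nat_lit 0) (XT.lf (nat_lit 0) (nat_lit 671913513) (nat_lit 532) (nat_lit 3077610966) (nat_lit 76) (nat_lit 7142526423) (nat_lit 145) (nat_lit 5) (nat_lit 152) (nat_lit 5) (nat_lit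 146) (nat_lit 5) (nat_lit 354) (nat_lit 298) (nat_lit 248)) (XT.lf (nat_lit 0) (nat_lit 5004460181) (nat_lit 456) (nat_lit 4320071191) (nat_lit 76) (nat_lit 1754764323) (nat_lit 140) (nat_lit 5) (nat_lit 146) (nat_lit 5) (nat_lit 141) (nat_lit 5) (nat_lit 355) (nat_lit 298) (nat_lit 247))))))))
noncomputable def xc46 : XT := (XT.nd (nat_lit 1482) (nat_lit 1976) (nat_lit 0) (XT.nd (nat_lit 702) (nat_lit 2508) (nat_lit 0) (XT.nd (nat_lit 312) (nat_lit 1520) (nat_lit 0) (XT.nd (nat_lit 156) (nat_lit 760) (nat_lit 0) (XT.nd (nat_lit 78) (nat_lit 456) (nat_lit 0) (XT.lf (nat_lit 0) (nat_lit 5619887567) (nat_lit 456) (nat_lit 3866526319) (nat_lit 532) (nat_lit 1785380490) (nat_lit 134) (nat_lit 5) (nat_lit 140) (nat_lit 5) (nat_lit 141) (nat_lit 5) (nat_lit 356) (nat_lit 298) (nat_lit 246)) (XT.lf (nat_lit 0) (nat_lit 2605675879) (nat_lit 456) (nat_lit 7083001114) (nat_lit 76) (nat_lit 1780924160) (nat_lit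 128) (nat_lit 5) (nat_lit 134) (nat_lit 5) (nat_lit 129) (nat_lit 5) (nat_lit 357) (nat_lit 298) (nat_lit 245))) (XT.nd (nat_lit 78) (nat_lit 380) (nat_lit 0) (XT.lf (nat_lit 0) (nat_lit 3043757427) (nat_lit 380) (nat_lit 4083531245) (nat_lit 456) (nat_lit 4545379061) (nat_lit 123) (nat_lit 5) (nat_lit 128) (nat_lit 5) (nat_lit 129) (nat_lit 5) (nat_lit 358) (nat_lit 298) (nat_lit 244)) (XT.lf (nat_lit 0) (nat_lit 1611493472) (nat_lit 380) (nat_lit 10182609673) (nat_lit 456) (nat_lit 87554668) (nat_lit 118) (nat_lit 5) (nat_lit 123) (nat_lit 5) (nat_lit 124) (nat_lit 5) (nat_lit 359) (nat_lit 298) (nat_lit 243)))) (XT.nd (nat_lit 156) (nat_lit 1064) (nat_lit 0) (XT.nd (nat_lit 78) (nat_lit 0) (nat_lit 0) (XT.lf (nat_lit 0) (nat_lit 36890983) (nat_lit 380) (nat_lit 4435028721) (nat_lit 456) (nat_lit 7623894796) (nat_lit 112) (nat_lit 5) (nat_lit 117) (nat_lit 5) (nat_lit 118) (nat_lit 5) (nat_lit 360)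 (nat_lit 298) (nat_lit 242)) (XT.lf (nat_lit 0) (nat_lit 9188253636) (nat_lit 456) (nat_lit 1619655073) (nat_lit 76) (nat_lit 1508071163) (nat_lit 112) (nat_lit 5) (nat_lit 118) (nat_lit 5) (nat_lit 113) (nat_lit 5) (nat_lit 361) (nat_lit 298) (nat_lit 241))) (XT.nd (nat_lit 78) (nat_lit 684) (nat_lit 0) (XT.lf (nat_lit 0) (nat_lit 1516056348) (nat_lit 380) (nat_lit 3414269161) (nat_lit 76) (nat_lit 7611600429) (nat_lit 107) (nat_lit 5) (nat_lit 112) (nat_lit 5) (nat_lit 108) (nat_lit 5) (nat_lit 362) (nat_lit 298) (nat_lit 240)) (XT.nd (nat_lit 78) (nat_lit 304) (nat_lit 0) (XT.lf (nat_lit 0) (nat_lit 6267862150) (nat_lit 456) (nat_lit 5344677454) (nat_lit 76) (nat_lit 1161492507) (nat_lit 102) (nat_lit 5) (nat_lit 108) (nat_lit 5) (nat_lit 103) (nat_lit 5) (nat_lit 363) (nat_lit 298) (nat_lit 239)) (XT.lf (nat_lit 0) (nat_lit 5588461506) (nat_lit 304) (nat_lit 5611198332) (nat_lit 380) (nat_lit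 1812711588) (nat_lit 98) (nat_lit 5) (nat_lit 102) (nat_lit 5) (nat_lit 103) (nat_lit 5) (nat_lit 364) (nat_lit 298) (nat_lit 238)))))) (XT.nd (nat_lit 390) (nat_lit 1216) (nat_lit 0) (XT.nd (nat_lit 156) (nat_lit 608) (nat_lit 0) (XT.nd (nat_lit 78) (nat_lit 304) (nat_lit 0) (XT.lf (nat_lit 0) (nat_lit 2991440686) (nat_lit 380) (nat_lit 9651784545) (nat_lit 76) (nat_lit 614070780) (nat_lit 93) (nat_lit 5) (nat_lit 98) (nat_lit 5) (nat_lit 94) (nat_lit 5) (nat_lit 365) (nat_lit 298) (nat_lit 237)) (XT.lf (nat_lit 0) (nat_lit 1444830452) (nat_lit 304) (nat_lit 6514395385) (nat_lit 380) (nat_lit 5549237427) (nat_lit 89) (nat_lit 5) (nat_lit 93) (nat_lit 5) (nat_lit 94) (nat_lit 5) (nat_lit 366) (nat_lit 298) (nat_lit 236))) (XT.nd (nat_lit 78) (nat_lit 608) (nat_lit 0) (XT.lf (nat_lit 0) (nat_lit 12924794239) (nat_lit 304) (nat_lit 164133608) (nat_lit 380) (nat_lit 677996813) (nat_lit 89) (nat_lit 5)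 (nat_lit 93) (nat_lit 5) (nat_lit 94) (nat_lit 5) (nat_lit 367) (nat_lit 298) (nat_lit 235)) (XT.nd (nat_lit 78) (nat_lit 228) (nat_lit 0) (XT.lf (nat_lit 0) (nat_lit 4342777664) (nat_lit 380) (nat_lit 3325256458) (nat_lit 76) (nat_lit 6363352105) (nat_lit 84) (nat_lit 5) (nat_lit 89) (nat_lit 5) (nat_lit 85) (nat_lit 5) (nat_lit 368) (nat_lit 298) (nat_lit 234)) (XT.lf (nat_lit 0) (nat_lit 8332788314) (nat_lit 228) (nat_lit 1182628571) (nat_lit 304) (nat_lit 4788081583) (nat_lit 81) (nat_lit 5) (nat_lit 84) (nat_lit 5) (nat_lit 85) (nat_lit 5) (nat_lit 369) (nat_lit 298) (nat_lit 233))))) (XT.nd (nat_lit 156) (nat_lit 608) (nat_lit 0) (XT.nd (nat_lit 78) (nat_lit 228) (nat_lit 0) (XT.lf (nat_lit 0) (nat_lit 302377570) (nat_lit 380) (nat_lit 8821399104) (nat_lit 76) (nat_lit 5459052095) (nat_lit 76) (nat_lit 5) (nat_lit 81) (nat_lit 5) (nat_lit 77) (nat_lit 5) (nat_lit 370) (nat_lit 298) (nat_lit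 232)) (XT.lf (nat_lit 0) (nat_lit 2977950430) (nat_lit 228) (nat_lit 2521731845) (nat_lit 304) (nat_lit 9369854396) (nat_lit 73) (nat_lit 5) (nat_lit 76) (nat_lit 5) (nat_lit 77) (nat_lit 5) (nat_lit 371) (nat_lit 298) (nat_lit 231))) (XT.nd (nat_lit 78) (nat_lit 608) (nat_lit 0) (XT.lf (nat_lit 0) (nat_lit 10892440774) (nat_lit 304) (nat_lit 17754115) (nat_lit 76) (nat_lit 4253874149) (nat_lit 73) (nat_lit 5) (nat_lit 77) (nat_lit 5) (nat_lit 74) (nat_lit 5) (nat_lit 372) (nat_lit 298) (nat_lit 230)) (XT.nd (nat_lit 78) (nat_lit 228) (nat_lit 0) (XT.lf (nat_lit 0) (nat_lit 1016606234) (nat_lit 380) (nat_lit 3192341635) (nat_lit 76) (nat_lit 11257377390) (nat_lit 68) (nat_lit 5) (nat_lit 73) (nat_lit 5) (nat_lit 69) (nat_lit 5) (nat_lit 373) (nat_lit 298) (nat_lit 229)) (XT.lf (nat_lit 0) (nat_lit 6436913851) (nat_lit 304) (nat_lit 6620983847) (nat_lit 76) (nat_lit 2718570409) (nat_lit 65) (nat_lit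 5) (nat_lit 69) (nat_lit 5) (nat_lit 66) (nat_lit 5) (nat_lit 374) (nat_lit 298) (nat_lit 228))))))) (XT.nd (nat_lit 780) (nat_lit 76) (nat_lit 0) (XT.nd (nat_lit 390) (nat_lit 836) (nat_lit 0) (XT.nd (nat_lit 156) (nat_lit 532) (nat_lit 0) (XT.nd (nat_lit 78) (nat_lit 304) (nat_lit 0) (XT.lf (nat_lit 0) (nat_lit 5795060281) (nat_lit 228) (nat_lit 6266569217) (nat_lit 304) (nat_lit 4033462254) (nat_lit 62) (nat_lit 5) (nat_lit 65) (nat_lit 5) (nat_lit 66) (nat_lit 5) (nat_lit 375) (nat_lit 298) (nat_lit 227)) (XT.lf (nat_lit 0) (nat_lit 1432257072) (nat_lit 304) (nat_lit 14230768620) (nat_lit 76) (nat_lit 759689917) (nat_lit 58) (nat_lit 5) (nat_lit 62) (nat_lit 5) (nat_lit 59) (nat_lit 5) (nat_lit 376) (nat_lit 298) (nat_lit 226))) (XT.nd (nat_lit 78) (nat_lit 532) (nat_lit 0) (XT.lf (nat_lit 0) (nat_lit 7075083714) (nat_lit 304) (nat_lit 1701969615) (nat_lit 76) (nat_lit 7981234476) (nat_lit 58)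 (nat_lit 5) (nat_lit 62) (nat_lit 5) (nat_lit 59) (nat_lit 5) (nat_lit 377) (nat_lit 298) (nat_lit 225)) (XT.nd (nat_lit 78) (nat_lit 304) (nat_lit 0) (XT.lf (nat_lit 0) (nat_lit 11279236636) (nat_lit 228) (nat_lit 1637944678) (nat_lit 304) (nat_lit 4186157337) (nat_lit 55) (nat_lit 5) (nat_lit 58) (nat_lit 5) (nat_lit 59) (nat_lit 5) (nat_lit 378) (nat_lit 298) (nat_lit 224)) (XT.lf (nat_lit 0) (nat_lit 1509632779) (nat_lit 304) (nat_lit 10266609812) (nat_lit 76) (nat_lit 5681253711) (nat_lit 51) (nat_lit 5) (nat_lit 55) (nat_lit 5) (nat_lit 52) (nat_lit 5) (nat_lit 379) (nat_lit 298) (nat_lit 223))))) (XT.nd (nat_lit 156) (nat_lit 608) (nat_lit 0) (XT.nd (nat_lit 78) (nat_lit 0) (nat_lit 0) (XT.lf (nat_lit 0) (nat_lit 2781499805) (nat_lit 228) (nat_lit 4564866009) (nat_lit 304) (nat_lit 10474830960) (nat_lit 48) (nat_lit 5) (nat_lit 51) (nat_lit 5) (nat_lit 52) (nat_lit 5) (nat_lit 380) (nat_lit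 298) (nat_lit 222)) (XT.lf (nat_lit 0) (nat_lit 13405293940) (nat_lit 304) (nat_lit 1921723504) (nat_lit 76) (nat_lit 2867859008) (nat_lit 48) (nat_lit 5) (nat_lit 52) (nat_lit 5) (nat_lit 49) (nat_lit 5) (nat_lit 381) (nat_lit 298) (nat_lit 221))) (XT.nd (nat_lit 78) (nat_lit 380) (nat_lit 0) (XT.lf (nat_lit 0) (nat_lit 1118479360) (nat_lit 228) (nat_lit 6941649001) (nat_lit 76) (nat_lit 10518184482) (nat_lit 45) (nat_lit 5) (nat_lit 48) (nat_lit 5) (nat_lit 46) (nat_lit 5) (nat_lit 382) (nat_lit 298) (nat_lit 220)) (XT.nd (nat_lit 78) (nat_lit 152) (nat_lit 0) (XT.lf (nat_lit 0) (nat_lit 6642875438) (nat_lit 228) (nat_lit 512599531) (nat_lit 304) (nat_lit 11816818194) (nat_lit 42) (nat_lit 5) (nat_lit 45) (nat_lit 5) (nat_lit 46) (nat_lit 5) (nat_lit 383) (nat_lit 298) (nat_lit 219)) (XT.lf (nat_lit 0) (nat_lit 1255033519) (nat_lit 152) (nat_lit 12181900964) (nat_lit 228) (nat_lit 5939900349) (nat_lit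 40) (nat_lit 5) (nat_lit 42) (nat_lit 5) (nat_lit 43) (nat_lit 5) (nat_lit 384) (nat_lit 298) (nat_lit 218)))))) (XT.nd (nat_lit 40716) (nat_lit 0) (nat_lit 44004) (XT.nd (nat_lit 40482) (nat_lit 0) (nat_lit 45980) (XT.nd (nat_lit 40404) (nat_lit 0) (nat_lit 46512) (XT.lf (nat_lit 0) (nat_lit 160531527) (nat_lit 228) (nat_lit 4446986252) (nat_lit 76) (nat_lit 15185014986) (nat_lit 39) (nat_lit 5) (nat_lit 42) (nat_lit 5) (nat_lit 40) (nat_lit 5) (nat_lit 385) (nat_lit 298) (nat_lit 217)) (XT.lf (nat_lit 0) (nat_lit 1428076683) (nat_lit 76) (nat_lit 897600280) (nat_lit 76) (nat_lit 897600280) (nat_lit 651) (nat_lit 4) (nat_lit 652) (nat_lit 5) (nat_lit 652) (nat_lit 4) (nat_lit 302) (nat_lit 299) (nat_lit 299))) (XT.nd (nat_lit 78) (nat_lit 304) (nat_lit 0) (XT.lf (nat_lit 0) (nat_lit 1187594212) (nat_lit 152) (nat_lit 1533259109) (nat_lit 228) (nat_lit 3731571667) (nat_lit 648) (nat_lit 5) (nat_lit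 650) (nat_lit 5) (nat_lit 651) (nat_lit 4) (nat_lit 303) (nat_lit 299) (nat_lit 298)) (XT.nd (nat_lit 78) (nat_lit 228) (nat_lit 0) (XT.lf (nat_lit 0) (nat_lit 728392820) (nat_lit 228) (nat_lit 414830001) (nat_lit 76) (nat_lit 5318076329) (nat_lit 647) (nat_lit 5) (nat_lit 650) (nat_lit 5) (nat_lit 648) (nat_lit 5) (nat_lit 304) (nat_lit 299) (nat_lit 297)) (XT.lf (nat_lit 0) (nat_lit 4520778212) (nat_lit 228) (nat_lit 611143015) (nat_lit 304) (nat_lit 1340996677) (nat_lit 644) (nat_lit 5) (nat_lit 647) (nat_lit 5) (nat_lit 648) (nat_lit 5) (nat_lit 305) (nat_lit 299) (nat_lit 296))))) (XT.nd (nat_lit 156) (nat_lit 1140) (nat_lit 0) (XT.nd (nat_lit 78) (nat_lit 456) (nat_lit 0) (XT.lf (nat_lit 0) (nat_lit 2997778562) (nat_lit 380) (nat_lit 3438315465) (nat_lit 76) (nat_lit 51413139) (nat_lit 639) (nat_lit 5) (nat_lit 644) (nat_lit 5) (nat_lit 640) (nat_lit 5) (nat_lit 306) (nat_lit 299) (nat_lit 295))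 (XT.lf (nat_lit 0) (nat_lit 799369967) (nat_lit 456) (nat_lit 4874507364) (nat_lit 76) (nat_lit 831207810) (nat_lit 633) (nat_lit 5) (nat_lit 639) (nat_lit 5) (nat_lit 634) (nat_lit 5) (nat_lit 307) (nat_lit 299) (nat_lit 294))) (XT.nd (nat_lit 78) (nat_lit 684) (nat_lit 0) (XT.lf (nat_lit 0) (nat_lit 257693188) (nat_lit 456) (nat_lit 4778868157) (nat_lit 532) (nat_lit 1488990283) (nat_lit 627) (nat_lit 5) (nat_lit 633) (nat_lit 5) (nat_lit 634) (nat_lit 5) (nat_lit 308) (nat_lit 299) (nat_lit 293)) (XT.nd (nat_lit 78) (nat_lit 608) (nat_lit 0) (XT.lf (nat_lit 0) (nat_lit 2694303110) (nat_lit 532) (nat_lit 1052841643) (nat_lit 76) (nat_lit 2801718198) (nat_lit 626) (nat_lit 5) (nat_lit 633) (nat_lit 5) (nat_lit 627) (nat_lit 5) (nat_lit 309) (nat_lit 299) (nat_lit 292)) (XT.lf (nat_lit 0) (nat_lit 280465442) (nat_lit 608) (nat_lit 2308309849) (nat_lit 76) (nat_lit 3986479276) (nat_lit 618) (nat_lit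 5) (nat_lit 626) (nat_lit 5) (nat_lit 619) (nat_lit 5) (nat_lit 310) (nat_lit 299) (nat_lit 291))))))))
noncomputable def xc47 : XT := (XT.nd (nat_lit 1482) (nat_lit 12920) (nat_lit 0) (XT.nd (nat_lit 702) (nat_lit 13148) (nat_lit 0) (XT.nd (nat_lit 312) (nat_lit 5168) (nat_lit 0) (XT.nd (nat_lit 156) (nat_lit 836) (nat_lit 0) (XT.nd (nat_lit 78) (nat_lit 760) (nat_lit 0) (XT.lf (nat_lit 0) (nat_lit 3076579332) (nat_lit 608) (nat_lit 1289511124) (nat_lit 684) (nat_lit 2238399545) (nat_lit 610) (nat_lit 5) (nat_lit 618) (nat_lit 5) (nat_lit 619) (nat_lit 5) (nat_lit 311) (nat_lit 299) (nat_lit 290)) (XT.lf (nat_lit 0) (nat_lit 1797543509) (nat_lit 760) (nat_lit 4701619985) (nat_lit 76) (nat_lit 137654352) (nat_lit 600) (nat_lit 5) (nat_lit 610) (nat_lit 5) (nat_lit 601) (nat_lit 5) (nat_lit 312) (nat_lit 299) (nat_lit 289))) (XT.nd (nat_lit 78) (nat_lit 76) (nat_lit 0) (XT.lf (nat_lit 0) (nat_lit 829375427)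 (nat_lit 760) (nat_lit 4991040221) (nat_lit 836) (nat_lit 851608090) (nat_lit 590) (nat_lit 5) (nat_lit 600) (nat_lit 5) (nat_lit 601) (nat_lit 5) (nat_lit 313) (nat_lit 299) (nat_lit 288)) (XT.lf (nat_lit 0) (nat_lit 3105540059) (nat_lit 836) (nat_lit 237321825) (nat_lit 76) (nat_lit 3367273278) (nat_lit 589) (nat_lit 5) (nat_lit 600) (nat_lit 5) (nat_lit 590) (nat_lit 5) (nat_lit 314) (nat_lit 299) (nat_lit 287)))) (XT.nd (nat_lit 156) (nat_lit 3344) (nat_lit 0) (XT.nd (nat_lit 78) (nat_lit 912) (nat_lit 0) (XT.lf (nat_lit 0) (nat_lit 314624075) (nat_lit 912) (nat_lit 1246868639) (nat_lit 76) (nat_lit 5189855536) (nat_lit 577) (nat_lit 5) (nat_lit 589) (nat_lit 5) (nat_lit 578) (nat_lit 5) (nat_lit 315) (nat_lit 299) (nat_lit 286)) (XT.lf (nat_lit 0) (nat_lit 4203265348) (nat_lit 988) (nat_lit 2230464004) (nat_lit 76) (nat_lit 361689284) (nat_lit 565) (nat_lit 5) (nat_lit 578) (nat_lit 5) (nat_lit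 566) (nat_lit 5) (nat_lit 316) (nat_lit 299) (nat_lit 285))) (XT.nd (nat_lit 78) (nat_lit 2280) (nat_lit 0) (XT.lf (nat_lit 0) (nat_lit 1262264856) (nat_lit 1064) (nat_lit 3183598273) (nat_lit 76) (nat_lit 2396629737) (nat_lit 551) (nat_lit 5) (nat_lit 565) (nat_lit 5) (nat_lit 552) (nat_lit 5) (nat_lit 317) (nat_lit 299) (nat_lit 284)) (XT.nd (nat_lit 78) (nat_lit 1216) (nat_lit 0) (XT.lf (nat_lit 0) (nat_lit 2785885835) (nat_lit 1064) (nat_lit 2317297236) (nat_lit 1140) (nat_lit 1789437028) (nat_lit 537) (nat_lit 5) (nat_lit 551) (nat_lit 5) (nat_lit 552) (nat_lit 5) (nat_lit 318) (nat_lit 299) (nat_lit 283)) (XT.lf (nat_lit 0) (nat_lit 1947702355) (nat_lit 1140) (nat_lit 48740225) (nat_lit 1216) (nat_lit 4949451920) (nat_lit 521) (nat_lit 5) (nat_lit 536) (nat_lit 5) (nat_lit 537) (nat_lit 5) (nat_lit 319) (nat_lit 299) (nat_lit 282)))))) (XT.nd (nat_lit 390) (nat_lit 7676) (nat_lit 0) (XT.nd (nat_lit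 156) (nat_lit 2888) (nat_lit 0) (XT.nd (nat_lit 78) (nat_lit 1368) (nat_lit 0) (XT.lf (nat_lit 0) (nat_lit 1128272469) (nat_lit 1216) (nat_lit 4671576476) (nat_lit 1292) (nat_lit 1202213562) (nat_lit 505) (nat_lit 5) (nat_lit 521) (nat_lit 5) (nat_lit 522) (nat_lit 5) (nat_lit 320) (nat_lit 299) (nat_lit 281)) (XT.lf (nat_lit 0) (nat_lit 334925971) (nat_lit 1292) (nat_lit 2204226821) (nat_lit 1368) (nat_lit 4522178906) (nat_lit 487) (nat_lit 5) (nat_lit 504) (nat_lit 5) (nat_lit 505) (nat_lit 5) (nat_lit 321) (nat_lit 299) (nat_lit 280))) (XT.nd (nat_lit 78) (nat_lit 2888) (nat_lit 0) (XT.lf (nat_lit 0) (nat_lit 6301731957) (nat_lit 1368) (nat_lit 422088811) (nat_lit 76) (nat_lit 399982961) (nat_lit 487) (nat_lit 5) (nat_lit 505) (nat_lit 5) (nat_lit 488) (nat_lit 5) (nat_lit 322) (nat_lit 299) (nat_lit 279)) (XT.nd (nat_lit 78) (nat_lit 1444) (nat_lit 0) (XT.lf (nat_lit 0) (nat_lit 2889667405) (nat_lit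 1444) (nat_lit 1170026507) (nat_lit 76) (nat_lit 3129356736) (nat_lit 468) (nat_lit 5) (nat_lit 487) (nat_lit 5) (nat_lit 469) (nat_lit 5) (nat_lit 323) (nat_lit 299) (nat_lit 278)) (XT.lf (nat_lit 0) (nat_lit 5370484014) (nat_lit 1444) (nat_lit 1257152816) (nat_lit 1520) (nat_lit 630071517) (nat_lit 449) (nat_lit 5) (nat_lit 468) (nat_lit 5) (nat_lit 469) (nat_lit 5) (nat_lit 324) (nat_lit 299) (nat_lit 277))))) (XT.nd (nat_lit 156) (nat_lit 4484) (nat_lit 0) (XT.nd (nat_lit 78) (nat_lit 1596) (nat_lit 0) (XT.lf (nat_lit 0) (nat_lit 3047886739) (nat_lit 1596) (nat_lit 2601302937) (nat_lit 76) (nat_lit 1680108718) (nat_lit 428) (nat_lit 5) (nat_lit 449) (nat_lit 5) (nat_lit 429) (nat_lit 5) (nat_lit 325) (nat_lit 299) (nat_lit 276)) (XT.lf (nat_lit 0) (nat_lit 4107829238) (nat_lit 1596) (nat_lit 2660515791) (nat_lit 1672) (nat_lit 635870076) (nat_lit 407) (nat_lit 5) (nat_lit 428) (nat_lit 5) (nat_lit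 429) (nat_lit 5) (nat_lit 326) (nat_lit 299) (nat_lit 275))) (XT.nd (nat_lit 78) (nat_lit 2736) (nat_lit 0) (XT.lf (nat_lit 0) (nat_lit 3016218720) (nat_lit 1748) (nat_lit 3985105582) (nat_lit 76) (nat_lit 480961239) (nat_lit 384) (nat_lit 5) (nat_lit 407) (nat_lit 5) (nat_lit 385) (nat_lit 5) (nat_lit 327) (nat_lit 299) (nat_lit 274)) (XT.nd (nat_lit 78) (nat_lit 988) (nat_lit 0) (XT.lf (nat_lit 0) (nat_lit 2894657948) (nat_lit 1748) (nat_lit 3830638722) (nat_lit 1824) (nat_lit 838266918) (nat_lit 361) (nat_lit 5) (nat_lit 384) (nat_lit 5) (nat_lit 385) (nat_lit 5) (nat_lit 328) (nat_lit 299) (nat_lit 273)) (XT.lf (nat_lit 0) (nat_lit 2301457157) (nat_lit 912) (nat_lit 499605380) (nat_lit 988) (nat_lit 4847094369) (nat_lit 348) (nat_lit 5) (nat_lit 360) (nat_lit 5) (nat_lit 361) (nat_lit 5) (nat_lit 329) (nat_lit 299) (nat_lit 272))))))) (XT.nd (nat_lit 780) (nat_lit 5624) (nat_lit 0) (XT.nd (nat_lit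 390) (nat_lit 3800) (nat_lit 0) (XT.nd (nat_lit 156) (nat_lit 1672) (nat_lit 0) (XT.nd (nat_lit 78) (nat_lit 912) (nat_lit 0) (XT.lf (nat_lit 0) (nat_lit 1708929517) (nat_lit 912) (nat_lit 4792217107) (nat_lit 988) (nat_lit 1234836801) (nat_lit 336) (nat_lit 5) (nat_lit 348) (nat_lit 5) (nat_lit 349) (nat_lit 5) (nat_lit 330) (nat_lit 299) (nat_lit 271)) (XT.lf (nat_lit 0) (nat_lit 1120088610) (nat_lit 836) (nat_lit 1282656459) (nat_lit 912) (nat_lit 5424448056) (nat_lit 324) (nat_lit 5) (nat_lit 335) (nat_lit 5) (nat_lit 336) (nat_lit 5) (nat_lit 331) (nat_lit 299) (nat_lit 270))) (XT.nd (nat_lit 78) (nat_lit 836) (nat_lit 0) (XT.lf (nat_lit 0) (nat_lit 528146681) (nat_lit 836) (nat_lit 5568983648) (nat_lit 912) (nat_lit 1824617014) (nat_lit 313) (nat_lit 5) (nat_lit 324) (nat_lit 5) (nat_lit 325) (nat_lit 5) (nat_lit 332) (nat_lit 299) (nat_lit 269)) (XT.nd (nat_lit 78) (nat_lit 760) (nat_lit 0)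 (XT.lf (nat_lit 0) (nat_lit 1818981954) (nat_lit 912) (nat_lit 65703388) (nat_lit 76) (nat_lit 6135056476) (nat_lit 312) (nat_lit 5) (nat_lit 324) (nat_lit 5) (nat_lit 313) (nat_lit 5) (nat_lit 333) (nat_lit 299) (nat_lit 268)) (XT.lf (nat_lit 0) (nat_lit 5517405487) (nat_lit 836) (nat_lit 662046830) (nat_lit 76) (nat_lit 1941632406) (nat_lit 302) (nat_lit 5) (nat_lit 313) (nat_lit 5) (nat_lit 303) (nat_lit 5) (nat_lit 334) (nat_lit 299) (nat_lit 267))))) (XT.nd (nat_lit 156) (nat_lit 2204) (nat_lit 0) (XT.nd (nat_lit 78) (nat_lit 760) (nat_lit 0) (XT.lf (nat_lit 0) (nat_lit 1055789506) (nat_lit 836) (nat_lit 1265354605) (nat_lit 76) (nat_lit 5904855637) (nat_lit 291) (nat_lit 5) (nat_lit 302) (nat_lit 5) (nat_lit 292) (nat_lit 5) (nat_lit 335) (nat_lit 299) (nat_lit 266)) (XT.lf (nat_lit 0) (nat_lit 4759663259) (nat_lit 836) (nat_lit 1886990714) (nat_lit 76) (nat_lit 1687715832) (nat_lit 281) (nat_lit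 5) (nat_lit 292) (nat_lit 5) (nat_lit 282) (nat_lit 5) (nat_lit 336) (nat_lit 299) (nat_lit 265))) (XT.nd (nat_lit 78) (nat_lit 1368) (nat_lit 0) (XT.lf (nat_lit 0) (nat_lit 103553309) (nat_lit 836) (nat_lit 2517834786) (nat_lit 76) (nat_lit 5825103788) (nat_lit 270) (nat_lit 5) (nat_lit 281) (nat_lit 5) (nat_lit 271) (nat_lit 5) (nat_lit 337) (nat_lit 299) (nat_lit 264)) (XT.nd (nat_lit 78) (nat_lit 684) (nat_lit 0) (XT.lf (nat_lit 0) (nat_lit 3817485121) (nat_lit 760) (nat_lit 3178393707) (nat_lit 76) (nat_lit 1566196174) (nat_lit 261) (nat_lit 5) (nat_lit 271) (nat_lit 5) (nat_lit 262) (nat_lit 5) (nat_lit 338) (nat_lit 299) (nat_lit 263)) (XT.lf (nat_lit 0) (nat_lit 4826048081) (nat_lit 684) (nat_lit 2800022656) (nat_lit 760) (nat_lit 1055436529) (nat_lit 252) (nat_lit 5) (nat_lit 261) (nat_lit 5) (nat_lit 262) (nat_lit 5) (nat_lit 339) (nat_lit 299) (nat_lit 262)))))) (XT.nd (nat_lit 390) (nat_lit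 2432) (nat_lit 0) (XT.nd (nat_lit 156) (nat_lit 1824) (nat_lit 0) (XT.nd (nat_lit 78) (nat_lit 684) (nat_lit 0) (XT.lf (nat_lit 0) (nat_lit 2686344567) (nat_lit 684) (nat_lit 4562344981) (nat_lit 76) (nat_lit 1555961794) (nat_lit 243) (nat_lit 5) (nat_lit 252) (nat_lit 5) (nat_lit 244) (nat_lit 5) (nat_lit 340) (nat_lit 299) (nat_lit 261)) (XT.lf (nat_lit 0) (nat_lit 3631370212) (nat_lit 684) (nat_lit 2883449570) (nat_lit 760) (nat_lit 2416797682) (nat_lit 234) (nat_lit 5) (nat_lit 243) (nat_lit 5) (nat_lit 244) (nat_lit 5) (nat_lit 341) (nat_lit 299) (nat_lit 260))) (XT.nd (nat_lit 78) (nat_lit 1140) (nat_lit 0) (XT.lf (nat_lit 0) (nat_lit 1360116884) (nat_lit 684) (nat_lit 6066488499) (nat_lit 76) (nat_lit 1635993415) (nat_lit 225) (nat_lit 5) (nat_lit 234) (nat_lit 5) (nat_lit 226) (nat_lit 5) (nat_lit 342) (nat_lit 299) (nat_lit 259)) (XT.nd (nat_lit 78) (nat_lit 532) (nat_lit 0) (XT.lf (nat_lit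 0) (nat_lit 2317229585) (nat_lit 608) (nat_lit 2893786150) (nat_lit 684) (nat_lit 3986343704) (nat_lit 217) (nat_lit 5) (nat_lit 225) (nat_lit 5) (nat_lit 226) (nat_lit 5) (nat_lit 343) (nat_lit 299) (nat_lit 258)) (XT.lf (nat_lit 0) (nat_lit 1615045936) (nat_lit 532) (nat_lit 7550158582) (nat_lit 608) (nat_lit 171241568) (nat_lit 210) (nat_lit 5) (nat_lit 217) (nat_lit 5) (nat_lit 218) (nat_lit 5) (nat_lit 344) (nat_lit 299) (nat_lit 257))))) (XT.nd (nat_lit 156) (nat_lit 1216) (nat_lit 0) (XT.nd (nat_lit 78) (nat_lit 532) (nat_lit 0) (XT.lf (nat_lit 0) (nat_lit 853622879) (nat_lit 608) (nat_lit 2852668627) (nat_lit 684) (nat_lit 5773017016) (nat_lit 201) (nat_lit 5) (nat_lit 209) (nat_lit 5) (nat_lit 210) (nat_lit 5) (nat_lit 345) (nat_lit 299) (nat_lit 256)) (XT.lf (nat_lit 0) (nat_lit 58729197) (nat_lit 532) (nat_lit 7631939916) (nat_lit 608) (nat_lit 1935943707) (nat_lit 194) (nat_lit 5) (nat_lit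 201) (nat_lit 5) (nat_lit 202) (nat_lit 5) (nat_lit 346) (nat_lit 299) (nat_lit 255))) (XT.nd (nat_lit 78) (nat_lit 1140) (nat_lit 0) (XT.lf (nat_lit 0) (nat_lit 1995623499) (nat_lit 608) (nat_lit 781279989) (nat_lit 76) (nat_lit 7001088260) (nat_lit 193) (nat_lit 5) (nat_lit 201) (nat_lit 5) (nat_lit 194) (nat_lit 5) (nat_lit 347) (nat_lit 299) (nat_lit 254)) (XT.nd (nat_lit 78) (nat_lit 608) (nat_lit 0) (XT.lf (nat_lit 0) (nat_lit 6017461728) (nat_lit 608) (nat_lit 1674854898) (nat_lit 76) (nat_lit 2241399802) (nat_lit 186) (nat_lit 5) (nat_lit 194) (nat_lit 5) (nat_lit 187) (nat_lit 5) (nat_lit 348) (nat_lit 299) (nat_lit 253)) (XT.lf (nat_lit 0) (nat_lit 68747262) (nat_lit 608) (nat_lit 2618569493) (nat_lit 76) (nat_lit 7406743424) (nat_lit 178) (nat_lit 5) (nat_lit 186) (nat_lit 5) (nat_lit 179) (nat_lit 5) (nat_lit 349) (nat_lit 299) (nat_lit 252))))))))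
noncomputable def xc48 : XT := (XT.nd (nat_lit 1482) (nat_lit 3344) (nat_lit 0) (XT.nd (nat_lit 702) (nat_lit 3344) (nat_lit 0) (XT.nd (nat_lit 312) (nat_lit 1824) (nat_lit 0) (XT.nd (nat_lit 156) (nat_lit 988) (nat_lit 0) (XT.nd (nat_lit 78) (nat_lit 456) (nat_lit 0) (XT.lf (nat_lit 0) (nat_lit 4123597367) (nat_lit 608) (nat_lit 3640206100) (nat_lit 76) (nat_lit 2494853294) (nat_lit 171) (nat_lit 5) (nat_lit 179) (nat_lit 5) (nat_lit 172) (nat_lit 5) (nat_lit 350) (nat_lit 299) (nat_lit 251)) (XT.lf (nat_lit 0) (nat_lit 5707753604) (nat_lit 456) (nat_lit 2598769309) (nat_lit 532) (nat_lit 2121569188) (nat_lit 165) (nat_lit 5) (nat_lit 171) (nat_lit 5) (nat_lit 172) (nat_lit 5) (nat_lit 351) (nat_lit 299) (nat_lit 250))) (XT.nd (nat_lit 78) (nat_lit 456) (nat_lit 0) (XT.lf (nat_lit 0) (nat_lit 1993976978) (nat_lit 532) (nat_lit 5876746210) (nat_lit 76) (nat_lit 2731493180) (nat_lit 158) (nat_lit 5)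 (nat_lit 165) (nat_lit 5) (nat_lit 159) (nat_lit 5) (nat_lit 352) (nat_lit 299) (nat_lit 249)) (XT.lf (nat_lit 0) (nat_lit 3665876181) (nat_lit 456) (nat_lit 2547463879) (nat_lit 532) (nat_lit 4567787564) (nat_lit 152) (nat_lit 5) (nat_lit 158) (nat_lit 5) (nat_lit 159) (nat_lit 5) (nat_lit 353) (nat_lit 299) (nat_lit 248)))) (XT.nd (nat_lit 156) (nat_lit 912) (nat_lit 0) (XT.nd (nat_lit 78) (nat_lit 456) (nat_lit 0) (XT.lf (nat_lit 0) (nat_lit 2536092921) (nat_lit 456) (nat_lit 8035584285) (nat_lit 532) (nat_lit 393507581) (nat_lit 146) (nat_lit 5) (nat_lit 152) (nat_lit 5) (nat_lit 153) (nat_lit 5) (nat_lit 354) (nat_lit 299) (nat_lit 247)) (XT.lf (nat_lit 0) (nat_lit 1307126616) (nat_lit 380) (nat_lit 2559325908) (nat_lit 456) (nat_lit 7287595496) (nat_lit 140) (nat_lit 5) (nat_lit 145) (nat_lit 5) (nat_lit 146) (nat_lit 5) (nat_lit 355) (nat_lit 299) (nat_lit 246))) (XT.nd (nat_lit 78) (nat_lit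 912) (nat_lit 0) (XT.lf (nat_lit 0) (nat_lit 8265110950) (nat_lit 456) (nat_lit 7170180) (nat_lit 76) (nat_lit 3075943507) (nat_lit 140) (nat_lit 5) (nat_lit 146) (nat_lit 5) (nat_lit 141) (nat_lit 5) (nat_lit 356) (nat_lit 299) (nat_lit 245)) (XT.nd (nat_lit 78) (nat_lit 380) (nat_lit 0) (XT.lf (nat_lit 0) (nat_lit 1254846339) (nat_lit 532) (nat_lit 1397121383) (nat_lit 76) (nat_lit 8895645987) (nat_lit 133) (nat_lit 5) (nat_lit 140) (nat_lit 5) (nat_lit 134) (nat_lit 5) (nat_lit 357) (nat_lit 299) (nat_lit 244)) (XT.lf (nat_lit 0) (nat_lit 5700942577) (nat_lit 456) (nat_lit 2902010345) (nat_lit 76) (nat_lit 3149248815) (nat_lit 128) (nat_lit 5) (nat_lit 134) (nat_lit 5) (nat_lit 129) (nat_lit 5) (nat_lit 358) (nat_lit 299) (nat_lit 243)))))) (XT.nd (nat_lit 390) (nat_lit 1368) (nat_lit 0) (XT.nd (nat_lit 156) (nat_lit 1140) (nat_lit 0) (XT.nd (nat_lit 78) (nat_lit 456) (nat_lit 0) (XT.lf (nat_lit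 0) (nat_lit 7457271946) (nat_lit 380) (nat_lit 2841117814) (nat_lit 456) (nat_lit 1664200200) (nat_lit 123) (nat_lit 5) (nat_lit 128) (nat_lit 5) (nat_lit 129) (nat_lit 5) (nat_lit 359) (nat_lit 299) (nat_lit 242)) (XT.lf (nat_lit 0) (nat_lit 2839010680) (nat_lit 456) (nat_lit 6235072249) (nat_lit 76) (nat_lit 3104417553) (nat_lit 117) (nat_lit 5) (nat_lit 123) (nat_lit 5) (nat_lit 118) (nat_lit 5) (nat_lit 360) (nat_lit 299) (nat_lit 241))) (XT.nd (nat_lit 78) (nat_lit 760) (nat_lit 0) (XT.lf (nat_lit 0) (nat_lit 4310155507) (nat_lit 380) (nat_lit 3166386893) (nat_lit 456) (nat_lit 4923709474) (nat_lit 112) (nat_lit 5) (nat_lit 117) (nat_lit 5) (nat_lit 118) (nat_lit 5) (nat_lit 361) (nat_lit 299) (nat_lit 240)) (XT.nd (nat_lit 78) (nat_lit 456) (nat_lit 0) (XT.lf (nat_lit 0) (nat_lit 2560968208) (nat_lit 304) (nat_lit 9715255515) (nat_lit 380) (nat_lit 351991271) (nat_lit 108) (nat_lit 5) (nat_lit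 112) (nat_lit 5) (nat_lit 113) (nat_lit 5) (nat_lit 362) (nat_lit 299) (nat_lit 239)) (XT.lf (nat_lit 0) (nat_lit 657108229) (nat_lit 380) (nat_lit 3668870801) (nat_lit 456) (nat_lit 8535966101) (nat_lit 102) (nat_lit 5) (nat_lit 107) (nat_lit 5) (nat_lit 108) (nat_lit 5) (nat_lit 363) (nat_lit 299) (nat_lit 238))))) (XT.nd (nat_lit 156) (nat_lit 988) (nat_lit 0) (XT.nd (nat_lit 78) (nat_lit 380) (nat_lit 0) (XT.lf (nat_lit 0) (nat_lit 9171316369) (nat_lit 456) (nat_lit 1361388572) (nat_lit 76) (nat_lit 2569317663) (nat_lit 102) (nat_lit 5) (nat_lit 108) (nat_lit 5) (nat_lit 103) (nat_lit 5) (nat_lit 364) (nat_lit 299) (nat_lit 237)) (XT.lf (nat_lit 0) (nat_lit 838707450) (nat_lit 380) (nat_lit 3521590136) (nat_lit 76) (nat_lit 8988183477) (nat_lit 97) (nat_lit 5) (nat_lit 102) (nat_lit 5) (nat_lit 98) (nat_lit 5) (nat_lit 365) (nat_lit 299) (nat_lit 236))) (XT.nd (nat_lit 78) (nat_lit 684) (nat_lit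 0) (XT.lf (nat_lit 0) (nat_lit 5719869226) (nat_lit 380) (nat_lit 5850906846) (nat_lit 76) (nat_lit 2030612984) (nat_lit 93) (nat_lit 5) (nat_lit 98) (nat_lit 5) (nat_lit 94) (nat_lit 5) (nat_lit 366) (nat_lit 299) (nat_lit 235)) (XT.nd (nat_lit 78) (nat_lit 380) (nat_lit 0) (XT.lf (nat_lit 0) (nat_lit 5512244214) (nat_lit 304) (nat_lit 5273715730) (nat_lit 380) (nat_lit 3075170763) (nat_lit 89) (nat_lit 5) (nat_lit 93) (nat_lit 5) (nat_lit 94) (nat_lit 5) (nat_lit 367) (nat_lit 299) (nat_lit 234)) (XT.lf (nat_lit 0) (nat_lit 1869256327) (nat_lit 380) (nat_lit 11017076455) (nat_lit 76) (nat_lit 1241734151) (nat_lit 84) (nat_lit 5) (nat_lit 89) (nat_lit 5) (nat_lit 85) (nat_lit 5) (nat_lit 368) (nat_lit 299) (nat_lit 233))))))) (XT.nd (nat_lit 702) (nat_lit 1368) (nat_lit 0) (XT.nd (nat_lit 312) (nat_lit 1140) (nat_lit 0) (XT.nd (nat_lit 156) (nat_lit 608) (nat_lit 0) (XT.nd (nat_lit 78) (nat_lit 0)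 (nat_lit 0) (XT.lf (nat_lit 0) (nat_lit 500208436) (nat_lit 228) (nat_lit 6466659660) (nat_lit 304) (nat_lit 7434819048) (nat_lit 81) (nat_lit 5) (nat_lit 84) (nat_lit 5) (nat_lit 85) (nat_lit 5) (nat_lit 369) (nat_lit 299) (nat_lit 232)) (XT.lf (nat_lit 0) (nat_lit 12245187150) (nat_lit 304) (nat_lit 2246400727) (nat_lit 76) (nat_lit 191387131) (nat_lit 81) (nat_lit 5) (nat_lit 85) (nat_lit 5) (nat_lit 82) (nat_lit 5) (nat_lit 370) (nat_lit 299) (nat_lit 231))) (XT.nd (nat_lit 78) (nat_lit 228) (nat_lit 0) (XT.lf (nat_lit 0) (nat_lit 2733766419) (nat_lit 380) (nat_lit 5220821487) (nat_lit 76) (nat_lit 7016572866) (nat_lit 76) (nat_lit 5) (nat_lit 81) (nat_lit 5) (nat_lit 77) (nat_lit 5) (nat_lit 371) (nat_lit 299) (nat_lit 230)) (XT.lf (nat_lit 0) (nat_lit 6869799937) (nat_lit 228) (nat_lit 1171325814) (nat_lit 304) (nat_lit 7226282028) (nat_lit 73) (nat_lit 5) (nat_lit 76) (nat_lit 5) (nat_lit 77)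 (nat_lit 5) (nat_lit 372) (nat_lit 299) (nat_lit 229)))) (XT.nd (nat_lit 156) (nat_lit 532) (nat_lit 0) (XT.nd (nat_lit 78) (nat_lit 304) (nat_lit 0) (XT.lf (nat_lit 0) (nat_lit 3760614072) (nat_lit 304) (nat_lit 9799241492) (nat_lit 380) (nat_lit 2011656761) (nat_lit 69) (nat_lit 5) (nat_lit 73) (nat_lit 5) (nat_lit 74) (nat_lit 5) (nat_lit 373) (nat_lit 299) (nat_lit 228)) (XT.lf (nat_lit 0) (nat_lit 417478927) (nat_lit 228) (nat_lit 2920608693) (nat_lit 304) (nat_lit 12545773854) (nat_lit 65) (nat_lit 5) (nat_lit 68) (nat_lit 5) (nat_lit 69) (nat_lit 5) (nat_lit 374) (nat_lit 299) (nat_lit 227))) (XT.nd (nat_lit 78) (nat_lit 532) (nat_lit 0) (XT.lf (nat_lit 0) (nat_lit 8884335194) (nat_lit 304) (nat_lit 3143063414) (nat_lit 76) (nat_lit 4176661846) (nat_lit 65) (nat_lit 5) (nat_lit 69) (nat_lit 5) (nat_lit 66) (nat_lit 5) (nat_lit 375) (nat_lit 299) (nat_lit 226)) (XT.nd (nat_lit 78) (nat_lit 304)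 (nat_lit 0) (XT.lf (nat_lit 0) (nat_lit 9585814383) (nat_lit 228) (nat_lit 5049801627) (nat_lit 304) (nat_lit 1897488250) (nat_lit 62) (nat_lit 5) (nat_lit 65) (nat_lit 5) (nat_lit 66) (nat_lit 5) (nat_lit 376) (nat_lit 299) (nat_lit 225)) (XT.lf (nat_lit 0) (nat_lit 3670125576) (nat_lit 304) (nat_lit 11034591464) (nat_lit 76) (nat_lit 2166213306) (nat_lit 58) (nat_lit 5) (nat_lit 62) (nat_lit 5) (nat_lit 59) (nat_lit 5) (nat_lit 377) (nat_lit 299) (nat_lit 224)))))) (XT.nd (nat_lit 390) (nat_lit 456) (nat_lit 0) (XT.nd (nat_lit 156) (nat_lit 684) (nat_lit 0) (XT.nd (nat_lit 78) (nat_lit 0) (nat_lit 0) (XT.lf (nat_lit 0) (nat_lit 1787994185) (nat_lit 228) (nat_lit 7641922528) (nat_lit 304) (nat_lit 7787715967) (nat_lit 55) (nat_lit 5) (nat_lit 58) (nat_lit 5) (nat_lit 59) (nat_lit 5) (nat_lit 378) (nat_lit 299) (nat_lit 223)) (XT.lf (nat_lit 0) (nat_lit 15078118316) (nat_lit 228) (nat_lit 317950836)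 (nat_lit 304) (nat_lit 2178006142) (nat_lit 55) (nat_lit 5) (nat_lit 58) (nat_lit 5) (nat_lit 59) (nat_lit 5) (nat_lit 379) (nat_lit 299) (nat_lit 222))) (XT.nd (nat_lit 78) (nat_lit 380) (nat_lit 0) (XT.lf (nat_lit 0) (nat_lit 3630493317) (nat_lit 304) (nat_lit 7109221474) (nat_lit 76) (nat_lit 7199484719) (nat_lit 51) (nat_lit 5) (nat_lit 55) (nat_lit 5) (nat_lit 52) (nat_lit 5) (nat_lit 380) (nat_lit 299) (nat_lit 221)) (XT.nd (nat_lit 78) (nat_lit 152) (nat_lit 0) (XT.lf (nat_lit 0) (nat_lit 6274109650) (nat_lit 228) (nat_lit 3329899712) (nat_lit 304) (nat_lit 8710582875) (nat_lit 48) (nat_lit 5) (nat_lit 51) (nat_lit 5) (nat_lit 52) (nat_lit 5) (nat_lit 381) (nat_lit 299) (nat_lit 220)) (XT.lf (nat_lit 0) (nat_lit 1379983646) (nat_lit 152) (nat_lit 14422991927) (nat_lit 228) (nat_lit 2897355756) (nat_lit 46) (nat_lit 5) (nat_lit 48) (nat_lit 5) (nat_lit 49) (nat_lit 5) (nat_lit 382) (nat_lit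 299) (nat_lit 219))))) (XT.nd (nat_lit 156) (nat_lit 152) (nat_lit 0) (XT.nd (nat_lit 78) (nat_lit 228) (nat_lit 0) (XT.lf (nat_lit 0) (nat_lit 3115452474) (nat_lit 228) (nat_lit 3836295728) (nat_lit 76) (nat_lit 12144187857) (nat_lit 45) (nat_lit 5) (nat_lit 48) (nat_lit 5) (nat_lit 46) (nat_lit 5) (nat_lit 383) (nat_lit 299) (nat_lit 218)) (XT.lf (nat_lit 0) (nat_lit 9302759212) (nat_lit 304) (nat_lit 9405687531) (nat_lit 76) (nat_lit 793918354) (nat_lit 42) (nat_lit 5) (nat_lit 46) (nat_lit 5) (nat_lit 43) (nat_lit 5) (nat_lit 384) (nat_lit 299) (nat_lit 217))) (XT.nd (nat_lit 40248) (nat_lit 0) (nat_lit 46512) (XT.lf (nat_lit 0) (nat_lit 4529489932) (nat_lit 152) (nat_lit 11211226300) (nat_lit 228) (nat_lit 4178978655) (nat_lit 40) (nat_lit 5) (nat_lit 42) (nat_lit 5) (nat_lit 43) (nat_lit 5) (nat_lit 385) (nat_lit 299) (nat_lit 216)) (XT.nd (nat_lit 78) (nat_lit 76) (nat_lit 0) (XT.lf (nat_lit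 0) (nat_lit 0) (nat_lit 0) (nat_lit 0) (nat_lit 0) (nat_lit 1073741823) (nat_lit 1) (nat_lit 0) (nat_lit 1) (nat_lit 0) (nat_lit 653) (nat_lit 0) (nat_lit 300) (nat_lit 300) (nat_lit 300)) (XT.lf (nat_lit 0) (nat_lit 4512140330) (nat_lit 76) (nat_lit 1857232566) (nat_lit 0) (nat_lit 74354947) (nat_lit 652) (nat_lit 5) (nat_lit 653) (nat_lit 0) (nat_lit 652) (nat_lit 4) (nat_lit 301) (nat_lit 300) (nat_lit 299))))))))
noncomputable def xc49 : XT := (XT.nd (nat_lit 1482) (nat_lit 21052) (nat_lit 0) (XT.nd (nat_lit 702) (nat_lit 7448) (nat_lit 0) (XT.nd (nat_lit 312) (nat_lit 1900) (nat_lit 0) (XT.nd (nat_lit 156) (nat_lit 304) (nat_lit 0) (XT.nd (nat_lit 78) (nat_lit 228) (nat_lit 0) (XT.lf (nat_lit 0) (nat_lit 2520500066) (nat_lit 152) (nat_lit 3654904747) (nat_lit 76) (nat_lit 272651511) (nat_lit 650) (nat_lit 5) (nat_lit 652) (nat_lit 5) (nat_lit 651) (nat_lit 4) (nat_lit 302) (nat_lit 300) (nat_lit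 298)) (XT.lf (nat_lit 0) (nat_lit 465636645) (nat_lit 228) (nat_lit 5394719662) (nat_lit 76) (nat_lit 595083451) (nat_lit 647) (nat_lit 5) (nat_lit 650) (nat_lit 5) (nat_lit 648) (nat_lit 5) (nat_lit 303) (nat_lit 300) (nat_lit 297))) (XT.nd (nat_lit 78) (nat_lit 304) (nat_lit 0) (XT.lf (nat_lit 0) (nat_lit 4793321755) (nat_lit 228) (nat_lit 615364818) (nat_lit 76) (nat_lit 1056898701) (nat_lit 647) (nat_lit 5) (nat_lit 650) (nat_lit 5) (nat_lit 648) (nat_lit 5) (nat_lit 304) (nat_lit 300) (nat_lit 296)) (XT.lf (nat_lit 0) (nat_lit 2600817960) (nat_lit 304) (nat_lit 2224138380) (nat_lit 76) (nat_lit 1653642560) (nat_lit 643) (nat_lit 5) (nat_lit 647) (nat_lit 5) (nat_lit 644) (nat_lit 5) (nat_lit 305) (nat_lit 300) (nat_lit 295)))) (XT.nd (nat_lit 156) (nat_lit 1140) (nat_lit 0) (XT.nd (nat_lit 78) (nat_lit 380) (nat_lit 0) (XT.lf (nat_lit 0) (nat_lit 340809377) (nat_lit 380) (nat_lit 3777953716)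 (nat_lit 76) (nat_lit 2375927102) (nat_lit 638) (nat_lit 5) (nat_lit 643) (nat_lit 5) (nat_lit 639) (nat_lit 5) (nat_lit 306) (nat_lit 300) (nat_lit 294)) (XT.lf (nat_lit 0) (nat_lit 1222240077) (nat_lit 380) (nat_lit 3276067919) (nat_lit 456) (nat_lit 2015302049) (nat_lit 633) (nat_lit 5) (nat_lit 638) (nat_lit 5) (nat_lit 639) (nat_lit 5) (nat_lit 307) (nat_lit 300) (nat_lit 293))) (XT.nd (nat_lit 78) (nat_lit 1064) (nat_lit 0) (XT.lf (nat_lit 0) (nat_lit 2088199566) (nat_lit 456) (nat_lit 216978978) (nat_lit 76) (nat_lit 4230373773) (nat_lit 632) (nat_lit 5) (nat_lit 638) (nat_lit 5) (nat_lit 633) (nat_lit 5) (nat_lit 308) (nat_lit 300) (nat_lit 292)) (XT.nd (nat_lit 78) (nat_lit 608) (nat_lit 0) (XT.lf (nat_lit 0) (nat_lit 4970299460) (nat_lit 456) (nat_lit 1198554083) (nat_lit 532) (nat_lit 391551415) (nat_lit 626) (nat_lit 5) (nat_lit 632) (nat_lit 5) (nat_lit 633) (nat_lit 5) (nat_lit 309)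 (nat_lit 300) (nat_lit 291)) (XT.lf (nat_lit 0) (nat_lit 3613544607) (nat_lit 608) (nat_lit 2926486596) (nat_lit 76) (nat_lit 48074874) (nat_lit 618) (nat_lit 5) (nat_lit 626) (nat_lit 5) (nat_lit 619) (nat_lit 5) (nat_lit 310) (nat_lit 300) (nat_lit 290)))))) (XT.nd (nat_lit 390) (nat_lit 4332) (nat_lit 0) (XT.nd (nat_lit 156) (nat_lit 1748) (nat_lit 0) (XT.nd (nat_lit 78) (nat_lit 684) (nat_lit 0) (XT.lf (nat_lit 0) (nat_lit 991663799) (nat_lit 684) (nat_lit 4221964411) (nat_lit 76) (nat_lit 1405157978) (nat_lit 609) (nat_lit 5) (nat_lit 618) (nat_lit 5) (nat_lit 610) (nat_lit 5) (nat_lit 311) (nat_lit 300) (nat_lit 289)) (XT.lf (nat_lit 0) (nat_lit 1171160434) (nat_lit 684) (nat_lit 3751428749) (nat_lit 760) (nat_lit 1729811127) (nat_lit 600) (nat_lit 5) (nat_lit 609) (nat_lit 5) (nat_lit 610) (nat_lit 5) (nat_lit 312) (nat_lit 300) (nat_lit 288))) (XT.nd (nat_lit 78) (nat_lit 1672) (nat_lit 0)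 (XT.lf (nat_lit 0) (nat_lit 2144073904) (nat_lit 760) (nat_lit 12122274) (nat_lit 76) (nat_lit 4532860873) (nat_lit 599) (nat_lit 5) (nat_lit 609) (nat_lit 5) (nat_lit 600) (nat_lit 5) (nat_lit 313) (nat_lit 300) (nat_lit 287)) (XT.nd (nat_lit 78) (nat_lit 912) (nat_lit 0) (XT.lf (nat_lit 0) (nat_lit 5591061519) (nat_lit 760) (nat_lit 420917529) (nat_lit 836) (nat_lit 716699212) (nat_lit 589) (nat_lit 5) (nat_lit 599) (nat_lit 5) (nat_lit 600) (nat_lit 5) (nat_lit 314) (nat_lit 300) (nat_lit 286)) (XT.lf (nat_lit 0) (nat_lit 3090376128) (nat_lit 912) (nat_lit 2241266177) (nat_lit 76) (nat_lit 1439415466) (nat_lit 577) (nat_lit 5) (nat_lit 589) (nat_lit 5) (nat_lit 578) (nat_lit 5) (nat_lit 315) (nat_lit 300) (nat_lit 285))))) (XT.nd (nat_lit 156) (nat_lit 2356) (nat_lit 0) (XT.nd (nat_lit 78) (nat_lit 988) (nat_lit 0) (XT.lf (nat_lit 0) (nat_lit 88314815) (nat_lit 988) (nat_lit 3304180144) (nat_lit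 76) (nat_lit 3424133770) (nat_lit 564) (nat_lit 5) (nat_lit 577) (nat_lit 5) (nat_lit 565) (nat_lit 5) (nat_lit 316) (nat_lit 300) (nat_lit 284)) (XT.lf (nat_lit 0) (nat_lit 2520646319) (nat_lit 988) (nat_lit 1304656130) (nat_lit 1064) (nat_lit 3039784390) (nat_lit 551) (nat_lit 5) (nat_lit 564) (nat_lit 5) (nat_lit 565) (nat_lit 5) (nat_lit 317) (nat_lit 300) (nat_lit 283))) (XT.nd (nat_lit 78) (nat_lit 1216) (nat_lit 0) (XT.lf (nat_lit 0) (nat_lit 663295566) (nat_lit 1140) (nat_lit 5350469076) (nat_lit 76) (nat_lit 902958444) (nat_lit 536) (nat_lit 5) (nat_lit 551) (nat_lit 5) (nat_lit 537) (nat_lit 5) (nat_lit 318) (nat_lit 300) (nat_lit 282)) (XT.nd (nat_lit 78) (nat_lit 76) (nat_lit 0) (XT.lf (nat_lit 0) (nat_lit 628086898) (nat_lit 1140) (nat_lit 3729145797) (nat_lit 1216) (nat_lit 2613949770) (nat_lit 521) (nat_lit 5) (nat_lit 536) (nat_lit 5) (nat_lit 537) (nat_lit 5) (nat_lit 319) (nat_lit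 300) (nat_lit 281)) (XT.lf (nat_lit 0) (nat_lit 1036772144) (nat_lit 1216) (nat_lit 270374704) (nat_lit 76) (nat_lit 5721735091) (nat_lit 520) (nat_lit 5) (nat_lit 536) (nat_lit 5) (nat_lit 521) (nat_lit 5) (nat_lit 320) (nat_lit 300) (nat_lit 280))))))) (XT.nd (nat_lit 780) (nat_lit 7980) (nat_lit 0) (XT.nd (nat_lit 390) (nat_lit 6080) (nat_lit 0) (XT.nd (nat_lit 156) (nat_lit 4408) (nat_lit 0) (XT.nd (nat_lit 78) (nat_lit 1368) (nat_lit 0) (XT.lf (nat_lit 0) (nat_lit 4692513142) (nat_lit 1292) (nat_lit 1145394551) (nat_lit 76) (nat_lit 1251528724) (nat_lit 504) (nat_lit 5) (nat_lit 521) (nat_lit 5) (nat_lit 505) (nat_lit 5) (nat_lit 321) (nat_lit 300) (nat_lit 279)) (XT.lf (nat_lit 0) (nat_lit 1219406921) (nat_lit 1368) (nat_lit 1999195721) (nat_lit 76) (nat_lit 3934512398) (nat_lit 486) (nat_lit 5) (nat_lit 504) (nat_lit 5) (nat_lit 487) (nat_lit 5) (nat_lit 322) (nat_lit 300) (nat_lit 278))) (XT.nd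 (nat_lit 78) (nat_lit 3040) (nat_lit 0) (XT.lf (nat_lit 0) (nat_lit 4387089939) (nat_lit 1368) (nat_lit 449796670) (nat_lit 1444) (nat_lit 2383079038) (nat_lit 468) (nat_lit 5) (nat_lit 486) (nat_lit 5) (nat_lit 487) (nat_lit 5) (nat_lit 323) (nat_lit 300) (nat_lit 277)) (XT.nd (nat_lit 78) (nat_lit 1520) (nat_lit 0) (XT.lf (nat_lit 0) (nat_lit 1201276340) (nat_lit 1520) (nat_lit 3656617013) (nat_lit 76) (nat_lit 2431963625) (nat_lit 448) (nat_lit 5) (nat_lit 468) (nat_lit 5) (nat_lit 449) (nat_lit 5) (nat_lit 324) (nat_lit 300) (nat_lit 276)) (XT.lf (nat_lit 0) (nat_lit 2895042623) (nat_lit 1520) (nat_lit 1900323946) (nat_lit 1596) (nat_lit 2567548508) (nat_lit 428) (nat_lit 5) (nat_lit 448) (nat_lit 5) (nat_lit 449) (nat_lit 5) (nat_lit 325) (nat_lit 300) (nat_lit 275))))) (XT.nd (nat_lit 156) (nat_lit 2736) (nat_lit 0) (XT.nd (nat_lit 78) (nat_lit 1672) (nat_lit 0) (XT.lf (nat_lit 0) (nat_lit 987161623)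 (nat_lit 1672) (nat_lit 5264453723) (nat_lit 76) (nat_lit 1187646287) (nat_lit 406) (nat_lit 5) (nat_lit 428) (nat_lit 5) (nat_lit 407) (nat_lit 5) (nat_lit 326) (nat_lit 300) (nat_lit 274)) (XT.lf (nat_lit 0) (nat_lit 1454533707) (nat_lit 1672) (nat_lit 3109450335) (nat_lit 1748) (nat_lit 2954638905) (nat_lit 384) (nat_lit 5) (nat_lit 406) (nat_lit 5) (nat_lit 407) (nat_lit 5) (nat_lit 327) (nat_lit 300) (nat_lit 273))) (XT.nd (nat_lit 78) (nat_lit 912) (nat_lit 0) (XT.lf (nat_lit 0) (nat_lit 580416245) (nat_lit 1824) (nat_lit 6844670099) (nat_lit 76) (nat_lit 176438789) (nat_lit 360) (nat_lit 5) (nat_lit 384) (nat_lit 5) (nat_lit 361) (nat_lit 5) (nat_lit 328) (nat_lit 300) (nat_lit 272)) (XT.nd (nat_lit 78) (nat_lit 0) (nat_lit 0) (XT.lf (nat_lit 0) (nat_lit 43599229) (nat_lit 912) (nat_lit 4101988660) (nat_lit 988) (nat_lit 3541717247) (nat_lit 348) (nat_lit 5) (nat_lit 360) (nat_lit 5) (nat_lit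 361) (nat_lit 5) (nat_lit 329) (nat_lit 300) (nat_lit 271)) (XT.lf (nat_lit 0) (nat_lit 7138268247) (nat_lit 912) (nat_lit 629622353) (nat_lit 988) (nat_lit 8828005) (nat_lit 348) (nat_lit 5) (nat_lit 360) (nat_lit 5) (nat_lit 361) (nat_lit 5) (nat_lit 330) (nat_lit 300) (nat_lit 270)))))) (XT.nd (nat_lit 390) (nat_lit 3648) (nat_lit 0) (XT.nd (nat_lit 156) (nat_lit 2508) (nat_lit 0) (XT.nd (nat_lit 78) (nat_lit 836) (nat_lit 0) (XT.lf (nat_lit 0) (nat_lit 3550442957) (nat_lit 988) (nat_lit 1342274447) (nat_lit 76) (nat_lit 2976326146) (nat_lit 335) (nat_lit 5) (nat_lit 348) (nat_lit 5) (nat_lit 336) (nat_lit 5) (nat_lit 331) (nat_lit 300) (nat_lit 269)) (XT.lf (nat_lit 0) (nat_lit 5932219987) (nat_lit 836) (nat_lit 1239306505) (nat_lit 912) (nat_lit 793566253) (nat_lit 324) (nat_lit 5) (nat_lit 335) (nat_lit 5) (nat_lit 336) (nat_lit 5) (nat_lit 332) (nat_lit 300) (nat_lit 268))) (XT.nd (nat_lit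 78) (nat_lit 1596) (nat_lit 0) (XT.lf (nat_lit 0) (nat_lit 2770113070) (nat_lit 912) (nat_lit 2743082749) (nat_lit 76) (nat_lit 2551113013) (nat_lit 312) (nat_lit 5) (nat_lit 324) (nat_lit 5) (nat_lit 313) (nat_lit 5) (nat_lit 333) (nat_lit 300) (nat_lit 267)) (XT.nd (nat_lit 78) (nat_lit 836) (nat_lit 0) (XT.lf (nat_lit 0) (nat_lit 4712700325) (nat_lit 760) (nat_lit 1681566064) (nat_lit 836) (nat_lit 1772897500) (nat_lit 302) (nat_lit 5) (nat_lit 312) (nat_lit 5) (nat_lit 313) (nat_lit 5) (nat_lit 334) (nat_lit 300) (nat_lit 266)) (XT.lf (nat_lit 0) (nat_lit 1803032981) (nat_lit 836) (nat_lit 4182809463) (nat_lit 76) (nat_lit 2287606898) (nat_lit 291) (nat_lit 5) (nat_lit 302) (nat_lit 5) (nat_lit 292) (nat_lit 5) (nat_lit 335) (nat_lit 300) (nat_lit 265))))) (XT.nd (nat_lit 156) (nat_lit 2052) (nat_lit 0) (XT.nd (nat_lit 78) (nat_lit 836) (nat_lit 0) (XT.lf (nat_lit 0) (nat_lit 3456115535) (nat_lit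 760) (nat_lit 1978220440) (nat_lit 836) (nat_lit 2948959559) (nat_lit 281) (nat_lit 5) (nat_lit 291) (nat_lit 5) (nat_lit 292) (nat_lit 5) (nat_lit 336) (nat_lit 300) (nat_lit 264)) (XT.lf (nat_lit 0) (nat_lit 646448624) (nat_lit 836) (nat_lit 5685856485) (nat_lit 76) (nat_lit 2164547674) (nat_lit 270) (nat_lit 5) (nat_lit 281) (nat_lit 5) (nat_lit 271) (nat_lit 5) (nat_lit 337) (nat_lit 300) (nat_lit 263))) (XT.nd (nat_lit 78) (nat_lit 1368) (nat_lit 0) (XT.lf (nat_lit 0) (nat_lit 2137813304) (nat_lit 684) (nat_lit 2150666985) (nat_lit 760) (nat_lit 4325416456) (nat_lit 261) (nat_lit 5) (nat_lit 270) (nat_lit 5) (nat_lit 271) (nat_lit 5) (nat_lit 338) (nat_lit 300) (nat_lit 262)) (XT.nd (nat_lit 78) (nat_lit 684) (nat_lit 0) (XT.lf (nat_lit 0) (nat_lit 1452389199) (nat_lit 684) (nat_lit 6569207477) (nat_lit 760) (nat_lit 713263895) (nat_lit 252) (nat_lit 5) (nat_lit 261) (nat_lit 5) (nat_lit 262)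 (nat_lit 5) (nat_lit 339) (nat_lit 300) (nat_lit 261)) (XT.lf (nat_lit 0) (nat_lit 731851714) (nat_lit 608) (nat_lit 2220063432) (nat_lit 684) (nat_lit 5907508467) (nat_lit 243) (nat_lit 5) (nat_lit 251) (nat_lit 5) (nat_lit 252) (nat_lit 5) (nat_lit 340) (nat_lit 300) (nat_lit 260))))))))
noncomputable def xc50 : XT := (XT.nd (nat_lit 1482) (nat_lit 4940) (nat_lit 0) (XT.nd (nat_lit 702) (nat_lit 4256) (nat_lit 0) (XT.nd (nat_lit 312) (nat_lit 2888) (nat_lit 0) (XT.nd (nat_lit 156) (nat_lit 1216) (nat_lit 0) (XT.nd (nat_lit 78) (nat_lit 760) (nat_lit 0) (XT.lf (nat_lit 0) (nat_lit 6704184380) (nat_lit 684) (nat_lit 12556943) (nat_lit 76) (nat_lit 2271193025) (nat_lit 243) (nat_lit 5) (nat_lit 252) (nat_lit 5) (nat_lit 244) (nat_lit 5) (nat_lit 341) (nat_lit 300) (nat_lit 259)) (XT.lf (nat_lit 0) (nat_lit 1423390004) (nat_lit 760) (nat_lit 778895962) (nat_lit 76) (nat_lit 6917992540) (nat_lit 233)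 (nat_lit 5) (nat_lit 243) (nat_lit 5) (nat_lit 234) (nat_lit 5) (nat_lit 342) (nat_lit 300) (nat_lit 258))) (XT.nd (nat_lit 78) (nat_lit 608) (nat_lit 0) (XT.lf (nat_lit 0) (nat_lit 5202885378) (nat_lit 684) (nat_lit 1587210136) (nat_lit 76) (nat_lit 2466390642) (nat_lit 225) (nat_lit 5) (nat_lit 234) (nat_lit 5) (nat_lit 226) (nat_lit 5) (nat_lit 343) (nat_lit 300) (nat_lit 257)) (XT.lf (nat_lit 0) (nat_lit 6972395874) (nat_lit 608) (nat_lit 2115951554) (nat_lit 684) (nat_lit 308618298) (nat_lit 217) (nat_lit 5) (nat_lit 225) (nat_lit 5) (nat_lit 226) (nat_lit 5) (nat_lit 344) (nat_lit 300) (nat_lit 256)))) (XT.nd (nat_lit 156) (nat_lit 1672) (nat_lit 0) (XT.nd (nat_lit 78) (nat_lit 608) (nat_lit 0) (XT.lf (nat_lit 0) (nat_lit 3499721842) (nat_lit 608) (nat_lit 3320464776) (nat_lit 76) (nat_lit 2721096776) (nat_lit 209) (nat_lit 5) (nat_lit 217) (nat_lit 5) (nat_lit 210) (nat_lit 5) (nat_lit 345)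 (nat_lit 300) (nat_lit 255)) (XT.lf (nat_lit 0) (nat_lit 5435524290) (nat_lit 608) (nat_lit 1978322336) (nat_lit 684) (nat_lit 2276163116) (nat_lit 201) (nat_lit 5) (nat_lit 209) (nat_lit 5) (nat_lit 210) (nat_lit 5) (nat_lit 346) (nat_lit 300) (nat_lit 254))) (XT.nd (nat_lit 78) (nat_lit 1064) (nat_lit 0) (XT.lf (nat_lit 0) (nat_lit 1584368438) (nat_lit 608) (nat_lit 5244376230) (nat_lit 76) (nat_lit 3014214309) (nat_lit 193) (nat_lit 5) (nat_lit 201) (nat_lit 5) (nat_lit 194) (nat_lit 5) (nat_lit 347) (nat_lit 300) (nat_lit 253)) (XT.nd (nat_lit 78) (nat_lit 532) (nat_lit 0) (XT.lf (nat_lit 0) (nat_lit 3707594161) (nat_lit 532) (nat_lit 1820745446) (nat_lit 608) (nat_lit 4471917094) (nat_lit 186) (nat_lit 5) (nat_lit 193) (nat_lit 5) (nat_lit 194) (nat_lit 5) (nat_lit 348) (nat_lit 300) (nat_lit 252)) (XT.lf (nat_lit 0) (nat_lit 2764952163) (nat_lit 532) (nat_lit 6834408194) (nat_lit 608) (nat_lit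 562769337) (nat_lit 179) (nat_lit 5) (nat_lit 186) (nat_lit 5) (nat_lit 187) (nat_lit 5) (nat_lit 349) (nat_lit 300) (nat_lit 251)))))) (XT.nd (nat_lit 390) (nat_lit 2204) (nat_lit 0) (XT.nd (nat_lit 156) (nat_lit 988) (nat_lit 0) (XT.nd (nat_lit 78) (nat_lit 456) (nat_lit 0) (XT.lf (nat_lit 0) (nat_lit 1753238902) (nat_lit 532) (nat_lit 1665725886) (nat_lit 608) (nat_lit 6909459015) (nat_lit 171) (nat_lit 5) (nat_lit 178) (nat_lit 5) (nat_lit 179) (nat_lit 5) (nat_lit 350) (nat_lit 300) (nat_lit 250)) (XT.lf (nat_lit 0) (nat_lit 674726337) (nat_lit 456) (nat_lit 6851885115) (nat_lit 532) (nat_lit 2972767357) (nat_lit 165) (nat_lit 5) (nat_lit 171) (nat_lit 5) (nat_lit 172) (nat_lit 5) (nat_lit 351) (nat_lit 300) (nat_lit 249))) (XT.nd (nat_lit 78) (nat_lit 912) (nat_lit 0) (XT.lf (nat_lit 0) (nat_lit 1073818448) (nat_lit 532) (nat_lit 459792532) (nat_lit 76) (nat_lit 9141618515) (nat_lit 164) (nat_lit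 5) (nat_lit 171) (nat_lit 5) (nat_lit 165) (nat_lit 5) (nat_lit 352) (nat_lit 300) (nat_lit 248)) (XT.nd (nat_lit 78) (nat_lit 456) (nat_lit 0) (XT.lf (nat_lit 0) (nat_lit 5225592853) (nat_lit 532) (nat_lit 1679124823) (nat_lit 76) (nat_lit 3950787869) (nat_lit 158) (nat_lit 5) (nat_lit 165) (nat_lit 5) (nat_lit 159) (nat_lit 5) (nat_lit 353) (nat_lit 300) (nat_lit 247)) (XT.lf (nat_lit 0) (nat_lit 8078814523) (nat_lit 456) (nat_lit 1428277565) (nat_lit 532) (nat_lit 1534020017) (nat_lit 152) (nat_lit 5) (nat_lit 158) (nat_lit 5) (nat_lit 159) (nat_lit 5) (nat_lit 354) (nat_lit 300) (nat_lit 246))))) (XT.nd (nat_lit 156) (nat_lit 1292) (nat_lit 0) (XT.nd (nat_lit 78) (nat_lit 380) (nat_lit 0) (XT.lf (nat_lit 0) (nat_lit 2673687284) (nat_lit 532) (nat_lit 4349311013) (nat_lit 76) (nat_lit 4208481388) (nat_lit 145) (nat_lit 5) (nat_lit 152) (nat_lit 5) (nat_lit 146) (nat_lit 5) (nat_lit 355) (nat_lit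 300) (nat_lit 245)) (XT.lf (nat_lit 0) (nat_lit 5606113000) (nat_lit 380) (nat_lit 1388149924) (nat_lit 456) (nat_lit 4432966715) (nat_lit 140) (nat_lit 5) (nat_lit 145) (nat_lit 5) (nat_lit 146) (nat_lit 5) (nat_lit 356) (nat_lit 300) (nat_lit 244))) (XT.nd (nat_lit 78) (nat_lit 836) (nat_lit 0) (XT.lf (nat_lit 0) (nat_lit 4235651335) (nat_lit 456) (nat_lit 7236874166) (nat_lit 532) (nat_lit 155788220) (nat_lit 134) (nat_lit 5) (nat_lit 140) (nat_lit 5) (nat_lit 141) (nat_lit 5) (nat_lit 357) (nat_lit 300) (nat_lit 243)) (XT.nd (nat_lit 78) (nat_lit 380) (nat_lit 0) (XT.lf (nat_lit 0) (nat_lit 2756226396) (nat_lit 380) (nat_lit 1447619146) (nat_lit 456) (nat_lit 7630857345) (nat_lit 128) (nat_lit 5) (nat_lit 133) (nat_lit 5) (nat_lit 134) (nat_lit 5) (nat_lit 358) (nat_lit 300) (nat_lit 242)) (XT.lf (nat_lit 0) (nat_lit 1167518591) (nat_lit 380) (nat_lit 7555935313) (nat_lit 456) (nat_lit 3323204462)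 (nat_lit 123) (nat_lit 5) (nat_lit 128) (nat_lit 5) (nat_lit 129) (nat_lit 5) (nat_lit 359) (nat_lit 300) (nat_lit 241))))))) (XT.nd (nat_lit 702) (nat_lit 2356) (nat_lit 0) (XT.nd (nat_lit 312) (nat_lit 1368) (nat_lit 0) (XT.nd (nat_lit 156) (nat_lit 760) (nat_lit 0) (XT.nd (nat_lit 78) (nat_lit 380) (nat_lit 0) (XT.lf (nat_lit 0) (nat_lit 1115372163) (nat_lit 456) (nat_lit 516927038) (nat_lit 76) (nat_lit 10632222937) (nat_lit 122) (nat_lit 5) (nat_lit 128) (nat_lit 5) (nat_lit 123) (nat_lit 5) (nat_lit 360) (nat_lit 300) (nat_lit 240)) (XT.lf (nat_lit 0) (nat_lit 5684110537) (nat_lit 456) (nat_lit 2328796574) (nat_lit 76) (nat_lit 4474751969) (nat_lit 117) (nat_lit 5) (nat_lit 123) (nat_lit 5) (nat_lit 118) (nat_lit 5) (nat_lit 361) (nat_lit 300) (nat_lit 239))) (XT.nd (nat_lit 78) (nat_lit 380) (nat_lit 0) (XT.lf (nat_lit 0) (nat_lit 8466378633) (nat_lit 380) (nat_lit 1940148704) (nat_lit 456)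 (nat_lit 2310649558) (nat_lit 112) (nat_lit 5) (nat_lit 117) (nat_lit 5) (nat_lit 118) (nat_lit 5) (nat_lit 362) (nat_lit 300) (nat_lit 238)) (XT.lf (nat_lit 0) (nat_lit 2321985085) (nat_lit 380) (nat_lit 6323039032) (nat_lit 76) (nat_lit 4307566679) (nat_lit 107) (nat_lit 5) (nat_lit 112) (nat_lit 5) (nat_lit 108) (nat_lit 5) (nat_lit 363) (nat_lit 300) (nat_lit 237)))) (XT.nd (nat_lit 156) (nat_lit 684) (nat_lit 0) (XT.nd (nat_lit 78) (nat_lit 304) (nat_lit 0) (XT.lf (nat_lit 0) (nat_lit 4655085705) (nat_lit 380) (nat_lit 2428231520) (nat_lit 456) (nat_lit 6111039837) (nat_lit 102) (nat_lit 5) (nat_lit 107) (nat_lit 5) (nat_lit 108) (nat_lit 5) (nat_lit 364) (nat_lit 300) (nat_lit 236)) (XT.lf (nat_lit 0) (nat_lit 2536808407) (nat_lit 304) (nat_lit 9485660329) (nat_lit 380) (nat_lit 1420225118) (nat_lit 98) (nat_lit 5) (nat_lit 102) (nat_lit 5) (nat_lit 103) (nat_lit 5) (nat_lit 365) (nat_lit 300)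 (nat_lit 235))) (XT.nd (nat_lit 78) (nat_lit 304) (nat_lit 0) (XT.lf (nat_lit 0) (nat_lit 252895477) (nat_lit 304) (nat_lit 3140009946) (nat_lit 380) (nat_lit 10304622029) (nat_lit 93) (nat_lit 5) (nat_lit 97) (nat_lit 5) (nat_lit 98) (nat_lit 5) (nat_lit 366) (nat_lit 300) (nat_lit 234)) (XT.nd (nat_lit 78) (nat_lit 304) (nat_lit 0) (XT.lf (nat_lit 0) (nat_lit 8378679291) (nat_lit 380) (nat_lit 2170810302) (nat_lit 76) (nat_lit 3409393642) (nat_lit 93) (nat_lit 5) (nat_lit 98) (nat_lit 5) (nat_lit 94) (nat_lit 5) (nat_lit 367) (nat_lit 300) (nat_lit 233)) (XT.lf (nat_lit 0) (nat_lit 9470682375) (nat_lit 304) (nat_lit 4078254362) (nat_lit 380) (nat_lit 678460114) (nat_lit 89) (nat_lit 5) (nat_lit 93) (nat_lit 5) (nat_lit 94) (nat_lit 5) (nat_lit 368) (nat_lit 300) (nat_lit 232)))))) (XT.nd (nat_lit 390) (nat_lit 1140) (nat_lit 0) (XT.nd (nat_lit 156) (nat_lit 608) (nat_lit 0) (XT.nd (nat_lit 78) (nat_lit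 228) (nat_lit 0) (XT.lf (nat_lit 0) (nat_lit 4343352869) (nat_lit 380) (nat_lit 7543062277) (nat_lit 76) (nat_lit 2616391158) (nat_lit 84) (nat_lit 5) (nat_lit 89) (nat_lit 5) (nat_lit 85) (nat_lit 5) (nat_lit 369) (nat_lit 300) (nat_lit 231)) (XT.lf (nat_lit 0) (nat_lit 4258017239) (nat_lit 228) (nat_lit 5289748775) (nat_lit 304) (nat_lit 5237813266) (nat_lit 81) (nat_lit 5) (nat_lit 84) (nat_lit 5) (nat_lit 85) (nat_lit 5) (nat_lit 370) (nat_lit 300) (nat_lit 230))) (XT.nd (nat_lit 78) (nat_lit 304) (nat_lit 0) (XT.lf (nat_lit 0) (nat_lit 1376158895) (nat_lit 304) (nat_lit 13556768064) (nat_lit 380) (nat_lit 143429964) (nat_lit 77) (nat_lit 5) (nat_lit 81) (nat_lit 5) (nat_lit 82) (nat_lit 5) (nat_lit 371) (nat_lit 300) (nat_lit 229)) (XT.nd (nat_lit 78) (nat_lit 228) (nat_lit 0) (XT.lf (nat_lit 0) (nat_lit 5099045998) (nat_lit 380) (nat_lit 1734105958) (nat_lit 76) (nat_lit 8540812354) (nat_lit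 76) (nat_lit 5) (nat_lit 81) (nat_lit 5) (nat_lit 77) (nat_lit 5) (nat_lit 372) (nat_lit 300) (nat_lit 228)) (XT.lf (nat_lit 0) (nat_lit 10523288647) (nat_lit 304) (nat_lit 5020751755) (nat_lit 76) (nat_lit 135924471) (nat_lit 73) (nat_lit 5) (nat_lit 77) (nat_lit 5) (nat_lit 74) (nat_lit 5) (nat_lit 373) (nat_lit 300) (nat_lit 227))))) (XT.nd (nat_lit 156) (nat_lit 532) (nat_lit 0) (XT.nd (nat_lit 78) (nat_lit 228) (nat_lit 0) (XT.lf (nat_lit 0) (nat_lit 176792205) (nat_lit 380) (nat_lit 8559427213) (nat_lit 76) (nat_lit 7257659438) (nat_lit 68) (nat_lit 5) (nat_lit 73) (nat_lit 5) (nat_lit 69) (nat_lit 5) (nat_lit 374) (nat_lit 300) (nat_lit 226)) (XT.lf (nat_lit 0) (nat_lit 3964066910) (nat_lit 228) (nat_lit 1654025263) (nat_lit 304) (nat_lit 10698090415) (nat_lit 65) (nat_lit 5) (nat_lit 68) (nat_lit 5) (nat_lit 69) (nat_lit 5) (nat_lit 375) (nat_lit 300) (nat_lit 225))) (XT.nd (nat_lit 78) (nat_lit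 304) (nat_lit 0) (XT.lf (nat_lit 0) (nat_lit 231177560) (nat_lit 228) (nat_lit 11046095734) (nat_lit 304) (nat_lit 5369800724) (nat_lit 62) (nat_lit 5) (nat_lit 65) (nat_lit 5) (nat_lit 66) (nat_lit 5) (nat_lit 376) (nat_lit 300) (nat_lit 224)) (XT.nd (nat_lit 78) (nat_lit 228) (nat_lit 0) (XT.lf (nat_lit 0) (nat_lit 170736217) (nat_lit 304) (nat_lit 3705288302) (nat_lit 76) (nat_lit 13110784173) (nat_lit 61) (nat_lit 5) (nat_lit 65) (nat_lit 5) (nat_lit 62) (nat_lit 5) (nat_lit 377) (nat_lit 300) (nat_lit 223)) (XT.lf (nat_lit 0) (nat_lit 5849133851) (nat_lit 304) (nat_lit 7950509766) (nat_lit 76) (nat_lit 3535500480) (nat_lit 58) (nat_lit 5) (nat_lit 62) (nat_lit 5) (nat_lit 59) (nat_lit 5) (nat_lit 378) (nat_lit 300) (nat_lit 222))))))))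
noncomputable def xc51 : XT := (XT.nd (nat_lit 41808) (nat_lit 0) (nat_lit 20292) (XT.nd (nat_lit 41028) (nat_lit 0) (nat_lit 42104) (XT.nd (nat_lit 312) (nat_lit 228) (nat_lit 0) (XT.nd (nat_lit 156) (nat_lit 304) (nat_lit 0) (XT.nd (nat_lit 78) (nat_lit 228) (nat_lit 0) (XT.lf (nat_lit 0) (nat_lit 5201347196) (nat_lit 228) (nat_lit 6541925658) (nat_lit 304) (nat_lit 5949759178) (nat_lit 55) (nat_lit 5) (nat_lit 58) (nat_lit 5) (nat_lit 59) (nat_lit 5) (nat_lit 379) (nat_lit 300) (nat_lit 221)) (XT.lf (nat_lit 0) (nat_lit 734331589) (nat_lit 228) (nat_lit 17105959226) (nat_lit 304) (nat_lit 220854650) (nat_lit 52) (nat_lit 5) (nat_lit 55) (nat_lit 5) (nat_lit 56) (nat_lit 5) (nat_lit 380) (nat_lit 300) (nat_lit 220))) (XT.nd (nat_lit 78) (nat_lit 228) (nat_lit 0) (XT.lf (nat_lit 0) (nat_lit 5695833373) (nat_lit 304) (nat_lit 4056038855) (nat_lit 76) (nat_lit 8685893802) (nat_lit 51) (nat_lit 5) (nat_lit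 55) (nat_lit 5) (nat_lit 52) (nat_lit 5) (nat_lit 381) (nat_lit 300) (nat_lit 219)) (XT.lf (nat_lit 0) (nat_lit 9675797781) (nat_lit 228) (nat_lit 2136637804) (nat_lit 304) (nat_lit 7012721350) (nat_lit 48) (nat_lit 5) (nat_lit 51) (nat_lit 5) (nat_lit 52) (nat_lit 5) (nat_lit 382) (nat_lit 300) (nat_lit 218)))) (XT.nd (nat_lit 40482) (nat_lit 0) (nat_lit 45676) (XT.nd (nat_lit 78) (nat_lit 76) (nat_lit 0) (XT.lf (nat_lit 0) (nat_lit 4612695919) (nat_lit 152) (nat_lit 13557615242) (nat_lit 228) (nat_lit 1052711832) (nat_lit 46) (nat_lit 5) (nat_lit 48) (nat_lit 5) (nat_lit 49) (nat_lit 5) (nat_lit 383) (nat_lit 300) (nat_lit 217)) (XT.lf (nat_lit 0) (nat_lit 5059626515) (nat_lit 228) (nat_lit 827996209) (nat_lit 76) (nat_lit 13743745692) (nat_lit 45) (nat_lit 5) (nat_lit 48) (nat_lit 5) (nat_lit 46) (nat_lit 5) (nat_lit 384) (nat_lit 300) (nat_lit 216))) (XT.nd (nat_lit 78) (nat_lit 228) (nat_lit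 0) (XT.lf (nat_lit 0) (nat_lit 1228527203) (nat_lit 228) (nat_lit 997369933) (nat_lit 228) (nat_lit 997369933) (nat_lit 649) (nat_lit 3) (nat_lit 652) (nat_lit 3) (nat_lit 652) (nat_lit 5) (nat_lit 301) (nat_lit 301) (nat_lit 298)) (XT.nd (nat_lit 78) (nat_lit 0) (nat_lit 0) (XT.lf (nat_lit 0) (nat_lit 339404224) (nat_lit 228) (nat_lit 3856150220) (nat_lit 304) (nat_lit 2256855132) (nat_lit 646) (nat_lit 5) (nat_lit 649) (nat_lit 3) (nat_lit 650) (nat_lit 5) (nat_lit 302) (nat_lit 301) (nat_lit 297)) (XT.lf (nat_lit 76) (nat_lit 788722040) (nat_lit 0) (nat_lit 3805157872) (nat_lit 304) (nat_lit 1867236354) (nat_lit 647) (nat_lit 5) (nat_lit 646) (nat_lit 5) (nat_lit 650) (nat_lit 5) (nat_lit 303) (nat_lit 301) (nat_lit 296)))))) (XT.nd (nat_lit 390) (nat_lit 2432) (nat_lit 0) (XT.nd (nat_lit 156) (nat_lit 456) (nat_lit 0) (XT.nd (nat_lit 78) (nat_lit 380) (nat_lit 0) (XT.lf (nat_lit 0) (nat_lit 2333326985)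 (nat_lit 304) (nat_lit 950171028) (nat_lit 380) (nat_lit 3189227226) (nat_lit 642) (nat_lit 5) (nat_lit 646) (nat_lit 5) (nat_lit 647) (nat_lit 5) (nat_lit 304) (nat_lit 301) (nat_lit 295)) (XT.lf (nat_lit 0) (nat_lit 11124256) (nat_lit 380) (nat_lit 2622749899) (nat_lit 456) (nat_lit 3853446114) (nat_lit 637) (nat_lit 5) (nat_lit 642) (nat_lit 5) (nat_lit 643) (nat_lit 5) (nat_lit 305) (nat_lit 301) (nat_lit 294))) (XT.nd (nat_lit 78) (nat_lit 456) (nat_lit 0) (XT.lf (nat_lit 76) (nat_lit 2248177783) (nat_lit 0) (nat_lit 1844900512) (nat_lit 456) (nat_lit 2411623694) (nat_lit 638) (nat_lit 5) (nat_lit 637) (nat_lit 5) (nat_lit 643) (nat_lit 5) (nat_lit 306) (nat_lit 301) (nat_lit 293)) (XT.nd (nat_lit 78) (nat_lit 0) (nat_lit 76) (XT.lf (nat_lit 76) (nat_lit 687352274) (nat_lit 0) (nat_lit 931236671) (nat_lit 532) (nat_lit 4906597603) (nat_lit 632) (nat_lit 5) (nat_lit 631) (nat_lit 5) (nat_lit 638)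 (nat_lit 5) (nat_lit 307) (nat_lit 301) (nat_lit 292)) (XT.lf (nat_lit 0) (nat_lit 5615229470) (nat_lit 456) (nat_lit 815335663) (nat_lit 76) (nat_lit 117983042) (nat_lit 632) (nat_lit 5) (nat_lit 638) (nat_lit 5) (nat_lit 633) (nat_lit 5) (nat_lit 308) (nat_lit 301) (nat_lit 291))))) (XT.nd (nat_lit 156) (nat_lit 1368) (nat_lit 0) (XT.nd (nat_lit 78) (nat_lit 608) (nat_lit 0) (XT.lf (nat_lit 0) (nat_lit 3004514696) (nat_lit 532) (nat_lit 2274901783) (nat_lit 76) (nat_lit 1295188152) (nat_lit 625) (nat_lit 5) (nat_lit 632) (nat_lit 5) (nat_lit 626) (nat_lit 5) (nat_lit 309) (nat_lit 301) (nat_lit 290)) (XT.lf (nat_lit 0) (nat_lit 320323265) (nat_lit 608) (nat_lit 3684914310) (nat_lit 76) (nat_lit 2598563180) (nat_lit 617) (nat_lit 5) (nat_lit 625) (nat_lit 5) (nat_lit 618) (nat_lit 5) (nat_lit 310) (nat_lit 301) (nat_lit 289))) (XT.nd (nat_lit 78) (nat_lit 760) (nat_lit 0) (XT.lf (nat_lit 0) (nat_lit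 1573137204) (nat_lit 608) (nat_lit 2590402271) (nat_lit 684) (nat_lit 2472298804) (nat_lit 609) (nat_lit 5) (nat_lit 617) (nat_lit 5) (nat_lit 618) (nat_lit 5) (nat_lit 311) (nat_lit 301) (nat_lit 288)) (XT.nd (nat_lit 78) (nat_lit 0) (nat_lit 0) (XT.lf (nat_lit 0) (nat_lit 274940983) (nat_lit 684) (nat_lit 1047231638) (nat_lit 760) (nat_lit 5348838406) (nat_lit 599) (nat_lit 5) (nat_lit 608) (nat_lit 5) (nat_lit 609) (nat_lit 5) (nat_lit 312) (nat_lit 301) (nat_lit 287)) (XT.lf (nat_lit 0) (nat_lit 5100005079) (nat_lit 760) (nat_lit 976589669) (nat_lit 76) (nat_lit 632374604) (nat_lit 599) (nat_lit 5) (nat_lit 609) (nat_lit 5) (nat_lit 600) (nat_lit 5) (nat_lit 313) (nat_lit 301) (nat_lit 286))))))) (XT.nd (nat_lit 780) (nat_lit 11856) (nat_lit 0) (XT.nd (nat_lit 390) (nat_lit 5168) (nat_lit 0) (XT.nd (nat_lit 156) (nat_lit 3116) (nat_lit 0) (XT.nd (nat_lit 78) (nat_lit 836) (nat_lit 0) (XT.lf (nat_lit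 0) (nat_lit 2118422968) (nat_lit 836) (nat_lit 2194705165) (nat_lit 76) (nat_lit 2436666096) (nat_lit 588) (nat_lit 5) (nat_lit 599) (nat_lit 5) (nat_lit 589) (nat_lit 5) (nat_lit 314) (nat_lit 301) (nat_lit 285)) (XT.lf (nat_lit 0) (nat_lit 3418938364) (nat_lit 836) (nat_lit 2416917574) (nat_lit 912) (nat_lit 957884010) (nat_lit 577) (nat_lit 5) (nat_lit 588) (nat_lit 5) (nat_lit 589) (nat_lit 5) (nat_lit 315) (nat_lit 301) (nat_lit 284))) (XT.nd (nat_lit 78) (nat_lit 2128) (nat_lit 0) (XT.lf (nat_lit 0) (nat_lit 2314425585) (nat_lit 912) (nat_lit 377662564) (nat_lit 988) (nat_lit 4148587280) (nat_lit 564) (nat_lit 5) (nat_lit 576) (nat_lit 5) (nat_lit 577) (nat_lit 5) (nat_lit 316) (nat_lit 301) (nat_lit 283)) (XT.nd (nat_lit 78) (nat_lit 1140) (nat_lit 0) (XT.lf (nat_lit 0) (nat_lit 1239320680) (nat_lit 988) (nat_lit 5118238934) (nat_lit 1064) (nat_lit 533054540) (nat_lit 551) (nat_lit 5) (nat_lit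 564) (nat_lit 5) (nat_lit 565) (nat_lit 5) (nat_lit 317) (nat_lit 301) (nat_lit 282)) (XT.lf (nat_lit 0) (nat_lit 185987164) (nat_lit 1064) (nat_lit 2876517462) (nat_lit 1140) (nat_lit 3880961029) (nat_lit 536) (nat_lit 5) (nat_lit 550) (nat_lit 5) (nat_lit 551) (nat_lit 5) (nat_lit 318) (nat_lit 301) (nat_lit 281))))) (XT.nd (nat_lit 156) (nat_lit 3952) (nat_lit 0) (XT.nd (nat_lit 78) (nat_lit 1216) (nat_lit 0) (XT.lf (nat_lit 0) (nat_lit 6182230066) (nat_lit 1064) (nat_lit 496520170) (nat_lit 1140) (nat_lit 320775103) (nat_lit 536) (nat_lit 5) (nat_lit 550) (nat_lit 5) (nat_lit 551) (nat_lit 5) (nat_lit 319) (nat_lit 301) (nat_lit 280)) (XT.lf (nat_lit 0) (nat_lit 3234056496) (nat_lit 1216) (nat_lit 1812350486) (nat_lit 76) (nat_lit 2011880589) (nat_lit 520) (nat_lit 5) (nat_lit 536) (nat_lit 5) (nat_lit 521) (nat_lit 5) (nat_lit 320) (nat_lit 301) (nat_lit 279))) (XT.nd (nat_lit 78) (nat_lit 2736)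 (nat_lit 0) (XT.lf (nat_lit 0) (nat_lit 4345060801) (nat_lit 1216) (nat_lit 2470553549) (nat_lit 1292) (nat_lit 304754311) (nat_lit 504) (nat_lit 5) (nat_lit 520) (nat_lit 5) (nat_lit 521) (nat_lit 5) (nat_lit 321) (nat_lit 301) (nat_lit 278)) (XT.nd (nat_lit 78) (nat_lit 1368) (nat_lit 0) (XT.lf (nat_lit 0) (nat_lit 3202495164) (nat_lit 1368) (nat_lit 3725550759) (nat_lit 76) (nat_lit 257403398) (nat_lit 486) (nat_lit 5) (nat_lit 504) (nat_lit 5) (nat_lit 487) (nat_lit 5) (nat_lit 322) (nat_lit 301) (nat_lit 277)) (XT.lf (nat_lit 0) (nat_lit 2592379407) (nat_lit 1368) (nat_lit 4162732364) (nat_lit 1444) (nat_lit 498525107) (nat_lit 468) (nat_lit 5) (nat_lit 486) (nat_lit 5) (nat_lit 487) (nat_lit 5) (nat_lit 323) (nat_lit 301) (nat_lit 276)))))) (XT.nd (nat_lit 390) (nat_lit 5396) (nat_lit 0) (XT.nd (nat_lit 156) (nat_lit 3420) (nat_lit 0) (XT.nd (nat_lit 78) (nat_lit 1520) (nat_lit 0) (XT.lf (nat_lit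 0) (nat_lit 1739062029) (nat_lit 1444) (nat_lit 1241318882) (nat_lit 1520) (nat_lit 4344555022) (nat_lit 448) (nat_lit 5) (nat_lit 467) (nat_lit 5) (nat_lit 468) (nat_lit 5) (nat_lit 324) (nat_lit 301) (nat_lit 275)) (XT.lf (nat_lit 0) (nat_lit 902512462) (nat_lit 1520) (nat_lit 5599916527) (nat_lit 1596) (nat_lit 897042562) (nat_lit 428) (nat_lit 5) (nat_lit 448) (nat_lit 5) (nat_lit 449) (nat_lit 5) (nat_lit 325) (nat_lit 301) (nat_lit 274))) (XT.nd (nat_lit 78) (nat_lit 1748) (nat_lit 0) (XT.lf (nat_lit 0) (nat_lit 69965830) (nat_lit 1596) (nat_lit 2494048461) (nat_lit 1672) (nat_lit 4913056692) (nat_lit 406) (nat_lit 5) (nat_lit 427) (nat_lit 5) (nat_lit 428) (nat_lit 5) (nat_lit 326) (nat_lit 301) (nat_lit 273)) (XT.nd (nat_lit 78) (nat_lit 1748) (nat_lit 0) (XT.lf (nat_lit 0) (nat_lit 6066190731) (nat_lit 1672) (nat_lit 736482155) (nat_lit 76) (nat_lit 755286224) (nat_lit 406) (nat_lit 5) (nat_lit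 428) (nat_lit 5) (nat_lit 407) (nat_lit 5) (nat_lit 327) (nat_lit 301) (nat_lit 272)) (XT.lf (nat_lit 0) (nat_lit 1964919396) (nat_lit 1748) (nat_lit 1547021222) (nat_lit 76) (nat_lit 4129946613) (nat_lit 383) (nat_lit 5) (nat_lit 406) (nat_lit 5) (nat_lit 384) (nat_lit 5) (nat_lit 328) (nat_lit 301) (nat_lit 271))))) (XT.nd (nat_lit 156) (nat_lit 2660) (nat_lit 0) (XT.nd (nat_lit 78) (nat_lit 988) (nat_lit 0) (XT.lf (nat_lit 0) (nat_lit 5384096943) (nat_lit 1748) (nat_lit 66000989) (nat_lit 1824) (nat_lit 2279200486) (nat_lit 360) (nat_lit 5) (nat_lit 383) (nat_lit 5) (nat_lit 384) (nat_lit 5) (nat_lit 329) (nat_lit 301) (nat_lit 270)) (XT.lf (nat_lit 0) (nat_lit 1174940385) (nat_lit 988) (nat_lit 3153901924) (nat_lit 76) (nat_lit 3490982716) (nat_lit 347) (nat_lit 5) (nat_lit 360) (nat_lit 5) (nat_lit 348) (nat_lit 5) (nat_lit 330) (nat_lit 301) (nat_lit 269))) (XT.nd (nat_lit 78) (nat_lit 1748)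 (nat_lit 0) (XT.lf (nat_lit 0) (nat_lit 3952969095) (nat_lit 912) (nat_lit 699708421) (nat_lit 988) (nat_lit 3261128614) (nat_lit 335) (nat_lit 5) (nat_lit 347) (nat_lit 5) (nat_lit 348) (nat_lit 5) (nat_lit 331) (nat_lit 301) (nat_lit 268)) (XT.nd (nat_lit 78) (nat_lit 836) (nat_lit 0) (XT.lf (nat_lit 0) (nat_lit 193981273) (nat_lit 912) (nat_lit 4774047265) (nat_lit 76) (nat_lit 3043149334) (nat_lit 323) (nat_lit 5) (nat_lit 335) (nat_lit 5) (nat_lit 324) (nat_lit 5) (nat_lit 332) (nat_lit 301) (nat_lit 267)) (XT.lf (nat_lit 0) (nat_lit 2510612812) (nat_lit 836) (nat_lit 1158216444) (nat_lit 912) (nat_lit 4443056875) (nat_lit 312) (nat_lit 5) (nat_lit 323) (nat_lit 5) (nat_lit 324) (nat_lit 5) (nat_lit 333) (nat_lit 301) (nat_lit 266))))))))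
noncomputable def xc52 : XT := (XT.nd (nat_lit 1482) (nat_lit 6308) (nat_lit 0) (XT.nd (nat_lit 702) (nat_lit 5244) (nat_lit 0) (XT.nd (nat_lit 312) (nat_lit 3572) (nat_lit 0) (XT.nd (nat_lit 156) (nat_lit 836) (nat_lit 0) (XT.nd (nat_lit 78) (nat_lit 836) (nat_lit 0) (XT.lf (nat_lit 0) (nat_lit 1779090779) (nat_lit 760) (nat_lit 5445013613) (nat_lit 836) (nat_lit 992040329) (nat_lit 302) (nat_lit 5) (nat_lit 312) (nat_lit 5) (nat_lit 313) (nat_lit 5) (nat_lit 334) (nat_lit 301) (nat_lit 265)) (XT.lf (nat_lit 0) (nat_lit 1033716196) (nat_lit 760) (nat_lit 1463273800) (nat_lit 836) (nat_lit 5826896682) (nat_lit 291) (nat_lit 5) (nat_lit 301) (nat_lit 5) (nat_lit 302) (nat_lit 5) (nat_lit 335) (nat_lit 301) (nat_lit 264))) (XT.nd (nat_lit 78) (nat_lit 76) (nat_lit 0) (XT.lf (nat_lit 0) (nat_lit 272073774) (nat_lit 760) (nat_lit 5785295698) (nat_lit 836) (nat_lit 2377805866) (nat_lit 281) (nat_lit 5)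 (nat_lit 291) (nat_lit 5) (nat_lit 292) (nat_lit 5) (nat_lit 336) (nat_lit 301) (nat_lit 263)) (XT.lf (nat_lit 0) (nat_lit 1137392140) (nat_lit 836) (nat_lit 495423056) (nat_lit 76) (nat_lit 6917320455) (nat_lit 280) (nat_lit 5) (nat_lit 291) (nat_lit 5) (nat_lit 281) (nat_lit 5) (nat_lit 337) (nat_lit 301) (nat_lit 262)))) (XT.nd (nat_lit 156) (nat_lit 2128) (nat_lit 0) (XT.nd (nat_lit 78) (nat_lit 684) (nat_lit 0) (XT.lf (nat_lit 0) (nat_lit 4712386043) (nat_lit 836) (nat_lit 1290271666) (nat_lit 76) (nat_lit 2665884838) (nat_lit 270) (nat_lit 5) (nat_lit 281) (nat_lit 5) (nat_lit 271) (nat_lit 5) (nat_lit 338) (nat_lit 301) (nat_lit 261)) (XT.lf (nat_lit 0) (nat_lit 6694027687) (nat_lit 684) (nat_lit 1680956030) (nat_lit 760) (nat_lit 415954562) (nat_lit 261) (nat_lit 5) (nat_lit 270) (nat_lit 5) (nat_lit 271) (nat_lit 5) (nat_lit 339) (nat_lit 301) (nat_lit 260))) (XT.nd (nat_lit 78) (nat_lit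 1368) (nat_lit 0) (XT.lf (nat_lit 0) (nat_lit 3177891465) (nat_lit 760) (nat_lit 2946352169) (nat_lit 76) (nat_lit 2792588249) (nat_lit 251) (nat_lit 5) (nat_lit 261) (nat_lit 5) (nat_lit 252) (nat_lit 5) (nat_lit 340) (nat_lit 301) (nat_lit 259)) (XT.nd (nat_lit 78) (nat_lit 760) (nat_lit 0) (XT.lf (nat_lit 0) (nat_lit 5229815219) (nat_lit 608) (nat_lit 1628959425) (nat_lit 684) (nat_lit 2188015594) (nat_lit 243) (nat_lit 5) (nat_lit 251) (nat_lit 5) (nat_lit 252) (nat_lit 5) (nat_lit 341) (nat_lit 301) (nat_lit 258)) (XT.lf (nat_lit 0) (nat_lit 1445535213) (nat_lit 760) (nat_lit 4727060477) (nat_lit 76) (nat_lit 3007991885) (nat_lit 233) (nat_lit 5) (nat_lit 243) (nat_lit 5) (nat_lit 234) (nat_lit 5) (nat_lit 342) (nat_lit 301) (nat_lit 257)))))) (XT.nd (nat_lit 390) (nat_lit 2736) (nat_lit 0) (XT.nd (nat_lit 156) (nat_lit 1292) (nat_lit 0) (XT.nd (nat_lit 78) (nat_lit 608) (nat_lit 0) (XT.lf (nat_lit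 0) (nat_lit 3641954598) (nat_lit 608) (nat_lit 1505096674) (nat_lit 684) (nat_lit 4171321927) (nat_lit 225) (nat_lit 5) (nat_lit 233) (nat_lit 5) (nat_lit 234) (nat_lit 5) (nat_lit 343) (nat_lit 301) (nat_lit 256)) (XT.lf (nat_lit 0) (nat_lit 2795534374) (nat_lit 608) (nat_lit 6165304673) (nat_lit 684) (nat_lit 499465060) (nat_lit 217) (nat_lit 5) (nat_lit 225) (nat_lit 5) (nat_lit 226) (nat_lit 5) (nat_lit 344) (nat_lit 301) (nat_lit 255))) (XT.nd (nat_lit 78) (nat_lit 684) (nat_lit 0) (XT.lf (nat_lit 0) (nat_lit 1900794871) (nat_lit 532) (nat_lit 1330229161) (nat_lit 608) (nat_lit 6375246598) (nat_lit 209) (nat_lit 5) (nat_lit 216) (nat_lit 5) (nat_lit 217) (nat_lit 5) (nat_lit 345) (nat_lit 301) (nat_lit 254)) (XT.nd (nat_lit 78) (nat_lit 76) (nat_lit 0) (XT.lf (nat_lit 0) (nat_lit 958055403) (nat_lit 608) (nat_lit 6115775416) (nat_lit 684) (nat_lit 2682609015) (nat_lit 201) (nat_lit 5) (nat_lit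 209) (nat_lit 5) (nat_lit 210) (nat_lit 5) (nat_lit 346) (nat_lit 301) (nat_lit 253)) (XT.lf (nat_lit 0) (nat_lit 1100298450) (nat_lit 684) (nat_lit 25167324) (nat_lit 76) (nat_lit 8785650870) (nat_lit 200) (nat_lit 5) (nat_lit 209) (nat_lit 5) (nat_lit 201) (nat_lit 5) (nat_lit 347) (nat_lit 301) (nat_lit 252))))) (XT.nd (nat_lit 156) (nat_lit 1672) (nat_lit 0) (XT.nd (nat_lit 78) (nat_lit 532) (nat_lit 0) (XT.lf (nat_lit 0) (nat_lit 4980224969) (nat_lit 608) (nat_lit 1068031026) (nat_lit 76) (nat_lit 4021454512) (nat_lit 193) (nat_lit 5) (nat_lit 201) (nat_lit 5) (nat_lit 194) (nat_lit 5) (nat_lit 348) (nat_lit 301) (nat_lit 251)) (XT.lf (nat_lit 0) (nat_lit 8082189724) (nat_lit 532) (nat_lit 890482117) (nat_lit 608) (nat_lit 1260497938) (nat_lit 186) (nat_lit 5) (nat_lit 193) (nat_lit 5) (nat_lit 194) (nat_lit 5) (nat_lit 349) (nat_lit 301) (nat_lit 250))) (XT.nd (nat_lit 78) (nat_lit 1064) (nat_lit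 0) (XT.lf (nat_lit 0) (nat_lit 2667534214) (nat_lit 608) (nat_lit 3316910499) (nat_lit 76) (nat_lit 4416380921) (nat_lit 178) (nat_lit 5) (nat_lit 186) (nat_lit 5) (nat_lit 179) (nat_lit 5) (nat_lit 350) (nat_lit 301) (nat_lit 249)) (XT.nd (nat_lit 78) (nat_lit 532) (nat_lit 0) (XT.lf (nat_lit 0) (nat_lit 6034518201) (nat_lit 532) (nat_lit 659698500) (nat_lit 608) (nat_lit 3879196901) (nat_lit 171) (nat_lit 5) (nat_lit 178) (nat_lit 5) (nat_lit 179) (nat_lit 5) (nat_lit 351) (nat_lit 301) (nat_lit 248)) (XT.lf (nat_lit 0) (nat_lit 114494261) (nat_lit 532) (nat_lit 5839348486) (nat_lit 76) (nat_lit 4796847915) (nat_lit 164) (nat_lit 5) (nat_lit 171) (nat_lit 5) (nat_lit 165) (nat_lit 5) (nat_lit 352) (nat_lit 301) (nat_lit 247))))))) (XT.nd (nat_lit 702) (nat_lit 2736) (nat_lit 0) (XT.nd (nat_lit 312) (nat_lit 2128) (nat_lit 0) (XT.nd (nat_lit 156) (nat_lit 532) (nat_lit 0) (XT.nd (nat_lit 78) (nat_lit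 456) (nat_lit 0) (XT.lf (nat_lit 0) (nat_lit 3711167236) (nat_lit 456) (nat_lit 463899580) (nat_lit 532) (nat_lit 6757736574) (nat_lit 158) (nat_lit 5) (nat_lit 164) (nat_lit 5) (nat_lit 165) (nat_lit 5) (nat_lit 353) (nat_lit 301) (nat_lit 246)) (XT.lf (nat_lit 0) (nat_lit 2425150369) (nat_lit 456) (nat_lit 5962678421) (nat_lit 532) (nat_lit 2731968177) (nat_lit 152) (nat_lit 5) (nat_lit 158) (nat_lit 5) (nat_lit 159) (nat_lit 5) (nat_lit 354) (nat_lit 301) (nat_lit 245))) (XT.nd (nat_lit 78) (nat_lit 0) (nat_lit 0) (XT.lf (nat_lit 0) (nat_lit 1069474874) (nat_lit 456) (nat_lit 327736536) (nat_lit 532) (nat_lit 9915005156) (nat_lit 145) (nat_lit 5) (nat_lit 151) (nat_lit 5) (nat_lit 152) (nat_lit 5) (nat_lit 355) (nat_lit 301) (nat_lit 244)) (XT.lf (nat_lit 0) (nat_lit 5651140190) (nat_lit 532) (nat_lit 398329273) (nat_lit 76) (nat_lit 5459841336) (nat_lit 145) (nat_lit 5) (nat_lit 152) (nat_lit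 5) (nat_lit 146) (nat_lit 5) (nat_lit 356) (nat_lit 301) (nat_lit 243)))) (XT.nd (nat_lit 156) (nat_lit 1216) (nat_lit 0) (XT.nd (nat_lit 78) (nat_lit 532) (nat_lit 0) (XT.lf (nat_lit 0) (nat_lit 9789540604) (nat_lit 380) (nat_lit 253476426) (nat_lit 456) (nat_lit 1669116574) (nat_lit 140) (nat_lit 5) (nat_lit 145) (nat_lit 5) (nat_lit 146) (nat_lit 5) (nat_lit 357) (nat_lit 301) (nat_lit 242)) (XT.lf (nat_lit 0) (nat_lit 2650825690) (nat_lit 532) (nat_lit 3575426630) (nat_lit 76) (nat_lit 5693668223) (nat_lit 133) (nat_lit 5) (nat_lit 140) (nat_lit 5) (nat_lit 134) (nat_lit 5) (nat_lit 358) (nat_lit 301) (nat_lit 241))) (XT.nd (nat_lit 78) (nat_lit 836) (nat_lit 0) (XT.lf (nat_lit 0) (nat_lit 6811375663) (nat_lit 380) (nat_lit 271739312) (nat_lit 456) (nat_lit 5050517603) (nat_lit 128) (nat_lit 5) (nat_lit 133) (nat_lit 5) (nat_lit 134) (nat_lit 5) (nat_lit 359) (nat_lit 301) (nat_lit 240)) (XT.nd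 (nat_lit 78) (nat_lit 456) (nat_lit 0) (XT.lf (nat_lit 0) (nat_lit 5157971072) (nat_lit 380) (nat_lit 6533518796) (nat_lit 456) (nat_lit 661423820) (nat_lit 123) (nat_lit 5) (nat_lit 128) (nat_lit 5) (nat_lit 129) (nat_lit 5) (nat_lit 360) (nat_lit 301) (nat_lit 239)) (XT.lf (nat_lit 0) (nat_lit 3388355511) (nat_lit 380) (nat_lit 428360289) (nat_lit 456) (nat_lit 8761415592) (nat_lit 117) (nat_lit 5) (nat_lit 122) (nat_lit 5) (nat_lit 123) (nat_lit 5) (nat_lit 361) (nat_lit 301) (nat_lit 238)))))) (XT.nd (nat_lit 390) (nat_lit 1216) (nat_lit 0) (XT.nd (nat_lit 156) (nat_lit 1064) (nat_lit 0) (XT.nd (nat_lit 78) (nat_lit 76) (nat_lit 0) (XT.lf (nat_lit 0) (nat_lit 1479092165) (nat_lit 380) (nat_lit 6986643226) (nat_lit 456) (nat_lit 4343390886) (nat_lit 112) (nat_lit 5) (nat_lit 117) (nat_lit 5) (nat_lit 118) (nat_lit 5) (nat_lit 362) (nat_lit 301) (nat_lit 237)) (XT.lf (nat_lit 0) (nat_lit 219406793)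 (nat_lit 456) (nat_lit 532088237) (nat_lit 76) (nat_lit 12295247730) (nat_lit 111) (nat_lit 5) (nat_lit 117) (nat_lit 5) (nat_lit 112) (nat_lit 5) (nat_lit 363) (nat_lit 301) (nat_lit 236))) (XT.nd (nat_lit 78) (nat_lit 760) (nat_lit 0) (XT.lf (nat_lit 0) (nat_lit 4917595409) (nat_lit 380) (nat_lit 2700993719) (nat_lit 76) (nat_lit 5671191205) (nat_lit 107) (nat_lit 5) (nat_lit 112) (nat_lit 5) (nat_lit 108) (nat_lit 5) (nat_lit 364) (nat_lit 301) (nat_lit 235)) (XT.nd (nat_lit 78) (nat_lit 380) (nat_lit 0) (XT.lf (nat_lit 0) (nat_lit 8544633865) (nat_lit 380) (nat_lit 1227909077) (nat_lit 456) (nat_lit 3767266453) (nat_lit 102) (nat_lit 5) (nat_lit 107) (nat_lit 5) (nat_lit 108) (nat_lit 5) (nat_lit 365) (nat_lit 301) (nat_lit 234)) (XT.lf (nat_lit 0) (nat_lit 1010134775) (nat_lit 380) (nat_lit 7459664774) (nat_lit 76) (nat_lit 5326486234) (nat_lit 97) (nat_lit 5) (nat_lit 102) (nat_lit 5) (nat_lit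 98) (nat_lit 5) (nat_lit 366) (nat_lit 301) (nat_lit 233))))) (XT.nd (nat_lit 156) (nat_lit 608) (nat_lit 0) (XT.nd (nat_lit 78) (nat_lit 304) (nat_lit 0) (XT.lf (nat_lit 0) (nat_lit 3963317105) (nat_lit 304) (nat_lit 1937728725) (nat_lit 380) (nat_lit 8158500563) (nat_lit 93) (nat_lit 5) (nat_lit 97) (nat_lit 5) (nat_lit 98) (nat_lit 5) (nat_lit 367) (nat_lit 301) (nat_lit 232)) (XT.lf (nat_lit 0) (nat_lit 1416944037) (nat_lit 304) (nat_lit 9566733103) (nat_lit 380) (nat_lit 3346142738) (nat_lit 89) (nat_lit 5) (nat_lit 93) (nat_lit 5) (nat_lit 94) (nat_lit 5) (nat_lit 368) (nat_lit 301) (nat_lit 231))) (XT.nd (nat_lit 78) (nat_lit 532) (nat_lit 0) (XT.lf (nat_lit 0) (nat_lit 1625670728) (nat_lit 380) (nat_lit 1288055676) (nat_lit 76) (nat_lit 11693556063) (nat_lit 88) (nat_lit 5) (nat_lit 93) (nat_lit 5) (nat_lit 89) (nat_lit 5) (nat_lit 369) (nat_lit 301) (nat_lit 230)) (XT.nd (nat_lit 78) (nat_lit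 228) (nat_lit 0) (XT.lf (nat_lit 0) (nat_lit 6752868133) (nat_lit 380) (nat_lit 4183223057) (nat_lit 76) (nat_lit 3955515359) (nat_lit 84) (nat_lit 5) (nat_lit 89) (nat_lit 5) (nat_lit 85) (nat_lit 5) (nat_lit 370) (nat_lit 301) (nat_lit 229)) (XT.lf (nat_lit 0) (nat_lit 7913708128) (nat_lit 228) (nat_lit 4156226445) (nat_lit 304) (nat_lit 3113818101) (nat_lit 81) (nat_lit 5) (nat_lit 84) (nat_lit 5) (nat_lit 85) (nat_lit 5) (nat_lit 371) (nat_lit 301) (nat_lit 228))))))))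
noncomputable def xc53 : XT := (XT.nd (nat_lit 41886) (nat_lit 0) (nat_lit 27436) (XT.nd (nat_lit 702) (nat_lit 760) (nat_lit 0) (XT.nd (nat_lit 312) (nat_lit 988) (nat_lit 0) (XT.nd (nat_lit 156) (nat_lit 380) (nat_lit 0) (XT.nd (nat_lit 78) (nat_lit 228) (nat_lit 0) (XT.lf (nat_lit 0) (nat_lit 2070968355) (nat_lit 380) (nat_lit 10573021320) (nat_lit 76) (nat_lit 2839695309) (nat_lit 76) (nat_lit 5) (nat_lit 81) (nat_lit 5) (nat_lit 77) (nat_lit 5) (nat_lit 372) (nat_lit 301) (nat_lit 227)) (XT.lf (nat_lit 0) (nat_lit 1669970368) (nat_lit 228) (nat_lit 5745087308) (nat_lit 304) (nat_lit 8376237032) (nat_lit 73) (nat_lit 5) (nat_lit 76) (nat_lit 5) (nat_lit 77) (nat_lit 5) (nat_lit 373) (nat_lit 301) (nat_lit 226))) (XT.nd (nat_lit 78) (nat_lit 380) (nat_lit 0) (XT.lf (nat_lit 0) (nat_lit 12958661449) (nat_lit 304) (nat_lit 1758280569) (nat_lit 76) (nat_lit 1390418877) (nat_lit 73) (nat_lit 5) (nat_lit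 77) (nat_lit 5) (nat_lit 74) (nat_lit 5) (nat_lit 374) (nat_lit 301) (nat_lit 225)) (XT.lf (nat_lit 0) (nat_lit 2276189600) (nat_lit 380) (nat_lit 5430080190) (nat_lit 76) (nat_lit 8724963469) (nat_lit 68) (nat_lit 5) (nat_lit 73) (nat_lit 5) (nat_lit 69) (nat_lit 5) (nat_lit 375) (nat_lit 301) (nat_lit 224)))) (XT.nd (nat_lit 156) (nat_lit 532) (nat_lit 0) (XT.nd (nat_lit 78) (nat_lit 228) (nat_lit 0) (XT.lf (nat_lit 0) (nat_lit 7414182823) (nat_lit 228) (nat_lit 427181046) (nat_lit 304) (nat_lit 8922646424) (nat_lit 65) (nat_lit 5) (nat_lit 68) (nat_lit 5) (nat_lit 69) (nat_lit 5) (nat_lit 376) (nat_lit 301) (nat_lit 223)) (XT.lf (nat_lit 0) (nat_lit 3548090853) (nat_lit 228) (nat_lit 10091919939) (nat_lit 304) (nat_lit 3465440270) (nat_lit 62) (nat_lit 5) (nat_lit 65) (nat_lit 5) (nat_lit 66) (nat_lit 5) (nat_lit 377) (nat_lit 301) (nat_lit 222))) (XT.nd (nat_lit 78) (nat_lit 456) (nat_lit 0) (XT.lf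 (nat_lit 0) (nat_lit 2154854098) (nat_lit 304) (nat_lit 576055842) (nat_lit 76) (nat_lit 14725402642) (nat_lit 61) (nat_lit 5) (nat_lit 65) (nat_lit 5) (nat_lit 62) (nat_lit 5) (nat_lit 378) (nat_lit 301) (nat_lit 221)) (XT.nd (nat_lit 78) (nat_lit 228) (nat_lit 0) (XT.lf (nat_lit 0) (nat_lit 7974748793) (nat_lit 304) (nat_lit 4969947445) (nat_lit 76) (nat_lit 4870994069) (nat_lit 58) (nat_lit 5) (nat_lit 62) (nat_lit 5) (nat_lit 59) (nat_lit 5) (nat_lit 379) (nat_lit 301) (nat_lit 220)) (XT.lf (nat_lit 0) (nat_lit 8524239517) (nat_lit 228) (nat_lit 5485233530) (nat_lit 304) (nat_lit 4175581327) (nat_lit 55) (nat_lit 5) (nat_lit 58) (nat_lit 5) (nat_lit 59) (nat_lit 5) (nat_lit 380) (nat_lit 301) (nat_lit 219)))))) (XT.nd (nat_lit 40794) (nat_lit 0) (nat_lit 44536) (XT.nd (nat_lit 156) (nat_lit 456) (nat_lit 0) (XT.nd (nat_lit 78) (nat_lit 0) (nat_lit 0) (XT.lf (nat_lit 0) (nat_lit 1674945152) (nat_lit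 304) (nat_lit 14673821667) (nat_lit 76) (nat_lit 2215786758) (nat_lit 51) (nat_lit 5) (nat_lit 55) (nat_lit 5) (nat_lit 52) (nat_lit 5) (nat_lit 381) (nat_lit 301) (nat_lit 218)) (XT.lf (nat_lit 0) (nat_lit 7710826818) (nat_lit 304) (nat_lit 1098768882) (nat_lit 76) (nat_lit 10143967592) (nat_lit 51) (nat_lit 5) (nat_lit 55) (nat_lit 5) (nat_lit 52) (nat_lit 5) (nat_lit 382) (nat_lit 301) (nat_lit 217))) (XT.nd (nat_lit 78) (nat_lit 228) (nat_lit 0) (XT.lf (nat_lit 0) (nat_lit 12995070529) (nat_lit 228) (nat_lit 981810649) (nat_lit 304) (nat_lit 5376388868) (nat_lit 48) (nat_lit 5) (nat_lit 51) (nat_lit 5) (nat_lit 52) (nat_lit 5) (nat_lit 383) (nat_lit 301) (nat_lit 216)) (XT.nd (nat_lit 40482) (nat_lit 0) (nat_lit 45676) (XT.lf (nat_lit 0) (nat_lit 726733791) (nat_lit 228) (nat_lit 12009181023) (nat_lit 76) (nat_lit 7027584595) (nat_lit 45) (nat_lit 5) (nat_lit 48) (nat_lit 5) (nat_lit 46) (nat_lit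 5) (nat_lit 384) (nat_lit 301) (nat_lit 215)) (XT.lf (nat_lit 0) (nat_lit 1132192379) (nat_lit 0) (nat_lit 1132192379) (nat_lit 228) (nat_lit 965415247) (nat_lit 646) (nat_lit 5) (nat_lit 646) (nat_lit 3) (nat_lit 649) (nat_lit 3) (nat_lit 302) (nat_lit 302) (nat_lit 296))))) (XT.nd (nat_lit 156) (nat_lit 760) (nat_lit 0) (XT.nd (nat_lit 78) (nat_lit 0) (nat_lit 0) (XT.lf (nat_lit 76) (nat_lit 390301979) (nat_lit 0) (nat_lit 1807280696) (nat_lit 380) (nat_lit 4272248161) (nat_lit 642) (nat_lit 5) (nat_lit 641) (nat_lit 3) (nat_lit 646) (nat_lit 5) (nat_lit 303) (nat_lit 302) (nat_lit 295)) (XT.lf (nat_lit 76) (nat_lit 5074362811) (nat_lit 0) (nat_lit 1216055722) (nat_lit 380) (nat_lit 192525940) (nat_lit 642) (nat_lit 5) (nat_lit 641) (nat_lit 3) (nat_lit 646) (nat_lit 5) (nat_lit 304) (nat_lit 302) (nat_lit 294))) (XT.nd (nat_lit 78) (nat_lit 380) (nat_lit 0) (XT.lf (nat_lit 76) (nat_lit 3337030791)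 (nat_lit 0) (nat_lit 483456538) (nat_lit 456) (nat_lit 2678332965) (nat_lit 637) (nat_lit 5) (nat_lit 636) (nat_lit 5) (nat_lit 642) (nat_lit 5) (nat_lit 305) (nat_lit 302) (nat_lit 293)) (XT.nd (nat_lit 78) (nat_lit 0) (nat_lit 0) (XT.lf (nat_lit 0) (nat_lit 1284811959) (nat_lit 456) (nat_lit 4863931978) (nat_lit 532) (nat_lit 369017622) (nat_lit 631) (nat_lit 5) (nat_lit 637) (nat_lit 5) (nat_lit 638) (nat_lit 5) (nat_lit 306) (nat_lit 302) (nat_lit 292)) (XT.lf (nat_lit 76) (nat_lit 12921274) (nat_lit 0) (nat_lit 5191786954) (nat_lit 532) (nat_lit 1334870931) (nat_lit 632) (nat_lit 5) (nat_lit 631) (nat_lit 5) (nat_lit 638) (nat_lit 5) (nat_lit 307) (nat_lit 302) (nat_lit 291))))))) (XT.nd (nat_lit 780) (nat_lit 11932) (nat_lit 0) (XT.nd (nat_lit 390) (nat_lit 3344) (nat_lit 0) (XT.nd (nat_lit 156) (nat_lit 1292) (nat_lit 0) (XT.nd (nat_lit 78) (nat_lit 0) (nat_lit 0) (XT.lf (nat_lit 0) (nat_lit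 2530058535) (nat_lit 532) (nat_lit 1563377094) (nat_lit 608) (nat_lit 2470706436) (nat_lit 624) (nat_lit 5) (nat_lit 631) (nat_lit 5) (nat_lit 632) (nat_lit 5) (nat_lit 308) (nat_lit 302) (nat_lit 290)) (XT.lf (nat_lit 76) (nat_lit 3501306378) (nat_lit 0) (nat_lit 2870525437) (nat_lit 608) (nat_lit 219988852) (nat_lit 625) (nat_lit 5) (nat_lit 624) (nat_lit 5) (nat_lit 632) (nat_lit 5) (nat_lit 309) (nat_lit 302) (nat_lit 289))) (XT.nd (nat_lit 78) (nat_lit 684) (nat_lit 0) (XT.lf (nat_lit 76) (nat_lit 2036650589) (nat_lit 0) (nat_lit 1505913267) (nat_lit 684) (nat_lit 3079760107) (nat_lit 617) (nat_lit 5) (nat_lit 616) (nat_lit 5) (nat_lit 625) (nat_lit 5) (nat_lit 310) (nat_lit 302) (nat_lit 288)) (XT.nd (nat_lit 78) (nat_lit 0) (nat_lit 76) (XT.lf (nat_lit 76) (nat_lit 622522310) (nat_lit 0) (nat_lit 15234173) (nat_lit 760) (nat_lit 6018252072) (nat_lit 608) (nat_lit 5) (nat_lit 607) (nat_lit 5)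 (nat_lit 617) (nat_lit 5) (nat_lit 311) (nat_lit 302) (nat_lit 287)) (XT.lf (nat_lit 0) (nat_lit 4331486597) (nat_lit 684) (nat_lit 758492913) (nat_lit 76) (nat_lit 1602305980) (nat_lit 608) (nat_lit 5) (nat_lit 617) (nat_lit 5) (nat_lit 609) (nat_lit 5) (nat_lit 312) (nat_lit 302) (nat_lit 286))))) (XT.nd (nat_lit 156) (nat_lit 1900) (nat_lit 0) (XT.nd (nat_lit 78) (nat_lit 760) (nat_lit 0) (XT.lf (nat_lit 0) (nat_lit 1286519032) (nat_lit 760) (nat_lit 2089524868) (nat_lit 76) (nat_lit 3355566278) (nat_lit 598) (nat_lit 5) (nat_lit 608) (nat_lit 5) (nat_lit 599) (nat_lit 5) (nat_lit 313) (nat_lit 302) (nat_lit 285)) (XT.lf (nat_lit 0) (nat_lit 3386274563) (nat_lit 760) (nat_lit 1523634571) (nat_lit 836) (nat_lit 1864029319) (nat_lit 588) (nat_lit 5) (nat_lit 598) (nat_lit 5) (nat_lit 599) (nat_lit 5) (nat_lit 314) (nat_lit 302) (nat_lit 284))) (XT.nd (nat_lit 78) (nat_lit 988) (nat_lit 0) (XT.lf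 (nat_lit 0) (nat_lit 1705541601) (nat_lit 912) (nat_lit 4653960003) (nat_lit 76) (nat_lit 459803105) (nat_lit 576) (nat_lit 5) (nat_lit 588) (nat_lit 5) (nat_lit 577) (nat_lit 5) (nat_lit 315) (nat_lit 302) (nat_lit 283)) (XT.nd (nat_lit 78) (nat_lit 76) (nat_lit 0) (XT.lf (nat_lit 0) (nat_lit 968442785) (nat_lit 912) (nat_lit 4305194260) (nat_lit 988) (nat_lit 1593915330) (nat_lit 564) (nat_lit 5) (nat_lit 576) (nat_lit 5) (nat_lit 577) (nat_lit 5) (nat_lit 316) (nat_lit 302) (nat_lit 282)) (XT.lf (nat_lit 0) (nat_lit 1915795064) (nat_lit 988) (nat_lit 194275498) (nat_lit 76) (nat_lit 4808792062) (nat_lit 563) (nat_lit 5) (nat_lit 576) (nat_lit 5) (nat_lit 564) (nat_lit 5) (nat_lit 317) (nat_lit 302) (nat_lit 281)))))) (XT.nd (nat_lit 390) (nat_lit 6080) (nat_lit 0) (XT.nd (nat_lit 156) (nat_lit 3724) (nat_lit 0) (XT.nd (nat_lit 78) (nat_lit 1140) (nat_lit 0) (XT.lf (nat_lit 0) (nat_lit 5430204816)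 (nat_lit 1064) (nat_lit 1314361429) (nat_lit 76) (nat_lit 228608303) (nat_lit 550) (nat_lit 5) (nat_lit 564) (nat_lit 5) (nat_lit 551) (nat_lit 5) (nat_lit 318) (nat_lit 302) (nat_lit 280)) (XT.lf (nat_lit 0) (nat_lit 1925081527) (nat_lit 1140) (nat_lit 2421829853) (nat_lit 76) (nat_lit 2683418717) (nat_lit 535) (nat_lit 5) (nat_lit 550) (nat_lit 5) (nat_lit 536) (nat_lit 5) (nat_lit 319) (nat_lit 302) (nat_lit 279))) (XT.nd (nat_lit 78) (nat_lit 2584) (nat_lit 0) (XT.lf (nat_lit 0) (nat_lit 3588382918) (nat_lit 1140) (nat_lit 1807922839) (nat_lit 1216) (nat_lit 1694375873) (nat_lit 520) (nat_lit 5) (nat_lit 535) (nat_lit 5) (nat_lit 536) (nat_lit 5) (nat_lit 320) (nat_lit 302) (nat_lit 278)) (XT.nd (nat_lit 78) (nat_lit 1292) (nat_lit 0) (XT.lf (nat_lit 0) (nat_lit 1723655022) (nat_lit 1292) (nat_lit 4564738691) (nat_lit 76) (nat_lit 865723078) (nat_lit 503) (nat_lit 5) (nat_lit 520) (nat_lit 5)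 (nat_lit 504) (nat_lit 5) (nat_lit 321) (nat_lit 302) (nat_lit 277)) (XT.lf (nat_lit 0) (nat_lit 1602759576) (nat_lit 1292) (nat_lit 3557395872) (nat_lit 1368) (nat_lit 2060377161) (nat_lit 486) (nat_lit 5) (nat_lit 503) (nat_lit 5) (nat_lit 504) (nat_lit 5) (nat_lit 322) (nat_lit 302) (nat_lit 276))))) (XT.nd (nat_lit 156) (nat_lit 4636) (nat_lit 0) (XT.nd (nat_lit 78) (nat_lit 0) (nat_lit 0) (XT.lf (nat_lit 0) (nat_lit 640974382) (nat_lit 1368) (nat_lit 680864065) (nat_lit 1444) (nat_lit 5968405314) (nat_lit 467) (nat_lit 5) (nat_lit 485) (nat_lit 5) (nat_lit 486) (nat_lit 5) (nat_lit 323) (nat_lit 302) (nat_lit 275)) (XT.lf (nat_lit 0) (nat_lit 4727689486) (nat_lit 1444) (nat_lit 314092218) (nat_lit 76) (nat_lit 2321063389) (nat_lit 467) (nat_lit 5) (nat_lit 486) (nat_lit 5) (nat_lit 468) (nat_lit 5) (nat_lit 324) (nat_lit 302) (nat_lit 274))) (XT.nd (nat_lit 78) (nat_lit 3116) (nat_lit 0) (XT.lf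 (nat_lit 0) (nat_lit 731878455) (nat_lit 1520) (nat_lit 1241457105) (nat_lit 76) (nat_lit 5465371058) (nat_lit 447) (nat_lit 5) (nat_lit 467) (nat_lit 5) (nat_lit 448) (nat_lit 5) (nat_lit 325) (nat_lit 302) (nat_lit 273)) (XT.nd (nat_lit 78) (nat_lit 1596) (nat_lit 0) (XT.lf (nat_lit 0) (nat_lit 4110931860) (nat_lit 1596) (nat_lit 2167629611) (nat_lit 76) (nat_lit 1239066762) (nat_lit 427) (nat_lit 5) (nat_lit 448) (nat_lit 5) (nat_lit 428) (nat_lit 5) (nat_lit 326) (nat_lit 302) (nat_lit 272)) (XT.lf (nat_lit 0) (nat_lit 4517001070) (nat_lit 1596) (nat_lit 3029266793) (nat_lit 1672) (nat_lit 53618212) (nat_lit 406) (nat_lit 5) (nat_lit 427) (nat_lit 5) (nat_lit 428) (nat_lit 5) (nat_lit 327) (nat_lit 302) (nat_lit 271))))))))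
noncomputable def xc54 : XT := (XT.nd (nat_lit 1482) (nat_lit 8132) (nat_lit 0) (XT.nd (nat_lit 702) (nat_lit 6232) (nat_lit 0) (XT.nd (nat_lit 312) (nat_lit 3344) (nat_lit 0) (XT.nd (nat_lit 156) (nat_lit 1900) (nat_lit 0) (XT.nd (nat_lit 78) (nat_lit 1748) (nat_lit 0) (XT.lf (nat_lit 0) (nat_lit 3302183656) (nat_lit 1748) (nat_lit 4000502822) (nat_lit 76) (nat_lit 382612777) (nat_lit 383) (nat_lit 5) (nat_lit 406) (nat_lit 5) (nat_lit 384) (nat_lit 5) (nat_lit 328) (nat_lit 302) (nat_lit 270)) (XT.lf (nat_lit 0) (nat_lit 2854631824) (nat_lit 1748) (nat_lit 3870853803) (nat_lit 1824) (nat_lit 1048492757) (nat_lit 360) (nat_lit 5) (nat_lit 383) (nat_lit 5) (nat_lit 384) (nat_lit 5) (nat_lit 329) (nat_lit 302) (nat_lit 269))) (XT.nd (nat_lit 78) (nat_lit 912) (nat_lit 0) (XT.lf (nat_lit 0) (nat_lit 2029592652) (nat_lit 912) (nat_lit 274952269) (nat_lit 988) (nat_lit 5561528447) (nat_lit 347) (nat_lit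 5) (nat_lit 359) (nat_lit 5) (nat_lit 360) (nat_lit 5) (nat_lit 330) (nat_lit 302) (nat_lit 268)) (XT.lf (nat_lit 0) (nat_lit 1193020932) (nat_lit 912) (nat_lit 4525870644) (nat_lit 988) (nat_lit 2242458807) (nat_lit 335) (nat_lit 5) (nat_lit 347) (nat_lit 5) (nat_lit 348) (nat_lit 5) (nat_lit 331) (nat_lit 302) (nat_lit 267)))) (XT.nd (nat_lit 156) (nat_lit 2432) (nat_lit 0) (XT.nd (nat_lit 78) (nat_lit 0) (nat_lit 0) (XT.lf (nat_lit 0) (nat_lit 362619329) (nat_lit 836) (nat_lit 754857679) (nat_lit 912) (nat_lit 6942775870) (nat_lit 323) (nat_lit 5) (nat_lit 334) (nat_lit 5) (nat_lit 335) (nat_lit 5) (nat_lit 332) (nat_lit 302) (nat_lit 266)) (XT.lf (nat_lit 0) (nat_lit 4529103564) (nat_lit 912) (nat_lit 484028210) (nat_lit 76) (nat_lit 3149119761) (nat_lit 323) (nat_lit 5) (nat_lit 335) (nat_lit 5) (nat_lit 324) (nat_lit 5) (nat_lit 333) (nat_lit 302) (nat_lit 265))) (XT.nd (nat_lit 78) (nat_lit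 1596) (nat_lit 0) (XT.lf (nat_lit 0) (nat_lit 6947247610) (nat_lit 836) (nat_lit 1063169736) (nat_lit 912) (nat_lit 257597218) (nat_lit 312) (nat_lit 5) (nat_lit 323) (nat_lit 5) (nat_lit 324) (nat_lit 5) (nat_lit 334) (nat_lit 302) (nat_lit 264)) (XT.nd (nat_lit 78) (nat_lit 760) (nat_lit 0) (XT.lf (nat_lit 0) (nat_lit 3158991246) (nat_lit 836) (nat_lit 2190133150) (nat_lit 76) (nat_lit 3027816944) (nat_lit 301) (nat_lit 5) (nat_lit 312) (nat_lit 5) (nat_lit 302) (nat_lit 5) (nat_lit 335) (nat_lit 302) (nat_lit 263)) (XT.lf (nat_lit 0) (nat_lit 5426199261) (nat_lit 760) (nat_lit 1220029336) (nat_lit 836) (nat_lit 1843487546) (nat_lit 291) (nat_lit 5) (nat_lit 301) (nat_lit 5) (nat_lit 302) (nat_lit 5) (nat_lit 336) (nat_lit 302) (nat_lit 262)))))) (XT.nd (nat_lit 390) (nat_lit 2584) (nat_lit 0) (XT.nd (nat_lit 156) (nat_lit 2052) (nat_lit 0) (XT.nd (nat_lit 78) (nat_lit 760) (nat_lit 0) (XT.lf (nat_lit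 0) (nat_lit 1597528507) (nat_lit 836) (nat_lit 3965053030) (nat_lit 76) (nat_lit 3043391198) (nat_lit 280) (nat_lit 5) (nat_lit 291) (nat_lit 5) (nat_lit 281) (nat_lit 5) (nat_lit 337) (nat_lit 302) (nat_lit 261)) (XT.lf (nat_lit 0) (nat_lit 3838149496) (nat_lit 760) (nat_lit 1255903287) (nat_lit 836) (nat_lit 3631917772) (nat_lit 270) (nat_lit 5) (nat_lit 280) (nat_lit 5) (nat_lit 281) (nat_lit 5) (nat_lit 338) (nat_lit 302) (nat_lit 260))) (XT.nd (nat_lit 78) (nat_lit 1368) (nat_lit 0) (XT.lf (nat_lit 0) (nat_lit 3014601443) (nat_lit 684) (nat_lit 5672984755) (nat_lit 760) (nat_lit 162182279) (nat_lit 261) (nat_lit 5) (nat_lit 270) (nat_lit 5) (nat_lit 271) (nat_lit 5) (nat_lit 339) (nat_lit 302) (nat_lit 259)) (XT.nd (nat_lit 78) (nat_lit 608) (nat_lit 0) (XT.lf (nat_lit 0) (nat_lit 2157459654) (nat_lit 684) (nat_lit 1191156003) (nat_lit 760) (nat_lit 5628627765) (nat_lit 251) (nat_lit 5) (nat_lit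 260) (nat_lit 5) (nat_lit 261) (nat_lit 5) (nat_lit 340) (nat_lit 302) (nat_lit 258)) (XT.lf (nat_lit 0) (nat_lit 1270565922) (nat_lit 608) (nat_lit 5689786237) (nat_lit 684) (nat_lit 2148251869) (nat_lit 243) (nat_lit 5) (nat_lit 251) (nat_lit 5) (nat_lit 252) (nat_lit 5) (nat_lit 341) (nat_lit 302) (nat_lit 257))))) (XT.nd (nat_lit 156) (nat_lit 1824) (nat_lit 0) (XT.nd (nat_lit 78) (nat_lit 0) (nat_lit 0) (XT.lf (nat_lit 0) (nat_lit 356963313) (nat_lit 684) (nat_lit 1046113481) (nat_lit 760) (nat_lit 7840971809) (nat_lit 233) (nat_lit 5) (nat_lit 242) (nat_lit 5) (nat_lit 243) (nat_lit 5) (nat_lit 342) (nat_lit 302) (nat_lit 256)) (XT.lf (nat_lit 0) (nat_lit 5039691156) (nat_lit 760) (nat_lit 600471757) (nat_lit 76) (nat_lit 3742987199) (nat_lit 233) (nat_lit 5) (nat_lit 243) (nat_lit 5) (nat_lit 234) (nat_lit 5) (nat_lit 343) (nat_lit 302) (nat_lit 255))) (XT.nd (nat_lit 78) (nat_lit 1216) (nat_lit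 0) (XT.lf (nat_lit 0) (nat_lit 7950364042) (nat_lit 608) (nat_lit 825731261) (nat_lit 684) (nat_lit 750550720) (nat_lit 225) (nat_lit 5) (nat_lit 233) (nat_lit 5) (nat_lit 234) (nat_lit 5) (nat_lit 344) (nat_lit 302) (nat_lit 254)) (XT.nd (nat_lit 78) (nat_lit 532) (nat_lit 0) (XT.lf (nat_lit 0) (nat_lit 2921803562) (nat_lit 684) (nat_lit 2617577839) (nat_lit 76) (nat_lit 4134508805) (nat_lit 216) (nat_lit 5) (nat_lit 225) (nat_lit 5) (nat_lit 217) (nat_lit 5) (nat_lit 345) (nat_lit 302) (nat_lit 253)) (XT.lf (nat_lit 0) (nat_lit 6132763029) (nat_lit 532) (nat_lit 551915206) (nat_lit 608) (nat_lit 3140995835) (nat_lit 209) (nat_lit 5) (nat_lit 216) (nat_lit 5) (nat_lit 217) (nat_lit 5) (nat_lit 346) (nat_lit 302) (nat_lit 252))))))) (XT.nd (nat_lit 780) (nat_lit 3268) (nat_lit 0) (XT.nd (nat_lit 390) (nat_lit 1976) (nat_lit 0) (XT.nd (nat_lit 156) (nat_lit 1672) (nat_lit 0) (XT.nd (nat_lit 78) (nat_lit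 532) (nat_lit 0) (XT.lf (nat_lit 0) (nat_lit 587712851) (nat_lit 684) (nat_lit 4829123373) (nat_lit 76) (nat_lit 4564793637) (nat_lit 200) (nat_lit 5) (nat_lit 209) (nat_lit 5) (nat_lit 201) (nat_lit 5) (nat_lit 347) (nat_lit 302) (nat_lit 251)) (XT.lf (nat_lit 0) (nat_lit 4120618165) (nat_lit 532) (nat_lit 257464142) (nat_lit 608) (nat_lit 5763947358) (nat_lit 193) (nat_lit 5) (nat_lit 200) (nat_lit 5) (nat_lit 201) (nat_lit 5) (nat_lit 348) (nat_lit 302) (nat_lit 250))) (XT.nd (nat_lit 78) (nat_lit 1140) (nat_lit 0) (XT.lf (nat_lit 0) (nat_lit 3024500644) (nat_lit 532) (nat_lit 5280886036) (nat_lit 608) (nat_lit 2001419478) (nat_lit 186) (nat_lit 5) (nat_lit 193) (nat_lit 5) (nat_lit 194) (nat_lit 5) (nat_lit 349) (nat_lit 302) (nat_lit 249)) (XT.nd (nat_lit 78) (nat_lit 532) (nat_lit 0) (XT.lf (nat_lit 0) (nat_lit 1843314993) (nat_lit 608) (nat_lit 8597705511) (nat_lit 76) (nat_lit 35411697) (nat_lit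 178) (nat_lit 5) (nat_lit 186) (nat_lit 5) (nat_lit 179) (nat_lit 5) (nat_lit 350) (nat_lit 302) (nat_lit 248)) (XT.lf (nat_lit 0) (nat_lit 643696423) (nat_lit 532) (nat_lit 5161662112) (nat_lit 608) (nat_lit 4844967693) (nat_lit 171) (nat_lit 5) (nat_lit 178) (nat_lit 5) (nat_lit 179) (nat_lit 5) (nat_lit 351) (nat_lit 302) (nat_lit 247))))) (XT.nd (nat_lit 156) (nat_lit 1444) (nat_lit 0) (XT.nd (nat_lit 78) (nat_lit 532) (nat_lit 0) (XT.lf (nat_lit 0) (nat_lit 9887652164) (nat_lit 608) (nat_lit 630035240) (nat_lit 76) (nat_lit 311748067) (nat_lit 171) (nat_lit 5) (nat_lit 179) (nat_lit 5) (nat_lit 172) (nat_lit 5) (nat_lit 352) (nat_lit 302) (nat_lit 246)) (XT.lf (nat_lit 0) (nat_lit 3074180018) (nat_lit 532) (nat_lit 1998916397) (nat_lit 76) (nat_lit 5939725568) (nat_lit 164) (nat_lit 5) (nat_lit 171) (nat_lit 5) (nat_lit 165) (nat_lit 5) (nat_lit 353) (nat_lit 302) (nat_lit 245))) (XT.nd (nat_lit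 78) (nat_lit 988) (nat_lit 0) (XT.lf (nat_lit 0) (nat_lit 7199859691) (nat_lit 532) (nat_lit 3432423078) (nat_lit 76) (nat_lit 569286351) (nat_lit 158) (nat_lit 5) (nat_lit 165) (nat_lit 5) (nat_lit 159) (nat_lit 5) (nat_lit 354) (nat_lit 302) (nat_lit 244)) (XT.nd (nat_lit 78) (nat_lit 456) (nat_lit 0) (XT.lf (nat_lit 0) (nat_lit 86653446) (nat_lit 532) (nat_lit 4960171106) (nat_lit 76) (nat_lit 6348489780) (nat_lit 151) (nat_lit 5) (nat_lit 158) (nat_lit 5) (nat_lit 152) (nat_lit 5) (nat_lit 355) (nat_lit 302) (nat_lit 243)) (XT.lf (nat_lit 0) (nat_lit 4249792624) (nat_lit 532) (nat_lit 6585248660) (nat_lit 76) (nat_lit 759194082) (nat_lit 145) (nat_lit 5) (nat_lit 152) (nat_lit 5) (nat_lit 146) (nat_lit 5) (nat_lit 356) (nat_lit 302) (nat_lit 242)))))) (XT.nd (nat_lit 390) (nat_lit 1520) (nat_lit 0) (XT.nd (nat_lit 156) (nat_lit 836) (nat_lit 0) (XT.nd (nat_lit 78) (nat_lit 532) (nat_lit 0) (XT.lf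 (nat_lit 0) (nat_lit 3482563807) (nat_lit 380) (nat_lit 5091650430) (nat_lit 456) (nat_lit 3224203729) (nat_lit 140) (nat_lit 5) (nat_lit 145) (nat_lit 5) (nat_lit 146) (nat_lit 5) (nat_lit 357) (nat_lit 302) (nat_lit 241)) (XT.lf (nat_lit 0) (nat_lit 1015910135) (nat_lit 532) (nat_lit 10137039298) (nat_lit 76) (nat_lit 855472053) (nat_lit 133) (nat_lit 5) (nat_lit 140) (nat_lit 5) (nat_lit 134) (nat_lit 5) (nat_lit 358) (nat_lit 302) (nat_lit 240))) (XT.nd (nat_lit 78) (nat_lit 456) (nat_lit 0) (XT.lf (nat_lit 0) (nat_lit 125129250) (nat_lit 380) (nat_lit 5253958104) (nat_lit 456) (nat_lit 6844438287) (nat_lit 128) (nat_lit 5) (nat_lit 133) (nat_lit 5) (nat_lit 134) (nat_lit 5) (nat_lit 359) (nat_lit 302) (nat_lit 239)) (XT.nd (nat_lit 78) (nat_lit 456) (nat_lit 0) (XT.lf (nat_lit 0) (nat_lit 9896365059) (nat_lit 456) (nat_lit 1690252248) (nat_lit 76) (nat_lit 858020978) (nat_lit 128) (nat_lit 5)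 (nat_lit 134) (nat_lit 5) (nat_lit 129) (nat_lit 5) (nat_lit 360) (nat_lit 302) (nat_lit 238)) (XT.lf (nat_lit 0) (nat_lit 1896486864) (nat_lit 456) (nat_lit 3642919634) (nat_lit 76) (nat_lit 7131866151) (nat_lit 122) (nat_lit 5) (nat_lit 128) (nat_lit 5) (nat_lit 123) (nat_lit 5) (nat_lit 361) (nat_lit 302) (nat_lit 237))))) (XT.nd (nat_lit 156) (nat_lit 760) (nat_lit 0) (XT.nd (nat_lit 78) (nat_lit 380) (nat_lit 0) (XT.lf (nat_lit 0) (nat_lit 6454079135) (nat_lit 456) (nat_lit 5716629689) (nat_lit 76) (nat_lit 733396121) (nat_lit 117) (nat_lit 5) (nat_lit 123) (nat_lit 5) (nat_lit 118) (nat_lit 5) (nat_lit 362) (nat_lit 302) (nat_lit 236)) (XT.lf (nat_lit 0) (nat_lit 5208665772) (nat_lit 380) (nat_lit 5987130096) (nat_lit 456) (nat_lit 1947195876) (nat_lit 112) (nat_lit 5) (nat_lit 117) (nat_lit 5) (nat_lit 118) (nat_lit 5) (nat_lit 363) (nat_lit 302) (nat_lit 235))) (XT.nd (nat_lit 78) (nat_lit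 380) (nat_lit 0) (XT.lf (nat_lit 0) (nat_lit 2669713330) (nat_lit 380) (nat_lit 10287786857) (nat_lit 76) (nat_lit 430926514) (nat_lit 107) (nat_lit 5) (nat_lit 112) (nat_lit 5) (nat_lit 108) (nat_lit 5) (nat_lit 364) (nat_lit 302) (nat_lit 234)) (XT.nd (nat_lit 78) (nat_lit 0) (nat_lit 0) (XT.lf (nat_lit 0) (nat_lit 821680168) (nat_lit 380) (nat_lit 6629728859) (nat_lit 456) (nat_lit 6188519724) (nat_lit 102) (nat_lit 5) (nat_lit 107) (nat_lit 5) (nat_lit 108) (nat_lit 5) (nat_lit 365) (nat_lit 302) (nat_lit 233)) (XT.lf (nat_lit 0) (nat_lit 12335609122) (nat_lit 380) (nat_lit 64662092) (nat_lit 456) (nat_lit 1498246010) (nat_lit 102) (nat_lit 5) (nat_lit 107) (nat_lit 5) (nat_lit 108) (nat_lit 5) (nat_lit 366) (nat_lit 302) (nat_lit 232))))))))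
noncomputable def xc55 : XT := (XT.nd (nat_lit 41964) (nat_lit 0) (nat_lit 33212) (XT.nd (nat_lit 702) (nat_lit 1596) (nat_lit 0) (XT.nd (nat_lit 312) (nat_lit 1140) (nat_lit 0) (XT.nd (nat_lit 156) (nat_lit 684) (nat_lit 0) (XT.nd (nat_lit 78) (nat_lit 304) (nat_lit 0) (XT.lf (nat_lit 0) (nat_lit 3353363076) (nat_lit 380) (nat_lit 4135618388) (nat_lit 76) (nat_lit 6674177304) (nat_lit 97) (nat_lit 5) (nat_lit 102) (nat_lit 5) (nat_lit 98) (nat_lit 5) (nat_lit 367) (nat_lit 302) (nat_lit 231)) (XT.lf (nat_lit 0) (nat_lit 7572493518) (nat_lit 304) (nat_lit 773802410) (nat_lit 380) (nat_lit 6088937428) (nat_lit 93) (nat_lit 5) (nat_lit 97) (nat_lit 5) (nat_lit 98) (nat_lit 5) (nat_lit 368) (nat_lit 302) (nat_lit 230))) (XT.nd (nat_lit 78) (nat_lit 380) (nat_lit 0) (XT.lf (nat_lit 0) (nat_lit 4930649496) (nat_lit 304) (nat_lit 8614932687) (nat_lit 380) (nat_lit 1168770754) (nat_lit 89) (nat_lit 5) (nat_lit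 93) (nat_lit 5) (nat_lit 94) (nat_lit 5) (nat_lit 369) (nat_lit 302) (nat_lit 229)) (XT.lf (nat_lit 0) (nat_lit 2100629457) (nat_lit 304) (nat_lit 1769860833) (nat_lit 380) (nat_lit 11130410390) (nat_lit 84) (nat_lit 5) (nat_lit 88) (nat_lit 5) (nat_lit 89) (nat_lit 5) (nat_lit 370) (nat_lit 302) (nat_lit 228)))) (XT.nd (nat_lit 156) (nat_lit 912) (nat_lit 0) (XT.nd (nat_lit 78) (nat_lit 228) (nat_lit 0) (XT.lf (nat_lit 0) (nat_lit 9103832609) (nat_lit 380) (nat_lit 928447256) (nat_lit 76) (nat_lit 5262447825) (nat_lit 84) (nat_lit 5) (nat_lit 89) (nat_lit 5) (nat_lit 85) (nat_lit 5) (nat_lit 371) (nat_lit 302) (nat_lit 227)) (XT.lf (nat_lit 0) (nat_lit 11476550961) (nat_lit 228) (nat_lit 3062876861) (nat_lit 304) (nat_lit 1057049250) (nat_lit 81) (nat_lit 5) (nat_lit 84) (nat_lit 5) (nat_lit 85) (nat_lit 5) (nat_lit 372) (nat_lit 302) (nat_lit 226))) (XT.nd (nat_lit 78) (nat_lit 532) (nat_lit 0)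 (XT.lf (nat_lit 0) (nat_lit 4222609778) (nat_lit 380) (nat_lit 7556039588) (nat_lit 76) (nat_lit 4127146479) (nat_lit 76) (nat_lit 5) (nat_lit 81) (nat_lit 5) (nat_lit 77) (nat_lit 5) (nat_lit 373) (nat_lit 302) (nat_lit 225)) (XT.nd (nat_lit 78) (nat_lit 304) (nat_lit 0) (XT.lf (nat_lit 0) (nat_lit 5000148865) (nat_lit 228) (nat_lit 4687309781) (nat_lit 304) (nat_lit 6535984227) (nat_lit 73) (nat_lit 5) (nat_lit 76) (nat_lit 5) (nat_lit 77) (nat_lit 5) (nat_lit 374) (nat_lit 302) (nat_lit 224)) (XT.lf (nat_lit 0) (nat_lit 1424826059) (nat_lit 304) (nat_lit 13929842324) (nat_lit 380) (nat_lit 1195193939) (nat_lit 69) (nat_lit 5) (nat_lit 73) (nat_lit 5) (nat_lit 74) (nat_lit 5) (nat_lit 375) (nat_lit 302) (nat_lit 223)))))) (XT.nd (nat_lit 390) (nat_lit 760) (nat_lit 0) (XT.nd (nat_lit 156) (nat_lit 532) (nat_lit 0) (XT.nd (nat_lit 78) (nat_lit 228) (nat_lit 0) (XT.lf (nat_lit 0) (nat_lit 4318359377)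 (nat_lit 380) (nat_lit 2401230461) (nat_lit 76) (nat_lit 10164555948) (nat_lit 68) (nat_lit 5) (nat_lit 73) (nat_lit 5) (nat_lit 69) (nat_lit 5) (nat_lit 376) (nat_lit 302) (nat_lit 222)) (XT.lf (nat_lit 0) (nat_lit 10018339034) (nat_lit 304) (nat_lit 6456041264) (nat_lit 76) (nat_lit 753184755) (nat_lit 65) (nat_lit 5) (nat_lit 69) (nat_lit 5) (nat_lit 66) (nat_lit 5) (nat_lit 377) (nat_lit 302) (nat_lit 221))) (XT.nd (nat_lit 78) (nat_lit 304) (nat_lit 0) (XT.lf (nat_lit 0) (nat_lit 6774505269) (nat_lit 228) (nat_lit 9182915197) (nat_lit 304) (nat_lit 1622514539) (nat_lit 62) (nat_lit 5) (nat_lit 65) (nat_lit 5) (nat_lit 66) (nat_lit 5) (nat_lit 378) (nat_lit 302) (nat_lit 220)) (XT.nd (nat_lit 78) (nat_lit 0) (nat_lit 0) (XT.lf (nat_lit 0) (nat_lit 2493747836) (nat_lit 228) (nat_lit 1607336289) (nat_lit 304) (nat_lit 13840795567) (nat_lit 58) (nat_lit 5) (nat_lit 61) (nat_lit 5) (nat_lit 62) (nat_lit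 5) (nat_lit 379) (nat_lit 302) (nat_lit 219)) (XT.lf (nat_lit 0) (nat_lit 10052186115) (nat_lit 304) (nat_lit 2084756477) (nat_lit 76) (nat_lit 6175978236) (nat_lit 58) (nat_lit 5) (nat_lit 62) (nat_lit 5) (nat_lit 59) (nat_lit 5) (nat_lit 380) (nat_lit 302) (nat_lit 218))))) (XT.nd (nat_lit 156) (nat_lit 228) (nat_lit 0) (XT.nd (nat_lit 78) (nat_lit 304) (nat_lit 0) (XT.lf (nat_lit 0) (nat_lit 11765028353) (nat_lit 228) (nat_lit 4468765089) (nat_lit 304) (nat_lit 2460269423) (nat_lit 55) (nat_lit 5) (nat_lit 58) (nat_lit 5) (nat_lit 59) (nat_lit 5) (nat_lit 381) (nat_lit 302) (nat_lit 217)) (XT.lf (nat_lit 0) (nat_lit 3515599762) (nat_lit 304) (nat_lit 12124763367) (nat_lit 76) (nat_lit 3444878784) (nat_lit 51) (nat_lit 5) (nat_lit 55) (nat_lit 5) (nat_lit 52) (nat_lit 5) (nat_lit 382) (nat_lit 302) (nat_lit 216))) (XT.nd (nat_lit 78) (nat_lit 0) (nat_lit 0) (XT.lf (nat_lit 0) (nat_lit 1794003476)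 (nat_lit 228) (nat_lit 7898054507) (nat_lit 304) (nat_lit 9794686754) (nat_lit 48) (nat_lit 5) (nat_lit 51) (nat_lit 5) (nat_lit 52) (nat_lit 5) (nat_lit 383) (nat_lit 302) (nat_lit 215)) (XT.nd (nat_lit 40560) (nat_lit 0) (nat_lit 45068) (XT.lf (nat_lit 0) (nat_lit 16103248546) (nat_lit 304) (nat_lit 3660179368) (nat_lit 76) (nat_lit 135884136) (nat_lit 48) (nat_lit 5) (nat_lit 52) (nat_lit 5) (nat_lit 49) (nat_lit 5) (nat_lit 384) (nat_lit 302) (nat_lit 214)) (XT.lf (nat_lit 0) (nat_lit 3108110423) (nat_lit 380) (nat_lit 66340372) (nat_lit 380) (nat_lit 66340372) (nat_lit 641) (nat_lit 3) (nat_lit 646) (nat_lit 3) (nat_lit 646) (nat_lit 5) (nat_lit 303) (nat_lit 303) (nat_lit 294))))))) (XT.nd (nat_lit 780) (nat_lit 8512) (nat_lit 0) (XT.nd (nat_lit 390) (nat_lit 1976) (nat_lit 0) (XT.nd (nat_lit 156) (nat_lit 532) (nat_lit 0) (XT.nd (nat_lit 78) (nat_lit 456) (nat_lit 0) (XT.lf (nat_lit 0) (nat_lit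 3685534661) (nat_lit 380) (nat_lit 2010839436) (nat_lit 456) (nat_lit 799480967) (nat_lit 636) (nat_lit 5) (nat_lit 641) (nat_lit 3) (nat_lit 642) (nat_lit 5) (nat_lit 304) (nat_lit 303) (nat_lit 293)) (XT.lf (nat_lit 0) (nat_lit 1088296325) (nat_lit 456) (nat_lit 3835355165) (nat_lit 532) (nat_lit 1589584993) (nat_lit 630) (nat_lit 5) (nat_lit 636) (nat_lit 5) (nat_lit 637) (nat_lit 5) (nat_lit 305) (nat_lit 303) (nat_lit 292))) (XT.nd (nat_lit 78) (nat_lit 532) (nat_lit 0) (XT.lf (nat_lit 76) (nat_lit 915430594) (nat_lit 0) (nat_lit 4019382304) (nat_lit 532) (nat_lit 1598719540) (nat_lit 631) (nat_lit 5) (nat_lit 630) (nat_lit 5) (nat_lit 637) (nat_lit 5) (nat_lit 306) (nat_lit 303) (nat_lit 291)) (XT.nd (nat_lit 78) (nat_lit 0) (nat_lit 0) (XT.lf (nat_lit 0) (nat_lit 2189730865) (nat_lit 532) (nat_lit 790454060) (nat_lit 608) (nat_lit 3576524927) (nat_lit 623) (nat_lit 5) (nat_lit 630) (nat_lit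 5) (nat_lit 631) (nat_lit 5) (nat_lit 307) (nat_lit 303) (nat_lit 290)) (XT.lf (nat_lit 76) (nat_lit 4145707736) (nat_lit 0) (nat_lit 1807758861) (nat_lit 608) (nat_lit 629373508) (nat_lit 624) (nat_lit 5) (nat_lit 623) (nat_lit 5) (nat_lit 631) (nat_lit 5) (nat_lit 308) (nat_lit 303) (nat_lit 289))))) (XT.nd (nat_lit 156) (nat_lit 760) (nat_lit 0) (XT.nd (nat_lit 78) (nat_lit 608) (nat_lit 0) (XT.lf (nat_lit 76) (nat_lit 2563096315) (nat_lit 0) (nat_lit 495989697) (nat_lit 684) (nat_lit 3552760214) (nat_lit 616) (nat_lit 5) (nat_lit 615) (nat_lit 5) (nat_lit 624) (nat_lit 5) (nat_lit 309) (nat_lit 303) (nat_lit 288)) (XT.lf (nat_lit 0) (nat_lit 96227496) (nat_lit 684) (nat_lit 5618318843) (nat_lit 760) (nat_lit 929370186) (nat_lit 607) (nat_lit 5) (nat_lit 616) (nat_lit 5) (nat_lit 617) (nat_lit 5) (nat_lit 310) (nat_lit 303) (nat_lit 287))) (XT.nd (nat_lit 78) (nat_lit 760) (nat_lit 0) (XT.lf (nat_lit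 0) (nat_lit 3702984975) (nat_lit 684) (nat_lit 479275173) (nat_lit 760) (nat_lit 2496407292) (nat_lit 607) (nat_lit 5) (nat_lit 616) (nat_lit 5) (nat_lit 617) (nat_lit 5) (nat_lit 311) (nat_lit 303) (nat_lit 286)) (XT.nd (nat_lit 78) (nat_lit 0) (nat_lit 0) (XT.lf (nat_lit 0) (nat_lit 593903563) (nat_lit 760) (nat_lit 1924424360) (nat_lit 836) (nat_lit 4198162488) (nat_lit 597) (nat_lit 5) (nat_lit 607) (nat_lit 5) (nat_lit 608) (nat_lit 5) (nat_lit 312) (nat_lit 303) (nat_lit 285)) (XT.lf (nat_lit 76) (nat_lit 3416313810) (nat_lit 0) (nat_lit 711132853) (nat_lit 836) (nat_lit 2629772551) (nat_lit 598) (nat_lit 5) (nat_lit 597) (nat_lit 5) (nat_lit 608) (nat_lit 5) (nat_lit 313) (nat_lit 303) (nat_lit 284)))))) (XT.nd (nat_lit 390) (nat_lit 4864) (nat_lit 0) (XT.nd (nat_lit 156) (nat_lit 2052) (nat_lit 0) (XT.nd (nat_lit 78) (nat_lit 836) (nat_lit 0) (XT.lf (nat_lit 0) (nat_lit 863666372) (nat_lit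 836) (nat_lit 4725202328) (nat_lit 76) (nat_lit 1212109991) (nat_lit 587) (nat_lit 5) (nat_lit 598) (nat_lit 5) (nat_lit 588) (nat_lit 5) (nat_lit 314) (nat_lit 303) (nat_lit 283)) (XT.lf (nat_lit 0) (nat_lit 759289412) (nat_lit 836) (nat_lit 3576897442) (nat_lit 912) (nat_lit 2511418402) (nat_lit 576) (nat_lit 5) (nat_lit 587) (nat_lit 5) (nat_lit 588) (nat_lit 5) (nat_lit 315) (nat_lit 303) (nat_lit 282))) (XT.nd (nat_lit 78) (nat_lit 1976) (nat_lit 0) (XT.lf (nat_lit 0) (nat_lit 915622021) (nat_lit 912) (nat_lit 512427651) (nat_lit 76) (nat_lit 5469311804) (nat_lit 575) (nat_lit 5) (nat_lit 587) (nat_lit 5) (nat_lit 576) (nat_lit 5) (nat_lit 316) (nat_lit 303) (nat_lit 281)) (XT.nd (nat_lit 78) (nat_lit 1064) (nat_lit 0) (XT.lf (nat_lit 0) (nat_lit 4333971851) (nat_lit 988) (nat_lit 1754726184) (nat_lit 76) (nat_lit 861222312) (nat_lit 563) (nat_lit 5) (nat_lit 576) (nat_lit 5) (nat_lit 564) (nat_lit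 5) (nat_lit 317) (nat_lit 303) (nat_lit 280)) (XT.lf (nat_lit 0) (nat_lit 764437525) (nat_lit 1064) (nat_lit 2972670989) (nat_lit 76) (nat_lit 3268431190) (nat_lit 549) (nat_lit 5) (nat_lit 563) (nat_lit 5) (nat_lit 550) (nat_lit 5) (nat_lit 318) (nat_lit 303) (nat_lit 279))))) (XT.nd (nat_lit 156) (nat_lit 2584) (nat_lit 0) (XT.nd (nat_lit 78) (nat_lit 1216) (nat_lit 0) (XT.lf (nat_lit 0) (nat_lit 2893195884) (nat_lit 1064) (nat_lit 1236524249) (nat_lit 1140) (nat_lit 2934468356) (nat_lit 535) (nat_lit 5) (nat_lit 549) (nat_lit 5) (nat_lit 550) (nat_lit 5) (nat_lit 319) (nat_lit 303) (nat_lit 278)) (XT.lf (nat_lit 0) (nat_lit 396170232) (nat_lit 1216) (nat_lit 5346379162) (nat_lit 76) (nat_lit 1383449365) (nat_lit 519) (nat_lit 5) (nat_lit 535) (nat_lit 5) (nat_lit 520) (nat_lit 5) (nat_lit 320) (nat_lit 303) (nat_lit 277))) (XT.nd (nat_lit 78) (nat_lit 1368) (nat_lit 0) (XT.lf (nat_lit 0) (nat_lit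 673548983) (nat_lit 1216) (nat_lit 3047467919) (nat_lit 1292) (nat_lit 3469655930) (nat_lit 503) (nat_lit 5) (nat_lit 519) (nat_lit 5) (nat_lit 520) (nat_lit 5) (nat_lit 321) (nat_lit 303) (nat_lit 276)) (XT.nd (nat_lit 78) (nat_lit 1368) (nat_lit 0) (XT.lf (nat_lit 0) (nat_lit 6864669447) (nat_lit 1216) (nat_lit 212589475) (nat_lit 1292) (nat_lit 181473429) (nat_lit 503) (nat_lit 5) (nat_lit 519) (nat_lit 5) (nat_lit 520) (nat_lit 5) (nat_lit 322) (nat_lit 303) (nat_lit 275)) (XT.lf (nat_lit 0) (nat_lit 3117363943) (nat_lit 1368) (nat_lit 1460397868) (nat_lit 76) (nat_lit 2751649109) (nat_lit 485) (nat_lit 5) (nat_lit 503) (nat_lit 5) (nat_lit 486) (nat_lit 5) (nat_lit 323) (nat_lit 303) (nat_lit 274))))))))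
noncomputable def xc56 : XT := (XT.nd (nat_lit 1482) (nat_lit 9044) (nat_lit 0) (XT.nd (nat_lit 702) (nat_lit 6992) (nat_lit 0) (XT.nd (nat_lit 312) (nat_lit 5396) (nat_lit 0) (XT.nd (nat_lit 156) (nat_lit 3192) (nat_lit 0) (XT.nd (nat_lit 78) (nat_lit 1520) (nat_lit 0) (XT.lf (nat_lit 0) (nat_lit 4902374133) (nat_lit 1368) (nat_lit 1546584332) (nat_lit 1444) (nat_lit 954574525) (nat_lit 467) (nat_lit 5) (nat_lit 485) (nat_lit 5) (nat_lit 486) (nat_lit 5) (nat_lit 324) (nat_lit 303) (nat_lit 273)) (XT.lf (nat_lit 0) (nat_lit 2317381606) (nat_lit 1520) (nat_lit 3541582783) (nat_lit 76) (nat_lit 1621706529) (nat_lit 447) (nat_lit 5) (nat_lit 467) (nat_lit 5) (nat_lit 448) (nat_lit 5) (nat_lit 325) (nat_lit 303) (nat_lit 272))) (XT.nd (nat_lit 78) (nat_lit 1672) (nat_lit 0) (XT.lf (nat_lit 0) (nat_lit 2986061932) (nat_lit 1520) (nat_lit 2639720576) (nat_lit 1596) (nat_lit 1935255981) (nat_lit 427) (nat_lit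 5) (nat_lit 447) (nat_lit 5) (nat_lit 448) (nat_lit 5) (nat_lit 326) (nat_lit 303) (nat_lit 271)) (XT.lf (nat_lit 0) (nat_lit 1319584020) (nat_lit 1672) (nat_lit 5600448766) (nat_lit 76) (nat_lit 724703621) (nat_lit 405) (nat_lit 5) (nat_lit 427) (nat_lit 5) (nat_lit 406) (nat_lit 5) (nat_lit 327) (nat_lit 303) (nat_lit 270)))) (XT.nd (nat_lit 156) (nat_lit 1900) (nat_lit 0) (XT.nd (nat_lit 78) (nat_lit 1824) (nat_lit 0) (XT.lf (nat_lit 0) (nat_lit 1094144759) (nat_lit 1672) (nat_lit 3515978338) (nat_lit 1748) (nat_lit 3121341128) (nat_lit 383) (nat_lit 5) (nat_lit 405) (nat_lit 5) (nat_lit 406) (nat_lit 5) (nat_lit 328) (nat_lit 303) (nat_lit 269)) (XT.lf (nat_lit 0) (nat_lit 125467717) (nat_lit 1824) (nat_lit 7658896787) (nat_lit 76) (nat_lit 37480435) (nat_lit 359) (nat_lit 5) (nat_lit 383) (nat_lit 5) (nat_lit 360) (nat_lit 5) (nat_lit 329) (nat_lit 303) (nat_lit 268))) (XT.nd (nat_lit 78) (nat_lit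 1900) (nat_lit 0) (XT.lf (nat_lit 0) (nat_lit 3408153130) (nat_lit 1824) (nat_lit 784876700) (nat_lit 76) (nat_lit 3721934067) (nat_lit 359) (nat_lit 5) (nat_lit 383) (nat_lit 5) (nat_lit 360) (nat_lit 5) (nat_lit 330) (nat_lit 303) (nat_lit 267)) (XT.nd (nat_lit 78) (nat_lit 988) (nat_lit 0) (XT.lf (nat_lit 0) (nat_lit 6296161531) (nat_lit 912) (nat_lit 448453929) (nat_lit 988) (nat_lit 1267210422) (nat_lit 347) (nat_lit 5) (nat_lit 359) (nat_lit 5) (nat_lit 360) (nat_lit 5) (nat_lit 331) (nat_lit 303) (nat_lit 266)) (XT.lf (nat_lit 0) (nat_lit 2021561656) (nat_lit 988) (nat_lit 2669279091) (nat_lit 76) (nat_lit 3420954425) (nat_lit 334) (nat_lit 5) (nat_lit 347) (nat_lit 5) (nat_lit 335) (nat_lit 5) (nat_lit 332) (nat_lit 303) (nat_lit 265)))))) (XT.nd (nat_lit 390) (nat_lit 2888) (nat_lit 0) (XT.nd (nat_lit 156) (nat_lit 2356) (nat_lit 0) (XT.nd (nat_lit 78) (nat_lit 912) (nat_lit 0) (XT.lf (nat_lit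 0) (nat_lit 4591048670) (nat_lit 836) (nat_lit 763065562) (nat_lit 912) (nat_lit 2861286289) (nat_lit 323) (nat_lit 5) (nat_lit 334) (nat_lit 5) (nat_lit 335) (nat_lit 5) (nat_lit 333) (nat_lit 303) (nat_lit 264)) (XT.lf (nat_lit 0) (nat_lit 441605841) (nat_lit 912) (nat_lit 4596289189) (nat_lit 76) (nat_lit 3284544020) (nat_lit 311) (nat_lit 5) (nat_lit 323) (nat_lit 5) (nat_lit 312) (nat_lit 5) (nat_lit 334) (nat_lit 303) (nat_lit 263))) (XT.nd (nat_lit 78) (nat_lit 1596) (nat_lit 0) (XT.lf (nat_lit 0) (nat_lit 2845399965) (nat_lit 760) (nat_lit 928676512) (nat_lit 836) (nat_lit 4658893985) (nat_lit 301) (nat_lit 5) (nat_lit 311) (nat_lit 5) (nat_lit 312) (nat_lit 5) (nat_lit 335) (nat_lit 303) (nat_lit 262)) (XT.nd (nat_lit 78) (nat_lit 836) (nat_lit 0) (XT.lf (nat_lit 0) (nat_lit 1948622392) (nat_lit 760) (nat_lit 5245956685) (nat_lit 836) (nat_lit 1352523504) (nat_lit 291) (nat_lit 5) (nat_lit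 301) (nat_lit 5) (nat_lit 302) (nat_lit 5) (nat_lit 336) (nat_lit 303) (nat_lit 261)) (XT.lf (nat_lit 0) (nat_lit 1035211646) (nat_lit 760) (nat_lit 965732711) (nat_lit 836) (nat_lit 6663994776) (nat_lit 280) (nat_lit 5) (nat_lit 290) (nat_lit 5) (nat_lit 291) (nat_lit 5) (nat_lit 337) (nat_lit 303) (nat_lit 260))))) (XT.nd (nat_lit 156) (nat_lit 2052) (nat_lit 0) (XT.nd (nat_lit 78) (nat_lit 76) (nat_lit 0) (XT.lf (nat_lit 0) (nat_lit 90086808) (nat_lit 760) (nat_lit 5340048639) (nat_lit 836) (nat_lit 3356169075) (nat_lit 270) (nat_lit 5) (nat_lit 280) (nat_lit 5) (nat_lit 281) (nat_lit 5) (nat_lit 338) (nat_lit 303) (nat_lit 259)) (XT.lf (nat_lit 0) (nat_lit 35290939) (nat_lit 836) (nat_lit 853376736) (nat_lit 76) (nat_lit 8022975640) (nat_lit 269) (nat_lit 5) (nat_lit 280) (nat_lit 5) (nat_lit 270) (nat_lit 5) (nat_lit 339) (nat_lit 303) (nat_lit 258))) (XT.nd (nat_lit 78) (nat_lit 1368) (nat_lit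 0) (XT.lf (nat_lit 0) (nat_lit 3483125850) (nat_lit 760) (nat_lit 1847777828) (nat_lit 76) (nat_lit 3709429558) (nat_lit 260) (nat_lit 5) (nat_lit 270) (nat_lit 5) (nat_lit 261) (nat_lit 5) (nat_lit 340) (nat_lit 303) (nat_lit 257)) (XT.nd (nat_lit 78) (nat_lit 684) (nat_lit 0) (XT.lf (nat_lit 0) (nat_lit 6316029960) (nat_lit 684) (nat_lit 701354946) (nat_lit 760) (nat_lit 2155877241) (nat_lit 251) (nat_lit 5) (nat_lit 260) (nat_lit 5) (nat_lit 261) (nat_lit 5) (nat_lit 341) (nat_lit 303) (nat_lit 256)) (XT.lf (nat_lit 0) (nat_lit 1335600243) (nat_lit 684) (nat_lit 3914022923) (nat_lit 76) (nat_lit 4060301422) (nat_lit 242) (nat_lit 5) (nat_lit 251) (nat_lit 5) (nat_lit 243) (nat_lit 5) (nat_lit 342) (nat_lit 303) (nat_lit 255))))))) (XT.nd (nat_lit 702) (nat_lit 4180) (nat_lit 0) (XT.nd (nat_lit 312) (nat_lit 2356) (nat_lit 0) (XT.nd (nat_lit 156) (nat_lit 1216) (nat_lit 0) (XT.nd (nat_lit 78) (nat_lit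 608) (nat_lit 0) (XT.lf (nat_lit 0) (nat_lit 4445217933) (nat_lit 684) (nat_lit 443201721) (nat_lit 760) (nat_lit 4562299674) (nat_lit 233) (nat_lit 5) (nat_lit 242) (nat_lit 5) (nat_lit 243) (nat_lit 5) (nat_lit 343) (nat_lit 303) (nat_lit 254)) (XT.lf (nat_lit 0) (nat_lit 3450140180) (nat_lit 608) (nat_lit 5110102329) (nat_lit 684) (nat_lit 1035281184) (nat_lit 225) (nat_lit 5) (nat_lit 233) (nat_lit 5) (nat_lit 234) (nat_lit 5) (nat_lit 344) (nat_lit 303) (nat_lit 253))) (XT.nd (nat_lit 78) (nat_lit 532) (nat_lit 0) (XT.lf (nat_lit 0) (nat_lit 2416732959) (nat_lit 608) (nat_lit 134555156) (nat_lit 684) (nat_lit 7193323136) (nat_lit 216) (nat_lit 5) (nat_lit 224) (nat_lit 5) (nat_lit 225) (nat_lit 5) (nat_lit 345) (nat_lit 303) (nat_lit 252)) (XT.lf (nat_lit 0) (nat_lit 1321408997) (nat_lit 532) (nat_lit 4929265974) (nat_lit 608) (nat_lit 3647005450) (nat_lit 209) (nat_lit 5) (nat_lit 216) (nat_lit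 5) (nat_lit 217) (nat_lit 5) (nat_lit 346) (nat_lit 303) (nat_lit 251)))) (XT.nd (nat_lit 156) (nat_lit 1672) (nat_lit 0) (XT.nd (nat_lit 78) (nat_lit 76) (nat_lit 0) (XT.lf (nat_lit 0) (nat_lit 197699501) (nat_lit 608) (nat_lit 9854153075) (nat_lit 684) (nat_lit 3703555) (nat_lit 201) (nat_lit 5) (nat_lit 209) (nat_lit 5) (nat_lit 210) (nat_lit 5) (nat_lit 347) (nat_lit 303) (nat_lit 250)) (XT.lf (nat_lit 0) (nat_lit 3729636583) (nat_lit 684) (nat_lit 1000698180) (nat_lit 76) (nat_lit 5486777582) (nat_lit 200) (nat_lit 5) (nat_lit 209) (nat_lit 5) (nat_lit 201) (nat_lit 5) (nat_lit 348) (nat_lit 303) (nat_lit 249))) (XT.nd (nat_lit 78) (nat_lit 1140) (nat_lit 0) (XT.lf (nat_lit 0) (nat_lit 7571895133) (nat_lit 608) (nat_lit 2234404173) (nat_lit 76) (nat_lit 577304400) (nat_lit 193) (nat_lit 5) (nat_lit 201) (nat_lit 5) (nat_lit 194) (nat_lit 5) (nat_lit 349) (nat_lit 303) (nat_lit 248)) (XT.nd (nat_lit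 78) (nat_lit 532) (nat_lit 0) (XT.lf (nat_lit 0) (nat_lit 987096527) (nat_lit 608) (nat_lit 3544282225) (nat_lit 76) (nat_lit 6023100625) (nat_lit 185) (nat_lit 5) (nat_lit 193) (nat_lit 5) (nat_lit 186) (nat_lit 5) (nat_lit 350) (nat_lit 303) (nat_lit 247)) (XT.lf (nat_lit 0) (nat_lit 4863293074) (nat_lit 608) (nat_lit 4921974498) (nat_lit 76) (nat_lit 944835664) (nat_lit 178) (nat_lit 5) (nat_lit 186) (nat_lit 5) (nat_lit 179) (nat_lit 5) (nat_lit 351) (nat_lit 303) (nat_lit 246)))))) (XT.nd (nat_lit 390) (nat_lit 2128) (nat_lit 0) (XT.nd (nat_lit 156) (nat_lit 988) (nat_lit 0) (XT.nd (nat_lit 78) (nat_lit 532) (nat_lit 0) (XT.lf (nat_lit 0) (nat_lit 4532850499) (nat_lit 532) (nat_lit 4350123149) (nat_lit 608) (nat_lit 2027503610) (nat_lit 171) (nat_lit 5) (nat_lit 178) (nat_lit 5) (nat_lit 179) (nat_lit 5) (nat_lit 352) (nat_lit 303) (nat_lit 245)) (XT.lf (nat_lit 0) (nat_lit 1908534340) (nat_lit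 532) (nat_lit 7906984892) (nat_lit 76) (nat_lit 1280380732) (nat_lit 164) (nat_lit 5) (nat_lit 171) (nat_lit 5) (nat_lit 165) (nat_lit 5) (nat_lit 353) (nat_lit 303) (nat_lit 244))) (XT.nd (nat_lit 78) (nat_lit 532) (nat_lit 0) (XT.lf (nat_lit 0) (nat_lit 1749156569) (nat_lit 456) (nat_lit 4215155565) (nat_lit 532) (nat_lit 5321744573) (nat_lit 158) (nat_lit 5) (nat_lit 164) (nat_lit 5) (nat_lit 165) (nat_lit 5) (nat_lit 354) (nat_lit 303) (nat_lit 243)) (XT.nd (nat_lit 78) (nat_lit 76) (nat_lit 0) (XT.lf (nat_lit 0) (nat_lit 240746734) (nat_lit 456) (nat_lit 9912691414) (nat_lit 532) (nat_lit 1328269304) (nat_lit 152) (nat_lit 5) (nat_lit 158) (nat_lit 5) (nat_lit 159) (nat_lit 5) (nat_lit 355) (nat_lit 303) (nat_lit 242)) (XT.lf (nat_lit 0) (nat_lit 2788541868) (nat_lit 532) (nat_lit 1360229884) (nat_lit 76) (nat_lit 7533314875) (nat_lit 151) (nat_lit 5) (nat_lit 158) (nat_lit 5) (nat_lit 152) (nat_lit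 5) (nat_lit 356) (nat_lit 303) (nat_lit 241))))) (XT.nd (nat_lit 156) (nat_lit 1292) (nat_lit 0) (XT.nd (nat_lit 78) (nat_lit 380) (nat_lit 0) (XT.lf (nat_lit 0) (nat_lit 7028673517) (nat_lit 532) (nat_lit 3047691063) (nat_lit 76) (nat_lit 1811600824) (nat_lit 145) (nat_lit 5) (nat_lit 152) (nat_lit 5) (nat_lit 146) (nat_lit 5) (nat_lit 357) (nat_lit 303) (nat_lit 240)) (XT.lf (nat_lit 0) (nat_lit 7261557974) (nat_lit 380) (nat_lit 4167902341) (nat_lit 456) (nat_lit 669911661) (nat_lit 140) (nat_lit 5) (nat_lit 145) (nat_lit 5) (nat_lit 146) (nat_lit 5) (nat_lit 358) (nat_lit 303) (nat_lit 239))) (XT.nd (nat_lit 78) (nat_lit 760) (nat_lit 0) (XT.lf (nat_lit 0) (nat_lit 3617187896) (nat_lit 532) (nat_lit 6745832431) (nat_lit 76) (nat_lit 1953249658) (nat_lit 133) (nat_lit 5) (nat_lit 140) (nat_lit 5) (nat_lit 134) (nat_lit 5) (nat_lit 359) (nat_lit 303) (nat_lit 238)) (XT.nd (nat_lit 78) (nat_lit 380)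 (nat_lit 0) (XT.lf (nat_lit 0) (nat_lit 3764249028) (nat_lit 380) (nat_lit 4295736927) (nat_lit 456) (nat_lit 4478895579) (nat_lit 128) (nat_lit 5) (nat_lit 133) (nat_lit 5) (nat_lit 134) (nat_lit 5) (nat_lit 360) (nat_lit 303) (nat_lit 237)) (XT.lf (nat_lit 0) (nat_lit 1855679702) (nat_lit 380) (nat_lit 10802800101) (nat_lit 456) (nat_lit 109261741) (nat_lit 123) (nat_lit 5) (nat_lit 128) (nat_lit 5) (nat_lit 129) (nat_lit 5) (nat_lit 361) (nat_lit 303) (nat_lit 236))))))))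
noncomputable def xc57 : XT := (XT.nd (nat_lit 1482) (nat_lit 760) (nat_lit 0) (XT.nd (nat_lit 702) (nat_lit 2280) (nat_lit 0) (XT.nd (nat_lit 312) (nat_lit 1444) (nat_lit 0) (XT.nd (nat_lit 156) (nat_lit 760) (nat_lit 0) (XT.nd (nat_lit 78) (nat_lit 380) (nat_lit 0) (XT.lf (nat_lit 0) (nat_lit 4374739248) (nat_lit 456) (nat_lit 204796508) (nat_lit 76) (nat_lit 8422561363) (nat_lit 122) (nat_lit 5) (nat_lit 128) (nat_lit 5) (nat_lit 123) (nat_lit 5) (nat_lit 362) (nat_lit 303) (nat_lit 235)) (XT.lf (nat_lit 0) (nat_lit 9028440972) (nat_lit 456) (nat_lit 2357188026) (nat_lit 76) (nat_lit 1857123574) (nat_lit 117) (nat_lit 5) (nat_lit 123) (nat_lit 5) (nat_lit 118) (nat_lit 5) (nat_lit 363) (nat_lit 303) (nat_lit 234))) (XT.nd (nat_lit 78) (nat_lit 304) (nat_lit 0) (XT.lf (nat_lit 0) (nat_lit 370924347) (nat_lit 456) (nat_lit 4653626126) (nat_lit 76) (nat_lit 8465167539) (nat_lit 111) (nat_lit 5) (nat_lit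 117) (nat_lit 5) (nat_lit 112) (nat_lit 5) (nat_lit 364) (nat_lit 303) (nat_lit 233)) (XT.lf (nat_lit 0) (nat_lit 5061407511) (nat_lit 380) (nat_lit 7108141612) (nat_lit 76) (nat_lit 1573502910) (nat_lit 107) (nat_lit 5) (nat_lit 112) (nat_lit 5) (nat_lit 108) (nat_lit 5) (nat_lit 365) (nat_lit 303) (nat_lit 232)))) (XT.nd (nat_lit 156) (nat_lit 684) (nat_lit 0) (XT.nd (nat_lit 78) (nat_lit 380) (nat_lit 0) (XT.lf (nat_lit 0) (nat_lit 4278016244) (nat_lit 380) (nat_lit 5663490378) (nat_lit 456) (nat_lit 4061516638) (nat_lit 102) (nat_lit 5) (nat_lit 107) (nat_lit 5) (nat_lit 108) (nat_lit 5) (nat_lit 366) (nat_lit 303) (nat_lit 231)) (XT.lf (nat_lit 0) (nat_lit 711510079) (nat_lit 380) (nat_lit 12491849946) (nat_lit 76) (nat_lit 1066888766) (nat_lit 97) (nat_lit 5) (nat_lit 102) (nat_lit 5) (nat_lit 98) (nat_lit 5) (nat_lit 367) (nat_lit 303) (nat_lit 230))) (XT.nd (nat_lit 78) (nat_lit 684) (nat_lit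 0) (XT.lf (nat_lit 0) (nat_lit 5634116911) (nat_lit 380) (nat_lit 915510929) (nat_lit 76) (nat_lit 7994108988) (nat_lit 97) (nat_lit 5) (nat_lit 102) (nat_lit 5) (nat_lit 98) (nat_lit 5) (nat_lit 368) (nat_lit 303) (nat_lit 229)) (XT.nd (nat_lit 78) (nat_lit 380) (nat_lit 0) (XT.lf (nat_lit 0) (nat_lit 10737002682) (nat_lit 380) (nat_lit 3737552359) (nat_lit 76) (nat_lit 350236101) (nat_lit 93) (nat_lit 5) (nat_lit 98) (nat_lit 5) (nat_lit 94) (nat_lit 5) (nat_lit 369) (nat_lit 303) (nat_lit 228)) (XT.lf (nat_lit 0) (nat_lit 930800019) (nat_lit 380) (nat_lit 6768644407) (nat_lit 76) (nat_lit 7413459025) (nat_lit 88) (nat_lit 5) (nat_lit 93) (nat_lit 5) (nat_lit 89) (nat_lit 5) (nat_lit 370) (nat_lit 303) (nat_lit 227)))))) (XT.nd (nat_lit 390) (nat_lit 1140) (nat_lit 0) (XT.nd (nat_lit 156) (nat_lit 608) (nat_lit 0) (XT.nd (nat_lit 78) (nat_lit 228) (nat_lit 0) (XT.lf (nat_lit 0) (nat_lit 5410851577)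 (nat_lit 304) (nat_lit 653967873) (nat_lit 380) (nat_lit 9343903681) (nat_lit 84) (nat_lit 5) (nat_lit 88) (nat_lit 5) (nat_lit 89) (nat_lit 5) (nat_lit 371) (nat_lit 303) (nat_lit 226)) (XT.lf (nat_lit 0) (nat_lit 2259564951) (nat_lit 228) (nat_lit 9157105952) (nat_lit 304) (nat_lit 4295482521) (nat_lit 81) (nat_lit 5) (nat_lit 84) (nat_lit 5) (nat_lit 85) (nat_lit 5) (nat_lit 372) (nat_lit 303) (nat_lit 225))) (XT.nd (nat_lit 78) (nat_lit 532) (nat_lit 0) (XT.lf (nat_lit 0) (nat_lit 925691391) (nat_lit 304) (nat_lit 1074743791) (nat_lit 76) (nat_lit 14023482432) (nat_lit 80) (nat_lit 5) (nat_lit 84) (nat_lit 5) (nat_lit 81) (nat_lit 5) (nat_lit 373) (nat_lit 303) (nat_lit 224)) (XT.nd (nat_lit 78) (nat_lit 228) (nat_lit 0) (XT.lf (nat_lit 0) (nat_lit 6318853886) (nat_lit 380) (nat_lit 4639943537) (nat_lit 76) (nat_lit 5384206524) (nat_lit 76) (nat_lit 5) (nat_lit 81) (nat_lit 5) (nat_lit 77) (nat_lit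 5) (nat_lit 374) (nat_lit 303) (nat_lit 223)) (XT.lf (nat_lit 0) (nat_lit 8241942743) (nat_lit 228) (nat_lit 3668413430) (nat_lit 304) (nat_lit 4760586785) (nat_lit 73) (nat_lit 5) (nat_lit 76) (nat_lit 5) (nat_lit 77) (nat_lit 5) (nat_lit 375) (nat_lit 303) (nat_lit 222))))) (XT.nd (nat_lit 156) (nat_lit 532) (nat_lit 0) (XT.nd (nat_lit 78) (nat_lit 228) (nat_lit 0) (XT.lf (nat_lit 0) (nat_lit 701487999) (nat_lit 380) (nat_lit 12472006080) (nat_lit 76) (nat_lit 3834165258) (nat_lit 68) (nat_lit 5) (nat_lit 73) (nat_lit 5) (nat_lit 69) (nat_lit 5) (nat_lit 376) (nat_lit 303) (nat_lit 221)) (XT.lf (nat_lit 0) (nat_lit 542378521) (nat_lit 228) (nat_lit 5769628185) (nat_lit 304) (nat_lit 11040866121) (nat_lit 65) (nat_lit 5) (nat_lit 68) (nat_lit 5) (nat_lit 69) (nat_lit 5) (nat_lit 377) (nat_lit 303) (nat_lit 220))) (XT.nd (nat_lit 78) (nat_lit 532) (nat_lit 0) (XT.lf (nat_lit 0) (nat_lit 12151852723)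 (nat_lit 304) (nat_lit 3660350948) (nat_lit 76) (nat_lit 1895028673) (nat_lit 65) (nat_lit 5) (nat_lit 69) (nat_lit 5) (nat_lit 66) (nat_lit 5) (nat_lit 378) (nat_lit 303) (nat_lit 219)) (XT.nd (nat_lit 78) (nat_lit 228) (nat_lit 0) (XT.lf (nat_lit 0) (nat_lit 161789476) (nat_lit 304) (nat_lit 8153325258) (nat_lit 76) (nat_lit 9755737811) (nat_lit 61) (nat_lit 5) (nat_lit 65) (nat_lit 5) (nat_lit 62) (nat_lit 5) (nat_lit 379) (nat_lit 303) (nat_lit 218)) (XT.lf (nat_lit 0) (nat_lit 5485866802) (nat_lit 228) (nat_lit 515503068) (nat_lit 304) (nat_lit 12442758732) (nat_lit 58) (nat_lit 5) (nat_lit 61) (nat_lit 5) (nat_lit 62) (nat_lit 5) (nat_lit 380) (nat_lit 303) (nat_lit 217))))))) (XT.nd (nat_lit 41262) (nat_lit 0) (nat_lit 38076) (XT.nd (nat_lit 40872) (nat_lit 0) (nat_lit 43092) (XT.nd (nat_lit 156) (nat_lit 532) (nat_lit 0) (XT.nd (nat_lit 78) (nat_lit 0) (nat_lit 0) (XT.lf (nat_lit 0) (nat_lit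 722282458) (nat_lit 228) (nat_lit 11368833730) (nat_lit 304) (nat_lit 6735996026) (nat_lit 55) (nat_lit 5) (nat_lit 58) (nat_lit 5) (nat_lit 59) (nat_lit 5) (nat_lit 381) (nat_lit 303) (nat_lit 216)) (XT.lf (nat_lit 0) (nat_lit 14931686103) (nat_lit 228) (nat_lit 3489598286) (nat_lit 304) (nat_lit 799154945) (nat_lit 55) (nat_lit 5) (nat_lit 58) (nat_lit 5) (nat_lit 59) (nat_lit 5) (nat_lit 382) (nat_lit 303) (nat_lit 215))) (XT.nd (nat_lit 78) (nat_lit 228) (nat_lit 0) (XT.lf (nat_lit 0) (nat_lit 5308697367) (nat_lit 304) (nat_lit 9670829814) (nat_lit 76) (nat_lit 4644104517) (nat_lit 51) (nat_lit 5) (nat_lit 55) (nat_lit 5) (nat_lit 52) (nat_lit 5) (nat_lit 383) (nat_lit 303) (nat_lit 214)) (XT.nd (nat_lit 78) (nat_lit 0) (nat_lit 0) (XT.lf (nat_lit 0) (nat_lit 4619786581) (nat_lit 228) (nat_lit 7019505915) (nat_lit 304) (nat_lit 8398522331) (nat_lit 48) (nat_lit 5) (nat_lit 51) (nat_lit 5) (nat_lit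 52) (nat_lit 5) (nat_lit 384) (nat_lit 303) (nat_lit 213)) (XT.lf (nat_lit 0) (nat_lit 18201603552) (nat_lit 304) (nat_lit 1053234506) (nat_lit 76) (nat_lit 1208757138) (nat_lit 48) (nat_lit 5) (nat_lit 52) (nat_lit 5) (nat_lit 49) (nat_lit 5) (nat_lit 385) (nat_lit 303) (nat_lit 212))))) (XT.nd (nat_lit 156) (nat_lit 1064) (nat_lit 0) (XT.nd (nat_lit 78) (nat_lit 0) (nat_lit 0) (XT.lf (nat_lit 0) (nat_lit 511405791) (nat_lit 532) (nat_lit 1372229238) (nat_lit 532) (nat_lit 1372229238) (nat_lit 629) (nat_lit 3) (nat_lit 636) (nat_lit 3) (nat_lit 636) (nat_lit 5) (nat_lit 304) (nat_lit 304) (nat_lit 292)) (XT.lf (nat_lit 76) (nat_lit 1882919262) (nat_lit 0) (nat_lit 2917008795) (nat_lit 532) (nat_lit 1730582263) (nat_lit 630) (nat_lit 5) (nat_lit 629) (nat_lit 3) (nat_lit 636) (nat_lit 5) (nat_lit 305) (nat_lit 304) (nat_lit 291))) (XT.nd (nat_lit 78) (nat_lit 532) (nat_lit 0) (XT.lf (nat_lit 76) (nat_lit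 45982935) (nat_lit 0) (nat_lit 1937526338) (nat_lit 608) (nat_lit 4568786725) (nat_lit 623) (nat_lit 5) (nat_lit 622) (nat_lit 5) (nat_lit 630) (nat_lit 5) (nat_lit 306) (nat_lit 304) (nat_lit 290)) (XT.nd (nat_lit 78) (nat_lit 532) (nat_lit 0) (XT.lf (nat_lit 76) (nat_lit 4855715645) (nat_lit 0) (nat_lit 817220331) (nat_lit 608) (nat_lit 903957912) (nat_lit 623) (nat_lit 5) (nat_lit 622) (nat_lit 5) (nat_lit 630) (nat_lit 5) (nat_lit 307) (nat_lit 304) (nat_lit 289)) (XT.lf (nat_lit 0) (nat_lit 2715520658) (nat_lit 608) (nat_lit 3453338035) (nat_lit 684) (nat_lit 435480477) (nat_lit 615) (nat_lit 5) (nat_lit 623) (nat_lit 5) (nat_lit 624) (nat_lit 5) (nat_lit 308) (nat_lit 304) (nat_lit 288)))))) (XT.nd (nat_lit 390) (nat_lit 2812) (nat_lit 0) (XT.nd (nat_lit 156) (nat_lit 1520) (nat_lit 0) (XT.nd (nat_lit 78) (nat_lit 684) (nat_lit 0) (XT.lf (nat_lit 76) (nat_lit 1490135454) (nat_lit 0) (nat_lit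 4831154649) (nat_lit 684) (nat_lit 313524048) (nat_lit 616) (nat_lit 5) (nat_lit 615) (nat_lit 5) (nat_lit 624) (nat_lit 5) (nat_lit 309) (nat_lit 304) (nat_lit 287)) (XT.lf (nat_lit 0) (nat_lit 3213921390) (nat_lit 684) (nat_lit 137568383) (nat_lit 760) (nat_lit 3316614123) (nat_lit 606) (nat_lit 5) (nat_lit 615) (nat_lit 5) (nat_lit 616) (nat_lit 5) (nat_lit 310) (nat_lit 304) (nat_lit 286))) (XT.nd (nat_lit 78) (nat_lit 760) (nat_lit 0) (XT.lf (nat_lit 0) (nat_lit 39941463) (nat_lit 760) (nat_lit 1698055323) (nat_lit 836) (nat_lit 4966425526) (nat_lit 596) (nat_lit 5) (nat_lit 606) (nat_lit 5) (nat_lit 607) (nat_lit 5) (nat_lit 311) (nat_lit 304) (nat_lit 285)) (XT.nd (nat_lit 78) (nat_lit 836) (nat_lit 0) (XT.lf (nat_lit 0) (nat_lit 3487902255) (nat_lit 760) (nat_lit 3233346431) (nat_lit 836) (nat_lit 22316588) (nat_lit 597) (nat_lit 5) (nat_lit 607) (nat_lit 5) (nat_lit 608) (nat_lit 5) (nat_lit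 312) (nat_lit 304) (nat_lit 284)) (XT.lf (nat_lit 0) (nat_lit 163255400) (nat_lit 836) (nat_lit 4736226720) (nat_lit 912) (nat_lit 1886248674) (nat_lit 586) (nat_lit 5) (nat_lit 597) (nat_lit 5) (nat_lit 598) (nat_lit 5) (nat_lit 313) (nat_lit 304) (nat_lit 283))))) (XT.nd (nat_lit 156) (nat_lit 1900) (nat_lit 0) (XT.nd (nat_lit 78) (nat_lit 912) (nat_lit 0) (XT.lf (nat_lit 76) (nat_lit 613123577) (nat_lit 0) (nat_lit 2931249080) (nat_lit 912) (nat_lit 3286383057) (nat_lit 587) (nat_lit 5) (nat_lit 586) (nat_lit 5) (nat_lit 598) (nat_lit 5) (nat_lit 314) (nat_lit 304) (nat_lit 282)) (XT.lf (nat_lit 0) (nat_lit 59879436) (nat_lit 912) (nat_lit 769673568) (nat_lit 988) (nat_lit 6049415063) (nat_lit 574) (nat_lit 5) (nat_lit 586) (nat_lit 5) (nat_lit 587) (nat_lit 5) (nat_lit 315) (nat_lit 304) (nat_lit 281))) (XT.nd (nat_lit 78) (nat_lit 1976) (nat_lit 0) (XT.lf (nat_lit 0) (nat_lit 3385858539) (nat_lit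 912) (nat_lit 2133959918) (nat_lit 76) (nat_lit 1409988660) (nat_lit 575) (nat_lit 5) (nat_lit 587) (nat_lit 5) (nat_lit 576) (nat_lit 5) (nat_lit 316) (nat_lit 304) (nat_lit 280)) (XT.nd (nat_lit 78) (nat_lit 1064) (nat_lit 0) (XT.lf (nat_lit 0) (nat_lit 3518550242) (nat_lit 912) (nat_lit 3213107199) (nat_lit 988) (nat_lit 252204687) (nat_lit 563) (nat_lit 5) (nat_lit 575) (nat_lit 5) (nat_lit 576) (nat_lit 5) (nat_lit 317) (nat_lit 304) (nat_lit 279)) (XT.lf (nat_lit 0) (nat_lit 2260665651) (nat_lit 988) (nat_lit 754082345) (nat_lit 1064) (nat_lit 4026118145) (nat_lit 549) (nat_lit 5) (nat_lit 562) (nat_lit 5) (nat_lit 563) (nat_lit 5) (nat_lit 318) (nat_lit 304) (nat_lit 278))))))))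
noncomputable def xc58 : XT := (XT.nd (nat_lit 1482) (nat_lit 10564) (nat_lit 0) (XT.nd (nat_lit 702) (nat_lit 10336) (nat_lit 0) (XT.nd (nat_lit 312) (nat_lit 5776) (nat_lit 0) (XT.nd (nat_lit 156) (nat_lit 2432) (nat_lit 0) (XT.nd (nat_lit 78) (nat_lit 76) (nat_lit 0) (XT.lf (nat_lit 0) (nat_lit 1026529935) (nat_lit 1064) (nat_lit 5282952596) (nat_lit 1140) (nat_lit 791485053) (nat_lit 535) (nat_lit 5) (nat_lit 549) (nat_lit 5) (nat_lit 550) (nat_lit 5) (nat_lit 319) (nat_lit 304) (nat_lit 277)) (XT.lf (nat_lit 0) (nat_lit 2437719854) (nat_lit 1140) (nat_lit 191565227) (nat_lit 76) (nat_lit 4534720751) (nat_lit 534) (nat_lit 5) (nat_lit 549) (nat_lit 5) (nat_lit 535) (nat_lit 5) (nat_lit 320) (nat_lit 304) (nat_lit 276))) (XT.nd (nat_lit 78) (nat_lit 1292) (nat_lit 0) (XT.lf (nat_lit 0) (nat_lit 5688601184) (nat_lit 1216) (nat_lit 1370118207) (nat_lit 76) (nat_lit 171478354) (nat_lit 519) (nat_lit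 5) (nat_lit 535) (nat_lit 5) (nat_lit 520) (nat_lit 5) (nat_lit 321) (nat_lit 304) (nat_lit 275)) (XT.lf (nat_lit 0) (nat_lit 1664221199) (nat_lit 1292) (nat_lit 2547128588) (nat_lit 76) (nat_lit 3087906513) (nat_lit 502) (nat_lit 5) (nat_lit 519) (nat_lit 5) (nat_lit 503) (nat_lit 5) (nat_lit 322) (nat_lit 304) (nat_lit 274)))) (XT.nd (nat_lit 156) (nat_lit 3040) (nat_lit 0) (XT.nd (nat_lit 78) (nat_lit 1444) (nat_lit 0) (XT.lf (nat_lit 0) (nat_lit 3665052792) (nat_lit 1292) (nat_lit 1214176493) (nat_lit 1368) (nat_lit 2492346613) (nat_lit 485) (nat_lit 5) (nat_lit 502) (nat_lit 5) (nat_lit 503) (nat_lit 5) (nat_lit 323) (nat_lit 304) (nat_lit 273)) (XT.lf (nat_lit 0) (nat_lit 684040959) (nat_lit 1444) (nat_lit 4857231593) (nat_lit 76) (nat_lit 1905780960) (nat_lit 466) (nat_lit 5) (nat_lit 485) (nat_lit 5) (nat_lit 467) (nat_lit 5) (nat_lit 324) (nat_lit 304) (nat_lit 272))) (XT.nd (nat_lit 78)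 (nat_lit 1596) (nat_lit 0) (XT.lf (nat_lit 0) (nat_lit 1516315799) (nat_lit 1444) (nat_lit 2353806534) (nat_lit 1520) (nat_lit 3655445163) (nat_lit 447) (nat_lit 5) (nat_lit 466) (nat_lit 5) (nat_lit 467) (nat_lit 5) (nat_lit 325) (nat_lit 304) (nat_lit 271)) (XT.nd (nat_lit 78) (nat_lit 76) (nat_lit 0) (XT.lf (nat_lit 0) (nat_lit 460736660) (nat_lit 1520) (nat_lit 6640381301) (nat_lit 1596) (nat_lit 506397161) (nat_lit 427) (nat_lit 5) (nat_lit 447) (nat_lit 5) (nat_lit 448) (nat_lit 5) (nat_lit 326) (nat_lit 304) (nat_lit 270)) (XT.lf (nat_lit 0) (nat_lit 2666655360) (nat_lit 1596) (nat_lit 598604034) (nat_lit 76) (nat_lit 4427059468) (nat_lit 426) (nat_lit 5) (nat_lit 447) (nat_lit 5) (nat_lit 427) (nat_lit 5) (nat_lit 327) (nat_lit 304) (nat_lit 269)))))) (XT.nd (nat_lit 390) (nat_lit 3344) (nat_lit 0) (XT.nd (nat_lit 156) (nat_lit 3648) (nat_lit 0) (XT.nd (nat_lit 78) (nat_lit 1748) (nat_lit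 0) (XT.lf (nat_lit 0) (nat_lit 5881037205) (nat_lit 1672) (nat_lit 1637580829) (nat_lit 76) (nat_lit 261981315) (nat_lit 405) (nat_lit 5) (nat_lit 427) (nat_lit 5) (nat_lit 406) (nat_lit 5) (nat_lit 328) (nat_lit 304) (nat_lit 268)) (XT.lf (nat_lit 0) (nat_lit 1275892985) (nat_lit 1748) (nat_lit 2689686164) (nat_lit 76) (nat_lit 3906376960) (nat_lit 382) (nat_lit 5) (nat_lit 405) (nat_lit 5) (nat_lit 383) (nat_lit 5) (nat_lit 329) (nat_lit 304) (nat_lit 267))) (XT.nd (nat_lit 78) (nat_lit 1900) (nat_lit 0) (XT.lf (nat_lit 0) (nat_lit 4227037264) (nat_lit 1748) (nat_lit 247429078) (nat_lit 1824) (nat_lit 3492318250) (nat_lit 359) (nat_lit 5) (nat_lit 382) (nat_lit 5) (nat_lit 383) (nat_lit 5) (nat_lit 330) (nat_lit 304) (nat_lit 266)) (XT.nd (nat_lit 78) (nat_lit 988) (nat_lit 0) (XT.lf (nat_lit 0) (nat_lit 3264019015) (nat_lit 912) (nat_lit 4484685565) (nat_lit 988) (nat_lit 316212968) (nat_lit 347)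 (nat_lit 5) (nat_lit 359) (nat_lit 5) (nat_lit 360) (nat_lit 5) (nat_lit 331) (nat_lit 304) (nat_lit 265)) (XT.lf (nat_lit 0) (nat_lit 2293424589) (nat_lit 912) (nat_lit 583281902) (nat_lit 988) (nat_lit 5289749671) (nat_lit 334) (nat_lit 5) (nat_lit 346) (nat_lit 5) (nat_lit 347) (nat_lit 5) (nat_lit 332) (nat_lit 304) (nat_lit 264))))) (XT.nd (nat_lit 156) (nat_lit 1596) (nat_lit 0) (XT.nd (nat_lit 78) (nat_lit 912) (nat_lit 0) (XT.lf (nat_lit 0) (nat_lit 1308814498) (nat_lit 836) (nat_lit 4835998278) (nat_lit 912) (nat_lit 2126562140) (nat_lit 323) (nat_lit 5) (nat_lit 334) (nat_lit 5) (nat_lit 335) (nat_lit 5) (nat_lit 333) (nat_lit 304) (nat_lit 263)) (XT.lf (nat_lit 0) (nat_lit 321142294) (nat_lit 836) (nat_lit 762960793) (nat_lit 912) (nat_lit 7295890068) (nat_lit 311) (nat_lit 5) (nat_lit 322) (nat_lit 5) (nat_lit 323) (nat_lit 5) (nat_lit 334) (nat_lit 304) (nat_lit 262))) (XT.nd (nat_lit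 78) (nat_lit 1596) (nat_lit 0) (XT.lf (nat_lit 0) (nat_lit 4355288582) (nat_lit 912) (nat_lit 688790164) (nat_lit 76) (nat_lit 3447694145) (nat_lit 311) (nat_lit 5) (nat_lit 323) (nat_lit 5) (nat_lit 312) (nat_lit 5) (nat_lit 335) (nat_lit 304) (nat_lit 261)) (XT.nd (nat_lit 78) (nat_lit 836) (nat_lit 0) (XT.lf (nat_lit 0) (nat_lit 6910518055) (nat_lit 760) (nat_lit 789449608) (nat_lit 836) (nat_lit 907475780) (nat_lit 301) (nat_lit 5) (nat_lit 311) (nat_lit 5) (nat_lit 312) (nat_lit 5) (nat_lit 336) (nat_lit 304) (nat_lit 260)) (XT.lf (nat_lit 0) (nat_lit 2380620322) (nat_lit 836) (nat_lit 2743963621) (nat_lit 76) (nat_lit 3601849863) (nat_lit 290) (nat_lit 5) (nat_lit 301) (nat_lit 5) (nat_lit 291) (nat_lit 5) (nat_lit 337) (nat_lit 304) (nat_lit 259))))))) (XT.nd (nat_lit 702) (nat_lit 4940) (nat_lit 0) (XT.nd (nat_lit 312) (nat_lit 2660) (nat_lit 0) (XT.nd (nat_lit 156) (nat_lit 1368) (nat_lit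 0) (XT.nd (nat_lit 78) (nat_lit 836) (nat_lit 0) (XT.lf (nat_lit 0) (nat_lit 5044094262) (nat_lit 760) (nat_lit 688771895) (nat_lit 836) (nat_lit 3116492238) (nat_lit 280) (nat_lit 5) (nat_lit 290) (nat_lit 5) (nat_lit 291) (nat_lit 5) (nat_lit 338) (nat_lit 304) (nat_lit 258)) (XT.lf (nat_lit 0) (nat_lit 207030682) (nat_lit 836) (nat_lit 4898940918) (nat_lit 76) (nat_lit 3870009658) (nat_lit 269) (nat_lit 5) (nat_lit 280) (nat_lit 5) (nat_lit 270) (nat_lit 5) (nat_lit 339) (nat_lit 304) (nat_lit 257))) (XT.nd (nat_lit 78) (nat_lit 684) (nat_lit 0) (XT.lf (nat_lit 0) (nat_lit 3079585195) (nat_lit 684) (nat_lit 489912158) (nat_lit 760) (nat_lit 5536899946) (nat_lit 260) (nat_lit 5) (nat_lit 269) (nat_lit 5) (nat_lit 270) (nat_lit 5) (nat_lit 340) (nat_lit 304) (nat_lit 256)) (XT.lf (nat_lit 0) (nat_lit 2046104430) (nat_lit 684) (nat_lit 4993373467) (nat_lit 760) (nat_lit 2201152092) (nat_lit 251) (nat_lit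 5) (nat_lit 260) (nat_lit 5) (nat_lit 261) (nat_lit 5) (nat_lit 341) (nat_lit 304) (nat_lit 255)))) (XT.nd (nat_lit 156) (nat_lit 1976) (nat_lit 0) (XT.nd (nat_lit 78) (nat_lit 0) (nat_lit 0) (XT.lf (nat_lit 0) (nat_lit 990100926) (nat_lit 608) (nat_lit 212444226) (nat_lit 684) (nat_lit 8176537969) (nat_lit 242) (nat_lit 5) (nat_lit 250) (nat_lit 5) (nat_lit 251) (nat_lit 5) (nat_lit 342) (nat_lit 304) (nat_lit 254)) (XT.lf (nat_lit 0) (nat_lit 4692926915) (nat_lit 684) (nat_lit 124581498) (nat_lit 76) (nat_lit 4703635028) (nat_lit 242) (nat_lit 5) (nat_lit 251) (nat_lit 5) (nat_lit 243) (nat_lit 5) (nat_lit 343) (nat_lit 304) (nat_lit 253))) (XT.nd (nat_lit 78) (nat_lit 1292) (nat_lit 0) (XT.lf (nat_lit 0) (nat_lit 8281584106) (nat_lit 760) (nat_lit 1246511404) (nat_lit 76) (nat_lit 139531947) (nat_lit 233) (nat_lit 5) (nat_lit 243) (nat_lit 5) (nat_lit 234) (nat_lit 5) (nat_lit 344) (nat_lit 304)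 (nat_lit 252)) (XT.nd (nat_lit 78) (nat_lit 608) (nat_lit 0) (XT.lf (nat_lit 0) (nat_lit 2150097469) (nat_lit 684) (nat_lit 2435842752) (nat_lit 76) (nat_lit 5231936468) (nat_lit 224) (nat_lit 5) (nat_lit 233) (nat_lit 5) (nat_lit 225) (nat_lit 5) (nat_lit 345) (nat_lit 304) (nat_lit 251)) (XT.lf (nat_lit 0) (nat_lit 5765410268) (nat_lit 684) (nat_lit 3663141359) (nat_lit 76) (nat_lit 544090811) (nat_lit 216) (nat_lit 5) (nat_lit 225) (nat_lit 5) (nat_lit 217) (nat_lit 5) (nat_lit 346) (nat_lit 304) (nat_lit 250)))))) (XT.nd (nat_lit 390) (nat_lit 2052) (nat_lit 0) (XT.nd (nat_lit 156) (nat_lit 1672) (nat_lit 0) (XT.nd (nat_lit 78) (nat_lit 684) (nat_lit 0) (XT.lf (nat_lit 0) (nat_lit 5181716732) (nat_lit 532) (nat_lit 4328355985) (nat_lit 608) (nat_lit 621590391) (nat_lit 209) (nat_lit 5) (nat_lit 216) (nat_lit 5) (nat_lit 217) (nat_lit 5) (nat_lit 347) (nat_lit 304) (nat_lit 249)) (XT.lf (nat_lit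 0) (nat_lit 3029528907) (nat_lit 684) (nat_lit 6295995820) (nat_lit 76) (nat_lit 969595271) (nat_lit 200) (nat_lit 5) (nat_lit 209) (nat_lit 5) (nat_lit 201) (nat_lit 5) (nat_lit 348) (nat_lit 304) (nat_lit 248))) (XT.nd (nat_lit 78) (nat_lit 1140) (nat_lit 0) (XT.lf (nat_lit 0) (nat_lit 2750570383) (nat_lit 532) (nat_lit 4053759010) (nat_lit 608) (nat_lit 3658644675) (nat_lit 193) (nat_lit 5) (nat_lit 200) (nat_lit 5) (nat_lit 201) (nat_lit 5) (nat_lit 349) (nat_lit 304) (nat_lit 247)) (XT.nd (nat_lit 78) (nat_lit 532) (nat_lit 0) (XT.lf (nat_lit 0) (nat_lit 60197859) (nat_lit 608) (nat_lit 9180272135) (nat_lit 76) (nat_lit 1395324020) (nat_lit 185) (nat_lit 5) (nat_lit 193) (nat_lit 5) (nat_lit 186) (nat_lit 5) (nat_lit 350) (nat_lit 304) (nat_lit 246)) (XT.lf (nat_lit 0) (nat_lit 67025905) (nat_lit 532) (nat_lit 3798193107) (nat_lit 608) (nat_lit 6947634887) (nat_lit 178) (nat_lit 5) (nat_lit 185)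 (nat_lit 5) (nat_lit 186) (nat_lit 5) (nat_lit 351) (nat_lit 304) (nat_lit 245))))) (XT.nd (nat_lit 156) (nat_lit 1444) (nat_lit 0) (XT.nd (nat_lit 78) (nat_lit 608) (nat_lit 0) (XT.lf (nat_lit 0) (nat_lit 7803685816) (nat_lit 608) (nat_lit 1361779856) (nat_lit 76) (nat_lit 1829398676) (nat_lit 178) (nat_lit 5) (nat_lit 186) (nat_lit 5) (nat_lit 179) (nat_lit 5) (nat_lit 352) (nat_lit 304) (nat_lit 244)) (XT.lf (nat_lit 0) (nat_lit 695168378) (nat_lit 608) (nat_lit 2869879366) (nat_lit 76) (nat_lit 7616701042) (nat_lit 170) (nat_lit 5) (nat_lit 178) (nat_lit 5) (nat_lit 171) (nat_lit 5) (nat_lit 353) (nat_lit 304) (nat_lit 243))) (XT.nd (nat_lit 78) (nat_lit 988) (nat_lit 0) (XT.lf (nat_lit 0) (nat_lit 4671178751) (nat_lit 532) (nat_lit 4469340113) (nat_lit 76) (nat_lit 2232993245) (nat_lit 164) (nat_lit 5) (nat_lit 171) (nat_lit 5) (nat_lit 165) (nat_lit 5) (nat_lit 354) (nat_lit 304) (nat_lit 242))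 (XT.nd (nat_lit 78) (nat_lit 532) (nat_lit 0) (XT.lf (nat_lit 0) (nat_lit 5416865446) (nat_lit 456) (nat_lit 3376439210) (nat_lit 532) (nat_lit 2777209103) (nat_lit 158) (nat_lit 5) (nat_lit 164) (nat_lit 5) (nat_lit 165) (nat_lit 5) (nat_lit 355) (nat_lit 304) (nat_lit 241)) (XT.lf (nat_lit 0) (nat_lit 1270494477) (nat_lit 532) (nat_lit 7929747247) (nat_lit 76) (nat_lit 2572611951) (nat_lit 151) (nat_lit 5) (nat_lit 158) (nat_lit 5) (nat_lit 152) (nat_lit 5) (nat_lit 356) (nat_lit 304) (nat_lit 240))))))))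
noncomputable def xc59 : XT := (XT.nd (nat_lit 1482) (nat_lit 2128) (nat_lit 0) (XT.nd (nat_lit 702) (nat_lit 2660) (nat_lit 0) (XT.nd (nat_lit 312) (nat_lit 1672) (nat_lit 0) (XT.nd (nat_lit 156) (nat_lit 532) (nat_lit 0) (XT.nd (nat_lit 78) (nat_lit 380) (nat_lit 0) (XT.lf (nat_lit 0) (nat_lit 2160856215) (nat_lit 456) (nat_lit 3269710218) (nat_lit 532) (nat_lit 6549777290) (nat_lit 145) (nat_lit 5) (nat_lit 151) (nat_lit 5) (nat_lit 152) (nat_lit 5) (nat_lit 357) (nat_lit 304) (nat_lit 239)) (XT.lf (nat_lit 0) (nat_lit 386653405) (nat_lit 380) (nat_lit 9354577374) (nat_lit 456) (nat_lit 2452331746) (nat_lit 140) (nat_lit 5) (nat_lit 145) (nat_lit 5) (nat_lit 146) (nat_lit 5) (nat_lit 358) (nat_lit 304) (nat_lit 238))) (XT.nd (nat_lit 78) (nat_lit 456) (nat_lit 0) (XT.lf (nat_lit 0) (nat_lit 1785106750) (nat_lit 456) (nat_lit 1481151419) (nat_lit 76) (nat_lit 9145903887) (nat_lit 139) (nat_lit 5)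 (nat_lit 145) (nat_lit 5) (nat_lit 140) (nat_lit 5) (nat_lit 359) (nat_lit 304) (nat_lit 237)) (XT.lf (nat_lit 0) (nat_lit 6148929528) (nat_lit 532) (nat_lit 3465015731) (nat_lit 76) (nat_lit 3022416892) (nat_lit 133) (nat_lit 5) (nat_lit 140) (nat_lit 5) (nat_lit 134) (nat_lit 5) (nat_lit 360) (nat_lit 304) (nat_lit 236)))) (XT.nd (nat_lit 156) (nat_lit 836) (nat_lit 0) (XT.nd (nat_lit 78) (nat_lit 456) (nat_lit 0) (XT.lf (nat_lit 0) (nat_lit 7303857526) (nat_lit 380) (nat_lit 3372822891) (nat_lit 456) (nat_lit 2189965381) (nat_lit 128) (nat_lit 5) (nat_lit 133) (nat_lit 5) (nat_lit 134) (nat_lit 5) (nat_lit 361) (nat_lit 304) (nat_lit 235)) (XT.lf (nat_lit 0) (nat_lit 2239769176) (nat_lit 456) (nat_lit 7794604944) (nat_lit 76) (nat_lit 3068536896) (nat_lit 122) (nat_lit 5) (nat_lit 128) (nat_lit 5) (nat_lit 123) (nat_lit 5) (nat_lit 362) (nat_lit 304) (nat_lit 234))) (XT.nd (nat_lit 78) (nat_lit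 456) (nat_lit 0) (XT.lf (nat_lit 0) (nat_lit 3174468145) (nat_lit 380) (nat_lit 3634485969) (nat_lit 456) (nat_lit 6536310803) (nat_lit 117) (nat_lit 5) (nat_lit 122) (nat_lit 5) (nat_lit 123) (nat_lit 5) (nat_lit 363) (nat_lit 304) (nat_lit 233)) (XT.nd (nat_lit 78) (nat_lit 76) (nat_lit 0) (XT.lf (nat_lit 0) (nat_lit 912311584) (nat_lit 380) (nat_lit 10636981227) (nat_lit 456) (nat_lit 2044931044) (nat_lit 112) (nat_lit 5) (nat_lit 117) (nat_lit 5) (nat_lit 118) (nat_lit 5) (nat_lit 364) (nat_lit 304) (nat_lit 232)) (XT.lf (nat_lit 0) (nat_lit 2597371279) (nat_lit 456) (nat_lit 1488769020) (nat_lit 76) (nat_lit 9763190623) (nat_lit 111) (nat_lit 5) (nat_lit 117) (nat_lit 5) (nat_lit 112) (nat_lit 5) (nat_lit 365) (nat_lit 304) (nat_lit 231)))))) (XT.nd (nat_lit 390) (nat_lit 1292) (nat_lit 0) (XT.nd (nat_lit 156) (nat_lit 684) (nat_lit 0) (XT.nd (nat_lit 78) (nat_lit 380) (nat_lit 0) (XT.lf (nat_lit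 0) (nat_lit 7392157061) (nat_lit 380) (nat_lit 4033348485) (nat_lit 76) (nat_lit 2685510147) (nat_lit 107) (nat_lit 5) (nat_lit 112) (nat_lit 5) (nat_lit 108) (nat_lit 5) (nat_lit 366) (nat_lit 304) (nat_lit 230)) (XT.lf (nat_lit 0) (nat_lit 7641049606) (nat_lit 380) (nat_lit 4735147991) (nat_lit 456) (nat_lit 2003459529) (nat_lit 102) (nat_lit 5) (nat_lit 107) (nat_lit 5) (nat_lit 108) (nat_lit 5) (nat_lit 367) (nat_lit 304) (nat_lit 229))) (XT.nd (nat_lit 78) (nat_lit 304) (nat_lit 0) (XT.lf (nat_lit 0) (nat_lit 2849508724) (nat_lit 380) (nat_lit 9619832619) (nat_lit 76) (nat_lit 2185988987) (nat_lit 97) (nat_lit 5) (nat_lit 102) (nat_lit 5) (nat_lit 98) (nat_lit 5) (nat_lit 368) (nat_lit 304) (nat_lit 228)) (XT.nd (nat_lit 78) (nat_lit 0) (nat_lit 0) (XT.lf (nat_lit 0) (nat_lit 2238589878) (nat_lit 304) (nat_lit 5634088195) (nat_lit 380) (nat_lit 7065307428) (nat_lit 93) (nat_lit 5) (nat_lit 97)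 (nat_lit 5) (nat_lit 98) (nat_lit 5) (nat_lit 369) (nat_lit 304) (nat_lit 227)) (XT.lf (nat_lit 0) (nat_lit 13081445343) (nat_lit 380) (nat_lit 714703989) (nat_lit 76) (nat_lit 1432285808) (nat_lit 93) (nat_lit 5) (nat_lit 98) (nat_lit 5) (nat_lit 94) (nat_lit 5) (nat_lit 370) (nat_lit 304) (nat_lit 226))))) (XT.nd (nat_lit 156) (nat_lit 608) (nat_lit 0) (XT.nd (nat_lit 78) (nat_lit 304) (nat_lit 0) (XT.lf (nat_lit 0) (nat_lit 2955939024) (nat_lit 380) (nat_lit 3860426475) (nat_lit 76) (nat_lit 8709359124) (nat_lit 88) (nat_lit 5) (nat_lit 93) (nat_lit 5) (nat_lit 89) (nat_lit 5) (nat_lit 371) (nat_lit 304) (nat_lit 225)) (XT.lf (nat_lit 0) (nat_lit 8208461264) (nat_lit 380) (nat_lit 7200006150) (nat_lit 76) (nat_lit 422679942) (nat_lit 84) (nat_lit 5) (nat_lit 89) (nat_lit 5) (nat_lit 85) (nat_lit 5) (nat_lit 372) (nat_lit 304) (nat_lit 224))) (XT.nd (nat_lit 78) (nat_lit 380) (nat_lit 0) (XT.lf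 (nat_lit 0) (nat_lit 5370592881) (nat_lit 228) (nat_lit 8317143298) (nat_lit 304) (nat_lit 2456624597) (nat_lit 81) (nat_lit 5) (nat_lit 84) (nat_lit 5) (nat_lit 85) (nat_lit 5) (nat_lit 373) (nat_lit 304) (nat_lit 223)) (XT.nd (nat_lit 78) (nat_lit 0) (nat_lit 0) (XT.lf (nat_lit 0) (nat_lit 1898124126) (nat_lit 304) (nat_lit 953016612) (nat_lit 380) (nat_lit 13614983108) (nat_lit 76) (nat_lit 5) (nat_lit 80) (nat_lit 5) (nat_lit 81) (nat_lit 5) (nat_lit 374) (nat_lit 304) (nat_lit 222)) (XT.lf (nat_lit 0) (nat_lit 8364924182) (nat_lit 380) (nat_lit 1816772875) (nat_lit 76) (nat_lit 6613925434) (nat_lit 76) (nat_lit 5) (nat_lit 81) (nat_lit 5) (nat_lit 77) (nat_lit 5) (nat_lit 375) (nat_lit 304) (nat_lit 221))))))) (XT.nd (nat_lit 41340) (nat_lit 0) (nat_lit 40812) (XT.nd (nat_lit 390) (nat_lit 988) (nat_lit 0) (XT.nd (nat_lit 156) (nat_lit 532) (nat_lit 0) (XT.nd (nat_lit 78) (nat_lit 380) (nat_lit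 0) (XT.lf (nat_lit 0) (nat_lit 11403509076) (nat_lit 228) (nat_lit 2685511130) (nat_lit 304) (nat_lit 3045098264) (nat_lit 73) (nat_lit 5) (nat_lit 76) (nat_lit 5) (nat_lit 77) (nat_lit 5) (nat_lit 376) (nat_lit 304) (nat_lit 220)) (XT.lf (nat_lit 0) (nat_lit 2528916199) (nat_lit 380) (nat_lit 9925260918) (nat_lit 76) (nat_lit 5027083939) (nat_lit 68) (nat_lit 5) (nat_lit 73) (nat_lit 5) (nat_lit 69) (nat_lit 5) (nat_lit 377) (nat_lit 304) (nat_lit 219))) (XT.nd (nat_lit 78) (nat_lit 304) (nat_lit 0) (XT.lf (nat_lit 0) (nat_lit 3432167002) (nat_lit 228) (nat_lit 4841627131) (nat_lit 304) (nat_lit 9563730519) (nat_lit 65) (nat_lit 5) (nat_lit 68) (nat_lit 5) (nat_lit 69) (nat_lit 5) (nat_lit 378) (nat_lit 304) (nat_lit 218)) (XT.nd (nat_lit 78) (nat_lit 304) (nat_lit 0) (XT.lf (nat_lit 0) (nat_lit 14244152219) (nat_lit 304) (nat_lit 952392078) (nat_lit 76) (nat_lit 3006878473) (nat_lit 65) (nat_lit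 5) (nat_lit 69) (nat_lit 5) (nat_lit 66) (nat_lit 5) (nat_lit 379) (nat_lit 304) (nat_lit 217)) (XT.lf (nat_lit 0) (nat_lit 1873742317) (nat_lit 304) (nat_lit 5602735181) (nat_lit 76) (nat_lit 11101909692) (nat_lit 61) (nat_lit 5) (nat_lit 65) (nat_lit 5) (nat_lit 62) (nat_lit 5) (nat_lit 380) (nat_lit 304) (nat_lit 216))))) (XT.nd (nat_lit 156) (nat_lit 532) (nat_lit 0) (XT.nd (nat_lit 78) (nat_lit 228) (nat_lit 0) (XT.lf (nat_lit 0) (nat_lit 7860172262) (nat_lit 304) (nat_lit 10566757629) (nat_lit 76) (nat_lit 536511470) (nat_lit 58) (nat_lit 5) (nat_lit 62) (nat_lit 5) (nat_lit 59) (nat_lit 5) (nat_lit 381) (nat_lit 304) (nat_lit 215)) (XT.lf (nat_lit 0) (nat_lit 3475705204) (nat_lit 228) (nat_lit 10629093155) (nat_lit 304) (nat_lit 5253685071) (nat_lit 55) (nat_lit 5) (nat_lit 58) (nat_lit 5) (nat_lit 59) (nat_lit 5) (nat_lit 382) (nat_lit 304) (nat_lit 214))) (XT.nd (nat_lit 78) (nat_lit 456)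 (nat_lit 0) (XT.lf (nat_lit 0) (nat_lit 801549147) (nat_lit 304) (nat_lit 1738032457) (nat_lit 76) (nat_lit 17224897335) (nat_lit 54) (nat_lit 5) (nat_lit 58) (nat_lit 5) (nat_lit 55) (nat_lit 5) (nat_lit 383) (nat_lit 304) (nat_lit 213)) (XT.nd (nat_lit 78) (nat_lit 228) (nat_lit 0) (XT.lf (nat_lit 0) (nat_lit 7058711057) (nat_lit 304) (nat_lit 7305024409) (nat_lit 76) (nat_lit 5816399064) (nat_lit 51) (nat_lit 5) (nat_lit 55) (nat_lit 5) (nat_lit 52) (nat_lit 5) (nat_lit 384) (nat_lit 304) (nat_lit 212)) (XT.lf (nat_lit 0) (nat_lit 7371221164) (nat_lit 228) (nat_lit 6178634568) (nat_lit 304) (nat_lit 7057486178) (nat_lit 48) (nat_lit 5) (nat_lit 51) (nat_lit 5) (nat_lit 52) (nat_lit 5) (nat_lit 385) (nat_lit 304) (nat_lit 211)))))) (XT.nd (nat_lit 390) (nat_lit 1520) (nat_lit 0) (XT.nd (nat_lit 156) (nat_lit 1292) (nat_lit 0) (XT.nd (nat_lit 78) (nat_lit 0) (nat_lit 0) (XT.lf (nat_lit 0) (nat_lit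 479130729) (nat_lit 0) (nat_lit 479130729) (nat_lit 532) (nat_lit 2317133770) (nat_lit 622) (nat_lit 5) (nat_lit 622) (nat_lit 3) (nat_lit 629) (nat_lit 3) (nat_lit 305) (nat_lit 305) (nat_lit 290)) (XT.lf (nat_lit 0) (nat_lit 5530643522) (nat_lit 532) (nat_lit 941781700) (nat_lit 608) (nat_lit 101538624) (nat_lit 622) (nat_lit 5) (nat_lit 629) (nat_lit 3) (nat_lit 630) (nat_lit 5) (nat_lit 306) (nat_lit 305) (nat_lit 289))) (XT.nd (nat_lit 78) (nat_lit 684) (nat_lit 0) (XT.lf (nat_lit 0) (nat_lit 2511438634) (nat_lit 608) (nat_lit 2797822191) (nat_lit 684) (nat_lit 1290537991) (nat_lit 614) (nat_lit 5) (nat_lit 622) (nat_lit 5) (nat_lit 623) (nat_lit 5) (nat_lit 307) (nat_lit 305) (nat_lit 288)) (XT.nd (nat_lit 78) (nat_lit 684) (nat_lit 0) (XT.lf (nat_lit 76) (nat_lit 2020042034) (nat_lit 0) (nat_lit 4021364208) (nat_lit 684) (nat_lit 587335453) (nat_lit 615) (nat_lit 5) (nat_lit 614) (nat_lit 5)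 (nat_lit 623) (nat_lit 5) (nat_lit 308) (nat_lit 305) (nat_lit 287)) (XT.lf (nat_lit 76) (nat_lit 271609896) (nat_lit 0) (nat_lit 2593997203) (nat_lit 760) (nat_lit 3794943756) (nat_lit 606) (nat_lit 5) (nat_lit 605) (nat_lit 5) (nat_lit 615) (nat_lit 5) (nat_lit 309) (nat_lit 305) (nat_lit 286))))) (XT.nd (nat_lit 156) (nat_lit 836) (nat_lit 0) (XT.nd (nat_lit 78) (nat_lit 684) (nat_lit 0) (XT.lf (nat_lit 76) (nat_lit 5283854039) (nat_lit 0) (nat_lit 1030620097) (nat_lit 760) (nat_lit 380872257) (nat_lit 606) (nat_lit 5) (nat_lit 605) (nat_lit 5) (nat_lit 615) (nat_lit 5) (nat_lit 310) (nat_lit 305) (nat_lit 285)) (XT.lf (nat_lit 0) (nat_lit 2994662729) (nat_lit 760) (nat_lit 3067583595) (nat_lit 836) (nat_lit 670639466) (nat_lit 596) (nat_lit 5) (nat_lit 606) (nat_lit 5) (nat_lit 607) (nat_lit 5) (nat_lit 311) (nat_lit 305) (nat_lit 284))) (XT.nd (nat_lit 78) (nat_lit 836) (nat_lit 0) (XT.lf (nat_lit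 76) (nat_lit 2085200045) (nat_lit 0) (nat_lit 4286709036) (nat_lit 836) (nat_lit 401586796) (nat_lit 597) (nat_lit 5) (nat_lit 596) (nat_lit 5) (nat_lit 607) (nat_lit 5) (nat_lit 312) (nat_lit 305) (nat_lit 283)) (XT.nd (nat_lit 78) (nat_lit 0) (nat_lit 0) (XT.lf (nat_lit 76) (nat_lit 531255991) (nat_lit 0) (nat_lit 2366231472) (nat_lit 912) (nat_lit 3919501864) (nat_lit 586) (nat_lit 5) (nat_lit 585) (nat_lit 5) (nat_lit 597) (nat_lit 5) (nat_lit 313) (nat_lit 305) (nat_lit 282)) (XT.lf (nat_lit 76) (nat_lit 5894556479) (nat_lit 0) (nat_lit 308153576) (nat_lit 912) (nat_lit 660870912) (nat_lit 586) (nat_lit 5) (nat_lit 585) (nat_lit 5) (nat_lit 597) (nat_lit 5) (nat_lit 314) (nat_lit 305) (nat_lit 281))))))))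
noncomputable def xc60 : XT := (XT.nd (nat_lit 1482) (nat_lit 11856) (nat_lit 0) (XT.nd (nat_lit 702) (nat_lit 11476) (nat_lit 0) (XT.nd (nat_lit 312) (nat_lit 4864) (nat_lit 0) (XT.nd (nat_lit 156) (nat_lit 1900) (nat_lit 0) (XT.nd (nat_lit 78) (nat_lit 0) (nat_lit 0) (XT.lf (nat_lit 0) (nat_lit 2585025995) (nat_lit 912) (nat_lit 2450813353) (nat_lit 988) (nat_lit 1876978144) (nat_lit 574) (nat_lit 5) (nat_lit 586) (nat_lit 5) (nat_lit 587) (nat_lit 5) (nat_lit 315) (nat_lit 305) (nat_lit 280)) (XT.lf (nat_lit 76) (nat_lit 3064289248) (nat_lit 0) (nat_lit 2770297497) (nat_lit 988) (nat_lit 1130643286) (nat_lit 575) (nat_lit 5) (nat_lit 574) (nat_lit 5) (nat_lit 587) (nat_lit 5) (nat_lit 316) (nat_lit 305) (nat_lit 279))) (XT.nd (nat_lit 78) (nat_lit 912) (nat_lit 0) (XT.lf (nat_lit 76) (nat_lit 1691999731) (nat_lit 0) (nat_lit 358411915) (nat_lit 1064) (nat_lit 4970282634) (nat_lit 562) (nat_lit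 5) (nat_lit 561) (nat_lit 5) (nat_lit 575) (nat_lit 5) (nat_lit 317) (nat_lit 305) (nat_lit 278)) (XT.lf (nat_lit 0) (nat_lit 334881189) (nat_lit 988) (nat_lit 4910962085) (nat_lit 1064) (nat_lit 1833228234) (nat_lit 549) (nat_lit 5) (nat_lit 562) (nat_lit 5) (nat_lit 563) (nat_lit 5) (nat_lit 318) (nat_lit 305) (nat_lit 277)))) (XT.nd (nat_lit 156) (nat_lit 3724) (nat_lit 0) (XT.nd (nat_lit 78) (nat_lit 1064) (nat_lit 0) (XT.lf (nat_lit 0) (nat_lit 1311865998) (nat_lit 1064) (nat_lit 985939353) (nat_lit 76) (nat_lit 4842648496) (nat_lit 548) (nat_lit 5) (nat_lit 562) (nat_lit 5) (nat_lit 549) (nat_lit 5) (nat_lit 319) (nat_lit 305) (nat_lit 276)) (XT.lf (nat_lit 0) (nat_lit 4458162859) (nat_lit 1140) (nat_lit 2285423336) (nat_lit 76) (nat_lit 461292208) (nat_lit 534) (nat_lit 5) (nat_lit 549) (nat_lit 5) (nat_lit 535) (nat_lit 5) (nat_lit 320) (nat_lit 305) (nat_lit 275))) (XT.nd (nat_lit 78) (nat_lit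 2508) (nat_lit 0) (XT.lf (nat_lit 0) (nat_lit 367023143) (nat_lit 1216) (nat_lit 3573139998) (nat_lit 76) (nat_lit 3332191112) (nat_lit 518) (nat_lit 5) (nat_lit 534) (nat_lit 5) (nat_lit 519) (nat_lit 5) (nat_lit 321) (nat_lit 305) (nat_lit 274)) (XT.nd (nat_lit 78) (nat_lit 1292) (nat_lit 0) (XT.lf (nat_lit 0) (nat_lit 2491310840) (nat_lit 1216) (nat_lit 978576801) (nat_lit 1292) (nat_lit 3873015292) (nat_lit 502) (nat_lit 5) (nat_lit 518) (nat_lit 5) (nat_lit 519) (nat_lit 5) (nat_lit 322) (nat_lit 305) (nat_lit 273)) (XT.lf (nat_lit 0) (nat_lit 1298001626) (nat_lit 1292) (nat_lit 5317680013) (nat_lit 1368) (nat_lit 800959746) (nat_lit 485) (nat_lit 5) (nat_lit 502) (nat_lit 5) (nat_lit 503) (nat_lit 5) (nat_lit 323) (nat_lit 305) (nat_lit 272)))))) (XT.nd (nat_lit 390) (nat_lit 5396) (nat_lit 0) (XT.nd (nat_lit 156) (nat_lit 4636) (nat_lit 0) (XT.nd (nat_lit 78) (nat_lit 0) (nat_lit 0) (XT.lf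 (nat_lit 0) (nat_lit 108871109) (nat_lit 1368) (nat_lit 2168953894) (nat_lit 1444) (nat_lit 5215615669) (nat_lit 466) (nat_lit 5) (nat_lit 484) (nat_lit 5) (nat_lit 485) (nat_lit 5) (nat_lit 324) (nat_lit 305) (nat_lit 271)) (XT.lf (nat_lit 0) (nat_lit 5394459439) (nat_lit 1444) (nat_lit 1055143680) (nat_lit 76) (nat_lit 1123772427) (nat_lit 466) (nat_lit 5) (nat_lit 485) (nat_lit 5) (nat_lit 467) (nat_lit 5) (nat_lit 325) (nat_lit 305) (nat_lit 270))) (XT.nd (nat_lit 78) (nat_lit 3116) (nat_lit 0) (XT.lf (nat_lit 0) (nat_lit 896260908) (nat_lit 1520) (nat_lit 2216903247) (nat_lit 76) (nat_lit 4543286400) (nat_lit 446) (nat_lit 5) (nat_lit 466) (nat_lit 5) (nat_lit 447) (nat_lit 5) (nat_lit 326) (nat_lit 305) (nat_lit 269)) (XT.nd (nat_lit 78) (nat_lit 1596) (nat_lit 0) (XT.lf (nat_lit 0) (nat_lit 3984112196) (nat_lit 1596) (nat_lit 3376552687) (nat_lit 76) (nat_lit 382124374) (nat_lit 426) (nat_lit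 5) (nat_lit 447) (nat_lit 5) (nat_lit 427) (nat_lit 5) (nat_lit 327) (nat_lit 305) (nat_lit 268)) (XT.lf (nat_lit 0) (nat_lit 3291895752) (nat_lit 1596) (nat_lit 3843958205) (nat_lit 1672) (nat_lit 696497253) (nat_lit 405) (nat_lit 5) (nat_lit 426) (nat_lit 5) (nat_lit 427) (nat_lit 5) (nat_lit 328) (nat_lit 305) (nat_lit 267))))) (XT.nd (nat_lit 156) (nat_lit 1900) (nat_lit 0) (XT.nd (nat_lit 78) (nat_lit 1748) (nat_lit 0) (XT.lf (nat_lit 0) (nat_lit 2219371439) (nat_lit 1672) (nat_lit 158735639) (nat_lit 1748) (nat_lit 5547173402) (nat_lit 382) (nat_lit 5) (nat_lit 404) (nat_lit 5) (nat_lit 405) (nat_lit 5) (nat_lit 329) (nat_lit 305) (nat_lit 266)) (XT.lf (nat_lit 0) (nat_lit 1133526409) (nat_lit 1748) (nat_lit 4381338147) (nat_lit 1824) (nat_lit 2506507212) (nat_lit 359) (nat_lit 5) (nat_lit 382) (nat_lit 5) (nat_lit 383) (nat_lit 5) (nat_lit 330) (nat_lit 305) (nat_lit 265))) (XT.nd (nat_lit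 78) (nat_lit 912) (nat_lit 0) (XT.lf (nat_lit 0) (nat_lit 55511874) (nat_lit 912) (nat_lit 520717933) (nat_lit 988) (nat_lit 7544904908) (nat_lit 346) (nat_lit 5) (nat_lit 358) (nat_lit 5) (nat_lit 359) (nat_lit 5) (nat_lit 331) (nat_lit 305) (nat_lit 264)) (XT.nd (nat_lit 78) (nat_lit 912) (nat_lit 0) (XT.lf (nat_lit 0) (nat_lit 3707625169) (nat_lit 988) (nat_lit 1037950835) (nat_lit 76) (nat_lit 3478228280) (nat_lit 346) (nat_lit 5) (nat_lit 359) (nat_lit 5) (nat_lit 347) (nat_lit 5) (nat_lit 332) (nat_lit 305) (nat_lit 263)) (XT.lf (nat_lit 0) (nat_lit 6203735611) (nat_lit 912) (nat_lit 695915560) (nat_lit 988) (nat_lit 1430617238) (nat_lit 334) (nat_lit 5) (nat_lit 346) (nat_lit 5) (nat_lit 347) (nat_lit 5) (nat_lit 333) (nat_lit 305) (nat_lit 262))))))) (XT.nd (nat_lit 702) (nat_lit 5472) (nat_lit 0) (XT.nd (nat_lit 312) (nat_lit 3040) (nat_lit 0) (XT.nd (nat_lit 156) (nat_lit 1596) (nat_lit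 0) (XT.nd (nat_lit 78) (nat_lit 836) (nat_lit 0) (XT.lf (nat_lit 0) (nat_lit 1712630883) (nat_lit 912) (nat_lit 3243742013) (nat_lit 76) (nat_lit 3483611796) (nat_lit 322) (nat_lit 5) (nat_lit 334) (nat_lit 5) (nat_lit 323) (nat_lit 5) (nat_lit 334) (nat_lit 305) (nat_lit 261)) (XT.lf (nat_lit 0) (nat_lit 4180759051) (nat_lit 836) (nat_lit 722284094) (nat_lit 912) (nat_lit 3650358710) (nat_lit 311) (nat_lit 5) (nat_lit 322) (nat_lit 5) (nat_lit 323) (nat_lit 5) (nat_lit 335) (nat_lit 305) (nat_lit 260))) (XT.nd (nat_lit 78) (nat_lit 836) (nat_lit 0) (XT.lf (nat_lit 0) (nat_lit 3144958726) (nat_lit 760) (nat_lit 5037941336) (nat_lit 836) (nat_lit 487490110) (nat_lit 301) (nat_lit 5) (nat_lit 311) (nat_lit 5) (nat_lit 312) (nat_lit 5) (nat_lit 336) (nat_lit 305) (nat_lit 259)) (XT.lf (nat_lit 0) (nat_lit 2087105210) (nat_lit 760) (nat_lit 623715398) (nat_lit 836) (nat_lit 6080211231) (nat_lit 290) (nat_lit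 5) (nat_lit 300) (nat_lit 5) (nat_lit 301) (nat_lit 5) (nat_lit 337) (nat_lit 305) (nat_lit 258)))) (XT.nd (nat_lit 156) (nat_lit 2204) (nat_lit 0) (XT.nd (nat_lit 78) (nat_lit 76) (nat_lit 0) (XT.lf (nat_lit 0) (nat_lit 998124910) (nat_lit 760) (nat_lit 5000265172) (nat_lit 836) (nat_lit 2916879576) (nat_lit 280) (nat_lit 5) (nat_lit 290) (nat_lit 5) (nat_lit 291) (nat_lit 5) (nat_lit 338) (nat_lit 305) (nat_lit 257)) (XT.lf (nat_lit 0) (nat_lit 318090741) (nat_lit 836) (nat_lit 100838751) (nat_lit 76) (nat_lit 8624674557) (nat_lit 279) (nat_lit 5) (nat_lit 290) (nat_lit 5) (nat_lit 280) (nat_lit 5) (nat_lit 339) (nat_lit 305) (nat_lit 256))) (XT.nd (nat_lit 78) (nat_lit 1444) (nat_lit 0) (XT.lf (nat_lit 0) (nat_lit 3624069735) (nat_lit 836) (nat_lit 1241856795) (nat_lit 76) (nat_lit 4309241523) (nat_lit 269) (nat_lit 5) (nat_lit 280) (nat_lit 5) (nat_lit 270) (nat_lit 5) (nat_lit 340) (nat_lit 305)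 (nat_lit 255)) (XT.nd (nat_lit 78) (nat_lit 760) (nat_lit 0) (XT.lf (nat_lit 0) (nat_lit 6914308871) (nat_lit 684) (nat_lit 98054756) (nat_lit 760) (nat_lit 2298688529) (nat_lit 260) (nat_lit 5) (nat_lit 269) (nat_lit 5) (nat_lit 270) (nat_lit 5) (nat_lit 341) (nat_lit 305) (nat_lit 254)) (XT.lf (nat_lit 0) (nat_lit 1051428838) (nat_lit 760) (nat_lit 3603750546) (nat_lit 76) (nat_lit 4795452578) (nat_lit 250) (nat_lit 5) (nat_lit 260) (nat_lit 5) (nat_lit 251) (nat_lit 5) (nat_lit 342) (nat_lit 305) (nat_lit 253)))))) (XT.nd (nat_lit 390) (nat_lit 2888) (nat_lit 0) (XT.nd (nat_lit 156) (nat_lit 1292) (nat_lit 0) (XT.nd (nat_lit 78) (nat_lit 684) (nat_lit 0) (XT.lf (nat_lit 0) (nat_lit 4457840280) (nat_lit 684) (nat_lit 4846160941) (nat_lit 76) (nat_lit 290386805) (nat_lit 242) (nat_lit 5) (nat_lit 251) (nat_lit 5) (nat_lit 243) (nat_lit 5) (nat_lit 343) (nat_lit 305) (nat_lit 252)) (XT.lf (nat_lit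 0) (nat_lit 3601507722) (nat_lit 684) (nat_lit 4382424825) (nat_lit 760) (nat_lit 1758206654) (nat_lit 233) (nat_lit 5) (nat_lit 242) (nat_lit 5) (nat_lit 243) (nat_lit 5) (nat_lit 344) (nat_lit 305) (nat_lit 251))) (XT.nd (nat_lit 78) (nat_lit 608) (nat_lit 0) (XT.lf (nat_lit 0) (nat_lit 1691772764) (nat_lit 684) (nat_lit 7475703478) (nat_lit 76) (nat_lit 726796462) (nat_lit 224) (nat_lit 5) (nat_lit 233) (nat_lit 5) (nat_lit 225) (nat_lit 5) (nat_lit 345) (nat_lit 305) (nat_lit 250)) (XT.nd (nat_lit 78) (nat_lit 0) (nat_lit 0) (XT.lf (nat_lit 0) (nat_lit 1170280800) (nat_lit 608) (nat_lit 4070535848) (nat_lit 684) (nat_lit 4809561841) (nat_lit 216) (nat_lit 5) (nat_lit 224) (nat_lit 5) (nat_lit 225) (nat_lit 5) (nat_lit 346) (nat_lit 305) (nat_lit 249)) (XT.lf (nat_lit 0) (nat_lit 8896694132) (nat_lit 684) (nat_lit 112300891) (nat_lit 76) (nat_lit 1202194067) (nat_lit 216) (nat_lit 5) (nat_lit 225)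 (nat_lit 5) (nat_lit 217) (nat_lit 5) (nat_lit 347) (nat_lit 305) (nat_lit 248))))) (XT.nd (nat_lit 156) (nat_lit 1672) (nat_lit 0) (XT.nd (nat_lit 78) (nat_lit 608) (nat_lit 0) (XT.lf (nat_lit 0) (nat_lit 2284278468) (nat_lit 608) (nat_lit 1452795010) (nat_lit 76) (nat_lit 6638904692) (nat_lit 208) (nat_lit 5) (nat_lit 216) (nat_lit 5) (nat_lit 209) (nat_lit 5) (nat_lit 348) (nat_lit 305) (nat_lit 247)) (XT.lf (nat_lit 0) (nat_lit 5979584857) (nat_lit 684) (nat_lit 2848744352) (nat_lit 76) (nat_lit 1717106062) (nat_lit 200) (nat_lit 5) (nat_lit 209) (nat_lit 5) (nat_lit 201) (nat_lit 5) (nat_lit 349) (nat_lit 305) (nat_lit 246))) (XT.nd (nat_lit 78) (nat_lit 1140) (nat_lit 0) (XT.lf (nat_lit 0) (nat_lit 6410226926) (nat_lit 532) (nat_lit 3397350794) (nat_lit 608) (nat_lit 911987738) (nat_lit 193) (nat_lit 5) (nat_lit 200) (nat_lit 5) (nat_lit 201) (nat_lit 5) (nat_lit 350) (nat_lit 305) (nat_lit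 245)) (XT.nd (nat_lit 78) (nat_lit 532) (nat_lit 0) (XT.lf (nat_lit 0) (nat_lit 2827124584) (nat_lit 608) (nat_lit 5847177832) (nat_lit 76) (nat_lit 2224010897) (nat_lit 185) (nat_lit 5) (nat_lit 193) (nat_lit 5) (nat_lit 186) (nat_lit 5) (nat_lit 351) (nat_lit 305) (nat_lit 244)) (XT.lf (nat_lit 0) (nat_lit 3618995484) (nat_lit 532) (nat_lit 3069812077) (nat_lit 608) (nat_lit 4393063679) (nat_lit 178) (nat_lit 5) (nat_lit 185) (nat_lit 5) (nat_lit 186) (nat_lit 5) (nat_lit 352) (nat_lit 305) (nat_lit 243))))))))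
noncomputable def xc61 : XT := (XT.nd (nat_lit 1482) (nat_lit 2888) (nat_lit 0) (XT.nd (nat_lit 702) (nat_lit 3344) (nat_lit 0) (XT.nd (nat_lit 312) (nat_lit 1900) (nat_lit 0) (XT.nd (nat_lit 156) (nat_lit 456) (nat_lit 0) (XT.nd (nat_lit 78) (nat_lit 532) (nat_lit 0) (XT.lf (nat_lit 0) (nat_lit 2120181201) (nat_lit 532) (nat_lit 8565459377) (nat_lit 608) (nat_lit 584932588) (nat_lit 171) (nat_lit 5) (nat_lit 178) (nat_lit 5) (nat_lit 179) (nat_lit 5) (nat_lit 353) (nat_lit 305) (nat_lit 242)) (XT.lf (nat_lit 0) (nat_lit 524861513) (nat_lit 456) (nat_lit 2792466066) (nat_lit 532) (nat_lit 8146724202) (nat_lit 164) (nat_lit 5) (nat_lit 170) (nat_lit 5) (nat_lit 171) (nat_lit 5) (nat_lit 354) (nat_lit 305) (nat_lit 241))) (XT.nd (nat_lit 78) (nat_lit 456) (nat_lit 0) (XT.lf (nat_lit 0) (nat_lit 7361402133) (nat_lit 532) (nat_lit 1139517661) (nat_lit 76) (nat_lit 3161705250) (nat_lit 164) (nat_lit 5)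 (nat_lit 171) (nat_lit 5) (nat_lit 165) (nat_lit 5) (nat_lit 355) (nat_lit 305) (nat_lit 240)) (XT.lf (nat_lit 0) (nat_lit 8987076359) (nat_lit 456) (nat_lit 2567966129) (nat_lit 532) (nat_lit 311569010) (nat_lit 158) (nat_lit 5) (nat_lit 164) (nat_lit 5) (nat_lit 165) (nat_lit 5) (nat_lit 356) (nat_lit 305) (nat_lit 239)))) (XT.nd (nat_lit 156) (nat_lit 912) (nat_lit 0) (XT.nd (nat_lit 78) (nat_lit 456) (nat_lit 0) (XT.lf (nat_lit 0) (nat_lit 3778840960) (nat_lit 532) (nat_lit 4737005704) (nat_lit 76) (nat_lit 3559780088) (nat_lit 151) (nat_lit 5) (nat_lit 158) (nat_lit 5) (nat_lit 152) (nat_lit 5) (nat_lit 357) (nat_lit 305) (nat_lit 238)) (XT.lf (nat_lit 0) (nat_lit 5600657901) (nat_lit 456) (nat_lit 2413021262) (nat_lit 532) (nat_lit 4276692414) (nat_lit 145) (nat_lit 5) (nat_lit 151) (nat_lit 5) (nat_lit 152) (nat_lit 5) (nat_lit 358) (nat_lit 305) (nat_lit 237))) (XT.nd (nat_lit 78) (nat_lit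 532) (nat_lit 0) (XT.lf (nat_lit 0) (nat_lit 3760956823) (nat_lit 380) (nat_lit 8650066894) (nat_lit 456) (nat_lit 99844522) (nat_lit 140) (nat_lit 5) (nat_lit 145) (nat_lit 5) (nat_lit 146) (nat_lit 5) (nat_lit 359) (nat_lit 305) (nat_lit 236)) (XT.nd (nat_lit 78) (nat_lit 0) (nat_lit 0) (XT.lf (nat_lit 0) (nat_lit 1794506011) (nat_lit 456) (nat_lit 2380308947) (nat_lit 532) (nat_lit 8562084573) (nat_lit 133) (nat_lit 5) (nat_lit 139) (nat_lit 5) (nat_lit 140) (nat_lit 5) (nat_lit 360) (nat_lit 305) (nat_lit 235)) (XT.lf (nat_lit 0) (nat_lit 8617520323) (nat_lit 532) (nat_lit 285723981) (nat_lit 76) (nat_lit 4065648307) (nat_lit 133) (nat_lit 5) (nat_lit 140) (nat_lit 5) (nat_lit 134) (nat_lit 5) (nat_lit 361) (nat_lit 305) (nat_lit 234)))))) (XT.nd (nat_lit 390) (nat_lit 1368) (nat_lit 0) (XT.nd (nat_lit 156) (nat_lit 1140) (nat_lit 0) (XT.nd (nat_lit 78) (nat_lit 380) (nat_lit 0) (XT.lf (nat_lit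 0) (nat_lit 28151439) (nat_lit 456) (nat_lit 2454257910) (nat_lit 76) (nat_lit 10724608418) (nat_lit 127) (nat_lit 5) (nat_lit 133) (nat_lit 5) (nat_lit 128) (nat_lit 5) (nat_lit 362) (nat_lit 305) (nat_lit 233)) (XT.lf (nat_lit 0) (nat_lit 4522847626) (nat_lit 456) (nat_lit 4782059764) (nat_lit 76) (nat_lit 4145961926) (nat_lit 122) (nat_lit 5) (nat_lit 128) (nat_lit 5) (nat_lit 123) (nat_lit 5) (nat_lit 363) (nat_lit 305) (nat_lit 232))) (XT.nd (nat_lit 78) (nat_lit 760) (nat_lit 0) (XT.lf (nat_lit 0) (nat_lit 6463416805) (nat_lit 380) (nat_lit 2721886670) (nat_lit 456) (nat_lit 4516090082) (nat_lit 117) (nat_lit 5) (nat_lit 122) (nat_lit 5) (nat_lit 123) (nat_lit 5) (nat_lit 364) (nat_lit 305) (nat_lit 231)) (XT.nd (nat_lit 78) (nat_lit 304) (nat_lit 0) (XT.lf (nat_lit 0) (nat_lit 72140593) (nat_lit 456) (nat_lit 9840474968) (nat_lit 76) (nat_lit 4045942855) (nat_lit 111) (nat_lit 5) (nat_lit 117)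 (nat_lit 5) (nat_lit 112) (nat_lit 5) (nat_lit 365) (nat_lit 305) (nat_lit 230)) (XT.lf (nat_lit 0) (nat_lit 1602359167) (nat_lit 304) (nat_lit 3171487644) (nat_lit 380) (nat_lit 9448265033) (nat_lit 107) (nat_lit 5) (nat_lit 111) (nat_lit 5) (nat_lit 112) (nat_lit 5) (nat_lit 366) (nat_lit 305) (nat_lit 229))))) (XT.nd (nat_lit 156) (nat_lit 988) (nat_lit 0) (XT.nd (nat_lit 78) (nat_lit 380) (nat_lit 0) (XT.lf (nat_lit 0) (nat_lit 9667750903) (nat_lit 380) (nat_lit 1055058361) (nat_lit 76) (nat_lit 3769753602) (nat_lit 107) (nat_lit 5) (nat_lit 112) (nat_lit 5) (nat_lit 108) (nat_lit 5) (nat_lit 367) (nat_lit 305) (nat_lit 228)) (XT.lf (nat_lit 0) (nat_lit 10919289366) (nat_lit 380) (nat_lit 3841999208) (nat_lit 456) (nat_lit 8796034) (nat_lit 102) (nat_lit 5) (nat_lit 107) (nat_lit 5) (nat_lit 108) (nat_lit 5) (nat_lit 368) (nat_lit 305) (nat_lit 227))) (XT.nd (nat_lit 78) (nat_lit 608) (nat_lit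 0) (XT.lf (nat_lit 0) (nat_lit 4930142767) (nat_lit 380) (nat_lit 6848032814) (nat_lit 76) (nat_lit 3276258597) (nat_lit 97) (nat_lit 5) (nat_lit 102) (nat_lit 5) (nat_lit 98) (nat_lit 5) (nat_lit 369) (nat_lit 305) (nat_lit 226)) (XT.nd (nat_lit 78) (nat_lit 304) (nat_lit 0) (XT.lf (nat_lit 0) (nat_lit 5316491089) (nat_lit 304) (nat_lit 4748952723) (nat_lit 380) (nat_lit 5280915483) (nat_lit 93) (nat_lit 5) (nat_lit 97) (nat_lit 5) (nat_lit 98) (nat_lit 5) (nat_lit 370) (nat_lit 305) (nat_lit 225)) (XT.lf (nat_lit 0) (nat_lit 2248357053) (nat_lit 304) (nat_lit 13146371892) (nat_lit 380) (nat_lit 251526848) (nat_lit 89) (nat_lit 5) (nat_lit 93) (nat_lit 5) (nat_lit 94) (nat_lit 5) (nat_lit 371) (nat_lit 305) (nat_lit 224))))))) (XT.nd (nat_lit 780) (nat_lit 760) (nat_lit 0) (XT.nd (nat_lit 390) (nat_lit 912) (nat_lit 0) (XT.nd (nat_lit 156) (nat_lit 836) (nat_lit 0) (XT.nd (nat_lit 78) (nat_lit 304)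 (nat_lit 0) (XT.lf (nat_lit 0) (nat_lit 4927183888) (nat_lit 380) (nat_lit 1043562047) (nat_lit 76) (nat_lit 9982513146) (nat_lit 88) (nat_lit 5) (nat_lit 93) (nat_lit 5) (nat_lit 89) (nat_lit 5) (nat_lit 372) (nat_lit 305) (nat_lit 223)) (XT.lf (nat_lit 0) (nat_lit 10307925210) (nat_lit 380) (nat_lit 4500153588) (nat_lit 76) (nat_lit 1460369897) (nat_lit 84) (nat_lit 5) (nat_lit 89) (nat_lit 5) (nat_lit 85) (nat_lit 5) (nat_lit 373) (nat_lit 305) (nat_lit 222))) (XT.nd (nat_lit 78) (nat_lit 608) (nat_lit 0) (XT.lf (nat_lit 0) (nat_lit 8400257167) (nat_lit 228) (nat_lit 7515968718) (nat_lit 304) (nat_lit 675556251) (nat_lit 81) (nat_lit 5) (nat_lit 84) (nat_lit 5) (nat_lit 85) (nat_lit 5) (nat_lit 374) (nat_lit 305) (nat_lit 221)) (XT.nd (nat_lit 78) (nat_lit 228) (nat_lit 0) (XT.lf (nat_lit 0) (nat_lit 4732733443) (nat_lit 380) (nat_lit 12122580091) (nat_lit 76) (nat_lit 68347147) (nat_lit 76) (nat_lit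 5) (nat_lit 81) (nat_lit 5) (nat_lit 77) (nat_lit 5) (nat_lit 375) (nat_lit 305) (nat_lit 220)) (XT.lf (nat_lit 0) (nat_lit 933280956) (nat_lit 228) (nat_lit 9438584145) (nat_lit 304) (nat_lit 6891995801) (nat_lit 73) (nat_lit 5) (nat_lit 76) (nat_lit 5) (nat_lit 77) (nat_lit 5) (nat_lit 376) (nat_lit 305) (nat_lit 219))))) (XT.nd (nat_lit 156) (nat_lit 532) (nat_lit 0) (XT.nd (nat_lit 78) (nat_lit 380) (nat_lit 0) (XT.lf (nat_lit 0) (nat_lit 14492629195) (nat_lit 228) (nat_lit 1735861833) (nat_lit 304) (nat_lit 1384819460) (nat_lit 73) (nat_lit 5) (nat_lit 76) (nat_lit 5) (nat_lit 77) (nat_lit 5) (nat_lit 377) (nat_lit 305) (nat_lit 218)) (XT.lf (nat_lit 0) (nat_lit 4307473439) (nat_lit 380) (nat_lit 7469785317) (nat_lit 76) (nat_lit 6193914671) (nat_lit 68) (nat_lit 5) (nat_lit 73) (nat_lit 5) (nat_lit 69) (nat_lit 5) (nat_lit 378) (nat_lit 305) (nat_lit 217))) (XT.nd (nat_lit 78) (nat_lit 304)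 (nat_lit 0) (XT.lf (nat_lit 0) (nat_lit 6243697499) (nat_lit 228) (nat_lit 3948993109) (nat_lit 304) (nat_lit 8146088201) (nat_lit 65) (nat_lit 5) (nat_lit 68) (nat_lit 5) (nat_lit 69) (nat_lit 5) (nat_lit 379) (nat_lit 305) (nat_lit 216)) (XT.nd (nat_lit 78) (nat_lit 76) (nat_lit 0) (XT.lf (nat_lit 0) (nat_lit 1697314653) (nat_lit 228) (nat_lit 14613746571) (nat_lit 304) (nat_lit 2405227951) (nat_lit 62) (nat_lit 5) (nat_lit 65) (nat_lit 5) (nat_lit 66) (nat_lit 5) (nat_lit 380) (nat_lit 305) (nat_lit 215)) (XT.lf (nat_lit 0) (nat_lit 3539059268) (nat_lit 304) (nat_lit 3136082732) (nat_lit 76) (nat_lit 12427991534) (nat_lit 61) (nat_lit 5) (nat_lit 65) (nat_lit 5) (nat_lit 62) (nat_lit 5) (nat_lit 381) (nat_lit 305) (nat_lit 214)))))) (XT.nd (nat_lit 41028) (nat_lit 0) (nat_lit 41344) (XT.nd (nat_lit 156) (nat_lit 304) (nat_lit 0) (XT.nd (nat_lit 78) (nat_lit 228) (nat_lit 0) (XT.lf (nat_lit 0) (nat_lit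 9681620462) (nat_lit 304) (nat_lit 8266355675) (nat_lit 76) (nat_lit 1552244752) (nat_lit 58) (nat_lit 5) (nat_lit 62) (nat_lit 5) (nat_lit 59) (nat_lit 5) (nat_lit 382) (nat_lit 305) (nat_lit 213)) (XT.lf (nat_lit 0) (nat_lit 6154916761) (nat_lit 228) (nat_lit 9929203024) (nat_lit 304) (nat_lit 3823595713) (nat_lit 55) (nat_lit 5) (nat_lit 58) (nat_lit 5) (nat_lit 59) (nat_lit 5) (nat_lit 383) (nat_lit 305) (nat_lit 212))) (XT.nd (nat_lit 78) (nat_lit 0) (nat_lit 0) (XT.lf (nat_lit 0) (nat_lit 740071019) (nat_lit 228) (nat_lit 1611569382) (nat_lit 304) (nat_lit 17974872337) (nat_lit 51) (nat_lit 5) (nat_lit 54) (nat_lit 5) (nat_lit 55) (nat_lit 5) (nat_lit 384) (nat_lit 305) (nat_lit 211)) (XT.nd (nat_lit 40716) (nat_lit 0) (nat_lit 42712) (XT.lf (nat_lit 0) (nat_lit 8769909441) (nat_lit 304) (nat_lit 5020706107) (nat_lit 76) (nat_lit 6964565661) (nat_lit 51) (nat_lit 5) (nat_lit 55) (nat_lit 5)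 (nat_lit 52) (nat_lit 5) (nat_lit 385) (nat_lit 305) (nat_lit 210)) (XT.lf (nat_lit 0) (nat_lit 1221716062) (nat_lit 684) (nat_lit 1038713415) (nat_lit 684) (nat_lit 1038713415) (nat_lit 613) (nat_lit 3) (nat_lit 622) (nat_lit 3) (nat_lit 622) (nat_lit 5) (nat_lit 306) (nat_lit 306) (nat_lit 288))))) (XT.nd (nat_lit 156) (nat_lit 684) (nat_lit 0) (XT.nd (nat_lit 78) (nat_lit 684) (nat_lit 0) (XT.lf (nat_lit 76) (nat_lit 2617484396) (nat_lit 0) (nat_lit 3284043822) (nat_lit 684) (nat_lit 724178520) (nat_lit 614) (nat_lit 5) (nat_lit 613) (nat_lit 3) (nat_lit 622) (nat_lit 5) (nat_lit 307) (nat_lit 306) (nat_lit 287)) (XT.lf (nat_lit 76) (nat_lit 748869489) (nat_lit 0) (nat_lit 1908418486) (nat_lit 760) (nat_lit 3998722737) (nat_lit 605) (nat_lit 5) (nat_lit 604) (nat_lit 5) (nat_lit 614) (nat_lit 5) (nat_lit 308) (nat_lit 306) (nat_lit 286))) (XT.nd (nat_lit 78) (nat_lit 684) (nat_lit 0) (XT.lf (nat_lit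 76) (nat_lit 5629149285) (nat_lit 0) (nat_lit 397541040) (nat_lit 760) (nat_lit 662627199) (nat_lit 605) (nat_lit 5) (nat_lit 604) (nat_lit 5) (nat_lit 614) (nat_lit 5) (nat_lit 309) (nat_lit 306) (nat_lit 285)) (XT.nd (nat_lit 78) (nat_lit 0) (nat_lit 0) (XT.lf (nat_lit 0) (nat_lit 2642666229) (nat_lit 760) (nat_lit 2837585774) (nat_lit 836) (nat_lit 1245012043) (nat_lit 595) (nat_lit 5) (nat_lit 605) (nat_lit 5) (nat_lit 606) (nat_lit 5) (nat_lit 310) (nat_lit 306) (nat_lit 284)) (XT.lf (nat_lit 76) (nat_lit 2186753625) (nat_lit 0) (nat_lit 3751158623) (nat_lit 836) (nat_lit 826400450) (nat_lit 596) (nat_lit 5) (nat_lit 595) (nat_lit 5) (nat_lit 606) (nat_lit 5) (nat_lit 311) (nat_lit 306) (nat_lit 283))))))))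
noncomputable def xc62 : XT := (XT.nd (nat_lit 1482) (nat_lit 14364) (nat_lit 0) (XT.nd (nat_lit 702) (nat_lit 11552) (nat_lit 0) (XT.nd (nat_lit 312) (nat_lit 2964) (nat_lit 0) (XT.nd (nat_lit 156) (nat_lit 836) (nat_lit 0) (XT.nd (nat_lit 78) (nat_lit 0) (nat_lit 76) (XT.lf (nat_lit 76) (nat_lit 515047779) (nat_lit 0) (nat_lit 1879905544) (nat_lit 912) (nat_lit 4411340997) (nat_lit 585) (nat_lit 5) (nat_lit 584) (nat_lit 5) (nat_lit 596) (nat_lit 5) (nat_lit 312) (nat_lit 306) (nat_lit 282)) (XT.lf (nat_lit 0) (nat_lit 5614648517) (nat_lit 836) (nat_lit 1105180467) (nat_lit 912) (nat_lit 131437708) (nat_lit 585) (nat_lit 5) (nat_lit 596) (nat_lit 5) (nat_lit 597) (nat_lit 5) (nat_lit 313) (nat_lit 306) (nat_lit 281))) (XT.nd (nat_lit 78) (nat_lit 0) (nat_lit 0) (XT.lf (nat_lit 0) (nat_lit 1930765098) (nat_lit 912) (nat_lit 2703991023) (nat_lit 988) (nat_lit 2264180693) (nat_lit 573) (nat_lit 5)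 (nat_lit 585) (nat_lit 5) (nat_lit 586) (nat_lit 5) (nat_lit 314) (nat_lit 306) (nat_lit 280)) (XT.lf (nat_lit 76) (nat_lit 2676478132) (nat_lit 0) (nat_lit 2411755877) (nat_lit 988) (nat_lit 1861493847) (nat_lit 574) (nat_lit 5) (nat_lit 573) (nat_lit 5) (nat_lit 586) (nat_lit 5) (nat_lit 315) (nat_lit 306) (nat_lit 279)))) (XT.nd (nat_lit 156) (nat_lit 1976) (nat_lit 0) (XT.nd (nat_lit 78) (nat_lit 0) (nat_lit 76) (XT.lf (nat_lit 76) (nat_lit 1188450115) (nat_lit 0) (nat_lit 47414569) (nat_lit 1064) (nat_lit 5767790668) (nat_lit 561) (nat_lit 5) (nat_lit 560) (nat_lit 5) (nat_lit 574) (nat_lit 5) (nat_lit 316) (nat_lit 306) (nat_lit 278)) (XT.lf (nat_lit 0) (nat_lit 4337542895) (nat_lit 988) (nat_lit 287621673) (nat_lit 1064) (nat_lit 2435140874) (nat_lit 561) (nat_lit 5) (nat_lit 574) (nat_lit 5) (nat_lit 575) (nat_lit 5) (nat_lit 317) (nat_lit 306) (nat_lit 277))) (XT.nd (nat_lit 78) (nat_lit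 988) (nat_lit 0) (XT.lf (nat_lit 0) (nat_lit 338102671) (nat_lit 1064) (nat_lit 1717204362) (nat_lit 1140) (nat_lit 5064776642) (nat_lit 547) (nat_lit 5) (nat_lit 561) (nat_lit 5) (nat_lit 562) (nat_lit 5) (nat_lit 318) (nat_lit 306) (nat_lit 276)) (XT.nd (nat_lit 78) (nat_lit 1064) (nat_lit 0) (XT.lf (nat_lit 0) (nat_lit 3383510521) (nat_lit 1064) (nat_lit 3137418831) (nat_lit 76) (nat_lit 661850011) (nat_lit 548) (nat_lit 5) (nat_lit 562) (nat_lit 5) (nat_lit 549) (nat_lit 5) (nat_lit 319) (nat_lit 306) (nat_lit 275)) (XT.lf (nat_lit 0) (nat_lit 2706225182) (nat_lit 1064) (nat_lit 3756714193) (nat_lit 1140) (nat_lit 785639314) (nat_lit 534) (nat_lit 5) (nat_lit 548) (nat_lit 5) (nat_lit 549) (nat_lit 5) (nat_lit 320) (nat_lit 306) (nat_lit 274)))))) (XT.nd (nat_lit 390) (nat_lit 6384) (nat_lit 0) (XT.nd (nat_lit 156) (nat_lit 2736) (nat_lit 0) (XT.nd (nat_lit 78) (nat_lit 1216) (nat_lit 0) (XT.lf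 (nat_lit 0) (nat_lit 1382298021) (nat_lit 1140) (nat_lit 837438925) (nat_lit 1216) (nat_lit 5097751401) (nat_lit 518) (nat_lit 5) (nat_lit 533) (nat_lit 5) (nat_lit 534) (nat_lit 5) (nat_lit 321) (nat_lit 306) (nat_lit 273)) (XT.lf (nat_lit 0) (nat_lit 66538051) (nat_lit 1216) (nat_lit 5187560495) (nat_lit 1292) (nat_lit 2135343112) (nat_lit 502) (nat_lit 5) (nat_lit 518) (nat_lit 5) (nat_lit 519) (nat_lit 5) (nat_lit 322) (nat_lit 306) (nat_lit 272))) (XT.nd (nat_lit 78) (nat_lit 2660) (nat_lit 0) (XT.lf (nat_lit 0) (nat_lit 855584094) (nat_lit 1292) (nat_lit 1218934301) (nat_lit 76) (nat_lit 5389949850) (nat_lit 501) (nat_lit 5) (nat_lit 518) (nat_lit 5) (nat_lit 502) (nat_lit 5) (nat_lit 323) (nat_lit 306) (nat_lit 271)) (XT.nd (nat_lit 78) (nat_lit 1368) (nat_lit 0) (XT.lf (nat_lit 0) (nat_lit 3856284684) (nat_lit 1368) (nat_lit 2502187610) (nat_lit 76) (nat_lit 1184074768) (nat_lit 484) (nat_lit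 5) (nat_lit 502) (nat_lit 5) (nat_lit 485) (nat_lit 5) (nat_lit 324) (nat_lit 306) (nat_lit 270)) (XT.lf (nat_lit 0) (nat_lit 3845228444) (nat_lit 1368) (nat_lit 3059589742) (nat_lit 1444) (nat_lit 719056784) (nat_lit 466) (nat_lit 5) (nat_lit 484) (nat_lit 5) (nat_lit 485) (nat_lit 5) (nat_lit 325) (nat_lit 306) (nat_lit 269))))) (XT.nd (nat_lit 156) (nat_lit 3344) (nat_lit 0) (XT.nd (nat_lit 78) (nat_lit 1520) (nat_lit 0) (XT.lf (nat_lit 0) (nat_lit 2255612820) (nat_lit 1520) (nat_lit 5054157173) (nat_lit 76) (nat_lit 398647165) (nat_lit 446) (nat_lit 5) (nat_lit 466) (nat_lit 5) (nat_lit 447) (nat_lit 5) (nat_lit 326) (nat_lit 306) (nat_lit 268)) (XT.lf (nat_lit 0) (nat_lit 1457240337) (nat_lit 1520) (nat_lit 3822612066) (nat_lit 1596) (nat_lit 2516204356) (nat_lit 426) (nat_lit 5) (nat_lit 446) (nat_lit 5) (nat_lit 447) (nat_lit 5) (nat_lit 327) (nat_lit 306) (nat_lit 267))) (XT.nd (nat_lit 78)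 (nat_lit 1672) (nat_lit 0) (XT.lf (nat_lit 0) (nat_lit 274279529) (nat_lit 1596) (nat_lit 179564420) (nat_lit 1672) (nat_lit 7433430567) (nat_lit 404) (nat_lit 5) (nat_lit 425) (nat_lit 5) (nat_lit 426) (nat_lit 5) (nat_lit 328) (nat_lit 306) (nat_lit 266)) (XT.nd (nat_lit 78) (nat_lit 1672) (nat_lit 0) (XT.lf (nat_lit 0) (nat_lit 3463252468) (nat_lit 1672) (nat_lit 922028812) (nat_lit 76) (nat_lit 3595979775) (nat_lit 404) (nat_lit 5) (nat_lit 426) (nat_lit 5) (nat_lit 405) (nat_lit 5) (nat_lit 329) (nat_lit 306) (nat_lit 265)) (XT.lf (nat_lit 0) (nat_lit 5975096095) (nat_lit 1672) (nat_lit 548050166) (nat_lit 1748) (nat_lit 1555769074) (nat_lit 382) (nat_lit 5) (nat_lit 404) (nat_lit 5) (nat_lit 405) (nat_lit 5) (nat_lit 330) (nat_lit 306) (nat_lit 264))))))) (XT.nd (nat_lit 780) (nat_lit 5776) (nat_lit 0) (XT.nd (nat_lit 390) (nat_lit 3192) (nat_lit 0) (XT.nd (nat_lit 156) (nat_lit 2660) (nat_lit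 0) (XT.nd (nat_lit 78) (nat_lit 912) (nat_lit 0) (XT.lf (nat_lit 0) (nat_lit 1457769425) (nat_lit 1824) (nat_lit 3307457532) (nat_lit 76) (nat_lit 3414486935) (nat_lit 358) (nat_lit 5) (nat_lit 382) (nat_lit 5) (nat_lit 359) (nat_lit 5) (nat_lit 331) (nat_lit 306) (nat_lit 263)) (XT.lf (nat_lit 0) (nat_lit 3766270288) (nat_lit 912) (nat_lit 740272347) (nat_lit 988) (nat_lit 3777517035) (nat_lit 346) (nat_lit 5) (nat_lit 358) (nat_lit 5) (nat_lit 359) (nat_lit 5) (nat_lit 332) (nat_lit 306) (nat_lit 262))) (XT.nd (nat_lit 78) (nat_lit 1748) (nat_lit 0) (XT.lf (nat_lit 0) (nat_lit 2646322697) (nat_lit 912) (nat_lit 4987481711) (nat_lit 988) (nat_lit 758037744) (nat_lit 334) (nat_lit 5) (nat_lit 346) (nat_lit 5) (nat_lit 347) (nat_lit 5) (nat_lit 333) (nat_lit 306) (nat_lit 261)) (XT.nd (nat_lit 78) (nat_lit 836) (nat_lit 0) (XT.lf (nat_lit 0) (nat_lit 1511990784) (nat_lit 836) (nat_lit 781131712) (nat_lit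 912) (nat_lit 6210035902) (nat_lit 322) (nat_lit 5) (nat_lit 333) (nat_lit 5) (nat_lit 334) (nat_lit 5) (nat_lit 334) (nat_lit 306) (nat_lit 260)) (XT.lf (nat_lit 0) (nat_lit 352391950) (nat_lit 836) (nat_lit 5065770216) (nat_lit 912) (nat_lit 3199742171) (nat_lit 311) (nat_lit 5) (nat_lit 322) (nat_lit 5) (nat_lit 323) (nat_lit 5) (nat_lit 335) (nat_lit 306) (nat_lit 259))))) (XT.nd (nat_lit 156) (nat_lit 2356) (nat_lit 0) (XT.nd (nat_lit 78) (nat_lit 836) (nat_lit 0) (XT.lf (nat_lit 0) (nat_lit 7935159567) (nat_lit 836) (nat_lit 684036015) (nat_lit 912) (nat_lit 117294242) (nat_lit 311) (nat_lit 5) (nat_lit 322) (nat_lit 5) (nat_lit 323) (nat_lit 5) (nat_lit 336) (nat_lit 306) (nat_lit 258)) (XT.lf (nat_lit 0) (nat_lit 3018753067) (nat_lit 836) (nat_lit 1997160630) (nat_lit 76) (nat_lit 3842337591) (nat_lit 300) (nat_lit 5) (nat_lit 311) (nat_lit 5) (nat_lit 301) (nat_lit 5) (nat_lit 337) (nat_lit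 306) (nat_lit 257))) (XT.nd (nat_lit 78) (nat_lit 1596) (nat_lit 0) (XT.lf (nat_lit 0) (nat_lit 5780613645) (nat_lit 760) (nat_lit 447030572) (nat_lit 836) (nat_lit 2756437588) (nat_lit 290) (nat_lit 5) (nat_lit 300) (nat_lit 5) (nat_lit 301) (nat_lit 5) (nat_lit 338) (nat_lit 306) (nat_lit 256)) (XT.nd (nat_lit 78) (nat_lit 760) (nat_lit 0) (XT.lf (nat_lit 0) (nat_lit 419461943) (nat_lit 836) (nat_lit 4448024526) (nat_lit 76) (nat_lit 4246066433) (nat_lit 279) (nat_lit 5) (nat_lit 290) (nat_lit 5) (nat_lit 280) (nat_lit 5) (nat_lit 339) (nat_lit 306) (nat_lit 255)) (XT.lf (nat_lit 0) (nat_lit 3522064615) (nat_lit 760) (nat_lit 114305209) (nat_lit 836) (nat_lit 5610546183) (nat_lit 269) (nat_lit 5) (nat_lit 279) (nat_lit 5) (nat_lit 280) (nat_lit 5) (nat_lit 340) (nat_lit 306) (nat_lit 254)))))) (XT.nd (nat_lit 390) (nat_lit 2964) (nat_lit 0) (XT.nd (nat_lit 156) (nat_lit 1368) (nat_lit 0) (XT.nd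 (nat_lit 78) (nat_lit 760) (nat_lit 0) (XT.lf (nat_lit 0) (nat_lit 2337224807) (nat_lit 684) (nat_lit 4625774479) (nat_lit 760) (nat_lit 2421051277) (nat_lit 260) (nat_lit 5) (nat_lit 269) (nat_lit 5) (nat_lit 270) (nat_lit 5) (nat_lit 341) (nat_lit 306) (nat_lit 253)) (XT.lf (nat_lit 0) (nat_lit 839486862) (nat_lit 760) (nat_lit 8394578203) (nat_lit 76) (nat_lit 291421210) (nat_lit 250) (nat_lit 5) (nat_lit 260) (nat_lit 5) (nat_lit 251) (nat_lit 5) (nat_lit 342) (nat_lit 306) (nat_lit 252))) (XT.nd (nat_lit 78) (nat_lit 1368) (nat_lit 0) (XT.lf (nat_lit 0) (nat_lit 4183057417) (nat_lit 760) (nat_lit 137642399) (nat_lit 76) (nat_lit 5349815203) (nat_lit 250) (nat_lit 5) (nat_lit 260) (nat_lit 5) (nat_lit 251) (nat_lit 5) (nat_lit 343) (nat_lit 306) (nat_lit 251)) (XT.nd (nat_lit 78) (nat_lit 760) (nat_lit 0) (XT.lf (nat_lit 0) (nat_lit 7627337087) (nat_lit 684) (nat_lit 1416213493) (nat_lit 76) (nat_lit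 776367264) (nat_lit 242) (nat_lit 5) (nat_lit 251) (nat_lit 5) (nat_lit 243) (nat_lit 5) (nat_lit 344) (nat_lit 306) (nat_lit 250)) (XT.lf (nat_lit 0) (nat_lit 1204166525) (nat_lit 760) (nat_lit 2754501872) (nat_lit 76) (nat_lit 6014632594) (nat_lit 232) (nat_lit 5) (nat_lit 242) (nat_lit 5) (nat_lit 233) (nat_lit 5) (nat_lit 345) (nat_lit 306) (nat_lit 249))))) (XT.nd (nat_lit 156) (nat_lit 1748) (nat_lit 0) (XT.nd (nat_lit 78) (nat_lit 608) (nat_lit 0) (XT.lf (nat_lit 0) (nat_lit 4673223050) (nat_lit 684) (nat_lit 4142838279) (nat_lit 76) (nat_lit 1314959425) (nat_lit 224) (nat_lit 5) (nat_lit 233) (nat_lit 5) (nat_lit 225) (nat_lit 5) (nat_lit 346) (nat_lit 306) (nat_lit 248)) (XT.lf (nat_lit 0) (nat_lit 4704815218) (nat_lit 608) (nat_lit 3561283518) (nat_lit 684) (nat_lit 2027006471) (nat_lit 216) (nat_lit 5) (nat_lit 224) (nat_lit 5) (nat_lit 225) (nat_lit 5) (nat_lit 347) (nat_lit 306) (nat_lit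 247))) (XT.nd (nat_lit 78) (nat_lit 1140) (nat_lit 0) (XT.lf (nat_lit 0) (nat_lit 1494245407) (nat_lit 608) (nat_lit 7090521436) (nat_lit 76) (nat_lit 1874970442) (nat_lit 208) (nat_lit 5) (nat_lit 216) (nat_lit 5) (nat_lit 209) (nat_lit 5) (nat_lit 348) (nat_lit 306) (nat_lit 246)) (XT.nd (nat_lit 78) (nat_lit 532) (nat_lit 0) (XT.lf (nat_lit 0) (nat_lit 1961806907) (nat_lit 608) (nat_lit 3152459798) (nat_lit 684) (nat_lit 5516446151) (nat_lit 200) (nat_lit 5) (nat_lit 208) (nat_lit 5) (nat_lit 209) (nat_lit 5) (nat_lit 349) (nat_lit 306) (nat_lit 245)) (XT.lf (nat_lit 0) (nat_lit 499750159) (nat_lit 532) (nat_lit 8357508976) (nat_lit 608) (nat_lit 1949296312) (nat_lit 193) (nat_lit 5) (nat_lit 200) (nat_lit 5) (nat_lit 201) (nat_lit 5) (nat_lit 350) (nat_lit 306) (nat_lit 244))))))))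
noncomputable def xc63 : XT := (XT.nd (nat_lit 1482) (nat_lit 3496) (nat_lit 0) (XT.nd (nat_lit 702) (nat_lit 3344) (nat_lit 0) (XT.nd (nat_lit 312) (nat_lit 1900) (nat_lit 0) (XT.nd (nat_lit 156) (nat_lit 1140) (nat_lit 0) (XT.nd (nat_lit 78) (nat_lit 532) (nat_lit 0) (XT.lf (nat_lit 0) (nat_lit 1730106719) (nat_lit 608) (nat_lit 1024195273) (nat_lit 76) (nat_lit 8232614083) (nat_lit 192) (nat_lit 5) (nat_lit 200) (nat_lit 5) (nat_lit 193) (nat_lit 5) (nat_lit 351) (nat_lit 306) (nat_lit 243)) (XT.lf (nat_lit 0) (nat_lit 5518329866) (nat_lit 608) (nat_lit 2621233504) (nat_lit 76) (nat_lit 3032391283) (nat_lit 185) (nat_lit 5) (nat_lit 193) (nat_lit 5) (nat_lit 186) (nat_lit 5) (nat_lit 352) (nat_lit 306) (nat_lit 242))) (XT.nd (nat_lit 78) (nat_lit 608) (nat_lit 0) (XT.lf (nat_lit 0) (nat_lit 7073741992) (nat_lit 532) (nat_lit 2367932621) (nat_lit 608) (nat_lit 1920462854) (nat_lit 178) (nat_lit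 5) (nat_lit 185) (nat_lit 5) (nat_lit 186) (nat_lit 5) (nat_lit 353) (nat_lit 306) (nat_lit 241)) (XT.lf (nat_lit 0) (nat_lit 1927650590) (nat_lit 608) (nat_lit 6048221528) (nat_lit 76) (nat_lit 3581361221) (nat_lit 170) (nat_lit 5) (nat_lit 178) (nat_lit 5) (nat_lit 171) (nat_lit 5) (nat_lit 354) (nat_lit 306) (nat_lit 240)))) (XT.nd (nat_lit 156) (nat_lit 988) (nat_lit 0) (XT.nd (nat_lit 78) (nat_lit 456) (nat_lit 0) (XT.lf (nat_lit 0) (nat_lit 3858658657) (nat_lit 456) (nat_lit 2028498259) (nat_lit 532) (nat_lit 5870351329) (nat_lit 164) (nat_lit 5) (nat_lit 170) (nat_lit 5) (nat_lit 171) (nat_lit 5) (nat_lit 355) (nat_lit 306) (nat_lit 239)) (XT.lf (nat_lit 0) (nat_lit 2119150317) (nat_lit 456) (nat_lit 7880555344) (nat_lit 532) (nat_lit 1963420848) (nat_lit 158) (nat_lit 5) (nat_lit 164) (nat_lit 5) (nat_lit 165) (nat_lit 5) (nat_lit 356) (nat_lit 306) (nat_lit 238))) (XT.nd (nat_lit 78) (nat_lit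 456) (nat_lit 0) (XT.lf (nat_lit 0) (nat_lit 284471590) (nat_lit 456) (nat_lit 1771793020) (nat_lit 532) (nat_lit 10117948927) (nat_lit 151) (nat_lit 5) (nat_lit 157) (nat_lit 5) (nat_lit 158) (nat_lit 5) (nat_lit 357) (nat_lit 306) (nat_lit 237)) (XT.nd (nat_lit 78) (nat_lit 456) (nat_lit 0) (XT.lf (nat_lit 0) (nat_lit 6220636435) (nat_lit 532) (nat_lit 1645414339) (nat_lit 76) (nat_lit 4524326134) (nat_lit 151) (nat_lit 5) (nat_lit 158) (nat_lit 5) (nat_lit 152) (nat_lit 5) (nat_lit 358) (nat_lit 306) (nat_lit 236)) (XT.lf (nat_lit 0) (nat_lit 8949916209) (nat_lit 456) (nat_lit 1585439929) (nat_lit 532) (nat_lit 2077178883) (nat_lit 145) (nat_lit 5) (nat_lit 151) (nat_lit 5) (nat_lit 152) (nat_lit 5) (nat_lit 359) (nat_lit 306) (nat_lit 235)))))) (XT.nd (nat_lit 390) (nat_lit 1596) (nat_lit 0) (XT.nd (nat_lit 156) (nat_lit 836) (nat_lit 0) (XT.nd (nat_lit 78) (nat_lit 456) (nat_lit 0) (XT.lf (nat_lit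 0) (nat_lit 2155308791) (nat_lit 456) (nat_lit 5811200565) (nat_lit 76) (nat_lit 4873684340) (nat_lit 139) (nat_lit 5) (nat_lit 145) (nat_lit 5) (nat_lit 140) (nat_lit 5) (nat_lit 360) (nat_lit 306) (nat_lit 234)) (XT.lf (nat_lit 0) (nat_lit 4996956714) (nat_lit 456) (nat_lit 1514613445) (nat_lit 532) (nat_lit 6562353768) (nat_lit 133) (nat_lit 5) (nat_lit 139) (nat_lit 5) (nat_lit 140) (nat_lit 5) (nat_lit 361) (nat_lit 306) (nat_lit 233))) (XT.nd (nat_lit 78) (nat_lit 456) (nat_lit 0) (XT.lf (nat_lit 0) (nat_lit 2837691824) (nat_lit 380) (nat_lit 8209783195) (nat_lit 456) (nat_lit 2266228239) (nat_lit 128) (nat_lit 5) (nat_lit 133) (nat_lit 5) (nat_lit 134) (nat_lit 5) (nat_lit 362) (nat_lit 306) (nat_lit 232)) (XT.nd (nat_lit 78) (nat_lit 0) (nat_lit 0) (XT.lf (nat_lit 0) (nat_lit 552953715) (nat_lit 380) (nat_lit 1604462590) (nat_lit 456) (nat_lit 11402455897) (nat_lit 122) (nat_lit 5) (nat_lit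 127) (nat_lit 5) (nat_lit 128) (nat_lit 5) (nat_lit 363) (nat_lit 306) (nat_lit 231)) (XT.lf (nat_lit 0) (nat_lit 6747217545) (nat_lit 456) (nat_lit 1865493912) (nat_lit 76) (nat_lit 5199145500) (nat_lit 122) (nat_lit 5) (nat_lit 128) (nat_lit 5) (nat_lit 123) (nat_lit 5) (nat_lit 364) (nat_lit 306) (nat_lit 230))))) (XT.nd (nat_lit 156) (nat_lit 760) (nat_lit 0) (XT.nd (nat_lit 78) (nat_lit 456) (nat_lit 0) (XT.lf (nat_lit 0) (nat_lit 9667701640) (nat_lit 380) (nat_lit 1840555356) (nat_lit 456) (nat_lit 2562488004) (nat_lit 117) (nat_lit 5) (nat_lit 122) (nat_lit 5) (nat_lit 123) (nat_lit 5) (nat_lit 365) (nat_lit 306) (nat_lit 229)) (XT.lf (nat_lit 0) (nat_lit 2101635700) (nat_lit 456) (nat_lit 7111634819) (nat_lit 76) (nat_lit 5122791316) (nat_lit 111) (nat_lit 5) (nat_lit 117) (nat_lit 5) (nat_lit 112) (nat_lit 5) (nat_lit 366) (nat_lit 306) (nat_lit 228))) (XT.nd (nat_lit 78) (nat_lit 456) (nat_lit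 0) (XT.lf (nat_lit 0) (nat_lit 4625422650) (nat_lit 304) (nat_lit 2279237609) (nat_lit 380) (nat_lit 7703676848) (nat_lit 107) (nat_lit 5) (nat_lit 111) (nat_lit 5) (nat_lit 112) (nat_lit 5) (nat_lit 367) (nat_lit 306) (nat_lit 227)) (XT.nd (nat_lit 78) (nat_lit 76) (nat_lit 0) (XT.lf (nat_lit 0) (nat_lit 1859050286) (nat_lit 380) (nat_lit 10046734267) (nat_lit 456) (nat_lit 2981929029) (nat_lit 102) (nat_lit 5) (nat_lit 107) (nat_lit 5) (nat_lit 108) (nat_lit 5) (nat_lit 368) (nat_lit 306) (nat_lit 226)) (XT.lf (nat_lit 0) (nat_lit 1902472459) (nat_lit 456) (nat_lit 1066241810) (nat_lit 76) (nat_lit 12205611719) (nat_lit 101) (nat_lit 5) (nat_lit 107) (nat_lit 5) (nat_lit 102) (nat_lit 5) (nat_lit 369) (nat_lit 306) (nat_lit 225))))))) (XT.nd (nat_lit 780) (nat_lit 988) (nat_lit 0) (XT.nd (nat_lit 390) (nat_lit 1216) (nat_lit 0) (XT.nd (nat_lit 156) (nat_lit 684) (nat_lit 0) (XT.nd (nat_lit 78) (nat_lit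 304) (nat_lit 0) (XT.lf (nat_lit 0) (nat_lit 6958666130) (nat_lit 380) (nat_lit 4168758195) (nat_lit 76) (nat_lit 4340414901) (nat_lit 97) (nat_lit 5) (nat_lit 102) (nat_lit 5) (nat_lit 98) (nat_lit 5) (nat_lit 370) (nat_lit 306) (nat_lit 224)) (XT.lf (nat_lit 0) (nat_lit 8313900341) (nat_lit 304) (nat_lit 3897776175) (nat_lit 380) (nat_lit 3557590504) (nat_lit 93) (nat_lit 5) (nat_lit 97) (nat_lit 5) (nat_lit 98) (nat_lit 5) (nat_lit 371) (nat_lit 306) (nat_lit 223))) (XT.nd (nat_lit 78) (nat_lit 304) (nat_lit 0) (XT.lf (nat_lit 0) (nat_lit 1572059784) (nat_lit 380) (nat_lit 10950894193) (nat_lit 76) (nat_lit 3555599558) (nat_lit 88) (nat_lit 5) (nat_lit 93) (nat_lit 5) (nat_lit 89) (nat_lit 5) (nat_lit 372) (nat_lit 306) (nat_lit 222)) (XT.nd (nat_lit 78) (nat_lit 0) (nat_lit 0) (XT.lf (nat_lit 0) (nat_lit 1711912685) (nat_lit 304) (nat_lit 5148701256) (nat_lit 380) (nat_lit 9534978312) (nat_lit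 84) (nat_lit 5) (nat_lit 88) (nat_lit 5) (nat_lit 89) (nat_lit 5) (nat_lit 373) (nat_lit 306) (nat_lit 221)) (XT.lf (nat_lit 0) (nat_lit 12363991232) (nat_lit 380) (nat_lit 1886687325) (nat_lit 76) (nat_lit 2470350809) (nat_lit 84) (nat_lit 5) (nat_lit 89) (nat_lit 5) (nat_lit 85) (nat_lit 5) (nat_lit 374) (nat_lit 306) (nat_lit 220))))) (XT.nd (nat_lit 156) (nat_lit 608) (nat_lit 0) (XT.nd (nat_lit 78) (nat_lit 304) (nat_lit 0) (XT.lf (nat_lit 0) (nat_lit 1038669554) (nat_lit 304) (nat_lit 5705433166) (nat_lit 76) (nat_lit 10310505504) (nat_lit 80) (nat_lit 5) (nat_lit 84) (nat_lit 5) (nat_lit 81) (nat_lit 5) (nat_lit 375) (nat_lit 306) (nat_lit 219)) (XT.lf (nat_lit 0) (nat_lit 6573680220) (nat_lit 380) (nat_lit 9775270241) (nat_lit 76) (nat_lit 1047945214) (nat_lit 76) (nat_lit 5) (nat_lit 81) (nat_lit 5) (nat_lit 77) (nat_lit 5) (nat_lit 376) (nat_lit 306) (nat_lit 218))) (XT.nd (nat_lit 78) (nat_lit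 380) (nat_lit 0) (XT.lf (nat_lit 0) (nat_lit 3628284091) (nat_lit 228) (nat_lit 8721533289) (nat_lit 304) (nat_lit 5398142324) (nat_lit 73) (nat_lit 5) (nat_lit 76) (nat_lit 5) (nat_lit 77) (nat_lit 5) (nat_lit 377) (nat_lit 306) (nat_lit 217)) (XT.nd (nat_lit 78) (nat_lit 304) (nat_lit 0) (XT.lf (nat_lit 0) (nat_lit 221769676) (nat_lit 304) (nat_lit 593603722) (nat_lit 76) (nat_lit 17293475160) (nat_lit 72) (nat_lit 5) (nat_lit 76) (nat_lit 5) (nat_lit 73) (nat_lit 5) (nat_lit 378) (nat_lit 306) (nat_lit 216)) (XT.lf (nat_lit 0) (nat_lit 6041646039) (nat_lit 380) (nat_lit 5098692309) (nat_lit 76) (nat_lit 7337426724) (nat_lit 68) (nat_lit 5) (nat_lit 73) (nat_lit 5) (nat_lit 69) (nat_lit 5) (nat_lit 379) (nat_lit 306) (nat_lit 215)))))) (XT.nd (nat_lit 41184) (nat_lit 0) (nat_lit 40128) (XT.nd (nat_lit 156) (nat_lit 532) (nat_lit 0) (XT.nd (nat_lit 78) (nat_lit 228) (nat_lit 0) (XT.lf (nat_lit 0)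 (nat_lit 8984091172) (nat_lit 228) (nat_lit 3089158788) (nat_lit 304) (nat_lit 6783765000) (nat_lit 65) (nat_lit 5) (nat_lit 68) (nat_lit 5) (nat_lit 69) (nat_lit 5) (nat_lit 380) (nat_lit 306) (nat_lit 214)) (XT.lf (nat_lit 0) (nat_lit 4285056590) (nat_lit 228) (nat_lit 14066885295) (nat_lit 304) (nat_lit 894385919) (nat_lit 62) (nat_lit 5) (nat_lit 65) (nat_lit 5) (nat_lit 66) (nat_lit 5) (nat_lit 381) (nat_lit 306) (nat_lit 213))) (XT.nd (nat_lit 78) (nat_lit 456) (nat_lit 0) (XT.lf (nat_lit 0) (nat_lit 5161966536) (nat_lit 304) (nat_lit 746675249) (nat_lit 76) (nat_lit 13736852160) (nat_lit 61) (nat_lit 5) (nat_lit 65) (nat_lit 5) (nat_lit 62) (nat_lit 5) (nat_lit 382) (nat_lit 306) (nat_lit 212)) (XT.nd (nat_lit 78) (nat_lit 228) (nat_lit 0) (XT.lf (nat_lit 0) (nat_lit 11466689712) (nat_lit 304) (nat_lit 6047191399) (nat_lit 76) (nat_lit 2541066725) (nat_lit 58) (nat_lit 5) (nat_lit 62) (nat_lit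 5) (nat_lit 59) (nat_lit 5) (nat_lit 383) (nat_lit 306) (nat_lit 211)) (XT.lf (nat_lit 0) (nat_lit 8766692553) (nat_lit 228) (nat_lit 9266797349) (nat_lit 304) (nat_lit 2441744143) (nat_lit 55) (nat_lit 5) (nat_lit 58) (nat_lit 5) (nat_lit 59) (nat_lit 5) (nat_lit 384) (nat_lit 306) (nat_lit 210))))) (XT.nd (nat_lit 156) (nat_lit 1596) (nat_lit 0) (XT.nd (nat_lit 78) (nat_lit 0) (nat_lit 0) (XT.lf (nat_lit 0) (nat_lit 646967333) (nat_lit 0) (nat_lit 646967333) (nat_lit 684) (nat_lit 2033314211) (nat_lit 604) (nat_lit 5) (nat_lit 604) (nat_lit 3) (nat_lit 613) (nat_lit 3) (nat_lit 307) (nat_lit 307) (nat_lit 286)) (XT.lf (nat_lit 0) (nat_lit 5882336698) (nat_lit 684) (nat_lit 643372610) (nat_lit 760) (nat_lit 160605589) (nat_lit 604) (nat_lit 5) (nat_lit 613) (nat_lit 3) (nat_lit 614) (nat_lit 5) (nat_lit 308) (nat_lit 307) (nat_lit 285))) (XT.nd (nat_lit 78) (nat_lit 836) (nat_lit 0) (XT.lf (nat_lit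 0) (nat_lit 2431595274) (nat_lit 760) (nat_lit 2541884772) (nat_lit 836) (nat_lit 1747213537) (nat_lit 594) (nat_lit 5) (nat_lit 604) (nat_lit 5) (nat_lit 605) (nat_lit 5) (nat_lit 309) (nat_lit 307) (nat_lit 284)) (XT.nd (nat_lit 78) (nat_lit 836) (nat_lit 0) (XT.lf (nat_lit 76) (nat_lit 2356696058) (nat_lit 0) (nat_lit 3292101231) (nat_lit 836) (nat_lit 1109397628) (nat_lit 595) (nat_lit 5) (nat_lit 594) (nat_lit 5) (nat_lit 605) (nat_lit 5) (nat_lit 310) (nat_lit 307) (nat_lit 283)) (XT.lf (nat_lit 76) (nat_lit 565913187) (nat_lit 0) (nat_lit 1470407844) (nat_lit 912) (nat_lit 4762340520) (nat_lit 584) (nat_lit 5) (nat_lit 583) (nat_lit 5) (nat_lit 595) (nat_lit 5) (nat_lit 311) (nat_lit 307) (nat_lit 282))))))))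
noncomputable def xc64 : XT := (XT.nd (nat_lit 1482) (nat_lit 13224) (nat_lit 0) (XT.nd (nat_lit 702) (nat_lit 11400) (nat_lit 0) (XT.nd (nat_lit 312) (nat_lit 2128) (nat_lit 0) (XT.nd (nat_lit 156) (nat_lit 912) (nat_lit 0) (XT.nd (nat_lit 78) (nat_lit 912) (nat_lit 0) (XT.lf (nat_lit 0) (nat_lit 5175558763) (nat_lit 836) (nat_lit 1176999899) (nat_lit 912) (nat_lit 489451581) (nat_lit 584) (nat_lit 5) (nat_lit 595) (nat_lit 5) (nat_lit 596) (nat_lit 5) (nat_lit 312) (nat_lit 307) (nat_lit 281)) (XT.lf (nat_lit 0) (nat_lit 1422496141) (nat_lit 912) (nat_lit 2892148496) (nat_lit 988) (nat_lit 2573508479) (nat_lit 572) (nat_lit 5) (nat_lit 584) (nat_lit 5) (nat_lit 585) (nat_lit 5) (nat_lit 313) (nat_lit 307) (nat_lit 280))) (XT.nd (nat_lit 78) (nat_lit 912) (nat_lit 0) (XT.lf (nat_lit 76) (nat_lit 2356429520) (nat_lit 0) (nat_lit 2135511405) (nat_lit 988) (nat_lit 2445401255) (nat_lit 573) (nat_lit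 5) (nat_lit 572) (nat_lit 5) (nat_lit 585) (nat_lit 5) (nat_lit 314) (nat_lit 307) (nat_lit 279)) (XT.lf (nat_lit 0) (nat_lit 571566303) (nat_lit 988) (nat_lit 6239593037) (nat_lit 1064) (nat_lit 178551713) (nat_lit 560) (nat_lit 5) (nat_lit 573) (nat_lit 5) (nat_lit 574) (nat_lit 5) (nat_lit 315) (nat_lit 307) (nat_lit 278)))) (XT.nd (nat_lit 156) (nat_lit 2128) (nat_lit 0) (XT.nd (nat_lit 78) (nat_lit 0) (nat_lit 0) (XT.lf (nat_lit 0) (nat_lit 3583646795) (nat_lit 988) (nat_lit 840012131) (nat_lit 1064) (nat_lit 2620996882) (nat_lit 560) (nat_lit 5) (nat_lit 573) (nat_lit 5) (nat_lit 574) (nat_lit 5) (nat_lit 316) (nat_lit 307) (nat_lit 277)) (XT.lf (nat_lit 76) (nat_lit 4715511981) (nat_lit 0) (nat_lit 1896445938) (nat_lit 1064) (nat_lit 490855804) (nat_lit 561) (nat_lit 5) (nat_lit 560) (nat_lit 5) (nat_lit 574) (nat_lit 5) (nat_lit 317) (nat_lit 307) (nat_lit 276))) (XT.nd (nat_lit 78) (nat_lit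 1140) (nat_lit 0) (XT.lf (nat_lit 0) (nat_lit 2463724963) (nat_lit 1064) (nat_lit 3924884218) (nat_lit 1140) (nat_lit 775271741) (nat_lit 547) (nat_lit 5) (nat_lit 561) (nat_lit 5) (nat_lit 562) (nat_lit 5) (nat_lit 318) (nat_lit 307) (nat_lit 275)) (XT.nd (nat_lit 78) (nat_lit 1140) (nat_lit 0) (XT.lf (nat_lit 76) (nat_lit 1778129584) (nat_lit 0) (nat_lit 3662584754) (nat_lit 1140) (nat_lit 1787268050) (nat_lit 548) (nat_lit 5) (nat_lit 547) (nat_lit 5) (nat_lit 562) (nat_lit 5) (nat_lit 319) (nat_lit 307) (nat_lit 274)) (XT.lf (nat_lit 76) (nat_lit 339203024) (nat_lit 0) (nat_lit 788512963) (nat_lit 1216) (nat_lit 6167593320) (nat_lit 533) (nat_lit 5) (nat_lit 532) (nat_lit 5) (nat_lit 548) (nat_lit 5) (nat_lit 320) (nat_lit 307) (nat_lit 273)))))) (XT.nd (nat_lit 390) (nat_lit 6308) (nat_lit 0) (XT.nd (nat_lit 156) (nat_lit 4028) (nat_lit 0) (XT.nd (nat_lit 78) (nat_lit 1140) (nat_lit 0) (XT.lf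 (nat_lit 0) (nat_lit 4061522232) (nat_lit 1140) (nat_lit 1084399414) (nat_lit 76) (nat_lit 2219455197) (nat_lit 533) (nat_lit 5) (nat_lit 548) (nat_lit 5) (nat_lit 534) (nat_lit 5) (nat_lit 321) (nat_lit 307) (nat_lit 272)) (XT.lf (nat_lit 0) (nat_lit 4954510955) (nat_lit 1140) (nat_lit 2073303013) (nat_lit 1216) (nat_lit 410911148) (nat_lit 518) (nat_lit 5) (nat_lit 533) (nat_lit 5) (nat_lit 534) (nat_lit 5) (nat_lit 322) (nat_lit 307) (nat_lit 271))) (XT.nd (nat_lit 78) (nat_lit 2736) (nat_lit 0) (XT.lf (nat_lit 0) (nat_lit 2482326335) (nat_lit 1292) (nat_lit 3885296179) (nat_lit 76) (nat_lit 1147438684) (nat_lit 501) (nat_lit 5) (nat_lit 518) (nat_lit 5) (nat_lit 502) (nat_lit 5) (nat_lit 323) (nat_lit 307) (nat_lit 270)) (XT.nd (nat_lit 78) (nat_lit 1444) (nat_lit 0) (XT.lf (nat_lit 0) (nat_lit 2311723671) (nat_lit 1292) (nat_lit 3101900460) (nat_lit 1368) (nat_lit 2180934957) (nat_lit 484) (nat_lit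 5) (nat_lit 501) (nat_lit 5) (nat_lit 502) (nat_lit 5) (nat_lit 324) (nat_lit 307) (nat_lit 269)) (XT.lf (nat_lit 0) (nat_lit 694132653) (nat_lit 1444) (nat_lit 6669252124) (nat_lit 76) (nat_lit 314066163) (nat_lit 465) (nat_lit 5) (nat_lit 484) (nat_lit 5) (nat_lit 466) (nat_lit 5) (nat_lit 325) (nat_lit 307) (nat_lit 268))))) (XT.nd (nat_lit 156) (nat_lit 4864) (nat_lit 0) (XT.nd (nat_lit 78) (nat_lit 1444) (nat_lit 0) (XT.lf (nat_lit 0) (nat_lit 3597487348) (nat_lit 1444) (nat_lit 307925348) (nat_lit 76) (nat_lit 3857753410) (nat_lit 465) (nat_lit 5) (nat_lit 484) (nat_lit 5) (nat_lit 466) (nat_lit 5) (nat_lit 326) (nat_lit 307) (nat_lit 267)) (XT.lf (nat_lit 0) (nat_lit 6257845660) (nat_lit 1444) (nat_lit 287928556) (nat_lit 1520) (nat_lit 1306578374) (nat_lit 446) (nat_lit 5) (nat_lit 465) (nat_lit 5) (nat_lit 466) (nat_lit 5) (nat_lit 327) (nat_lit 307) (nat_lit 266))) (XT.nd (nat_lit 78) (nat_lit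 3268) (nat_lit 0) (XT.lf (nat_lit 0) (nat_lit 1593108218) (nat_lit 1596) (nat_lit 2899737349) (nat_lit 76) (nat_lit 3451684140) (nat_lit 425) (nat_lit 5) (nat_lit 446) (nat_lit 5) (nat_lit 426) (nat_lit 5) (nat_lit 328) (nat_lit 307) (nat_lit 265)) (XT.nd (nat_lit 78) (nat_lit 1672) (nat_lit 0) (XT.lf (nat_lit 0) (nat_lit 3836317340) (nat_lit 1596) (nat_lit 684126508) (nat_lit 1672) (nat_lit 3519739573) (nat_lit 404) (nat_lit 5) (nat_lit 425) (nat_lit 5) (nat_lit 426) (nat_lit 5) (nat_lit 329) (nat_lit 307) (nat_lit 264)) (XT.lf (nat_lit 0) (nat_lit 2619382177) (nat_lit 1672) (nat_lit 4896564538) (nat_lit 1748) (nat_lit 623203772) (nat_lit 382) (nat_lit 5) (nat_lit 404) (nat_lit 5) (nat_lit 405) (nat_lit 5) (nat_lit 330) (nat_lit 307) (nat_lit 263))))))) (XT.nd (nat_lit 702) (nat_lit 5396) (nat_lit 0) (XT.nd (nat_lit 312) (nat_lit 4104) (nat_lit 0) (XT.nd (nat_lit 156) (nat_lit 988) (nat_lit 0) (XT.nd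 (nat_lit 78) (nat_lit 912) (nat_lit 0) (XT.lf (nat_lit 0) (nat_lit 1392959641) (nat_lit 1748) (nat_lit 902401952) (nat_lit 1824) (nat_lit 5946144968) (nat_lit 358) (nat_lit 5) (nat_lit 381) (nat_lit 5) (nat_lit 382) (nat_lit 5) (nat_lit 331) (nat_lit 307) (nat_lit 262)) (XT.lf (nat_lit 0) (nat_lit 149106961) (nat_lit 912) (nat_lit 5129037473) (nat_lit 988) (nat_lit 3069050785) (nat_lit 346) (nat_lit 5) (nat_lit 358) (nat_lit 5) (nat_lit 359) (nat_lit 5) (nat_lit 332) (nat_lit 307) (nat_lit 261))) (XT.nd (nat_lit 78) (nat_lit 988) (nat_lit 0) (XT.lf (nat_lit 0) (nat_lit 7375434340) (nat_lit 912) (nat_lit 954706811) (nat_lit 988) (nat_lit 126364254) (nat_lit 346) (nat_lit 5) (nat_lit 358) (nat_lit 5) (nat_lit 359) (nat_lit 5) (nat_lit 333) (nat_lit 307) (nat_lit 260)) (XT.lf (nat_lit 0) (nat_lit 2858117216) (nat_lit 988) (nat_lit 2346871661) (nat_lit 76) (nat_lit 3363939956) (nat_lit 333) (nat_lit 5)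 (nat_lit 346) (nat_lit 5) (nat_lit 334) (nat_lit 5) (nat_lit 334) (nat_lit 307) (nat_lit 259)))) (XT.nd (nat_lit 156) (nat_lit 2356) (nat_lit 0) (XT.nd (nat_lit 78) (nat_lit 912) (nat_lit 0) (XT.lf (nat_lit 0) (nat_lit 5065441346) (nat_lit 836) (nat_lit 842218706) (nat_lit 912) (nat_lit 2777545357) (nat_lit 322) (nat_lit 5) (nat_lit 333) (nat_lit 5) (nat_lit 334) (nat_lit 5) (nat_lit 335) (nat_lit 307) (nat_lit 258)) (XT.lf (nat_lit 0) (nat_lit 237588936) (nat_lit 912) (nat_lit 4920388580) (nat_lit 76) (nat_lit 3647059788) (nat_lit 310) (nat_lit 5) (nat_lit 322) (nat_lit 5) (nat_lit 311) (nat_lit 5) (nat_lit 336) (nat_lit 307) (nat_lit 257))) (XT.nd (nat_lit 78) (nat_lit 1596) (nat_lit 0) (XT.lf (nat_lit 0) (nat_lit 2678200561) (nat_lit 760) (nat_lit 608405355) (nat_lit 836) (nat_lit 5641906592) (nat_lit 300) (nat_lit 5) (nat_lit 310) (nat_lit 5) (nat_lit 311) (nat_lit 5) (nat_lit 337) (nat_lit 307)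 (nat_lit 256)) (XT.nd (nat_lit 78) (nat_lit 836) (nat_lit 0) (XT.lf (nat_lit 0) (nat_lit 1440728147) (nat_lit 760) (nat_lit 4990490034) (nat_lit 836) (nat_lit 2624428995) (nat_lit 290) (nat_lit 5) (nat_lit 300) (nat_lit 5) (nat_lit 301) (nat_lit 5) (nat_lit 338) (nat_lit 307) (nat_lit 255)) (XT.lf (nat_lit 0) (nat_lit 188972697) (nat_lit 760) (nat_lit 271925636) (nat_lit 836) (nat_lit 8725997295) (nat_lit 279) (nat_lit 5) (nat_lit 289) (nat_lit 5) (nat_lit 290) (nat_lit 5) (nat_lit 339) (nat_lit 307) (nat_lit 254)))))) (XT.nd (nat_lit 390) (nat_lit 2584) (nat_lit 0) (XT.nd (nat_lit 156) (nat_lit 2052) (nat_lit 0) (XT.nd (nat_lit 78) (nat_lit 760) (nat_lit 0) (XT.lf (nat_lit 0) (nat_lit 3622209668) (nat_lit 836) (nat_lit 1105993399) (nat_lit 76) (nat_lit 4593184761) (nat_lit 279) (nat_lit 5) (nat_lit 290) (nat_lit 5) (nat_lit 280) (nat_lit 5) (nat_lit 340) (nat_lit 307) (nat_lit 253)) (XT.lf (nat_lit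 0) (nat_lit 6866087428) (nat_lit 836) (nat_lit 2414585745) (nat_lit 76) (nat_lit 179520907) (nat_lit 269) (nat_lit 5) (nat_lit 280) (nat_lit 5) (nat_lit 270) (nat_lit 5) (nat_lit 341) (nat_lit 307) (nat_lit 252))) (XT.nd (nat_lit 78) (nat_lit 1292) (nat_lit 0) (XT.lf (nat_lit 0) (nat_lit 613596414) (nat_lit 760) (nat_lit 3774778539) (nat_lit 76) (nat_lit 5214395268) (nat_lit 259) (nat_lit 5) (nat_lit 269) (nat_lit 5) (nat_lit 260) (nat_lit 5) (nat_lit 342) (nat_lit 307) (nat_lit 251)) (XT.nd (nat_lit 78) (nat_lit 608) (nat_lit 0) (XT.lf (nat_lit 0) (nat_lit 3874463422) (nat_lit 760) (nat_lit 5176298401) (nat_lit 76) (nat_lit 698706611) (nat_lit 250) (nat_lit 5) (nat_lit 260) (nat_lit 5) (nat_lit 251) (nat_lit 5) (nat_lit 343) (nat_lit 307) (nat_lit 250)) (XT.lf (nat_lit 0) (nat_lit 3270162877) (nat_lit 608) (nat_lit 3981746439) (nat_lit 684) (nat_lit 2648313570) (nat_lit 242) (nat_lit 5) (nat_lit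 250) (nat_lit 5) (nat_lit 251) (nat_lit 5) (nat_lit 344) (nat_lit 307) (nat_lit 249))))) (XT.nd (nat_lit 156) (nat_lit 1216) (nat_lit 0) (XT.nd (nat_lit 78) (nat_lit 608) (nat_lit 0) (XT.lf (nat_lit 0) (nat_lit 665841501) (nat_lit 760) (nat_lit 8123123880) (nat_lit 76) (nat_lit 1266485446) (nat_lit 232) (nat_lit 5) (nat_lit 242) (nat_lit 5) (nat_lit 233) (nat_lit 5) (nat_lit 345) (nat_lit 307) (nat_lit 248)) (XT.lf (nat_lit 0) (nat_lit 524049052) (nat_lit 608) (nat_lit 3539296566) (nat_lit 684) (nat_lit 6151269835) (nat_lit 224) (nat_lit 5) (nat_lit 232) (nat_lit 5) (nat_lit 233) (nat_lit 5) (nat_lit 346) (nat_lit 307) (nat_lit 247))) (XT.nd (nat_lit 78) (nat_lit 1216) (nat_lit 0) (XT.lf (nat_lit 0) (nat_lit 7575882842) (nat_lit 684) (nat_lit 914181299) (nat_lit 76) (nat_lit 1888255949) (nat_lit 224) (nat_lit 5) (nat_lit 233) (nat_lit 5) (nat_lit 225) (nat_lit 5) (nat_lit 347) (nat_lit 307) (nat_lit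 246)) (XT.nd (nat_lit 78) (nat_lit 532) (nat_lit 0) (XT.lf (nat_lit 0) (nat_lit 662212387) (nat_lit 684) (nat_lit 2406340566) (nat_lit 76) (nat_lit 7477848118) (nat_lit 215) (nat_lit 5) (nat_lit 224) (nat_lit 5) (nat_lit 216) (nat_lit 5) (nat_lit 348) (nat_lit 307) (nat_lit 245)) (XT.lf (nat_lit 0) (nat_lit 4207735421) (nat_lit 608) (nat_lit 3970755217) (nat_lit 76) (nat_lit 2540388364) (nat_lit 208) (nat_lit 5) (nat_lit 216) (nat_lit 5) (nat_lit 209) (nat_lit 5) (nat_lit 349) (nat_lit 307) (nat_lit 244))))))))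
noncomputable def xc65 : XT := (XT.nd (nat_lit 1482) (nat_lit 3724) (nat_lit 0) (XT.nd (nat_lit 702) (nat_lit 3344) (nat_lit 0) (XT.nd (nat_lit 312) (nat_lit 2052) (nat_lit 0) (XT.nd (nat_lit 156) (nat_lit 1064) (nat_lit 0) (XT.nd (nat_lit 78) (nat_lit 608) (nat_lit 0) (XT.lf (nat_lit 0) (nat_lit 5299077417) (nat_lit 608) (nat_lit 2580837557) (nat_lit 684) (nat_lit 3016234913) (nat_lit 200) (nat_lit 5) (nat_lit 208) (nat_lit 5) (nat_lit 209) (nat_lit 5) (nat_lit 350) (nat_lit 307) (nat_lit 243)) (XT.lf (nat_lit 0) (nat_lit 598299247) (nat_lit 608) (nat_lit 7293920679) (nat_lit 76) (nat_lit 3186017829) (nat_lit 192) (nat_lit 5) (nat_lit 200) (nat_lit 5) (nat_lit 193) (nat_lit 5) (nat_lit 351) (nat_lit 307) (nat_lit 242))) (XT.nd (nat_lit 78) (nat_lit 532) (nat_lit 0) (XT.lf (nat_lit 0) (nat_lit 2186427028) (nat_lit 532) (nat_lit 2114382623) (nat_lit 608) (nat_lit 6964192058) (nat_lit 185) (nat_lit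 5) (nat_lit 192) (nat_lit 5) (nat_lit 193) (nat_lit 5) (nat_lit 352) (nat_lit 307) (nat_lit 241)) (XT.lf (nat_lit 0) (nat_lit 512964820) (nat_lit 532) (nat_lit 7631019456) (nat_lit 608) (nat_lit 3312814446) (nat_lit 178) (nat_lit 5) (nat_lit 185) (nat_lit 5) (nat_lit 186) (nat_lit 5) (nat_lit 353) (nat_lit 307) (nat_lit 240)))) (XT.nd (nat_lit 156) (nat_lit 1444) (nat_lit 0) (XT.nd (nat_lit 78) (nat_lit 532) (nat_lit 0) (XT.lf (nat_lit 0) (nat_lit 470559708) (nat_lit 608) (nat_lit 1216856715) (nat_lit 76) (nat_lit 9966329256) (nat_lit 177) (nat_lit 5) (nat_lit 185) (nat_lit 5) (nat_lit 178) (nat_lit 5) (nat_lit 354) (nat_lit 307) (nat_lit 239)) (XT.lf (nat_lit 0) (nat_lit 4362923330) (nat_lit 608) (nat_lit 3050508505) (nat_lit 76) (nat_lit 4441941581) (nat_lit 170) (nat_lit 5) (nat_lit 178) (nat_lit 5) (nat_lit 171) (nat_lit 5) (nat_lit 355) (nat_lit 307) (nat_lit 238))) (XT.nd (nat_lit 78) (nat_lit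 988) (nat_lit 0) (XT.lf (nat_lit 0) (nat_lit 7101999997) (nat_lit 456) (nat_lit 1290275264) (nat_lit 532) (nat_lit 3670390044) (nat_lit 164) (nat_lit 5) (nat_lit 170) (nat_lit 5) (nat_lit 171) (nat_lit 5) (nat_lit 356) (nat_lit 307) (nat_lit 237)) (XT.nd (nat_lit 78) (nat_lit 456) (nat_lit 0) (XT.lf (nat_lit 0) (nat_lit 306262614) (nat_lit 532) (nat_lit 6976089204) (nat_lit 76) (nat_lit 4992939790) (nat_lit 157) (nat_lit 5) (nat_lit 164) (nat_lit 5) (nat_lit 158) (nat_lit 5) (nat_lit 357) (nat_lit 307) (nat_lit 236)) (XT.lf (nat_lit 0) (nat_lit 3391975506) (nat_lit 456) (nat_lit 981110185) (nat_lit 532) (nat_lit 8120329218) (nat_lit 151) (nat_lit 5) (nat_lit 157) (nat_lit 5) (nat_lit 158) (nat_lit 5) (nat_lit 358) (nat_lit 307) (nat_lit 235)))))) (XT.nd (nat_lit 390) (nat_lit 1596) (nat_lit 0) (XT.nd (nat_lit 156) (nat_lit 1216) (nat_lit 0) (XT.nd (nat_lit 78) (nat_lit 76) (nat_lit 0) (XT.lf (nat_lit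 0) (nat_lit 1371281675) (nat_lit 456) (nat_lit 7239645948) (nat_lit 532) (nat_lit 4106191645) (nat_lit 145) (nat_lit 5) (nat_lit 151) (nat_lit 5) (nat_lit 152) (nat_lit 5) (nat_lit 359) (nat_lit 307) (nat_lit 234)) (XT.lf (nat_lit 0) (nat_lit 53976668) (nat_lit 532) (nat_lit 730354349) (nat_lit 76) (nat_lit 12162697277) (nat_lit 144) (nat_lit 5) (nat_lit 151) (nat_lit 5) (nat_lit 145) (nat_lit 5) (nat_lit 360) (nat_lit 307) (nat_lit 233))) (XT.nd (nat_lit 78) (nat_lit 836) (nat_lit 0) (XT.lf (nat_lit 0) (nat_lit 4347218396) (nat_lit 456) (nat_lit 2968720209) (nat_lit 76) (nat_lit 5866088346) (nat_lit 139) (nat_lit 5) (nat_lit 145) (nat_lit 5) (nat_lit 140) (nat_lit 5) (nat_lit 361) (nat_lit 307) (nat_lit 232)) (XT.nd (nat_lit 78) (nat_lit 380) (nat_lit 0) (XT.lf (nat_lit 0) (nat_lit 8114737527) (nat_lit 456) (nat_lit 676740724) (nat_lit 532) (nat_lit 4632168729) (nat_lit 133) (nat_lit 5) (nat_lit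 139) (nat_lit 5) (nat_lit 140) (nat_lit 5) (nat_lit 362) (nat_lit 307) (nat_lit 231)) (XT.lf (nat_lit 0) (nat_lit 5878707734) (nat_lit 380) (nat_lit 7548796724) (nat_lit 456) (nat_lit 243857750) (nat_lit 128) (nat_lit 5) (nat_lit 133) (nat_lit 5) (nat_lit 134) (nat_lit 5) (nat_lit 363) (nat_lit 307) (nat_lit 230))))) (XT.nd (nat_lit 156) (nat_lit 760) (nat_lit 0) (XT.nd (nat_lit 78) (nat_lit 380) (nat_lit 0) (XT.lf (nat_lit 0) (nat_lit 3505194728) (nat_lit 380) (nat_lit 738860505) (nat_lit 456) (nat_lit 9681432331) (nat_lit 122) (nat_lit 5) (nat_lit 127) (nat_lit 5) (nat_lit 128) (nat_lit 5) (nat_lit 364) (nat_lit 307) (nat_lit 229)) (XT.lf (nat_lit 0) (nat_lit 975707387) (nat_lit 380) (nat_lit 7949047078) (nat_lit 456) (nat_lit 5261234944) (nat_lit 117) (nat_lit 5) (nat_lit 122) (nat_lit 5) (nat_lit 123) (nat_lit 5) (nat_lit 365) (nat_lit 307) (nat_lit 228))) (XT.nd (nat_lit 78) (nat_lit 760) (nat_lit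 0) (XT.lf (nat_lit 0) (nat_lit 12795306760) (nat_lit 380) (nat_lit 988063549) (nat_lit 456) (nat_lit 670199875) (nat_lit 117) (nat_lit 5) (nat_lit 122) (nat_lit 5) (nat_lit 123) (nat_lit 5) (nat_lit 366) (nat_lit 307) (nat_lit 227)) (XT.nd (nat_lit 78) (nat_lit 304) (nat_lit 0) (XT.lf (nat_lit 0) (nat_lit 4075638575) (nat_lit 456) (nat_lit 4474522559) (nat_lit 76) (nat_lit 6177097334) (nat_lit 111) (nat_lit 5) (nat_lit 117) (nat_lit 5) (nat_lit 112) (nat_lit 5) (nat_lit 367) (nat_lit 307) (nat_lit 226)) (XT.lf (nat_lit 0) (nat_lit 7568401286) (nat_lit 304) (nat_lit 1416900566) (nat_lit 380) (nat_lit 6023168588) (nat_lit 107) (nat_lit 5) (nat_lit 111) (nat_lit 5) (nat_lit 112) (nat_lit 5) (nat_lit 368) (nat_lit 307) (nat_lit 225))))))) (XT.nd (nat_lit 780) (nat_lit 1140) (nat_lit 0) (XT.nd (nat_lit 390) (nat_lit 1140) (nat_lit 0) (XT.nd (nat_lit 156) (nat_lit 684) (nat_lit 0) (XT.nd (nat_lit 78) (nat_lit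 380) (nat_lit 0) (XT.lf (nat_lit 0) (nat_lit 4705096284) (nat_lit 380) (nat_lit 9400778700) (nat_lit 456) (nat_lit 1190983761) (nat_lit 102) (nat_lit 5) (nat_lit 107) (nat_lit 5) (nat_lit 108) (nat_lit 5) (nat_lit 369) (nat_lit 307) (nat_lit 224)) (XT.lf (nat_lit 0) (nat_lit 1657048973) (nat_lit 304) (nat_lit 2114946916) (nat_lit 380) (nat_lit 11820713228) (nat_lit 97) (nat_lit 5) (nat_lit 101) (nat_lit 5) (nat_lit 102) (nat_lit 5) (nat_lit 370) (nat_lit 307) (nat_lit 223))) (XT.nd (nat_lit 78) (nat_lit 684) (nat_lit 0) (XT.lf (nat_lit 0) (nat_lit 8940089965) (nat_lit 380) (nat_lit 1574699815) (nat_lit 76) (nat_lit 5381051089) (nat_lit 97) (nat_lit 5) (nat_lit 102) (nat_lit 5) (nat_lit 98) (nat_lit 5) (nat_lit 371) (nat_lit 307) (nat_lit 222)) (XT.nd (nat_lit 78) (nat_lit 380) (nat_lit 0) (XT.lf (nat_lit 0) (nat_lit 11238323968) (nat_lit 304) (nat_lit 3078103626) (nat_lit 380) (nat_lit 1890586064)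 (nat_lit 93) (nat_lit 5) (nat_lit 97) (nat_lit 5) (nat_lit 98) (nat_lit 5) (nat_lit 372) (nat_lit 307) (nat_lit 221)) (XT.lf (nat_lit 0) (nat_lit 3342036785) (nat_lit 380) (nat_lit 8595605920) (nat_lit 76) (nat_lit 4588274908) (nat_lit 88) (nat_lit 5) (nat_lit 93) (nat_lit 5) (nat_lit 89) (nat_lit 5) (nat_lit 373) (nat_lit 307) (nat_lit 220))))) (XT.nd (nat_lit 156) (nat_lit 608) (nat_lit 0) (XT.nd (nat_lit 78) (nat_lit 228) (nat_lit 0) (XT.lf (nat_lit 0) (nat_lit 4403543453) (nat_lit 304) (nat_lit 4352667436) (nat_lit 380) (nat_lit 8096932955) (nat_lit 84) (nat_lit 5) (nat_lit 88) (nat_lit 5) (nat_lit 89) (nat_lit 5) (nat_lit 374) (nat_lit 307) (nat_lit 219)) (XT.lf (nat_lit 0) (nat_lit 656013184) (nat_lit 228) (nat_lit 13729710235) (nat_lit 304) (nat_lit 2803415136) (nat_lit 81) (nat_lit 5) (nat_lit 84) (nat_lit 5) (nat_lit 85) (nat_lit 5) (nat_lit 375) (nat_lit 307) (nat_lit 218))) (XT.nd (nat_lit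 78) (nat_lit 532) (nat_lit 0) (XT.lf (nat_lit 0) (nat_lit 2696153188) (nat_lit 304) (nat_lit 3305835666) (nat_lit 76) (nat_lit 11531250047) (nat_lit 80) (nat_lit 5) (nat_lit 84) (nat_lit 5) (nat_lit 81) (nat_lit 5) (nat_lit 376) (nat_lit 307) (nat_lit 217)) (XT.nd (nat_lit 78) (nat_lit 228) (nat_lit 0) (XT.lf (nat_lit 0) (nat_lit 8372327871) (nat_lit 380) (nat_lit 7513162853) (nat_lit 76) (nat_lit 2000815989) (nat_lit 76) (nat_lit 5) (nat_lit 81) (nat_lit 5) (nat_lit 77) (nat_lit 5) (nat_lit 377) (nat_lit 307) (nat_lit 216)) (XT.lf (nat_lit 0) (nat_lit 6251040339) (nat_lit 228) (nat_lit 8040386961) (nat_lit 304) (nat_lit 3957095406) (nat_lit 73) (nat_lit 5) (nat_lit 76) (nat_lit 5) (nat_lit 77) (nat_lit 5) (nat_lit 378) (nat_lit 307) (nat_lit 215)))))) (XT.nd (nat_lit 390) (nat_lit 0) (nat_lit 0) (XT.nd (nat_lit 156) (nat_lit 760) (nat_lit 0) (XT.nd (nat_lit 78) (nat_lit 0) (nat_lit 0) (XT.lf (nat_lit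 0) (nat_lit 1777123245) (nat_lit 380) (nat_lit 16746653631) (nat_lit 76) (nat_lit 96931489) (nat_lit 68) (nat_lit 5) (nat_lit 73) (nat_lit 5) (nat_lit 69) (nat_lit 5) (nat_lit 379) (nat_lit 307) (nat_lit 214)) (XT.lf (nat_lit 0) (nat_lit 7735713213) (nat_lit 380) (nat_lit 2805440837) (nat_lit 76) (nat_lit 8460268549) (nat_lit 68) (nat_lit 5) (nat_lit 73) (nat_lit 5) (nat_lit 69) (nat_lit 5) (nat_lit 380) (nat_lit 307) (nat_lit 213))) (XT.nd (nat_lit 78) (nat_lit 532) (nat_lit 0) (XT.lf (nat_lit 0) (nat_lit 11660139262) (nat_lit 228) (nat_lit 2259688096) (nat_lit 304) (nat_lit 5472803591) (nat_lit 65) (nat_lit 5) (nat_lit 68) (nat_lit 5) (nat_lit 69) (nat_lit 5) (nat_lit 381) (nat_lit 307) (nat_lit 212)) (XT.nd (nat_lit 78) (nat_lit 228) (nat_lit 0) (XT.lf (nat_lit 0) (nat_lit 563423163) (nat_lit 304) (nat_lit 12992972891) (nat_lit 76) (nat_lit 6237602766) (nat_lit 61) (nat_lit 5) (nat_lit 65) (nat_lit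 5) (nat_lit 62) (nat_lit 5) (nat_lit 382) (nat_lit 307) (nat_lit 211)) (XT.lf (nat_lit 0) (nat_lit 1592741059) (nat_lit 228) (nat_lit 5164094272) (nat_lit 304) (nat_lit 13448847249) (nat_lit 58) (nat_lit 5) (nat_lit 61) (nat_lit 5) (nat_lit 62) (nat_lit 5) (nat_lit 383) (nat_lit 307) (nat_lit 210))))) (XT.nd (nat_lit 41028) (nat_lit 0) (nat_lit 39824) (XT.nd (nat_lit 40950) (nat_lit 0) (nat_lit 40660) (XT.lf (nat_lit 0) (nat_lit 13219513700) (nat_lit 304) (nat_lit 3903076981) (nat_lit 76) (nat_lit 3505464087) (nat_lit 58) (nat_lit 5) (nat_lit 62) (nat_lit 5) (nat_lit 59) (nat_lit 5) (nat_lit 384) (nat_lit 307) (nat_lit 209)) (XT.lf (nat_lit 0) (nat_lit 1180629721) (nat_lit 836) (nat_lit 1089477770) (nat_lit 836) (nat_lit 1089477770) (nat_lit 593) (nat_lit 3) (nat_lit 604) (nat_lit 3) (nat_lit 604) (nat_lit 5) (nat_lit 308) (nat_lit 308) (nat_lit 284))) (XT.nd (nat_lit 78) (nat_lit 836) (nat_lit 0)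 (XT.lf (nat_lit 76) (nat_lit 2596521156) (nat_lit 0) (nat_lit 2907783517) (nat_lit 836) (nat_lit 1250832654) (nat_lit 594) (nat_lit 5) (nat_lit 593) (nat_lit 3) (nat_lit 604) (nat_lit 5) (nat_lit 309) (nat_lit 308) (nat_lit 283)) (XT.nd (nat_lit 78) (nat_lit 0) (nat_lit 76) (XT.lf (nat_lit 76) (nat_lit 685322298) (nat_lit 0) (nat_lit 1135947590) (nat_lit 912) (nat_lit 4972814608) (nat_lit 583) (nat_lit 5) (nat_lit 582) (nat_lit 5) (nat_lit 594) (nat_lit 5) (nat_lit 310) (nat_lit 308) (nat_lit 282)) (XT.lf (nat_lit 0) (nat_lit 4883049262) (nat_lit 836) (nat_lit 1181066661) (nat_lit 912) (nat_lit 771727763) (nat_lit 583) (nat_lit 5) (nat_lit 594) (nat_lit 5) (nat_lit 595) (nat_lit 5) (nat_lit 311) (nat_lit 308) (nat_lit 281))))))))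
noncomputable def xc66 : XT := (XT.nd (nat_lit 1482) (nat_lit 14820) (nat_lit 0) (XT.nd (nat_lit 702) (nat_lit 9728) (nat_lit 0) (XT.nd (nat_lit 312) (nat_lit 2128) (nat_lit 0) (XT.nd (nat_lit 156) (nat_lit 912) (nat_lit 0) (XT.nd (nat_lit 78) (nat_lit 0) (nat_lit 0) (XT.lf (nat_lit 0) (nat_lit 1059768538) (nat_lit 912) (nat_lit 3013889587) (nat_lit 988) (nat_lit 2806798975) (nat_lit 571) (nat_lit 5) (nat_lit 583) (nat_lit 5) (nat_lit 584) (nat_lit 5) (nat_lit 312) (nat_lit 308) (nat_lit 280)) (XT.lf (nat_lit 76) (nat_lit 2105508870) (nat_lit 0) (nat_lit 1939672368) (nat_lit 988) (nat_lit 2882881045) (nat_lit 572) (nat_lit 5) (nat_lit 571) (nat_lit 5) (nat_lit 584) (nat_lit 5) (nat_lit 313) (nat_lit 308) (nat_lit 279))) (XT.nd (nat_lit 78) (nat_lit 0) (nat_lit 0) (XT.lf (nat_lit 0) (nat_lit 55540619) (nat_lit 988) (nat_lit 6599105226) (nat_lit 1064) (nat_lit 324231260) (nat_lit 559) (nat_lit 5) (nat_lit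 572) (nat_lit 5) (nat_lit 573) (nat_lit 5) (nat_lit 314) (nat_lit 308) (nat_lit 278)) (XT.lf (nat_lit 0) (nat_lit 2981320874) (nat_lit 988) (nat_lit 1325380226) (nat_lit 1064) (nat_lit 2725451340) (nat_lit 559) (nat_lit 5) (nat_lit 572) (nat_lit 5) (nat_lit 573) (nat_lit 5) (nat_lit 315) (nat_lit 308) (nat_lit 277)))) (XT.nd (nat_lit 156) (nat_lit 1140) (nat_lit 0) (XT.nd (nat_lit 78) (nat_lit 988) (nat_lit 0) (XT.lf (nat_lit 76) (nat_lit 4095680585) (nat_lit 0) (nat_lit 1821205938) (nat_lit 1064) (nat_lit 1171781452) (nat_lit 560) (nat_lit 5) (nat_lit 559) (nat_lit 5) (nat_lit 573) (nat_lit 5) (nat_lit 316) (nat_lit 308) (nat_lit 276)) (XT.lf (nat_lit 0) (nat_lit 1698020520) (nat_lit 1064) (nat_lit 4646554674) (nat_lit 1140) (nat_lit 803591010) (nat_lit 546) (nat_lit 5) (nat_lit 560) (nat_lit 5) (nat_lit 561) (nat_lit 5) (nat_lit 317) (nat_lit 308) (nat_lit 275))) (XT.nd (nat_lit 78) (nat_lit 1140)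 (nat_lit 0) (XT.lf (nat_lit 76) (nat_lit 918625609) (nat_lit 0) (nat_lit 3658131896) (nat_lit 1140) (nat_lit 2633837692) (nat_lit 547) (nat_lit 5) (nat_lit 546) (nat_lit 5) (nat_lit 561) (nat_lit 5) (nat_lit 318) (nat_lit 308) (nat_lit 274)) (XT.nd (nat_lit 78) (nat_lit 0) (nat_lit 76) (XT.lf (nat_lit 0) (nat_lit 197032643) (nat_lit 1140) (nat_lit 628392289) (nat_lit 1216) (nat_lit 6450838260) (nat_lit 531) (nat_lit 5) (nat_lit 546) (nat_lit 5) (nat_lit 547) (nat_lit 5) (nat_lit 319) (nat_lit 308) (nat_lit 273)) (XT.lf (nat_lit 0) (nat_lit 3029813027) (nat_lit 1140) (nat_lit 2168023600) (nat_lit 1216) (nat_lit 2146731239) (nat_lit 532) (nat_lit 5) (nat_lit 547) (nat_lit 5) (nat_lit 548) (nat_lit 5) (nat_lit 320) (nat_lit 308) (nat_lit 272)))))) (XT.nd (nat_lit 390) (nat_lit 6080) (nat_lit 0) (XT.nd (nat_lit 156) (nat_lit 2584) (nat_lit 0) (XT.nd (nat_lit 78) (nat_lit 1140) (nat_lit 0) (XT.lf (nat_lit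 76) (nat_lit 3727049259) (nat_lit 0) (nat_lit 2161822036) (nat_lit 1216) (nat_lit 1527292631) (nat_lit 533) (nat_lit 5) (nat_lit 532) (nat_lit 5) (nat_lit 548) (nat_lit 5) (nat_lit 321) (nat_lit 308) (nat_lit 271)) (XT.lf (nat_lit 0) (nat_lit 1271446239) (nat_lit 1216) (nat_lit 5203292803) (nat_lit 76) (nat_lit 1016153649) (nat_lit 517) (nat_lit 5) (nat_lit 533) (nat_lit 5) (nat_lit 518) (nat_lit 5) (nat_lit 322) (nat_lit 308) (nat_lit 270))) (XT.nd (nat_lit 78) (nat_lit 1368) (nat_lit 0) (XT.lf (nat_lit 0) (nat_lit 846196773) (nat_lit 1216) (nat_lit 3243728905) (nat_lit 1292) (nat_lit 3478668131) (nat_lit 501) (nat_lit 5) (nat_lit 517) (nat_lit 5) (nat_lit 518) (nat_lit 5) (nat_lit 323) (nat_lit 308) (nat_lit 269)) (XT.nd (nat_lit 78) (nat_lit 1368) (nat_lit 0) (XT.lf (nat_lit 0) (nat_lit 6942585709) (nat_lit 1292) (nat_lit 567964453) (nat_lit 76) (nat_lit 139144407) (nat_lit 501) (nat_lit 5) (nat_lit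 518) (nat_lit 5) (nat_lit 502) (nat_lit 5) (nat_lit 324) (nat_lit 308) (nat_lit 268)) (XT.lf (nat_lit 0) (nat_lit 2094397018) (nat_lit 1368) (nat_lit 1988307656) (nat_lit 76) (nat_lit 3650803673) (nat_lit 483) (nat_lit 5) (nat_lit 501) (nat_lit 5) (nat_lit 484) (nat_lit 5) (nat_lit 325) (nat_lit 308) (nat_lit 267))))) (XT.nd (nat_lit 156) (nat_lit 3268) (nat_lit 0) (XT.nd (nat_lit 78) (nat_lit 1444) (nat_lit 0) (XT.lf (nat_lit 0) (nat_lit 4423259092) (nat_lit 1368) (nat_lit 497258460) (nat_lit 1444) (nat_lit 2900278473) (nat_lit 465) (nat_lit 5) (nat_lit 483) (nat_lit 5) (nat_lit 484) (nat_lit 5) (nat_lit 326) (nat_lit 308) (nat_lit 266)) (XT.lf (nat_lit 0) (nat_lit 3097265153) (nat_lit 1444) (nat_lit 4708190673) (nat_lit 1520) (nat_lit 105820675) (nat_lit 446) (nat_lit 5) (nat_lit 465) (nat_lit 5) (nat_lit 466) (nat_lit 5) (nat_lit 327) (nat_lit 308) (nat_lit 265))) (XT.nd (nat_lit 78) (nat_lit 1672)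 (nat_lit 0) (XT.lf (nat_lit 0) (nat_lit 1764572205) (nat_lit 1520) (nat_lit 930452221) (nat_lit 1596) (nat_lit 5309960854) (nat_lit 425) (nat_lit 5) (nat_lit 445) (nat_lit 5) (nat_lit 446) (nat_lit 5) (nat_lit 328) (nat_lit 308) (nat_lit 264)) (XT.nd (nat_lit 78) (nat_lit 76) (nat_lit 0) (XT.lf (nat_lit 0) (nat_lit 423878879) (nat_lit 1596) (nat_lit 5132309535) (nat_lit 1672) (nat_lit 2545798980) (nat_lit 404) (nat_lit 5) (nat_lit 425) (nat_lit 5) (nat_lit 426) (nat_lit 5) (nat_lit 329) (nat_lit 308) (nat_lit 263)) (XT.lf (nat_lit 0) (nat_lit 270306763) (nat_lit 1672) (nat_lit 903050099) (nat_lit 76) (nat_lit 7029092421) (nat_lit 403) (nat_lit 5) (nat_lit 425) (nat_lit 5) (nat_lit 404) (nat_lit 5) (nat_lit 330) (nat_lit 308) (nat_lit 262))))))) (XT.nd (nat_lit 702) (nat_lit 6156) (nat_lit 0) (XT.nd (nat_lit 312) (nat_lit 3344) (nat_lit 0) (XT.nd (nat_lit 156) (nat_lit 1900) (nat_lit 0) (XT.nd (nat_lit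 78) (nat_lit 1748) (nat_lit 0) (XT.lf (nat_lit 0) (nat_lit 3121609431) (nat_lit 1748) (nat_lit 2252824375) (nat_lit 76) (nat_lit 2931495485) (nat_lit 381) (nat_lit 5) (nat_lit 404) (nat_lit 5) (nat_lit 382) (nat_lit 5) (nat_lit 331) (nat_lit 308) (nat_lit 261)) (XT.lf (nat_lit 0) (nat_lit 4807496556) (nat_lit 1748) (nat_lit 1224343115) (nat_lit 1824) (nat_lit 2381251732) (nat_lit 358) (nat_lit 5) (nat_lit 381) (nat_lit 5) (nat_lit 382) (nat_lit 5) (nat_lit 332) (nat_lit 308) (nat_lit 260))) (XT.nd (nat_lit 78) (nat_lit 912) (nat_lit 0) (XT.lf (nat_lit 0) (nat_lit 487235876) (nat_lit 988) (nat_lit 4979030582) (nat_lit 76) (nat_lit 3057420260) (nat_lit 345) (nat_lit 5) (nat_lit 358) (nat_lit 5) (nat_lit 346) (nat_lit 5) (nat_lit 333) (nat_lit 308) (nat_lit 259)) (XT.lf (nat_lit 0) (nat_lit 2261148901) (nat_lit 912) (nat_lit 1126927976) (nat_lit 988) (nat_lit 5249677226) (nat_lit 333) (nat_lit 5) (nat_lit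 345) (nat_lit 5) (nat_lit 346) (nat_lit 5) (nat_lit 334) (nat_lit 308) (nat_lit 258)))) (XT.nd (nat_lit 156) (nat_lit 2432) (nat_lit 0) (XT.nd (nat_lit 78) (nat_lit 76) (nat_lit 0) (XT.lf (nat_lit 0) (nat_lit 956511274) (nat_lit 836) (nat_lit 5413916101) (nat_lit 912) (nat_lit 2384967248) (nat_lit 322) (nat_lit 5) (nat_lit 333) (nat_lit 5) (nat_lit 334) (nat_lit 5) (nat_lit 335) (nat_lit 308) (nat_lit 257)) (XT.lf (nat_lit 0) (nat_lit 542970666) (nat_lit 912) (nat_lit 356362585) (nat_lit 76) (nat_lit 7977502375) (nat_lit 321) (nat_lit 5) (nat_lit 333) (nat_lit 5) (nat_lit 322) (nat_lit 5) (nat_lit 336) (nat_lit 308) (nat_lit 256))) (XT.nd (nat_lit 78) (nat_lit 1596) (nat_lit 0) (XT.lf (nat_lit 0) (nat_lit 3534469855) (nat_lit 912) (nat_lit 1701338833) (nat_lit 76) (nat_lit 3765671070) (nat_lit 310) (nat_lit 5) (nat_lit 322) (nat_lit 5) (nat_lit 311) (nat_lit 5) (nat_lit 337) (nat_lit 308) (nat_lit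 255)) (XT.nd (nat_lit 78) (nat_lit 836) (nat_lit 0) (XT.lf (nat_lit 0) (nat_lit 6070587901) (nat_lit 760) (nat_lit 530055356) (nat_lit 836) (nat_lit 2529557978) (nat_lit 300) (nat_lit 5) (nat_lit 310) (nat_lit 5) (nat_lit 311) (nat_lit 5) (nat_lit 338) (nat_lit 308) (nat_lit 254)) (XT.lf (nat_lit 0) (nat_lit 498859913) (nat_lit 836) (nat_lit 4459181926) (nat_lit 76) (nat_lit 4304525996) (nat_lit 289) (nat_lit 5) (nat_lit 300) (nat_lit 5) (nat_lit 290) (nat_lit 5) (nat_lit 339) (nat_lit 308) (nat_lit 253)))))) (XT.nd (nat_lit 390) (nat_lit 3192) (nat_lit 0) (XT.nd (nat_lit 156) (nat_lit 1444) (nat_lit 0) (XT.nd (nat_lit 78) (nat_lit 760) (nat_lit 0) (XT.lf (nat_lit 0) (nat_lit 3506656196) (nat_lit 760) (nat_lit 63912031) (nat_lit 836) (nat_lit 5828300532) (nat_lit 279) (nat_lit 5) (nat_lit 289) (nat_lit 5) (nat_lit 290) (nat_lit 5) (nat_lit 340) (nat_lit 308) (nat_lit 252)) (XT.lf (nat_lit 0) (nat_lit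 2165189205) (nat_lit 760) (nat_lit 4586780007) (nat_lit 836) (nat_lit 2786971514) (nat_lit 269) (nat_lit 5) (nat_lit 279) (nat_lit 5) (nat_lit 280) (nat_lit 5) (nat_lit 341) (nat_lit 308) (nat_lit 251))) (XT.nd (nat_lit 78) (nat_lit 684) (nat_lit 0) (XT.lf (nat_lit 0) (nat_lit 331666063) (nat_lit 760) (nat_lit 8880672241) (nat_lit 76) (nat_lit 471050905) (nat_lit 259) (nat_lit 5) (nat_lit 269) (nat_lit 5) (nat_lit 260) (nat_lit 5) (nat_lit 342) (nat_lit 308) (nat_lit 250)) (XT.nd (nat_lit 78) (nat_lit 684) (nat_lit 0) (XT.lf (nat_lit 0) (nat_lit 3530085306) (nat_lit 760) (nat_lit 619795533) (nat_lit 76) (nat_lit 5681470489) (nat_lit 259) (nat_lit 5) (nat_lit 269) (nat_lit 5) (nat_lit 260) (nat_lit 5) (nat_lit 343) (nat_lit 308) (nat_lit 249)) (XT.lf (nat_lit 0) (nat_lit 6827714909) (nat_lit 760) (nat_lit 2060669125) (nat_lit 76) (nat_lit 1095332588) (nat_lit 250) (nat_lit 5) (nat_lit 260) (nat_lit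 5) (nat_lit 251) (nat_lit 5) (nat_lit 344) (nat_lit 308) (nat_lit 248))))) (XT.nd (nat_lit 156) (nat_lit 1824) (nat_lit 0) (XT.nd (nat_lit 78) (nat_lit 684) (nat_lit 0) (XT.lf (nat_lit 0) (nat_lit 103102793) (nat_lit 684) (nat_lit 3554831128) (nat_lit 76) (nat_lit 6482324562) (nat_lit 241) (nat_lit 5) (nat_lit 250) (nat_lit 5) (nat_lit 242) (nat_lit 5) (nat_lit 345) (nat_lit 308) (nat_lit 247)) (XT.lf (nat_lit 0) (nat_lit 3423342594) (nat_lit 760) (nat_lit 5110203049) (nat_lit 76) (nat_lit 1767436167) (nat_lit 232) (nat_lit 5) (nat_lit 242) (nat_lit 5) (nat_lit 233) (nat_lit 5) (nat_lit 346) (nat_lit 308) (nat_lit 246))) (XT.nd (nat_lit 78) (nat_lit 1216) (nat_lit 0) (XT.lf (nat_lit 0) (nat_lit 3743550370) (nat_lit 608) (nat_lit 3120288767) (nat_lit 684) (nat_lit 3602301146) (nat_lit 224) (nat_lit 5) (nat_lit 232) (nat_lit 5) (nat_lit 233) (nat_lit 5) (nat_lit 347) (nat_lit 308) (nat_lit 245)) (XT.nd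 (nat_lit 78) (nat_lit 608) (nat_lit 0) (XT.lf (nat_lit 0) (nat_lit 2248350313) (nat_lit 608) (nat_lit 8173293213) (nat_lit 684) (nat_lit 214353792) (nat_lit 216) (nat_lit 5) (nat_lit 224) (nat_lit 5) (nat_lit 225) (nat_lit 5) (nat_lit 348) (nat_lit 308) (nat_lit 244)) (XT.lf (nat_lit 0) (nat_lit 674860268) (nat_lit 532) (nat_lit 2577956020) (nat_lit 608) (nat_lit 7557322116) (nat_lit 208) (nat_lit 5) (nat_lit 215) (nat_lit 5) (nat_lit 216) (nat_lit 5) (nat_lit 349) (nat_lit 308) (nat_lit 243))))))))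
noncomputable def xc67 : XT := (XT.nd (nat_lit 1482) (nat_lit 3800) (nat_lit 0) (XT.nd (nat_lit 702) (nat_lit 3496) (nat_lit 0) (XT.nd (nat_lit 312) (nat_lit 2128) (nat_lit 0) (XT.nd (nat_lit 156) (nat_lit 1140) (nat_lit 0) (XT.nd (nat_lit 78) (nat_lit 608) (nat_lit 0) (XT.lf (nat_lit 0) (nat_lit 6849437983) (nat_lit 608) (nat_lit 948694104) (nat_lit 76) (nat_lit 3190800043) (nat_lit 208) (nat_lit 5) (nat_lit 216) (nat_lit 5) (nat_lit 209) (nat_lit 5) (nat_lit 350) (nat_lit 308) (nat_lit 242)) (XT.lf (nat_lit 0) (nat_lit 8548271535) (nat_lit 608) (nat_lit 2030309025) (nat_lit 684) (nat_lit 594039689) (nat_lit 200) (nat_lit 5) (nat_lit 208) (nat_lit 5) (nat_lit 209) (nat_lit 5) (nat_lit 351) (nat_lit 308) (nat_lit 241))) (XT.nd (nat_lit 78) (nat_lit 532) (nat_lit 0) (XT.lf (nat_lit 0) (nat_lit 3047902590) (nat_lit 608) (nat_lit 4393638516) (nat_lit 76) (nat_lit 3919298214) (nat_lit 192) (nat_lit 5)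 (nat_lit 200) (nat_lit 5) (nat_lit 193) (nat_lit 5) (nat_lit 352) (nat_lit 308) (nat_lit 240)) (XT.lf (nat_lit 0) (nat_lit 5320515934) (nat_lit 532) (nat_lit 1490070200) (nat_lit 608) (nat_lit 4743670506) (nat_lit 185) (nat_lit 5) (nat_lit 192) (nat_lit 5) (nat_lit 193) (nat_lit 5) (nat_lit 353) (nat_lit 308) (nat_lit 239)))) (XT.nd (nat_lit 156) (nat_lit 988) (nat_lit 0) (XT.nd (nat_lit 78) (nat_lit 608) (nat_lit 0) (XT.lf (nat_lit 0) (nat_lit 3590579411) (nat_lit 532) (nat_lit 7133351522) (nat_lit 608) (nat_lit 1028810589) (nat_lit 178) (nat_lit 5) (nat_lit 185) (nat_lit 5) (nat_lit 186) (nat_lit 5) (nat_lit 354) (nat_lit 308) (nat_lit 238)) (XT.lf (nat_lit 0) (nat_lit 1774288541) (nat_lit 532) (nat_lit 1005528907) (nat_lit 608) (nat_lit 9176639667) (nat_lit 170) (nat_lit 5) (nat_lit 177) (nat_lit 5) (nat_lit 178) (nat_lit 5) (nat_lit 355) (nat_lit 308) (nat_lit 237))) (XT.nd (nat_lit 78) (nat_lit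 988) (nat_lit 0) (XT.lf (nat_lit 0) (nat_lit 6734779286) (nat_lit 608) (nat_lit 145360862) (nat_lit 76) (nat_lit 5285106063) (nat_lit 170) (nat_lit 5) (nat_lit 178) (nat_lit 5) (nat_lit 171) (nat_lit 5) (nat_lit 356) (nat_lit 308) (nat_lit 236)) (XT.nd (nat_lit 78) (nat_lit 532) (nat_lit 0) (XT.lf (nat_lit 0) (nat_lit 10263105600) (nat_lit 456) (nat_lit 575775922) (nat_lit 532) (nat_lit 1540826164) (nat_lit 164) (nat_lit 5) (nat_lit 170) (nat_lit 5) (nat_lit 171) (nat_lit 5) (nat_lit 357) (nat_lit 308) (nat_lit 235)) (XT.lf (nat_lit 0) (nat_lit 2485365615) (nat_lit 532) (nat_lit 4216123121) (nat_lit 76) (nat_lit 5897767813) (nat_lit 157) (nat_lit 5) (nat_lit 164) (nat_lit 5) (nat_lit 158) (nat_lit 5) (nat_lit 358) (nat_lit 308) (nat_lit 234)))))) (XT.nd (nat_lit 390) (nat_lit 1672) (nat_lit 0) (XT.nd (nat_lit 156) (nat_lit 912) (nat_lit 0) (XT.nd (nat_lit 78) (nat_lit 456) (nat_lit 0) (XT.lf (nat_lit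 0) (nat_lit 6414810997) (nat_lit 456) (nat_lit 215146539) (nat_lit 532) (nat_lit 6194876811) (nat_lit 151) (nat_lit 5) (nat_lit 157) (nat_lit 5) (nat_lit 158) (nat_lit 5) (nat_lit 359) (nat_lit 308) (nat_lit 233)) (XT.lf (nat_lit 0) (nat_lit 4323704070) (nat_lit 456) (nat_lit 6633233485) (nat_lit 532) (nat_lit 2099097550) (nat_lit 145) (nat_lit 5) (nat_lit 151) (nat_lit 5) (nat_lit 152) (nat_lit 5) (nat_lit 360) (nat_lit 308) (nat_lit 232))) (XT.nd (nat_lit 78) (nat_lit 456) (nat_lit 0) (XT.lf (nat_lit 0) (nat_lit 2110660505) (nat_lit 456) (nat_lit 11163574434) (nat_lit 76) (nat_lit 19299469) (nat_lit 139) (nat_lit 5) (nat_lit 145) (nat_lit 5) (nat_lit 140) (nat_lit 5) (nat_lit 361) (nat_lit 308) (nat_lit 231)) (XT.nd (nat_lit 78) (nat_lit 456) (nat_lit 0) (XT.lf (nat_lit 0) (nat_lit 6482772417) (nat_lit 456) (nat_lit 214143044) (nat_lit 76) (nat_lit 6839689506) (nat_lit 139) (nat_lit 5) (nat_lit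 145) (nat_lit 5) (nat_lit 140) (nat_lit 5) (nat_lit 362) (nat_lit 308) (nat_lit 230)) (XT.lf (nat_lit 0) (nat_lit 11021001420) (nat_lit 532) (nat_lit 2631497490) (nat_lit 76) (nat_lit 133784578) (nat_lit 133) (nat_lit 5) (nat_lit 140) (nat_lit 5) (nat_lit 134) (nat_lit 5) (nat_lit 363) (nat_lit 308) (nat_lit 229))))) (XT.nd (nat_lit 156) (nat_lit 836) (nat_lit 0) (XT.nd (nat_lit 78) (nat_lit 380) (nat_lit 0) (XT.lf (nat_lit 0) (nat_lit 1696641320) (nat_lit 456) (nat_lit 5212035564) (nat_lit 76) (nat_lit 7133247544) (nat_lit 127) (nat_lit 5) (nat_lit 133) (nat_lit 5) (nat_lit 128) (nat_lit 5) (nat_lit 364) (nat_lit 308) (nat_lit 228)) (XT.lf (nat_lit 0) (nat_lit 6277877992) (nat_lit 456) (nat_lit 7927601758) (nat_lit 76) (nat_lit 98942565) (nat_lit 122) (nat_lit 5) (nat_lit 128) (nat_lit 5) (nat_lit 123) (nat_lit 5) (nat_lit 365) (nat_lit 308) (nat_lit 227))) (XT.nd (nat_lit 78) (nat_lit 456) (nat_lit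 0) (XT.lf (nat_lit 0) (nat_lit 3759904890) (nat_lit 380) (nat_lit 7306248133) (nat_lit 456) (nat_lit 3507263479) (nat_lit 117) (nat_lit 5) (nat_lit 122) (nat_lit 5) (nat_lit 123) (nat_lit 5) (nat_lit 366) (nat_lit 308) (nat_lit 226)) (XT.nd (nat_lit 78) (nat_lit 0) (nat_lit 0) (XT.lf (nat_lit 0) (nat_lit 1009384723) (nat_lit 380) (nat_lit 147697845) (nat_lit 456) (nat_lit 13692770917) (nat_lit 111) (nat_lit 5) (nat_lit 116) (nat_lit 5) (nat_lit 117) (nat_lit 5) (nat_lit 367) (nat_lit 308) (nat_lit 225)) (XT.lf (nat_lit 0) (nat_lit 5999164970) (nat_lit 456) (nat_lit 1921925071) (nat_lit 76) (nat_lit 7211333129) (nat_lit 111) (nat_lit 5) (nat_lit 117) (nat_lit 5) (nat_lit 112) (nat_lit 5) (nat_lit 368) (nat_lit 308) (nat_lit 224))))))) (XT.nd (nat_lit 780) (nat_lit 1140) (nat_lit 0) (XT.nd (nat_lit 390) (nat_lit 1292) (nat_lit 0) (XT.nd (nat_lit 156) (nat_lit 608) (nat_lit 0) (XT.nd (nat_lit 78) (nat_lit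 456) (nat_lit 0) (XT.lf (nat_lit 0) (nat_lit 10438695814) (nat_lit 304) (nat_lit 582120212) (nat_lit 380) (nat_lit 4401979807) (nat_lit 107) (nat_lit 5) (nat_lit 111) (nat_lit 5) (nat_lit 112) (nat_lit 5) (nat_lit 369) (nat_lit 308) (nat_lit 223)) (XT.lf (nat_lit 0) (nat_lit 538589461) (nat_lit 456) (nat_lit 8247622987) (nat_lit 76) (nat_lit 6934146810) (nat_lit 101) (nat_lit 5) (nat_lit 107) (nat_lit 5) (nat_lit 102) (nat_lit 5) (nat_lit 370) (nat_lit 308) (nat_lit 222))) (XT.nd (nat_lit 78) (nat_lit 304) (nat_lit 0) (XT.lf (nat_lit 0) (nat_lit 4317631330) (nat_lit 304) (nat_lit 1282742127) (nat_lit 380) (nat_lit 10425249223) (nat_lit 97) (nat_lit 5) (nat_lit 101) (nat_lit 5) (nat_lit 102) (nat_lit 5) (nat_lit 371) (nat_lit 308) (nat_lit 221)) (XT.nd (nat_lit 78) (nat_lit 0) (nat_lit 0) (XT.lf (nat_lit 0) (nat_lit 953598253) (nat_lit 304) (nat_lit 9931791498) (nat_lit 380) (nat_lit 5453237454) (nat_lit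 93) (nat_lit 5) (nat_lit 97) (nat_lit 5) (nat_lit 98) (nat_lit 5) (nat_lit 372) (nat_lit 308) (nat_lit 220)) (XT.lf (nat_lit 0) (nat_lit 14096923981) (nat_lit 304) (nat_lit 2287605907) (nat_lit 380) (nat_lit 275390972) (nat_lit 93) (nat_lit 5) (nat_lit 97) (nat_lit 5) (nat_lit 98) (nat_lit 5) (nat_lit 373) (nat_lit 308) (nat_lit 219))))) (XT.nd (nat_lit 156) (nat_lit 608) (nat_lit 0) (XT.nd (nat_lit 78) (nat_lit 304) (nat_lit 0) (XT.lf (nat_lit 0) (nat_lit 5066216455) (nat_lit 380) (nat_lit 6323720964) (nat_lit 76) (nat_lit 5598773908) (nat_lit 88) (nat_lit 5) (nat_lit 93) (nat_lit 5) (nat_lit 89) (nat_lit 5) (nat_lit 374) (nat_lit 308) (nat_lit 218)) (XT.lf (nat_lit 0) (nat_lit 7024360650) (nat_lit 304) (nat_lit 3587314894) (nat_lit 380) (nat_lit 6714716326) (nat_lit 84) (nat_lit 5) (nat_lit 88) (nat_lit 5) (nat_lit 89) (nat_lit 5) (nat_lit 375) (nat_lit 308) (nat_lit 217))) (XT.nd (nat_lit 78) (nat_lit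 380) (nat_lit 0) (XT.lf (nat_lit 0) (nat_lit 3150126989) (nat_lit 228) (nat_lit 13235268085) (nat_lit 304) (nat_lit 1287579211) (nat_lit 81) (nat_lit 5) (nat_lit 84) (nat_lit 5) (nat_lit 85) (nat_lit 5) (nat_lit 376) (nat_lit 308) (nat_lit 216)) (XT.nd (nat_lit 78) (nat_lit 304) (nat_lit 0) (XT.lf (nat_lit 0) (nat_lit 4310003706) (nat_lit 304) (nat_lit 981822410) (nat_lit 76) (nat_lit 12736297151) (nat_lit 80) (nat_lit 5) (nat_lit 84) (nat_lit 5) (nat_lit 81) (nat_lit 5) (nat_lit 377) (nat_lit 308) (nat_lit 215)) (XT.lf (nat_lit 0) (nat_lit 10133005903) (nat_lit 380) (nat_lit 5329880677) (nat_lit 76) (nat_lit 2929378897) (nat_lit 76) (nat_lit 5) (nat_lit 81) (nat_lit 5) (nat_lit 77) (nat_lit 5) (nat_lit 378) (nat_lit 308) (nat_lit 214)))))) (XT.nd (nat_lit 41418) (nat_lit 0) (nat_lit 38684) (XT.nd (nat_lit 156) (nat_lit 532) (nat_lit 0) (XT.nd (nat_lit 78) (nat_lit 380) (nat_lit 0) (XT.lf (nat_lit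 0) (nat_lit 8808170687) (nat_lit 228) (nat_lit 7392926378) (nat_lit 304) (nat_lit 2564835332) (nat_lit 73) (nat_lit 5) (nat_lit 76) (nat_lit 5) (nat_lit 77) (nat_lit 5) (nat_lit 379) (nat_lit 308) (nat_lit 213)) (XT.lf (nat_lit 0) (nat_lit 3299192082) (nat_lit 380) (nat_lit 14874089898) (nat_lit 76) (nat_lit 976265670) (nat_lit 68) (nat_lit 5) (nat_lit 73) (nat_lit 5) (nat_lit 69) (nat_lit 5) (nat_lit 380) (nat_lit 308) (nat_lit 212))) (XT.nd (nat_lit 78) (nat_lit 532) (nat_lit 0) (XT.lf (nat_lit 0) (nat_lit 9393760473) (nat_lit 380) (nat_lit 583814411) (nat_lit 76) (nat_lit 9564975864) (nat_lit 68) (nat_lit 5) (nat_lit 73) (nat_lit 5) (nat_lit 69) (nat_lit 5) (nat_lit 381) (nat_lit 308) (nat_lit 211)) (XT.nd (nat_lit 78) (nat_lit 304) (nat_lit 0) (XT.lf (nat_lit 0) (nat_lit 14278324393) (nat_lit 228) (nat_lit 1458268204) (nat_lit 304) (nat_lit 4209450364) (nat_lit 65) (nat_lit 5) (nat_lit 68) (nat_lit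 5) (nat_lit 69) (nat_lit 5) (nat_lit 382) (nat_lit 308) (nat_lit 210)) (XT.lf (nat_lit 0) (nat_lit 1968353692) (nat_lit 304) (nat_lit 11110016950) (nat_lit 76) (nat_lit 7281322550) (nat_lit 61) (nat_lit 5) (nat_lit 65) (nat_lit 5) (nat_lit 62) (nat_lit 5) (nat_lit 383) (nat_lit 308) (nat_lit 209))))) (XT.nd (nat_lit 156) (nat_lit 912) (nat_lit 0) (XT.nd (nat_lit 78) (nat_lit 0) (nat_lit 0) (XT.lf (nat_lit 0) (nat_lit 437401885) (nat_lit 0) (nat_lit 437401885) (nat_lit 836) (nat_lit 2521475851) (nat_lit 582) (nat_lit 5) (nat_lit 582) (nat_lit 3) (nat_lit 593) (nat_lit 3) (nat_lit 309) (nat_lit 309) (nat_lit 282)) (XT.lf (nat_lit 0) (nat_lit 4736859598) (nat_lit 836) (nat_lit 1115908514) (nat_lit 912) (nat_lit 979993617) (nat_lit 582) (nat_lit 5) (nat_lit 593) (nat_lit 3) (nat_lit 594) (nat_lit 5) (nat_lit 310) (nat_lit 309) (nat_lit 281))) (XT.nd (nat_lit 78) (nat_lit 0) (nat_lit 0) (XT.lf (nat_lit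 0) (nat_lit 842260606) (nat_lit 912) (nat_lit 3067763582) (nat_lit 988) (nat_lit 2965817955) (nat_lit 570) (nat_lit 5) (nat_lit 582) (nat_lit 5) (nat_lit 583) (nat_lit 5) (nat_lit 311) (nat_lit 309) (nat_lit 280)) (XT.nd (nat_lit 78) (nat_lit 0) (nat_lit 76) (XT.lf (nat_lit 76) (nat_lit 1925137309) (nat_lit 0) (nat_lit 1822423180) (nat_lit 988) (nat_lit 3174319650) (nat_lit 571) (nat_lit 5) (nat_lit 570) (nat_lit 5) (nat_lit 583) (nat_lit 5) (nat_lit 312) (nat_lit 309) (nat_lit 279)) (XT.lf (nat_lit 76) (nat_lit 77016131) (nat_lit 0) (nat_lit 6576970806) (nat_lit 988) (nat_lit 317121916) (nat_lit 572) (nat_lit 5) (nat_lit 571) (nat_lit 5) (nat_lit 584) (nat_lit 5) (nat_lit 313) (nat_lit 309) (nat_lit 278))))))))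
noncomputable def xc68 : XT := (XT.nd (nat_lit 1482) (nat_lit 12008) (nat_lit 0) (XT.nd (nat_lit 702) (nat_lit 12008) (nat_lit 0) (XT.nd (nat_lit 312) (nat_lit 2204) (nat_lit 0) (XT.nd (nat_lit 156) (nat_lit 988) (nat_lit 0) (XT.nd (nat_lit 78) (nat_lit 0) (nat_lit 0) (XT.lf (nat_lit 0) (nat_lit 2530037646) (nat_lit 988) (nat_lit 1742372646) (nat_lit 1064) (nat_lit 2750374142) (nat_lit 558) (nat_lit 5) (nat_lit 571) (nat_lit 5) (nat_lit 572) (nat_lit 5) (nat_lit 314) (nat_lit 309) (nat_lit 277)) (XT.lf (nat_lit 76) (nat_lit 3546977639) (nat_lit 0) (nat_lit 1829925956) (nat_lit 1064) (nat_lit 1700774944) (nat_lit 559) (nat_lit 5) (nat_lit 558) (nat_lit 5) (nat_lit 572) (nat_lit 5) (nat_lit 315) (nat_lit 309) (nat_lit 276))) (XT.nd (nat_lit 78) (nat_lit 0) (nat_lit 0) (XT.lf (nat_lit 0) (nat_lit 1085744722) (nat_lit 1064) (nat_lit 5301117989) (nat_lit 1140) (nat_lit 748758437) (nat_lit 545) (nat_lit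 5) (nat_lit 559) (nat_lit 5) (nat_lit 560) (nat_lit 5) (nat_lit 316) (nat_lit 309) (nat_lit 275)) (XT.lf (nat_lit 76) (nat_lit 128996764) (nat_lit 0) (nat_lit 3741337664) (nat_lit 1140) (nat_lit 3326067081) (nat_lit 546) (nat_lit 5) (nat_lit 545) (nat_lit 5) (nat_lit 560) (nat_lit 5) (nat_lit 317) (nat_lit 309) (nat_lit 274)))) (XT.nd (nat_lit 156) (nat_lit 1140) (nat_lit 0) (XT.nd (nat_lit 78) (nat_lit 1064) (nat_lit 0) (XT.lf (nat_lit 76) (nat_lit 5732507277) (nat_lit 0) (nat_lit 944668695) (nat_lit 1140) (nat_lit 583128759) (nat_lit 546) (nat_lit 5) (nat_lit 545) (nat_lit 5) (nat_lit 560) (nat_lit 5) (nat_lit 318) (nat_lit 309) (nat_lit 273)) (XT.lf (nat_lit 0) (nat_lit 2157667376) (nat_lit 1140) (nat_lit 3183971199) (nat_lit 1216) (nat_lit 1985366009) (nat_lit 531) (nat_lit 5) (nat_lit 546) (nat_lit 5) (nat_lit 547) (nat_lit 5) (nat_lit 319) (nat_lit 309) (nat_lit 272))) (XT.nd (nat_lit 78) (nat_lit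 1140) (nat_lit 0) (XT.lf (nat_lit 76) (nat_lit 2570098033) (nat_lit 0) (nat_lit 2343649504) (nat_lit 1216) (nat_lit 2483129291) (nat_lit 532) (nat_lit 5) (nat_lit 531) (nat_lit 5) (nat_lit 547) (nat_lit 5) (nat_lit 320) (nat_lit 309) (nat_lit 271)) (XT.nd (nat_lit 78) (nat_lit 0) (nat_lit 0) (XT.lf (nat_lit 0) (nat_lit 222643602) (nat_lit 1216) (nat_lit 6454962488) (nat_lit 1292) (nat_lit 792413186) (nat_lit 516) (nat_lit 5) (nat_lit 532) (nat_lit 5) (nat_lit 533) (nat_lit 5) (nat_lit 321) (nat_lit 309) (nat_lit 270)) (XT.lf (nat_lit 0) (nat_lit 2936202891) (nat_lit 1216) (nat_lit 542948380) (nat_lit 1292) (nat_lit 4066732440) (nat_lit 516) (nat_lit 5) (nat_lit 532) (nat_lit 5) (nat_lit 533) (nat_lit 5) (nat_lit 322) (nat_lit 309) (nat_lit 269)))))) (XT.nd (nat_lit 390) (nat_lit 8056) (nat_lit 0) (XT.nd (nat_lit 156) (nat_lit 2736) (nat_lit 0) (XT.nd (nat_lit 78) (nat_lit 1216) (nat_lit 0) (XT.lf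 (nat_lit 76) (nat_lit 5557204773) (nat_lit 0) (nat_lit 124180672) (nat_lit 1292) (nat_lit 1943695437) (nat_lit 517) (nat_lit 5) (nat_lit 516) (nat_lit 5) (nat_lit 533) (nat_lit 5) (nat_lit 323) (nat_lit 309) (nat_lit 268)) (XT.lf (nat_lit 0) (nat_lit 759888099) (nat_lit 1292) (nat_lit 3601854009) (nat_lit 76) (nat_lit 3345503060) (nat_lit 500) (nat_lit 5) (nat_lit 517) (nat_lit 5) (nat_lit 501) (nat_lit 5) (nat_lit 324) (nat_lit 309) (nat_lit 267))) (XT.nd (nat_lit 78) (nat_lit 1444) (nat_lit 0) (XT.lf (nat_lit 0) (nat_lit 2658405536) (nat_lit 1292) (nat_lit 809935623) (nat_lit 1368) (nat_lit 4324329374) (nat_lit 483) (nat_lit 5) (nat_lit 500) (nat_lit 5) (nat_lit 501) (nat_lit 5) (nat_lit 325) (nat_lit 309) (nat_lit 266)) (XT.nd (nat_lit 78) (nat_lit 76) (nat_lit 0) (XT.lf (nat_lit 0) (nat_lit 1208946782) (nat_lit 1368) (nat_lit 5019943825) (nat_lit 1444) (nat_lit 1652406046) (nat_lit 465) (nat_lit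 5) (nat_lit 483) (nat_lit 5) (nat_lit 484) (nat_lit 5) (nat_lit 326) (nat_lit 309) (nat_lit 265)) (XT.lf (nat_lit 0) (nat_lit 1046975623) (nat_lit 1444) (nat_lit 235859437) (nat_lit 76) (nat_lit 6690421444) (nat_lit 464) (nat_lit 5) (nat_lit 483) (nat_lit 5) (nat_lit 465) (nat_lit 5) (nat_lit 327) (nat_lit 309) (nat_lit 264))))) (XT.nd (nat_lit 156) (nat_lit 5092) (nat_lit 0) (XT.nd (nat_lit 78) (nat_lit 1520) (nat_lit 0) (XT.lf (nat_lit 0) (nat_lit 3787282049) (nat_lit 1520) (nat_lit 1680991986) (nat_lit 76) (nat_lit 2599885490) (nat_lit 445) (nat_lit 5) (nat_lit 465) (nat_lit 5) (nat_lit 446) (nat_lit 5) (nat_lit 328) (nat_lit 309) (nat_lit 263)) (XT.lf (nat_lit 0) (nat_lit 5041080319) (nat_lit 1520) (nat_lit 1537130083) (nat_lit 1596) (nat_lit 1588380193) (nat_lit 425) (nat_lit 5) (nat_lit 445) (nat_lit 5) (nat_lit 446) (nat_lit 5) (nat_lit 329) (nat_lit 309) (nat_lit 262))) (XT.nd (nat_lit 78)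 (nat_lit 3420) (nat_lit 0) (XT.lf (nat_lit 0) (nat_lit 1148228626) (nat_lit 1672) (nat_lit 4587160957) (nat_lit 76) (nat_lit 2532900454) (nat_lit 403) (nat_lit 5) (nat_lit 425) (nat_lit 5) (nat_lit 404) (nat_lit 5) (nat_lit 330) (nat_lit 309) (nat_lit 261)) (XT.nd (nat_lit 78) (nat_lit 1748) (nat_lit 0) (XT.lf (nat_lit 0) (nat_lit 2308155444) (nat_lit 1672) (nat_lit 1612442041) (nat_lit 1748) (nat_lit 4452773637) (nat_lit 381) (nat_lit 5) (nat_lit 403) (nat_lit 5) (nat_lit 404) (nat_lit 5) (nat_lit 331) (nat_lit 309) (nat_lit 260)) (XT.lf (nat_lit 0) (nat_lit 923266621) (nat_lit 1748) (nat_lit 5837518670) (nat_lit 1824) (nat_lit 1721170540) (nat_lit 358) (nat_lit 5) (nat_lit 381) (nat_lit 5) (nat_lit 382) (nat_lit 5) (nat_lit 332) (nat_lit 309) (nat_lit 259))))))) (XT.nd (nat_lit 702) (nat_lit 6004) (nat_lit 0) (XT.nd (nat_lit 312) (nat_lit 3192) (nat_lit 0) (XT.nd (nat_lit 156) (nat_lit 1824) (nat_lit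 0) (XT.nd (nat_lit 78) (nat_lit 912) (nat_lit 0) (XT.lf (nat_lit 0) (nat_lit 1061600738) (nat_lit 1824) (nat_lit 470291181) (nat_lit 76) (nat_lit 7062135400) (nat_lit 357) (nat_lit 5) (nat_lit 381) (nat_lit 5) (nat_lit 358) (nat_lit 5) (nat_lit 333) (nat_lit 309) (nat_lit 258)) (XT.lf (nat_lit 0) (nat_lit 3901701663) (nat_lit 988) (nat_lit 1881652305) (nat_lit 76) (nat_lit 2925975637) (nat_lit 345) (nat_lit 5) (nat_lit 358) (nat_lit 5) (nat_lit 346) (nat_lit 5) (nat_lit 334) (nat_lit 309) (nat_lit 257))) (XT.nd (nat_lit 78) (nat_lit 912) (nat_lit 0) (XT.lf (nat_lit 0) (nat_lit 5523057915) (nat_lit 912) (nat_lit 1288223310) (nat_lit 988) (nat_lit 2017163832) (nat_lit 333) (nat_lit 5) (nat_lit 345) (nat_lit 5) (nat_lit 346) (nat_lit 5) (nat_lit 335) (nat_lit 309) (nat_lit 256)) (XT.lf (nat_lit 0) (nat_lit 843974723) (nat_lit 912) (nat_lit 4761153213) (nat_lit 76) (nat_lit 3345968445) (nat_lit 321) (nat_lit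 5) (nat_lit 333) (nat_lit 5) (nat_lit 322) (nat_lit 5) (nat_lit 336) (nat_lit 309) (nat_lit 255)))) (XT.nd (nat_lit 156) (nat_lit 1596) (nat_lit 0) (XT.nd (nat_lit 78) (nat_lit 760) (nat_lit 0) (XT.lf (nat_lit 0) (nat_lit 2830995261) (nat_lit 836) (nat_lit 919726133) (nat_lit 912) (nat_lit 5326732203) (nat_lit 310) (nat_lit 5) (nat_lit 321) (nat_lit 5) (nat_lit 322) (nat_lit 5) (nat_lit 337) (nat_lit 309) (nat_lit 254)) (XT.lf (nat_lit 0) (nat_lit 1439906906) (nat_lit 760) (nat_lit 5310853830) (nat_lit 836) (nat_lit 2456754527) (nat_lit 300) (nat_lit 5) (nat_lit 310) (nat_lit 5) (nat_lit 311) (nat_lit 5) (nat_lit 338) (nat_lit 309) (nat_lit 253))) (XT.nd (nat_lit 78) (nat_lit 760) (nat_lit 0) (XT.lf (nat_lit 0) (nat_lit 30111177) (nat_lit 760) (nat_lit 451470451) (nat_lit 836) (nat_lit 8860089983) (nat_lit 289) (nat_lit 5) (nat_lit 299) (nat_lit 5) (nat_lit 300) (nat_lit 5) (nat_lit 339) (nat_lit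 309) (nat_lit 252)) (XT.nd (nat_lit 78) (nat_lit 760) (nat_lit 0) (XT.lf (nat_lit 0) (nat_lit 3498621002) (nat_lit 836) (nat_lit 1419581991) (nat_lit 76) (nat_lit 4560879099) (nat_lit 289) (nat_lit 5) (nat_lit 300) (nat_lit 5) (nat_lit 290) (nat_lit 5) (nat_lit 340) (nat_lit 309) (nat_lit 251)) (XT.lf (nat_lit 0) (nat_lit 6596709720) (nat_lit 836) (nat_lit 2888002445) (nat_lit 76) (nat_lit 136123846) (nat_lit 279) (nat_lit 5) (nat_lit 290) (nat_lit 5) (nat_lit 280) (nat_lit 5) (nat_lit 341) (nat_lit 309) (nat_lit 250)))))) (XT.nd (nat_lit 390) (nat_lit 3116) (nat_lit 0) (XT.nd (nat_lit 156) (nat_lit 1368) (nat_lit 0) (XT.nd (nat_lit 78) (nat_lit 684) (nat_lit 0) (XT.lf (nat_lit 0) (nat_lit 42258112) (nat_lit 836) (nat_lit 4407627747) (nat_lit 76) (nat_lit 5316551651) (nat_lit 268) (nat_lit 5) (nat_lit 279) (nat_lit 5) (nat_lit 269) (nat_lit 5) (nat_lit 342) (nat_lit 309) (nat_lit 249)) (XT.lf (nat_lit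 0) (nat_lit 3155286918) (nat_lit 760) (nat_lit 5974057106) (nat_lit 76) (nat_lit 786777930) (nat_lit 259) (nat_lit 5) (nat_lit 269) (nat_lit 5) (nat_lit 260) (nat_lit 5) (nat_lit 343) (nat_lit 309) (nat_lit 248))) (XT.nd (nat_lit 78) (nat_lit 684) (nat_lit 0) (XT.lf (nat_lit 0) (nat_lit 2474683315) (nat_lit 684) (nat_lit 3909091129) (nat_lit 760) (nat_lit 3686109738) (nat_lit 250) (nat_lit 5) (nat_lit 259) (nat_lit 5) (nat_lit 260) (nat_lit 5) (nat_lit 344) (nat_lit 309) (nat_lit 247)) (XT.nd (nat_lit 78) (nat_lit 76) (nat_lit 0) (XT.lf (nat_lit 0) (nat_lit 973431673) (nat_lit 608) (nat_lit 8739596015) (nat_lit 684) (nat_lit 515181141) (nat_lit 242) (nat_lit 5) (nat_lit 250) (nat_lit 5) (nat_lit 251) (nat_lit 5) (nat_lit 345) (nat_lit 309) (nat_lit 246)) (XT.lf (nat_lit 0) (nat_lit 2740836907) (nat_lit 684) (nat_lit 591987670) (nat_lit 76) (nat_lit 7057607068) (nat_lit 241) (nat_lit 5) (nat_lit 250)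 (nat_lit 5) (nat_lit 242) (nat_lit 5) (nat_lit 346) (nat_lit 309) (nat_lit 245))))) (XT.nd (nat_lit 156) (nat_lit 1824) (nat_lit 0) (XT.nd (nat_lit 78) (nat_lit 608) (nat_lit 0) (XT.lf (nat_lit 0) (nat_lit 6106423538) (nat_lit 760) (nat_lit 2193837590) (nat_lit 76) (nat_lit 2256839833) (nat_lit 232) (nat_lit 5) (nat_lit 242) (nat_lit 5) (nat_lit 233) (nat_lit 5) (nat_lit 347) (nat_lit 309) (nat_lit 244)) (XT.lf (nat_lit 0) (nat_lit 6875726657) (nat_lit 608) (nat_lit 2718858599) (nat_lit 684) (nat_lit 1133777869) (nat_lit 224) (nat_lit 5) (nat_lit 232) (nat_lit 5) (nat_lit 233) (nat_lit 5) (nat_lit 348) (nat_lit 309) (nat_lit 243))) (XT.nd (nat_lit 78) (nat_lit 1140) (nat_lit 0) (XT.lf (nat_lit 0) (nat_lit 2273718880) (nat_lit 684) (nat_lit 5584891346) (nat_lit 76) (nat_lit 3045459694) (nat_lit 215) (nat_lit 5) (nat_lit 224) (nat_lit 5) (nat_lit 216) (nat_lit 5) (nat_lit 349) (nat_lit 309) (nat_lit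 242)) (XT.nd (nat_lit 78) (nat_lit 608) (nat_lit 0) (XT.lf (nat_lit 0) (nat_lit 3698527155) (nat_lit 532) (nat_lit 2090410386) (nat_lit 608) (nat_lit 5295565509) (nat_lit 208) (nat_lit 5) (nat_lit 215) (nat_lit 5) (nat_lit 216) (nat_lit 5) (nat_lit 350) (nat_lit 309) (nat_lit 241)) (XT.lf (nat_lit 0) (nat_lit 2010074533) (nat_lit 608) (nat_lit 7428969528) (nat_lit 684) (nat_lit 1830738844) (nat_lit 200) (nat_lit 5) (nat_lit 208) (nat_lit 5) (nat_lit 209) (nat_lit 5) (nat_lit 351) (nat_lit 309) (nat_lit 240))))))))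
noncomputable def xc69 : XT := (XT.nd (nat_lit 1482) (nat_lit 3192) (nat_lit 0) (XT.nd (nat_lit 702) (nat_lit 3344) (nat_lit 0) (XT.nd (nat_lit 312) (nat_lit 1976) (nat_lit 0) (XT.nd (nat_lit 156) (nat_lit 1140) (nat_lit 0) (XT.nd (nat_lit 78) (nat_lit 0) (nat_lit 0) (XT.lf (nat_lit 0) (nat_lit 249133935) (nat_lit 532) (nat_lit 1486028852) (nat_lit 608) (nat_lit 9724855465) (nat_lit 192) (nat_lit 5) (nat_lit 199) (nat_lit 5) (nat_lit 200) (nat_lit 5) (nat_lit 352) (nat_lit 309) (nat_lit 239)) (XT.lf (nat_lit 0) (nat_lit 5431407125) (nat_lit 608) (nat_lit 1585396975) (nat_lit 76) (nat_lit 4637970432) (nat_lit 192) (nat_lit 5) (nat_lit 200) (nat_lit 5) (nat_lit 193) (nat_lit 5) (nat_lit 353) (nat_lit 309) (nat_lit 238))) (XT.nd (nat_lit 78) (nat_lit 608) (nat_lit 0) (XT.lf (nat_lit 0) (nat_lit 8372483278) (nat_lit 532) (nat_lit 886507717) (nat_lit 608) (nat_lit 2595993521) (nat_lit 185) (nat_lit 5)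 (nat_lit 192) (nat_lit 5) (nat_lit 193) (nat_lit 5) (nat_lit 354) (nat_lit 309) (nat_lit 237)) (XT.lf (nat_lit 0) (nat_lit 1171330775) (nat_lit 608) (nat_lit 5483272256) (nat_lit 76) (nat_lit 5405547139) (nat_lit 177) (nat_lit 5) (nat_lit 185) (nat_lit 5) (nat_lit 178) (nat_lit 5) (nat_lit 355) (nat_lit 309) (nat_lit 236)))) (XT.nd (nat_lit 156) (nat_lit 988) (nat_lit 0) (XT.nd (nat_lit 78) (nat_lit 456) (nat_lit 0) (XT.lf (nat_lit 0) (nat_lit 4697068979) (nat_lit 532) (nat_lit 337305925) (nat_lit 608) (nat_lit 7236411848) (nat_lit 170) (nat_lit 5) (nat_lit 177) (nat_lit 5) (nat_lit 178) (nat_lit 5) (nat_lit 356) (nat_lit 309) (nat_lit 235)) (XT.lf (nat_lit 0) (nat_lit 2710468786) (nat_lit 456) (nat_lit 6356279550) (nat_lit 532) (nat_lit 3419943332) (nat_lit 164) (nat_lit 5) (nat_lit 170) (nat_lit 5) (nat_lit 171) (nat_lit 5) (nat_lit 357) (nat_lit 309) (nat_lit 234))) (XT.nd (nat_lit 78) (nat_lit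 456) (nat_lit 0) (XT.lf (nat_lit 0) (nat_lit 522189001) (nat_lit 532) (nat_lit 12063442879) (nat_lit 76) (nat_lit 123035187) (nat_lit 157) (nat_lit 5) (nat_lit 164) (nat_lit 5) (nat_lit 158) (nat_lit 5) (nat_lit 358) (nat_lit 309) (nat_lit 233)) (XT.nd (nat_lit 78) (nat_lit 456) (nat_lit 0) (XT.lf (nat_lit 0) (nat_lit 4605279700) (nat_lit 532) (nat_lit 1543805081) (nat_lit 76) (nat_lit 6786398302) (nat_lit 157) (nat_lit 5) (nat_lit 164) (nat_lit 5) (nat_lit 158) (nat_lit 5) (nat_lit 359) (nat_lit 309) (nat_lit 232)) (XT.lf (nat_lit 0) (nat_lit 8835941867) (nat_lit 532) (nat_lit 3811465920) (nat_lit 76) (nat_lit 521210364) (nat_lit 151) (nat_lit 5) (nat_lit 158) (nat_lit 5) (nat_lit 152) (nat_lit 5) (nat_lit 360) (nat_lit 309) (nat_lit 231)))))) (XT.nd (nat_lit 390) (nat_lit 1520) (nat_lit 0) (XT.nd (nat_lit 156) (nat_lit 912) (nat_lit 0) (XT.nd (nat_lit 78) (nat_lit 456) (nat_lit 0) (XT.lf (nat_lit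 0) (nat_lit 7197579528) (nat_lit 456) (nat_lit 6055906762) (nat_lit 532) (nat_lit 154077410) (nat_lit 145) (nat_lit 5) (nat_lit 151) (nat_lit 5) (nat_lit 152) (nat_lit 5) (nat_lit 361) (nat_lit 309) (nat_lit 230)) (XT.lf (nat_lit 0) (nat_lit 4120715727) (nat_lit 456) (nat_lit 8737667325) (nat_lit 76) (nat_lit 794265354) (nat_lit 139) (nat_lit 5) (nat_lit 145) (nat_lit 5) (nat_lit 140) (nat_lit 5) (nat_lit 362) (nat_lit 309) (nat_lit 229))) (XT.nd (nat_lit 78) (nat_lit 456) (nat_lit 0) (XT.lf (nat_lit 0) (nat_lit 2492524849) (nat_lit 456) (nat_lit 6090948240) (nat_lit 532) (nat_lit 5320370409) (nat_lit 133) (nat_lit 5) (nat_lit 139) (nat_lit 5) (nat_lit 140) (nat_lit 5) (nat_lit 363) (nat_lit 309) (nat_lit 228)) (XT.nd (nat_lit 78) (nat_lit 456) (nat_lit 0) (XT.lf (nat_lit 0) (nat_lit 13208832411) (nat_lit 532) (nat_lit 40866035) (nat_lit 76) (nat_lit 912315677) (nat_lit 133) (nat_lit 5) (nat_lit 140)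 (nat_lit 5) (nat_lit 134) (nat_lit 5) (nat_lit 364) (nat_lit 309) (nat_lit 227)) (XT.lf (nat_lit 0) (nat_lit 3580437739) (nat_lit 456) (nat_lit 2717093247) (nat_lit 76) (nat_lit 8128313761) (nat_lit 127) (nat_lit 5) (nat_lit 133) (nat_lit 5) (nat_lit 128) (nat_lit 5) (nat_lit 365) (nat_lit 309) (nat_lit 226))))) (XT.nd (nat_lit 156) (nat_lit 760) (nat_lit 0) (XT.nd (nat_lit 78) (nat_lit 380) (nat_lit 0) (XT.lf (nat_lit 0) (nat_lit 8267931920) (nat_lit 456) (nat_lit 5525823084) (nat_lit 76) (nat_lit 903105949) (nat_lit 122) (nat_lit 5) (nat_lit 128) (nat_lit 5) (nat_lit 123) (nat_lit 5) (nat_lit 366) (nat_lit 309) (nat_lit 225)) (XT.lf (nat_lit 0) (nat_lit 6469484281) (nat_lit 380) (nat_lit 6694753744) (nat_lit 456) (nat_lit 1810418500) (nat_lit 117) (nat_lit 5) (nat_lit 122) (nat_lit 5) (nat_lit 123) (nat_lit 5) (nat_lit 367) (nat_lit 309) (nat_lit 224))) (XT.nd (nat_lit 78) (nat_lit 304) (nat_lit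 0) (XT.lf (nat_lit 0) (nat_lit 2939600759) (nat_lit 456) (nat_lit 11646119216) (nat_lit 76) (nat_lit 674063381) (nat_lit 111) (nat_lit 5) (nat_lit 117) (nat_lit 5) (nat_lit 112) (nat_lit 5) (nat_lit 368) (nat_lit 309) (nat_lit 223)) (XT.nd (nat_lit 78) (nat_lit 0) (nat_lit 0) (XT.lf (nat_lit 0) (nat_lit 560364405) (nat_lit 304) (nat_lit 7320271474) (nat_lit 380) (nat_lit 7671138203) (nat_lit 107) (nat_lit 5) (nat_lit 111) (nat_lit 5) (nat_lit 112) (nat_lit 5) (nat_lit 369) (nat_lit 309) (nat_lit 222)) (XT.lf (nat_lit 0) (nat_lit 13017498643) (nat_lit 380) (nat_lit 2609723263) (nat_lit 76) (nat_lit 224362015) (nat_lit 107) (nat_lit 5) (nat_lit 112) (nat_lit 5) (nat_lit 108) (nat_lit 5) (nat_lit 370) (nat_lit 309) (nat_lit 221))))))) (XT.nd (nat_lit 780) (nat_lit 608) (nat_lit 0) (XT.nd (nat_lit 390) (nat_lit 1140) (nat_lit 0) (XT.nd (nat_lit 156) (nat_lit 684) (nat_lit 0) (XT.nd (nat_lit 78) (nat_lit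 304) (nat_lit 0) (XT.lf (nat_lit 0) (nat_lit 2203549267) (nat_lit 456) (nat_lit 5993470273) (nat_lit 76) (nat_lit 7961427506) (nat_lit 101) (nat_lit 5) (nat_lit 107) (nat_lit 5) (nat_lit 102) (nat_lit 5) (nat_lit 371) (nat_lit 309) (nat_lit 220)) (XT.lf (nat_lit 0) (nat_lit 6908156488) (nat_lit 304) (nat_lit 476985351) (nat_lit 380) (nat_lit 9088383360) (nat_lit 97) (nat_lit 5) (nat_lit 101) (nat_lit 5) (nat_lit 102) (nat_lit 5) (nat_lit 372) (nat_lit 309) (nat_lit 219))) (XT.nd (nat_lit 78) (nat_lit 380) (nat_lit 0) (XT.lf (nat_lit 0) (nat_lit 3430216195) (nat_lit 304) (nat_lit 9372618225) (nat_lit 380) (nat_lit 3993618390) (nat_lit 93) (nat_lit 5) (nat_lit 97) (nat_lit 5) (nat_lit 98) (nat_lit 5) (nat_lit 373) (nat_lit 309) (nat_lit 218)) (XT.nd (nat_lit 78) (nat_lit 304) (nat_lit 0) (XT.lf (nat_lit 0) (nat_lit 1275336789) (nat_lit 380) (nat_lit 240176961) (nat_lit 76) (nat_lit 15612645462) (nat_lit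 92) (nat_lit 5) (nat_lit 97) (nat_lit 5) (nat_lit 93) (nat_lit 5) (nat_lit 374) (nat_lit 309) (nat_lit 217)) (XT.lf (nat_lit 0) (nat_lit 6748901946) (nat_lit 380) (nat_lit 4128897639) (nat_lit 76) (nat_lit 6589482673) (nat_lit 88) (nat_lit 5) (nat_lit 93) (nat_lit 5) (nat_lit 89) (nat_lit 5) (nat_lit 375) (nat_lit 309) (nat_lit 216))))) (XT.nd (nat_lit 156) (nat_lit 532) (nat_lit 0) (XT.nd (nat_lit 78) (nat_lit 304) (nat_lit 0) (XT.lf (nat_lit 0) (nat_lit 9580940178) (nat_lit 304) (nat_lit 2850431971) (nat_lit 380) (nat_lit 5384322000) (nat_lit 84) (nat_lit 5) (nat_lit 88) (nat_lit 5) (nat_lit 89) (nat_lit 5) (nat_lit 376) (nat_lit 309) (nat_lit 215)) (XT.lf (nat_lit 0) (nat_lit 179503279) (nat_lit 304) (nat_lit 12597312078) (nat_lit 76) (nat_lit 5396313766) (nat_lit 80) (nat_lit 5) (nat_lit 84) (nat_lit 5) (nat_lit 81) (nat_lit 5) (nat_lit 377) (nat_lit 309) (nat_lit 214))) (XT.nd (nat_lit 78) (nat_lit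 228) (nat_lit 0) (XT.lf (nat_lit 0) (nat_lit 1289725298) (nat_lit 304) (nat_lit 4602919678) (nat_lit 380) (nat_lit 12646827716) (nat_lit 76) (nat_lit 5) (nat_lit 80) (nat_lit 5) (nat_lit 81) (nat_lit 5) (nat_lit 378) (nat_lit 309) (nat_lit 213)) (XT.nd (nat_lit 78) (nat_lit 228) (nat_lit 0) (XT.lf (nat_lit 0) (nat_lit 11859852330) (nat_lit 380) (nat_lit 3219367953) (nat_lit 76) (nat_lit 3835941034) (nat_lit 76) (nat_lit 5) (nat_lit 81) (nat_lit 5) (nat_lit 77) (nat_lit 5) (nat_lit 379) (nat_lit 309) (nat_lit 212)) (XT.lf (nat_lit 0) (nat_lit 11305990261) (nat_lit 228) (nat_lit 6777055398) (nat_lit 304) (nat_lit 1217543484) (nat_lit 73) (nat_lit 5) (nat_lit 76) (nat_lit 5) (nat_lit 77) (nat_lit 5) (nat_lit 380) (nat_lit 309) (nat_lit 211)))))) (XT.nd (nat_lit 41496) (nat_lit 0) (nat_lit 36404) (XT.nd (nat_lit 156) (nat_lit 0) (nat_lit 0) (XT.nd (nat_lit 78) (nat_lit 228) (nat_lit 0) (XT.lf (nat_lit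 0) (nat_lit 4782610429) (nat_lit 380) (nat_lit 13081681865) (nat_lit 76) (nat_lit 1831669426) (nat_lit 68) (nat_lit 5) (nat_lit 73) (nat_lit 5) (nat_lit 69) (nat_lit 5) (nat_lit 381) (nat_lit 309) (nat_lit 210)) (XT.lf (nat_lit 0) (nat_lit 1592991418) (nat_lit 228) (nat_lit 9437043641) (nat_lit 304) (nat_lit 9071330639) (nat_lit 65) (nat_lit 5) (nat_lit 68) (nat_lit 5) (nat_lit 69) (nat_lit 5) (nat_lit 382) (nat_lit 309) (nat_lit 209))) (XT.nd (nat_lit 41184) (nat_lit 0) (nat_lit 38304) (XT.lf (nat_lit 0) (nat_lit 16844840733) (nat_lit 228) (nat_lit 682701956) (nat_lit 304) (nat_lit 2990143023) (nat_lit 65) (nat_lit 5) (nat_lit 68) (nat_lit 5) (nat_lit 69) (nat_lit 5) (nat_lit 383) (nat_lit 309) (nat_lit 208)) (XT.nd (nat_lit 78) (nat_lit 0) (nat_lit 0) (XT.lf (nat_lit 0) (nat_lit 384889698) (nat_lit 988) (nat_lit 1526131217) (nat_lit 988) (nat_lit 1526131217) (nat_lit 569) (nat_lit 3) (nat_lit 582)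 (nat_lit 3) (nat_lit 582) (nat_lit 5) (nat_lit 310) (nat_lit 310) (nat_lit 280)) (XT.lf (nat_lit 76) (nat_lit 1816794469) (nat_lit 0) (nat_lit 1782021345) (nat_lit 988) (nat_lit 3319974589) (nat_lit 570) (nat_lit 5) (nat_lit 569) (nat_lit 3) (nat_lit 582) (nat_lit 5) (nat_lit 311) (nat_lit 310) (nat_lit 279))))) (XT.nd (nat_lit 156) (nat_lit 988) (nat_lit 0) (XT.nd (nat_lit 78) (nat_lit 988) (nat_lit 0) (XT.lf (nat_lit 0) (nat_lit 6426095409) (nat_lit 912) (nat_lit 151967224) (nat_lit 988) (nat_lit 388369980) (nat_lit 570) (nat_lit 5) (nat_lit 582) (nat_lit 5) (nat_lit 583) (nat_lit 5) (nat_lit 312) (nat_lit 310) (nat_lit 278)) (XT.lf (nat_lit 0) (nat_lit 2229401723) (nat_lit 988) (nat_lit 2089581850) (nat_lit 1064) (nat_lit 2697560054) (nat_lit 557) (nat_lit 5) (nat_lit 570) (nat_lit 5) (nat_lit 571) (nat_lit 5) (nat_lit 313) (nat_lit 310) (nat_lit 277))) (XT.nd (nat_lit 78) (nat_lit 988) (nat_lit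 0) (XT.lf (nat_lit 76) (nat_lit 3070782118) (nat_lit 0) (nat_lit 1920755784) (nat_lit 1064) (nat_lit 2078297896) (nat_lit 558) (nat_lit 5) (nat_lit 557) (nat_lit 5) (nat_lit 571) (nat_lit 5) (nat_lit 314) (nat_lit 310) (nat_lit 276)) (XT.nd (nat_lit 78) (nat_lit 0) (nat_lit 0) (XT.lf (nat_lit 0) (nat_lit 626378007) (nat_lit 1064) (nat_lit 5887211537) (nat_lit 1140) (nat_lit 612644937) (nat_lit 544) (nat_lit 5) (nat_lit 558) (nat_lit 5) (nat_lit 559) (nat_lit 5) (nat_lit 315) (nat_lit 310) (nat_lit 275)) (XT.lf (nat_lit 0) (nat_lit 3324673441) (nat_lit 1064) (nat_lit 581691697) (nat_lit 1140) (nat_lit 3278946877) (nat_lit 544) (nat_lit 5) (nat_lit 558) (nat_lit 5) (nat_lit 559) (nat_lit 5) (nat_lit 316) (nat_lit 310) (nat_lit 274))))))))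
noncomputable def xc70 : XT := (XT.nd (nat_lit 1482) (nat_lit 11248) (nat_lit 0) (XT.nd (nat_lit 702) (nat_lit 12616) (nat_lit 0) (XT.nd (nat_lit 312) (nat_lit 2356) (nat_lit 0) (XT.nd (nat_lit 156) (nat_lit 0) (nat_lit 0) (XT.nd (nat_lit 78) (nat_lit 1064) (nat_lit 0) (XT.lf (nat_lit 76) (nat_lit 4888891861) (nat_lit 0) (nat_lit 1150098838) (nat_lit 1140) (nat_lit 1208543448) (nat_lit 545) (nat_lit 5) (nat_lit 544) (nat_lit 5) (nat_lit 559) (nat_lit 5) (nat_lit 317) (nat_lit 310) (nat_lit 273)) (XT.lf (nat_lit 0) (nat_lit 1444350030) (nat_lit 1140) (nat_lit 4130959800) (nat_lit 1216) (nat_lit 1737361284) (nat_lit 530) (nat_lit 5) (nat_lit 545) (nat_lit 5) (nat_lit 546) (nat_lit 5) (nat_lit 318) (nat_lit 310) (nat_lit 272))) (XT.nd (nat_lit 78) (nat_lit 0) (nat_lit 76) (XT.lf (nat_lit 76) (nat_lit 1484912283) (nat_lit 0) (nat_lit 2616710100) (nat_lit 1216) (nat_lit 3279223946) (nat_lit 531) (nat_lit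 5) (nat_lit 530) (nat_lit 5) (nat_lit 546) (nat_lit 5) (nat_lit 319) (nat_lit 310) (nat_lit 271)) (XT.lf (nat_lit 0) (nat_lit 6779792673) (nat_lit 1140) (nat_lit 188582768) (nat_lit 1216) (nat_lit 483933916) (nat_lit 531) (nat_lit 5) (nat_lit 546) (nat_lit 5) (nat_lit 547) (nat_lit 5) (nat_lit 320) (nat_lit 310) (nat_lit 270)))) (XT.nd (nat_lit 156) (nat_lit 1216) (nat_lit 0) (XT.nd (nat_lit 78) (nat_lit 0) (nat_lit 0) (XT.lf (nat_lit 0) (nat_lit 1952968782) (nat_lit 1216) (nat_lit 1851521741) (nat_lit 1292) (nat_lit 3721888006) (nat_lit 515) (nat_lit 5) (nat_lit 531) (nat_lit 5) (nat_lit 532) (nat_lit 5) (nat_lit 321) (nat_lit 310) (nat_lit 269)) (XT.lf (nat_lit 76) (nat_lit 4104090294) (nat_lit 0) (nat_lit 486334554) (nat_lit 1292) (nat_lit 3013370293) (nat_lit 516) (nat_lit 5) (nat_lit 515) (nat_lit 5) (nat_lit 532) (nat_lit 5) (nat_lit 322) (nat_lit 310) (nat_lit 268))) (XT.nd (nat_lit 78) (nat_lit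 1292) (nat_lit 0) (XT.lf (nat_lit 76) (nat_lit 2534256829) (nat_lit 0) (nat_lit 4737500140) (nat_lit 1292) (nat_lit 412541589) (nat_lit 517) (nat_lit 5) (nat_lit 516) (nat_lit 5) (nat_lit 533) (nat_lit 5) (nat_lit 323) (nat_lit 310) (nat_lit 267)) (XT.nd (nat_lit 78) (nat_lit 0) (nat_lit 76) (XT.lf (nat_lit 76) (nat_lit 964461278) (nat_lit 0) (nat_lit 1223597881) (nat_lit 1368) (nat_lit 5579890717) (nat_lit 500) (nat_lit 5) (nat_lit 499) (nat_lit 5) (nat_lit 517) (nat_lit 5) (nat_lit 324) (nat_lit 310) (nat_lit 266)) (XT.lf (nat_lit 0) (nat_lit 4832005335) (nat_lit 1292) (nat_lit 600331400) (nat_lit 76) (nat_lit 2422355665) (nat_lit 500) (nat_lit 5) (nat_lit 517) (nat_lit 5) (nat_lit 501) (nat_lit 5) (nat_lit 325) (nat_lit 310) (nat_lit 265)))))) (XT.nd (nat_lit 390) (nat_lit 6916) (nat_lit 0) (XT.nd (nat_lit 156) (nat_lit 3040) (nat_lit 0) (XT.nd (nat_lit 78) (nat_lit 1444) (nat_lit 0) (XT.lf (nat_lit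 0) (nat_lit 5797286719) (nat_lit 1292) (nat_lit 1726345786) (nat_lit 1368) (nat_lit 421090690) (nat_lit 483) (nat_lit 5) (nat_lit 500) (nat_lit 5) (nat_lit 501) (nat_lit 5) (nat_lit 326) (nat_lit 310) (nat_lit 264)) (XT.lf (nat_lit 0) (nat_lit 2199065511) (nat_lit 1444) (nat_lit 3711753338) (nat_lit 76) (nat_lit 2126990806) (nat_lit 464) (nat_lit 5) (nat_lit 483) (nat_lit 5) (nat_lit 465) (nat_lit 5) (nat_lit 327) (nat_lit 310) (nat_lit 263))) (XT.nd (nat_lit 78) (nat_lit 1596) (nat_lit 0) (XT.lf (nat_lit 0) (nat_lit 2852452546) (nat_lit 1444) (nat_lit 2010201863) (nat_lit 1520) (nat_lit 3271616860) (nat_lit 445) (nat_lit 5) (nat_lit 464) (nat_lit 5) (nat_lit 465) (nat_lit 5) (nat_lit 328) (nat_lit 310) (nat_lit 262)) (XT.nd (nat_lit 78) (nat_lit 76) (nat_lit 0) (XT.lf (nat_lit 0) (nat_lit 1375249101) (nat_lit 1520) (nat_lit 6205848091) (nat_lit 1596) (nat_lit 653078390) (nat_lit 425) (nat_lit 5)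 (nat_lit 445) (nat_lit 5) (nat_lit 446) (nat_lit 5) (nat_lit 329) (nat_lit 310) (nat_lit 261)) (XT.lf (nat_lit 0) (nat_lit 1995549724) (nat_lit 1596) (nat_lit 119843928) (nat_lit 76) (nat_lit 6221896604) (nat_lit 424) (nat_lit 5) (nat_lit 445) (nat_lit 5) (nat_lit 425) (nat_lit 5) (nat_lit 330) (nat_lit 310) (nat_lit 260))))) (XT.nd (nat_lit 156) (nat_lit 3648) (nat_lit 0) (XT.nd (nat_lit 78) (nat_lit 1672) (nat_lit 0) (XT.lf (nat_lit 0) (nat_lit 4704224459) (nat_lit 1672) (nat_lit 1610188239) (nat_lit 76) (nat_lit 2129254274) (nat_lit 403) (nat_lit 5) (nat_lit 425) (nat_lit 5) (nat_lit 404) (nat_lit 5) (nat_lit 331) (nat_lit 310) (nat_lit 259)) (XT.lf (nat_lit 0) (nat_lit 5441457171) (nat_lit 1672) (nat_lit 2035631716) (nat_lit 1748) (nat_lit 1076530378) (nat_lit 381) (nat_lit 5) (nat_lit 403) (nat_lit 5) (nat_lit 404) (nat_lit 5) (nat_lit 332) (nat_lit 310) (nat_lit 258))) (XT.nd (nat_lit 78) (nat_lit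 1824) (nat_lit 0) (XT.lf (nat_lit 0) (nat_lit 1631146524) (nat_lit 1824) (nat_lit 4640398855) (nat_lit 76) (nat_lit 2395414559) (nat_lit 357) (nat_lit 5) (nat_lit 381) (nat_lit 5) (nat_lit 358) (nat_lit 5) (nat_lit 333) (nat_lit 310) (nat_lit 257)) (XT.nd (nat_lit 78) (nat_lit 912) (nat_lit 0) (XT.lf (nat_lit 0) (nat_lit 2591865487) (nat_lit 912) (nat_lit 1800645864) (nat_lit 988) (nat_lit 4391345107) (nat_lit 345) (nat_lit 5) (nat_lit 357) (nat_lit 5) (nat_lit 358) (nat_lit 5) (nat_lit 334) (nat_lit 310) (nat_lit 256)) (XT.lf (nat_lit 0) (nat_lit 1137185021) (nat_lit 912) (nat_lit 6093634538) (nat_lit 988) (nat_lit 1673596724) (nat_lit 333) (nat_lit 5) (nat_lit 345) (nat_lit 5) (nat_lit 346) (nat_lit 5) (nat_lit 335) (nat_lit 310) (nat_lit 255))))))) (XT.nd (nat_lit 702) (nat_lit 5624) (nat_lit 0) (XT.nd (nat_lit 312) (nat_lit 3040) (nat_lit 0) (XT.nd (nat_lit 156) (nat_lit 1672) (nat_lit 0) (XT.nd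 (nat_lit 78) (nat_lit 836) (nat_lit 0) (XT.lf (nat_lit 0) (nat_lit 1103065720) (nat_lit 988) (nat_lit 336571329) (nat_lit 76) (nat_lit 7589003382) (nat_lit 332) (nat_lit 5) (nat_lit 345) (nat_lit 5) (nat_lit 333) (nat_lit 5) (nat_lit 336) (nat_lit 310) (nat_lit 254)) (XT.lf (nat_lit 0) (nat_lit 3949955042) (nat_lit 912) (nat_lit 1835133720) (nat_lit 76) (nat_lit 3371123538) (nat_lit 321) (nat_lit 5) (nat_lit 333) (nat_lit 5) (nat_lit 322) (nat_lit 5) (nat_lit 337) (nat_lit 310) (nat_lit 253))) (XT.nd (nat_lit 78) (nat_lit 836) (nat_lit 0) (XT.lf (nat_lit 0) (nat_lit 5934990698) (nat_lit 836) (nat_lit 938787199) (nat_lit 912) (nat_lit 2414037395) (nat_lit 310) (nat_lit 5) (nat_lit 321) (nat_lit 5) (nat_lit 322) (nat_lit 5) (nat_lit 338) (nat_lit 310) (nat_lit 252)) (XT.lf (nat_lit 0) (nat_lit 466477780) (nat_lit 836) (nat_lit 4912166693) (nat_lit 76) (nat_lit 4044483014) (nat_lit 299) (nat_lit 5) (nat_lit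 310) (nat_lit 5) (nat_lit 300) (nat_lit 5) (nat_lit 339) (nat_lit 310) (nat_lit 251)))) (XT.nd (nat_lit 156) (nat_lit 1520) (nat_lit 0) (XT.nd (nat_lit 78) (nat_lit 760) (nat_lit 0) (XT.lf (nat_lit 0) (nat_lit 3053214813) (nat_lit 760) (nat_lit 339861191) (nat_lit 836) (nat_lit 6169286494) (nat_lit 289) (nat_lit 5) (nat_lit 299) (nat_lit 5) (nat_lit 300) (nat_lit 5) (nat_lit 340) (nat_lit 310) (nat_lit 250)) (XT.lf (nat_lit 0) (nat_lit 1549361365) (nat_lit 760) (nat_lit 4877733580) (nat_lit 836) (nat_lit 3278318118) (nat_lit 279) (nat_lit 5) (nat_lit 289) (nat_lit 5) (nat_lit 290) (nat_lit 5) (nat_lit 341) (nat_lit 310) (nat_lit 249))) (XT.nd (nat_lit 78) (nat_lit 760) (nat_lit 0) (XT.lf (nat_lit 0) (nat_lit 23640083) (nat_lit 760) (nat_lit 9522987790) (nat_lit 836) (nat_lit 306267457) (nat_lit 269) (nat_lit 5) (nat_lit 279) (nat_lit 5) (nat_lit 280) (nat_lit 5) (nat_lit 342) (nat_lit 310) (nat_lit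 248)) (XT.nd (nat_lit 78) (nat_lit 684) (nat_lit 0) (XT.lf (nat_lit 0) (nat_lit 2753668745) (nat_lit 836) (nat_lit 1553054236) (nat_lit 76) (nat_lit 5697052842) (nat_lit 268) (nat_lit 5) (nat_lit 279) (nat_lit 5) (nat_lit 269) (nat_lit 5) (nat_lit 343) (nat_lit 310) (nat_lit 247)) (XT.lf (nat_lit 0) (nat_lit 5902100180) (nat_lit 760) (nat_lit 3162388724) (nat_lit 76) (nat_lit 1094663951) (nat_lit 259) (nat_lit 5) (nat_lit 269) (nat_lit 5) (nat_lit 260) (nat_lit 5) (nat_lit 344) (nat_lit 310) (nat_lit 246)))))) (XT.nd (nat_lit 390) (nat_lit 2888) (nat_lit 0) (XT.nd (nat_lit 156) (nat_lit 1368) (nat_lit 0) (XT.nd (nat_lit 78) (nat_lit 684) (nat_lit 0) (XT.lf (nat_lit 0) (nat_lit 5491290271) (nat_lit 684) (nat_lit 3678008632) (nat_lit 760) (nat_lit 1149432973) (nat_lit 250) (nat_lit 5) (nat_lit 259) (nat_lit 5) (nat_lit 260) (nat_lit 5) (nat_lit 345) (nat_lit 310) (nat_lit 245)) (XT.lf (nat_lit 0) (nat_lit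 2034226731) (nat_lit 684) (nat_lit 6548889409) (nat_lit 76) (nat_lit 1899547090) (nat_lit 241) (nat_lit 5) (nat_lit 250) (nat_lit 5) (nat_lit 242) (nat_lit 5) (nat_lit 346) (nat_lit 310) (nat_lit 244))) (XT.nd (nat_lit 78) (nat_lit 684) (nat_lit 0) (XT.lf (nat_lit 0) (nat_lit 2313886944) (nat_lit 684) (nat_lit 3007600217) (nat_lit 760) (nat_lit 5329424184) (nat_lit 232) (nat_lit 5) (nat_lit 241) (nat_lit 5) (nat_lit 242) (nat_lit 5) (nat_lit 347) (nat_lit 310) (nat_lit 243)) (XT.nd (nat_lit 78) (nat_lit 76) (nat_lit 0) (XT.lf (nat_lit 0) (nat_lit 642230090) (nat_lit 608) (nat_lit 8083812197) (nat_lit 684) (nat_lit 2097815271) (nat_lit 224) (nat_lit 5) (nat_lit 232) (nat_lit 5) (nat_lit 233) (nat_lit 5) (nat_lit 348) (nat_lit 310) (nat_lit 242)) (XT.lf (nat_lit 0) (nat_lit 1244357313) (nat_lit 684) (nat_lit 1081095173) (nat_lit 76) (nat_lit 8675807747) (nat_lit 223) (nat_lit 5) (nat_lit 232) (nat_lit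 5) (nat_lit 224) (nat_lit 5) (nat_lit 349) (nat_lit 310) (nat_lit 241))))) (XT.nd (nat_lit 156) (nat_lit 1748) (nat_lit 0) (XT.nd (nat_lit 78) (nat_lit 532) (nat_lit 0) (XT.lf (nat_lit 0) (nat_lit 4690509633) (nat_lit 684) (nat_lit 2874738406) (nat_lit 76) (nat_lit 3617837666) (nat_lit 215) (nat_lit 5) (nat_lit 224) (nat_lit 5) (nat_lit 216) (nat_lit 5) (nat_lit 350) (nat_lit 310) (nat_lit 240)) (XT.lf (nat_lit 0) (nat_lit 6640495391) (nat_lit 532) (nat_lit 1620665055) (nat_lit 608) (nat_lit 3108804921) (nat_lit 208) (nat_lit 5) (nat_lit 215) (nat_lit 5) (nat_lit 216) (nat_lit 5) (nat_lit 351) (nat_lit 310) (nat_lit 239))) (XT.nd (nat_lit 78) (nat_lit 1064) (nat_lit 0) (XT.lf (nat_lit 0) (nat_lit 408372162) (nat_lit 684) (nat_lit 6666059507) (nat_lit 76) (nat_lit 4487254917) (nat_lit 199) (nat_lit 5) (nat_lit 208) (nat_lit 5) (nat_lit 200) (nat_lit 5) (nat_lit 352) (nat_lit 310) (nat_lit 238)) (XT.nd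 (nat_lit 78) (nat_lit 532) (nat_lit 0) (XT.lf (nat_lit 0) (nat_lit 3069418031) (nat_lit 532) (nat_lit 939268471) (nat_lit 608) (nat_lit 7749684844) (nat_lit 192) (nat_lit 5) (nat_lit 199) (nat_lit 5) (nat_lit 200) (nat_lit 5) (nat_lit 353) (nat_lit 310) (nat_lit 237)) (XT.lf (nat_lit 0) (nat_lit 1153448558) (nat_lit 532) (nat_lit 6608883142) (nat_lit 608) (nat_lit 4197737997) (nat_lit 185) (nat_lit 5) (nat_lit 192) (nat_lit 5) (nat_lit 193) (nat_lit 5) (nat_lit 354) (nat_lit 310) (nat_lit 236))))))))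
noncomputable def xc71 : XT := (XT.nd (nat_lit 1482) (nat_lit 2432) (nat_lit 0) (XT.nd (nat_lit 702) (nat_lit 3192) (nat_lit 0) (XT.nd (nat_lit 312) (nat_lit 1900) (nat_lit 0) (XT.nd (nat_lit 156) (nat_lit 988) (nat_lit 0) (XT.nd (nat_lit 78) (nat_lit 608) (nat_lit 0) (XT.lf (nat_lit 0) (nat_lit 11349976813) (nat_lit 532) (nat_lit 302051400) (nat_lit 608) (nat_lit 515340854) (nat_lit 185) (nat_lit 5) (nat_lit 192) (nat_lit 5) (nat_lit 193) (nat_lit 5) (nat_lit 355) (nat_lit 310) (nat_lit 235)) (XT.lf (nat_lit 0) (nat_lit 3296307493) (nat_lit 608) (nat_lit 2898336353) (nat_lit 76) (nat_lit 6184600678) (nat_lit 177) (nat_lit 5) (nat_lit 185) (nat_lit 5) (nat_lit 178) (nat_lit 5) (nat_lit 356) (nat_lit 310) (nat_lit 234))) (XT.nd (nat_lit 78) (nat_lit 456) (nat_lit 0) (XT.lf (nat_lit 0) (nat_lit 7233953846) (nat_lit 608) (nat_lit 5056302536) (nat_lit 76) (nat_lit 306796208) (nat_lit 170) (nat_lit 5)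 (nat_lit 178) (nat_lit 5) (nat_lit 171) (nat_lit 5) (nat_lit 357) (nat_lit 310) (nat_lit 233)) (XT.lf (nat_lit 0) (nat_lit 5489662194) (nat_lit 456) (nat_lit 5857676284) (nat_lit 532) (nat_lit 1472921204) (nat_lit 164) (nat_lit 5) (nat_lit 170) (nat_lit 5) (nat_lit 171) (nat_lit 5) (nat_lit 358) (nat_lit 310) (nat_lit 232)))) (XT.nd (nat_lit 156) (nat_lit 912) (nat_lit 0) (XT.nd (nat_lit 78) (nat_lit 456) (nat_lit 0) (XT.lf (nat_lit 0) (nat_lit 2523634396) (nat_lit 532) (nat_lit 9708062929) (nat_lit 76) (nat_lit 817694645) (nat_lit 157) (nat_lit 5) (nat_lit 164) (nat_lit 5) (nat_lit 158) (nat_lit 5) (nat_lit 359) (nat_lit 310) (nat_lit 231)) (XT.lf (nat_lit 0) (nat_lit 1061947463) (nat_lit 456) (nat_lit 5616326976) (nat_lit 532) (nat_lit 6605780765) (nat_lit 151) (nat_lit 5) (nat_lit 157) (nat_lit 5) (nat_lit 158) (nat_lit 5) (nat_lit 360) (nat_lit 310) (nat_lit 230))) (XT.nd (nat_lit 78) (nat_lit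 912) (nat_lit 0) (XT.lf (nat_lit 0) (nat_lit 10994246991) (nat_lit 532) (nat_lit 1296514628) (nat_lit 76) (nat_lit 1234278068) (nat_lit 151) (nat_lit 5) (nat_lit 158) (nat_lit 5) (nat_lit 152) (nat_lit 5) (nat_lit 361) (nat_lit 310) (nat_lit 229)) (XT.nd (nat_lit 78) (nat_lit 380) (nat_lit 0) (XT.lf (nat_lit 0) (nat_lit 1711284250) (nat_lit 532) (nat_lit 3783056527) (nat_lit 76) (nat_lit 8277377122) (nat_lit 144) (nat_lit 5) (nat_lit 151) (nat_lit 5) (nat_lit 145) (nat_lit 5) (nat_lit 362) (nat_lit 310) (nat_lit 228)) (XT.lf (nat_lit 0) (nat_lit 6079322030) (nat_lit 456) (nat_lit 6397465041) (nat_lit 76) (nat_lit 1548027240) (nat_lit 139) (nat_lit 5) (nat_lit 145) (nat_lit 5) (nat_lit 140) (nat_lit 5) (nat_lit 363) (nat_lit 310) (nat_lit 227)))))) (XT.nd (nat_lit 390) (nat_lit 1520) (nat_lit 0) (XT.nd (nat_lit 156) (nat_lit 760) (nat_lit 0) (XT.nd (nat_lit 78) (nat_lit 456) (nat_lit 0) (XT.lf (nat_lit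 0) (nat_lit 5127413148) (nat_lit 456) (nat_lit 5511724753) (nat_lit 532) (nat_lit 3645164630) (nat_lit 133) (nat_lit 5) (nat_lit 139) (nat_lit 5) (nat_lit 140) (nat_lit 5) (nat_lit 364) (nat_lit 310) (nat_lit 226)) (XT.lf (nat_lit 0) (nat_lit 810332089) (nat_lit 456) (nat_lit 12049074345) (nat_lit 76) (nat_lit 1691351258) (nat_lit 127) (nat_lit 5) (nat_lit 133) (nat_lit 5) (nat_lit 128) (nat_lit 5) (nat_lit 365) (nat_lit 310) (nat_lit 225))) (XT.nd (nat_lit 78) (nat_lit 760) (nat_lit 0) (XT.lf (nat_lit 0) (nat_lit 5415532254) (nat_lit 456) (nat_lit 299498321) (nat_lit 76) (nat_lit 9108395421) (nat_lit 127) (nat_lit 5) (nat_lit 133) (nat_lit 5) (nat_lit 128) (nat_lit 5) (nat_lit 366) (nat_lit 310) (nat_lit 224)) (XT.nd (nat_lit 78) (nat_lit 380) (nat_lit 0) (XT.lf (nat_lit 0) (nat_lit 10214261506) (nat_lit 456) (nat_lit 3203515275) (nat_lit 76) (nat_lit 1685402358) (nat_lit 122) (nat_lit 5) (nat_lit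 128) (nat_lit 5) (nat_lit 123) (nat_lit 5) (nat_lit 367) (nat_lit 310) (nat_lit 223)) (XT.lf (nat_lit 0) (nat_lit 9111285129) (nat_lit 380) (nat_lit 6112599058) (nat_lit 456) (nat_lit 166113953) (nat_lit 117) (nat_lit 5) (nat_lit 122) (nat_lit 5) (nat_lit 123) (nat_lit 5) (nat_lit 368) (nat_lit 310) (nat_lit 222))))) (XT.nd (nat_lit 156) (nat_lit 760) (nat_lit 0) (XT.nd (nat_lit 78) (nat_lit 304) (nat_lit 0) (XT.lf (nat_lit 0) (nat_lit 4676194319) (nat_lit 456) (nat_lit 9536669832) (nat_lit 76) (nat_lit 1471169971) (nat_lit 111) (nat_lit 5) (nat_lit 117) (nat_lit 5) (nat_lit 112) (nat_lit 5) (nat_lit 369) (nat_lit 310) (nat_lit 221)) (XT.lf (nat_lit 0) (nat_lit 2996116655) (nat_lit 304) (nat_lit 6737037398) (nat_lit 380) (nat_lit 6252293383) (nat_lit 107) (nat_lit 5) (nat_lit 111) (nat_lit 5) (nat_lit 112) (nat_lit 5) (nat_lit 370) (nat_lit 310) (nat_lit 220))) (XT.nd (nat_lit 78) (nat_lit 760) (nat_lit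 0) (XT.lf (nat_lit 0) (nat_lit 14982112613) (nat_lit 380) (nat_lit 312666803) (nat_lit 76) (nat_lit 1000328603) (nat_lit 107) (nat_lit 5) (nat_lit 112) (nat_lit 5) (nat_lit 108) (nat_lit 5) (nat_lit 371) (nat_lit 310) (nat_lit 219)) (XT.nd (nat_lit 78) (nat_lit 304) (nat_lit 0) (XT.lf (nat_lit 0) (nat_lit 3823809879) (nat_lit 456) (nat_lit 3815293983) (nat_lit 76) (nat_lit 8972497960) (nat_lit 101) (nat_lit 5) (nat_lit 107) (nat_lit 5) (nat_lit 102) (nat_lit 5) (nat_lit 372) (nat_lit 310) (nat_lit 218)) (XT.lf (nat_lit 0) (nat_lit 9132621692) (nat_lit 380) (nat_lit 7503602191) (nat_lit 76) (nat_lit 300488024) (nat_lit 97) (nat_lit 5) (nat_lit 102) (nat_lit 5) (nat_lit 98) (nat_lit 5) (nat_lit 373) (nat_lit 310) (nat_lit 217))))))) (XT.nd (nat_lit 41964) (nat_lit 0) (nat_lit 34124) (XT.nd (nat_lit 390) (nat_lit 1140) (nat_lit 0) (XT.nd (nat_lit 156) (nat_lit 608) (nat_lit 0) (XT.nd (nat_lit 78) (nat_lit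 380) (nat_lit 0) (XT.lf (nat_lit 0) (nat_lit 5840606887) (nat_lit 304) (nat_lit 8845872352) (nat_lit 380) (nat_lit 2583390003) (nat_lit 93) (nat_lit 5) (nat_lit 97) (nat_lit 5) (nat_lit 98) (nat_lit 5) (nat_lit 374) (nat_lit 310) (nat_lit 216)) (XT.lf (nat_lit 0) (nat_lit 2039588015) (nat_lit 304) (nat_lit 753241749) (nat_lit 380) (nat_lit 14819127016) (nat_lit 88) (nat_lit 5) (nat_lit 92) (nat_lit 5) (nat_lit 93) (nat_lit 5) (nat_lit 375) (nat_lit 310) (nat_lit 215))) (XT.nd (nat_lit 78) (nat_lit 608) (nat_lit 0) (XT.lf (nat_lit 0) (nat_lit 8394199618) (nat_lit 380) (nat_lit 2005111675) (nat_lit 76) (nat_lit 7562683742) (nat_lit 88) (nat_lit 5) (nat_lit 93) (nat_lit 5) (nat_lit 89) (nat_lit 5) (nat_lit 376) (nat_lit 310) (nat_lit 214)) (XT.nd (nat_lit 78) (nat_lit 304) (nat_lit 0) (XT.lf (nat_lit 0) (nat_lit 12079555778) (nat_lit 304) (nat_lit 2139920451) (nat_lit 380) (nat_lit 4101949486) (nat_lit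 84) (nat_lit 5) (nat_lit 88) (nat_lit 5) (nat_lit 89) (nat_lit 5) (nat_lit 377) (nat_lit 310) (nat_lit 213)) (XT.lf (nat_lit 0) (nat_lit 1587769355) (nat_lit 304) (nat_lit 10757670855) (nat_lit 76) (nat_lit 6344410167) (nat_lit 80) (nat_lit 5) (nat_lit 84) (nat_lit 5) (nat_lit 81) (nat_lit 5) (nat_lit 378) (nat_lit 310) (nat_lit 212))))) (XT.nd (nat_lit 156) (nat_lit 836) (nat_lit 0) (XT.nd (nat_lit 78) (nat_lit 0) (nat_lit 0) (XT.lf (nat_lit 0) (nat_lit 3510000356) (nat_lit 304) (nat_lit 3935608622) (nat_lit 380) (nat_lit 11622121289) (nat_lit 76) (nat_lit 5) (nat_lit 80) (nat_lit 5) (nat_lit 81) (nat_lit 5) (nat_lit 379) (nat_lit 310) (nat_lit 211)) (XT.lf (nat_lit 0) (nat_lit 13556826380) (nat_lit 380) (nat_lit 1175870620) (nat_lit 76) (nat_lit 4722704409) (nat_lit 76) (nat_lit 5) (nat_lit 81) (nat_lit 5) (nat_lit 77) (nat_lit 5) (nat_lit 380) (nat_lit 310) (nat_lit 210))) (XT.nd (nat_lit 78) (nat_lit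 532) (nat_lit 0) (XT.lf (nat_lit 0) (nat_lit 87250580) (nat_lit 304) (nat_lit 6102957251) (nat_lit 76) (nat_lit 13662692034) (nat_lit 72) (nat_lit 5) (nat_lit 76) (nat_lit 5) (nat_lit 73) (nat_lit 5) (nat_lit 381) (nat_lit 310) (nat_lit 209)) (XT.nd (nat_lit 78) (nat_lit 228) (nat_lit 0) (XT.lf (nat_lit 0) (nat_lit 6231058660) (nat_lit 380) (nat_lit 11364008154) (nat_lit 76) (nat_lit 2665312868) (nat_lit 68) (nat_lit 5) (nat_lit 73) (nat_lit 5) (nat_lit 69) (nat_lit 5) (nat_lit 382) (nat_lit 310) (nat_lit 208)) (XT.lf (nat_lit 0) (nat_lit 3716671070) (nat_lit 228) (nat_lit 8924704179) (nat_lit 304) (nat_lit 8037071673) (nat_lit 65) (nat_lit 5) (nat_lit 68) (nat_lit 5) (nat_lit 69) (nat_lit 5) (nat_lit 383) (nat_lit 310) (nat_lit 207)))))) (XT.nd (nat_lit 390) (nat_lit 2204) (nat_lit 0) (XT.nd (nat_lit 156) (nat_lit 988) (nat_lit 0) (XT.nd (nat_lit 78) (nat_lit 988) (nat_lit 0) (XT.lf (nat_lit 0) (nat_lit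 3175160235) (nat_lit 988) (nat_lit 153637628) (nat_lit 988) (nat_lit 153637628) (nat_lit 569) (nat_lit 3) (nat_lit 582) (nat_lit 3) (nat_lit 582) (nat_lit 5) (nat_lit 311) (nat_lit 311) (nat_lit 278)) (XT.lf (nat_lit 0) (nat_lit 2079149618) (nat_lit 988) (nat_lit 2365543155) (nat_lit 1064) (nat_lit 2568731810) (nat_lit 556) (nat_lit 5) (nat_lit 569) (nat_lit 3) (nat_lit 570) (nat_lit 5) (nat_lit 312) (nat_lit 311) (nat_lit 277))) (XT.nd (nat_lit 78) (nat_lit 988) (nat_lit 0) (XT.lf (nat_lit 76) (nat_lit 2668531265) (nat_lit 0) (nat_lit 2091921748) (nat_lit 1064) (nat_lit 2304679881) (nat_lit 557) (nat_lit 5) (nat_lit 556) (nat_lit 5) (nat_lit 570) (nat_lit 5) (nat_lit 313) (nat_lit 311) (nat_lit 276)) (XT.nd (nat_lit 78) (nat_lit 0) (nat_lit 0) (XT.lf (nat_lit 0) (nat_lit 319533494) (nat_lit 1064) (nat_lit 6403419257) (nat_lit 1140) (nat_lit 397044963) (nat_lit 543) (nat_lit 5) (nat_lit 557) (nat_lit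 5) (nat_lit 558) (nat_lit 5) (nat_lit 314) (nat_lit 311) (nat_lit 275)) (XT.lf (nat_lit 0) (nat_lit 2935850797) (nat_lit 1064) (nat_lit 1219041167) (nat_lit 1140) (nat_lit 3022493998) (nat_lit 543) (nat_lit 5) (nat_lit 557) (nat_lit 5) (nat_lit 558) (nat_lit 5) (nat_lit 315) (nat_lit 311) (nat_lit 274))))) (XT.nd (nat_lit 156) (nat_lit 1140) (nat_lit 0) (XT.nd (nat_lit 78) (nat_lit 1064) (nat_lit 0) (XT.lf (nat_lit 76) (nat_lit 4119690453) (nat_lit 0) (nat_lit 1441143018) (nat_lit 1140) (nat_lit 1677132601) (nat_lit 544) (nat_lit 5) (nat_lit 543) (nat_lit 5) (nat_lit 558) (nat_lit 5) (nat_lit 316) (nat_lit 311) (nat_lit 273)) (XT.lf (nat_lit 0) (nat_lit 889261722) (nat_lit 1140) (nat_lit 5007657375) (nat_lit 1216) (nat_lit 1404635357) (nat_lit 529) (nat_lit 5) (nat_lit 544) (nat_lit 5) (nat_lit 545) (nat_lit 5) (nat_lit 317) (nat_lit 311) (nat_lit 272))) (XT.nd (nat_lit 78) (nat_lit 1140) (nat_lit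 0) (XT.lf (nat_lit 76) (nat_lit 472797516) (nat_lit 0) (nat_lit 2979016982) (nat_lit 1216) (nat_lit 3916243363) (nat_lit 530) (nat_lit 5) (nat_lit 529) (nat_lit 5) (nat_lit 545) (nat_lit 5) (nat_lit 318) (nat_lit 311) (nat_lit 271)) (XT.nd (nat_lit 78) (nat_lit 1216) (nat_lit 0) (XT.lf (nat_lit 0) (nat_lit 6035958878) (nat_lit 1140) (nat_lit 1308122449) (nat_lit 1216) (nat_lit 93646896) (nat_lit 530) (nat_lit 5) (nat_lit 545) (nat_lit 5) (nat_lit 546) (nat_lit 5) (nat_lit 319) (nat_lit 311) (nat_lit 270)) (XT.lf (nat_lit 0) (nat_lit 1133908658) (nat_lit 1216) (nat_lit 3089361435) (nat_lit 1292) (nat_lit 3286900234) (nat_lit 514) (nat_lit 5) (nat_lit 530) (nat_lit 5) (nat_lit 531) (nat_lit 5) (nat_lit 320) (nat_lit 311) (nat_lit 269))))))))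
noncomputable def xc72 : XT := (XT.nd (nat_lit 1482) (nat_lit 10564) (nat_lit 0) (XT.nd (nat_lit 702) (nat_lit 10260) (nat_lit 0) (XT.nd (nat_lit 312) (nat_lit 4104) (nat_lit 0) (XT.nd (nat_lit 156) (nat_lit 1216) (nat_lit 0) (XT.nd (nat_lit 78) (nat_lit 0) (nat_lit 76) (XT.lf (nat_lit 76) (nat_lit 2724554306) (nat_lit 0) (nat_lit 943325425) (nat_lit 1292) (nat_lit 3917956439) (nat_lit 515) (nat_lit 5) (nat_lit 514) (nat_lit 5) (nat_lit 531) (nat_lit 5) (nat_lit 321) (nat_lit 311) (nat_lit 268)) (XT.lf (nat_lit 76) (nat_lit 1031768070) (nat_lit 0) (nat_lit 5206536076) (nat_lit 1292) (nat_lit 1426318507) (nat_lit 516) (nat_lit 5) (nat_lit 515) (nat_lit 5) (nat_lit 532) (nat_lit 5) (nat_lit 322) (nat_lit 311) (nat_lit 267))) (XT.nd (nat_lit 78) (nat_lit 0) (nat_lit 76) (XT.lf (nat_lit 0) (nat_lit 1082896653) (nat_lit 1292) (nat_lit 648735318) (nat_lit 1368) (nat_lit 6014893607) (nat_lit 498) (nat_lit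 5) (nat_lit 515) (nat_lit 5) (nat_lit 516) (nat_lit 5) (nat_lit 323) (nat_lit 311) (nat_lit 266)) (XT.lf (nat_lit 0) (nat_lit 3617108304) (nat_lit 1292) (nat_lit 2322438273) (nat_lit 1368) (nat_lit 1891823339) (nat_lit 499) (nat_lit 5) (nat_lit 516) (nat_lit 5) (nat_lit 517) (nat_lit 5) (nat_lit 324) (nat_lit 311) (nat_lit 265)))) (XT.nd (nat_lit 156) (nat_lit 2888) (nat_lit 0) (XT.nd (nat_lit 78) (nat_lit 1292) (nat_lit 0) (XT.lf (nat_lit 76) (nat_lit 3924404630) (nat_lit 0) (nat_lit 2267213030) (nat_lit 1368) (nat_lit 1727909746) (nat_lit 500) (nat_lit 5) (nat_lit 499) (nat_lit 5) (nat_lit 517) (nat_lit 5) (nat_lit 325) (nat_lit 311) (nat_lit 264)) (XT.lf (nat_lit 0) (nat_lit 787520653) (nat_lit 1368) (nat_lit 5672779148) (nat_lit 76) (nat_lit 1550664067) (nat_lit 482) (nat_lit 5) (nat_lit 500) (nat_lit 5) (nat_lit 483) (nat_lit 5) (nat_lit 326) (nat_lit 311) (nat_lit 263))) (XT.nd (nat_lit 78)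 (nat_lit 1520) (nat_lit 0) (XT.lf (nat_lit 0) (nat_lit 736492544) (nat_lit 1368) (nat_lit 2591857046) (nat_lit 1444) (nat_lit 4777146389) (nat_lit 464) (nat_lit 5) (nat_lit 482) (nat_lit 5) (nat_lit 483) (nat_lit 5) (nat_lit 327) (nat_lit 311) (nat_lit 262)) (XT.nd (nat_lit 78) (nat_lit 1520) (nat_lit 0) (XT.lf (nat_lit 0) (nat_lit 5921104955) (nat_lit 1444) (nat_lit 854195901) (nat_lit 76) (nat_lit 1428096943) (nat_lit 464) (nat_lit 5) (nat_lit 483) (nat_lit 5) (nat_lit 465) (nat_lit 5) (nat_lit 328) (nat_lit 311) (nat_lit 261)) (XT.lf (nat_lit 0) (nat_lit 268929222) (nat_lit 1520) (nat_lit 2447574517) (nat_lit 76) (nat_lit 5588035241) (nat_lit 444) (nat_lit 5) (nat_lit 464) (nat_lit 5) (nat_lit 445) (nat_lit 5) (nat_lit 329) (nat_lit 311) (nat_lit 260)))))) (XT.nd (nat_lit 390) (nat_lit 3648) (nat_lit 0) (XT.nd (nat_lit 156) (nat_lit 3496) (nat_lit 0) (XT.nd (nat_lit 78) (nat_lit 1596) (nat_lit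 0) (XT.lf (nat_lit 0) (nat_lit 2841126673) (nat_lit 1596) (nat_lit 4061482722) (nat_lit 76) (nat_lit 1506338512) (nat_lit 424) (nat_lit 5) (nat_lit 445) (nat_lit 5) (nat_lit 425) (nat_lit 5) (nat_lit 330) (nat_lit 311) (nat_lit 259)) (XT.lf (nat_lit 0) (nat_lit 2825111756) (nat_lit 1596) (nat_lit 2651535520) (nat_lit 1672) (nat_lit 3040161546) (nat_lit 403) (nat_lit 5) (nat_lit 424) (nat_lit 5) (nat_lit 425) (nat_lit 5) (nat_lit 331) (nat_lit 311) (nat_lit 258))) (XT.nd (nat_lit 78) (nat_lit 1824) (nat_lit 0) (XT.lf (nat_lit 0) (nat_lit 1294278286) (nat_lit 1672) (nat_lit 6878873877) (nat_lit 1748) (nat_lit 455156643) (nat_lit 381) (nat_lit 5) (nat_lit 403) (nat_lit 5) (nat_lit 404) (nat_lit 5) (nat_lit 332) (nat_lit 311) (nat_lit 257)) (XT.nd (nat_lit 78) (nat_lit 1748) (nat_lit 0) (XT.lf (nat_lit 0) (nat_lit 2170674657) (nat_lit 1748) (nat_lit 264760058) (nat_lit 76) (nat_lit 6307627513) (nat_lit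 380) (nat_lit 5) (nat_lit 403) (nat_lit 5) (nat_lit 381) (nat_lit 5) (nat_lit 333) (nat_lit 311) (nat_lit 256)) (XT.lf (nat_lit 0) (nat_lit 4866716339) (nat_lit 1824) (nat_lit 1825948080) (nat_lit 76) (nat_lit 2168619736) (nat_lit 357) (nat_lit 5) (nat_lit 381) (nat_lit 5) (nat_lit 358) (nat_lit 5) (nat_lit 334) (nat_lit 311) (nat_lit 255))))) (XT.nd (nat_lit 156) (nat_lit 1748) (nat_lit 0) (XT.nd (nat_lit 78) (nat_lit 988) (nat_lit 0) (XT.lf (nat_lit 0) (nat_lit 5575364524) (nat_lit 912) (nat_lit 2061608975) (nat_lit 988) (nat_lit 1346249895) (nat_lit 345) (nat_lit 5) (nat_lit 357) (nat_lit 5) (nat_lit 358) (nat_lit 5) (nat_lit 335) (nat_lit 311) (nat_lit 254)) (XT.lf (nat_lit 0) (nat_lit 1360449339) (nat_lit 988) (nat_lit 5023534021) (nat_lit 76) (nat_lit 2724752582) (nat_lit 332) (nat_lit 5) (nat_lit 345) (nat_lit 5) (nat_lit 333) (nat_lit 5) (nat_lit 336) (nat_lit 311) (nat_lit 253))) (XT.nd (nat_lit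 78) (nat_lit 912) (nat_lit 0) (XT.lf (nat_lit 0) (nat_lit 2566134512) (nat_lit 836) (nat_lit 1559156030) (nat_lit 912) (nat_lit 5112675228) (nat_lit 321) (nat_lit 5) (nat_lit 332) (nat_lit 5) (nat_lit 333) (nat_lit 5) (nat_lit 337) (nat_lit 311) (nat_lit 252)) (XT.nd (nat_lit 78) (nat_lit 76) (nat_lit 0) (XT.lf (nat_lit 0) (nat_lit 1015824297) (nat_lit 836) (nat_lit 5963043330) (nat_lit 912) (nat_lit 2392122553) (nat_lit 310) (nat_lit 5) (nat_lit 321) (nat_lit 5) (nat_lit 322) (nat_lit 5) (nat_lit 338) (nat_lit 311) (nat_lit 251)) (XT.lf (nat_lit 0) (nat_lit 404291550) (nat_lit 912) (nat_lit 551905237) (nat_lit 76) (nat_lit 8551794723) (nat_lit 309) (nat_lit 5) (nat_lit 321) (nat_lit 5) (nat_lit 310) (nat_lit 5) (nat_lit 339) (nat_lit 311) (nat_lit 250))))))) (XT.nd (nat_lit 702) (nat_lit 4712) (nat_lit 0) (XT.nd (nat_lit 312) (nat_lit 2736) (nat_lit 0) (XT.nd (nat_lit 156) (nat_lit 1596) (nat_lit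 0) (XT.nd (nat_lit 78) (nat_lit 760) (nat_lit 0) (XT.lf (nat_lit 0) (nat_lit 3274088423) (nat_lit 836) (nat_lit 2163838877) (nat_lit 76) (nat_lit 4210450498) (nat_lit 299) (nat_lit 5) (nat_lit 310) (nat_lit 5) (nat_lit 300) (nat_lit 5) (nat_lit 340) (nat_lit 311) (nat_lit 249)) (XT.lf (nat_lit 0) (nat_lit 5993524899) (nat_lit 760) (nat_lit 232087968) (nat_lit 836) (nat_lit 3567480191) (nat_lit 289) (nat_lit 5) (nat_lit 299) (nat_lit 5) (nat_lit 300) (nat_lit 5) (nat_lit 341) (nat_lit 311) (nat_lit 248))) (XT.nd (nat_lit 78) (nat_lit 836) (nat_lit 0) (XT.lf (nat_lit 0) (nat_lit 4452814850) (nat_lit 760) (nat_lit 4837594261) (nat_lit 836) (nat_lit 651275322) (nat_lit 279) (nat_lit 5) (nat_lit 289) (nat_lit 5) (nat_lit 290) (nat_lit 5) (nat_lit 342) (nat_lit 311) (nat_lit 247)) (XT.lf (nat_lit 0) (nat_lit 2319888462) (nat_lit 836) (nat_lit 7222276659) (nat_lit 76) (nat_lit 552324234) (nat_lit 268) (nat_lit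 5) (nat_lit 279) (nat_lit 5) (nat_lit 269) (nat_lit 5) (nat_lit 343) (nat_lit 311) (nat_lit 246)))) (XT.nd (nat_lit 156) (nat_lit 2052) (nat_lit 0) (XT.nd (nat_lit 78) (nat_lit 0) (nat_lit 0) (XT.lf (nat_lit 0) (nat_lit 1231857843) (nat_lit 684) (nat_lit 4166988603) (nat_lit 760) (nat_lit 4852422693) (nat_lit 259) (nat_lit 5) (nat_lit 268) (nat_lit 5) (nat_lit 269) (nat_lit 5) (nat_lit 344) (nat_lit 311) (nat_lit 245)) (XT.lf (nat_lit 0) (nat_lit 8579073313) (nat_lit 760) (nat_lit 438059617) (nat_lit 76) (nat_lit 1395467564) (nat_lit 259) (nat_lit 5) (nat_lit 269) (nat_lit 5) (nat_lit 260) (nat_lit 5) (nat_lit 345) (nat_lit 311) (nat_lit 244))) (XT.nd (nat_lit 78) (nat_lit 1292) (nat_lit 0) (XT.lf (nat_lit 0) (nat_lit 1294181546) (nat_lit 760) (nat_lit 2157124490) (nat_lit 76) (nat_lit 7126625379) (nat_lit 249) (nat_lit 5) (nat_lit 259) (nat_lit 5) (nat_lit 250) (nat_lit 5) (nat_lit 346) (nat_lit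 311) (nat_lit 243)) (XT.nd (nat_lit 78) (nat_lit 684) (nat_lit 0) (XT.lf (nat_lit 0) (nat_lit 4506323298) (nat_lit 684) (nat_lit 3936339391) (nat_lit 76) (nat_lit 2305031132) (nat_lit 241) (nat_lit 5) (nat_lit 250) (nat_lit 5) (nat_lit 242) (nat_lit 5) (nat_lit 347) (nat_lit 311) (nat_lit 242)) (XT.lf (nat_lit 0) (nat_lit 5146747294) (nat_lit 684) (nat_lit 2693171023) (nat_lit 760) (nat_lit 3082152491) (nat_lit 232) (nat_lit 5) (nat_lit 241) (nat_lit 5) (nat_lit 242) (nat_lit 5) (nat_lit 348) (nat_lit 311) (nat_lit 241)))))) (XT.nd (nat_lit 390) (nat_lit 2204) (nat_lit 0) (XT.nd (nat_lit 156) (nat_lit 1216) (nat_lit 0) (XT.nd (nat_lit 78) (nat_lit 608) (nat_lit 0) (XT.lf (nat_lit 0) (nat_lit 194610957) (nat_lit 684) (nat_lit 7677379007) (nat_lit 76) (nat_lit 3229188732) (nat_lit 223) (nat_lit 5) (nat_lit 232) (nat_lit 5) (nat_lit 224) (nat_lit 5) (nat_lit 349) (nat_lit 311) (nat_lit 240)) (XT.lf (nat_lit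 0) (nat_lit 1621985638) (nat_lit 608) (nat_lit 1929478124) (nat_lit 684) (nat_lit 7733337085) (nat_lit 215) (nat_lit 5) (nat_lit 223) (nat_lit 5) (nat_lit 224) (nat_lit 5) (nat_lit 350) (nat_lit 311) (nat_lit 239))) (XT.nd (nat_lit 78) (nat_lit 1216) (nat_lit 0) (XT.lf (nat_lit 0) (nat_lit 7044986056) (nat_lit 684) (nat_lit 248472612) (nat_lit 76) (nat_lit 4179774794) (nat_lit 215) (nat_lit 5) (nat_lit 224) (nat_lit 5) (nat_lit 216) (nat_lit 5) (nat_lit 351) (nat_lit 311) (nat_lit 238)) (XT.nd (nat_lit 78) (nat_lit 684) (nat_lit 0) (XT.lf (nat_lit 0) (nat_lit 9508210980) (nat_lit 532) (nat_lit 1167392610) (nat_lit 608) (nat_lit 991090133) (nat_lit 208) (nat_lit 5) (nat_lit 215) (nat_lit 5) (nat_lit 216) (nat_lit 5) (nat_lit 352) (nat_lit 311) (nat_lit 237)) (XT.lf (nat_lit 0) (nat_lit 2559658475) (nat_lit 684) (nat_lit 4170973750) (nat_lit 76) (nat_lit 5134135831) (nat_lit 199) (nat_lit 5) (nat_lit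 208) (nat_lit 5) (nat_lit 200) (nat_lit 5) (nat_lit 353) (nat_lit 311) (nat_lit 236))))) (XT.nd (nat_lit 156) (nat_lit 1140) (nat_lit 0) (XT.nd (nat_lit 78) (nat_lit 532) (nat_lit 0) (XT.lf (nat_lit 0) (nat_lit 5812843845) (nat_lit 532) (nat_lit 410050686) (nat_lit 608) (nat_lit 5845389373) (nat_lit 192) (nat_lit 5) (nat_lit 199) (nat_lit 5) (nat_lit 200) (nat_lit 5) (nat_lit 354) (nat_lit 311) (nat_lit 235)) (XT.lf (nat_lit 0) (nat_lit 3834963701) (nat_lit 532) (nat_lit 6213895706) (nat_lit 608) (nat_lit 2228007542) (nat_lit 185) (nat_lit 5) (nat_lit 192) (nat_lit 5) (nat_lit 193) (nat_lit 5) (nat_lit 355) (nat_lit 311) (nat_lit 234))) (XT.nd (nat_lit 78) (nat_lit 532) (nat_lit 0) (XT.lf (nat_lit 0) (nat_lit 1497532692) (nat_lit 608) (nat_lit 10710747122) (nat_lit 76) (nat_lit 282864996) (nat_lit 177) (nat_lit 5) (nat_lit 185) (nat_lit 5) (nat_lit 178) (nat_lit 5) (nat_lit 356) (nat_lit 311) (nat_lit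 233)) (XT.nd (nat_lit 78) (nat_lit 532) (nat_lit 0) (XT.lf (nat_lit 0) (nat_lit 5365068332) (nat_lit 608) (nat_lit 393681135) (nat_lit 76) (nat_lit 6951613979) (nat_lit 177) (nat_lit 5) (nat_lit 185) (nat_lit 5) (nat_lit 178) (nat_lit 5) (nat_lit 357) (nat_lit 311) (nat_lit 232)) (XT.lf (nat_lit 0) (nat_lit 9384051364) (nat_lit 608) (nat_lit 2623043872) (nat_lit 76) (nat_lit 928371448) (nat_lit 170) (nat_lit 5) (nat_lit 178) (nat_lit 5) (nat_lit 171) (nat_lit 5) (nat_lit 358) (nat_lit 311) (nat_lit 231))))))))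
noncomputable def xc73 : XT := (XT.nd (nat_lit 1482) (nat_lit 1216) (nat_lit 0) (XT.nd (nat_lit 702) (nat_lit 2888) (nat_lit 0) (XT.nd (nat_lit 312) (nat_lit 1748) (nat_lit 0) (XT.nd (nat_lit 156) (nat_lit 912) (nat_lit 0) (XT.nd (nat_lit 78) (nat_lit 456) (nat_lit 0) (XT.lf (nat_lit 0) (nat_lit 409414092) (nat_lit 532) (nat_lit 4971521604) (nat_lit 76) (nat_lit 7785200618) (nat_lit 163) (nat_lit 5) (nat_lit 170) (nat_lit 5) (nat_lit 164) (nat_lit 5) (nat_lit 359) (nat_lit 311) (nat_lit 230)) (XT.lf (nat_lit 0) (nat_lit 4471131274) (nat_lit 532) (nat_lit 7438004754) (nat_lit 76) (nat_lit 1493529474) (nat_lit 157) (nat_lit 5) (nat_lit 164) (nat_lit 5) (nat_lit 158) (nat_lit 5) (nat_lit 360) (nat_lit 311) (nat_lit 229))) (XT.nd (nat_lit 78) (nat_lit 456) (nat_lit 0) (XT.lf (nat_lit 0) (nat_lit 3613551899) (nat_lit 456) (nat_lit 5098700388) (nat_lit 532) (nat_lit 4932902008) (nat_lit 151) (nat_lit 5)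 (nat_lit 157) (nat_lit 5) (nat_lit 158) (nat_lit 5) (nat_lit 361) (nat_lit 311) (nat_lit 228)) (XT.lf (nat_lit 0) (nat_lit 1158142139) (nat_lit 456) (nat_lit 11957999589) (nat_lit 532) (nat_lit 778079675) (nat_lit 145) (nat_lit 5) (nat_lit 151) (nat_lit 5) (nat_lit 152) (nat_lit 5) (nat_lit 362) (nat_lit 311) (nat_lit 227)))) (XT.nd (nat_lit 156) (nat_lit 1292) (nat_lit 0) (XT.nd (nat_lit 78) (nat_lit 380) (nat_lit 0) (XT.lf (nat_lit 0) (nat_lit 3523300134) (nat_lit 532) (nat_lit 1434302218) (nat_lit 76) (nat_lit 9191360478) (nat_lit 144) (nat_lit 5) (nat_lit 151) (nat_lit 5) (nat_lit 145) (nat_lit 5) (nat_lit 363) (nat_lit 311) (nat_lit 226)) (XT.lf (nat_lit 0) (nat_lit 7991350885) (nat_lit 456) (nat_lit 4136441209) (nat_lit 76) (nat_lit 2282500790) (nat_lit 139) (nat_lit 5) (nat_lit 145) (nat_lit 5) (nat_lit 140) (nat_lit 5) (nat_lit 364) (nat_lit 311) (nat_lit 225))) (XT.nd (nat_lit 78) (nat_lit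 836) (nat_lit 0) (XT.lf (nat_lit 0) (nat_lit 7694387163) (nat_lit 456) (nat_lit 4958863719) (nat_lit 532) (nat_lit 2025028674) (nat_lit 133) (nat_lit 5) (nat_lit 139) (nat_lit 5) (nat_lit 140) (nat_lit 5) (nat_lit 365) (nat_lit 311) (nat_lit 224)) (XT.nd (nat_lit 78) (nat_lit 380) (nat_lit 0) (XT.lf (nat_lit 0) (nat_lit 2512002618) (nat_lit 456) (nat_lit 9984228398) (nat_lit 76) (nat_lit 2456880385) (nat_lit 127) (nat_lit 5) (nat_lit 133) (nat_lit 5) (nat_lit 128) (nat_lit 5) (nat_lit 366) (nat_lit 311) (nat_lit 223)) (XT.lf (nat_lit 0) (nat_lit 2074371196) (nat_lit 380) (nat_lit 5145600623) (nat_lit 456) (nat_lit 8014713785) (nat_lit 122) (nat_lit 5) (nat_lit 127) (nat_lit 5) (nat_lit 128) (nat_lit 5) (nat_lit 367) (nat_lit 311) (nat_lit 222)))))) (XT.nd (nat_lit 390) (nat_lit 1292) (nat_lit 0) (XT.nd (nat_lit 156) (nat_lit 1140) (nat_lit 0) (XT.nd (nat_lit 78) (nat_lit 456) (nat_lit 0) (XT.lf (nat_lit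 0) (nat_lit 12121492093) (nat_lit 456) (nat_lit 954364345) (nat_lit 76) (nat_lit 2447815904) (nat_lit 122) (nat_lit 5) (nat_lit 128) (nat_lit 5) (nat_lit 123) (nat_lit 5) (nat_lit 368) (nat_lit 311) (nat_lit 221)) (XT.lf (nat_lit 0) (nat_lit 1411257293) (nat_lit 456) (nat_lit 4137199407) (nat_lit 76) (nat_lit 10271103500) (nat_lit 116) (nat_lit 5) (nat_lit 122) (nat_lit 5) (nat_lit 117) (nat_lit 5) (nat_lit 369) (nat_lit 311) (nat_lit 220))) (XT.nd (nat_lit 78) (nat_lit 760) (nat_lit 0) (XT.lf (nat_lit 0) (nat_lit 6370260464) (nat_lit 456) (nat_lit 7505084037) (nat_lit 76) (nat_lit 2247593400) (nat_lit 111) (nat_lit 5) (nat_lit 117) (nat_lit 5) (nat_lit 112) (nat_lit 5) (nat_lit 370) (nat_lit 311) (nat_lit 219)) (XT.nd (nat_lit 78) (nat_lit 456) (nat_lit 0) (XT.lf (nat_lit 0) (nat_lit 5366084345) (nat_lit 304) (nat_lit 6182392727) (nat_lit 380) (nat_lit 4885541356) (nat_lit 107) (nat_lit 5) (nat_lit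 111) (nat_lit 5) (nat_lit 112) (nat_lit 5) (nat_lit 371) (nat_lit 311) (nat_lit 218)) (XT.lf (nat_lit 0) (nat_lit 172106255) (nat_lit 456) (nat_lit 14812234305) (nat_lit 76) (nat_lit 1769160681) (nat_lit 101) (nat_lit 5) (nat_lit 107) (nat_lit 5) (nat_lit 102) (nat_lit 5) (nat_lit 372) (nat_lit 311) (nat_lit 217))))) (XT.nd (nat_lit 156) (nat_lit 988) (nat_lit 0) (XT.nd (nat_lit 78) (nat_lit 304) (nat_lit 0) (XT.lf (nat_lit 0) (nat_lit 5403463505) (nat_lit 456) (nat_lit 1707130125) (nat_lit 76) (nat_lit 9969571503) (nat_lit 101) (nat_lit 5) (nat_lit 107) (nat_lit 5) (nat_lit 102) (nat_lit 5) (nat_lit 373) (nat_lit 311) (nat_lit 216)) (XT.lf (nat_lit 0) (nat_lit 10847938273) (nat_lit 380) (nat_lit 5517815950) (nat_lit 76) (nat_lit 1049760480) (nat_lit 97) (nat_lit 5) (nat_lit 102) (nat_lit 5) (nat_lit 98) (nat_lit 5) (nat_lit 374) (nat_lit 311) (nat_lit 215))) (XT.nd (nat_lit 78) (nat_lit 684) (nat_lit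 0) (XT.lf (nat_lit 0) (nat_lit 8190850266) (nat_lit 304) (nat_lit 8349702269) (nat_lit 380) (nat_lit 1218685144) (nat_lit 93) (nat_lit 5) (nat_lit 97) (nat_lit 5) (nat_lit 98) (nat_lit 5) (nat_lit 375) (nat_lit 311) (nat_lit 214)) (XT.nd (nat_lit 78) (nat_lit 304) (nat_lit 0) (XT.lf (nat_lit 0) (nat_lit 4259563351) (nat_lit 304) (nat_lit 12904249) (nat_lit 380) (nat_lit 13839494826) (nat_lit 88) (nat_lit 5) (nat_lit 92) (nat_lit 5) (nat_lit 93) (nat_lit 5) (nat_lit 376) (nat_lit 311) (nat_lit 213)) (XT.lf (nat_lit 0) (nat_lit 54072568) (nat_lit 304) (nat_lit 9952310348) (nat_lit 380) (nat_lit 8466841525) (nat_lit 84) (nat_lit 5) (nat_lit 88) (nat_lit 5) (nat_lit 89) (nat_lit 5) (nat_lit 377) (nat_lit 311) (nat_lit 212))))))) (XT.nd (nat_lit 42042) (nat_lit 0) (nat_lit 32604) (XT.nd (nat_lit 390) (nat_lit 304) (nat_lit 0) (XT.nd (nat_lit 156) (nat_lit 608) (nat_lit 0) (XT.nd (nat_lit 78) (nat_lit 304)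 (nat_lit 0) (XT.lf (nat_lit 0) (nat_lit 14526198645) (nat_lit 304) (nat_lit 1453788647) (nat_lit 380) (nat_lit 2863991689) (nat_lit 84) (nat_lit 5) (nat_lit 88) (nat_lit 5) (nat_lit 89) (nat_lit 5) (nat_lit 378) (nat_lit 311) (nat_lit 211)) (XT.lf (nat_lit 0) (nat_lit 2957752307) (nat_lit 304) (nat_lit 8990137445) (nat_lit 76) (nat_lit 7275817962) (nat_lit 80) (nat_lit 5) (nat_lit 84) (nat_lit 5) (nat_lit 81) (nat_lit 5) (nat_lit 379) (nat_lit 311) (nat_lit 210))) (XT.nd (nat_lit 78) (nat_lit 304) (nat_lit 0) (XT.lf (nat_lit 0) (nat_lit 5671651860) (nat_lit 304) (nat_lit 3294511411) (nat_lit 380) (nat_lit 10647275399) (nat_lit 76) (nat_lit 5) (nat_lit 80) (nat_lit 5) (nat_lit 81) (nat_lit 5) (nat_lit 380) (nat_lit 311) (nat_lit 209)) (XT.nd (nat_lit 78) (nat_lit 76) (nat_lit 0) (XT.lf (nat_lit 0) (nat_lit 816794790) (nat_lit 228) (nat_lit 14416228904) (nat_lit 304) (nat_lit 4780281185) (nat_lit 73)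 (nat_lit 5) (nat_lit 76) (nat_lit 5) (nat_lit 77) (nat_lit 5) (nat_lit 381) (nat_lit 311) (nat_lit 208)) (XT.lf (nat_lit 0) (nat_lit 1338687984) (nat_lit 304) (nat_lit 4284596873) (nat_lit 76) (nat_lit 14799874642) (nat_lit 72) (nat_lit 5) (nat_lit 76) (nat_lit 5) (nat_lit 73) (nat_lit 5) (nat_lit 382) (nat_lit 311) (nat_lit 207))))) (XT.nd (nat_lit 41418) (nat_lit 0) (nat_lit 36024) (XT.nd (nat_lit 41340) (nat_lit 0) (nat_lit 37088) (XT.lf (nat_lit 0) (nat_lit 7648049725) (nat_lit 380) (nat_lit 9715933990) (nat_lit 76) (nat_lit 3479265429) (nat_lit 68) (nat_lit 5) (nat_lit 73) (nat_lit 5) (nat_lit 69) (nat_lit 5) (nat_lit 383) (nat_lit 311) (nat_lit 206)) (XT.lf (nat_lit 0) (nat_lit 1170861783) (nat_lit 0) (nat_lit 1170861783) (nat_lit 988) (nat_lit 1190059291) (nat_lit 556) (nat_lit 5) (nat_lit 556) (nat_lit 3) (nat_lit 569) (nat_lit 3) (nat_lit 312) (nat_lit 312) (nat_lit 276))) (XT.nd (nat_lit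 78) (nat_lit 0) (nat_lit 0) (XT.lf (nat_lit 0) (nat_lit 164956820) (nat_lit 1064) (nat_lit 6848268622) (nat_lit 1140) (nat_lit 103679679) (nat_lit 542) (nat_lit 5) (nat_lit 556) (nat_lit 5) (nat_lit 557) (nat_lit 5) (nat_lit 313) (nat_lit 312) (nat_lit 275)) (XT.nd (nat_lit 78) (nat_lit 0) (nat_lit 0) (XT.lf (nat_lit 0) (nat_lit 2702691965) (nat_lit 1064) (nat_lit 1783315583) (nat_lit 1140) (nat_lit 2686625572) (nat_lit 542) (nat_lit 5) (nat_lit 556) (nat_lit 5) (nat_lit 557) (nat_lit 5) (nat_lit 314) (nat_lit 312) (nat_lit 274)) (XT.lf (nat_lit 76) (nat_lit 3426304502) (nat_lit 0) (nat_lit 1815986814) (nat_lit 1140) (nat_lit 1989300732) (nat_lit 543) (nat_lit 5) (nat_lit 542) (nat_lit 5) (nat_lit 557) (nat_lit 5) (nat_lit 315) (nat_lit 312) (nat_lit 273)))))) (XT.nd (nat_lit 390) (nat_lit 1216) (nat_lit 0) (XT.nd (nat_lit 156) (nat_lit 1140) (nat_lit 0) (XT.nd (nat_lit 78) (nat_lit 0) (nat_lit 0)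 (XT.lf (nat_lit 0) (nat_lit 491938916) (nat_lit 1140) (nat_lit 5812679103) (nat_lit 1216) (nat_lit 989026438) (nat_lit 528) (nat_lit 5) (nat_lit 543) (nat_lit 5) (nat_lit 544) (nat_lit 5) (nat_lit 316) (nat_lit 312) (nat_lit 272)) (XT.lf (nat_lit 0) (nat_lit 2966799581) (nat_lit 1140) (nat_lit 458789956) (nat_lit 1216) (nat_lit 3932849841) (nat_lit 528) (nat_lit 5) (nat_lit 543) (nat_lit 5) (nat_lit 544) (nat_lit 5) (nat_lit 317) (nat_lit 312) (nat_lit 271))) (XT.nd (nat_lit 78) (nat_lit 1140) (nat_lit 0) (XT.lf (nat_lit 76) (nat_lit 5069758070) (nat_lit 0) (nat_lit 389700790) (nat_lit 1216) (nat_lit 1966914383) (nat_lit 529) (nat_lit 5) (nat_lit 528) (nat_lit 5) (nat_lit 544) (nat_lit 5) (nat_lit 318) (nat_lit 312) (nat_lit 270)) (XT.nd (nat_lit 78) (nat_lit 0) (nat_lit 0) (XT.lf (nat_lit 0) (nat_lit 478340902) (nat_lit 1216) (nat_lit 4255158985) (nat_lit 1292) (nat_lit 2763744380) (nat_lit 513)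 (nat_lit 5) (nat_lit 529) (nat_lit 5) (nat_lit 530) (nat_lit 5) (nat_lit 319) (nat_lit 312) (nat_lit 269)) (XT.lf (nat_lit 76) (nat_lit 1419880076) (nat_lit 0) (nat_lit 1493103278) (nat_lit 1292) (nat_lit 4658204131) (nat_lit 514) (nat_lit 5) (nat_lit 513) (nat_lit 5) (nat_lit 530) (nat_lit 5) (nat_lit 320) (nat_lit 312) (nat_lit 268))))) (XT.nd (nat_lit 156) (nat_lit 0) (nat_lit 76) (XT.nd (nat_lit 78) (nat_lit 1292) (nat_lit 0) (XT.lf (nat_lit 0) (nat_lit 5378701188) (nat_lit 1216) (nat_lit 390524691) (nat_lit 1292) (nat_lit 1879021750) (nat_lit 514) (nat_lit 5) (nat_lit 530) (nat_lit 5) (nat_lit 531) (nat_lit 5) (nat_lit 321) (nat_lit 312) (nat_lit 267)) (XT.lf (nat_lit 0) (nat_lit 153470789) (nat_lit 1292) (nat_lit 2176857664) (nat_lit 1368) (nat_lit 5398018807) (nat_lit 497) (nat_lit 5) (nat_lit 514) (nat_lit 5) (nat_lit 515) (nat_lit 5) (nat_lit 322) (nat_lit 312) (nat_lit 266))) (XT.nd (nat_lit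 78) (nat_lit 0) (nat_lit 0) (XT.lf (nat_lit 0) (nat_lit 2575364927) (nat_lit 1292) (nat_lit 3972001862) (nat_lit 1368) (nat_lit 1264097493) (nat_lit 498) (nat_lit 5) (nat_lit 515) (nat_lit 5) (nat_lit 516) (nat_lit 5) (nat_lit 323) (nat_lit 312) (nat_lit 265)) (XT.nd (nat_lit 78) (nat_lit 0) (nat_lit 76) (XT.lf (nat_lit 76) (nat_lit 2126979836) (nat_lit 0) (nat_lit 2910179863) (nat_lit 1368) (nat_lit 2860623491) (nat_lit 499) (nat_lit 5) (nat_lit 498) (nat_lit 5) (nat_lit 516) (nat_lit 5) (nat_lit 324) (nat_lit 312) (nat_lit 264)) (XT.lf (nat_lit 76) (nat_lit 421738980) (nat_lit 0) (nat_lit 7111365119) (nat_lit 1368) (nat_lit 454433348) (nat_lit 500) (nat_lit 5) (nat_lit 499) (nat_lit 5) (nat_lit 517) (nat_lit 5) (nat_lit 325) (nat_lit 312) (nat_lit 263))))))))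
noncomputable def xc74 : XT := (XT.nd (nat_lit 1482) (nat_lit 9424) (nat_lit 0) (XT.nd (nat_lit 702) (nat_lit 6764) (nat_lit 0) (XT.nd (nat_lit 312) (nat_lit 6612) (nat_lit 0) (XT.nd (nat_lit 156) (nat_lit 2812) (nat_lit 0) (XT.nd (nat_lit 78) (nat_lit 0) (nat_lit 76) (XT.lf (nat_lit 0) (nat_lit 1982554820) (nat_lit 1368) (nat_lit 1288477233) (nat_lit 1444) (nat_lit 4809035538) (nat_lit 481) (nat_lit 5) (nat_lit 499) (nat_lit 5) (nat_lit 500) (nat_lit 5) (nat_lit 326) (nat_lit 312) (nat_lit 262)) (XT.lf (nat_lit 0) (nat_lit 4453479130) (nat_lit 1368) (nat_lit 2992596635) (nat_lit 76) (nat_lit 729945565) (nat_lit 482) (nat_lit 5) (nat_lit 500) (nat_lit 5) (nat_lit 483) (nat_lit 5) (nat_lit 327) (nat_lit 312) (nat_lit 261))) (XT.nd (nat_lit 78) (nat_lit 1520) (nat_lit 0) (XT.lf (nat_lit 0) (nat_lit 3562709407) (nat_lit 1368) (nat_lit 3419942385) (nat_lit 1444) (nat_lit 1292565862) (nat_lit 464) (nat_lit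 5) (nat_lit 482) (nat_lit 5) (nat_lit 483) (nat_lit 5) (nat_lit 328) (nat_lit 312) (nat_lit 260)) (XT.lf (nat_lit 0) (nat_lit 1164047746) (nat_lit 1520) (nat_lit 6441537332) (nat_lit 76) (nat_lit 772299547) (nat_lit 444) (nat_lit 5) (nat_lit 464) (nat_lit 5) (nat_lit 445) (nat_lit 5) (nat_lit 329) (nat_lit 312) (nat_lit 259)))) (XT.nd (nat_lit 156) (nat_lit 5092) (nat_lit 0) (XT.nd (nat_lit 78) (nat_lit 0) (nat_lit 0) (XT.lf (nat_lit 0) (nat_lit 282992538) (nat_lit 1520) (nat_lit 3384002470) (nat_lit 1596) (nat_lit 4816704663) (nat_lit 424) (nat_lit 5) (nat_lit 444) (nat_lit 5) (nat_lit 445) (nat_lit 5) (nat_lit 330) (nat_lit 312) (nat_lit 258)) (XT.lf (nat_lit 0) (nat_lit 6230135775) (nat_lit 1596) (nat_lit 1356628996) (nat_lit 76) (nat_lit 1006263912) (nat_lit 424) (nat_lit 5) (nat_lit 445) (nat_lit 5) (nat_lit 425) (nat_lit 5) (nat_lit 331) (nat_lit 312) (nat_lit 257))) (XT.nd (nat_lit 78) (nat_lit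 3420) (nat_lit 0) (XT.lf (nat_lit 0) (nat_lit 158691282) (nat_lit 1672) (nat_lit 3016090896) (nat_lit 76) (nat_lit 5530947312) (nat_lit 402) (nat_lit 5) (nat_lit 424) (nat_lit 5) (nat_lit 403) (nat_lit 5) (nat_lit 332) (nat_lit 312) (nat_lit 256)) (XT.nd (nat_lit 78) (nat_lit 1748) (nat_lit 0) (XT.lf (nat_lit 0) (nat_lit 2707199814) (nat_lit 1748) (nat_lit 4702883657) (nat_lit 76) (nat_lit 1411786350) (nat_lit 380) (nat_lit 5) (nat_lit 403) (nat_lit 5) (nat_lit 381) (nat_lit 5) (nat_lit 333) (nat_lit 312) (nat_lit 255)) (XT.lf (nat_lit 0) (nat_lit 2525589578) (nat_lit 1748) (nat_lit 2804139637) (nat_lit 1824) (nat_lit 3611851172) (nat_lit 357) (nat_lit 5) (nat_lit 380) (nat_lit 5) (nat_lit 381) (nat_lit 5) (nat_lit 334) (nat_lit 312) (nat_lit 254)))))) (XT.nd (nat_lit 390) (nat_lit 3116) (nat_lit 0) (XT.nd (nat_lit 156) (nat_lit 2660) (nat_lit 0) (XT.nd (nat_lit 78) (nat_lit 76) (nat_lit 0) (XT.lf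 (nat_lit 0) (nat_lit 915389390) (nat_lit 912) (nat_lit 7106981265) (nat_lit 988) (nat_lit 1042719143) (nat_lit 345) (nat_lit 5) (nat_lit 357) (nat_lit 5) (nat_lit 358) (nat_lit 5) (nat_lit 335) (nat_lit 312) (nat_lit 253)) (XT.lf (nat_lit 0) (nat_lit 1586747772) (nat_lit 988) (nat_lit 721125877) (nat_lit 76) (nat_lit 6884171308) (nat_lit 344) (nat_lit 5) (nat_lit 357) (nat_lit 5) (nat_lit 345) (nat_lit 5) (nat_lit 336) (nat_lit 312) (nat_lit 252))) (XT.nd (nat_lit 78) (nat_lit 1748) (nat_lit 0) (XT.lf (nat_lit 0) (nat_lit 4287157774) (nat_lit 988) (nat_lit 2378951045) (nat_lit 76) (nat_lit 2656471092) (nat_lit 332) (nat_lit 5) (nat_lit 345) (nat_lit 5) (nat_lit 333) (nat_lit 5) (nat_lit 337) (nat_lit 312) (nat_lit 251)) (XT.nd (nat_lit 78) (nat_lit 912) (nat_lit 0) (XT.lf (nat_lit 0) (nat_lit 5393057301) (nat_lit 836) (nat_lit 1675686146) (nat_lit 912) (nat_lit 2388316724) (nat_lit 321) (nat_lit 5)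 (nat_lit 332) (nat_lit 5) (nat_lit 333) (nat_lit 5) (nat_lit 338) (nat_lit 312) (nat_lit 250)) (XT.lf (nat_lit 0) (nat_lit 343321009) (nat_lit 912) (nat_lit 5788502941) (nat_lit 76) (nat_lit 3463546834) (nat_lit 309) (nat_lit 5) (nat_lit 321) (nat_lit 5) (nat_lit 310) (nat_lit 5) (nat_lit 339) (nat_lit 312) (nat_lit 249))))) (XT.nd (nat_lit 156) (nat_lit 1596) (nat_lit 0) (XT.nd (nat_lit 78) (nat_lit 760) (nat_lit 0) (XT.lf (nat_lit 0) (nat_lit 2179855675) (nat_lit 760) (nat_lit 944788496) (nat_lit 836) (nat_lit 6612897183) (nat_lit 299) (nat_lit 5) (nat_lit 309) (nat_lit 5) (nat_lit 310) (nat_lit 5) (nat_lit 340) (nat_lit 312) (nat_lit 248)) (XT.lf (nat_lit 0) (nat_lit 507368386) (nat_lit 760) (nat_lit 5501488166) (nat_lit 836) (nat_lit 3874760677) (nat_lit 289) (nat_lit 5) (nat_lit 299) (nat_lit 5) (nat_lit 300) (nat_lit 5) (nat_lit 341) (nat_lit 312) (nat_lit 247))) (XT.nd (nat_lit 78) (nat_lit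 1596) (nat_lit 0) (XT.lf (nat_lit 0) (nat_lit 8858516470) (nat_lit 760) (nat_lit 127853456) (nat_lit 836) (nat_lit 1047598293) (nat_lit 289) (nat_lit 5) (nat_lit 299) (nat_lit 5) (nat_lit 300) (nat_lit 5) (nat_lit 342) (nat_lit 312) (nat_lit 246)) (XT.nd (nat_lit 78) (nat_lit 760) (nat_lit 0) (XT.lf (nat_lit 0) (nat_lit 1873235769) (nat_lit 836) (nat_lit 2921148812) (nat_lit 76) (nat_lit 5393563856) (nat_lit 278) (nat_lit 5) (nat_lit 289) (nat_lit 5) (nat_lit 279) (nat_lit 5) (nat_lit 343) (nat_lit 312) (nat_lit 245)) (XT.lf (nat_lit 0) (nat_lit 4869649777) (nat_lit 836) (nat_lit 4705597706) (nat_lit 76) (nat_lit 771144515) (nat_lit 268) (nat_lit 5) (nat_lit 279) (nat_lit 5) (nat_lit 269) (nat_lit 5) (nat_lit 344) (nat_lit 312) (nat_lit 244))))))) (XT.nd (nat_lit 702) (nat_lit 4180) (nat_lit 0) (XT.nd (nat_lit 312) (nat_lit 3192) (nat_lit 0) (XT.nd (nat_lit 156) (nat_lit 608) (nat_lit 0) (XT.nd (nat_lit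 78) (nat_lit 760) (nat_lit 0) (XT.lf (nat_lit 0) (nat_lit 3957815519) (nat_lit 684) (nat_lit 4028381959) (nat_lit 760) (nat_lit 2522811979) (nat_lit 259) (nat_lit 5) (nat_lit 268) (nat_lit 5) (nat_lit 269) (nat_lit 5) (nat_lit 345) (nat_lit 312) (nat_lit 243)) (XT.lf (nat_lit 0) (nat_lit 524092254) (nat_lit 760) (nat_lit 8444271143) (nat_lit 76) (nat_lit 1707875296) (nat_lit 249) (nat_lit 5) (nat_lit 259) (nat_lit 5) (nat_lit 250) (nat_lit 5) (nat_lit 346) (nat_lit 312) (nat_lit 242))) (XT.nd (nat_lit 78) (nat_lit 0) (nat_lit 0) (XT.lf (nat_lit 0) (nat_lit 430096847) (nat_lit 608) (nat_lit 3226911251) (nat_lit 684) (nat_lit 7190589091) (nat_lit 241) (nat_lit 5) (nat_lit 249) (nat_lit 5) (nat_lit 250) (nat_lit 5) (nat_lit 347) (nat_lit 312) (nat_lit 241)) (XT.lf (nat_lit 0) (nat_lit 6914177493) (nat_lit 684) (nat_lit 1406661922) (nat_lit 76) (nat_lit 2702674506) (nat_lit 241) (nat_lit 5) (nat_lit 250)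 (nat_lit 5) (nat_lit 242) (nat_lit 5) (nat_lit 348) (nat_lit 312) (nat_lit 240)))) (XT.nd (nat_lit 156) (nat_lit 1824) (nat_lit 0) (XT.nd (nat_lit 78) (nat_lit 684) (nat_lit 0) (XT.lf (nat_lit 0) (nat_lit 7905960479) (nat_lit 684) (nat_lit 2392537932) (nat_lit 760) (nat_lit 905643158) (nat_lit 232) (nat_lit 5) (nat_lit 241) (nat_lit 5) (nat_lit 242) (nat_lit 5) (nat_lit 349) (nat_lit 312) (nat_lit 239)) (XT.lf (nat_lit 0) (nat_lit 2393890765) (nat_lit 684) (nat_lit 5272514906) (nat_lit 76) (nat_lit 3722869964) (nat_lit 223) (nat_lit 5) (nat_lit 232) (nat_lit 5) (nat_lit 224) (nat_lit 5) (nat_lit 350) (nat_lit 312) (nat_lit 238))) (XT.nd (nat_lit 78) (nat_lit 1216) (nat_lit 0) (XT.lf (nat_lit 0) (nat_lit 4263077925) (nat_lit 608) (nat_lit 1541316378) (nat_lit 684) (nat_lit 5774984400) (nat_lit 215) (nat_lit 5) (nat_lit 223) (nat_lit 5) (nat_lit 224) (nat_lit 5) (nat_lit 351) (nat_lit 312) (nat_lit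 237)) (XT.nd (nat_lit 78) (nat_lit 684) (nat_lit 0) (XT.lf (nat_lit 0) (nat_lit 2331449482) (nat_lit 532) (nat_lit 7026705660) (nat_lit 608) (nat_lit 2416230742) (nat_lit 208) (nat_lit 5) (nat_lit 215) (nat_lit 5) (nat_lit 216) (nat_lit 5) (nat_lit 352) (nat_lit 312) (nat_lit 236)) (XT.lf (nat_lit 0) (nat_lit 331346624) (nat_lit 608) (nat_lit 720097016) (nat_lit 684) (nat_lit 10923246253) (nat_lit 199) (nat_lit 5) (nat_lit 207) (nat_lit 5) (nat_lit 208) (nat_lit 5) (nat_lit 353) (nat_lit 312) (nat_lit 235)))))) (XT.nd (nat_lit 390) (nat_lit 1976) (nat_lit 0) (XT.nd (nat_lit 156) (nat_lit 1672) (nat_lit 0) (XT.nd (nat_lit 78) (nat_lit 532) (nat_lit 0) (XT.lf (nat_lit 0) (nat_lit 4652694010) (nat_lit 684) (nat_lit 1755743323) (nat_lit 76) (nat_lit 5771017165) (nat_lit 199) (nat_lit 5) (nat_lit 208) (nat_lit 5) (nat_lit 200) (nat_lit 5) (nat_lit 354) (nat_lit 312) (nat_lit 234)) (XT.lf (nat_lit 0) (nat_lit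 8383996699) (nat_lit 608) (nat_lit 3904247514) (nat_lit 76) (nat_lit 101695353) (nat_lit 192) (nat_lit 5) (nat_lit 200) (nat_lit 5) (nat_lit 193) (nat_lit 5) (nat_lit 355) (nat_lit 312) (nat_lit 233))) (XT.nd (nat_lit 78) (nat_lit 1140) (nat_lit 0) (XT.lf (nat_lit 0) (nat_lit 6444980740) (nat_lit 532) (nat_lit 5841113848) (nat_lit 608) (nat_lit 319484780) (nat_lit 185) (nat_lit 5) (nat_lit 192) (nat_lit 5) (nat_lit 193) (nat_lit 5) (nat_lit 356) (nat_lit 312) (nat_lit 232)) (XT.nd (nat_lit 78) (nat_lit 532) (nat_lit 0) (XT.lf (nat_lit 0) (nat_lit 3454955385) (nat_lit 608) (nat_lit 8515947877) (nat_lit 76) (nat_lit 855890053) (nat_lit 177) (nat_lit 5) (nat_lit 185) (nat_lit 5) (nat_lit 178) (nat_lit 5) (nat_lit 357) (nat_lit 312) (nat_lit 231)) (XT.lf (nat_lit 0) (nat_lit 2064420234) (nat_lit 532) (nat_lit 5331796657) (nat_lit 608) (nat_lit 5657241970) (nat_lit 170) (nat_lit 5) (nat_lit 177) (nat_lit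 5) (nat_lit 178) (nat_lit 5) (nat_lit 358) (nat_lit 312) (nat_lit 230))))) (XT.nd (nat_lit 156) (nat_lit 1444) (nat_lit 0) (XT.nd (nat_lit 78) (nat_lit 532) (nat_lit 0) (XT.lf (nat_lit 0) (nat_lit 11487685171) (nat_lit 608) (nat_lit 265174023) (nat_lit 76) (nat_lit 1533441324) (nat_lit 170) (nat_lit 5) (nat_lit 178) (nat_lit 5) (nat_lit 171) (nat_lit 5) (nat_lit 359) (nat_lit 312) (nat_lit 229)) (XT.lf (nat_lit 0) (nat_lit 2218874173) (nat_lit 532) (nat_lit 2699002881) (nat_lit 76) (nat_lit 8606549825) (nat_lit 163) (nat_lit 5) (nat_lit 170) (nat_lit 5) (nat_lit 164) (nat_lit 5) (nat_lit 360) (nat_lit 312) (nat_lit 228))) (XT.nd (nat_lit 78) (nat_lit 988) (nat_lit 0) (XT.lf (nat_lit 0) (nat_lit 6369604778) (nat_lit 532) (nat_lit 5246873935) (nat_lit 76) (nat_lit 2152251834) (nat_lit 157) (nat_lit 5) (nat_lit 164) (nat_lit 5) (nat_lit 158) (nat_lit 5) (nat_lit 361) (nat_lit 312) (nat_lit 227)) (XT.nd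 (nat_lit 78) (nat_lit 532) (nat_lit 0) (XT.lf (nat_lit 0) (nat_lit 6097060739) (nat_lit 456) (nat_lit 4604930891) (nat_lit 532) (nat_lit 3317242938) (nat_lit 151) (nat_lit 5) (nat_lit 157) (nat_lit 5) (nat_lit 158) (nat_lit 5) (nat_lit 362) (nat_lit 312) (nat_lit 226)) (XT.lf (nat_lit 0) (nat_lit 918484220) (nat_lit 532) (nat_lit 10722428177) (nat_lit 76) (nat_lit 2635378932) (nat_lit 144) (nat_lit 5) (nat_lit 151) (nat_lit 5) (nat_lit 145) (nat_lit 5) (nat_lit 363) (nat_lit 312) (nat_lit 225))))))))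
noncomputable def xc75 : XT := (XT.nd (nat_lit 1482) (nat_lit 76) (nat_lit 0) (XT.nd (nat_lit 702) (nat_lit 2584) (nat_lit 0) (XT.nd (nat_lit 312) (nat_lit 1520) (nat_lit 0) (XT.nd (nat_lit 156) (nat_lit 912) (nat_lit 0) (XT.nd (nat_lit 78) (nat_lit 0) (nat_lit 0) (XT.lf (nat_lit 0) (nat_lit 854782350) (nat_lit 380) (nat_lit 4439373875) (nat_lit 456) (nat_lit 9245319073) (nat_lit 139) (nat_lit 5) (nat_lit 144) (nat_lit 5) (nat_lit 145) (nat_lit 5) (nat_lit 364) (nat_lit 312) (nat_lit 224)) (XT.lf (nat_lit 0) (nat_lit 9861451667) (nat_lit 456) (nat_lit 1948395898) (nat_lit 76) (nat_lit 2999512652) (nat_lit 139) (nat_lit 5) (nat_lit 145) (nat_lit 5) (nat_lit 140) (nat_lit 5) (nat_lit 365) (nat_lit 312) (nat_lit 223))) (XT.nd (nat_lit 78) (nat_lit 456) (nat_lit 0) (XT.lf (nat_lit 0) (nat_lit 10199845624) (nat_lit 456) (nat_lit 4430645205) (nat_lit 532) (nat_lit 455568491) (nat_lit 133) (nat_lit 5) (nat_lit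 139) (nat_lit 5) (nat_lit 140) (nat_lit 5) (nat_lit 366) (nat_lit 312) (nat_lit 222)) (XT.lf (nat_lit 0) (nat_lit 4168435904) (nat_lit 456) (nat_lit 7996717661) (nat_lit 76) (nat_lit 3204343597) (nat_lit 127) (nat_lit 5) (nat_lit 133) (nat_lit 5) (nat_lit 128) (nat_lit 5) (nat_lit 367) (nat_lit 312) (nat_lit 221)))) (XT.nd (nat_lit 156) (nat_lit 760) (nat_lit 0) (XT.nd (nat_lit 78) (nat_lit 380) (nat_lit 0) (XT.lf (nat_lit 0) (nat_lit 4386535453) (nat_lit 380) (nat_lit 4599666111) (nat_lit 456) (nat_lit 6673962951) (nat_lit 122) (nat_lit 5) (nat_lit 127) (nat_lit 5) (nat_lit 128) (nat_lit 5) (nat_lit 368) (nat_lit 312) (nat_lit 220)) (XT.lf (nat_lit 0) (nat_lit 1243948409) (nat_lit 380) (nat_lit 12758175100) (nat_lit 456) (nat_lit 1956366799) (nat_lit 117) (nat_lit 5) (nat_lit 122) (nat_lit 5) (nat_lit 123) (nat_lit 5) (nat_lit 369) (nat_lit 312) (nat_lit 219))) (XT.nd (nat_lit 78) (nat_lit 684) (nat_lit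 0) (XT.lf (nat_lit 0) (nat_lit 2943000886) (nat_lit 456) (nat_lit 2066231860) (nat_lit 76) (nat_lit 11254600280) (nat_lit 116) (nat_lit 5) (nat_lit 122) (nat_lit 5) (nat_lit 117) (nat_lit 5) (nat_lit 370) (nat_lit 312) (nat_lit 218)) (XT.nd (nat_lit 78) (nat_lit 304) (nat_lit 0) (XT.lf (nat_lit 0) (nat_lit 8025955248) (nat_lit 456) (nat_lit 5545595319) (nat_lit 76) (nat_lit 3005273185) (nat_lit 111) (nat_lit 5) (nat_lit 117) (nat_lit 5) (nat_lit 112) (nat_lit 5) (nat_lit 371) (nat_lit 312) (nat_lit 217)) (XT.lf (nat_lit 0) (nat_lit 7676264905) (nat_lit 304) (nat_lit 5654549595) (nat_lit 380) (nat_lit 3567011143) (nat_lit 107) (nat_lit 5) (nat_lit 111) (nat_lit 5) (nat_lit 112) (nat_lit 5) (nat_lit 372) (nat_lit 312) (nat_lit 216)))))) (XT.nd (nat_lit 390) (nat_lit 1140) (nat_lit 0) (XT.nd (nat_lit 156) (nat_lit 684) (nat_lit 0) (XT.nd (nat_lit 78) (nat_lit 304) (nat_lit 0) (XT.lf (nat_lit 0) (nat_lit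 1599540636) (nat_lit 456) (nat_lit 13098715240) (nat_lit 76) (nat_lit 2528933176) (nat_lit 101) (nat_lit 5) (nat_lit 107) (nat_lit 5) (nat_lit 102) (nat_lit 5) (nat_lit 373) (nat_lit 312) (nat_lit 215)) (XT.lf (nat_lit 0) (nat_lit 341165459) (nat_lit 304) (nat_lit 6607462842) (nat_lit 380) (nat_lit 10615822508) (nat_lit 97) (nat_lit 5) (nat_lit 101) (nat_lit 5) (nat_lit 102) (nat_lit 5) (nat_lit 374) (nat_lit 312) (nat_lit 214))) (XT.nd (nat_lit 78) (nat_lit 684) (nat_lit 0) (XT.lf (nat_lit 0) (nat_lit 12531975658) (nat_lit 380) (nat_lit 3599370500) (nat_lit 76) (nat_lit 1779017283) (nat_lit 97) (nat_lit 5) (nat_lit 102) (nat_lit 5) (nat_lit 98) (nat_lit 5) (nat_lit 375) (nat_lit 312) (nat_lit 213)) (XT.nd (nat_lit 78) (nat_lit 304) (nat_lit 0) (XT.lf (nat_lit 0) (nat_lit 102806064) (nat_lit 380) (nat_lit 7778867007) (nat_lit 76) (nat_lit 10383249657) (nat_lit 92) (nat_lit 5) (nat_lit 97) (nat_lit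 5) (nat_lit 93) (nat_lit 5) (nat_lit 376) (nat_lit 312) (nat_lit 212)) (XT.lf (nat_lit 0) (nat_lit 5720949733) (nat_lit 380) (nat_lit 12210963952) (nat_lit 76) (nat_lit 696590479) (nat_lit 88) (nat_lit 5) (nat_lit 93) (nat_lit 5) (nat_lit 89) (nat_lit 5) (nat_lit 377) (nat_lit 312) (nat_lit 211))))) (XT.nd (nat_lit 156) (nat_lit 836) (nat_lit 0) (XT.nd (nat_lit 78) (nat_lit 0) (nat_lit 0) (XT.lf (nat_lit 0) (nat_lit 2079244447) (nat_lit 304) (nat_lit 9522404495) (nat_lit 380) (nat_lit 7399471739) (nat_lit 84) (nat_lit 5) (nat_lit 88) (nat_lit 5) (nat_lit 89) (nat_lit 5) (nat_lit 378) (nat_lit 312) (nat_lit 210)) (XT.lf (nat_lit 0) (nat_lit 16926595965) (nat_lit 304) (nat_lit 790144867) (nat_lit 380) (nat_lit 1667023060) (nat_lit 84) (nat_lit 5) (nat_lit 88) (nat_lit 5) (nat_lit 89) (nat_lit 5) (nat_lit 379) (nat_lit 312) (nat_lit 209))) (XT.nd (nat_lit 78) (nat_lit 532) (nat_lit 0) (XT.lf (nat_lit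 0) (nat_lit 4292926455) (nat_lit 304) (nat_lit 7289567710) (nat_lit 76) (nat_lit 8192627226) (nat_lit 80) (nat_lit 5) (nat_lit 84) (nat_lit 5) (nat_lit 81) (nat_lit 5) (nat_lit 380) (nat_lit 312) (nat_lit 208)) (XT.nd (nat_lit 78) (nat_lit 228) (nat_lit 0) (XT.lf (nat_lit 0) (nat_lit 7780109922) (nat_lit 304) (nat_lit 2677760487) (nat_lit 380) (nat_lit 9719158994) (nat_lit 76) (nat_lit 5) (nat_lit 80) (nat_lit 5) (nat_lit 81) (nat_lit 5) (nat_lit 381) (nat_lit 312) (nat_lit 207)) (XT.lf (nat_lit 0) (nat_lit 2767999578) (nat_lit 228) (nat_lit 14126143956) (nat_lit 304) (nat_lit 3695130352) (nat_lit 73) (nat_lit 5) (nat_lit 76) (nat_lit 5) (nat_lit 77) (nat_lit 5) (nat_lit 382) (nat_lit 312) (nat_lit 206))))))) (XT.nd (nat_lit 42120) (nat_lit 0) (nat_lit 26752) (XT.nd (nat_lit 41730) (nat_lit 0) (nat_lit 33440) (XT.nd (nat_lit 41496) (nat_lit 0) (nat_lit 34580) (XT.nd (nat_lit 41418) (nat_lit 0) (nat_lit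 35644) (XT.lf (nat_lit 0) (nat_lit 2555981141) (nat_lit 304) (nat_lit 2526577050) (nat_lit 76) (nat_lit 15929422627) (nat_lit 72) (nat_lit 5) (nat_lit 76) (nat_lit 5) (nat_lit 73) (nat_lit 5) (nat_lit 383) (nat_lit 312) (nat_lit 205)) (XT.lf (nat_lit 0) (nat_lit 1312497405) (nat_lit 1140) (nat_lit 1136513623) (nat_lit 1140) (nat_lit 1136513623) (nat_lit 541) (nat_lit 3) (nat_lit 556) (nat_lit 3) (nat_lit 556) (nat_lit 5) (nat_lit 313) (nat_lit 313) (nat_lit 274))) (XT.nd (nat_lit 78) (nat_lit 1064) (nat_lit 0) (XT.lf (nat_lit 76) (nat_lit 2810196404) (nat_lit 0) (nat_lit 2272892620) (nat_lit 1140) (nat_lit 2145317419) (nat_lit 542) (nat_lit 5) (nat_lit 541) (nat_lit 3) (nat_lit 556) (nat_lit 5) (nat_lit 314) (nat_lit 313) (nat_lit 273)) (XT.nd (nat_lit 78) (nat_lit 0) (nat_lit 0) (XT.lf (nat_lit 0) (nat_lit 252053621) (nat_lit 1140) (nat_lit 6544584214) (nat_lit 1216) (nat_lit 492295996) (nat_lit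 527) (nat_lit 5) (nat_lit 542) (nat_lit 5) (nat_lit 543) (nat_lit 5) (nat_lit 315) (nat_lit 313) (nat_lit 272)) (XT.lf (nat_lit 0) (nat_lit 2645732347) (nat_lit 1140) (nat_lit 1309324937) (nat_lit 1216) (nat_lit 3396933622) (nat_lit 527) (nat_lit 5) (nat_lit 542) (nat_lit 5) (nat_lit 543) (nat_lit 5) (nat_lit 316) (nat_lit 313) (nat_lit 271))))) (XT.nd (nat_lit 156) (nat_lit 1140) (nat_lit 0) (XT.nd (nat_lit 78) (nat_lit 0) (nat_lit 76) (XT.lf (nat_lit 76) (nat_lit 4086917925) (nat_lit 0) (nat_lit 961546807) (nat_lit 1216) (nat_lit 2369796248) (nat_lit 528) (nat_lit 5) (nat_lit 527) (nat_lit 5) (nat_lit 543) (nat_lit 5) (nat_lit 317) (nat_lit 313) (nat_lit 270)) (XT.lf (nat_lit 76) (nat_lit 2139938647) (nat_lit 0) (nat_lit 5333180812) (nat_lit 1216) (nat_lit 14467115) (nat_lit 529) (nat_lit 5) (nat_lit 528) (nat_lit 5) (nat_lit 544) (nat_lit 5) (nat_lit 318) (nat_lit 313) (nat_lit 269))) (XT.nd (nat_lit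 78) (nat_lit 0) (nat_lit 76) (XT.lf (nat_lit 76) (nat_lit 191403647) (nat_lit 0) (nat_lit 2133707051) (nat_lit 1292) (nat_lit 5234724898) (nat_lit 513) (nat_lit 5) (nat_lit 512) (nat_lit 5) (nat_lit 529) (nat_lit 5) (nat_lit 319) (nat_lit 313) (nat_lit 268)) (XT.nd (nat_lit 78) (nat_lit 0) (nat_lit 0) (XT.lf (nat_lit 0) (nat_lit 4695885081) (nat_lit 1216) (nat_lit 1723967949) (nat_lit 1292) (nat_lit 1215232382) (nat_lit 513) (nat_lit 5) (nat_lit 529) (nat_lit 5) (nat_lit 530) (nat_lit 5) (nat_lit 320) (nat_lit 313) (nat_lit 267)) (XT.lf (nat_lit 76) (nat_lit 4078185670) (nat_lit 0) (nat_lit 3019940931) (nat_lit 1292) (nat_lit 615316866) (nat_lit 514) (nat_lit 5) (nat_lit 513) (nat_lit 5) (nat_lit 530) (nat_lit 5) (nat_lit 321) (nat_lit 313) (nat_lit 266)))))) (XT.nd (nat_lit 390) (nat_lit 4256) (nat_lit 0) (XT.nd (nat_lit 156) (nat_lit 1292) (nat_lit 0) (XT.nd (nat_lit 78) (nat_lit 0) (nat_lit 0)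 (XT.lf (nat_lit 0) (nat_lit 1705934298) (nat_lit 1292) (nat_lit 5547749143) (nat_lit 1368) (nat_lit 541273281) (nat_lit 497) (nat_lit 5) (nat_lit 514) (nat_lit 5) (nat_lit 515) (nat_lit 5) (nat_lit 322) (nat_lit 313) (nat_lit 265)) (XT.lf (nat_lit 76) (nat_lit 406261741) (nat_lit 0) (nat_lit 3653064971) (nat_lit 1368) (nat_lit 3820143298) (nat_lit 498) (nat_lit 5) (nat_lit 497) (nat_lit 5) (nat_lit 515) (nat_lit 5) (nat_lit 323) (nat_lit 313) (nat_lit 264))) (XT.nd (nat_lit 78) (nat_lit 1368) (nat_lit 0) (XT.lf (nat_lit 0) (nat_lit 6446767995) (nat_lit 1292) (nat_lit 1404480859) (nat_lit 1368) (nat_lit 116052600) (nat_lit 498) (nat_lit 5) (nat_lit 515) (nat_lit 5) (nat_lit 516) (nat_lit 5) (nat_lit 324) (nat_lit 313) (nat_lit 263)) (XT.nd (nat_lit 78) (nat_lit 0) (nat_lit 0) (XT.lf (nat_lit 0) (nat_lit 820017408) (nat_lit 1368) (nat_lit 3229666089) (nat_lit 1444) (nat_lit 4008361924) (nat_lit 480)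 (nat_lit 5) (nat_lit 498) (nat_lit 5) (nat_lit 499) (nat_lit 5) (nat_lit 325) (nat_lit 313) (nat_lit 262)) (XT.lf (nat_lit 76) (nat_lit 3094932307) (nat_lit 0) (nat_lit 73676882) (nat_lit 1444) (nat_lit 4983579630) (nat_lit 481) (nat_lit 5) (nat_lit 480) (nat_lit 5) (nat_lit 499) (nat_lit 5) (nat_lit 326) (nat_lit 313) (nat_lit 261))))) (XT.nd (nat_lit 156) (nat_lit 4332) (nat_lit 0) (XT.nd (nat_lit 78) (nat_lit 0) (nat_lit 0) (XT.lf (nat_lit 76) (nat_lit 1343847888) (nat_lit 0) (nat_lit 4231237278) (nat_lit 1444) (nat_lit 2674369209) (nat_lit 482) (nat_lit 5) (nat_lit 481) (nat_lit 5) (nat_lit 500) (nat_lit 5) (nat_lit 327) (nat_lit 313) (nat_lit 260)) (XT.lf (nat_lit 76) (nat_lit 7954279810) (nat_lit 0) (nat_lit 66483400) (nat_lit 1444) (nat_lit 329579564) (nat_lit 482) (nat_lit 5) (nat_lit 481) (nat_lit 5) (nat_lit 500) (nat_lit 5) (nat_lit 328) (nat_lit 313) (nat_lit 259))) (XT.nd (nat_lit 78)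 (nat_lit 2964) (nat_lit 0) (XT.lf (nat_lit 0) (nat_lit 2060907692) (nat_lit 1444) (nat_lit 2155060826) (nat_lit 76) (nat_lit 4238007229) (nat_lit 463) (nat_lit 5) (nat_lit 482) (nat_lit 5) (nat_lit 464) (nat_lit 5) (nat_lit 329) (nat_lit 313) (nat_lit 258)) (XT.nd (nat_lit 78) (nat_lit 1520) (nat_lit 0) (XT.lf (nat_lit 0) (nat_lit 4488445426) (nat_lit 1520) (nat_lit 3916062293) (nat_lit 76) (nat_lit 156811765) (nat_lit 444) (nat_lit 5) (nat_lit 464) (nat_lit 5) (nat_lit 445) (nat_lit 5) (nat_lit 330) (nat_lit 313) (nat_lit 257)) (XT.lf (nat_lit 0) (nat_lit 2966095452) (nat_lit 1520) (nat_lit 4021941028) (nat_lit 1596) (nat_lit 1683902912) (nat_lit 424) (nat_lit 5) (nat_lit 444) (nat_lit 5) (nat_lit 445) (nat_lit 5) (nat_lit 331) (nat_lit 313) (nat_lit 256))))))))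
noncomputable def xc76 : XT := (XT.nd (nat_lit 1482) (nat_lit 8284) (nat_lit 0) (XT.nd (nat_lit 702) (nat_lit 5928) (nat_lit 0) (XT.nd (nat_lit 312) (nat_lit 3648) (nat_lit 0) (XT.nd (nat_lit 156) (nat_lit 3420) (nat_lit 0) (XT.nd (nat_lit 78) (nat_lit 0) (nat_lit 0) (XT.lf (nat_lit 0) (nat_lit 743244423) (nat_lit 1672) (nat_lit 7507323696) (nat_lit 76) (nat_lit 535713492) (nat_lit 402) (nat_lit 5) (nat_lit 424) (nat_lit 5) (nat_lit 403) (nat_lit 5) (nat_lit 332) (nat_lit 313) (nat_lit 255)) (XT.lf (nat_lit 0) (nat_lit 3225935989) (nat_lit 1672) (nat_lit 442772913) (nat_lit 76) (nat_lit 5235047772) (nat_lit 402) (nat_lit 5) (nat_lit 424) (nat_lit 5) (nat_lit 403) (nat_lit 5) (nat_lit 333) (nat_lit 313) (nat_lit 254))) (XT.nd (nat_lit 78) (nat_lit 1748) (nat_lit 0) (XT.lf (nat_lit 0) (nat_lit 5776315339) (nat_lit 1748) (nat_lit 2159340188) (nat_lit 76) (nat_lit 1089272571) (nat_lit 380) (nat_lit 5)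 (nat_lit 403) (nat_lit 5) (nat_lit 381) (nat_lit 5) (nat_lit 334) (nat_lit 313) (nat_lit 253)) (XT.lf (nat_lit 0) (nat_lit 5242432313) (nat_lit 1748) (nat_lit 3165209721) (nat_lit 1824) (nat_lit 742039106) (nat_lit 357) (nat_lit 5) (nat_lit 380) (nat_lit 5) (nat_lit 381) (nat_lit 5) (nat_lit 335) (nat_lit 313) (nat_lit 252)))) (XT.nd (nat_lit 156) (nat_lit 1748) (nat_lit 0) (XT.nd (nat_lit 78) (nat_lit 912) (nat_lit 0) (XT.lf (nat_lit 0) (nat_lit 1809210399) (nat_lit 988) (nat_lit 5688222383) (nat_lit 76) (nat_lit 1780666455) (nat_lit 344) (nat_lit 5) (nat_lit 357) (nat_lit 5) (nat_lit 345) (nat_lit 5) (nat_lit 336) (nat_lit 313) (nat_lit 251)) (XT.lf (nat_lit 0) (nat_lit 1902577371) (nat_lit 912) (nat_lit 2529684272) (nat_lit 988) (nat_lit 4977935745) (nat_lit 332) (nat_lit 5) (nat_lit 344) (nat_lit 5) (nat_lit 345) (nat_lit 5) (nat_lit 337) (nat_lit 313) (nat_lit 250))) (XT.nd (nat_lit 78) (nat_lit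 912) (nat_lit 0) (XT.lf (nat_lit 0) (nat_lit 186960415) (nat_lit 836) (nat_lit 6950258743) (nat_lit 912) (nat_lit 2409006608) (nat_lit 321) (nat_lit 5) (nat_lit 332) (nat_lit 5) (nat_lit 333) (nat_lit 5) (nat_lit 338) (nat_lit 313) (nat_lit 249)) (XT.nd (nat_lit 78) (nat_lit 836) (nat_lit 0) (XT.lf (nat_lit 0) (nat_lit 249265944) (nat_lit 912) (nat_lit 1540769269) (nat_lit 76) (nat_lit 7895991389) (nat_lit 320) (nat_lit 5) (nat_lit 332) (nat_lit 5) (nat_lit 321) (nat_lit 5) (nat_lit 339) (nat_lit 313) (nat_lit 248)) (XT.lf (nat_lit 0) (nat_lit 2969223363) (nat_lit 912) (nat_lit 3321644563) (nat_lit 76) (nat_lit 3538570933) (nat_lit 309) (nat_lit 5) (nat_lit 321) (nat_lit 5) (nat_lit 310) (nat_lit 5) (nat_lit 340) (nat_lit 313) (nat_lit 247)))))) (XT.nd (nat_lit 390) (nat_lit 2812) (nat_lit 0) (XT.nd (nat_lit 156) (nat_lit 1596) (nat_lit 0) (XT.nd (nat_lit 78) (nat_lit 760) (nat_lit 0) (XT.lf (nat_lit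 0) (nat_lit 4842925617) (nat_lit 760) (nat_lit 931743823) (nat_lit 836) (nat_lit 4202434577) (nat_lit 299) (nat_lit 5) (nat_lit 309) (nat_lit 5) (nat_lit 310) (nat_lit 5) (nat_lit 341) (nat_lit 313) (nat_lit 246)) (XT.lf (nat_lit 0) (nat_lit 3129565965) (nat_lit 760) (nat_lit 5558574411) (nat_lit 836) (nat_lit 1440609027) (nat_lit 289) (nat_lit 5) (nat_lit 299) (nat_lit 5) (nat_lit 300) (nat_lit 5) (nat_lit 342) (nat_lit 313) (nat_lit 245))) (XT.nd (nat_lit 78) (nat_lit 760) (nat_lit 0) (XT.lf (nat_lit 0) (nat_lit 1379227833) (nat_lit 760) (nat_lit 8488902) (nat_lit 836) (nat_lit 8897030073) (nat_lit 278) (nat_lit 5) (nat_lit 288) (nat_lit 5) (nat_lit 289) (nat_lit 5) (nat_lit 343) (nat_lit 313) (nat_lit 244)) (XT.nd (nat_lit 78) (nat_lit 760) (nat_lit 0) (XT.lf (nat_lit 0) (nat_lit 4319150545) (nat_lit 836) (nat_lit 437351952) (nat_lit 76) (nat_lit 5687999996) (nat_lit 278) (nat_lit 5) (nat_lit 289)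 (nat_lit 5) (nat_lit 279) (nat_lit 5) (nat_lit 344) (nat_lit 313) (nat_lit 243)) (XT.lf (nat_lit 0) (nat_lit 7353532333) (nat_lit 836) (nat_lit 2270323698) (nat_lit 76) (nat_lit 984919396) (nat_lit 268) (nat_lit 5) (nat_lit 279) (nat_lit 5) (nat_lit 269) (nat_lit 5) (nat_lit 345) (nat_lit 313) (nat_lit 242))))) (XT.nd (nat_lit 156) (nat_lit 1368) (nat_lit 0) (XT.nd (nat_lit 78) (nat_lit 760) (nat_lit 0) (XT.lf (nat_lit 0) (nat_lit 6611192214) (nat_lit 684) (nat_lit 3900749771) (nat_lit 760) (nat_lit 265398595) (nat_lit 259) (nat_lit 5) (nat_lit 268) (nat_lit 5) (nat_lit 269) (nat_lit 5) (nat_lit 346) (nat_lit 313) (nat_lit 241)) (XT.lf (nat_lit 0) (nat_lit 2793415636) (nat_lit 760) (nat_lit 6128381535) (nat_lit 76) (nat_lit 2028499248) (nat_lit 249) (nat_lit 5) (nat_lit 259) (nat_lit 5) (nat_lit 250) (nat_lit 5) (nat_lit 347) (nat_lit 313) (nat_lit 240))) (XT.nd (nat_lit 78) (nat_lit 760) (nat_lit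 0) (XT.lf (nat_lit 0) (nat_lit 2970534989) (nat_lit 608) (nat_lit 3000555548) (nat_lit 684) (nat_lit 5156723411) (nat_lit 241) (nat_lit 5) (nat_lit 249) (nat_lit 5) (nat_lit 250) (nat_lit 5) (nat_lit 348) (nat_lit 313) (nat_lit 239)) (XT.nd (nat_lit 78) (nat_lit 76) (nat_lit 0) (XT.lf (nat_lit 0) (nat_lit 1060826100) (nat_lit 684) (nat_lit 8209868561) (nat_lit 760) (nat_lit 2039451858) (nat_lit 232) (nat_lit 5) (nat_lit 241) (nat_lit 5) (nat_lit 242) (nat_lit 5) (nat_lit 349) (nat_lit 313) (nat_lit 238)) (XT.lf (nat_lit 0) (nat_lit 1190097303) (nat_lit 760) (nat_lit 906697905) (nat_lit 76) (nat_lit 9400339783) (nat_lit 231) (nat_lit 5) (nat_lit 241) (nat_lit 5) (nat_lit 232) (nat_lit 5) (nat_lit 350) (nat_lit 313) (nat_lit 237))))))) (XT.nd (nat_lit 702) (nat_lit 3648) (nat_lit 0) (XT.nd (nat_lit 312) (nat_lit 2204) (nat_lit 0) (XT.nd (nat_lit 156) (nat_lit 1216) (nat_lit 0) (XT.nd (nat_lit 78) (nat_lit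 608) (nat_lit 0) (XT.lf (nat_lit 0) (nat_lit 4533236453) (nat_lit 684) (nat_lit 2946775309) (nat_lit 76) (nat_lit 4208583370) (nat_lit 223) (nat_lit 5) (nat_lit 232) (nat_lit 5) (nat_lit 224) (nat_lit 5) (nat_lit 351) (nat_lit 313) (nat_lit 236)) (XT.lf (nat_lit 0) (nat_lit 6834586736) (nat_lit 608) (nat_lit 1167114650) (nat_lit 684) (nat_lit 3883616345) (nat_lit 215) (nat_lit 5) (nat_lit 223) (nat_lit 5) (nat_lit 224) (nat_lit 5) (nat_lit 352) (nat_lit 313) (nat_lit 235))) (XT.nd (nat_lit 78) (nat_lit 684) (nat_lit 0) (XT.lf (nat_lit 0) (nat_lit 4843449150) (nat_lit 532) (nat_lit 6778204190) (nat_lit 608) (nat_lit 465358732) (nat_lit 208) (nat_lit 5) (nat_lit 215) (nat_lit 5) (nat_lit 216) (nat_lit 5) (nat_lit 353) (nat_lit 313) (nat_lit 234)) (XT.lf (nat_lit 0) (nat_lit 2770746505) (nat_lit 608) (nat_lit 266676452) (nat_lit 684) (nat_lit 9256514365) (nat_lit 199) (nat_lit 5) (nat_lit 207) (nat_lit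 5) (nat_lit 208) (nat_lit 5) (nat_lit 354) (nat_lit 313) (nat_lit 233)))) (XT.nd (nat_lit 156) (nat_lit 1672) (nat_lit 0) (XT.nd (nat_lit 78) (nat_lit 0) (nat_lit 0) (XT.lf (nat_lit 0) (nat_lit 593906166) (nat_lit 532) (nat_lit 6102729720) (nat_lit 608) (nat_lit 5809236824) (nat_lit 192) (nat_lit 5) (nat_lit 199) (nat_lit 5) (nat_lit 200) (nat_lit 5) (nat_lit 355) (nat_lit 313) (nat_lit 232)) (XT.lf (nat_lit 0) (nat_lit 10499177193) (nat_lit 608) (nat_lit 1630844676) (nat_lit 76) (nat_lit 593490050) (nat_lit 192) (nat_lit 5) (nat_lit 200) (nat_lit 5) (nat_lit 193) (nat_lit 5) (nat_lit 356) (nat_lit 313) (nat_lit 231))) (XT.nd (nat_lit 78) (nat_lit 1064) (nat_lit 0) (XT.lf (nat_lit 0) (nat_lit 1512795492) (nat_lit 608) (nat_lit 3966301684) (nat_lit 76) (nat_lit 7467129766) (nat_lit 184) (nat_lit 5) (nat_lit 192) (nat_lit 5) (nat_lit 185) (nat_lit 5) (nat_lit 357) (nat_lit 313) (nat_lit 230)) (XT.nd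 (nat_lit 78) (nat_lit 532) (nat_lit 0) (XT.lf (nat_lit 0) (nat_lit 5361315624) (nat_lit 608) (nat_lit 6399740331) (nat_lit 76) (nat_lit 1413699007) (nat_lit 177) (nat_lit 5) (nat_lit 185) (nat_lit 5) (nat_lit 178) (nat_lit 5) (nat_lit 358) (nat_lit 313) (nat_lit 229)) (XT.lf (nat_lit 0) (nat_lit 4459561036) (nat_lit 532) (nat_lit 4923896512) (nat_lit 608) (nat_lit 4025533024) (nat_lit 170) (nat_lit 5) (nat_lit 177) (nat_lit 5) (nat_lit 178) (nat_lit 5) (nat_lit 359) (nat_lit 313) (nat_lit 228)))))) (XT.nd (nat_lit 390) (nat_lit 1672) (nat_lit 0) (XT.nd (nat_lit 156) (nat_lit 1444) (nat_lit 0) (XT.nd (nat_lit 78) (nat_lit 76) (nat_lit 0) (XT.lf (nat_lit 0) (nat_lit 2050455433) (nat_lit 456) (nat_lit 11512688777) (nat_lit 532) (nat_lit 86386063) (nat_lit 164) (nat_lit 5) (nat_lit 170) (nat_lit 5) (nat_lit 171) (nat_lit 5) (nat_lit 360) (nat_lit 313) (nat_lit 227)) (XT.lf (nat_lit 0) (nat_lit 3979452707)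 (nat_lit 532) (nat_lit 497322037) (nat_lit 76) (nat_lit 9418797774) (nat_lit 163) (nat_lit 5) (nat_lit 170) (nat_lit 5) (nat_lit 164) (nat_lit 5) (nat_lit 361) (nat_lit 313) (nat_lit 226))) (XT.nd (nat_lit 78) (nat_lit 988) (nat_lit 0) (XT.lf (nat_lit 0) (nat_lit 8223752178) (nat_lit 532) (nat_lit 3128598221) (nat_lit 76) (nat_lit 2795494548) (nat_lit 157) (nat_lit 5) (nat_lit 164) (nat_lit 5) (nat_lit 158) (nat_lit 5) (nat_lit 362) (nat_lit 313) (nat_lit 225)) (XT.nd (nat_lit 78) (nat_lit 532) (nat_lit 0) (XT.lf (nat_lit 0) (nat_lit 8518734257) (nat_lit 456) (nat_lit 4133473286) (nat_lit 532) (nat_lit 1754354599) (nat_lit 151) (nat_lit 5) (nat_lit 157) (nat_lit 5) (nat_lit 158) (nat_lit 5) (nat_lit 363) (nat_lit 313) (nat_lit 224)) (XT.lf (nat_lit 0) (nat_lit 2557307945) (nat_lit 532) (nat_lit 8790797127) (nat_lit 76) (nat_lit 3323615366) (nat_lit 144) (nat_lit 5) (nat_lit 151) (nat_lit 5) (nat_lit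 145) (nat_lit 5) (nat_lit 364) (nat_lit 313) (nat_lit 223))))) (XT.nd (nat_lit 156) (nat_lit 836) (nat_lit 0) (XT.nd (nat_lit 78) (nat_lit 456) (nat_lit 0) (XT.lf (nat_lit 0) (nat_lit 3097172537) (nat_lit 380) (nat_lit 3934539993) (nat_lit 456) (nat_lit 7911756622) (nat_lit 139) (nat_lit 5) (nat_lit 144) (nat_lit 5) (nat_lit 145) (nat_lit 5) (nat_lit 365) (nat_lit 313) (nat_lit 222)) (XT.lf (nat_lit 0) (nat_lit 174857851) (nat_lit 456) (nat_lit 11520343566) (nat_lit 532) (nat_lit 3527083645) (nat_lit 133) (nat_lit 5) (nat_lit 139) (nat_lit 5) (nat_lit 140) (nat_lit 5) (nat_lit 366) (nat_lit 313) (nat_lit 221))) (XT.nd (nat_lit 78) (nat_lit 760) (nat_lit 0) (XT.lf (nat_lit 0) (nat_lit 1053395640) (nat_lit 532) (nat_lit 2864977333) (nat_lit 76) (nat_lit 11589430472) (nat_lit 132) (nat_lit 5) (nat_lit 139) (nat_lit 5) (nat_lit 133) (nat_lit 5) (nat_lit 367) (nat_lit 313) (nat_lit 220)) (XT.nd (nat_lit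 78) (nat_lit 380) (nat_lit 0) (XT.lf (nat_lit 0) (nat_lit 5783802119) (nat_lit 456) (nat_lit 6080866915) (nat_lit 76) (nat_lit 3935554309) (nat_lit 127) (nat_lit 5) (nat_lit 133) (nat_lit 5) (nat_lit 128) (nat_lit 5) (nat_lit 368) (nat_lit 313) (nat_lit 219)) (XT.lf (nat_lit 0) (nat_lit 6638909273) (nat_lit 380) (nat_lit 4077553793) (nat_lit 456) (nat_lit 5383756496) (nat_lit 122) (nat_lit 5) (nat_lit 127) (nat_lit 5) (nat_lit 128) (nat_lit 5) (nat_lit 369) (nat_lit 313) (nat_lit 218))))))))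
noncomputable def xc77 : XT := (XT.nd (nat_lit 42900) (nat_lit 0) (nat_lit 19684) (XT.nd (nat_lit 702) (nat_lit 1140) (nat_lit 0) (XT.nd (nat_lit 312) (nat_lit 1444) (nat_lit 0) (XT.nd (nat_lit 156) (nat_lit 684) (nat_lit 0) (XT.nd (nat_lit 78) (nat_lit 76) (nat_lit 0) (XT.lf (nat_lit 0) (nat_lit 3392688460) (nat_lit 380) (nat_lit 12465500005) (nat_lit 456) (nat_lit 549815769) (nat_lit 117) (nat_lit 5) (nat_lit 122) (nat_lit 5) (nat_lit 123) (nat_lit 5) (nat_lit 370) (nat_lit 313) (nat_lit 217)) (XT.lf (nat_lit 0) (nat_lit 4435198796) (nat_lit 456) (nat_lit 59142060) (nat_lit 76) (nat_lit 12228833326) (nat_lit 116) (nat_lit 5) (nat_lit 122) (nat_lit 5) (nat_lit 117) (nat_lit 5) (nat_lit 371) (nat_lit 313) (nat_lit 216))) (XT.nd (nat_lit 78) (nat_lit 304) (nat_lit 0) (XT.lf (nat_lit 0) (nat_lit 9647247592) (nat_lit 456) (nat_lit 3652729284) (nat_lit 76) (nat_lit 3746060077) (nat_lit 111) (nat_lit 5)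 (nat_lit 117) (nat_lit 5) (nat_lit 112) (nat_lit 5) (nat_lit 372) (nat_lit 313) (nat_lit 215)) (XT.lf (nat_lit 0) (nat_lit 9932378123) (nat_lit 304) (nat_lit 5151818363) (nat_lit 380) (nat_lit 2293027553) (nat_lit 107) (nat_lit 5) (nat_lit 111) (nat_lit 5) (nat_lit 112) (nat_lit 5) (nat_lit 373) (nat_lit 313) (nat_lit 214)))) (XT.nd (nat_lit 156) (nat_lit 684) (nat_lit 0) (XT.nd (nat_lit 78) (nat_lit 304) (nat_lit 0) (XT.lf (nat_lit 0) (nat_lit 2988153864) (nat_lit 456) (nat_lit 11457662092) (nat_lit 76) (nat_lit 3270931507) (nat_lit 101) (nat_lit 5) (nat_lit 107) (nat_lit 5) (nat_lit 102) (nat_lit 5) (nat_lit 374) (nat_lit 313) (nat_lit 213)) (XT.lf (nat_lit 0) (nat_lit 2352415557) (nat_lit 304) (nat_lit 6119243131) (nat_lit 380) (nat_lit 9593002448) (nat_lit 97) (nat_lit 5) (nat_lit 101) (nat_lit 5) (nat_lit 102) (nat_lit 5) (nat_lit 375) (nat_lit 313) (nat_lit 212))) (XT.nd (nat_lit 78) (nat_lit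 684) (nat_lit 0) (XT.lf (nat_lit 0) (nat_lit 14188545010) (nat_lit 380) (nat_lit 1743000659) (nat_lit 76) (nat_lit 2490097282) (nat_lit 97) (nat_lit 5) (nat_lit 102) (nat_lit 5) (nat_lit 98) (nat_lit 5) (nat_lit 376) (nat_lit 313) (nat_lit 211)) (XT.nd (nat_lit 78) (nat_lit 304) (nat_lit 0) (XT.lf (nat_lit 0) (nat_lit 1370466541) (nat_lit 380) (nat_lit 6062546768) (nat_lit 76) (nat_lit 11354166574) (nat_lit 92) (nat_lit 5) (nat_lit 97) (nat_lit 5) (nat_lit 93) (nat_lit 5) (nat_lit 377) (nat_lit 313) (nat_lit 210)) (XT.lf (nat_lit 0) (nat_lit 7137176586) (nat_lit 380) (nat_lit 10638447741) (nat_lit 76) (nat_lit 1386455615) (nat_lit 88) (nat_lit 5) (nat_lit 93) (nat_lit 5) (nat_lit 89) (nat_lit 5) (nat_lit 378) (nat_lit 313) (nat_lit 209)))))) (XT.nd (nat_lit 41808) (nat_lit 0) (nat_lit 33288) (XT.nd (nat_lit 156) (nat_lit 836) (nat_lit 0) (XT.nd (nat_lit 78) (nat_lit 0) (nat_lit 0) (XT.lf (nat_lit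 0) (nat_lit 4049011451) (nat_lit 304) (nat_lit 9121418922) (nat_lit 380) (nat_lit 6375933193) (nat_lit 84) (nat_lit 5) (nat_lit 88) (nat_lit 5) (nat_lit 89) (nat_lit 5) (nat_lit 379) (nat_lit 313) (nat_lit 208)) (XT.lf (nat_lit 0) (nat_lit 19286228477) (nat_lit 304) (nat_lit 147191243) (nat_lit 380) (nat_lit 507788413) (nat_lit 84) (nat_lit 5) (nat_lit 88) (nat_lit 5) (nat_lit 89) (nat_lit 5) (nat_lit 380) (nat_lit 313) (nat_lit 207))) (XT.nd (nat_lit 78) (nat_lit 532) (nat_lit 0) (XT.lf (nat_lit 0) (nat_lit 5596604981) (nat_lit 304) (nat_lit 5651082663) (nat_lit 76) (nat_lit 9096842017) (nat_lit 80) (nat_lit 5) (nat_lit 84) (nat_lit 5) (nat_lit 81) (nat_lit 5) (nat_lit 381) (nat_lit 313) (nat_lit 206)) (XT.nd (nat_lit 78) (nat_lit 228) (nat_lit 0) (XT.lf (nat_lit 0) (nat_lit 9840554887) (nat_lit 304) (nat_lit 2083584615) (nat_lit 380) (nat_lit 8834812690) (nat_lit 76) (nat_lit 5) (nat_lit 80) (nat_lit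 5) (nat_lit 81) (nat_lit 5) (nat_lit 382) (nat_lit 313) (nat_lit 205)) (XT.lf (nat_lit 0) (nat_lit 4667139993) (nat_lit 228) (nat_lit 13868835038) (nat_lit 304) (nat_lit 2647949322) (nat_lit 73) (nat_lit 5) (nat_lit 76) (nat_lit 5) (nat_lit 77) (nat_lit 5) (nat_lit 383) (nat_lit 313) (nat_lit 204))))) (XT.nd (nat_lit 156) (nat_lit 1140) (nat_lit 0) (XT.nd (nat_lit 78) (nat_lit 0) (nat_lit 0) (XT.lf (nat_lit 0) (nat_lit 42491254) (nat_lit 0) (nat_lit 42491254) (nat_lit 1140) (nat_lit 3558721033) (nat_lit 526) (nat_lit 5) (nat_lit 526) (nat_lit 3) (nat_lit 541) (nat_lit 3) (nat_lit 314) (nat_lit 314) (nat_lit 272)) (XT.lf (nat_lit 0) (nat_lit 2485267587) (nat_lit 1140) (nat_lit 2083551243) (nat_lit 1216) (nat_lit 2779949273) (nat_lit 526) (nat_lit 5) (nat_lit 541) (nat_lit 3) (nat_lit 542) (nat_lit 5) (nat_lit 315) (nat_lit 314) (nat_lit 271))) (XT.nd (nat_lit 78) (nat_lit 1140) (nat_lit 0) (XT.lf (nat_lit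 76) (nat_lit 3183146474) (nat_lit 0) (nat_lit 1618862360) (nat_lit 1216) (nat_lit 2611387680) (nat_lit 527) (nat_lit 5) (nat_lit 526) (nat_lit 5) (nat_lit 542) (nat_lit 5) (nat_lit 316) (nat_lit 314) (nat_lit 270)) (XT.nd (nat_lit 78) (nat_lit 1216) (nat_lit 0) (XT.lf (nat_lit 76) (nat_lit 1113752304) (nat_lit 0) (nat_lit 6018469520) (nat_lit 1216) (nat_lit 348926790) (nat_lit 528) (nat_lit 5) (nat_lit 527) (nat_lit 5) (nat_lit 543) (nat_lit 5) (nat_lit 317) (nat_lit 314) (nat_lit 269)) (XT.lf (nat_lit 0) (nat_lit 1910007810) (nat_lit 1216) (nat_lit 946898990) (nat_lit 1292) (nat_lit 4694738589) (nat_lit 511) (nat_lit 5) (nat_lit 527) (nat_lit 5) (nat_lit 528) (nat_lit 5) (nat_lit 318) (nat_lit 314) (nat_lit 268))))))) (XT.nd (nat_lit 780) (nat_lit 9880) (nat_lit 0) (XT.nd (nat_lit 390) (nat_lit 2508) (nat_lit 0) (XT.nd (nat_lit 156) (nat_lit 1292) (nat_lit 0) (XT.nd (nat_lit 78) (nat_lit 0) (nat_lit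 0) (XT.lf (nat_lit 0) (nat_lit 4182594754) (nat_lit 1216) (nat_lit 2980744350) (nat_lit 1292) (nat_lit 461918688) (nat_lit 512) (nat_lit 5) (nat_lit 528) (nat_lit 5) (nat_lit 529) (nat_lit 5) (nat_lit 319) (nat_lit 314) (nat_lit 267)) (XT.lf (nat_lit 76) (nat_lit 2683380617) (nat_lit 0) (nat_lit 3802674670) (nat_lit 1292) (nat_lit 1215826983) (nat_lit 513) (nat_lit 5) (nat_lit 512) (nat_lit 5) (nat_lit 529) (nat_lit 5) (nat_lit 320) (nat_lit 314) (nat_lit 266))) (XT.nd (nat_lit 78) (nat_lit 0) (nat_lit 76) (XT.lf (nat_lit 76) (nat_lit 731630521) (nat_lit 0) (nat_lit 278295960) (nat_lit 1368) (nat_lit 6771868932) (nat_lit 496) (nat_lit 5) (nat_lit 495) (nat_lit 5) (nat_lit 513) (nat_lit 5) (nat_lit 321) (nat_lit 314) (nat_lit 265)) (XT.nd (nat_lit 78) (nat_lit 0) (nat_lit 0) (XT.lf (nat_lit 0) (nat_lit 3265361808) (nat_lit 1292) (nat_lit 1220234188) (nat_lit 1368) (nat_lit 3378813919) (nat_lit 496)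 (nat_lit 5) (nat_lit 513) (nat_lit 5) (nat_lit 514) (nat_lit 5) (nat_lit 322) (nat_lit 314) (nat_lit 264)) (XT.lf (nat_lit 76) (nat_lit 4797447988) (nat_lit 0) (nat_lit 749593410) (nat_lit 1368) (nat_lit 2403341530) (nat_lit 497) (nat_lit 5) (nat_lit 496) (nat_lit 5) (nat_lit 514) (nat_lit 5) (nat_lit 323) (nat_lit 314) (nat_lit 263))))) (XT.nd (nat_lit 156) (nat_lit 1292) (nat_lit 0) (XT.nd (nat_lit 78) (nat_lit 1368) (nat_lit 0) (XT.lf (nat_lit 76) (nat_lit 2942930985) (nat_lit 0) (nat_lit 4929383819) (nat_lit 1368) (nat_lit 167167650) (nat_lit 498) (nat_lit 5) (nat_lit 497) (nat_lit 5) (nat_lit 515) (nat_lit 5) (nat_lit 324) (nat_lit 314) (nat_lit 262)) (XT.lf (nat_lit 76) (nat_lit 1079858240) (nat_lit 0) (nat_lit 990623484) (nat_lit 1444) (nat_lit 6061295530) (nat_lit 480) (nat_lit 5) (nat_lit 479) (nat_lit 5) (nat_lit 498) (nat_lit 5) (nat_lit 325) (nat_lit 314) (nat_lit 261))) (XT.nd (nat_lit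 78) (nat_lit 1368) (nat_lit 0) (XT.lf (nat_lit 0) (nat_lit 4358442500) (nat_lit 1368) (nat_lit 786136513) (nat_lit 1444) (nat_lit 3082577109) (nat_lit 480) (nat_lit 5) (nat_lit 498) (nat_lit 5) (nat_lit 499) (nat_lit 5) (nat_lit 326) (nat_lit 314) (nat_lit 260)) (XT.nd (nat_lit 78) (nat_lit 1368) (nat_lit 0) (XT.lf (nat_lit 76) (nat_lit 5686984545) (nat_lit 0) (nat_lit 1004389576) (nat_lit 1444) (nat_lit 1634540627) (nat_lit 481) (nat_lit 5) (nat_lit 480) (nat_lit 5) (nat_lit 499) (nat_lit 5) (nat_lit 327) (nat_lit 314) (nat_lit 259)) (XT.lf (nat_lit 0) (nat_lit 644297697) (nat_lit 1444) (nat_lit 4513746270) (nat_lit 1520) (nat_lit 3269820793) (nat_lit 462) (nat_lit 5) (nat_lit 481) (nat_lit 5) (nat_lit 482) (nat_lit 5) (nat_lit 328) (nat_lit 314) (nat_lit 258)))))) (XT.nd (nat_lit 390) (nat_lit 5320) (nat_lit 0) (XT.nd (nat_lit 156) (nat_lit 3192) (nat_lit 0) (XT.nd (nat_lit 78) (nat_lit 1368) (nat_lit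 0) (XT.lf (nat_lit 76) (nat_lit 2128134838) (nat_lit 0) (nat_lit 815493765) (nat_lit 1520) (nat_lit 5589583511) (nat_lit 463) (nat_lit 5) (nat_lit 462) (nat_lit 5) (nat_lit 482) (nat_lit 5) (nat_lit 329) (nat_lit 314) (nat_lit 257)) (XT.lf (nat_lit 0) (nat_lit 320238783) (nat_lit 1444) (nat_lit 4985638336) (nat_lit 1520) (nat_lit 3336004419) (nat_lit 444) (nat_lit 5) (nat_lit 463) (nat_lit 5) (nat_lit 464) (nat_lit 5) (nat_lit 330) (nat_lit 314) (nat_lit 256))) (XT.nd (nat_lit 78) (nat_lit 3192) (nat_lit 0) (XT.lf (nat_lit 0) (nat_lit 7280310655) (nat_lit 1444) (nat_lit 446332875) (nat_lit 1520) (nat_lit 1027453733) (nat_lit 444) (nat_lit 5) (nat_lit 463) (nat_lit 5) (nat_lit 464) (nat_lit 5) (nat_lit 331) (nat_lit 314) (nat_lit 255)) (XT.nd (nat_lit 78) (nat_lit 1596) (nat_lit 0) (XT.lf (nat_lit 0) (nat_lit 1336984478) (nat_lit 1596) (nat_lit 3302268778) (nat_lit 76) (nat_lit 4230201370) (nat_lit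 423) (nat_lit 5) (nat_lit 444) (nat_lit 5) (nat_lit 424) (nat_lit 5) (nat_lit 332) (nat_lit 314) (nat_lit 254)) (XT.lf (nat_lit 0) (nat_lit 3738827162) (nat_lit 1672) (nat_lit 5146329125) (nat_lit 76) (nat_lit 103408237) (nat_lit 402) (nat_lit 5) (nat_lit 424) (nat_lit 5) (nat_lit 403) (nat_lit 5) (nat_lit 333) (nat_lit 314) (nat_lit 253))))) (XT.nd (nat_lit 156) (nat_lit 1900) (nat_lit 0) (XT.nd (nat_lit 78) (nat_lit 1748) (nat_lit 0) (XT.lf (nat_lit 0) (nat_lit 2082139181) (nat_lit 1672) (nat_lit 4140778376) (nat_lit 1748) (nat_lit 2888161507) (nat_lit 380) (nat_lit 5) (nat_lit 402) (nat_lit 5) (nat_lit 403) (nat_lit 5) (nat_lit 334) (nat_lit 314) (nat_lit 252)) (XT.lf (nat_lit 0) (nat_lit 310472746) (nat_lit 1748) (nat_lit 8457529722) (nat_lit 1824) (nat_lit 469571306) (nat_lit 357) (nat_lit 5) (nat_lit 380) (nat_lit 5) (nat_lit 381) (nat_lit 5) (nat_lit 335) (nat_lit 314) (nat_lit 251))) (XT.nd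 (nat_lit 78) (nat_lit 1824) (nat_lit 0) (XT.lf (nat_lit 0) (nat_lit 2016115207) (nat_lit 1824) (nat_lit 1491569680) (nat_lit 76) (nat_lit 5859527415) (nat_lit 356) (nat_lit 5) (nat_lit 380) (nat_lit 5) (nat_lit 357) (nat_lit 5) (nat_lit 336) (nat_lit 314) (nat_lit 250)) (XT.nd (nat_lit 78) (nat_lit 912) (nat_lit 0) (XT.lf (nat_lit 0) (nat_lit 4567912579) (nat_lit 988) (nat_lit 3314806548) (nat_lit 76) (nat_lit 1618031958) (nat_lit 344) (nat_lit 5) (nat_lit 357) (nat_lit 5) (nat_lit 345) (nat_lit 5) (nat_lit 337) (nat_lit 314) (nat_lit 249)) (XT.lf (nat_lit 0) (nat_lit 4462442806) (nat_lit 912) (nat_lit 2744692630) (nat_lit 988) (nat_lit 2430973822) (nat_lit 332) (nat_lit 5) (nat_lit 344) (nat_lit 5) (nat_lit 345) (nat_lit 5) (nat_lit 338) (nat_lit 314) (nat_lit 248))))))))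
noncomputable def xc78 : XT := (XT.nd (nat_lit 1482) (nat_lit 6992) (nat_lit 0) (XT.nd (nat_lit 702) (nat_lit 5548) (nat_lit 0) (XT.nd (nat_lit 312) (nat_lit 3116) (nat_lit 0) (XT.nd (nat_lit 156) (nat_lit 760) (nat_lit 0) (XT.nd (nat_lit 78) (nat_lit 836) (nat_lit 0) (XT.lf (nat_lit 0) (nat_lit 150264877) (nat_lit 912) (nat_lit 7071329376) (nat_lit 76) (nat_lit 2557879508) (nat_lit 320) (nat_lit 5) (nat_lit 332) (nat_lit 5) (nat_lit 321) (nat_lit 5) (nat_lit 339) (nat_lit 314) (nat_lit 247)) (XT.lf (nat_lit 0) (nat_lit 903108235) (nat_lit 836) (nat_lit 1882799548) (nat_lit 912) (nat_lit 7138678481) (nat_lit 309) (nat_lit 5) (nat_lit 320) (nat_lit 5) (nat_lit 321) (nat_lit 5) (nat_lit 340) (nat_lit 314) (nat_lit 246))) (XT.nd (nat_lit 78) (nat_lit 760) (nat_lit 0) (XT.lf (nat_lit 0) (nat_lit 5523756492) (nat_lit 912) (nat_lit 932356708) (nat_lit 76) (nat_lit 3617503718) (nat_lit 309) (nat_lit 5) (nat_lit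 321) (nat_lit 5) (nat_lit 310) (nat_lit 5) (nat_lit 341) (nat_lit 314) (nat_lit 245)) (XT.lf (nat_lit 0) (nat_lit 7436770528) (nat_lit 760) (nat_lit 920683669) (nat_lit 836) (nat_lit 1869416728) (nat_lit 299) (nat_lit 5) (nat_lit 309) (nat_lit 5) (nat_lit 310) (nat_lit 5) (nat_lit 342) (nat_lit 314) (nat_lit 244)))) (XT.nd (nat_lit 156) (nat_lit 1520) (nat_lit 0) (XT.nd (nat_lit 78) (nat_lit 760) (nat_lit 0) (XT.lf (nat_lit 0) (nat_lit 908095978) (nat_lit 836) (nat_lit 4709380718) (nat_lit 76) (nat_lit 4766588575) (nat_lit 288) (nat_lit 5) (nat_lit 299) (nat_lit 5) (nat_lit 289) (nat_lit 5) (nat_lit 343) (nat_lit 314) (nat_lit 243)) (XT.lf (nat_lit 0) (nat_lit 3749405744) (nat_lit 836) (nat_lit 6676092509) (nat_lit 76) (nat_lit 120137341) (nat_lit 278) (nat_lit 5) (nat_lit 289) (nat_lit 5) (nat_lit 279) (nat_lit 5) (nat_lit 344) (nat_lit 314) (nat_lit 242))) (XT.nd (nat_lit 78) (nat_lit 760) (nat_lit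 0) (XT.lf (nat_lit 0) (nat_lit 1999572894) (nat_lit 760) (nat_lit 4714672851) (nat_lit 836) (nat_lit 3997065419) (nat_lit 268) (nat_lit 5) (nat_lit 278) (nat_lit 5) (nat_lit 279) (nat_lit 5) (nat_lit 345) (nat_lit 314) (nat_lit 241)) (XT.nd (nat_lit 78) (nat_lit 76) (nat_lit 0) (XT.lf (nat_lit 0) (nat_lit 91307739) (nat_lit 684) (nat_lit 9687017572) (nat_lit 760) (nat_lit 1103449067) (nat_lit 259) (nat_lit 5) (nat_lit 268) (nat_lit 5) (nat_lit 269) (nat_lit 5) (nat_lit 346) (nat_lit 314) (nat_lit 240)) (XT.lf (nat_lit 0) (nat_lit 1900550518) (nat_lit 760) (nat_lit 1870248382) (nat_lit 76) (nat_lit 7285367164) (nat_lit 258) (nat_lit 5) (nat_lit 268) (nat_lit 5) (nat_lit 259) (nat_lit 5) (nat_lit 347) (nat_lit 314) (nat_lit 239)))))) (XT.nd (nat_lit 390) (nat_lit 2888) (nat_lit 0) (XT.nd (nat_lit 156) (nat_lit 1368) (nat_lit 0) (XT.nd (nat_lit 78) (nat_lit 608) (nat_lit 0) (XT.lf (nat_lit 0) (nat_lit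 5001452825) (nat_lit 760) (nat_lit 3890498847) (nat_lit 76) (nat_lit 2343277962) (nat_lit 249) (nat_lit 5) (nat_lit 259) (nat_lit 5) (nat_lit 250) (nat_lit 5) (nat_lit 348) (nat_lit 314) (nat_lit 238)) (XT.lf (nat_lit 0) (nat_lit 5442095413) (nat_lit 608) (nat_lit 2785960055) (nat_lit 684) (nat_lit 3190977047) (nat_lit 241) (nat_lit 5) (nat_lit 249) (nat_lit 5) (nat_lit 250) (nat_lit 5) (nat_lit 349) (nat_lit 314) (nat_lit 237))) (XT.nd (nat_lit 78) (nat_lit 684) (nat_lit 0) (XT.lf (nat_lit 0) (nat_lit 3476421730) (nat_lit 684) (nat_lit 8107103763) (nat_lit 760) (nat_lit 24202866) (nat_lit 232) (nat_lit 5) (nat_lit 241) (nat_lit 5) (nat_lit 242) (nat_lit 5) (nat_lit 350) (nat_lit 314) (nat_lit 236)) (XT.nd (nat_lit 78) (nat_lit 0) (nat_lit 0) (XT.lf (nat_lit 0) (nat_lit 1426569931) (nat_lit 608) (nat_lit 1798006859) (nat_lit 684) (nat_lit 8576517892) (nat_lit 223) (nat_lit 5) (nat_lit 231) (nat_lit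 5) (nat_lit 232) (nat_lit 5) (nat_lit 351) (nat_lit 314) (nat_lit 235)) (XT.lf (nat_lit 0) (nat_lit 6618077892) (nat_lit 684) (nat_lit 693850409) (nat_lit 76) (nat_lit 4687397481) (nat_lit 223) (nat_lit 5) (nat_lit 232) (nat_lit 5) (nat_lit 224) (nat_lit 5) (nat_lit 352) (nat_lit 314) (nat_lit 234))))) (XT.nd (nat_lit 156) (nat_lit 1672) (nat_lit 0) (XT.nd (nat_lit 78) (nat_lit 608) (nat_lit 0) (XT.lf (nat_lit 0) (nat_lit 9342967230) (nat_lit 608) (nat_lit 805821916) (nat_lit 684) (nat_lit 2054024745) (nat_lit 215) (nat_lit 5) (nat_lit 223) (nat_lit 5) (nat_lit 224) (nat_lit 5) (nat_lit 353) (nat_lit 314) (nat_lit 233)) (XT.lf (nat_lit 0) (nat_lit 1409163318) (nat_lit 608) (nat_lit 5129993979) (nat_lit 76) (nat_lit 5872005247) (nat_lit 207) (nat_lit 5) (nat_lit 215) (nat_lit 5) (nat_lit 208) (nat_lit 5) (nat_lit 354) (nat_lit 314) (nat_lit 232))) (XT.nd (nat_lit 78) (nat_lit 1064) (nat_lit 0) (XT.lf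 (nat_lit 0) (nat_lit 4971912772) (nat_lit 684) (nat_lit 7482314223) (nat_lit 76) (nat_lit 170808482) (nat_lit 199) (nat_lit 5) (nat_lit 208) (nat_lit 5) (nat_lit 200) (nat_lit 5) (nat_lit 355) (nat_lit 314) (nat_lit 231)) (XT.nd (nat_lit 78) (nat_lit 532) (nat_lit 0) (XT.lf (nat_lit 0) (nat_lit 2898795349) (nat_lit 532) (nat_lit 5804997064) (nat_lit 608) (nat_lit 4140303540) (nat_lit 192) (nat_lit 5) (nat_lit 199) (nat_lit 5) (nat_lit 200) (nat_lit 5) (nat_lit 356) (nat_lit 314) (nat_lit 230)) (XT.lf (nat_lit 0) (nat_lit 581155996) (nat_lit 532) (nat_lit 11993448614) (nat_lit 608) (nat_lit 494599945) (nat_lit 185) (nat_lit 5) (nat_lit 192) (nat_lit 5) (nat_lit 193) (nat_lit 5) (nat_lit 357) (nat_lit 314) (nat_lit 229))))))) (XT.nd (nat_lit 780) (nat_lit 3040) (nat_lit 0) (XT.nd (nat_lit 390) (nat_lit 1824) (nat_lit 0) (XT.nd (nat_lit 156) (nat_lit 1520) (nat_lit 0) (XT.nd (nat_lit 78) (nat_lit 532)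 (nat_lit 0) (XT.lf (nat_lit 0) (nat_lit 3290245539) (nat_lit 608) (nat_lit 1844760649) (nat_lit 76) (nat_lit 8164201267) (nat_lit 184) (nat_lit 5) (nat_lit 192) (nat_lit 5) (nat_lit 185) (nat_lit 5) (nat_lit 358) (nat_lit 314) (nat_lit 228)) (XT.lf (nat_lit 0) (nat_lit 7221383650) (nat_lit 608) (nat_lit 4356191037) (nat_lit 76) (nat_lit 1957695662) (nat_lit 177) (nat_lit 5) (nat_lit 185) (nat_lit 5) (nat_lit 178) (nat_lit 5) (nat_lit 359) (nat_lit 314) (nat_lit 227))) (XT.nd (nat_lit 78) (nat_lit 988) (nat_lit 0) (XT.lf (nat_lit 0) (nat_lit 6792620367) (nat_lit 532) (nat_lit 4536356507) (nat_lit 608) (nat_lit 2448282044) (nat_lit 170) (nat_lit 5) (nat_lit 177) (nat_lit 5) (nat_lit 178) (nat_lit 5) (nat_lit 360) (nat_lit 314) (nat_lit 226)) (XT.nd (nat_lit 78) (nat_lit 456) (nat_lit 0) (XT.lf (nat_lit 0) (nat_lit 1556861456) (nat_lit 532) (nat_lit 9730303433) (nat_lit 76) (nat_lit 2738283074) (nat_lit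 163) (nat_lit 5) (nat_lit 170) (nat_lit 5) (nat_lit 164) (nat_lit 5) (nat_lit 361) (nat_lit 314) (nat_lit 225)) (XT.lf (nat_lit 0) (nat_lit 1661162171) (nat_lit 456) (nat_lit 4045228556) (nat_lit 532) (nat_lit 8573231537) (nat_lit 157) (nat_lit 5) (nat_lit 163) (nat_lit 5) (nat_lit 164) (nat_lit 5) (nat_lit 362) (nat_lit 314) (nat_lit 224))))) (XT.nd (nat_lit 156) (nat_lit 1368) (nat_lit 0) (XT.nd (nat_lit 78) (nat_lit 456) (nat_lit 0) (XT.lf (nat_lit 0) (nat_lit 10038057596) (nat_lit 532) (nat_lit 1077407689) (nat_lit 76) (nat_lit 3424816222) (nat_lit 157) (nat_lit 5) (nat_lit 164) (nat_lit 5) (nat_lit 158) (nat_lit 5) (nat_lit 363) (nat_lit 314) (nat_lit 223)) (XT.lf (nat_lit 0) (nat_lit 10884543901) (nat_lit 456) (nat_lit 3682865803) (nat_lit 532) (nat_lit 240008493) (nat_lit 151) (nat_lit 5) (nat_lit 157) (nat_lit 5) (nat_lit 158) (nat_lit 5) (nat_lit 364) (nat_lit 314) (nat_lit 222))) (XT.nd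 (nat_lit 78) (nat_lit 836) (nat_lit 0) (XT.lf (nat_lit 0) (nat_lit 4152802938) (nat_lit 532) (nat_lit 6930566008) (nat_lit 76) (nat_lit 3997529752) (nat_lit 144) (nat_lit 5) (nat_lit 151) (nat_lit 5) (nat_lit 145) (nat_lit 5) (nat_lit 365) (nat_lit 314) (nat_lit 221)) (XT.nd (nat_lit 78) (nat_lit 456) (nat_lit 0) (XT.lf (nat_lit 0) (nat_lit 5279584099) (nat_lit 380) (nat_lit 3451185770) (nat_lit 456) (nat_lit 6630660811) (nat_lit 139) (nat_lit 5) (nat_lit 144) (nat_lit 5) (nat_lit 145) (nat_lit 5) (nat_lit 366) (nat_lit 314) (nat_lit 220)) (XT.lf (nat_lit 0) (nat_lit 2261709372) (nat_lit 456) (nat_lit 11246417223) (nat_lit 532) (nat_lit 2141022115) (nat_lit 133) (nat_lit 5) (nat_lit 139) (nat_lit 5) (nat_lit 140) (nat_lit 5) (nat_lit 367) (nat_lit 314) (nat_lit 219)))))) (XT.nd (nat_lit 390) (nat_lit 1368) (nat_lit 0) (XT.nd (nat_lit 156) (nat_lit 1216) (nat_lit 0) (XT.nd (nat_lit 78) (nat_lit 380)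 (nat_lit 0) (XT.lf (nat_lit 0) (nat_lit 2514422599) (nat_lit 532) (nat_lit 910417475) (nat_lit 76) (nat_lit 12519072593) (nat_lit 132) (nat_lit 5) (nat_lit 139) (nat_lit 5) (nat_lit 133) (nat_lit 5) (nat_lit 368) (nat_lit 314) (nat_lit 218)) (XT.lf (nat_lit 0) (nat_lit 7362079250) (nat_lit 456) (nat_lit 4231289647) (nat_lit 76) (nat_lit 4652245128) (nat_lit 127) (nat_lit 5) (nat_lit 133) (nat_lit 5) (nat_lit 128) (nat_lit 5) (nat_lit 369) (nat_lit 314) (nat_lit 217))) (XT.nd (nat_lit 78) (nat_lit 836) (nat_lit 0) (XT.lf (nat_lit 0) (nat_lit 8837112988) (nat_lit 380) (nat_lit 3577670679) (nat_lit 456) (nat_lit 4140400359) (nat_lit 122) (nat_lit 5) (nat_lit 127) (nat_lit 5) (nat_lit 128) (nat_lit 5) (nat_lit 370) (nat_lit 314) (nat_lit 216)) (XT.nd (nat_lit 78) (nat_lit 380) (nat_lit 0) (XT.lf (nat_lit 0) (nat_lit 804134380) (nat_lit 456) (nat_lit 11393286003) (nat_lit 76) (nat_lit 4675155930) (nat_lit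 116) (nat_lit 5) (nat_lit 122) (nat_lit 5) (nat_lit 117) (nat_lit 5) (nat_lit 371) (nat_lit 314) (nat_lit 215)) (XT.lf (nat_lit 0) (nat_lit 1914495921) (nat_lit 380) (nat_lit 3989506845) (nat_lit 456) (nat_lit 11293684460) (nat_lit 111) (nat_lit 5) (nat_lit 116) (nat_lit 5) (nat_lit 117) (nat_lit 5) (nat_lit 372) (nat_lit 314) (nat_lit 214))))) (XT.nd (nat_lit 156) (nat_lit 1064) (nat_lit 0) (XT.nd (nat_lit 78) (nat_lit 304) (nat_lit 0) (XT.lf (nat_lit 0) (nat_lit 11237931572) (nat_lit 456) (nat_lit 1821285718) (nat_lit 76) (nat_lit 4471721826) (nat_lit 111) (nat_lit 5) (nat_lit 117) (nat_lit 5) (nat_lit 112) (nat_lit 5) (nat_lit 373) (nat_lit 314) (nat_lit 213)) (XT.lf (nat_lit 0) (nat_lit 12139884080) (nat_lit 304) (nat_lit 4672601851) (nat_lit 380) (nat_lit 1060099156) (nat_lit 107) (nat_lit 5) (nat_lit 111) (nat_lit 5) (nat_lit 112) (nat_lit 5) (nat_lit 374) (nat_lit 314) (nat_lit 212))) (XT.nd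 (nat_lit 78) (nat_lit 608) (nat_lit 0) (XT.lf (nat_lit 0) (nat_lit 4341468015) (nat_lit 456) (nat_lit 9884138110) (nat_lit 76) (nat_lit 3996951183) (nat_lit 101) (nat_lit 5) (nat_lit 107) (nat_lit 5) (nat_lit 102) (nat_lit 5) (nat_lit 375) (nat_lit 314) (nat_lit 211)) (XT.nd (nat_lit 78) (nat_lit 304) (nat_lit 0) (XT.lf (nat_lit 0) (nat_lit 4309136704) (nat_lit 304) (nat_lit 5655781499) (nat_lit 380) (nat_lit 8616493592) (nat_lit 97) (nat_lit 5) (nat_lit 101) (nat_lit 5) (nat_lit 102) (nat_lit 5) (nat_lit 376) (nat_lit 314) (nat_lit 210)) (XT.lf (nat_lit 0) (nat_lit 57046672) (nat_lit 304) (nat_lit 15764622897) (nat_lit 380) (nat_lit 3128078179) (nat_lit 93) (nat_lit 5) (nat_lit 97) (nat_lit 5) (nat_lit 98) (nat_lit 5) (nat_lit 377) (nat_lit 314) (nat_lit 209))))))))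
noncomputable def xc79 : XT := (XT.nd (nat_lit 42978) (nat_lit 0) (nat_lit 13832) (XT.nd (nat_lit 42198) (nat_lit 0) (nat_lit 30552) (XT.nd (nat_lit 312) (nat_lit 304) (nat_lit 0) (XT.nd (nat_lit 156) (nat_lit 608) (nat_lit 0) (XT.nd (nat_lit 78) (nat_lit 304) (nat_lit 0) (XT.lf (nat_lit 0) (nat_lit 2603564979) (nat_lit 380) (nat_lit 4406656888) (nat_lit 76) (nat_lit 12316357627) (nat_lit 92) (nat_lit 5) (nat_lit 97) (nat_lit 5) (nat_lit 93) (nat_lit 5) (nat_lit 378) (nat_lit 314) (nat_lit 208)) (XT.lf (nat_lit 0) (nat_lit 8524445208) (nat_lit 380) (nat_lit 9130053685) (nat_lit 76) (nat_lit 2058615238) (nat_lit 88) (nat_lit 5) (nat_lit 93) (nat_lit 5) (nat_lit 89) (nat_lit 5) (nat_lit 379) (nat_lit 314) (nat_lit 207))) (XT.nd (nat_lit 78) (nat_lit 304) (nat_lit 0) (XT.lf (nat_lit 0) (nat_lit 5968379496) (nat_lit 304) (nat_lit 8747820742) (nat_lit 380) (nat_lit 5393186588) (nat_lit 84) (nat_lit 5)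 (nat_lit 88) (nat_lit 5) (nat_lit 89) (nat_lit 5) (nat_lit 380) (nat_lit 314) (nat_lit 206)) (XT.lf (nat_lit 0) (nat_lit 619056002) (nat_lit 304) (nat_lit 19415638437) (nat_lit 76) (nat_lit 481776051) (nat_lit 80) (nat_lit 5) (nat_lit 84) (nat_lit 5) (nat_lit 81) (nat_lit 5) (nat_lit 381) (nat_lit 314) (nat_lit 205)))) (XT.nd (nat_lit 41652) (nat_lit 0) (nat_lit 32984) (XT.nd (nat_lit 78) (nat_lit 304) (nat_lit 0) (XT.lf (nat_lit 0) (nat_lit 6871950329) (nat_lit 304) (nat_lit 4070052339) (nat_lit 76) (nat_lit 9990386334) (nat_lit 80) (nat_lit 5) (nat_lit 84) (nat_lit 5) (nat_lit 81) (nat_lit 5) (nat_lit 382) (nat_lit 314) (nat_lit 204)) (XT.lf (nat_lit 0) (nat_lit 11857933535) (nat_lit 304) (nat_lit 1510303025) (nat_lit 380) (nat_lit 7991438677) (nat_lit 76) (nat_lit 5) (nat_lit 80) (nat_lit 5) (nat_lit 81) (nat_lit 5) (nat_lit 383) (nat_lit 314) (nat_lit 203))) (XT.nd (nat_lit 78) (nat_lit 1216)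 (nat_lit 0) (XT.lf (nat_lit 0) (nat_lit 1179970074) (nat_lit 0) (nat_lit 1179970074) (nat_lit 1140) (nat_lit 1345947606) (nat_lit 526) (nat_lit 5) (nat_lit 526) (nat_lit 3) (nat_lit 541) (nat_lit 3) (nat_lit 315) (nat_lit 315) (nat_lit 270)) (XT.nd (nat_lit 78) (nat_lit 1216) (nat_lit 0) (XT.lf (nat_lit 76) (nat_lit 168202527) (nat_lit 0) (nat_lit 6790833955) (nat_lit 1216) (nat_lit 518950778) (nat_lit 527) (nat_lit 5) (nat_lit 526) (nat_lit 5) (nat_lit 542) (nat_lit 5) (nat_lit 316) (nat_lit 315) (nat_lit 269)) (XT.lf (nat_lit 0) (nat_lit 1661832346) (nat_lit 1216) (nat_lit 2004686234) (nat_lit 1292) (nat_lit 3880200721) (nat_lit 510) (nat_lit 5) (nat_lit 526) (nat_lit 5) (nat_lit 527) (nat_lit 5) (nat_lit 317) (nat_lit 315) (nat_lit 268)))))) (XT.nd (nat_lit 390) (nat_lit 1216) (nat_lit 0) (XT.nd (nat_lit 156) (nat_lit 1216) (nat_lit 0) (XT.nd (nat_lit 78) (nat_lit 0) (nat_lit 76) (XT.lf (nat_lit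 76) (nat_lit 3456764193) (nat_lit 0) (nat_lit 384141296) (nat_lit 1292) (nat_lit 3777800217) (nat_lit 511) (nat_lit 5) (nat_lit 510) (nat_lit 5) (nat_lit 527) (nat_lit 5) (nat_lit 318) (nat_lit 315) (nat_lit 267)) (XT.lf (nat_lit 76) (nat_lit 1369487502) (nat_lit 0) (nat_lit 4677675717) (nat_lit 1292) (nat_lit 1646509861) (nat_lit 512) (nat_lit 5) (nat_lit 511) (nat_lit 5) (nat_lit 528) (nat_lit 5) (nat_lit 319) (nat_lit 315) (nat_lit 266))) (XT.nd (nat_lit 78) (nat_lit 0) (nat_lit 76) (XT.lf (nat_lit 0) (nat_lit 493741304) (nat_lit 1292) (nat_lit 699018109) (nat_lit 1368) (nat_lit 6579069282) (nat_lit 494) (nat_lit 5) (nat_lit 511) (nat_lit 5) (nat_lit 512) (nat_lit 5) (nat_lit 320) (nat_lit 315) (nat_lit 265)) (XT.nd (nat_lit 78) (nat_lit 0) (nat_lit 0) (XT.lf (nat_lit 0) (nat_lit 2648721730) (nat_lit 1292) (nat_lit 2763084207) (nat_lit 1368) (nat_lit 2440900798) (nat_lit 495) (nat_lit 5) (nat_lit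 512) (nat_lit 5) (nat_lit 513) (nat_lit 5) (nat_lit 321) (nat_lit 315) (nat_lit 264)) (XT.lf (nat_lit 76) (nat_lit 3112519026) (nat_lit 0) (nat_lit 1714476739) (nat_lit 1368) (nat_lit 3109894165) (nat_lit 496) (nat_lit 5) (nat_lit 495) (nat_lit 5) (nat_lit 513) (nat_lit 5) (nat_lit 322) (nat_lit 315) (nat_lit 263))))) (XT.nd (nat_lit 156) (nat_lit 0) (nat_lit 76) (XT.nd (nat_lit 78) (nat_lit 1368) (nat_lit 0) (XT.lf (nat_lit 76) (nat_lit 1133332712) (nat_lit 0) (nat_lit 5904825053) (nat_lit 1368) (nat_lit 986140254) (nat_lit 497) (nat_lit 5) (nat_lit 496) (nat_lit 5) (nat_lit 514) (nat_lit 5) (nat_lit 323) (nat_lit 315) (nat_lit 262)) (XT.lf (nat_lit 0) (nat_lit 1158974856) (nat_lit 1368) (nat_lit 844384472) (nat_lit 1444) (nat_lit 6111392720) (nat_lit 478) (nat_lit 5) (nat_lit 496) (nat_lit 5) (nat_lit 497) (nat_lit 5) (nat_lit 324) (nat_lit 315) (nat_lit 261))) (XT.nd (nat_lit 78) (nat_lit 0) (nat_lit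 0) (XT.lf (nat_lit 0) (nat_lit 3334804962) (nat_lit 1368) (nat_lit 2819834077) (nat_lit 1444) (nat_lit 2053601488) (nat_lit 479) (nat_lit 5) (nat_lit 497) (nat_lit 5) (nat_lit 498) (nat_lit 5) (nat_lit 325) (nat_lit 315) (nat_lit 260)) (XT.nd (nat_lit 78) (nat_lit 0) (nat_lit 76) (XT.lf (nat_lit 76) (nat_lit 3501350537) (nat_lit 0) (nat_lit 2049407176) (nat_lit 1444) (nat_lit 2754324026) (nat_lit 480) (nat_lit 5) (nat_lit 479) (nat_lit 5) (nat_lit 498) (nat_lit 5) (nat_lit 326) (nat_lit 315) (nat_lit 259)) (XT.lf (nat_lit 76) (nat_lit 1605930541) (nat_lit 0) (nat_lit 6205808664) (nat_lit 1444) (nat_lit 593561701) (nat_lit 481) (nat_lit 5) (nat_lit 480) (nat_lit 5) (nat_lit 499) (nat_lit 5) (nat_lit 327) (nat_lit 315) (nat_lit 258))))))) (XT.nd (nat_lit 780) (nat_lit 6536) (nat_lit 0) (XT.nd (nat_lit 390) (nat_lit 6004) (nat_lit 0) (XT.nd (nat_lit 156) (nat_lit 2888) (nat_lit 0) (XT.nd (nat_lit 78)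 (nat_lit 0) (nat_lit 76) (XT.lf (nat_lit 0) (nat_lit 1592968951) (nat_lit 1444) (nat_lit 306065203) (nat_lit 1520) (nat_lit 6609675190) (nat_lit 461) (nat_lit 5) (nat_lit 480) (nat_lit 5) (nat_lit 481) (nat_lit 5) (nat_lit 328) (nat_lit 315) (nat_lit 257)) (XT.lf (nat_lit 0) (nat_lit 3833360726) (nat_lit 1444) (nat_lit 2216183148) (nat_lit 1520) (nat_lit 2565711510) (nat_lit 462) (nat_lit 5) (nat_lit 481) (nat_lit 5) (nat_lit 482) (nat_lit 5) (nat_lit 329) (nat_lit 315) (nat_lit 256))) (XT.nd (nat_lit 78) (nat_lit 2964) (nat_lit 0) (XT.lf (nat_lit 76) (nat_lit 4585482256) (nat_lit 0) (nat_lit 1539407162) (nat_lit 1520) (nat_lit 2600469110) (nat_lit 463) (nat_lit 5) (nat_lit 462) (nat_lit 5) (nat_lit 482) (nat_lit 5) (nat_lit 330) (nat_lit 315) (nat_lit 255)) (XT.nd (nat_lit 78) (nat_lit 1596) (nat_lit 0) (XT.lf (nat_lit 0) (nat_lit 2751799238) (nat_lit 1444) (nat_lit 5727436086) (nat_lit 1520) (nat_lit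 359686100) (nat_lit 444) (nat_lit 5) (nat_lit 463) (nat_lit 5) (nat_lit 464) (nat_lit 5) (nat_lit 331) (nat_lit 315) (nat_lit 254)) (XT.lf (nat_lit 0) (nat_lit 893005902) (nat_lit 1520) (nat_lit 1016016501) (nat_lit 1596) (nat_lit 7046926966) (nat_lit 423) (nat_lit 5) (nat_lit 443) (nat_lit 5) (nat_lit 444) (nat_lit 5) (nat_lit 332) (nat_lit 315) (nat_lit 253))))) (XT.nd (nat_lit 156) (nat_lit 4408) (nat_lit 0) (XT.nd (nat_lit 78) (nat_lit 1596) (nat_lit 0) (XT.lf (nat_lit 0) (nat_lit 4250745863) (nat_lit 1596) (nat_lit 985002150) (nat_lit 76) (nat_lit 3840530976) (nat_lit 423) (nat_lit 5) (nat_lit 444) (nat_lit 5) (nat_lit 424) (nat_lit 5) (nat_lit 333) (nat_lit 315) (nat_lit 252)) (XT.lf (nat_lit 0) (nat_lit 6335349736) (nat_lit 1596) (nat_lit 320328688) (nat_lit 1672) (nat_lit 2544715094) (nat_lit 402) (nat_lit 5) (nat_lit 423) (nat_lit 5) (nat_lit 424) (nat_lit 5) (nat_lit 334) (nat_lit 315) (nat_lit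 251))) (XT.nd (nat_lit 78) (nat_lit 2736) (nat_lit 0) (XT.lf (nat_lit 0) (nat_lit 4542808681) (nat_lit 1672) (nat_lit 4603344484) (nat_lit 1748) (nat_lit 181843608) (nat_lit 380) (nat_lit 5) (nat_lit 402) (nat_lit 5) (nat_lit 403) (nat_lit 5) (nat_lit 335) (nat_lit 315) (nat_lit 250)) (XT.nd (nat_lit 78) (nat_lit 912) (nat_lit 0) (XT.lf (nat_lit 0) (nat_lit 2212385357) (nat_lit 1824) (nat_lit 6737468712) (nat_lit 76) (nat_lit 509513102) (nat_lit 356) (nat_lit 5) (nat_lit 380) (nat_lit 5) (nat_lit 357) (nat_lit 5) (nat_lit 336) (nat_lit 315) (nat_lit 249)) (XT.lf (nat_lit 0) (nat_lit 857753319) (nat_lit 912) (nat_lit 3835774190) (nat_lit 988) (nat_lit 4900806652) (nat_lit 344) (nat_lit 5) (nat_lit 356) (nat_lit 5) (nat_lit 357) (nat_lit 5) (nat_lit 337) (nat_lit 315) (nat_lit 248)))))) (XT.nd (nat_lit 390) (nat_lit 3116) (nat_lit 0) (XT.nd (nat_lit 156) (nat_lit 2432) (nat_lit 0) (XT.nd (nat_lit 78)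 (nat_lit 988) (nat_lit 0) (XT.lf (nat_lit 0) (nat_lit 7254130716) (nat_lit 988) (nat_lit 1016227834) (nat_lit 76) (nat_lit 1462920838) (nat_lit 344) (nat_lit 5) (nat_lit 357) (nat_lit 5) (nat_lit 345) (nat_lit 5) (nat_lit 338) (nat_lit 315) (nat_lit 247)) (XT.lf (nat_lit 0) (nat_lit 37124936) (nat_lit 988) (nat_lit 2920791241) (nat_lit 76) (nat_lit 6918059864) (nat_lit 331) (nat_lit 5) (nat_lit 344) (nat_lit 5) (nat_lit 332) (nat_lit 5) (nat_lit 339) (nat_lit 315) (nat_lit 246))) (XT.nd (nat_lit 78) (nat_lit 1596) (nat_lit 0) (XT.lf (nat_lit 0) (nat_lit 2604578924) (nat_lit 912) (nat_lit 4877395320) (nat_lit 76) (nat_lit 2540491629) (nat_lit 320) (nat_lit 5) (nat_lit 332) (nat_lit 5) (nat_lit 321) (nat_lit 5) (nat_lit 340) (nat_lit 315) (nat_lit 245)) (XT.nd (nat_lit 78) (nat_lit 760) (nat_lit 0) (XT.lf (nat_lit 0) (nat_lit 3297239729) (nat_lit 836) (nat_lit 1966066196) (nat_lit 912) (nat_lit 4909786190)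 (nat_lit 309) (nat_lit 5) (nat_lit 320) (nat_lit 5) (nat_lit 321) (nat_lit 5) (nat_lit 341) (nat_lit 315) (nat_lit 244)) (XT.lf (nat_lit 0) (nat_lit 1404150287) (nat_lit 760) (nat_lit 6618364716) (nat_lit 836) (nat_lit 2305333662) (nat_lit 299) (nat_lit 5) (nat_lit 309) (nat_lit 5) (nat_lit 310) (nat_lit 5) (nat_lit 342) (nat_lit 315) (nat_lit 243))))) (XT.nd (nat_lit 156) (nat_lit 2280) (nat_lit 0) (XT.nd (nat_lit 78) (nat_lit 760) (nat_lit 0) (XT.lf (nat_lit 0) (nat_lit 387282992) (nat_lit 836) (nat_lit 521649320) (nat_lit 76) (nat_lit 9577991724) (nat_lit 298) (nat_lit 5) (nat_lit 309) (nat_lit 5) (nat_lit 299) (nat_lit 5) (nat_lit 343) (nat_lit 315) (nat_lit 242)) (XT.lf (nat_lit 0) (nat_lit 3171612412) (nat_lit 836) (nat_lit 2503462372) (nat_lit 76) (nat_lit 4974570984) (nat_lit 288) (nat_lit 5) (nat_lit 299) (nat_lit 5) (nat_lit 289) (nat_lit 5) (nat_lit 344) (nat_lit 315) (nat_lit 241))) (XT.nd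 (nat_lit 78) (nat_lit 1520) (nat_lit 0) (XT.lf (nat_lit 0) (nat_lit 6048818140) (nat_lit 836) (nat_lit 4523151354) (nat_lit 76) (nat_lit 245115989) (nat_lit 278) (nat_lit 5) (nat_lit 289) (nat_lit 5) (nat_lit 279) (nat_lit 5) (nat_lit 345) (nat_lit 315) (nat_lit 240)) (XT.nd (nat_lit 78) (nat_lit 760) (nat_lit 0) (XT.lf (nat_lit 0) (nat_lit 4374605748) (nat_lit 760) (nat_lit 4679331409) (nat_lit 836) (nat_lit 1934801875) (nat_lit 268) (nat_lit 5) (nat_lit 278) (nat_lit 5) (nat_lit 279) (nat_lit 5) (nat_lit 346) (nat_lit 315) (nat_lit 239)) (XT.lf (nat_lit 0) (nat_lit 985466074) (nat_lit 760) (nat_lit 8758151291) (nat_lit 76) (nat_lit 1421524595) (nat_lit 258) (nat_lit 5) (nat_lit 268) (nat_lit 5) (nat_lit 259) (nat_lit 5) (nat_lit 347) (nat_lit 315) (nat_lit 238))))))))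
noncomputable def xc80 : XT := (XT.nd (nat_lit 1482) (nat_lit 4864) (nat_lit 0) (XT.nd (nat_lit 702) (nat_lit 4180) (nat_lit 0) (XT.nd (nat_lit 312) (nat_lit 2432) (nat_lit 0) (XT.nd (nat_lit 156) (nat_lit 1368) (nat_lit 0) (XT.nd (nat_lit 78) (nat_lit 0) (nat_lit 0) (XT.lf (nat_lit 0) (nat_lit 358589948) (nat_lit 684) (nat_lit 3647045602) (nat_lit 760) (nat_lit 7340194918) (nat_lit 249) (nat_lit 5) (nat_lit 258) (nat_lit 5) (nat_lit 259) (nat_lit 5) (nat_lit 348) (nat_lit 315) (nat_lit 237)) (XT.lf (nat_lit 0) (nat_lit 7153791366) (nat_lit 760) (nat_lit 1724497125) (nat_lit 76) (nat_lit 2652923777) (nat_lit 249) (nat_lit 5) (nat_lit 259) (nat_lit 5) (nat_lit 250) (nat_lit 5) (nat_lit 349) (nat_lit 315) (nat_lit 236))) (XT.nd (nat_lit 78) (nat_lit 760) (nat_lit 0) (XT.lf (nat_lit 0) (nat_lit 7851040597) (nat_lit 608) (nat_lit 2582412680) (nat_lit 684) (nat_lit 1287980687) (nat_lit 241) (nat_lit 5)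 (nat_lit 249) (nat_lit 5) (nat_lit 250) (nat_lit 5) (nat_lit 350) (nat_lit 315) (nat_lit 235)) (XT.lf (nat_lit 0) (nat_lit 1906965306) (nat_lit 760) (nat_lit 6101531494) (nat_lit 76) (nat_lit 3907884984) (nat_lit 231) (nat_lit 5) (nat_lit 241) (nat_lit 5) (nat_lit 232) (nat_lit 5) (nat_lit 351) (nat_lit 315) (nat_lit 234)))) (XT.nd (nat_lit 156) (nat_lit 1216) (nat_lit 0) (XT.nd (nat_lit 78) (nat_lit 608) (nat_lit 0) (XT.lf (nat_lit 0) (nat_lit 3706033821) (nat_lit 608) (nat_lit 1505110267) (nat_lit 684) (nat_lit 6905264196) (nat_lit 223) (nat_lit 5) (nat_lit 231) (nat_lit 5) (nat_lit 232) (nat_lit 5) (nat_lit 352) (nat_lit 315) (nat_lit 233)) (XT.lf (nat_lit 0) (nat_lit 1512091779) (nat_lit 608) (nat_lit 7151318659) (nat_lit 684) (nat_lit 3658063548) (nat_lit 215) (nat_lit 5) (nat_lit 223) (nat_lit 5) (nat_lit 224) (nat_lit 5) (nat_lit 353) (nat_lit 315) (nat_lit 232))) (XT.nd (nat_lit 78) (nat_lit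 1216) (nat_lit 0) (XT.lf (nat_lit 0) (nat_lit 11794377834) (nat_lit 608) (nat_lit 456439995) (nat_lit 684) (nat_lit 281259502) (nat_lit 215) (nat_lit 5) (nat_lit 223) (nat_lit 5) (nat_lit 224) (nat_lit 5) (nat_lit 354) (nat_lit 315) (nat_lit 231)) (XT.nd (nat_lit 78) (nat_lit 608) (nat_lit 0) (XT.lf (nat_lit 0) (nat_lit 3225588893) (nat_lit 608) (nat_lit 3089753191) (nat_lit 76) (nat_lit 6431844534) (nat_lit 207) (nat_lit 5) (nat_lit 215) (nat_lit 5) (nat_lit 208) (nat_lit 5) (nat_lit 355) (nat_lit 315) (nat_lit 230)) (XT.lf (nat_lit 0) (nat_lit 6860301477) (nat_lit 684) (nat_lit 5515447109) (nat_lit 76) (nat_lit 592449650) (nat_lit 199) (nat_lit 5) (nat_lit 208) (nat_lit 5) (nat_lit 200) (nat_lit 5) (nat_lit 356) (nat_lit 315) (nat_lit 229)))))) (XT.nd (nat_lit 390) (nat_lit 1976) (nat_lit 0) (XT.nd (nat_lit 156) (nat_lit 1064) (nat_lit 0) (XT.nd (nat_lit 78) (nat_lit 608) (nat_lit 0) (XT.lf (nat_lit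 0) (nat_lit 5141543918) (nat_lit 532) (nat_lit 5525933150) (nat_lit 608) (nat_lit 2527110075) (nat_lit 192) (nat_lit 5) (nat_lit 199) (nat_lit 5) (nat_lit 200) (nat_lit 5) (nat_lit 357) (nat_lit 315) (nat_lit 228)) (XT.lf (nat_lit 0) (nat_lit 1178861078) (nat_lit 608) (nat_lit 10684110480) (nat_lit 76) (nat_lit 1564000242) (nat_lit 184) (nat_lit 5) (nat_lit 192) (nat_lit 5) (nat_lit 185) (nat_lit 5) (nat_lit 358) (nat_lit 315) (nat_lit 227))) (XT.nd (nat_lit 78) (nat_lit 532) (nat_lit 0) (XT.lf (nat_lit 0) (nat_lit 214625881) (nat_lit 532) (nat_lit 4808359015) (nat_lit 608) (nat_lit 8641797084) (nat_lit 177) (nat_lit 5) (nat_lit 184) (nat_lit 5) (nat_lit 185) (nat_lit 5) (nat_lit 359) (nat_lit 315) (nat_lit 226)) (XT.nd (nat_lit 78) (nat_lit 532) (nat_lit 0) (XT.lf (nat_lit 0) (nat_lit 9039711047) (nat_lit 608) (nat_lit 2379664491) (nat_lit 76) (nat_lit 2489219147) (nat_lit 177) (nat_lit 5) (nat_lit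 185) (nat_lit 5) (nat_lit 178) (nat_lit 5) (nat_lit 360) (nat_lit 315) (nat_lit 225)) (XT.lf (nat_lit 0) (nat_lit 9069424239) (nat_lit 532) (nat_lit 4167916239) (nat_lit 608) (nat_lit 921186655) (nat_lit 170) (nat_lit 5) (nat_lit 177) (nat_lit 5) (nat_lit 178) (nat_lit 5) (nat_lit 361) (nat_lit 315) (nat_lit 224))))) (XT.nd (nat_lit 156) (nat_lit 988) (nat_lit 0) (XT.nd (nat_lit 78) (nat_lit 456) (nat_lit 0) (XT.lf (nat_lit 0) (nat_lit 3153828535) (nat_lit 532) (nat_lit 7933263576) (nat_lit 76) (nat_lit 3327467134) (nat_lit 163) (nat_lit 5) (nat_lit 170) (nat_lit 5) (nat_lit 164) (nat_lit 5) (nat_lit 362) (nat_lit 315) (nat_lit 223)) (XT.lf (nat_lit 0) (nat_lit 3766055281) (nat_lit 456) (nat_lit 3629977965) (nat_lit 532) (nat_lit 7280980581) (nat_lit 157) (nat_lit 5) (nat_lit 163) (nat_lit 5) (nat_lit 164) (nat_lit 5) (nat_lit 363) (nat_lit 315) (nat_lit 222))) (XT.nd (nat_lit 78) (nat_lit 532) (nat_lit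 0) (XT.lf (nat_lit 0) (nat_lit 924306446) (nat_lit 456) (nat_lit 10898500698) (nat_lit 532) (nat_lit 3123400856) (nat_lit 151) (nat_lit 5) (nat_lit 157) (nat_lit 5) (nat_lit 158) (nat_lit 5) (nat_lit 364) (nat_lit 315) (nat_lit 221)) (XT.nd (nat_lit 78) (nat_lit 456) (nat_lit 0) (XT.lf (nat_lit 0) (nat_lit 1213687847) (nat_lit 532) (nat_lit 2029892826) (nat_lit 76) (nat_lit 11978358657) (nat_lit 150) (nat_lit 5) (nat_lit 157) (nat_lit 5) (nat_lit 151) (nat_lit 5) (nat_lit 365) (nat_lit 315) (nat_lit 220)) (XT.lf (nat_lit 0) (nat_lit 5708978839) (nat_lit 532) (nat_lit 5136451663) (nat_lit 76) (nat_lit 4658699800) (nat_lit 144) (nat_lit 5) (nat_lit 151) (nat_lit 5) (nat_lit 145) (nat_lit 5) (nat_lit 366) (nat_lit 315) (nat_lit 219))))))) (XT.nd (nat_lit 702) (nat_lit 1976) (nat_lit 0) (XT.nd (nat_lit 312) (nat_lit 1596) (nat_lit 0) (XT.nd (nat_lit 156) (nat_lit 456) (nat_lit 0) (XT.nd (nat_lit 78) (nat_lit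 456) (nat_lit 0) (XT.lf (nat_lit 0) (nat_lit 7407522368) (nat_lit 380) (nat_lit 2987853192) (nat_lit 456) (nat_lit 5398297282) (nat_lit 139) (nat_lit 5) (nat_lit 144) (nat_lit 5) (nat_lit 145) (nat_lit 5) (nat_lit 367) (nat_lit 315) (nat_lit 218)) (XT.lf (nat_lit 0) (nat_lit 4291673752) (nat_lit 456) (nat_lit 10999837027) (nat_lit 532) (nat_lit 799018412) (nat_lit 133) (nat_lit 5) (nat_lit 139) (nat_lit 5) (nat_lit 140) (nat_lit 5) (nat_lit 368) (nat_lit 315) (nat_lit 217))) (XT.nd (nat_lit 78) (nat_lit 0) (nat_lit 0) (XT.lf (nat_lit 0) (nat_lit 998744315) (nat_lit 380) (nat_lit 2944965714) (nat_lit 456) (nat_lit 12450937333) (nat_lit 127) (nat_lit 5) (nat_lit 132) (nat_lit 5) (nat_lit 133) (nat_lit 5) (nat_lit 369) (nat_lit 315) (nat_lit 216)) (XT.lf (nat_lit 0) (nat_lit 8907065548) (nat_lit 456) (nat_lit 2442870361) (nat_lit 76) (nat_lit 5356073195) (nat_lit 127) (nat_lit 5) (nat_lit 133) (nat_lit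 5) (nat_lit 128) (nat_lit 5) (nat_lit 370) (nat_lit 315) (nat_lit 215)))) (XT.nd (nat_lit 156) (nat_lit 760) (nat_lit 0) (XT.nd (nat_lit 78) (nat_lit 456) (nat_lit 0) (XT.lf (nat_lit 0) (nat_lit 10986509945) (nat_lit 380) (nat_lit 3098508454) (nat_lit 456) (nat_lit 2940388756) (nat_lit 122) (nat_lit 5) (nat_lit 127) (nat_lit 5) (nat_lit 128) (nat_lit 5) (nat_lit 371) (nat_lit 315) (nat_lit 214)) (XT.lf (nat_lit 0) (nat_lit 2113033002) (nat_lit 456) (nat_lit 9841586248) (nat_lit 76) (nat_lit 5397985246) (nat_lit 116) (nat_lit 5) (nat_lit 122) (nat_lit 5) (nat_lit 117) (nat_lit 5) (nat_lit 372) (nat_lit 315) (nat_lit 213))) (XT.nd (nat_lit 78) (nat_lit 380) (nat_lit 0) (XT.lf (nat_lit 0) (nat_lit 3834709373) (nat_lit 380) (nat_lit 3505861842) (nat_lit 456) (nat_lit 10347417260) (nat_lit 111) (nat_lit 5) (nat_lit 116) (nat_lit 5) (nat_lit 117) (nat_lit 5) (nat_lit 373) (nat_lit 315) (nat_lit 212)) (XT.nd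 (nat_lit 78) (nat_lit 380) (nat_lit 0) (XT.lf (nat_lit 0) (nat_lit 12801638049) (nat_lit 456) (nat_lit 46321645) (nat_lit 76) (nat_lit 5183948651) (nat_lit 111) (nat_lit 5) (nat_lit 117) (nat_lit 5) (nat_lit 112) (nat_lit 5) (nat_lit 374) (nat_lit 315) (nat_lit 211)) (XT.lf (nat_lit 0) (nat_lit 133321313) (nat_lit 380) (nat_lit 4081173926) (nat_lit 76) (nat_lit 14169784148) (nat_lit 106) (nat_lit 5) (nat_lit 111) (nat_lit 5) (nat_lit 107) (nat_lit 5) (nat_lit 375) (nat_lit 315) (nat_lit 210)))))) (XT.nd (nat_lit 390) (nat_lit 608) (nat_lit 0) (XT.nd (nat_lit 156) (nat_lit 684) (nat_lit 0) (XT.nd (nat_lit 78) (nat_lit 304) (nat_lit 0) (XT.lf (nat_lit 0) (nat_lit 5662841789) (nat_lit 456) (nat_lit 8373466621) (nat_lit 76) (nat_lit 4708707894) (nat_lit 101) (nat_lit 5) (nat_lit 107) (nat_lit 5) (nat_lit 102) (nat_lit 5) (nat_lit 376) (nat_lit 315) (nat_lit 209)) (XT.lf (nat_lit 0) (nat_lit 6216286834)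 (nat_lit 304) (nat_lit 5215558699) (nat_lit 380) (nat_lit 7683265400) (nat_lit 97) (nat_lit 5) (nat_lit 101) (nat_lit 5) (nat_lit 102) (nat_lit 5) (nat_lit 377) (nat_lit 315) (nat_lit 208))) (XT.nd (nat_lit 78) (nat_lit 380) (nat_lit 0) (XT.lf (nat_lit 0) (nat_lit 1827252577) (nat_lit 304) (nat_lit 15618354790) (nat_lit 380) (nat_lit 2049274614) (nat_lit 93) (nat_lit 5) (nat_lit 97) (nat_lit 5) (nat_lit 98) (nat_lit 5) (nat_lit 378) (nat_lit 315) (nat_lit 207)) (XT.nd (nat_lit 78) (nat_lit 304) (nat_lit 0) (XT.lf (nat_lit 0) (nat_lit 3805231588) (nat_lit 380) (nat_lit 2806585614) (nat_lit 76) (nat_lit 13271733976) (nat_lit 92) (nat_lit 5) (nat_lit 97) (nat_lit 5) (nat_lit 93) (nat_lit 5) (nat_lit 379) (nat_lit 315) (nat_lit 206)) (XT.lf (nat_lit 0) (nat_lit 9885988088) (nat_lit 380) (nat_lit 7681316510) (nat_lit 76) (nat_lit 2714742585) (nat_lit 88) (nat_lit 5) (nat_lit 93) (nat_lit 5) (nat_lit 89)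 (nat_lit 5) (nat_lit 380) (nat_lit 315) (nat_lit 205))))) (XT.nd (nat_lit 41808) (nat_lit 0) (nat_lit 32604) (XT.nd (nat_lit 78) (nat_lit 304) (nat_lit 0) (XT.lf (nat_lit 0) (nat_lit 7842121899) (nat_lit 304) (nat_lit 8400168884) (nat_lit 380) (nat_lit 4448351400) (nat_lit 84) (nat_lit 5) (nat_lit 88) (nat_lit 5) (nat_lit 89) (nat_lit 5) (nat_lit 381) (nat_lit 315) (nat_lit 204)) (XT.lf (nat_lit 0) (nat_lit 1712819137) (nat_lit 304) (nat_lit 18298532052) (nat_lit 76) (nat_lit 1098791523) (nat_lit 80) (nat_lit 5) (nat_lit 84) (nat_lit 5) (nat_lit 81) (nat_lit 5) (nat_lit 382) (nat_lit 315) (nat_lit 203))) (XT.nd (nat_lit 78) (nat_lit 0) (nat_lit 0) (XT.lf (nat_lit 0) (nat_lit 789565313) (nat_lit 1292) (nat_lit 1491486783) (nat_lit 1292) (nat_lit 1491486783) (nat_lit 509) (nat_lit 3) (nat_lit 526) (nat_lit 3) (nat_lit 526) (nat_lit 5) (nat_lit 316) (nat_lit 316) (nat_lit 268)) (XT.nd (nat_lit 78) (nat_lit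 0) (nat_lit 76) (XT.lf (nat_lit 76) (nat_lit 2348198066) (nat_lit 0) (nat_lit 1323454014) (nat_lit 1292) (nat_lit 3943748682) (nat_lit 510) (nat_lit 5) (nat_lit 509) (nat_lit 3) (nat_lit 526) (nat_lit 5) (nat_lit 317) (nat_lit 316) (nat_lit 267)) (XT.lf (nat_lit 76) (nat_lit 137951236) (nat_lit 0) (nat_lit 5643144687) (nat_lit 1292) (nat_lit 1907712217) (nat_lit 511) (nat_lit 5) (nat_lit 510) (nat_lit 5) (nat_lit 527) (nat_lit 5) (nat_lit 318) (nat_lit 316) (nat_lit 266))))))))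
noncomputable def xc81 : XT := (XT.nd (nat_lit 1482) (nat_lit 11932) (nat_lit 0) (XT.nd (nat_lit 702) (nat_lit 7904) (nat_lit 0) (XT.nd (nat_lit 312) (nat_lit 2508) (nat_lit 0) (XT.nd (nat_lit 156) (nat_lit 0) (nat_lit 76) (XT.nd (nat_lit 78) (nat_lit 0) (nat_lit 76) (XT.lf (nat_lit 0) (nat_lit 153023840) (nat_lit 1292) (nat_lit 2040424993) (nat_lit 1368) (nat_lit 5571677106) (nat_lit 493) (nat_lit 5) (nat_lit 510) (nat_lit 5) (nat_lit 511) (nat_lit 5) (nat_lit 319) (nat_lit 316) (nat_lit 265)) (XT.lf (nat_lit 0) (nat_lit 2206268392) (nat_lit 1292) (nat_lit 4226225329) (nat_lit 1368) (nat_lit 1411908509) (nat_lit 494) (nat_lit 5) (nat_lit 511) (nat_lit 5) (nat_lit 512) (nat_lit 5) (nat_lit 320) (nat_lit 316) (nat_lit 264))) (XT.nd (nat_lit 78) (nat_lit 0) (nat_lit 76) (XT.lf (nat_lit 76) (nat_lit 1510181607) (nat_lit 0) (nat_lit 2775100773) (nat_lit 1368) (nat_lit 3641542685) (nat_lit 495) (nat_lit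 5) (nat_lit 494) (nat_lit 5) (nat_lit 512) (nat_lit 5) (nat_lit 321) (nat_lit 316) (nat_lit 263)) (XT.lf (nat_lit 0) (nat_lit 6389790848) (nat_lit 1292) (nat_lit 585780935) (nat_lit 1368) (nat_lit 1036936515) (nat_lit 495) (nat_lit 5) (nat_lit 512) (nat_lit 5) (nat_lit 513) (nat_lit 5) (nat_lit 322) (nat_lit 316) (nat_lit 262)))) (XT.nd (nat_lit 156) (nat_lit 1292) (nat_lit 0) (XT.nd (nat_lit 78) (nat_lit 0) (nat_lit 76) (XT.lf (nat_lit 0) (nat_lit 434293984) (nat_lit 1368) (nat_lit 2674571224) (nat_lit 1444) (nat_lit 4992213078) (nat_lit 477) (nat_lit 5) (nat_lit 495) (nat_lit 5) (nat_lit 496) (nat_lit 5) (nat_lit 323) (nat_lit 316) (nat_lit 261)) (XT.lf (nat_lit 0) (nat_lit 2494636527) (nat_lit 1368) (nat_lit 4773559408) (nat_lit 1444) (nat_lit 924667959) (nat_lit 478) (nat_lit 5) (nat_lit 496) (nat_lit 5) (nat_lit 497) (nat_lit 5) (nat_lit 324) (nat_lit 316) (nat_lit 260))) (XT.nd (nat_lit 78)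 (nat_lit 1368) (nat_lit 0) (XT.lf (nat_lit 76) (nat_lit 1398666693) (nat_lit 0) (nat_lit 3199342539) (nat_lit 1444) (nat_lit 3689814473) (nat_lit 479) (nat_lit 5) (nat_lit 478) (nat_lit 5) (nat_lit 497) (nat_lit 5) (nat_lit 325) (nat_lit 316) (nat_lit 259)) (XT.nd (nat_lit 78) (nat_lit 1444) (nat_lit 0) (XT.lf (nat_lit 0) (nat_lit 6738392739) (nat_lit 1368) (nat_lit 615338693) (nat_lit 1444) (nat_lit 1032466407) (nat_lit 479) (nat_lit 5) (nat_lit 497) (nat_lit 5) (nat_lit 498) (nat_lit 5) (nat_lit 326) (nat_lit 316) (nat_lit 258)) (XT.lf (nat_lit 0) (nat_lit 445662021) (nat_lit 1444) (nat_lit 2632229190) (nat_lit 1520) (nat_lit 5409691039) (nat_lit 460) (nat_lit 5) (nat_lit 479) (nat_lit 5) (nat_lit 480) (nat_lit 5) (nat_lit 327) (nat_lit 316) (nat_lit 257)))))) (XT.nd (nat_lit 390) (nat_lit 6536) (nat_lit 0) (XT.nd (nat_lit 156) (nat_lit 1444) (nat_lit 0) (XT.nd (nat_lit 78) (nat_lit 0) (nat_lit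 0) (XT.lf (nat_lit 0) (nat_lit 2556324787) (nat_lit 1444) (nat_lit 4668215067) (nat_lit 1520) (nat_lit 1367755327) (nat_lit 461) (nat_lit 5) (nat_lit 480) (nat_lit 5) (nat_lit 481) (nat_lit 5) (nat_lit 328) (nat_lit 316) (nat_lit 256)) (XT.lf (nat_lit 76) (nat_lit 1973909954) (nat_lit 0) (nat_lit 2747309755) (nat_lit 1520) (nat_lit 3979150771) (nat_lit 462) (nat_lit 5) (nat_lit 461) (nat_lit 5) (nat_lit 481) (nat_lit 5) (nat_lit 329) (nat_lit 316) (nat_lit 255))) (XT.nd (nat_lit 78) (nat_lit 1520) (nat_lit 0) (XT.lf (nat_lit 76) (nat_lit 10785575) (nat_lit 0) (nat_lit 6925424394) (nat_lit 1520) (nat_lit 1875813186) (nat_lit 463) (nat_lit 5) (nat_lit 462) (nat_lit 5) (nat_lit 482) (nat_lit 5) (nat_lit 330) (nat_lit 316) (nat_lit 254)) (XT.nd (nat_lit 78) (nat_lit 0) (nat_lit 76) (XT.lf (nat_lit 0) (nat_lit 293208789) (nat_lit 1520) (nat_lit 1949710376) (nat_lit 1596) (nat_lit 6683976838) (nat_lit 442)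 (nat_lit 5) (nat_lit 462) (nat_lit 5) (nat_lit 463) (nat_lit 5) (nat_lit 331) (nat_lit 316) (nat_lit 253)) (XT.lf (nat_lit 0) (nat_lit 2496151374) (nat_lit 1520) (nat_lit 3944589560) (nat_lit 76) (nat_lit 2604374616) (nat_lit 443) (nat_lit 5) (nat_lit 463) (nat_lit 5) (nat_lit 444) (nat_lit 5) (nat_lit 332) (nat_lit 316) (nat_lit 252))))) (XT.nd (nat_lit 156) (nat_lit 3496) (nat_lit 0) (XT.nd (nat_lit 78) (nat_lit 1596) (nat_lit 0) (XT.lf (nat_lit 0) (nat_lit 3204853279) (nat_lit 1520) (nat_lit 1554692592) (nat_lit 1596) (nat_lit 4407482710) (nat_lit 423) (nat_lit 5) (nat_lit 443) (nat_lit 5) (nat_lit 444) (nat_lit 5) (nat_lit 333) (nat_lit 316) (nat_lit 251)) (XT.lf (nat_lit 0) (nat_lit 1279860582) (nat_lit 1596) (nat_lit 5815409838) (nat_lit 1672) (nat_lit 2197273192) (nat_lit 402) (nat_lit 5) (nat_lit 423) (nat_lit 5) (nat_lit 424) (nat_lit 5) (nat_lit 334) (nat_lit 316) (nat_lit 250))) (XT.nd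 (nat_lit 78) (nat_lit 3420) (nat_lit 0) (XT.lf (nat_lit 0) (nat_lit 76791005) (nat_lit 1672) (nat_lit 656303308) (nat_lit 76) (nat_lit 8688779314) (nat_lit 401) (nat_lit 5) (nat_lit 423) (nat_lit 5) (nat_lit 402) (nat_lit 5) (nat_lit 335) (nat_lit 316) (nat_lit 249)) (XT.nd (nat_lit 78) (nat_lit 1748) (nat_lit 0) (XT.lf (nat_lit 0) (nat_lit 2413265314) (nat_lit 1748) (nat_lit 2630905722) (nat_lit 76) (nat_lit 4510171874) (nat_lit 379) (nat_lit 5) (nat_lit 402) (nat_lit 5) (nat_lit 380) (nat_lit 5) (nat_lit 336) (nat_lit 316) (nat_lit 248)) (XT.lf (nat_lit 0) (nat_lit 4814057639) (nat_lit 1824) (nat_lit 4626174812) (nat_lit 76) (nat_lit 250699107) (nat_lit 356) (nat_lit 5) (nat_lit 380) (nat_lit 5) (nat_lit 357) (nat_lit 5) (nat_lit 337) (nat_lit 316) (nat_lit 247))))))) (XT.nd (nat_lit 780) (nat_lit 5168) (nat_lit 0) (XT.nd (nat_lit 390) (nat_lit 3192) (nat_lit 0) (XT.nd (nat_lit 156) (nat_lit 1748)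 (nat_lit 0) (XT.nd (nat_lit 78) (nat_lit 912) (nat_lit 0) (XT.lf (nat_lit 0) (nat_lit 3159371422) (nat_lit 912) (nat_lit 4151195482) (nat_lit 988) (nat_lit 2520605996) (nat_lit 344) (nat_lit 5) (nat_lit 356) (nat_lit 5) (nat_lit 357) (nat_lit 5) (nat_lit 338) (nat_lit 316) (nat_lit 246)) (XT.lf (nat_lit 0) (nat_lit 1229780710) (nat_lit 912) (nat_lit 8652805835) (nat_lit 988) (nat_lit 93050688) (nat_lit 332) (nat_lit 5) (nat_lit 344) (nat_lit 5) (nat_lit 345) (nat_lit 5) (nat_lit 339) (nat_lit 316) (nat_lit 245))) (XT.nd (nat_lit 78) (nat_lit 1672) (nat_lit 0) (XT.lf (nat_lit 0) (nat_lit 2402447219) (nat_lit 988) (nat_lit 751945749) (nat_lit 76) (nat_lit 6969222864) (nat_lit 331) (nat_lit 5) (nat_lit 344) (nat_lit 5) (nat_lit 332) (nat_lit 5) (nat_lit 340) (nat_lit 316) (nat_lit 244)) (XT.nd (nat_lit 78) (nat_lit 836) (nat_lit 0) (XT.lf (nat_lit 0) (nat_lit 4991893501) (nat_lit 912) (nat_lit 2755761729)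 (nat_lit 76) (nat_lit 2527985231) (nat_lit 320) (nat_lit 5) (nat_lit 332) (nat_lit 5) (nat_lit 321) (nat_lit 5) (nat_lit 341) (nat_lit 316) (nat_lit 243)) (XT.lf (nat_lit 0) (nat_lit 5627317489) (nat_lit 836) (nat_lit 2050293408) (nat_lit 912) (nat_lit 2754268347) (nat_lit 309) (nat_lit 5) (nat_lit 320) (nat_lit 5) (nat_lit 321) (nat_lit 5) (nat_lit 342) (nat_lit 316) (nat_lit 242))))) (XT.nd (nat_lit 156) (nat_lit 1596) (nat_lit 0) (XT.nd (nat_lit 78) (nat_lit 836) (nat_lit 0) (XT.lf (nat_lit 0) (nat_lit 3687051442) (nat_lit 760) (nat_lit 6781213722) (nat_lit 836) (nat_lit 124077157) (nat_lit 299) (nat_lit 5) (nat_lit 309) (nat_lit 5) (nat_lit 310) (nat_lit 5) (nat_lit 343) (nat_lit 316) (nat_lit 241)) (XT.lf (nat_lit 0) (nat_lit 1690215527) (nat_lit 760) (nat_lit 875875389) (nat_lit 836) (nat_lit 8190916481) (nat_lit 288) (nat_lit 5) (nat_lit 298) (nat_lit 5) (nat_lit 299) (nat_lit 5) (nat_lit 344)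 (nat_lit 316) (nat_lit 240))) (XT.nd (nat_lit 78) (nat_lit 1596) (nat_lit 0) (XT.lf (nat_lit 0) (nat_lit 5374663089) (nat_lit 836) (nat_lit 366105344) (nat_lit 76) (nat_lit 5185062475) (nat_lit 288) (nat_lit 5) (nat_lit 299) (nat_lit 5) (nat_lit 289) (nat_lit 5) (nat_lit 345) (nat_lit 316) (nat_lit 239)) (XT.nd (nat_lit 78) (nat_lit 836) (nat_lit 0) (XT.lf (nat_lit 0) (nat_lit 8291674168) (nat_lit 836) (nat_lit 2440706646) (nat_lit 76) (nat_lit 366876603) (nat_lit 278) (nat_lit 5) (nat_lit 289) (nat_lit 5) (nat_lit 279) (nat_lit 5) (nat_lit 346) (nat_lit 316) (nat_lit 238)) (XT.lf (nat_lit 0) (nat_lit 63223566) (nat_lit 836) (nat_lit 4589429883) (nat_lit 76) (nat_lit 6624348666) (nat_lit 267) (nat_lit 5) (nat_lit 278) (nat_lit 5) (nat_lit 268) (nat_lit 5) (nat_lit 347) (nat_lit 316) (nat_lit 237)))))) (XT.nd (nat_lit 390) (nat_lit 2432) (nat_lit 0) (XT.nd (nat_lit 156) (nat_lit 1368) (nat_lit 0) (XT.nd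 (nat_lit 78) (nat_lit 684) (nat_lit 0) (XT.lf (nat_lit 0) (nat_lit 3001185701) (nat_lit 760) (nat_lit 6807067858) (nat_lit 76) (nat_lit 1651091191) (nat_lit 258) (nat_lit 5) (nat_lit 268) (nat_lit 5) (nat_lit 259) (nat_lit 5) (nat_lit 348) (nat_lit 316) (nat_lit 236)) (XT.lf (nat_lit 0) (nat_lit 2547258889) (nat_lit 684) (nat_lit 3520992623) (nat_lit 760) (nat_lit 5578106528) (nat_lit 249) (nat_lit 5) (nat_lit 258) (nat_lit 5) (nat_lit 259) (nat_lit 5) (nat_lit 349) (nat_lit 316) (nat_lit 235))) (XT.nd (nat_lit 78) (nat_lit 760) (nat_lit 0) (XT.lf (nat_lit 0) (nat_lit 380436869) (nat_lit 608) (nat_lit 8877793321) (nat_lit 684) (nat_lit 2580152620) (nat_lit 241) (nat_lit 5) (nat_lit 249) (nat_lit 5) (nat_lit 250) (nat_lit 5) (nat_lit 350) (nat_lit 316) (nat_lit 234)) (XT.nd (nat_lit 78) (nat_lit 684) (nat_lit 0) (XT.lf (nat_lit 0) (nat_lit 550060519) (nat_lit 684) (nat_lit 1835489387) (nat_lit 76)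 (nat_lit 9649591069) (nat_lit 240) (nat_lit 5) (nat_lit 249) (nat_lit 5) (nat_lit 241) (nat_lit 5) (nat_lit 351) (nat_lit 316) (nat_lit 233)) (XT.lf (nat_lit 0) (nat_lit 3784861711) (nat_lit 760) (nat_lit 4141536172) (nat_lit 76) (nat_lit 4310165839) (nat_lit 231) (nat_lit 5) (nat_lit 241) (nat_lit 5) (nat_lit 232) (nat_lit 5) (nat_lit 352) (nat_lit 316) (nat_lit 232))))) (XT.nd (nat_lit 156) (nat_lit 1216) (nat_lit 0) (XT.nd (nat_lit 78) (nat_lit 608) (nat_lit 0) (XT.lf (nat_lit 0) (nat_lit 5925487803) (nat_lit 608) (nat_lit 1223336629) (nat_lit 684) (nat_lit 5294579505) (nat_lit 223) (nat_lit 5) (nat_lit 231) (nat_lit 5) (nat_lit 232) (nat_lit 5) (nat_lit 353) (nat_lit 316) (nat_lit 231)) (XT.lf (nat_lit 0) (nat_lit 3665339568) (nat_lit 608) (nat_lit 7003181929) (nat_lit 684) (nat_lit 1986848188) (nat_lit 215) (nat_lit 5) (nat_lit 223) (nat_lit 5) (nat_lit 224) (nat_lit 5) (nat_lit 354) (nat_lit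 316) (nat_lit 230))) (XT.nd (nat_lit 78) (nat_lit 608) (nat_lit 0) (XT.lf (nat_lit 0) (nat_lit 1329457763) (nat_lit 532) (nat_lit 99683569) (nat_lit 608) (nat_lit 11443831475) (nat_lit 207) (nat_lit 5) (nat_lit 214) (nat_lit 5) (nat_lit 215) (nat_lit 5) (nat_lit 355) (nat_lit 316) (nat_lit 229)) (XT.nd (nat_lit 78) (nat_lit 608) (nat_lit 0) (XT.lf (nat_lit 0) (nat_lit 4994663729) (nat_lit 608) (nat_lit 1114257826) (nat_lit 76) (nat_lit 6986454247) (nat_lit 207) (nat_lit 5) (nat_lit 215) (nat_lit 5) (nat_lit 208) (nat_lit 5) (nat_lit 356) (nat_lit 316) (nat_lit 228)) (XT.lf (nat_lit 0) (nat_lit 8705502850) (nat_lit 684) (nat_lit 3615365664) (nat_lit 76) (nat_lit 1002830278) (nat_lit 199) (nat_lit 5) (nat_lit 208) (nat_lit 5) (nat_lit 200) (nat_lit 5) (nat_lit 357) (nat_lit 316) (nat_lit 227))))))))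
noncomputable def xc82 : XT := (XT.nd (nat_lit 1482) (nat_lit 1672) (nat_lit 0) (XT.nd (nat_lit 702) (nat_lit 3344) (nat_lit 0) (XT.nd (nat_lit 312) (nat_lit 2052) (nat_lit 0) (XT.nd (nat_lit 156) (nat_lit 532) (nat_lit 0) (XT.nd (nat_lit 78) (nat_lit 608) (nat_lit 0) (XT.lf (nat_lit 0) (nat_lit 7327824083) (nat_lit 532) (nat_lit 5264513647) (nat_lit 608) (nat_lit 965254821) (nat_lit 192) (nat_lit 5) (nat_lit 199) (nat_lit 5) (nat_lit 200) (nat_lit 5) (nat_lit 358) (nat_lit 316) (nat_lit 226)) (XT.lf (nat_lit 0) (nat_lit 2799312831) (nat_lit 608) (nat_lit 8954231374) (nat_lit 76) (nat_lit 2043834974) (nat_lit 184) (nat_lit 5) (nat_lit 192) (nat_lit 5) (nat_lit 185) (nat_lit 5) (nat_lit 359) (nat_lit 316) (nat_lit 225))) (XT.nd (nat_lit 78) (nat_lit 0) (nat_lit 0) (XT.lf (nat_lit 0) (nat_lit 2238201734) (nat_lit 532) (nat_lit 4487487670) (nat_lit 608) (nat_lit 7317316069) (nat_lit 177) (nat_lit 5)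 (nat_lit 184) (nat_lit 5) (nat_lit 185) (nat_lit 5) (nat_lit 360) (nat_lit 316) (nat_lit 224)) (XT.lf (nat_lit 0) (nat_lit 10820644944) (nat_lit 608) (nat_lit 464804754) (nat_lit 76) (nat_lit 3009548105) (nat_lit 177) (nat_lit 5) (nat_lit 185) (nat_lit 5) (nat_lit 178) (nat_lit 5) (nat_lit 361) (nat_lit 316) (nat_lit 223)))) (XT.nd (nat_lit 156) (nat_lit 988) (nat_lit 0) (XT.nd (nat_lit 78) (nat_lit 456) (nat_lit 0) (XT.lf (nat_lit 0) (nat_lit 552501377) (nat_lit 608) (nat_lit 3261175950) (nat_lit 76) (nat_lit 10739323144) (nat_lit 169) (nat_lit 5) (nat_lit 177) (nat_lit 5) (nat_lit 170) (nat_lit 5) (nat_lit 362) (nat_lit 316) (nat_lit 222)) (XT.lf (nat_lit 0) (nat_lit 4709713290) (nat_lit 532) (nat_lit 6202226739) (nat_lit 76) (nat_lit 3905220800) (nat_lit 163) (nat_lit 5) (nat_lit 170) (nat_lit 5) (nat_lit 164) (nat_lit 5) (nat_lit 363) (nat_lit 316) (nat_lit 221))) (XT.nd (nat_lit 78) (nat_lit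 532) (nat_lit 0) (XT.lf (nat_lit 0) (nat_lit 5816126434) (nat_lit 456) (nat_lit 3233073318) (nat_lit 532) (nat_lit 6038906745) (nat_lit 157) (nat_lit 5) (nat_lit 163) (nat_lit 5) (nat_lit 164) (nat_lit 5) (nat_lit 364) (nat_lit 316) (nat_lit 220)) (XT.nd (nat_lit 78) (nat_lit 76) (nat_lit 0) (XT.lf (nat_lit 0) (nat_lit 2883211145) (nat_lit 456) (nat_lit 10699604631) (nat_lit 532) (nat_lit 1783097185) (nat_lit 151) (nat_lit 5) (nat_lit 157) (nat_lit 5) (nat_lit 158) (nat_lit 5) (nat_lit 365) (nat_lit 316) (nat_lit 219)) (XT.lf (nat_lit 0) (nat_lit 2624077565) (nat_lit 532) (nat_lit 197055370) (nat_lit 76) (nat_lit 12829437886) (nat_lit 150) (nat_lit 5) (nat_lit 157) (nat_lit 5) (nat_lit 151) (nat_lit 5) (nat_lit 366) (nat_lit 316) (nat_lit 218)))))) (XT.nd (nat_lit 390) (nat_lit 1596) (nat_lit 0) (XT.nd (nat_lit 156) (nat_lit 912) (nat_lit 0) (XT.nd (nat_lit 78) (nat_lit 380) (nat_lit 0) (XT.lf (nat_lit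 0) (nat_lit 7229660790) (nat_lit 532) (nat_lit 3403438676) (nat_lit 76) (nat_lit 5308635321) (nat_lit 144) (nat_lit 5) (nat_lit 151) (nat_lit 5) (nat_lit 145) (nat_lit 5) (nat_lit 367) (nat_lit 316) (nat_lit 217)) (XT.lf (nat_lit 0) (nat_lit 9486238514) (nat_lit 380) (nat_lit 2543161186) (nat_lit 456) (nat_lit 4211124367) (nat_lit 139) (nat_lit 5) (nat_lit 144) (nat_lit 5) (nat_lit 145) (nat_lit 5) (nat_lit 368) (nat_lit 316) (nat_lit 216))) (XT.nd (nat_lit 78) (nat_lit 380) (nat_lit 0) (XT.lf (nat_lit 0) (nat_lit 495931131) (nat_lit 532) (nat_lit 10280122758) (nat_lit 76) (nat_lit 5770644653) (nat_lit 132) (nat_lit 5) (nat_lit 139) (nat_lit 5) (nat_lit 133) (nat_lit 5) (nat_lit 369) (nat_lit 316) (nat_lit 215)) (XT.nd (nat_lit 78) (nat_lit 0) (nat_lit 0) (XT.lf (nat_lit 0) (nat_lit 2865765984) (nat_lit 380) (nat_lit 2478208432) (nat_lit 456) (nat_lit 11516396738) (nat_lit 127) (nat_lit 5) (nat_lit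 132) (nat_lit 5) (nat_lit 133) (nat_lit 5) (nat_lit 370) (nat_lit 316) (nat_lit 214)) (XT.lf (nat_lit 0) (nat_lit 10422391305) (nat_lit 456) (nat_lit 710747880) (nat_lit 76) (nat_lit 6048625231) (nat_lit 127) (nat_lit 5) (nat_lit 133) (nat_lit 5) (nat_lit 128) (nat_lit 5) (nat_lit 371) (nat_lit 316) (nat_lit 213))))) (XT.nd (nat_lit 156) (nat_lit 760) (nat_lit 0) (XT.nd (nat_lit 78) (nat_lit 456) (nat_lit 0) (XT.lf (nat_lit 0) (nat_lit 13092223225) (nat_lit 380) (nat_lit 2638638423) (nat_lit 456) (nat_lit 1780392657) (nat_lit 122) (nat_lit 5) (nat_lit 127) (nat_lit 5) (nat_lit 128) (nat_lit 5) (nat_lit 372) (nat_lit 316) (nat_lit 212)) (XT.lf (nat_lit 0) (nat_lit 3387447266) (nat_lit 456) (nat_lit 8352030050) (nat_lit 76) (nat_lit 6109057275) (nat_lit 116) (nat_lit 5) (nat_lit 122) (nat_lit 5) (nat_lit 117) (nat_lit 5) (nat_lit 373) (nat_lit 316) (nat_lit 211))) (XT.nd (nat_lit 78) (nat_lit 380) (nat_lit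 0) (XT.lf (nat_lit 0) (nat_lit 5705598117) (nat_lit 380) (nat_lit 3042341110) (nat_lit 456) (nat_lit 9446530762) (nat_lit 111) (nat_lit 5) (nat_lit 116) (nat_lit 5) (nat_lit 117) (nat_lit 5) (nat_lit 374) (nat_lit 316) (nat_lit 210)) (XT.nd (nat_lit 78) (nat_lit 76) (nat_lit 0) (XT.lf (nat_lit 0) (nat_lit 1699149321) (nat_lit 304) (nat_lit 12653728352) (nat_lit 380) (nat_lit 4196241083) (nat_lit 107) (nat_lit 5) (nat_lit 111) (nat_lit 5) (nat_lit 112) (nat_lit 5) (nat_lit 375) (nat_lit 316) (nat_lit 209)) (XT.lf (nat_lit 0) (nat_lit 1278713121) (nat_lit 380) (nat_lit 2491460253) (nat_lit 76) (nat_lit 15142422932) (nat_lit 106) (nat_lit 5) (nat_lit 111) (nat_lit 5) (nat_lit 107) (nat_lit 5) (nat_lit 376) (nat_lit 316) (nat_lit 208))))))) (XT.nd (nat_lit 42432) (nat_lit 0) (nat_lit 28576) (XT.nd (nat_lit 312) (nat_lit 608) (nat_lit 0) (XT.nd (nat_lit 156) (nat_lit 380) (nat_lit 0) (XT.nd (nat_lit 78)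 (nat_lit 304) (nat_lit 0) (XT.lf (nat_lit 0) (nat_lit 6955481056) (nat_lit 456) (nat_lit 6921215411) (nat_lit 76) (nat_lit 5407842801) (nat_lit 101) (nat_lit 5) (nat_lit 107) (nat_lit 5) (nat_lit 102) (nat_lit 5) (nat_lit 377) (nat_lit 316) (nat_lit 207)) (XT.lf (nat_lit 0) (nat_lit 8078594112) (nat_lit 304) (nat_lit 4797139755) (nat_lit 380) (nat_lit 6790450138) (nat_lit 97) (nat_lit 5) (nat_lit 101) (nat_lit 5) (nat_lit 102) (nat_lit 5) (nat_lit 378) (nat_lit 316) (nat_lit 206))) (XT.nd (nat_lit 78) (nat_lit 76) (nat_lit 0) (XT.lf (nat_lit 0) (nat_lit 3549045840) (nat_lit 304) (nat_lit 15503243643) (nat_lit 380) (nat_lit 1005421614) (nat_lit 93) (nat_lit 5) (nat_lit 97) (nat_lit 5) (nat_lit 98) (nat_lit 5) (nat_lit 379) (nat_lit 316) (nat_lit 205)) (XT.lf (nat_lit 0) (nat_lit 4978451273) (nat_lit 380) (nat_lit 1257951643) (nat_lit 76) (nat_lit 14222139385) (nat_lit 92) (nat_lit 5) (nat_lit 97) (nat_lit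 5) (nat_lit 93) (nat_lit 5) (nat_lit 380) (nat_lit 316) (nat_lit 204)))) (XT.nd (nat_lit 41886) (nat_lit 0) (nat_lit 31084) (XT.nd (nat_lit 78) (nat_lit 304) (nat_lit 0) (XT.lf (nat_lit 0) (nat_lit 11224899265) (nat_lit 380) (nat_lit 6288003733) (nat_lit 76) (nat_lit 3356434546) (nat_lit 88) (nat_lit 5) (nat_lit 93) (nat_lit 5) (nat_lit 89) (nat_lit 5) (nat_lit 381) (nat_lit 316) (nat_lit 203)) (XT.lf (nat_lit 0) (nat_lit 9674794377) (nat_lit 304) (nat_lit 8077108930) (nat_lit 380) (nat_lit 3538696290) (nat_lit 84) (nat_lit 5) (nat_lit 88) (nat_lit 5) (nat_lit 89) (nat_lit 5) (nat_lit 382) (nat_lit 316) (nat_lit 202))) (XT.nd (nat_lit 78) (nat_lit 1216) (nat_lit 0) (XT.lf (nat_lit 0) (nat_lit 2847100358) (nat_lit 1292) (nat_lit 498237721) (nat_lit 1292) (nat_lit 498237721) (nat_lit 509) (nat_lit 3) (nat_lit 526) (nat_lit 3) (nat_lit 526) (nat_lit 5) (nat_lit 317) (nat_lit 317) (nat_lit 266)) (XT.nd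 (nat_lit 78) (nat_lit 1216) (nat_lit 0) (XT.lf (nat_lit 76) (nat_lit 4460950910) (nat_lit 0) (nat_lit 3283330326) (nat_lit 1292) (nat_lit 17492571) (nat_lit 510) (nat_lit 5) (nat_lit 509) (nat_lit 3) (nat_lit 526) (nat_lit 5) (nat_lit 318) (nat_lit 317) (nat_lit 265)) (XT.lf (nat_lit 0) (nat_lit 1937647528) (nat_lit 1292) (nat_lit 5608206504) (nat_lit 1368) (nat_lit 293634463) (nat_lit 493) (nat_lit 5) (nat_lit 510) (nat_lit 5) (nat_lit 511) (nat_lit 5) (nat_lit 319) (nat_lit 317) (nat_lit 264)))))) (XT.nd (nat_lit 390) (nat_lit 1216) (nat_lit 0) (XT.nd (nat_lit 156) (nat_lit 1292) (nat_lit 0) (XT.nd (nat_lit 78) (nat_lit 0) (nat_lit 0) (XT.lf (nat_lit 0) (nat_lit 3921517977) (nat_lit 1292) (nat_lit 8027656) (nat_lit 1368) (nat_lit 3990632102) (nat_lit 493) (nat_lit 5) (nat_lit 510) (nat_lit 5) (nat_lit 511) (nat_lit 5) (nat_lit 320) (nat_lit 317) (nat_lit 263)) (XT.lf (nat_lit 76) (nat_lit 5796124847)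 (nat_lit 0) (nat_lit 134411797) (nat_lit 1368) (nat_lit 2073488557) (nat_lit 494) (nat_lit 5) (nat_lit 493) (nat_lit 5) (nat_lit 511) (nat_lit 5) (nat_lit 321) (nat_lit 317) (nat_lit 262))) (XT.nd (nat_lit 78) (nat_lit 1368) (nat_lit 0) (XT.lf (nat_lit 76) (nat_lit 3666655432) (nat_lit 0) (nat_lit 4311579429) (nat_lit 1368) (nat_lit 112633784) (nat_lit 495) (nat_lit 5) (nat_lit 494) (nat_lit 5) (nat_lit 512) (nat_lit 5) (nat_lit 322) (nat_lit 317) (nat_lit 261)) (XT.nd (nat_lit 78) (nat_lit 0) (nat_lit 76) (XT.lf (nat_lit 76) (nat_lit 1533034135) (nat_lit 0) (nat_lit 306232115) (nat_lit 1444) (nat_lit 6341705272) (nat_lit 477) (nat_lit 5) (nat_lit 476) (nat_lit 5) (nat_lit 495) (nat_lit 5) (nat_lit 323) (nat_lit 317) (nat_lit 260)) (XT.lf (nat_lit 0) (nat_lit 3836402405) (nat_lit 1368) (nat_lit 611596402) (nat_lit 1444) (nat_lit 3826044633) (nat_lit 477) (nat_lit 5) (nat_lit 495) (nat_lit 5) (nat_lit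 496) (nat_lit 5) (nat_lit 324) (nat_lit 317) (nat_lit 259))))) (XT.nd (nat_lit 156) (nat_lit 1292) (nat_lit 0) (XT.nd (nat_lit 78) (nat_lit 0) (nat_lit 76) (XT.lf (nat_lit 76) (nat_lit 5636715671) (nat_lit 0) (nat_lit 230552051) (nat_lit 1444) (nat_lit 2503207215) (nat_lit 478) (nat_lit 5) (nat_lit 477) (nat_lit 5) (nat_lit 496) (nat_lit 5) (nat_lit 325) (nat_lit 317) (nat_lit 258)) (XT.lf (nat_lit 76) (nat_lit 3589689535) (nat_lit 0) (nat_lit 4360499720) (nat_lit 1444) (nat_lit 519829966) (nat_lit 479) (nat_lit 5) (nat_lit 478) (nat_lit 5) (nat_lit 497) (nat_lit 5) (nat_lit 326) (nat_lit 317) (nat_lit 257))) (XT.nd (nat_lit 78) (nat_lit 0) (nat_lit 0) (XT.lf (nat_lit 0) (nat_lit 1471705146) (nat_lit 1444) (nat_lit 7038755676) (nat_lit 1520) (nat_lit 62559010) (nat_lit 460) (nat_lit 5) (nat_lit 479) (nat_lit 5) (nat_lit 480) (nat_lit 5) (nat_lit 327) (nat_lit 317) (nat_lit 256)) (XT.nd (nat_lit 78)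 (nat_lit 0) (nat_lit 76) (XT.lf (nat_lit 0) (nat_lit 3518140761) (nat_lit 1444) (nat_lit 545869868) (nat_lit 1520) (nat_lit 4615026001) (nat_lit 460) (nat_lit 5) (nat_lit 479) (nat_lit 5) (nat_lit 480) (nat_lit 5) (nat_lit 328) (nat_lit 317) (nat_lit 255)) (XT.lf (nat_lit 0) (nat_lit 5611311383) (nat_lit 1444) (nat_lit 2610913043) (nat_lit 1520) (nat_lit 566340752) (nat_lit 461) (nat_lit 5) (nat_lit 480) (nat_lit 5) (nat_lit 481) (nat_lit 5) (nat_lit 329) (nat_lit 317) (nat_lit 254))))))))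
noncomputable def xc83 : XT := (XT.nd (nat_lit 1482) (nat_lit 9348) (nat_lit 0) (XT.nd (nat_lit 702) (nat_lit 6764) (nat_lit 0) (XT.nd (nat_lit 312) (nat_lit 6536) (nat_lit 0) (XT.nd (nat_lit 156) (nat_lit 0) (nat_lit 0) (XT.nd (nat_lit 78) (nat_lit 1444) (nat_lit 0) (XT.lf (nat_lit 76) (nat_lit 4194826361) (nat_lit 0) (nat_lit 3573615467) (nat_lit 1520) (nat_lit 1132951434) (nat_lit 462) (nat_lit 5) (nat_lit 461) (nat_lit 5) (nat_lit 481) (nat_lit 5) (nat_lit 330) (nat_lit 317) (nat_lit 253)) (XT.lf (nat_lit 0) (nat_lit 944284311) (nat_lit 1520) (nat_lit 6822660707) (nat_lit 1596) (nat_lit 1250882835) (nat_lit 442) (nat_lit 5) (nat_lit 462) (nat_lit 5) (nat_lit 463) (nat_lit 5) (nat_lit 331) (nat_lit 317) (nat_lit 252))) (XT.nd (nat_lit 78) (nat_lit 0) (nat_lit 76) (XT.lf (nat_lit 76) (nat_lit 158999744) (nat_lit 0) (nat_lit 2912030083) (nat_lit 1596) (nat_lit 6066558346) (nat_lit 443) (nat_lit 5)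 (nat_lit 442) (nat_lit 5) (nat_lit 463) (nat_lit 5) (nat_lit 332) (nat_lit 317) (nat_lit 251)) (XT.lf (nat_lit 0) (nat_lit 5268527846) (nat_lit 1520) (nat_lit 1873521166) (nat_lit 76) (nat_lit 2118786464) (nat_lit 443) (nat_lit 5) (nat_lit 463) (nat_lit 5) (nat_lit 444) (nat_lit 5) (nat_lit 333) (nat_lit 317) (nat_lit 250)))) (XT.nd (nat_lit 156) (nat_lit 3420) (nat_lit 0) (XT.nd (nat_lit 78) (nat_lit 1672) (nat_lit 0) (XT.lf (nat_lit 0) (nat_lit 5454884446) (nat_lit 1520) (nat_lit 2080356460) (nat_lit 1596) (nat_lit 1852505697) (nat_lit 423) (nat_lit 5) (nat_lit 443) (nat_lit 5) (nat_lit 444) (nat_lit 5) (nat_lit 334) (nat_lit 317) (nat_lit 249)) (XT.lf (nat_lit 0) (nat_lit 352385847) (nat_lit 1672) (nat_lit 6027035255) (nat_lit 76) (nat_lit 3138918868) (nat_lit 401) (nat_lit 5) (nat_lit 423) (nat_lit 5) (nat_lit 402) (nat_lit 5) (nat_lit 335) (nat_lit 317) (nat_lit 248))) (XT.nd (nat_lit 78) (nat_lit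 1748) (nat_lit 0) (XT.lf (nat_lit 0) (nat_lit 1490481867) (nat_lit 1672) (nat_lit 1108867806) (nat_lit 1748) (nat_lit 7053264450) (nat_lit 379) (nat_lit 5) (nat_lit 401) (nat_lit 5) (nat_lit 402) (nat_lit 5) (nat_lit 336) (nat_lit 317) (nat_lit 247)) (XT.nd (nat_lit 78) (nat_lit 1748) (nat_lit 0) (XT.lf (nat_lit 0) (nat_lit 4934629031) (nat_lit 1748) (nat_lit 545046444) (nat_lit 76) (nat_lit 4310851792) (nat_lit 379) (nat_lit 5) (nat_lit 402) (nat_lit 5) (nat_lit 380) (nat_lit 5) (nat_lit 337) (nat_lit 317) (nat_lit 246)) (XT.lf (nat_lit 0) (nat_lit 7348097603) (nat_lit 1748) (nat_lit 146806) (nat_lit 1824) (nat_lit 2584195896) (nat_lit 356) (nat_lit 5) (nat_lit 379) (nat_lit 5) (nat_lit 380) (nat_lit 5) (nat_lit 338) (nat_lit 317) (nat_lit 245)))))) (XT.nd (nat_lit 390) (nat_lit 3192) (nat_lit 0) (XT.nd (nat_lit 156) (nat_lit 1672) (nat_lit 0) (XT.nd (nat_lit 78) (nat_lit 988) (nat_lit 0) (XT.lf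 (nat_lit 0) (nat_lit 5399392930) (nat_lit 912) (nat_lit 4464578613) (nat_lit 988) (nat_lit 214072365) (nat_lit 344) (nat_lit 5) (nat_lit 356) (nat_lit 5) (nat_lit 357) (nat_lit 5) (nat_lit 339) (nat_lit 317) (nat_lit 244)) (XT.lf (nat_lit 0) (nat_lit 2200762871) (nat_lit 988) (nat_lit 6816863124) (nat_lit 76) (nat_lit 1210069996) (nat_lit 331) (nat_lit 5) (nat_lit 344) (nat_lit 5) (nat_lit 332) (nat_lit 5) (nat_lit 340) (nat_lit 317) (nat_lit 243))) (XT.nd (nat_lit 78) (nat_lit 836) (nat_lit 0) (XT.lf (nat_lit 0) (nat_lit 1370407686) (nat_lit 836) (nat_lit 3341503839) (nat_lit 912) (nat_lit 5669387446) (nat_lit 320) (nat_lit 5) (nat_lit 331) (nat_lit 5) (nat_lit 332) (nat_lit 5) (nat_lit 341) (nat_lit 317) (nat_lit 242)) (XT.nd (nat_lit 78) (nat_lit 836) (nat_lit 0) (XT.lf (nat_lit 0) (nat_lit 7318271296) (nat_lit 912) (nat_lit 700669050) (nat_lit 76) (nat_lit 2520196599) (nat_lit 320) (nat_lit 5)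 (nat_lit 332) (nat_lit 5) (nat_lit 321) (nat_lit 5) (nat_lit 342) (nat_lit 317) (nat_lit 241)) (XT.lf (nat_lit 0) (nat_lit 7899219838) (nat_lit 836) (nat_lit 2135598258) (nat_lit 912) (nat_lit 666275765) (nat_lit 309) (nat_lit 5) (nat_lit 320) (nat_lit 5) (nat_lit 321) (nat_lit 5) (nat_lit 343) (nat_lit 317) (nat_lit 240))))) (XT.nd (nat_lit 156) (nat_lit 1596) (nat_lit 0) (XT.nd (nat_lit 78) (nat_lit 760) (nat_lit 0) (XT.lf (nat_lit 0) (nat_lit 1967289683) (nat_lit 836) (nat_lit 4970506403) (nat_lit 76) (nat_lit 3929318653) (nat_lit 298) (nat_lit 5) (nat_lit 309) (nat_lit 5) (nat_lit 299) (nat_lit 5) (nat_lit 344) (nat_lit 317) (nat_lit 239)) (XT.lf (nat_lit 0) (nat_lit 3847298415) (nat_lit 760) (nat_lit 841891069) (nat_lit 836) (nat_lit 6348493015) (nat_lit 288) (nat_lit 5) (nat_lit 298) (nat_lit 5) (nat_lit 299) (nat_lit 5) (nat_lit 345) (nat_lit 317) (nat_lit 238))) (XT.nd (nat_lit 78) (nat_lit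 836) (nat_lit 0) (XT.lf (nat_lit 0) (nat_lit 1731071399) (nat_lit 760) (nat_lit 5802970935) (nat_lit 836) (nat_lit 3678520323) (nat_lit 278) (nat_lit 5) (nat_lit 288) (nat_lit 5) (nat_lit 289) (nat_lit 5) (nat_lit 346) (nat_lit 317) (nat_lit 237)) (XT.nd (nat_lit 78) (nat_lit 836) (nat_lit 0) (XT.lf (nat_lit 0) (nat_lit 10483483572) (nat_lit 836) (nat_lit 423118863) (nat_lit 76) (nat_lit 485722598) (nat_lit 278) (nat_lit 5) (nat_lit 289) (nat_lit 5) (nat_lit 279) (nat_lit 5) (nat_lit 347) (nat_lit 317) (nat_lit 236)) (XT.lf (nat_lit 0) (nat_lit 1978526781) (nat_lit 836) (nat_lit 2643798120) (nat_lit 76) (nat_lit 6953720743) (nat_lit 267) (nat_lit 5) (nat_lit 278) (nat_lit 5) (nat_lit 268) (nat_lit 5) (nat_lit 348) (nat_lit 317) (nat_lit 235))))))) (XT.nd (nat_lit 780) (nat_lit 4180) (nat_lit 0) (XT.nd (nat_lit 390) (nat_lit 2432) (nat_lit 0) (XT.nd (nat_lit 156) (nat_lit 1368) (nat_lit 0) (XT.nd (nat_lit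 78) (nat_lit 684) (nat_lit 0) (XT.lf (nat_lit 0) (nat_lit 4963363458) (nat_lit 760) (nat_lit 4924534705) (nat_lit 76) (nat_lit 1876814763) (nat_lit 258) (nat_lit 5) (nat_lit 268) (nat_lit 5) (nat_lit 259) (nat_lit 5) (nat_lit 349) (nat_lit 317) (nat_lit 234)) (XT.lf (nat_lit 0) (nat_lit 4676566883) (nat_lit 684) (nat_lit 3404674672) (nat_lit 760) (nat_lit 3876947285) (nat_lit 249) (nat_lit 5) (nat_lit 258) (nat_lit 5) (nat_lit 259) (nat_lit 5) (nat_lit 350) (nat_lit 317) (nat_lit 233))) (XT.nd (nat_lit 78) (nat_lit 760) (nat_lit 0) (XT.lf (nat_lit 0) (nat_lit 2446967421) (nat_lit 608) (nat_lit 8881365995) (nat_lit 684) (nat_lit 828440070) (nat_lit 241) (nat_lit 5) (nat_lit 249) (nat_lit 5) (nat_lit 250) (nat_lit 5) (nat_lit 351) (nat_lit 317) (nat_lit 232)) (XT.nd (nat_lit 78) (nat_lit 0) (nat_lit 0) (XT.lf (nat_lit 0) (nat_lit 130578305) (nat_lit 684) (nat_lit 2189383216) (nat_lit 760) (nat_lit 10040296024)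 (nat_lit 231) (nat_lit 5) (nat_lit 240) (nat_lit 5) (nat_lit 241) (nat_lit 5) (nat_lit 352) (nat_lit 317) (nat_lit 231)) (XT.lf (nat_lit 0) (nat_lit 5614580100) (nat_lit 760) (nat_lit 2245760327) (nat_lit 76) (nat_lit 4708152411) (nat_lit 231) (nat_lit 5) (nat_lit 241) (nat_lit 5) (nat_lit 232) (nat_lit 5) (nat_lit 353) (nat_lit 317) (nat_lit 230))))) (XT.nd (nat_lit 156) (nat_lit 1216) (nat_lit 0) (XT.nd (nat_lit 78) (nat_lit 608) (nat_lit 0) (XT.lf (nat_lit 0) (nat_lit 8090501912) (nat_lit 608) (nat_lit 951876725) (nat_lit 684) (nat_lit 3739925876) (nat_lit 223) (nat_lit 5) (nat_lit 231) (nat_lit 5) (nat_lit 232) (nat_lit 5) (nat_lit 354) (nat_lit 317) (nat_lit 229)) (XT.lf (nat_lit 0) (nat_lit 5762183567) (nat_lit 608) (nat_lit 6871420200) (nat_lit 684) (nat_lit 367730599) (nat_lit 215) (nat_lit 5) (nat_lit 223) (nat_lit 5) (nat_lit 224) (nat_lit 5) (nat_lit 355) (nat_lit 317) (nat_lit 228))) (XT.nd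 (nat_lit 78) (nat_lit 608) (nat_lit 0) (XT.lf (nat_lit 0) (nat_lit 3094948138) (nat_lit 608) (nat_lit 9881204392) (nat_lit 76) (nat_lit 249793266) (nat_lit 207) (nat_lit 5) (nat_lit 215) (nat_lit 5) (nat_lit 208) (nat_lit 5) (nat_lit 356) (nat_lit 317) (nat_lit 227)) (XT.nd (nat_lit 78) (nat_lit 0) (nat_lit 0) (XT.lf (nat_lit 0) (nat_lit 812435183) (nat_lit 608) (nat_lit 5913653222) (nat_lit 684) (nat_lit 6729781496) (nat_lit 199) (nat_lit 5) (nat_lit 207) (nat_lit 5) (nat_lit 208) (nat_lit 5) (nat_lit 357) (nat_lit 317) (nat_lit 226)) (XT.lf (nat_lit 0) (nat_lit 10511952438) (nat_lit 684) (nat_lit 1776852500) (nat_lit 76) (nat_lit 1402985070) (nat_lit 199) (nat_lit 5) (nat_lit 208) (nat_lit 5) (nat_lit 200) (nat_lit 5) (nat_lit 358) (nat_lit 317) (nat_lit 225)))))) (XT.nd (nat_lit 390) (nat_lit 1900) (nat_lit 0) (XT.nd (nat_lit 156) (nat_lit 1140) (nat_lit 0) (XT.nd (nat_lit 78) (nat_lit 532) (nat_lit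 0) (XT.lf (nat_lit 0) (nat_lit 542241116) (nat_lit 608) (nat_lit 4473894603) (nat_lit 76) (nat_lit 8917165757) (nat_lit 191) (nat_lit 5) (nat_lit 199) (nat_lit 5) (nat_lit 192) (nat_lit 5) (nat_lit 359) (nat_lit 317) (nat_lit 224)) (XT.lf (nat_lit 0) (nat_lit 4377387720) (nat_lit 608) (nat_lit 7290157382) (nat_lit 76) (nat_lit 2513213671) (nat_lit 184) (nat_lit 5) (nat_lit 192) (nat_lit 5) (nat_lit 185) (nat_lit 5) (nat_lit 360) (nat_lit 317) (nat_lit 223))) (XT.nd (nat_lit 78) (nat_lit 608) (nat_lit 0) (XT.lf (nat_lit 0) (nat_lit 4206692943) (nat_lit 532) (nat_lit 4183690096) (nat_lit 608) (nat_lit 6044013487) (nat_lit 177) (nat_lit 5) (nat_lit 184) (nat_lit 5) (nat_lit 185) (nat_lit 5) (nat_lit 361) (nat_lit 317) (nat_lit 222)) (XT.nd (nat_lit 78) (nat_lit 76) (nat_lit 0) (XT.lf (nat_lit 0) (nat_lit 1412000559) (nat_lit 532) (nat_lit 11165508543) (nat_lit 608) (nat_lit 2117071747) (nat_lit 170)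 (nat_lit 5) (nat_lit 177) (nat_lit 5) (nat_lit 178) (nat_lit 5) (nat_lit 362) (nat_lit 317) (nat_lit 221)) (XT.lf (nat_lit 0) (nat_lit 1972488294) (nat_lit 608) (nat_lit 1497912494) (nat_lit 76) (nat_lit 11490529425) (nat_lit 169) (nat_lit 5) (nat_lit 177) (nat_lit 5) (nat_lit 170) (nat_lit 5) (nat_lit 363) (nat_lit 317) (nat_lit 220))))) (XT.nd (nat_lit 156) (nat_lit 988) (nat_lit 0) (XT.nd (nat_lit 78) (nat_lit 456) (nat_lit 0) (XT.lf (nat_lit 0) (nat_lit 6228391717) (nat_lit 532) (nat_lit 4532289446) (nat_lit 76) (nat_lit 4472871959) (nat_lit 163) (nat_lit 5) (nat_lit 170) (nat_lit 5) (nat_lit 164) (nat_lit 5) (nat_lit 364) (nat_lit 317) (nat_lit 219)) (XT.lf (nat_lit 0) (nat_lit 7816502861) (nat_lit 456) (nat_lit 2853296750) (nat_lit 532) (nat_lit 4843409554) (nat_lit 157) (nat_lit 5) (nat_lit 163) (nat_lit 5) (nat_lit 164) (nat_lit 5) (nat_lit 365) (nat_lit 317) (nat_lit 218))) (XT.nd (nat_lit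 78) (nat_lit 532) (nat_lit 0) (XT.lf (nat_lit 0) (nat_lit 4790025610) (nat_lit 456) (nat_lit 10524927687) (nat_lit 532) (nat_lit 484902196) (nat_lit 151) (nat_lit 5) (nat_lit 157) (nat_lit 5) (nat_lit 158) (nat_lit 5) (nat_lit 366) (nat_lit 317) (nat_lit 217)) (XT.nd (nat_lit 78) (nat_lit 0) (nat_lit 0) (XT.lf (nat_lit 0) (nat_lit 1603083850) (nat_lit 456) (nat_lit 2405231388) (nat_lit 532) (nat_lit 12085146700) (nat_lit 144) (nat_lit 5) (nat_lit 150) (nat_lit 5) (nat_lit 151) (nat_lit 5) (nat_lit 367) (nat_lit 317) (nat_lit 216)) (XT.lf (nat_lit 0) (nat_lit 8718501398) (nat_lit 532) (nat_lit 1726762934) (nat_lit 76) (nat_lit 5948782802) (nat_lit 144) (nat_lit 5) (nat_lit 151) (nat_lit 5) (nat_lit 145) (nat_lit 5) (nat_lit 368) (nat_lit 317) (nat_lit 215))))))))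
noncomputable def xc84 : XT := (XT.nd (nat_lit 43290) (nat_lit 0) (nat_lit 18468) (XT.nd (nat_lit 702) (nat_lit 1368) (nat_lit 0) (XT.nd (nat_lit 312) (nat_lit 1216) (nat_lit 0) (XT.nd (nat_lit 156) (nat_lit 760) (nat_lit 0) (XT.nd (nat_lit 78) (nat_lit 532) (nat_lit 0) (XT.lf (nat_lit 0) (nat_lit 11520745997) (nat_lit 380) (nat_lit 2115801011) (nat_lit 456) (nat_lit 3065781377) (nat_lit 139) (nat_lit 5) (nat_lit 144) (nat_lit 5) (nat_lit 145) (nat_lit 5) (nat_lit 369) (nat_lit 317) (nat_lit 214)) (XT.lf (nat_lit 0) (nat_lit 1743843705) (nat_lit 532) (nat_lit 8828365299) (nat_lit 76) (nat_lit 6445767116) (nat_lit 132) (nat_lit 5) (nat_lit 139) (nat_lit 5) (nat_lit 133) (nat_lit 5) (nat_lit 370) (nat_lit 317) (nat_lit 213))) (XT.nd (nat_lit 78) (nat_lit 380) (nat_lit 0) (XT.lf (nat_lit 0) (nat_lit 4683343582) (nat_lit 380) (nat_lit 2029313802) (nat_lit 456) (nat_lit 10628908421) (nat_lit 127) (nat_lit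 5) (nat_lit 132) (nat_lit 5) (nat_lit 133) (nat_lit 5) (nat_lit 371) (nat_lit 317) (nat_lit 212)) (XT.lf (nat_lit 0) (nat_lit 982587244) (nat_lit 380) (nat_lit 10935322360) (nat_lit 456) (nat_lit 5755214686) (nat_lit 122) (nat_lit 5) (nat_lit 127) (nat_lit 5) (nat_lit 128) (nat_lit 5) (nat_lit 372) (nat_lit 317) (nat_lit 211)))) (XT.nd (nat_lit 156) (nat_lit 760) (nat_lit 0) (XT.nd (nat_lit 78) (nat_lit 456) (nat_lit 0) (XT.lf (nat_lit 0) (nat_lit 15159151467) (nat_lit 380) (nat_lit 2196706724) (nat_lit 456) (nat_lit 657248907) (nat_lit 122) (nat_lit 5) (nat_lit 127) (nat_lit 5) (nat_lit 128) (nat_lit 5) (nat_lit 373) (nat_lit 317) (nat_lit 210)) (XT.lf (nat_lit 0) (nat_lit 4630576267) (nat_lit 456) (nat_lit 6920242206) (nat_lit 76) (nat_lit 6809939015) (nat_lit 116) (nat_lit 5) (nat_lit 122) (nat_lit 5) (nat_lit 117) (nat_lit 5) (nat_lit 374) (nat_lit 317) (nat_lit 209))) (XT.nd (nat_lit 78) (nat_lit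 380) (nat_lit 0) (XT.lf (nat_lit 0) (nat_lit 7531820697) (nat_lit 380) (nat_lit 2597560268) (nat_lit 456) (nat_lit 8588151762) (nat_lit 111) (nat_lit 5) (nat_lit 116) (nat_lit 5) (nat_lit 117) (nat_lit 5) (nat_lit 375) (nat_lit 317) (nat_lit 208)) (XT.nd (nat_lit 78) (nat_lit 76) (nat_lit 0) (XT.lf (nat_lit 0) (nat_lit 3397305132) (nat_lit 304) (nat_lit 12486643717) (nat_lit 380) (nat_lit 3199253879) (nat_lit 107) (nat_lit 5) (nat_lit 111) (nat_lit 5) (nat_lit 112) (nat_lit 5) (nat_lit 376) (nat_lit 317) (nat_lit 207)) (XT.lf (nat_lit 0) (nat_lit 2392946104) (nat_lit 380) (nat_lit 952339520) (nat_lit 76) (nat_lit 16112809543) (nat_lit 106) (nat_lit 5) (nat_lit 111) (nat_lit 5) (nat_lit 107) (nat_lit 5) (nat_lit 377) (nat_lit 317) (nat_lit 206)))))) (XT.nd (nat_lit 42198) (nat_lit 0) (nat_lit 29412) (XT.nd (nat_lit 156) (nat_lit 684) (nat_lit 0) (XT.nd (nat_lit 78) (nat_lit 304) (nat_lit 0) (XT.lf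 (nat_lit 0) (nat_lit 8222448829) (nat_lit 456) (nat_lit 5523181961) (nat_lit 76) (nat_lit 6095927524) (nat_lit 101) (nat_lit 5) (nat_lit 107) (nat_lit 5) (nat_lit 102) (nat_lit 5) (nat_lit 378) (nat_lit 317) (nat_lit 205)) (XT.lf (nat_lit 0) (nat_lit 9900571760) (nat_lit 304) (nat_lit 4399169034) (nat_lit 380) (nat_lit 5935333193) (nat_lit 97) (nat_lit 5) (nat_lit 101) (nat_lit 5) (nat_lit 102) (nat_lit 5) (nat_lit 379) (nat_lit 317) (nat_lit 204))) (XT.nd (nat_lit 78) (nat_lit 304) (nat_lit 0) (XT.lf (nat_lit 0) (nat_lit 6213861) (nat_lit 380) (nat_lit 15411928176) (nat_lit 76) (nat_lit 5220546118) (nat_lit 92) (nat_lit 5) (nat_lit 97) (nat_lit 5) (nat_lit 93) (nat_lit 5) (nat_lit 380) (nat_lit 317) (nat_lit 203)) (XT.nd (nat_lit 78) (nat_lit 0) (nat_lit 0) (XT.lf (nat_lit 0) (nat_lit 246644929) (nat_lit 304) (nat_lit 5881029470) (nat_lit 380) (nat_lit 14924311806) (nat_lit 88) (nat_lit 5) (nat_lit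 92) (nat_lit 5) (nat_lit 93) (nat_lit 5) (nat_lit 381) (nat_lit 317) (nat_lit 202)) (XT.lf (nat_lit 0) (nat_lit 12544143682) (nat_lit 380) (nat_lit 4946101596) (nat_lit 76) (nat_lit 3985216643) (nat_lit 88) (nat_lit 5) (nat_lit 93) (nat_lit 5) (nat_lit 89) (nat_lit 5) (nat_lit 382) (nat_lit 317) (nat_lit 201))))) (XT.nd (nat_lit 156) (nat_lit 1292) (nat_lit 0) (XT.nd (nat_lit 78) (nat_lit 0) (nat_lit 0) (XT.lf (nat_lit 0) (nat_lit 462163046) (nat_lit 0) (nat_lit 462163046) (nat_lit 1292) (nat_lit 2994594249) (nat_lit 492) (nat_lit 5) (nat_lit 492) (nat_lit 3) (nat_lit 509) (nat_lit 3) (nat_lit 318) (nat_lit 318) (nat_lit 264)) (XT.lf (nat_lit 0) (nat_lit 3744612511) (nat_lit 1292) (nat_lit 1422036327) (nat_lit 1368) (nat_lit 2750108736) (nat_lit 492) (nat_lit 5) (nat_lit 509) (nat_lit 3) (nat_lit 510) (nat_lit 5) (nat_lit 319) (nat_lit 318) (nat_lit 263))) (XT.nd (nat_lit 78) (nat_lit 1292) (nat_lit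 0) (XT.lf (nat_lit 76) (nat_lit 4245858543) (nat_lit 0) (nat_lit 1413370113) (nat_lit 1368) (nat_lit 2339627969) (nat_lit 493) (nat_lit 5) (nat_lit 492) (nat_lit 5) (nat_lit 510) (nat_lit 5) (nat_lit 320) (nat_lit 318) (nat_lit 262)) (XT.nd (nat_lit 78) (nat_lit 1368) (nat_lit 0) (XT.lf (nat_lit 76) (nat_lit 1991275757) (nat_lit 0) (nat_lit 5608656409) (nat_lit 1368) (nat_lit 484162236) (nat_lit 494) (nat_lit 5) (nat_lit 493) (nat_lit 5) (nat_lit 511) (nat_lit 5) (nat_lit 321) (nat_lit 318) (nat_lit 261)) (XT.lf (nat_lit 0) (nat_lit 1374691069) (nat_lit 1368) (nat_lit 270226163) (nat_lit 1444) (nat_lit 6527504396) (nat_lit 475) (nat_lit 5) (nat_lit 493) (nat_lit 5) (nat_lit 494) (nat_lit 5) (nat_lit 322) (nat_lit 318) (nat_lit 260))))))) (XT.nd (nat_lit 702) (nat_lit 8360) (nat_lit 0) (XT.nd (nat_lit 312) (nat_lit 1292) (nat_lit 0) (XT.nd (nat_lit 156) (nat_lit 1368) (nat_lit 0) (XT.nd (nat_lit 78)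 (nat_lit 0) (nat_lit 0) (XT.lf (nat_lit 0) (nat_lit 3269842901) (nat_lit 1368) (nat_lit 2518946080) (nat_lit 1444) (nat_lit 2474848502) (nat_lit 476) (nat_lit 5) (nat_lit 494) (nat_lit 5) (nat_lit 495) (nat_lit 5) (nat_lit 323) (nat_lit 318) (nat_lit 259)) (XT.lf (nat_lit 76) (nat_lit 3583213653) (nat_lit 0) (nat_lit 1610004437) (nat_lit 1444) (nat_lit 3164988069) (nat_lit 477) (nat_lit 5) (nat_lit 476) (nat_lit 5) (nat_lit 495) (nat_lit 5) (nat_lit 324) (nat_lit 318) (nat_lit 258))) (XT.nd (nat_lit 78) (nat_lit 1444) (nat_lit 0) (XT.lf (nat_lit 76) (nat_lit 1408714068) (nat_lit 0) (nat_lit 5746459283) (nat_lit 1444) (nat_lit 1300863416) (nat_lit 478) (nat_lit 5) (nat_lit 477) (nat_lit 5) (nat_lit 496) (nat_lit 5) (nat_lit 325) (nat_lit 318) (nat_lit 257)) (XT.lf (nat_lit 0) (nat_lit 592592307) (nat_lit 1444) (nat_lit 767883440) (nat_lit 1520) (nat_lit 7196655986) (nat_lit 458) (nat_lit 5) (nat_lit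 477) (nat_lit 5) (nat_lit 478) (nat_lit 5) (nat_lit 326) (nat_lit 318) (nat_lit 256)))) (XT.nd (nat_lit 156) (nat_lit 1368) (nat_lit 0) (XT.nd (nat_lit 78) (nat_lit 0) (nat_lit 0) (XT.lf (nat_lit 0) (nat_lit 2523395090) (nat_lit 1444) (nat_lit 2955017706) (nat_lit 1520) (nat_lit 3182749664) (nat_lit 459) (nat_lit 5) (nat_lit 478) (nat_lit 5) (nat_lit 479) (nat_lit 5) (nat_lit 327) (nat_lit 318) (nat_lit 255)) (XT.lf (nat_lit 76) (nat_lit 3615415192) (nat_lit 0) (nat_lit 876138200) (nat_lit 1520) (nat_lit 4277210172) (nat_lit 460) (nat_lit 5) (nat_lit 459) (nat_lit 5) (nat_lit 479) (nat_lit 5) (nat_lit 328) (nat_lit 318) (nat_lit 254))) (XT.nd (nat_lit 78) (nat_lit 1444) (nat_lit 0) (XT.lf (nat_lit 76) (nat_lit 1498433881) (nat_lit 0) (nat_lit 5018483445) (nat_lit 1520) (nat_lit 2362749133) (nat_lit 461) (nat_lit 5) (nat_lit 460) (nat_lit 5) (nat_lit 480) (nat_lit 5) (nat_lit 329) (nat_lit 318) (nat_lit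 253)) (XT.nd (nat_lit 78) (nat_lit 1444) (nat_lit 0) (XT.lf (nat_lit 76) (nat_lit 8374810524) (nat_lit 0) (nat_lit 213557184) (nat_lit 1520) (nat_lit 405858120) (nat_lit 461) (nat_lit 5) (nat_lit 460) (nat_lit 5) (nat_lit 480) (nat_lit 5) (nat_lit 330) (nat_lit 318) (nat_lit 252)) (XT.lf (nat_lit 0) (nat_lit 1607041081) (nat_lit 1520) (nat_lit 2764183053) (nat_lit 1596) (nat_lit 4740454714) (nat_lit 441) (nat_lit 5) (nat_lit 461) (nat_lit 5) (nat_lit 462) (nat_lit 5) (nat_lit 331) (nat_lit 318) (nat_lit 251)))))) (XT.nd (nat_lit 390) (nat_lit 5320) (nat_lit 0) (XT.nd (nat_lit 156) (nat_lit 3116) (nat_lit 0) (XT.nd (nat_lit 78) (nat_lit 0) (nat_lit 0) (XT.lf (nat_lit 0) (nat_lit 3659984146) (nat_lit 1520) (nat_lit 4925286040) (nat_lit 1596) (nat_lit 647661374) (nat_lit 442) (nat_lit 5) (nat_lit 462) (nat_lit 5) (nat_lit 463) (nat_lit 5) (nat_lit 332) (nat_lit 318) (nat_lit 250)) (XT.lf (nat_lit 76)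 (nat_lit 2231720888) (nat_lit 0) (nat_lit 3553964700) (nat_lit 1596) (nat_lit 3571945072) (nat_lit 443) (nat_lit 5) (nat_lit 442) (nat_lit 5) (nat_lit 463) (nat_lit 5) (nat_lit 333) (nat_lit 318) (nat_lit 249))) (XT.nd (nat_lit 78) (nat_lit 1672) (nat_lit 0) (XT.lf (nat_lit 0) (nat_lit 135779181) (nat_lit 1520) (nat_lit 7834330927) (nat_lit 1596) (nat_lit 1516092853) (nat_lit 423) (nat_lit 5) (nat_lit 443) (nat_lit 5) (nat_lit 444) (nat_lit 5) (nat_lit 334) (nat_lit 318) (nat_lit 248)) (XT.nd (nat_lit 78) (nat_lit 1596) (nat_lit 0) (XT.lf (nat_lit 0) (nat_lit 616669059) (nat_lit 1596) (nat_lit 1973485126) (nat_lit 76) (nat_lit 7027967471) (nat_lit 422) (nat_lit 5) (nat_lit 443) (nat_lit 5) (nat_lit 423) (nat_lit 5) (nat_lit 335) (nat_lit 318) (nat_lit 247)) (XT.lf (nat_lit 0) (nat_lit 2800411540) (nat_lit 1672) (nat_lit 4123451811) (nat_lit 76) (nat_lit 2829811121) (nat_lit 401) (nat_lit 5) (nat_lit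 423) (nat_lit 5) (nat_lit 402) (nat_lit 5) (nat_lit 336) (nat_lit 318) (nat_lit 246))))) (XT.nd (nat_lit 156) (nat_lit 1900) (nat_lit 0) (XT.nd (nat_lit 78) (nat_lit 1748) (nat_lit 0) (XT.lf (nat_lit 0) (nat_lit 3585774000) (nat_lit 1672) (nat_lit 1471330182) (nat_lit 1748) (nat_lit 4836068986) (nat_lit 379) (nat_lit 5) (nat_lit 401) (nat_lit 5) (nat_lit 402) (nat_lit 5) (nat_lit 337) (nat_lit 318) (nat_lit 245)) (XT.lf (nat_lit 0) (nat_lit 1498777754) (nat_lit 1748) (nat_lit 5902006312) (nat_lit 1824) (nat_lit 2635714270) (nat_lit 356) (nat_lit 5) (nat_lit 379) (nat_lit 5) (nat_lit 380) (nat_lit 5) (nat_lit 338) (nat_lit 318) (nat_lit 244))) (XT.nd (nat_lit 78) (nat_lit 1900) (nat_lit 0) (XT.lf (nat_lit 0) (nat_lit 9575954389) (nat_lit 1748) (nat_lit 246921402) (nat_lit 1824) (nat_lit 361111882) (nat_lit 356) (nat_lit 5) (nat_lit 379) (nat_lit 5) (nat_lit 380) (nat_lit 5) (nat_lit 339) (nat_lit 318)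 (nat_lit 243)) (XT.nd (nat_lit 78) (nat_lit 912) (nat_lit 0) (XT.lf (nat_lit 0) (nat_lit 1998354930) (nat_lit 988) (nat_lit 2764757689) (nat_lit 76) (nat_lit 5571704566) (nat_lit 343) (nat_lit 5) (nat_lit 356) (nat_lit 5) (nat_lit 344) (nat_lit 5) (nat_lit 340) (nat_lit 318) (nat_lit 242)) (XT.lf (nat_lit 0) (nat_lit 4430371479) (nat_lit 988) (nat_lit 4956380022) (nat_lit 76) (nat_lit 1103263345) (nat_lit 331) (nat_lit 5) (nat_lit 344) (nat_lit 5) (nat_lit 332) (nat_lit 5) (nat_lit 341) (nat_lit 318) (nat_lit 241))))))))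
noncomputable def xc85 : XT := (XT.nd (nat_lit 1482) (nat_lit 7144) (nat_lit 0) (XT.nd (nat_lit 702) (nat_lit 5092) (nat_lit 0) (XT.nd (nat_lit 312) (nat_lit 3040) (nat_lit 0) (XT.nd (nat_lit 156) (nat_lit 836) (nat_lit 0) (XT.nd (nat_lit 78) (nat_lit 836) (nat_lit 0) (XT.lf (nat_lit 0) (nat_lit 3443006918) (nat_lit 836) (nat_lit 3524020376) (nat_lit 912) (nat_lit 3682231294) (nat_lit 320) (nat_lit 5) (nat_lit 331) (nat_lit 5) (nat_lit 332) (nat_lit 5) (nat_lit 342) (nat_lit 318) (nat_lit 240)) (XT.lf (nat_lit 0) (nat_lit 1310547993) (nat_lit 836) (nat_lit 8287454430) (nat_lit 912) (nat_lit 1214935860) (nat_lit 309) (nat_lit 5) (nat_lit 320) (nat_lit 5) (nat_lit 321) (nat_lit 5) (nat_lit 343) (nat_lit 318) (nat_lit 239))) (XT.nd (nat_lit 78) (nat_lit 760) (nat_lit 0) (XT.lf (nat_lit 0) (nat_lit 1341920670) (nat_lit 912) (nat_lit 871170597) (nat_lit 76) (nat_lit 8767628034) (nat_lit 308) (nat_lit 5)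 (nat_lit 320) (nat_lit 5) (nat_lit 309) (nat_lit 5) (nat_lit 344) (nat_lit 318) (nat_lit 238)) (XT.lf (nat_lit 0) (nat_lit 3999550944) (nat_lit 836) (nat_lit 3101416822) (nat_lit 76) (nat_lit 4051615173) (nat_lit 298) (nat_lit 5) (nat_lit 309) (nat_lit 5) (nat_lit 299) (nat_lit 5) (nat_lit 345) (nat_lit 318) (nat_lit 237)))) (XT.nd (nat_lit 156) (nat_lit 1520) (nat_lit 0) (XT.nd (nat_lit 78) (nat_lit 760) (nat_lit 0) (XT.lf (nat_lit 0) (nat_lit 5948179167) (nat_lit 760) (nat_lit 810346423) (nat_lit 836) (nat_lit 4570665253) (nat_lit 288) (nat_lit 5) (nat_lit 298) (nat_lit 5) (nat_lit 299) (nat_lit 5) (nat_lit 346) (nat_lit 318) (nat_lit 236)) (XT.lf (nat_lit 0) (nat_lit 3774870082) (nat_lit 760) (nat_lit 5870969938) (nat_lit 836) (nat_lit 1864365618) (nat_lit 278) (nat_lit 5) (nat_lit 288) (nat_lit 5) (nat_lit 289) (nat_lit 5) (nat_lit 347) (nat_lit 318) (nat_lit 235))) (XT.nd (nat_lit 78) (nat_lit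 684) (nat_lit 0) (XT.lf (nat_lit 0) (nat_lit 930960549) (nat_lit 836) (nat_lit 10147023869) (nat_lit 76) (nat_lit 618166797) (nat_lit 267) (nat_lit 5) (nat_lit 278) (nat_lit 5) (nat_lit 268) (nat_lit 5) (nat_lit 348) (nat_lit 318) (nat_lit 234)) (XT.nd (nat_lit 78) (nat_lit 684) (nat_lit 0) (XT.lf (nat_lit 0) (nat_lit 3841451733) (nat_lit 836) (nat_lit 759388187) (nat_lit 76) (nat_lit 7285474619) (nat_lit 267) (nat_lit 5) (nat_lit 278) (nat_lit 5) (nat_lit 268) (nat_lit 5) (nat_lit 349) (nat_lit 318) (nat_lit 233)) (XT.lf (nat_lit 0) (nat_lit 6876937927) (nat_lit 760) (nat_lit 3105313267) (nat_lit 76) (nat_lit 2099195967) (nat_lit 258) (nat_lit 5) (nat_lit 268) (nat_lit 5) (nat_lit 259) (nat_lit 5) (nat_lit 350) (nat_lit 318) (nat_lit 232)))))) (XT.nd (nat_lit 390) (nat_lit 2432) (nat_lit 0) (XT.nd (nat_lit 156) (nat_lit 1292) (nat_lit 0) (XT.nd (nat_lit 78) (nat_lit 684) (nat_lit 0) (XT.lf (nat_lit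 0) (nat_lit 6751909820) (nat_lit 684) (nat_lit 3297607889) (nat_lit 760) (nat_lit 2232012949) (nat_lit 249) (nat_lit 5) (nat_lit 258) (nat_lit 5) (nat_lit 259) (nat_lit 5) (nat_lit 351) (nat_lit 318) (nat_lit 231)) (XT.lf (nat_lit 0) (nat_lit 859404022) (nat_lit 684) (nat_lit 8034958338) (nat_lit 76) (nat_lit 3592350666) (nat_lit 240) (nat_lit 5) (nat_lit 249) (nat_lit 5) (nat_lit 241) (nat_lit 5) (nat_lit 352) (nat_lit 318) (nat_lit 230))) (XT.nd (nat_lit 78) (nat_lit 608) (nat_lit 0) (XT.lf (nat_lit 0) (nat_lit 2063288984) (nat_lit 684) (nat_lit 1990742156) (nat_lit 760) (nat_lit 8642924964) (nat_lit 231) (nat_lit 5) (nat_lit 240) (nat_lit 5) (nat_lit 241) (nat_lit 5) (nat_lit 353) (nat_lit 318) (nat_lit 229)) (XT.nd (nat_lit 78) (nat_lit 608) (nat_lit 0) (XT.lf (nat_lit 0) (nat_lit 7400674717) (nat_lit 760) (nat_lit 409068729) (nat_lit 76) (nat_lit 5102655157) (nat_lit 231) (nat_lit 5) (nat_lit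 241) (nat_lit 5) (nat_lit 232) (nat_lit 5) (nat_lit 354) (nat_lit 318) (nat_lit 228)) (XT.lf (nat_lit 0) (nat_lit 10206390195) (nat_lit 608) (nat_lit 689962669) (nat_lit 684) (nat_lit 2236994032) (nat_lit 223) (nat_lit 5) (nat_lit 231) (nat_lit 5) (nat_lit 232) (nat_lit 5) (nat_lit 355) (nat_lit 318) (nat_lit 227))))) (XT.nd (nat_lit 156) (nat_lit 1216) (nat_lit 0) (XT.nd (nat_lit 78) (nat_lit 532) (nat_lit 0) (XT.lf (nat_lit 0) (nat_lit 1187809582) (nat_lit 684) (nat_lit 5559549211) (nat_lit 76) (nat_lit 6612097217) (nat_lit 214) (nat_lit 5) (nat_lit 223) (nat_lit 5) (nat_lit 215) (nat_lit 5) (nat_lit 356) (nat_lit 318) (nat_lit 226)) (XT.lf (nat_lit 0) (nat_lit 4718194539) (nat_lit 608) (nat_lit 8284955561) (nat_lit 76) (nat_lit 588252052) (nat_lit 207) (nat_lit 5) (nat_lit 215) (nat_lit 5) (nat_lit 208) (nat_lit 5) (nat_lit 357) (nat_lit 318) (nat_lit 225))) (XT.nd (nat_lit 78) (nat_lit 608) (nat_lit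 0) (XT.lf (nat_lit 0) (nat_lit 2698786636) (nat_lit 608) (nat_lit 5726996879) (nat_lit 684) (nat_lit 5403110973) (nat_lit 199) (nat_lit 5) (nat_lit 207) (nat_lit 5) (nat_lit 208) (nat_lit 5) (nat_lit 358) (nat_lit 318) (nat_lit 224)) (XT.nd (nat_lit 78) (nat_lit 76) (nat_lit 0) (XT.lf (nat_lit 0) (nat_lit 5118913) (nat_lit 532) (nat_lit 12278804183) (nat_lit 608) (nat_lit 1788815301) (nat_lit 192) (nat_lit 5) (nat_lit 199) (nat_lit 5) (nat_lit 200) (nat_lit 5) (nat_lit 359) (nat_lit 318) (nat_lit 223)) (XT.lf (nat_lit 0) (nat_lit 1994472443) (nat_lit 608) (nat_lit 2782951828) (nat_lit 76) (nat_lit 9544516316) (nat_lit 191) (nat_lit 5) (nat_lit 199) (nat_lit 5) (nat_lit 192) (nat_lit 5) (nat_lit 360) (nat_lit 318) (nat_lit 222))))))) (XT.nd (nat_lit 780) (nat_lit 3192) (nat_lit 0) (XT.nd (nat_lit 390) (nat_lit 1824) (nat_lit 0) (XT.nd (nat_lit 156) (nat_lit 1064) (nat_lit 0) (XT.nd (nat_lit 78) (nat_lit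 532) (nat_lit 0) (XT.lf (nat_lit 0) (nat_lit 5917037661) (nat_lit 608) (nat_lit 5687106110) (nat_lit 76) (nat_lit 2973249207) (nat_lit 184) (nat_lit 5) (nat_lit 192) (nat_lit 5) (nat_lit 185) (nat_lit 5) (nat_lit 361) (nat_lit 318) (nat_lit 221)) (XT.lf (nat_lit 0) (nat_lit 6125093898) (nat_lit 532) (nat_lit 3895945823) (nat_lit 608) (nat_lit 4818205922) (nat_lit 177) (nat_lit 5) (nat_lit 184) (nat_lit 5) (nat_lit 185) (nat_lit 5) (nat_lit 362) (nat_lit 318) (nat_lit 220))) (XT.nd (nat_lit 78) (nat_lit 532) (nat_lit 0) (XT.lf (nat_lit 0) (nat_lit 3242570376) (nat_lit 532) (nat_lit 11065260958) (nat_lit 608) (nat_lit 799940715) (nat_lit 170) (nat_lit 5) (nat_lit 177) (nat_lit 5) (nat_lit 178) (nat_lit 5) (nat_lit 363) (nat_lit 318) (nat_lit 219)) (XT.nd (nat_lit 78) (nat_lit 0) (nat_lit 0) (XT.lf (nat_lit 0) (nat_lit 214223767) (nat_lit 456) (nat_lit 3141680351) (nat_lit 532) (nat_lit 12026811129)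 (nat_lit 163) (nat_lit 5) (nat_lit 169) (nat_lit 5) (nat_lit 170) (nat_lit 5) (nat_lit 364) (nat_lit 318) (nat_lit 218)) (XT.lf (nat_lit 0) (nat_lit 7713562847) (nat_lit 532) (nat_lit 2918796262) (nat_lit 76) (nat_lit 5031692423) (nat_lit 163) (nat_lit 5) (nat_lit 170) (nat_lit 5) (nat_lit 164) (nat_lit 5) (nat_lit 365) (nat_lit 318) (nat_lit 217))))) (XT.nd (nat_lit 156) (nat_lit 836) (nat_lit 0) (XT.nd (nat_lit 78) (nat_lit 532) (nat_lit 0) (XT.lf (nat_lit 0) (nat_lit 9772076873) (nat_lit 456) (nat_lit 2489495363) (nat_lit 532) (nat_lit 3691073616) (nat_lit 157) (nat_lit 5) (nat_lit 163) (nat_lit 5) (nat_lit 164) (nat_lit 5) (nat_lit 366) (nat_lit 318) (nat_lit 216)) (XT.lf (nat_lit 0) (nat_lit 764486601) (nat_lit 532) (nat_lit 9603846928) (nat_lit 76) (nat_lit 5879934092) (nat_lit 150) (nat_lit 5) (nat_lit 157) (nat_lit 5) (nat_lit 151) (nat_lit 5) (nat_lit 367) (nat_lit 318) (nat_lit 215))) (XT.nd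 (nat_lit 78) (nat_lit 380) (nat_lit 0) (XT.lf (nat_lit 0) (nat_lit 3356095025) (nat_lit 456) (nat_lit 2004301751) (nat_lit 532) (nat_lit 11190746280) (nat_lit 144) (nat_lit 5) (nat_lit 150) (nat_lit 5) (nat_lit 151) (nat_lit 5) (nat_lit 368) (nat_lit 318) (nat_lit 214)) (XT.nd (nat_lit 78) (nat_lit 380) (nat_lit 0) (XT.lf (nat_lit 0) (nat_lit 10178992045) (nat_lit 532) (nat_lit 101896105) (nat_lit 76) (nat_lit 6580529746) (nat_lit 144) (nat_lit 5) (nat_lit 151) (nat_lit 5) (nat_lit 145) (nat_lit 5) (nat_lit 369) (nat_lit 318) (nat_lit 213)) (XT.lf (nat_lit 0) (nat_lit 13515836120) (nat_lit 380) (nat_lit 1704531889) (nat_lit 456) (nat_lit 1959077543) (nat_lit 139) (nat_lit 5) (nat_lit 144) (nat_lit 5) (nat_lit 145) (nat_lit 5) (nat_lit 370) (nat_lit 318) (nat_lit 212)))))) (XT.nd (nat_lit 390) (nat_lit 1444) (nat_lit 0) (XT.nd (nat_lit 156) (nat_lit 836) (nat_lit 0) (XT.nd (nat_lit 78) (nat_lit 380)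 (nat_lit 0) (XT.lf (nat_lit 0) (nat_lit 2958412423) (nat_lit 532) (nat_lit 7434095567) (nat_lit 76) (nat_lit 7112326220) (nat_lit 132) (nat_lit 5) (nat_lit 139) (nat_lit 5) (nat_lit 133) (nat_lit 5) (nat_lit 371) (nat_lit 318) (nat_lit 211)) (XT.lf (nat_lit 0) (nat_lit 6456047319) (nat_lit 380) (nat_lit 1596988500) (nat_lit 456) (nat_lit 9785573563) (nat_lit 127) (nat_lit 5) (nat_lit 132) (nat_lit 5) (nat_lit 133) (nat_lit 5) (nat_lit 372) (nat_lit 318) (nat_lit 210))) (XT.nd (nat_lit 78) (nat_lit 456) (nat_lit 0) (XT.lf (nat_lit 0) (nat_lit 2637464419) (nat_lit 380) (nat_lit 10757468583) (nat_lit 456) (nat_lit 4785584205) (nat_lit 122) (nat_lit 5) (nat_lit 127) (nat_lit 5) (nat_lit 128) (nat_lit 5) (nat_lit 373) (nat_lit 318) (nat_lit 209)) (XT.nd (nat_lit 78) (nat_lit 380) (nat_lit 0) (XT.lf (nat_lit 0) (nat_lit 426383639) (nat_lit 456) (nat_lit 1342184922) (nat_lit 76) (nat_lit 16762738935) (nat_lit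 121) (nat_lit 5) (nat_lit 127) (nat_lit 5) (nat_lit 122) (nat_lit 5) (nat_lit 374) (nat_lit 318) (nat_lit 208)) (XT.lf (nat_lit 0) (nat_lit 5845472048) (nat_lit 456) (nat_lit 5542074426) (nat_lit 76) (nat_lit 7502134274) (nat_lit 116) (nat_lit 5) (nat_lit 122) (nat_lit 5) (nat_lit 117) (nat_lit 5) (nat_lit 375) (nat_lit 318) (nat_lit 207))))) (XT.nd (nat_lit 156) (nat_lit 760) (nat_lit 0) (XT.nd (nat_lit 78) (nat_lit 304) (nat_lit 0) (XT.lf (nat_lit 0) (nat_lit 9317823048) (nat_lit 380) (nat_lit 2170207524) (nat_lit 456) (nat_lit 7769563944) (nat_lit 111) (nat_lit 5) (nat_lit 116) (nat_lit 5) (nat_lit 117) (nat_lit 5) (nat_lit 376) (nat_lit 318) (nat_lit 206)) (XT.lf (nat_lit 0) (nat_lit 5051850670) (nat_lit 304) (nat_lit 12345929158) (nat_lit 380) (nat_lit 2236814644) (nat_lit 107) (nat_lit 5) (nat_lit 111) (nat_lit 5) (nat_lit 112) (nat_lit 5) (nat_lit 377) (nat_lit 318) (nat_lit 205))) (XT.nd (nat_lit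 78) (nat_lit 304) (nat_lit 0) (XT.lf (nat_lit 0) (nat_lit 547492875) (nat_lit 380) (nat_lit 2934908457) (nat_lit 456) (nat_lit 16538742512) (nat_lit 101) (nat_lit 5) (nat_lit 106) (nat_lit 5) (nat_lit 107) (nat_lit 5) (nat_lit 378) (nat_lit 318) (nat_lit 204)) (XT.nd (nat_lit 78) (nat_lit 304) (nat_lit 0) (XT.lf (nat_lit 0) (nat_lit 9466674693) (nat_lit 456) (nat_lit 4175379530) (nat_lit 76) (nat_lit 6774468879) (nat_lit 101) (nat_lit 5) (nat_lit 107) (nat_lit 5) (nat_lit 102) (nat_lit 5) (nat_lit 379) (nat_lit 318) (nat_lit 203)) (XT.lf (nat_lit 0) (nat_lit 11686532098) (nat_lit 304) (nat_lit 4020365602) (nat_lit 380) (nat_lit 5115343938) (nat_lit 97) (nat_lit 5) (nat_lit 101) (nat_lit 5) (nat_lit 102) (nat_lit 5) (nat_lit 380) (nat_lit 318) (nat_lit 202))))))))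
noncomputable def xc86 : XT := (XT.nd (nat_lit 43368) (nat_lit 0) (nat_lit 10868) (XT.nd (nat_lit 42588) (nat_lit 0) (nat_lit 25384) (XT.nd (nat_lit 42198) (nat_lit 0) (nat_lit 29336) (XT.nd (nat_lit 42042) (nat_lit 0) (nat_lit 30704) (XT.nd (nat_lit 78) (nat_lit 304) (nat_lit 0) (XT.lf (nat_lit 0) (nat_lit 975592708) (nat_lit 380) (nat_lit 14380013857) (nat_lit 76) (nat_lit 5882552585) (nat_lit 92) (nat_lit 5) (nat_lit 97) (nat_lit 5) (nat_lit 93) (nat_lit 5) (nat_lit 381) (nat_lit 318) (nat_lit 201)) (XT.lf (nat_lit 0) (nat_lit 1724073650) (nat_lit 304) (nat_lit 5537938911) (nat_lit 380) (nat_lit 14402226175) (nat_lit 88) (nat_lit 5) (nat_lit 92) (nat_lit 5) (nat_lit 93) (nat_lit 5) (nat_lit 382) (nat_lit 318) (nat_lit 200))) (XT.nd (nat_lit 78) (nat_lit 0) (nat_lit 0) (XT.lf (nat_lit 0) (nat_lit 1392204471) (nat_lit 0) (nat_lit 1392204471) (nat_lit 1292) (nat_lit 1214158203) (nat_lit 492) (nat_lit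 5) (nat_lit 492) (nat_lit 3) (nat_lit 509) (nat_lit 3) (nat_lit 319) (nat_lit 319) (nat_lit 262)) (XT.lf (nat_lit 76) (nat_lit 404777852) (nat_lit 0) (nat_lit 7001217899) (nat_lit 1368) (nat_lit 674810362) (nat_lit 493) (nat_lit 5) (nat_lit 492) (nat_lit 5) (nat_lit 510) (nat_lit 5) (nat_lit 320) (nat_lit 319) (nat_lit 261)))) (XT.nd (nat_lit 156) (nat_lit 0) (nat_lit 76) (XT.nd (nat_lit 78) (nat_lit 0) (nat_lit 76) (XT.lf (nat_lit 0) (nat_lit 1102069254) (nat_lit 1368) (nat_lit 1967413977) (nat_lit 1444) (nat_lit 5097692227) (nat_lit 474) (nat_lit 5) (nat_lit 492) (nat_lit 5) (nat_lit 493) (nat_lit 5) (nat_lit 321) (nat_lit 319) (nat_lit 260)) (XT.lf (nat_lit 0) (nat_lit 2888799173) (nat_lit 1368) (nat_lit 4340283004) (nat_lit 1444) (nat_lit 1027695293) (nat_lit 475) (nat_lit 5) (nat_lit 493) (nat_lit 5) (nat_lit 494) (nat_lit 5) (nat_lit 322) (nat_lit 319) (nat_lit 259))) (XT.nd (nat_lit 78) (nat_lit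 0) (nat_lit 76) (XT.lf (nat_lit 76) (nat_lit 1618704805) (nat_lit 0) (nat_lit 3090208454) (nat_lit 1444) (nat_lit 3640602357) (nat_lit 476) (nat_lit 5) (nat_lit 475) (nat_lit 5) (nat_lit 494) (nat_lit 5) (nat_lit 323) (nat_lit 319) (nat_lit 258)) (XT.nd (nat_lit 78) (nat_lit 0) (nat_lit 0) (XT.lf (nat_lit 0) (nat_lit 6557997732) (nat_lit 1368) (nat_lit 674220092) (nat_lit 1444) (nat_lit 1213373192) (nat_lit 476) (nat_lit 5) (nat_lit 494) (nat_lit 5) (nat_lit 495) (nat_lit 5) (nat_lit 324) (nat_lit 319) (nat_lit 257)) (XT.lf (nat_lit 76) (nat_lit 5579849938) (nat_lit 0) (nat_lit 2878575432) (nat_lit 1444) (nat_lit 86247109) (nat_lit 477) (nat_lit 5) (nat_lit 476) (nat_lit 5) (nat_lit 495) (nat_lit 5) (nat_lit 325) (nat_lit 319) (nat_lit 256)))))) (XT.nd (nat_lit 390) (nat_lit 1368) (nat_lit 0) (XT.nd (nat_lit 156) (nat_lit 1368) (nat_lit 0) (XT.nd (nat_lit 78) (nat_lit 0) (nat_lit 0) (XT.lf (nat_lit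 0) (nat_lit 1723393110) (nat_lit 1444) (nat_lit 5278054048) (nat_lit 1520) (nat_lit 1645539600) (nat_lit 458) (nat_lit 5) (nat_lit 477) (nat_lit 5) (nat_lit 478) (nat_lit 5) (nat_lit 326) (nat_lit 319) (nat_lit 255)) (XT.lf (nat_lit 76) (nat_lit 1138564852) (nat_lit 0) (nat_lit 2436197096) (nat_lit 1520) (nat_lit 5177862977) (nat_lit 459) (nat_lit 5) (nat_lit 458) (nat_lit 5) (nat_lit 478) (nat_lit 5) (nat_lit 327) (nat_lit 319) (nat_lit 254))) (XT.nd (nat_lit 78) (nat_lit 1444) (nat_lit 0) (XT.lf (nat_lit 0) (nat_lit 5475709029) (nat_lit 1444) (nat_lit 1094148453) (nat_lit 1520) (nat_lit 2291730986) (nat_lit 459) (nat_lit 5) (nat_lit 478) (nat_lit 5) (nat_lit 479) (nat_lit 5) (nat_lit 328) (nat_lit 319) (nat_lit 253)) (XT.nd (nat_lit 78) (nat_lit 1444) (nat_lit 0) (XT.lf (nat_lit 76) (nat_lit 5641768789) (nat_lit 0) (nat_lit 1789810694) (nat_lit 1520) (nat_lit 1542319433) (nat_lit 460) (nat_lit 5)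 (nat_lit 459) (nat_lit 5) (nat_lit 479) (nat_lit 5) (nat_lit 329) (nat_lit 319) (nat_lit 252)) (XT.lf (nat_lit 0) (nat_lit 348750905) (nat_lit 1520) (nat_lit 5599150935) (nat_lit 1596) (nat_lit 3141727114) (nat_lit 440) (nat_lit 5) (nat_lit 460) (nat_lit 5) (nat_lit 461) (nat_lit 5) (nat_lit 330) (nat_lit 319) (nat_lit 251))))) (XT.nd (nat_lit 156) (nat_lit 1368) (nat_lit 0) (XT.nd (nat_lit 78) (nat_lit 0) (nat_lit 76) (XT.lf (nat_lit 76) (nat_lit 1311743314) (nat_lit 0) (nat_lit 954576485) (nat_lit 1596) (nat_lit 6942525964) (nat_lit 441) (nat_lit 5) (nat_lit 440) (nat_lit 5) (nat_lit 461) (nat_lit 5) (nat_lit 331) (nat_lit 319) (nat_lit 250)) (XT.lf (nat_lit 0) (nat_lit 4255569433) (nat_lit 1520) (nat_lit 890275377) (nat_lit 1596) (nat_lit 4185543399) (nat_lit 441) (nat_lit 5) (nat_lit 461) (nat_lit 5) (nat_lit 462) (nat_lit 5) (nat_lit 332) (nat_lit 319) (nat_lit 249))) (XT.nd (nat_lit 78) (nat_lit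 1520) (nat_lit 0) (XT.lf (nat_lit 0) (nat_lit 6302888869) (nat_lit 1520) (nat_lit 3091656660) (nat_lit 1596) (nat_lit 63124823) (nat_lit 442) (nat_lit 5) (nat_lit 462) (nat_lit 5) (nat_lit 463) (nat_lit 5) (nat_lit 333) (nat_lit 319) (nat_lit 248)) (XT.nd (nat_lit 78) (nat_lit 1520) (nat_lit 0) (XT.lf (nat_lit 76) (nat_lit 4247914810) (nat_lit 0) (nat_lit 4183322554) (nat_lit 1596) (nat_lit 1156141764) (nat_lit 443) (nat_lit 5) (nat_lit 442) (nat_lit 5) (nat_lit 463) (nat_lit 5) (nat_lit 334) (nat_lit 319) (nat_lit 247)) (XT.lf (nat_lit 0) (nat_lit 885822283) (nat_lit 1596) (nat_lit 7615968223) (nat_lit 76) (nat_lit 1219196352) (nat_lit 422) (nat_lit 5) (nat_lit 443) (nat_lit 5) (nat_lit 423) (nat_lit 5) (nat_lit 335) (nat_lit 319) (nat_lit 246))))))) (XT.nd (nat_lit 702) (nat_lit 5852) (nat_lit 0) (XT.nd (nat_lit 312) (nat_lit 3648) (nat_lit 0) (XT.nd (nat_lit 156) (nat_lit 3420) (nat_lit 0) (XT.nd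 (nat_lit 78) (nat_lit 1596) (nat_lit 0) (XT.lf (nat_lit 0) (nat_lit 2991399788) (nat_lit 1596) (nat_lit 86253286) (nat_lit 76) (nat_lit 6780463720) (nat_lit 422) (nat_lit 5) (nat_lit 443) (nat_lit 5) (nat_lit 423) (nat_lit 5) (nat_lit 336) (nat_lit 319) (nat_lit 245)) (XT.lf (nat_lit 0) (nat_lit 5181958166) (nat_lit 1672) (nat_lit 2282413635) (nat_lit 76) (nat_lit 2534579793) (nat_lit 401) (nat_lit 5) (nat_lit 423) (nat_lit 5) (nat_lit 402) (nat_lit 5) (nat_lit 337) (nat_lit 319) (nat_lit 244))) (XT.nd (nat_lit 78) (nat_lit 1748) (nat_lit 0) (XT.lf (nat_lit 0) (nat_lit 5626213350) (nat_lit 1672) (nat_lit 1825769212) (nat_lit 1748) (nat_lit 2691780335) (nat_lit 379) (nat_lit 5) (nat_lit 401) (nat_lit 5) (nat_lit 402) (nat_lit 5) (nat_lit 338) (nat_lit 319) (nat_lit 243)) (XT.lf (nat_lit 0) (nat_lit 3492686579) (nat_lit 1748) (nat_lit 6318649211) (nat_lit 1824) (nat_lit 481183862) (nat_lit 356) (nat_lit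 5) (nat_lit 379) (nat_lit 5) (nat_lit 380) (nat_lit 5) (nat_lit 339) (nat_lit 319) (nat_lit 242)))) (XT.nd (nat_lit 156) (nat_lit 2660) (nat_lit 0) (XT.nd (nat_lit 78) (nat_lit 0) (nat_lit 0) (XT.lf (nat_lit 0) (nat_lit 1315251656) (nat_lit 912) (nat_lit 466325327) (nat_lit 988) (nat_lit 8663765427) (nat_lit 343) (nat_lit 5) (nat_lit 355) (nat_lit 5) (nat_lit 356) (nat_lit 5) (nat_lit 340) (nat_lit 319) (nat_lit 241)) (XT.lf (nat_lit 0) (nat_lit 4147058185) (nat_lit 988) (nat_lit 912719534) (nat_lit 76) (nat_lit 5542104746) (nat_lit 343) (nat_lit 5) (nat_lit 356) (nat_lit 5) (nat_lit 344) (nat_lit 5) (nat_lit 341) (nat_lit 319) (nat_lit 240))) (XT.nd (nat_lit 78) (nat_lit 1748) (nat_lit 0) (XT.lf (nat_lit 0) (nat_lit 6602669674) (nat_lit 988) (nat_lit 3158621244) (nat_lit 76) (nat_lit 1001467522) (nat_lit 331) (nat_lit 5) (nat_lit 344) (nat_lit 5) (nat_lit 332) (nat_lit 5) (nat_lit 342) (nat_lit 319)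 (nat_lit 239)) (XT.nd (nat_lit 78) (nat_lit 912) (nat_lit 0) (XT.lf (nat_lit 0) (nat_lit 5461168463) (nat_lit 836) (nat_lit 3707289693) (nat_lit 912) (nat_lit 1759294730) (nat_lit 320) (nat_lit 5) (nat_lit 331) (nat_lit 5) (nat_lit 332) (nat_lit 5) (nat_lit 343) (nat_lit 319) (nat_lit 238)) (XT.lf (nat_lit 0) (nat_lit 725401230) (nat_lit 912) (nat_lit 7827585763) (nat_lit 76) (nat_lit 2544214084) (nat_lit 308) (nat_lit 5) (nat_lit 320) (nat_lit 5) (nat_lit 309) (nat_lit 5) (nat_lit 344) (nat_lit 319) (nat_lit 237)))))) (XT.nd (nat_lit 390) (nat_lit 2736) (nat_lit 0) (XT.nd (nat_lit 156) (nat_lit 2356) (nat_lit 0) (XT.nd (nat_lit 78) (nat_lit 0) (nat_lit 0) (XT.lf (nat_lit 0) (nat_lit 1010856137) (nat_lit 760) (nat_lit 2281160099) (nat_lit 836) (nat_lit 7978878963) (nat_lit 298) (nat_lit 5) (nat_lit 308) (nat_lit 5) (nat_lit 309) (nat_lit 5) (nat_lit 345) (nat_lit 319) (nat_lit 236)) (XT.lf (nat_lit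 0) (nat_lit 5979507847) (nat_lit 836) (nat_lit 1292107763) (nat_lit 76) (nat_lit 4177327038) (nat_lit 298) (nat_lit 5) (nat_lit 309) (nat_lit 5) (nat_lit 299) (nat_lit 5) (nat_lit 346) (nat_lit 319) (nat_lit 235))) (XT.nd (nat_lit 78) (nat_lit 1596) (nat_lit 0) (XT.lf (nat_lit 0) (nat_lit 7998112711) (nat_lit 760) (nat_lit 781116069) (nat_lit 836) (nat_lit 2852490129) (nat_lit 288) (nat_lit 5) (nat_lit 298) (nat_lit 5) (nat_lit 299) (nat_lit 5) (nat_lit 347) (nat_lit 319) (nat_lit 234)) (XT.nd (nat_lit 78) (nat_lit 836) (nat_lit 0) (XT.lf (nat_lit 0) (nat_lit 5765641437) (nat_lit 760) (nat_lit 5947098917) (nat_lit 836) (nat_lit 106261036) (nat_lit 278) (nat_lit 5) (nat_lit 288) (nat_lit 5) (nat_lit 289) (nat_lit 5) (nat_lit 348) (nat_lit 319) (nat_lit 233)) (XT.lf (nat_lit 0) (nat_lit 2709927373) (nat_lit 836) (nat_lit 8544906551) (nat_lit 76) (nat_lit 756267387) (nat_lit 267) (nat_lit 5) (nat_lit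 278) (nat_lit 5) (nat_lit 268) (nat_lit 5) (nat_lit 349) (nat_lit 319) (nat_lit 232))))) (XT.nd (nat_lit 156) (nat_lit 2052) (nat_lit 0) (XT.nd (nat_lit 78) (nat_lit 0) (nat_lit 0) (XT.lf (nat_lit 0) (nat_lit 1083032423) (nat_lit 684) (nat_lit 4580731526) (nat_lit 760) (nat_lit 6544111584) (nat_lit 258) (nat_lit 5) (nat_lit 267) (nat_lit 5) (nat_lit 268) (nat_lit 5) (nat_lit 350) (nat_lit 319) (nat_lit 231)) (XT.lf (nat_lit 0) (nat_lit 8746620148) (nat_lit 760) (nat_lit 1344426592) (nat_lit 76) (nat_lit 2318715122) (nat_lit 258) (nat_lit 5) (nat_lit 268) (nat_lit 5) (nat_lit 259) (nat_lit 5) (nat_lit 351) (nat_lit 319) (nat_lit 230))) (XT.nd (nat_lit 78) (nat_lit 1368) (nat_lit 0) (XT.lf (nat_lit 0) (nat_lit 8778433493) (nat_lit 684) (nat_lit 3199338442) (nat_lit 760) (nat_lit 638833122) (nat_lit 249) (nat_lit 5) (nat_lit 258) (nat_lit 5) (nat_lit 259) (nat_lit 5) (nat_lit 352) (nat_lit 319) (nat_lit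 229)) (XT.nd (nat_lit 78) (nat_lit 684) (nat_lit 0) (XT.lf (nat_lit 0) (nat_lit 2489018926) (nat_lit 684) (nat_lit 6427951886) (nat_lit 76) (nat_lit 3911471072) (nat_lit 240) (nat_lit 5) (nat_lit 249) (nat_lit 5) (nat_lit 241) (nat_lit 5) (nat_lit 353) (nat_lit 319) (nat_lit 228)) (XT.lf (nat_lit 0) (nat_lit 3943260356) (nat_lit 684) (nat_lit 1801315060) (nat_lit 760) (nat_lit 7301138209) (nat_lit 231) (nat_lit 5) (nat_lit 240) (nat_lit 5) (nat_lit 241) (nat_lit 5) (nat_lit 354) (nat_lit 319) (nat_lit 227))))))))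
noncomputable def xc87 : XT := (XT.nd (nat_lit 1482) (nat_lit 2660) (nat_lit 0) (XT.nd (nat_lit 702) (nat_lit 3800) (nat_lit 0) (XT.nd (nat_lit 312) (nat_lit 2280) (nat_lit 0) (XT.nd (nat_lit 156) (nat_lit 1216) (nat_lit 0) (XT.nd (nat_lit 78) (nat_lit 0) (nat_lit 0) (XT.lf (nat_lit 0) (nat_lit 1391674593) (nat_lit 608) (nat_lit 7764853112) (nat_lit 684) (nat_lit 4111816011) (nat_lit 223) (nat_lit 5) (nat_lit 231) (nat_lit 5) (nat_lit 232) (nat_lit 5) (nat_lit 355) (nat_lit 319) (nat_lit 226)) (XT.lf (nat_lit 0) (nat_lit 12278227320) (nat_lit 608) (nat_lit 436865378) (nat_lit 684) (nat_lit 781689280) (nat_lit 223) (nat_lit 5) (nat_lit 231) (nat_lit 5) (nat_lit 232) (nat_lit 5) (nat_lit 356) (nat_lit 319) (nat_lit 225))) (XT.nd (nat_lit 78) (nat_lit 532) (nat_lit 0) (XT.lf (nat_lit 0) (nat_lit 2695405941) (nat_lit 684) (nat_lit 3940760293) (nat_lit 76) (nat_lit 7093940955) (nat_lit 214) (nat_lit 5)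 (nat_lit 223) (nat_lit 5) (nat_lit 215) (nat_lit 5) (nat_lit 357) (nat_lit 319) (nat_lit 224)) (XT.lf (nat_lit 0) (nat_lit 6302287230) (nat_lit 608) (nat_lit 6749467125) (nat_lit 76) (nat_lit 917865856) (nat_lit 207) (nat_lit 5) (nat_lit 215) (nat_lit 5) (nat_lit 208) (nat_lit 5) (nat_lit 358) (nat_lit 319) (nat_lit 223)))) (XT.nd (nat_lit 156) (nat_lit 1140) (nat_lit 0) (XT.nd (nat_lit 78) (nat_lit 532) (nat_lit 0) (XT.lf (nat_lit 0) (nat_lit 4534843455) (nat_lit 608) (nat_lit 5555639721) (nat_lit 684) (nat_lit 4124386159) (nat_lit 199) (nat_lit 5) (nat_lit 207) (nat_lit 5) (nat_lit 208) (nat_lit 5) (nat_lit 359) (nat_lit 319) (nat_lit 222)) (XT.lf (nat_lit 0) (nat_lit 1758122728) (nat_lit 532) (nat_lit 12278663994) (nat_lit 608) (nat_lit 429812477) (nat_lit 192) (nat_lit 5) (nat_lit 199) (nat_lit 5) (nat_lit 200) (nat_lit 5) (nat_lit 360) (nat_lit 319) (nat_lit 221))) (XT.nd (nat_lit 78) (nat_lit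 1064) (nat_lit 0) (XT.lf (nat_lit 0) (nat_lit 3407840497) (nat_lit 608) (nat_lit 1146052398) (nat_lit 76) (nat_lit 10170031356) (nat_lit 191) (nat_lit 5) (nat_lit 199) (nat_lit 5) (nat_lit 192) (nat_lit 5) (nat_lit 361) (nat_lit 319) (nat_lit 220)) (XT.nd (nat_lit 78) (nat_lit 532) (nat_lit 0) (XT.lf (nat_lit 0) (nat_lit 7422033295) (nat_lit 608) (nat_lit 4140539547) (nat_lit 76) (nat_lit 3425005950) (nat_lit 184) (nat_lit 5) (nat_lit 192) (nat_lit 5) (nat_lit 185) (nat_lit 5) (nat_lit 362) (nat_lit 319) (nat_lit 219)) (XT.lf (nat_lit 0) (nat_lit 7998167261) (nat_lit 532) (nat_lit 3623291748) (nat_lit 608) (nat_lit 3636399031) (nat_lit 177) (nat_lit 5) (nat_lit 184) (nat_lit 5) (nat_lit 185) (nat_lit 5) (nat_lit 363) (nat_lit 319) (nat_lit 218)))))) (XT.nd (nat_lit 390) (nat_lit 1748) (nat_lit 0) (XT.nd (nat_lit 156) (nat_lit 988) (nat_lit 0) (XT.nd (nat_lit 78) (nat_lit 456) (nat_lit 0) (XT.lf (nat_lit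 0) (nat_lit 471187843) (nat_lit 608) (nat_lit 10512639181) (nat_lit 76) (nat_lit 4551056969) (nat_lit 169) (nat_lit 5) (nat_lit 177) (nat_lit 5) (nat_lit 170) (nat_lit 5) (nat_lit 364) (nat_lit 319) (nat_lit 217)) (XT.lf (nat_lit 0) (nat_lit 1896187570) (nat_lit 456) (nat_lit 2818185643) (nat_lit 532) (nat_lit 11104141636) (nat_lit 163) (nat_lit 5) (nat_lit 169) (nat_lit 5) (nat_lit 170) (nat_lit 5) (nat_lit 365) (nat_lit 319) (nat_lit 216))) (XT.nd (nat_lit 78) (nat_lit 988) (nat_lit 0) (XT.lf (nat_lit 0) (nat_lit 9168760267) (nat_lit 532) (nat_lit 1357324551) (nat_lit 76) (nat_lit 5582901755) (nat_lit 163) (nat_lit 5) (nat_lit 170) (nat_lit 5) (nat_lit 164) (nat_lit 5) (nat_lit 366) (nat_lit 319) (nat_lit 215)) (XT.nd (nat_lit 78) (nat_lit 532) (nat_lit 0) (XT.lf (nat_lit 0) (nat_lit 11687521135) (nat_lit 456) (nat_lit 2140577349) (nat_lit 532) (nat_lit 2578657342) (nat_lit 157) (nat_lit 5) (nat_lit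 163) (nat_lit 5) (nat_lit 164) (nat_lit 5) (nat_lit 367) (nat_lit 319) (nat_lit 214)) (XT.lf (nat_lit 0) (nat_lit 1972627626) (nat_lit 532) (nat_lit 8258410544) (nat_lit 76) (nat_lit 6480501413) (nat_lit 150) (nat_lit 5) (nat_lit 157) (nat_lit 5) (nat_lit 151) (nat_lit 5) (nat_lit 368) (nat_lit 319) (nat_lit 213))))) (XT.nd (nat_lit 156) (nat_lit 912) (nat_lit 0) (XT.nd (nat_lit 78) (nat_lit 380) (nat_lit 0) (XT.lf (nat_lit 0) (nat_lit 5063827231) (nat_lit 456) (nat_lit 1618501329) (nat_lit 532) (nat_lit 10341668196) (nat_lit 144) (nat_lit 5) (nat_lit 150) (nat_lit 5) (nat_lit 151) (nat_lit 5) (nat_lit 369) (nat_lit 319) (nat_lit 212)) (XT.lf (nat_lit 0) (nat_lit 1495077233) (nat_lit 380) (nat_lit 10129103403) (nat_lit 456) (nat_lit 5719838572) (nat_lit 139) (nat_lit 5) (nat_lit 144) (nat_lit 5) (nat_lit 145) (nat_lit 5) (nat_lit 370) (nat_lit 319) (nat_lit 211))) (XT.nd (nat_lit 78) (nat_lit 912)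 (nat_lit 0) (XT.lf (nat_lit 0) (nat_lit 15476092749) (nat_lit 380) (nat_lit 1308176892) (nat_lit 456) (nat_lit 887981574) (nat_lit 139) (nat_lit 5) (nat_lit 144) (nat_lit 5) (nat_lit 145) (nat_lit 5) (nat_lit 371) (nat_lit 319) (nat_lit 210)) (XT.nd (nat_lit 78) (nat_lit 380) (nat_lit 0) (XT.lf (nat_lit 0) (nat_lit 4142700102) (nat_lit 532) (nat_lit 6093238057) (nat_lit 76) (nat_lit 7771719280) (nat_lit 132) (nat_lit 5) (nat_lit 139) (nat_lit 5) (nat_lit 133) (nat_lit 5) (nat_lit 372) (nat_lit 319) (nat_lit 209)) (XT.lf (nat_lit 0) (nat_lit 8188237013) (nat_lit 380) (nat_lit 1180005407) (nat_lit 456) (nat_lit 8983653815) (nat_lit 127) (nat_lit 5) (nat_lit 132) (nat_lit 5) (nat_lit 133) (nat_lit 5) (nat_lit 373) (nat_lit 319) (nat_lit 208))))))) (XT.nd (nat_lit 42744) (nat_lit 0) (nat_lit 26372) (XT.nd (nat_lit 390) (nat_lit 1140) (nat_lit 0) (XT.nd (nat_lit 156) (nat_lit 684) (nat_lit 0) (XT.nd (nat_lit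 78) (nat_lit 456) (nat_lit 0) (XT.lf (nat_lit 0) (nat_lit 4248683325) (nat_lit 380) (nat_lit 10603320693) (nat_lit 456) (nat_lit 3852436752) (nat_lit 122) (nat_lit 5) (nat_lit 127) (nat_lit 5) (nat_lit 128) (nat_lit 5) (nat_lit 374) (nat_lit 319) (nat_lit 207)) (XT.lf (nat_lit 0) (nat_lit 120681983) (nat_lit 380) (nat_lit 1350921051) (nat_lit 456) (nat_lit 17594626300) (nat_lit 116) (nat_lit 5) (nat_lit 121) (nat_lit 5) (nat_lit 122) (nat_lit 5) (nat_lit 375) (nat_lit 319) (nat_lit 206))) (XT.nd (nat_lit 78) (nat_lit 684) (nat_lit 0) (XT.lf (nat_lit 0) (nat_lit 7035049136) (nat_lit 456) (nat_lit 4213591588) (nat_lit 76) (nat_lit 8187088102) (nat_lit 116) (nat_lit 5) (nat_lit 122) (nat_lit 5) (nat_lit 117) (nat_lit 5) (nat_lit 376) (nat_lit 319) (nat_lit 205)) (XT.nd (nat_lit 78) (nat_lit 304) (nat_lit 0) (XT.lf (nat_lit 0) (nat_lit 11067852347) (nat_lit 380) (nat_lit 1759039312) (nat_lit 456) (nat_lit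 6988198631) (nat_lit 111) (nat_lit 5) (nat_lit 116) (nat_lit 5) (nat_lit 117) (nat_lit 5) (nat_lit 377) (nat_lit 319) (nat_lit 204)) (XT.lf (nat_lit 0) (nat_lit 6666905469) (nat_lit 304) (nat_lit 12230574286) (nat_lit 380) (nat_lit 1306259690) (nat_lit 107) (nat_lit 5) (nat_lit 111) (nat_lit 5) (nat_lit 112) (nat_lit 5) (nat_lit 378) (nat_lit 319) (nat_lit 203))))) (XT.nd (nat_lit 156) (nat_lit 684) (nat_lit 0) (XT.nd (nat_lit 78) (nat_lit 0) (nat_lit 0) (XT.lf (nat_lit 0) (nat_lit 2016871149) (nat_lit 380) (nat_lit 2535333733) (nat_lit 456) (nat_lit 16049945373) (nat_lit 101) (nat_lit 5) (nat_lit 106) (nat_lit 5) (nat_lit 107) (nat_lit 5) (nat_lit 379) (nat_lit 319) (nat_lit 202)) (XT.lf (nat_lit 0) (nat_lit 10690963745) (nat_lit 456) (nat_lit 2874023996) (nat_lit 76) (nat_lit 7444913361) (nat_lit 101) (nat_lit 5) (nat_lit 107) (nat_lit 5) (nat_lit 102) (nat_lit 5) (nat_lit 380) (nat_lit 319) (nat_lit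 201))) (XT.nd (nat_lit 78) (nat_lit 380) (nat_lit 0) (XT.lf (nat_lit 0) (nat_lit 13440599816) (nat_lit 304) (nat_lit 3659518843) (nat_lit 380) (nat_lit 4328047116) (nat_lit 97) (nat_lit 5) (nat_lit 101) (nat_lit 5) (nat_lit 102) (nat_lit 5) (nat_lit 381) (nat_lit 319) (nat_lit 200)) (XT.nd (nat_lit 42042) (nat_lit 0) (nat_lit 28956) (XT.lf (nat_lit 0) (nat_lit 1918417311) (nat_lit 380) (nat_lit 13402919443) (nat_lit 76) (nat_lit 6535407787) (nat_lit 92) (nat_lit 5) (nat_lit 97) (nat_lit 5) (nat_lit 93) (nat_lit 5) (nat_lit 382) (nat_lit 319) (nat_lit 199)) (XT.lf (nat_lit 0) (nat_lit 505610257) (nat_lit 1444) (nat_lit 1788551689) (nat_lit 1444) (nat_lit 1788551689) (nat_lit 473) (nat_lit 3) (nat_lit 492) (nat_lit 3) (nat_lit 492) (nat_lit 5) (nat_lit 320) (nat_lit 320) (nat_lit 260)))))) (XT.nd (nat_lit 390) (nat_lit 1368) (nat_lit 0) (XT.nd (nat_lit 156) (nat_lit 1216) (nat_lit 0) (XT.nd (nat_lit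 78) (nat_lit 0) (nat_lit 76) (XT.lf (nat_lit 76) (nat_lit 2175910693) (nat_lit 0) (nat_lit 520442938) (nat_lit 1444) (nat_lit 5557035466) (nat_lit 474) (nat_lit 5) (nat_lit 473) (nat_lit 3) (nat_lit 492) (nat_lit 5) (nat_lit 321) (nat_lit 320) (nat_lit 259)) (XT.lf (nat_lit 0) (nat_lit 4415629855) (nat_lit 1368) (nat_lit 251973281) (nat_lit 1444) (nat_lit 3676758584) (nat_lit 474) (nat_lit 5) (nat_lit 492) (nat_lit 5) (nat_lit 493) (nat_lit 5) (nat_lit 322) (nat_lit 320) (nat_lit 258))) (XT.nd (nat_lit 78) (nat_lit 1292) (nat_lit 0) (XT.lf (nat_lit 76) (nat_lit 5786767127) (nat_lit 0) (nat_lit 378016132) (nat_lit 1444) (nat_lit 2273756733) (nat_lit 475) (nat_lit 5) (nat_lit 474) (nat_lit 5) (nat_lit 493) (nat_lit 5) (nat_lit 323) (nat_lit 320) (nat_lit 257)) (XT.nd (nat_lit 78) (nat_lit 1368) (nat_lit 0) (XT.lf (nat_lit 76) (nat_lit 3458892542) (nat_lit 0) (nat_lit 4496964990) (nat_lit 1444) (nat_lit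 579938366) (nat_lit 476) (nat_lit 5) (nat_lit 475) (nat_lit 5) (nat_lit 494) (nat_lit 5) (nat_lit 324) (nat_lit 320) (nat_lit 256)) (XT.lf (nat_lit 0) (nat_lit 1117520565) (nat_lit 1444) (nat_lit 7513553739) (nat_lit 1520) (nat_lit 5421140) (nat_lit 457) (nat_lit 5) (nat_lit 476) (nat_lit 5) (nat_lit 477) (nat_lit 5) (nat_lit 325) (nat_lit 320) (nat_lit 255))))) (XT.nd (nat_lit 156) (nat_lit 1368) (nat_lit 0) (XT.nd (nat_lit 78) (nat_lit 0) (nat_lit 76) (XT.lf (nat_lit 0) (nat_lit 2864604174) (nat_lit 1444) (nat_lit 1231327841) (nat_lit 1520) (nat_lit 4644113778) (nat_lit 457) (nat_lit 5) (nat_lit 476) (nat_lit 5) (nat_lit 477) (nat_lit 5) (nat_lit 326) (nat_lit 320) (nat_lit 254)) (XT.lf (nat_lit 0) (nat_lit 4645968257) (nat_lit 1444) (nat_lit 3577607016) (nat_lit 1520) (nat_lit 623526997) (nat_lit 458) (nat_lit 5) (nat_lit 477) (nat_lit 5) (nat_lit 478) (nat_lit 5) (nat_lit 327) (nat_lit 320) (nat_lit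 253))) (XT.nd (nat_lit 78) (nat_lit 1444) (nat_lit 0) (XT.lf (nat_lit 76) (nat_lit 3001353813) (nat_lit 0) (nat_lit 3479779367) (nat_lit 1520) (nat_lit 2476265960) (nat_lit 459) (nat_lit 5) (nat_lit 458) (nat_lit 5) (nat_lit 478) (nat_lit 5) (nat_lit 328) (nat_lit 320) (nat_lit 252)) (XT.nd (nat_lit 78) (nat_lit 1520) (nat_lit 0) (XT.lf (nat_lit 76) (nat_lit 720080450) (nat_lit 0) (nat_lit 7636057874) (nat_lit 1520) (nat_lit 715205740) (nat_lit 460) (nat_lit 5) (nat_lit 459) (nat_lit 5) (nat_lit 479) (nat_lit 5) (nat_lit 329) (nat_lit 320) (nat_lit 251)) (XT.lf (nat_lit 0) (nat_lit 1095696994) (nat_lit 1520) (nat_lit 1576903945) (nat_lit 1596) (nat_lit 6515768499) (nat_lit 439) (nat_lit 5) (nat_lit 459) (nat_lit 5) (nat_lit 460) (nat_lit 5) (nat_lit 330) (nat_lit 320) (nat_lit 250))))))))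
noncomputable def xc88 : XT := (XT.nd (nat_lit 1482) (nat_lit 9120) (nat_lit 0) (XT.nd (nat_lit 702) (nat_lit 7752) (nat_lit 0) (XT.nd (nat_lit 312) (nat_lit 4636) (nat_lit 0) (XT.nd (nat_lit 156) (nat_lit 0) (nat_lit 76) (XT.nd (nat_lit 78) (nat_lit 0) (nat_lit 0) (XT.lf (nat_lit 0) (nat_lit 2951790487) (nat_lit 1520) (nat_lit 3893510729) (nat_lit 1596) (nat_lit 2463530402) (nat_lit 440) (nat_lit 5) (nat_lit 460) (nat_lit 5) (nat_lit 461) (nat_lit 5) (nat_lit 331) (nat_lit 320) (nat_lit 249)) (XT.lf (nat_lit 76) (nat_lit 3194313173) (nat_lit 0) (nat_lit 1669028712) (nat_lit 1596) (nat_lit 4569601549) (nat_lit 441) (nat_lit 5) (nat_lit 440) (nat_lit 5) (nat_lit 461) (nat_lit 5) (nat_lit 332) (nat_lit 320) (nat_lit 248))) (XT.nd (nat_lit 78) (nat_lit 0) (nat_lit 0) (XT.lf (nat_lit 76) (nat_lit 939845542) (nat_lit 0) (nat_lit 5900541353) (nat_lit 1596) (nat_lit 2720259126) (nat_lit 442) (nat_lit 5)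 (nat_lit 441) (nat_lit 5) (nat_lit 462) (nat_lit 5) (nat_lit 333) (nat_lit 320) (nat_lit 247)) (XT.lf (nat_lit 76) (nat_lit 8372008482) (nat_lit 0) (nat_lit 510979267) (nat_lit 1596) (nat_lit 809096522) (nat_lit 442) (nat_lit 5) (nat_lit 441) (nat_lit 5) (nat_lit 462) (nat_lit 5) (nat_lit 334) (nat_lit 320) (nat_lit 246)))) (XT.nd (nat_lit 156) (nat_lit 3192) (nat_lit 0) (XT.nd (nat_lit 78) (nat_lit 0) (nat_lit 76) (XT.lf (nat_lit 0) (nat_lit 1171735572) (nat_lit 1596) (nat_lit 3621955257) (nat_lit 1672) (nat_lit 5033101533) (nat_lit 421) (nat_lit 5) (nat_lit 442) (nat_lit 5) (nat_lit 443) (nat_lit 5) (nat_lit 335) (nat_lit 320) (nat_lit 245)) (XT.lf (nat_lit 0) (nat_lit 3199999531) (nat_lit 1596) (nat_lit 5954703198) (nat_lit 76) (nat_lit 810779258) (nat_lit 422) (nat_lit 5) (nat_lit 443) (nat_lit 5) (nat_lit 423) (nat_lit 5) (nat_lit 336) (nat_lit 320) (nat_lit 244))) (XT.nd (nat_lit 78) (nat_lit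 1672) (nat_lit 0) (XT.lf (nat_lit 0) (nat_lit 1769063686) (nat_lit 1596) (nat_lit 3544537409) (nat_lit 1672) (nat_lit 4794267856) (nat_lit 401) (nat_lit 5) (nat_lit 422) (nat_lit 5) (nat_lit 423) (nat_lit 5) (nat_lit 337) (nat_lit 320) (nat_lit 243)) (XT.nd (nat_lit 78) (nat_lit 1672) (nat_lit 0) (XT.lf (nat_lit 0) (nat_lit 7503063324) (nat_lit 1672) (nat_lit 498928526) (nat_lit 76) (nat_lit 2252312294) (nat_lit 401) (nat_lit 5) (nat_lit 423) (nat_lit 5) (nat_lit 402) (nat_lit 5) (nat_lit 338) (nat_lit 320) (nat_lit 242)) (XT.lf (nat_lit 0) (nat_lit 7616911458) (nat_lit 1672) (nat_lit 2173028974) (nat_lit 1748) (nat_lit 614582269) (nat_lit 379) (nat_lit 5) (nat_lit 401) (nat_lit 5) (nat_lit 402) (nat_lit 5) (nat_lit 339) (nat_lit 320) (nat_lit 241)))))) (XT.nd (nat_lit 390) (nat_lit 3192) (nat_lit 0) (XT.nd (nat_lit 156) (nat_lit 1824) (nat_lit 0) (XT.nd (nat_lit 78) (nat_lit 912) (nat_lit 0) (XT.lf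 (nat_lit 0) (nat_lit 1588652223) (nat_lit 1824) (nat_lit 5134725455) (nat_lit 76) (nat_lit 3835222309) (nat_lit 355) (nat_lit 5) (nat_lit 379) (nat_lit 5) (nat_lit 356) (nat_lit 5) (nat_lit 340) (nat_lit 320) (nat_lit 240)) (XT.lf (nat_lit 0) (nat_lit 3190322165) (nat_lit 912) (nat_lit 673873994) (nat_lit 988) (nat_lit 6852753976) (nat_lit 343) (nat_lit 5) (nat_lit 355) (nat_lit 5) (nat_lit 356) (nat_lit 5) (nat_lit 341) (nat_lit 320) (nat_lit 239))) (XT.nd (nat_lit 78) (nat_lit 912) (nat_lit 0) (XT.lf (nat_lit 0) (nat_lit 895549235) (nat_lit 912) (nat_lit 5350584858) (nat_lit 988) (nat_lit 4633176505) (nat_lit 331) (nat_lit 5) (nat_lit 343) (nat_lit 5) (nat_lit 344) (nat_lit 5) (nat_lit 342) (nat_lit 320) (nat_lit 238)) (XT.nd (nat_lit 78) (nat_lit 912) (nat_lit 0) (XT.lf (nat_lit 0) (nat_lit 8723067656) (nat_lit 988) (nat_lit 1418663905) (nat_lit 76) (nat_lit 904361277) (nat_lit 331) (nat_lit 5)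 (nat_lit 344) (nat_lit 5) (nat_lit 332) (nat_lit 5) (nat_lit 343) (nat_lit 320) (nat_lit 237)) (XT.lf (nat_lit 0) (nat_lit 103232346) (nat_lit 912) (nat_lit 3787680386) (nat_lit 76) (nat_lit 7326028316) (nat_lit 319) (nat_lit 5) (nat_lit 331) (nat_lit 5) (nat_lit 320) (nat_lit 5) (nat_lit 344) (nat_lit 320) (nat_lit 236))))) (XT.nd (nat_lit 156) (nat_lit 1596) (nat_lit 0) (XT.nd (nat_lit 78) (nat_lit 760) (nat_lit 0) (XT.lf (nat_lit 0) (nat_lit 2595002876) (nat_lit 912) (nat_lit 6222700430) (nat_lit 76) (nat_lit 2574438639) (nat_lit 308) (nat_lit 5) (nat_lit 320) (nat_lit 5) (nat_lit 309) (nat_lit 5) (nat_lit 345) (nat_lit 320) (nat_lit 235)) (XT.lf (nat_lit 0) (nat_lit 2851047571) (nat_lit 760) (nat_lit 2345499039) (nat_lit 836) (nat_lit 6375371337) (nat_lit 298) (nat_lit 5) (nat_lit 308) (nat_lit 5) (nat_lit 309) (nat_lit 5) (nat_lit 346) (nat_lit 320) (nat_lit 234))) (XT.nd (nat_lit 78) (nat_lit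 836) (nat_lit 0) (XT.lf (nat_lit 0) (nat_lit 468421233) (nat_lit 760) (nat_lit 7446713616) (nat_lit 836) (nat_lit 3841191329) (nat_lit 288) (nat_lit 5) (nat_lit 298) (nat_lit 5) (nat_lit 299) (nat_lit 5) (nat_lit 347) (nat_lit 320) (nat_lit 233)) (XT.nd (nat_lit 78) (nat_lit 836) (nat_lit 0) (XT.lf (nat_lit 0) (nat_lit 10002113185) (nat_lit 760) (nat_lit 754082262) (nat_lit 836) (nat_lit 1189271279) (nat_lit 288) (nat_lit 5) (nat_lit 298) (nat_lit 5) (nat_lit 299) (nat_lit 5) (nat_lit 348) (nat_lit 320) (nat_lit 232)) (XT.lf (nat_lit 0) (nat_lit 1579463383) (nat_lit 836) (nat_lit 4441189768) (nat_lit 76) (nat_lit 6118295888) (nat_lit 277) (nat_lit 5) (nat_lit 288) (nat_lit 5) (nat_lit 278) (nat_lit 5) (nat_lit 349) (nat_lit 320) (nat_lit 231))))))) (XT.nd (nat_lit 702) (nat_lit 4332) (nat_lit 0) (XT.nd (nat_lit 312) (nat_lit 2584) (nat_lit 0) (XT.nd (nat_lit 156) (nat_lit 760) (nat_lit 0) (XT.nd (nat_lit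 78) (nat_lit 684) (nat_lit 0) (XT.lf (nat_lit 0) (nat_lit 4441746456) (nat_lit 836) (nat_lit 7004168221) (nat_lit 76) (nat_lit 891648015) (nat_lit 267) (nat_lit 5) (nat_lit 278) (nat_lit 5) (nat_lit 268) (nat_lit 5) (nat_lit 350) (nat_lit 320) (nat_lit 230)) (XT.lf (nat_lit 0) (nat_lit 2883453344) (nat_lit 684) (nat_lit 4564149925) (nat_lit 760) (nat_lit 5093393854) (nat_lit 258) (nat_lit 5) (nat_lit 267) (nat_lit 5) (nat_lit 268) (nat_lit 5) (nat_lit 351) (nat_lit 320) (nat_lit 229))) (XT.nd (nat_lit 78) (nat_lit 76) (nat_lit 0) (XT.lf (nat_lit 0) (nat_lit 367679029) (nat_lit 684) (nat_lit 10211616546) (nat_lit 760) (nat_lit 2170541813) (nat_lit 249) (nat_lit 5) (nat_lit 258) (nat_lit 5) (nat_lit 259) (nat_lit 5) (nat_lit 352) (nat_lit 320) (nat_lit 228)) (XT.lf (nat_lit 0) (nat_lit 894949847) (nat_lit 760) (nat_lit 2208485433) (nat_lit 76) (nat_lit 9860094312) (nat_lit 248) (nat_lit 5) (nat_lit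 258) (nat_lit 5) (nat_lit 249) (nat_lit 5) (nat_lit 353) (nat_lit 320) (nat_lit 227)))) (XT.nd (nat_lit 156) (nat_lit 1292) (nat_lit 0) (XT.nd (nat_lit 78) (nat_lit 684) (nat_lit 0) (XT.lf (nat_lit 0) (nat_lit 4075455715) (nat_lit 684) (nat_lit 4878821169) (nat_lit 76) (nat_lit 4228032743) (nat_lit 240) (nat_lit 5) (nat_lit 249) (nat_lit 5) (nat_lit 241) (nat_lit 5) (nat_lit 354) (nat_lit 320) (nat_lit 226)) (XT.lf (nat_lit 0) (nat_lit 5775266059) (nat_lit 684) (nat_lit 1620507343) (nat_lit 760) (nat_lit 6011006078) (nat_lit 231) (nat_lit 5) (nat_lit 240) (nat_lit 5) (nat_lit 241) (nat_lit 5) (nat_lit 355) (nat_lit 320) (nat_lit 225))) (XT.nd (nat_lit 78) (nat_lit 684) (nat_lit 0) (XT.lf (nat_lit 0) (nat_lit 3147643685) (nat_lit 608) (nat_lit 7731977180) (nat_lit 684) (nat_lit 2757098090) (nat_lit 223) (nat_lit 5) (nat_lit 231) (nat_lit 5) (nat_lit 232) (nat_lit 5) (nat_lit 356) (nat_lit 320) (nat_lit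 224)) (XT.nd (nat_lit 78) (nat_lit 0) (nat_lit 0) (XT.lf (nat_lit 0) (nat_lit 439666291) (nat_lit 608) (nat_lit 184809089) (nat_lit 684) (nat_lit 13248260423) (nat_lit 214) (nat_lit 5) (nat_lit 222) (nat_lit 5) (nat_lit 223) (nat_lit 5) (nat_lit 357) (nat_lit 320) (nat_lit 223)) (XT.lf (nat_lit 0) (nat_lit 4163733546) (nat_lit 684) (nat_lit 2375907040) (nat_lit 76) (nat_lit 7573967046) (nat_lit 214) (nat_lit 5) (nat_lit 223) (nat_lit 5) (nat_lit 215) (nat_lit 5) (nat_lit 358) (nat_lit 320) (nat_lit 222)))))) (XT.nd (nat_lit 390) (nat_lit 2052) (nat_lit 0) (XT.nd (nat_lit 156) (nat_lit 1140) (nat_lit 0) (XT.nd (nat_lit 78) (nat_lit 608) (nat_lit 0) (XT.lf (nat_lit 0) (nat_lit 7851094610) (nat_lit 608) (nat_lit 5270325064) (nat_lit 76) (nat_lit 1239459936) (nat_lit 207) (nat_lit 5) (nat_lit 215) (nat_lit 5) (nat_lit 208) (nat_lit 5) (nat_lit 359) (nat_lit 320) (nat_lit 221)) (XT.lf (nat_lit 0) (nat_lit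 6325232448) (nat_lit 608) (nat_lit 5398841042) (nat_lit 684) (nat_lit 2890008456) (nat_lit 199) (nat_lit 5) (nat_lit 207) (nat_lit 5) (nat_lit 208) (nat_lit 5) (nat_lit 360) (nat_lit 320) (nat_lit 220))) (XT.nd (nat_lit 78) (nat_lit 532) (nat_lit 0) (XT.lf (nat_lit 0) (nat_lit 877209891) (nat_lit 608) (nat_lit 11416576823) (nat_lit 76) (nat_lit 2579999450) (nat_lit 191) (nat_lit 5) (nat_lit 199) (nat_lit 5) (nat_lit 192) (nat_lit 5) (nat_lit 361) (nat_lit 320) (nat_lit 219)) (XT.nd (nat_lit 78) (nat_lit 0) (nat_lit 0) (XT.lf (nat_lit 0) (nat_lit 447059977) (nat_lit 532) (nat_lit 4341753843) (nat_lit 608) (nat_lit 10350684186) (nat_lit 184) (nat_lit 5) (nat_lit 191) (nat_lit 5) (nat_lit 192) (nat_lit 5) (nat_lit 362) (nat_lit 320) (nat_lit 218)) (XT.lf (nat_lit 0) (nat_lit 8895975756) (nat_lit 608) (nat_lit 2646149129) (nat_lit 76) (nat_lit 3869503009) (nat_lit 184) (nat_lit 5) (nat_lit 192) (nat_lit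 5) (nat_lit 185) (nat_lit 5) (nat_lit 363) (nat_lit 320) (nat_lit 217))))) (XT.nd (nat_lit 156) (nat_lit 912) (nat_lit 0) (XT.nd (nat_lit 78) (nat_lit 608) (nat_lit 0) (XT.lf (nat_lit 0) (nat_lit 9830458914) (nat_lit 532) (nat_lit 3364818807) (nat_lit 608) (nat_lit 2495276026) (nat_lit 177) (nat_lit 5) (nat_lit 184) (nat_lit 5) (nat_lit 185) (nat_lit 5) (nat_lit 364) (nat_lit 320) (nat_lit 216)) (XT.lf (nat_lit 0) (nat_lit 1695918890) (nat_lit 608) (nat_lit 9222618239) (nat_lit 76) (nat_lit 5057670780) (nat_lit 169) (nat_lit 5) (nat_lit 177) (nat_lit 5) (nat_lit 170) (nat_lit 5) (nat_lit 365) (nat_lit 320) (nat_lit 215))) (XT.nd (nat_lit 78) (nat_lit 456) (nat_lit 0) (XT.lf (nat_lit 0) (nat_lit 3532427605) (nat_lit 456) (nat_lit 2508966373) (nat_lit 532) (nat_lit 10227468706) (nat_lit 163) (nat_lit 5) (nat_lit 169) (nat_lit 5) (nat_lit 170) (nat_lit 5) (nat_lit 366) (nat_lit 320) (nat_lit 214)) (XT.nd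 (nat_lit 78) (nat_lit 0) (nat_lit 0) (XT.lf (nat_lit 0) (nat_lit 158407463) (nat_lit 456) (nat_lit 10439984049) (nat_lit 532) (nat_lit 5970291911) (nat_lit 157) (nat_lit 5) (nat_lit 163) (nat_lit 5) (nat_lit 164) (nat_lit 5) (nat_lit 367) (nat_lit 320) (nat_lit 213)) (XT.lf (nat_lit 0) (nat_lit 13567303104) (nat_lit 456) (nat_lit 1805508332) (nat_lit 532) (nat_lit 1503082307) (nat_lit 157) (nat_lit 5) (nat_lit 163) (nat_lit 5) (nat_lit 164) (nat_lit 5) (nat_lit 368) (nat_lit 320) (nat_lit 212))))))))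
noncomputable def xc89 : XT := (XT.nd (nat_lit 43524) (nat_lit 0) (nat_lit 16872) (XT.nd (nat_lit 702) (nat_lit 1444) (nat_lit 0) (XT.nd (nat_lit 312) (nat_lit 1672) (nat_lit 0) (XT.nd (nat_lit 156) (nat_lit 456) (nat_lit 0) (XT.nd (nat_lit 78) (nat_lit 456) (nat_lit 0) (XT.lf (nat_lit 0) (nat_lit 3148977183) (nat_lit 532) (nat_lit 6966383625) (nat_lit 76) (nat_lit 7074736700) (nat_lit 150) (nat_lit 5) (nat_lit 157) (nat_lit 5) (nat_lit 151) (nat_lit 5) (nat_lit 369) (nat_lit 320) (nat_lit 211)) (XT.lf (nat_lit 0) (nat_lit 6730540195) (nat_lit 456) (nat_lit 1246725072) (nat_lit 532) (nat_lit 9535130164) (nat_lit 144) (nat_lit 5) (nat_lit 150) (nat_lit 5) (nat_lit 151) (nat_lit 5) (nat_lit 370) (nat_lit 320) (nat_lit 210))) (XT.nd (nat_lit 78) (nat_lit 76) (nat_lit 0) (XT.lf (nat_lit 0) (nat_lit 3049426197) (nat_lit 380) (nat_lit 9998519268) (nat_lit 456) (nat_lit 4794474219) (nat_lit 139) (nat_lit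 5) (nat_lit 144) (nat_lit 5) (nat_lit 145) (nat_lit 5) (nat_lit 371) (nat_lit 320) (nat_lit 209)) (XT.lf (nat_lit 0) (nat_lit 148415843) (nat_lit 456) (nat_lit 776207264) (nat_lit 76) (nat_lit 17256494465) (nat_lit 138) (nat_lit 5) (nat_lit 144) (nat_lit 5) (nat_lit 139) (nat_lit 5) (nat_lit 372) (nat_lit 320) (nat_lit 208)))) (XT.nd (nat_lit 156) (nat_lit 836) (nat_lit 0) (XT.nd (nat_lit 78) (nat_lit 380) (nat_lit 0) (XT.lf (nat_lit 0) (nat_lit 5299628203) (nat_lit 532) (nat_lit 4801927954) (nat_lit 76) (nat_lit 8425290571) (nat_lit 132) (nat_lit 5) (nat_lit 139) (nat_lit 5) (nat_lit 133) (nat_lit 5) (nat_lit 373) (nat_lit 320) (nat_lit 207)) (XT.lf (nat_lit 0) (nat_lit 9884075730) (nat_lit 380) (nat_lit 777199567) (nat_lit 456) (nat_lit 8220561908) (nat_lit 127) (nat_lit 5) (nat_lit 132) (nat_lit 5) (nat_lit 133) (nat_lit 5) (nat_lit 374) (nat_lit 320) (nat_lit 206))) (XT.nd (nat_lit 78) (nat_lit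 456) (nat_lit 0) (XT.lf (nat_lit 0) (nat_lit 5820290280) (nat_lit 380) (nat_lit 10471922768) (nat_lit 456) (nat_lit 2953102719) (nat_lit 122) (nat_lit 5) (nat_lit 127) (nat_lit 5) (nat_lit 128) (nat_lit 5) (nat_lit 375) (nat_lit 320) (nat_lit 205)) (XT.nd (nat_lit 78) (nat_lit 0) (nat_lit 0) (XT.lf (nat_lit 0) (nat_lit 1558466354) (nat_lit 380) (nat_lit 939020048) (nat_lit 456) (nat_lit 17120747450) (nat_lit 116) (nat_lit 5) (nat_lit 121) (nat_lit 5) (nat_lit 122) (nat_lit 5) (nat_lit 376) (nat_lit 320) (nat_lit 204)) (XT.lf (nat_lit 0) (nat_lit 8202093565) (nat_lit 456) (nat_lit 2931058747) (nat_lit 76) (nat_lit 8866190989) (nat_lit 116) (nat_lit 5) (nat_lit 122) (nat_lit 5) (nat_lit 117) (nat_lit 5) (nat_lit 377) (nat_lit 320) (nat_lit 203)))))) (XT.nd (nat_lit 42432) (nat_lit 0) (nat_lit 27208) (XT.nd (nat_lit 156) (nat_lit 760) (nat_lit 0) (XT.nd (nat_lit 78) (nat_lit 304) (nat_lit 0) (XT.lf (nat_lit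 0) (nat_lit 12785970120) (nat_lit 380) (nat_lit 1362876155) (nat_lit 456) (nat_lit 6241626068) (nat_lit 111) (nat_lit 5) (nat_lit 116) (nat_lit 5) (nat_lit 117) (nat_lit 5) (nat_lit 378) (nat_lit 320) (nat_lit 202)) (XT.lf (nat_lit 0) (nat_lit 8246401066) (nat_lit 304) (nat_lit 12139641814) (nat_lit 380) (nat_lit 405057818) (nat_lit 107) (nat_lit 5) (nat_lit 111) (nat_lit 5) (nat_lit 112) (nat_lit 5) (nat_lit 379) (nat_lit 320) (nat_lit 201))) (XT.nd (nat_lit 78) (nat_lit 304) (nat_lit 0) (XT.lf (nat_lit 0) (nat_lit 3446925298) (nat_lit 380) (nat_lit 2151763263) (nat_lit 456) (nat_lit 15603025019) (nat_lit 101) (nat_lit 5) (nat_lit 106) (nat_lit 5) (nat_lit 107) (nat_lit 5) (nat_lit 380) (nat_lit 320) (nat_lit 200)) (XT.nd (nat_lit 78) (nat_lit 304) (nat_lit 0) (XT.lf (nat_lit 0) (nat_lit 11898005043) (nat_lit 456) (nat_lit 1615521443) (nat_lit 76) (nat_lit 8108651388) (nat_lit 101) (nat_lit 5) (nat_lit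 107) (nat_lit 5) (nat_lit 102) (nat_lit 5) (nat_lit 381) (nat_lit 320) (nat_lit 199)) (XT.lf (nat_lit 0) (nat_lit 15166724546) (nat_lit 304) (nat_lit 3315484323) (nat_lit 380) (nat_lit 3571134697) (nat_lit 97) (nat_lit 5) (nat_lit 101) (nat_lit 5) (nat_lit 102) (nat_lit 5) (nat_lit 382) (nat_lit 320) (nat_lit 198))))) (XT.nd (nat_lit 156) (nat_lit 1368) (nat_lit 0) (XT.nd (nat_lit 78) (nat_lit 0) (nat_lit 0) (XT.lf (nat_lit 0) (nat_lit 2160698997) (nat_lit 1444) (nat_lit 1005294061) (nat_lit 1444) (nat_lit 1005294061) (nat_lit 473) (nat_lit 3) (nat_lit 492) (nat_lit 3) (nat_lit 492) (nat_lit 5) (nat_lit 321) (nat_lit 321) (nat_lit 258)) (XT.lf (nat_lit 76) (nat_lit 3887860495) (nat_lit 0) (nat_lit 2084386556) (nat_lit 1444) (nat_lit 2462689265) (nat_lit 474) (nat_lit 5) (nat_lit 473) (nat_lit 3) (nat_lit 492) (nat_lit 5) (nat_lit 322) (nat_lit 321) (nat_lit 257))) (XT.nd (nat_lit 78) (nat_lit 1444)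 (nat_lit 0) (XT.lf (nat_lit 76) (nat_lit 1431848139) (nat_lit 0) (nat_lit 6217731606) (nat_lit 1444) (nat_lit 880991557) (nat_lit 475) (nat_lit 5) (nat_lit 474) (nat_lit 5) (nat_lit 493) (nat_lit 5) (nat_lit 323) (nat_lit 321) (nat_lit 256)) (XT.nd (nat_lit 78) (nat_lit 0) (nat_lit 76) (XT.lf (nat_lit 0) (nat_lit 723506673) (nat_lit 1444) (nat_lit 1028333450) (nat_lit 1520) (nat_lit 6877474056) (nat_lit 455) (nat_lit 5) (nat_lit 474) (nat_lit 5) (nat_lit 475) (nat_lit 5) (nat_lit 324) (nat_lit 321) (nat_lit 255)) (XT.lf (nat_lit 0) (nat_lit 2359228442) (nat_lit 1444) (nat_lit 3495432253) (nat_lit 1520) (nat_lit 2876379108) (nat_lit 456) (nat_lit 5) (nat_lit 475) (nat_lit 5) (nat_lit 476) (nat_lit 5) (nat_lit 325) (nat_lit 321) (nat_lit 254))))))) (XT.nd (nat_lit 780) (nat_lit 7676) (nat_lit 0) (XT.nd (nat_lit 390) (nat_lit 1368) (nat_lit 0) (XT.nd (nat_lit 156) (nat_lit 1368) (nat_lit 0) (XT.nd (nat_lit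 78) (nat_lit 0) (nat_lit 76) (XT.lf (nat_lit 76) (nat_lit 2858501756) (nat_lit 0) (nat_lit 1166402549) (nat_lit 1520) (nat_lit 4811332217) (nat_lit 457) (nat_lit 5) (nat_lit 456) (nat_lit 5) (nat_lit 476) (nat_lit 5) (nat_lit 326) (nat_lit 321) (nat_lit 253)) (XT.lf (nat_lit 76) (nat_lit 454979700) (nat_lit 0) (nat_lit 5281317663) (nat_lit 1520) (nat_lit 3208412739) (nat_lit 458) (nat_lit 5) (nat_lit 457) (nat_lit 5) (nat_lit 477) (nat_lit 5) (nat_lit 327) (nat_lit 321) (nat_lit 252))) (XT.nd (nat_lit 78) (nat_lit 1444) (nat_lit 0) (XT.lf (nat_lit 76) (nat_lit 7121309238) (nat_lit 0) (nat_lit 372530258) (nat_lit 1520) (nat_lit 1562737101) (nat_lit 458) (nat_lit 5) (nat_lit 457) (nat_lit 5) (nat_lit 477) (nat_lit 5) (nat_lit 328) (nat_lit 321) (nat_lit 251)) (XT.nd (nat_lit 78) (nat_lit 0) (nat_lit 76) (XT.lf (nat_lit 0) (nat_lit 140512000) (nat_lit 1520) (nat_lit 4357503735) (nat_lit 1596) (nat_lit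 4673600575) (nat_lit 438) (nat_lit 5) (nat_lit 458) (nat_lit 5) (nat_lit 459) (nat_lit 5) (nat_lit 329) (nat_lit 321) (nat_lit 250)) (XT.lf (nat_lit 0) (nat_lit 1858874667) (nat_lit 1520) (nat_lit 6805876961) (nat_lit 1596) (nat_lit 625476250) (nat_lit 439) (nat_lit 5) (nat_lit 459) (nat_lit 5) (nat_lit 460) (nat_lit 5) (nat_lit 330) (nat_lit 321) (nat_lit 249))))) (XT.nd (nat_lit 156) (nat_lit 1444) (nat_lit 0) (XT.nd (nat_lit 78) (nat_lit 0) (nat_lit 76) (XT.lf (nat_lit 76) (nat_lit 116286544) (nat_lit 0) (nat_lit 3523594744) (nat_lit 1596) (nat_lit 5772325914) (nat_lit 440) (nat_lit 5) (nat_lit 439) (nat_lit 5) (nat_lit 460) (nat_lit 5) (nat_lit 331) (nat_lit 321) (nat_lit 248)) (XT.lf (nat_lit 0) (nat_lit 5484096728) (nat_lit 1520) (nat_lit 2244254468) (nat_lit 1596) (nat_lit 1809329495) (nat_lit 440) (nat_lit 5) (nat_lit 460) (nat_lit 5) (nat_lit 461) (nat_lit 5) (nat_lit 332) (nat_lit 321) (nat_lit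 247))) (XT.nd (nat_lit 78) (nat_lit 1520) (nat_lit 0) (XT.lf (nat_lit 76) (nat_lit 5027551900) (nat_lit 0) (nat_lit 2365545923) (nat_lit 1596) (nat_lit 2273660853) (nat_lit 441) (nat_lit 5) (nat_lit 440) (nat_lit 5) (nat_lit 461) (nat_lit 5) (nat_lit 333) (nat_lit 321) (nat_lit 246)) (XT.nd (nat_lit 78) (nat_lit 1596) (nat_lit 0) (XT.lf (nat_lit 76) (nat_lit 2729767190) (nat_lit 0) (nat_lit 6637617688) (nat_lit 1596) (nat_lit 432192420) (nat_lit 442) (nat_lit 5) (nat_lit 441) (nat_lit 5) (nat_lit 462) (nat_lit 5) (nat_lit 334) (nat_lit 321) (nat_lit 245)) (XT.lf (nat_lit 76) (nat_lit 392854878) (nat_lit 0) (nat_lit 1057737500) (nat_lit 1672) (nat_lit 8485519570) (nat_lit 421) (nat_lit 5) (nat_lit 420) (nat_lit 5) (nat_lit 442) (nat_lit 5) (nat_lit 335) (nat_lit 321) (nat_lit 244)))))) (XT.nd (nat_lit 390) (nat_lit 4484) (nat_lit 0) (XT.nd (nat_lit 156) (nat_lit 3268) (nat_lit 0) (XT.nd (nat_lit 78)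 (nat_lit 0) (nat_lit 76) (XT.lf (nat_lit 0) (nat_lit 3419107163) (nat_lit 1596) (nat_lit 1967995988) (nat_lit 1672) (nat_lit 4688906431) (nat_lit 421) (nat_lit 5) (nat_lit 442) (nat_lit 5) (nat_lit 443) (nat_lit 5) (nat_lit 336) (nat_lit 321) (nat_lit 243)) (XT.lf (nat_lit 0) (nat_lit 5452284351) (nat_lit 1596) (nat_lit 4352079263) (nat_lit 76) (nat_lit 415654068) (nat_lit 422) (nat_lit 5) (nat_lit 443) (nat_lit 5) (nat_lit 423) (nat_lit 5) (nat_lit 337) (nat_lit 321) (nat_lit 242))) (XT.nd (nat_lit 78) (nat_lit 1748) (nat_lit 0) (XT.lf (nat_lit 0) (nat_lit 3574501719) (nat_lit 1596) (nat_lit 4003365353) (nat_lit 1672) (nat_lit 2789875673) (nat_lit 401) (nat_lit 5) (nat_lit 422) (nat_lit 5) (nat_lit 423) (nat_lit 5) (nat_lit 338) (nat_lit 321) (nat_lit 241)) (XT.nd (nat_lit 78) (nat_lit 76) (nat_lit 0) (XT.lf (nat_lit 0) (nat_lit 1248120522) (nat_lit 1672) (nat_lit 8529467777) (nat_lit 1748) (nat_lit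 742128040) (nat_lit 379) (nat_lit 5) (nat_lit 401) (nat_lit 5) (nat_lit 402) (nat_lit 5) (nat_lit 339) (nat_lit 321) (nat_lit 240)) (XT.lf (nat_lit 0) (nat_lit 1382681387) (nat_lit 1748) (nat_lit 1121956689) (nat_lit 76) (nat_lit 8170785416) (nat_lit 378) (nat_lit 5) (nat_lit 401) (nat_lit 5) (nat_lit 379) (nat_lit 5) (nat_lit 340) (nat_lit 321) (nat_lit 239))))) (XT.nd (nat_lit 156) (nat_lit 1824) (nat_lit 0) (XT.nd (nat_lit 78) (nat_lit 912) (nat_lit 0) (XT.lf (nat_lit 0) (nat_lit 3594810672) (nat_lit 1824) (nat_lit 3529991913) (nat_lit 76) (nat_lit 3710250366) (nat_lit 355) (nat_lit 5) (nat_lit 379) (nat_lit 5) (nat_lit 356) (nat_lit 5) (nat_lit 341) (nat_lit 321) (nat_lit 238)) (XT.lf (nat_lit 0) (nat_lit 5016273095) (nat_lit 912) (nat_lit 876538047) (nat_lit 988) (nat_lit 5106291716) (nat_lit 343) (nat_lit 5) (nat_lit 355) (nat_lit 5) (nat_lit 356) (nat_lit 5) (nat_lit 342) (nat_lit 321) (nat_lit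 237))) (XT.nd (nat_lit 78) (nat_lit 912) (nat_lit 0) (XT.lf (nat_lit 0) (nat_lit 2664468503) (nat_lit 912) (nat_lit 5636189813) (nat_lit 988) (nat_lit 2866618894) (nat_lit 331) (nat_lit 5) (nat_lit 343) (nat_lit 5) (nat_lit 344) (nat_lit 5) (nat_lit 343) (nat_lit 321) (nat_lit 236)) (XT.nd (nat_lit 78) (nat_lit 76) (nat_lit 0) (XT.lf (nat_lit 0) (nat_lit 271735814) (nat_lit 836) (nat_lit 10526757140) (nat_lit 912) (nat_lit 541669264) (nat_lit 320) (nat_lit 5) (nat_lit 331) (nat_lit 5) (nat_lit 332) (nat_lit 5) (nat_lit 344) (nat_lit 321) (nat_lit 235)) (XT.lf (nat_lit 0) (nat_lit 1889287417) (nat_lit 912) (nat_lit 2175289130) (nat_lit 76) (nat_lit 7452224860) (nat_lit 319) (nat_lit 5) (nat_lit 331) (nat_lit 5) (nat_lit 320) (nat_lit 5) (nat_lit 345) (nat_lit 321) (nat_lit 234))))))))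
noncomputable def xc90 : XT := (XT.nd (nat_lit 1482) (nat_lit 6308) (nat_lit 0) (XT.nd (nat_lit 702) (nat_lit 4864) (nat_lit 0) (XT.nd (nat_lit 312) (nat_lit 2964) (nat_lit 0) (XT.nd (nat_lit 156) (nat_lit 836) (nat_lit 0) (XT.nd (nat_lit 78) (nat_lit 760) (nat_lit 0) (XT.lf (nat_lit 0) (nat_lit 4414619019) (nat_lit 912) (nat_lit 4675275583) (nat_lit 76) (nat_lit 2608216367) (nat_lit 308) (nat_lit 5) (nat_lit 320) (nat_lit 5) (nat_lit 309) (nat_lit 5) (nat_lit 346) (nat_lit 321) (nat_lit 233)) (XT.lf (nat_lit 0) (nat_lit 4642551050) (nat_lit 760) (nat_lit 2412003267) (nat_lit 836) (nat_lit 4829546987) (nat_lit 298) (nat_lit 5) (nat_lit 308) (nat_lit 5) (nat_lit 309) (nat_lit 5) (nat_lit 347) (nat_lit 321) (nat_lit 232))) (XT.nd (nat_lit 78) (nat_lit 76) (nat_lit 0) (XT.lf (nat_lit 0) (nat_lit 2195150659) (nat_lit 760) (nat_lit 7621117657) (nat_lit 836) (nat_lit 2258569250) (nat_lit 288) (nat_lit 5)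 (nat_lit 298) (nat_lit 5) (nat_lit 299) (nat_lit 5) (nat_lit 348) (nat_lit 321) (nat_lit 231)) (XT.lf (nat_lit 0) (nat_lit 417902527) (nat_lit 836) (nat_lit 308427596) (nat_lit 76) (nat_lit 11544262705) (nat_lit 287) (nat_lit 5) (nat_lit 298) (nat_lit 5) (nat_lit 288) (nat_lit 5) (nat_lit 349) (nat_lit 321) (nat_lit 230)))) (XT.nd (nat_lit 156) (nat_lit 1444) (nat_lit 0) (XT.nd (nat_lit 78) (nat_lit 760) (nat_lit 0) (XT.lf (nat_lit 0) (nat_lit 3217456022) (nat_lit 836) (nat_lit 2884294092) (nat_lit 76) (nat_lit 6368719074) (nat_lit 277) (nat_lit 5) (nat_lit 288) (nat_lit 5) (nat_lit 278) (nat_lit 5) (nat_lit 350) (nat_lit 321) (nat_lit 229)) (XT.lf (nat_lit 0) (nat_lit 6130773440) (nat_lit 836) (nat_lit 5520367802) (nat_lit 76) (nat_lit 1024621045) (nat_lit 267) (nat_lit 5) (nat_lit 278) (nat_lit 5) (nat_lit 268) (nat_lit 5) (nat_lit 351) (nat_lit 321) (nat_lit 228))) (XT.nd (nat_lit 78) (nat_lit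 760) (nat_lit 0) (XT.lf (nat_lit 0) (nat_lit 4636400482) (nat_lit 684) (nat_lit 4555911309) (nat_lit 760) (nat_lit 3693701489) (nat_lit 258) (nat_lit 5) (nat_lit 267) (nat_lit 5) (nat_lit 268) (nat_lit 5) (nat_lit 352) (nat_lit 321) (nat_lit 227)) (XT.nd (nat_lit 78) (nat_lit 76) (nat_lit 0) (XT.lf (nat_lit 0) (nat_lit 2047897018) (nat_lit 684) (nat_lit 10337501226) (nat_lit 760) (nat_lit 716394596) (nat_lit 249) (nat_lit 5) (nat_lit 258) (nat_lit 5) (nat_lit 259) (nat_lit 5) (nat_lit 353) (nat_lit 321) (nat_lit 226)) (XT.lf (nat_lit 0) (nat_lit 2377466360) (nat_lit 760) (nat_lit 634096092) (nat_lit 76) (nat_lit 10311031328) (nat_lit 248) (nat_lit 5) (nat_lit 258) (nat_lit 5) (nat_lit 249) (nat_lit 5) (nat_lit 354) (nat_lit 321) (nat_lit 225)))))) (XT.nd (nat_lit 390) (nat_lit 2280) (nat_lit 0) (XT.nd (nat_lit 156) (nat_lit 1292) (nat_lit 0) (XT.nd (nat_lit 78) (nat_lit 684) (nat_lit 0) (XT.lf (nat_lit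 0) (nat_lit 5622704042) (nat_lit 684) (nat_lit 3383212693) (nat_lit 76) (nat_lit 4542655362) (nat_lit 240) (nat_lit 5) (nat_lit 249) (nat_lit 5) (nat_lit 241) (nat_lit 5) (nat_lit 355) (nat_lit 321) (nat_lit 224)) (XT.lf (nat_lit 0) (nat_lit 7563858088) (nat_lit 684) (nat_lit 1447756583) (nat_lit 760) (nat_lit 4768802301) (nat_lit 231) (nat_lit 5) (nat_lit 240) (nat_lit 5) (nat_lit 241) (nat_lit 5) (nat_lit 356) (nat_lit 321) (nat_lit 223))) (XT.nd (nat_lit 78) (nat_lit 684) (nat_lit 0) (XT.lf (nat_lit 0) (nat_lit 4857888674) (nat_lit 608) (nat_lit 7713374214) (nat_lit 684) (nat_lit 1446586035) (nat_lit 223) (nat_lit 5) (nat_lit 231) (nat_lit 5) (nat_lit 232) (nat_lit 5) (nat_lit 357) (nat_lit 321) (nat_lit 222)) (XT.nd (nat_lit 78) (nat_lit 0) (nat_lit 0) (XT.lf (nat_lit 0) (nat_lit 1989027554) (nat_lit 684) (nat_lit 12200771269) (nat_lit 76) (nat_lit 71568265) (nat_lit 214) (nat_lit 5) (nat_lit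 223) (nat_lit 5) (nat_lit 215) (nat_lit 5) (nat_lit 358) (nat_lit 321) (nat_lit 221)) (XT.lf (nat_lit 0) (nat_lit 5596464788) (nat_lit 684) (nat_lit 860723640) (nat_lit 76) (nat_lit 8053055095) (nat_lit 214) (nat_lit 5) (nat_lit 223) (nat_lit 5) (nat_lit 215) (nat_lit 5) (nat_lit 359) (nat_lit 321) (nat_lit 220))))) (XT.nd (nat_lit 156) (nat_lit 1140) (nat_lit 0) (XT.nd (nat_lit 78) (nat_lit 608) (nat_lit 0) (XT.lf (nat_lit 0) (nat_lit 9368311644) (nat_lit 608) (nat_lit 3843340957) (nat_lit 76) (nat_lit 1553821701) (nat_lit 207) (nat_lit 5) (nat_lit 215) (nat_lit 5) (nat_lit 208) (nat_lit 5) (nat_lit 360) (nat_lit 321) (nat_lit 219)) (XT.lf (nat_lit 0) (nat_lit 8074367016) (nat_lit 608) (nat_lit 5255906781) (nat_lit 684) (nat_lit 1696560451) (nat_lit 199) (nat_lit 5) (nat_lit 207) (nat_lit 5) (nat_lit 208) (nat_lit 5) (nat_lit 361) (nat_lit 321) (nat_lit 218))) (XT.nd (nat_lit 78) (nat_lit 532) (nat_lit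 0) (XT.lf (nat_lit 0) (nat_lit 2142201429) (nat_lit 608) (nat_lit 10184675413) (nat_lit 76) (nat_lit 2967796770) (nat_lit 191) (nat_lit 5) (nat_lit 199) (nat_lit 5) (nat_lit 192) (nat_lit 5) (nat_lit 362) (nat_lit 321) (nat_lit 217)) (XT.nd (nat_lit 78) (nat_lit 0) (nat_lit 0) (XT.lf (nat_lit 0) (nat_lit 2009327743) (nat_lit 532) (nat_lit 4135804014) (nat_lit 608) (nat_lit 9423761583) (nat_lit 184) (nat_lit 5) (nat_lit 191) (nat_lit 5) (nat_lit 192) (nat_lit 5) (nat_lit 363) (nat_lit 321) (nat_lit 216)) (XT.lf (nat_lit 0) (nat_lit 10342307817) (nat_lit 608) (nat_lit 1199841638) (nat_lit 76) (nat_lit 4307717312) (nat_lit 184) (nat_lit 5) (nat_lit 192) (nat_lit 5) (nat_lit 185) (nat_lit 5) (nat_lit 364) (nat_lit 321) (nat_lit 215))))))) (XT.nd (nat_lit 702) (nat_lit 2356) (nat_lit 0) (XT.nd (nat_lit 312) (nat_lit 1900) (nat_lit 0) (XT.nd (nat_lit 156) (nat_lit 912) (nat_lit 0) (XT.nd (nat_lit 78) (nat_lit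 608) (nat_lit 0) (XT.lf (nat_lit 0) (nat_lit 11626312106) (nat_lit 532) (nat_lit 3119668835) (nat_lit 608) (nat_lit 1391686784) (nat_lit 177) (nat_lit 5) (nat_lit 184) (nat_lit 5) (nat_lit 185) (nat_lit 5) (nat_lit 365) (nat_lit 321) (nat_lit 214)) (XT.lf (nat_lit 0) (nat_lit 2887898739) (nat_lit 608) (nat_lit 7986053204) (nat_lit 76) (nat_lit 5558238780) (nat_lit 169) (nat_lit 5) (nat_lit 177) (nat_lit 5) (nat_lit 170) (nat_lit 5) (nat_lit 366) (nat_lit 321) (nat_lit 213))) (XT.nd (nat_lit 78) (nat_lit 456) (nat_lit 0) (XT.lf (nat_lit 0) (nat_lit 5127093437) (nat_lit 456) (nat_lit 2213074237) (nat_lit 532) (nat_lit 9393942896) (nat_lit 163) (nat_lit 5) (nat_lit 169) (nat_lit 5) (nat_lit 170) (nat_lit 5) (nat_lit 367) (nat_lit 321) (nat_lit 212)) (XT.lf (nat_lit 0) (nat_lit 1647777488) (nat_lit 456) (nat_lit 10365526933) (nat_lit 532) (nat_lit 5030046537) (nat_lit 157) (nat_lit 5) (nat_lit 163) (nat_lit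 5) (nat_lit 164) (nat_lit 5) (nat_lit 368) (nat_lit 321) (nat_lit 211)))) (XT.nd (nat_lit 156) (nat_lit 1368) (nat_lit 0) (XT.nd (nat_lit 78) (nat_lit 532) (nat_lit 0) (XT.lf (nat_lit 0) (nat_lit 15415698703) (nat_lit 456) (nat_lit 1483307914) (nat_lit 532) (nat_lit 461423192) (nat_lit 157) (nat_lit 5) (nat_lit 163) (nat_lit 5) (nat_lit 164) (nat_lit 5) (nat_lit 369) (nat_lit 321) (nat_lit 210)) (XT.lf (nat_lit 0) (nat_lit 4296487057) (nat_lit 532) (nat_lit 5723985524) (nat_lit 76) (nat_lit 7663847728) (nat_lit 150) (nat_lit 5) (nat_lit 157) (nat_lit 5) (nat_lit 151) (nat_lit 5) (nat_lit 370) (nat_lit 321) (nat_lit 209))) (XT.nd (nat_lit 78) (nat_lit 912) (nat_lit 0) (XT.lf (nat_lit 0) (nat_lit 8360298938) (nat_lit 456) (nat_lit 887924262) (nat_lit 532) (nat_lit 8768504195) (nat_lit 144) (nat_lit 5) (nat_lit 150) (nat_lit 5) (nat_lit 151) (nat_lit 5) (nat_lit 371) (nat_lit 321) (nat_lit 208)) (XT.nd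 (nat_lit 78) (nat_lit 532) (nat_lit 0) (XT.lf (nat_lit 0) (nat_lit 4563754347) (nat_lit 380) (nat_lit 9888957232) (nat_lit 456) (nat_lit 3904318898) (nat_lit 139) (nat_lit 5) (nat_lit 144) (nat_lit 5) (nat_lit 145) (nat_lit 5) (nat_lit 372) (nat_lit 321) (nat_lit 207)) (XT.lf (nat_lit 0) (nat_lit 603365212) (nat_lit 456) (nat_lit 544127921) (nat_lit 532) (nat_lit 17558789265) (nat_lit 132) (nat_lit 5) (nat_lit 138) (nat_lit 5) (nat_lit 139) (nat_lit 5) (nat_lit 373) (nat_lit 321) (nat_lit 206)))))) (XT.nd (nat_lit 390) (nat_lit 1140) (nat_lit 0) (XT.nd (nat_lit 156) (nat_lit 836) (nat_lit 0) (XT.nd (nat_lit 78) (nat_lit 380) (nat_lit 0) (XT.lf (nat_lit 0) (nat_lit 6431985980) (nat_lit 532) (nat_lit 3556498333) (nat_lit 76) (nat_lit 9074335190) (nat_lit 132) (nat_lit 5) (nat_lit 139) (nat_lit 5) (nat_lit 133) (nat_lit 5) (nat_lit 374) (nat_lit 321) (nat_lit 205)) (XT.lf (nat_lit 0) (nat_lit 11547542678)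 (nat_lit 380) (nat_lit 387464368) (nat_lit 456) (nat_lit 7493852794) (nat_lit 127) (nat_lit 5) (nat_lit 132) (nat_lit 5) (nat_lit 133) (nat_lit 5) (nat_lit 375) (nat_lit 321) (nat_lit 204))) (XT.nd (nat_lit 78) (nat_lit 456) (nat_lit 0) (XT.lf (nat_lit 0) (nat_lit 7356145528) (nat_lit 380) (nat_lit 10362385903) (nat_lit 456) (nat_lit 2085048487) (nat_lit 122) (nat_lit 5) (nat_lit 127) (nat_lit 5) (nat_lit 128) (nat_lit 5) (nat_lit 376) (nat_lit 321) (nat_lit 203)) (XT.nd (nat_lit 78) (nat_lit 0) (nat_lit 0) (XT.lf (nat_lit 0) (nat_lit 2957057380) (nat_lit 380) (nat_lit 540733270) (nat_lit 456) (nat_lit 16690154924) (nat_lit 116) (nat_lit 5) (nat_lit 121) (nat_lit 5) (nat_lit 122) (nat_lit 5) (nat_lit 377) (nat_lit 321) (nat_lit 202)) (XT.lf (nat_lit 0) (nat_lit 9349271420) (nat_lit 456) (nat_lit 1690928874) (nat_lit 76) (nat_lit 9540782849) (nat_lit 116) (nat_lit 5) (nat_lit 122) (nat_lit 5) (nat_lit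 117) (nat_lit 5) (nat_lit 378) (nat_lit 321) (nat_lit 201))))) (XT.nd (nat_lit 156) (nat_lit 380) (nat_lit 0) (XT.nd (nat_lit 78) (nat_lit 380) (nat_lit 0) (XT.lf (nat_lit 0) (nat_lit 14476064636) (nat_lit 380) (nat_lit 980598770) (nat_lit 456) (nat_lit 5527547183) (nat_lit 111) (nat_lit 5) (nat_lit 116) (nat_lit 5) (nat_lit 117) (nat_lit 5) (nat_lit 379) (nat_lit 321) (nat_lit 200)) (XT.lf (nat_lit 0) (nat_lit 463044282) (nat_lit 380) (nat_lit 11606112262) (nat_lit 76) (nat_lit 9327941699) (nat_lit 106) (nat_lit 5) (nat_lit 111) (nat_lit 5) (nat_lit 107) (nat_lit 5) (nat_lit 380) (nat_lit 321) (nat_lit 199))) (XT.nd (nat_lit 42276) (nat_lit 0) (nat_lit 26828) (XT.lf (nat_lit 0) (nat_lit 4841263412) (nat_lit 380) (nat_lit 1783070349) (nat_lit 456) (nat_lit 15195992087) (nat_lit 101) (nat_lit 5) (nat_lit 106) (nat_lit 5) (nat_lit 107) (nat_lit 5) (nat_lit 381) (nat_lit 321) (nat_lit 198)) (XT.nd (nat_lit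 78) (nat_lit 1444) (nat_lit 0) (XT.lf (nat_lit 0) (nat_lit 3771302259) (nat_lit 1444) (nat_lit 246581001) (nat_lit 1444) (nat_lit 246581001) (nat_lit 473) (nat_lit 3) (nat_lit 492) (nat_lit 3) (nat_lit 492) (nat_lit 5) (nat_lit 322) (nat_lit 322) (nat_lit 256)) (XT.lf (nat_lit 0) (nat_lit 530242648) (nat_lit 1444) (nat_lit 3072567130) (nat_lit 1520) (nat_lit 5022842197) (nat_lit 454) (nat_lit 5) (nat_lit 473) (nat_lit 3) (nat_lit 474) (nat_lit 5) (nat_lit 323) (nat_lit 322) (nat_lit 255))))))))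
noncomputable def xc91 : XT := (XT.nd (nat_lit 1482) (nat_lit 11856) (nat_lit 0) (XT.nd (nat_lit 702) (nat_lit 6232) (nat_lit 0) (XT.nd (nat_lit 312) (nat_lit 1368) (nat_lit 0) (XT.nd (nat_lit 156) (nat_lit 0) (nat_lit 76) (XT.nd (nat_lit 78) (nat_lit 0) (nat_lit 0) (XT.lf (nat_lit 0) (nat_lit 2050849357) (nat_lit 1444) (nat_lit 5667165140) (nat_lit 1520) (nat_lit 1007731460) (nat_lit 455) (nat_lit 5) (nat_lit 474) (nat_lit 5) (nat_lit 475) (nat_lit 5) (nat_lit 324) (nat_lit 322) (nat_lit 254)) (XT.lf (nat_lit 76) (nat_lit 538783898) (nat_lit 0) (nat_lit 3070479192) (nat_lit 1520) (nat_lit 5219772866) (nat_lit 456) (nat_lit 5) (nat_lit 455) (nat_lit 5) (nat_lit 475) (nat_lit 5) (nat_lit 325) (nat_lit 322) (nat_lit 253))) (XT.nd (nat_lit 78) (nat_lit 0) (nat_lit 0) (XT.lf (nat_lit 0) (nat_lit 5209466870) (nat_lit 1444) (nat_lit 1969698652) (nat_lit 1520) (nat_lit 1756394279) (nat_lit 456) (nat_lit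 5) (nat_lit 475) (nat_lit 5) (nat_lit 476) (nat_lit 5) (nat_lit 326) (nat_lit 322) (nat_lit 252)) (XT.lf (nat_lit 76) (nat_lit 4548398885) (nat_lit 0) (nat_lit 2306174086) (nat_lit 1520) (nat_lit 2190803318) (nat_lit 457) (nat_lit 5) (nat_lit 456) (nat_lit 5) (nat_lit 476) (nat_lit 5) (nat_lit 327) (nat_lit 322) (nat_lit 251)))) (XT.nd (nat_lit 156) (nat_lit 0) (nat_lit 76) (XT.nd (nat_lit 78) (nat_lit 1520) (nat_lit 0) (XT.lf (nat_lit 76) (nat_lit 2108842106) (nat_lit 0) (nat_lit 6433250399) (nat_lit 1520) (nat_lit 616567400) (nat_lit 458) (nat_lit 5) (nat_lit 457) (nat_lit 5) (nat_lit 477) (nat_lit 5) (nat_lit 328) (nat_lit 322) (nat_lit 250)) (XT.lf (nat_lit 0) (nat_lit 987066800) (nat_lit 1520) (nat_lit 354572138) (nat_lit 1596) (nat_lit 7933697797) (nat_lit 437) (nat_lit 5) (nat_lit 457) (nat_lit 5) (nat_lit 458) (nat_lit 5) (nat_lit 329) (nat_lit 322) (nat_lit 249))) (XT.nd (nat_lit 78) (nat_lit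 0) (nat_lit 0) (XT.lf (nat_lit 0) (nat_lit 2649784356) (nat_lit 1520) (nat_lit 2828635046) (nat_lit 1596) (nat_lit 3916657207) (nat_lit 438) (nat_lit 5) (nat_lit 458) (nat_lit 5) (nat_lit 459) (nat_lit 5) (nat_lit 330) (nat_lit 322) (nat_lit 248)) (XT.nd (nat_lit 78) (nat_lit 0) (nat_lit 76) (XT.lf (nat_lit 76) (nat_lit 4195873502) (nat_lit 0) (nat_lit 157223520) (nat_lit 1596) (nat_lit 5165527745) (nat_lit 439) (nat_lit 5) (nat_lit 438) (nat_lit 5) (nat_lit 459) (nat_lit 5) (nat_lit 331) (nat_lit 322) (nat_lit 247)) (XT.lf (nat_lit 76) (nat_lit 1780706913) (nat_lit 0) (nat_lit 4345596738) (nat_lit 1596) (nat_lit 3519229301) (nat_lit 440) (nat_lit 5) (nat_lit 439) (nat_lit 5) (nat_lit 460) (nat_lit 5) (nat_lit 332) (nat_lit 322) (nat_lit 246)))))) (XT.nd (nat_lit 390) (nat_lit 4940) (nat_lit 0) (XT.nd (nat_lit 156) (nat_lit 1520) (nat_lit 0) (XT.nd (nat_lit 78) (nat_lit 0) (nat_lit 0) (XT.lf (nat_lit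 0) (nat_lit 7952090763) (nat_lit 1520) (nat_lit 646899679) (nat_lit 1596) (nat_lit 1177298870) (nat_lit 440) (nat_lit 5) (nat_lit 460) (nat_lit 5) (nat_lit 461) (nat_lit 5) (nat_lit 333) (nat_lit 322) (nat_lit 245)) (XT.lf (nat_lit 76) (nat_lit 6816053386) (nat_lit 0) (nat_lit 3045849985) (nat_lit 1596) (nat_lit 48507738) (nat_lit 441) (nat_lit 5) (nat_lit 440) (nat_lit 5) (nat_lit 461) (nat_lit 5) (nat_lit 334) (nat_lit 322) (nat_lit 244))) (XT.nd (nat_lit 78) (nat_lit 0) (nat_lit 0) (XT.lf (nat_lit 0) (nat_lit 1765030946) (nat_lit 1596) (nat_lit 5587781341) (nat_lit 1672) (nat_lit 2695380958) (nat_lit 420) (nat_lit 5) (nat_lit 441) (nat_lit 5) (nat_lit 442) (nat_lit 5) (nat_lit 335) (nat_lit 322) (nat_lit 243)) (XT.nd (nat_lit 78) (nat_lit 0) (nat_lit 76) (XT.lf (nat_lit 76) (nat_lit 2068435090) (nat_lit 0) (nat_lit 1576623934) (nat_lit 1672) (nat_lit 6544814237) (nat_lit 421) (nat_lit 5) (nat_lit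 420) (nat_lit 5) (nat_lit 442) (nat_lit 5) (nat_lit 336) (nat_lit 322) (nat_lit 242)) (XT.lf (nat_lit 0) (nat_lit 5606909452) (nat_lit 1596) (nat_lit 365599421) (nat_lit 1672) (nat_lit 4362811301) (nat_lit 421) (nat_lit 5) (nat_lit 442) (nat_lit 5) (nat_lit 443) (nat_lit 5) (nat_lit 337) (nat_lit 322) (nat_lit 241))))) (XT.nd (nat_lit 156) (nat_lit 3496) (nat_lit 0) (XT.nd (nat_lit 78) (nat_lit 1596) (nat_lit 0) (XT.lf (nat_lit 0) (nat_lit 7648358144) (nat_lit 1596) (nat_lit 2803628509) (nat_lit 76) (nat_lit 32753186) (nat_lit 422) (nat_lit 5) (nat_lit 443) (nat_lit 5) (nat_lit 423) (nat_lit 5) (nat_lit 338) (nat_lit 322) (nat_lit 240)) (XT.lf (nat_lit 0) (nat_lit 5333509908) (nat_lit 1596) (nat_lit 4455723663) (nat_lit 1672) (nat_lit 848668354) (nat_lit 401) (nat_lit 5) (nat_lit 422) (nat_lit 5) (nat_lit 423) (nat_lit 5) (nat_lit 339) (nat_lit 322) (nat_lit 239))) (XT.nd (nat_lit 78) (nat_lit 1748)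 (nat_lit 0) (XT.lf (nat_lit 0) (nat_lit 1194564281) (nat_lit 1748) (nat_lit 7850438125) (nat_lit 76) (nat_lit 1750291004) (nat_lit 378) (nat_lit 5) (nat_lit 401) (nat_lit 5) (nat_lit 379) (nat_lit 5) (nat_lit 340) (nat_lit 322) (nat_lit 238)) (XT.nd (nat_lit 78) (nat_lit 0) (nat_lit 0) (XT.lf (nat_lit 0) (nat_lit 495881022) (nat_lit 1748) (nat_lit 2823666440) (nat_lit 1824) (nat_lit 7637129023) (nat_lit 355) (nat_lit 5) (nat_lit 378) (nat_lit 5) (nat_lit 379) (nat_lit 5) (nat_lit 341) (nat_lit 322) (nat_lit 237)) (XT.lf (nat_lit 0) (nat_lit 5548728026) (nat_lit 1824) (nat_lit 1978077262) (nat_lit 76) (nat_lit 3595307888) (nat_lit 355) (nat_lit 5) (nat_lit 379) (nat_lit 5) (nat_lit 356) (nat_lit 5) (nat_lit 342) (nat_lit 322) (nat_lit 236))))))) (XT.nd (nat_lit 780) (nat_lit 5168) (nat_lit 0) (XT.nd (nat_lit 390) (nat_lit 3116) (nat_lit 0) (XT.nd (nat_lit 156) (nat_lit 1748) (nat_lit 0) (XT.nd (nat_lit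 78) (nat_lit 912) (nat_lit 0) (XT.lf (nat_lit 0) (nat_lit 6797679627) (nat_lit 912) (nat_lit 1074808770) (nat_lit 988) (nat_lit 3419490949) (nat_lit 343) (nat_lit 5) (nat_lit 355) (nat_lit 5) (nat_lit 356) (nat_lit 5) (nat_lit 343) (nat_lit 322) (nat_lit 235)) (XT.lf (nat_lit 0) (nat_lit 4386454392) (nat_lit 912) (nat_lit 5923182388) (nat_lit 988) (nat_lit 1156451087) (nat_lit 331) (nat_lit 5) (nat_lit 343) (nat_lit 5) (nat_lit 344) (nat_lit 5) (nat_lit 344) (nat_lit 322) (nat_lit 234))) (XT.nd (nat_lit 78) (nat_lit 836) (nat_lit 0) (XT.lf (nat_lit 0) (nat_lit 1180425152) (nat_lit 912) (nat_lit 9721107622) (nat_lit 76) (nat_lit 743326299) (nat_lit 319) (nat_lit 5) (nat_lit 331) (nat_lit 5) (nat_lit 320) (nat_lit 5) (nat_lit 345) (nat_lit 322) (nat_lit 233)) (XT.nd (nat_lit 78) (nat_lit 836) (nat_lit 0) (XT.lf (nat_lit 0) (nat_lit 3626575051) (nat_lit 912) (nat_lit 613606842) (nat_lit 76) (nat_lit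 7587579422) (nat_lit 319) (nat_lit 5) (nat_lit 331) (nat_lit 5) (nat_lit 320) (nat_lit 5) (nat_lit 346) (nat_lit 322) (nat_lit 232)) (XT.lf (nat_lit 0) (nat_lit 6188839149) (nat_lit 912) (nat_lit 3180972762) (nat_lit 76) (nat_lit 2645501946) (nat_lit 308) (nat_lit 5) (nat_lit 320) (nat_lit 5) (nat_lit 309) (nat_lit 5) (nat_lit 347) (nat_lit 322) (nat_lit 231))))) (XT.nd (nat_lit 156) (nat_lit 1596) (nat_lit 0) (XT.nd (nat_lit 78) (nat_lit 760) (nat_lit 0) (XT.lf (nat_lit 0) (nat_lit 6389869859) (nat_lit 760) (nat_lit 2480724244) (nat_lit 836) (nat_lit 3337063721) (nat_lit 298) (nat_lit 5) (nat_lit 308) (nat_lit 5) (nat_lit 309) (nat_lit 5) (nat_lit 348) (nat_lit 322) (nat_lit 230)) (XT.lf (nat_lit 0) (nat_lit 3875367313) (nat_lit 760) (nat_lit 7803566469) (nat_lit 836) (nat_lit 725932492) (nat_lit 288) (nat_lit 5) (nat_lit 298) (nat_lit 5) (nat_lit 299) (nat_lit 5) (nat_lit 349) (nat_lit 322) (nat_lit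 229))) (XT.nd (nat_lit 78) (nat_lit 760) (nat_lit 0) (XT.lf (nat_lit 0) (nat_lit 1287740302) (nat_lit 760) (nat_lit 684462478) (nat_lit 836) (nat_lit 10634860776) (nat_lit 277) (nat_lit 5) (nat_lit 287) (nat_lit 5) (nat_lit 288) (nat_lit 5) (nat_lit 350) (nat_lit 322) (nat_lit 228)) (XT.nd (nat_lit 78) (nat_lit 760) (nat_lit 0) (XT.lf (nat_lit 0) (nat_lit 4813280992) (nat_lit 836) (nat_lit 1377712000) (nat_lit 76) (nat_lit 6622816097) (nat_lit 277) (nat_lit 5) (nat_lit 288) (nat_lit 5) (nat_lit 278) (nat_lit 5) (nat_lit 351) (nat_lit 322) (nat_lit 227)) (XT.lf (nat_lit 0) (nat_lit 7781163407) (nat_lit 836) (nat_lit 4089291622) (nat_lit 76) (nat_lit 1155485598) (nat_lit 267) (nat_lit 5) (nat_lit 278) (nat_lit 5) (nat_lit 268) (nat_lit 5) (nat_lit 352) (nat_lit 322) (nat_lit 226)))))) (XT.nd (nat_lit 390) (nat_lit 2432) (nat_lit 0) (XT.nd (nat_lit 156) (nat_lit 1292) (nat_lit 0) (XT.nd (nat_lit 78)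 (nat_lit 760) (nat_lit 0) (XT.lf (nat_lit 0) (nat_lit 6346275357) (nat_lit 684) (nat_lit 4555758492) (nat_lit 760) (nat_lit 2341137869) (nat_lit 258) (nat_lit 5) (nat_lit 267) (nat_lit 5) (nat_lit 268) (nat_lit 5) (nat_lit 353) (nat_lit 322) (nat_lit 225)) (XT.lf (nat_lit 0) (nat_lit 685060999) (nat_lit 760) (nat_lit 9787863690) (nat_lit 76) (nat_lit 2993045229) (nat_lit 248) (nat_lit 5) (nat_lit 258) (nat_lit 5) (nat_lit 249) (nat_lit 5) (nat_lit 354) (nat_lit 322) (nat_lit 224))) (XT.nd (nat_lit 78) (nat_lit 684) (nat_lit 0) (XT.lf (nat_lit 0) (nat_lit 905217345) (nat_lit 608) (nat_lit 2921556995) (nat_lit 684) (nat_lit 9867251044) (nat_lit 240) (nat_lit 5) (nat_lit 248) (nat_lit 5) (nat_lit 249) (nat_lit 5) (nat_lit 355) (nat_lit 322) (nat_lit 223)) (XT.nd (nat_lit 78) (nat_lit 684) (nat_lit 0) (XT.lf (nat_lit 0) (nat_lit 7134569870) (nat_lit 684) (nat_lit 1936991936) (nat_lit 76) (nat_lit 4855937225)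 (nat_lit 240) (nat_lit 5) (nat_lit 249) (nat_lit 5) (nat_lit 241) (nat_lit 5) (nat_lit 356) (nat_lit 322) (nat_lit 222)) (XT.lf (nat_lit 0) (nat_lit 9313381097) (nat_lit 684) (nat_lit 1282530614) (nat_lit 760) (nat_lit 3570991679) (nat_lit 231) (nat_lit 5) (nat_lit 240) (nat_lit 5) (nat_lit 241) (nat_lit 5) (nat_lit 357) (nat_lit 322) (nat_lit 221))))) (XT.nd (nat_lit 156) (nat_lit 1140) (nat_lit 0) (XT.nd (nat_lit 78) (nat_lit 684) (nat_lit 0) (XT.lf (nat_lit 0) (nat_lit 6526686583) (nat_lit 608) (nat_lit 7708596458) (nat_lit 684) (nat_lit 176735432) (nat_lit 223) (nat_lit 5) (nat_lit 231) (nat_lit 5) (nat_lit 232) (nat_lit 5) (nat_lit 358) (nat_lit 322) (nat_lit 220)) (XT.lf (nat_lit 0) (nat_lit 3318425794) (nat_lit 684) (nat_lit 11026541386) (nat_lit 76) (nat_lit 318248359) (nat_lit 214) (nat_lit 5) (nat_lit 223) (nat_lit 5) (nat_lit 215) (nat_lit 5) (nat_lit 359) (nat_lit 322) (nat_lit 219)))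 (XT.nd (nat_lit 78) (nat_lit 608) (nat_lit 0) (XT.lf (nat_lit 0) (nat_lit 616937174) (nat_lit 532) (nat_lit 6384172184) (nat_lit 608) (nat_lit 7919125863) (nat_lit 207) (nat_lit 5) (nat_lit 214) (nat_lit 5) (nat_lit 215) (nat_lit 5) (nat_lit 360) (nat_lit 322) (nat_lit 218)) (XT.nd (nat_lit 78) (nat_lit 608) (nat_lit 0) (XT.lf (nat_lit 0) (nat_lit 10857471273) (nat_lit 608) (nat_lit 2464538199) (nat_lit 76) (nat_lit 1861703169) (nat_lit 207) (nat_lit 5) (nat_lit 215) (nat_lit 5) (nat_lit 208) (nat_lit 5) (nat_lit 361) (nat_lit 322) (nat_lit 217)) (XT.lf (nat_lit 0) (nat_lit 9786460967) (nat_lit 608) (nat_lit 5126186970) (nat_lit 684) (nat_lit 540794753) (nat_lit 199) (nat_lit 5) (nat_lit 207) (nat_lit 5) (nat_lit 208) (nat_lit 5) (nat_lit 362) (nat_lit 322) (nat_lit 216))))))))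
noncomputable def xc92 : XT := (XT.nd (nat_lit 43758) (nat_lit 0) (nat_lit 20672) (XT.nd (nat_lit 702) (nat_lit 3344) (nat_lit 0) (XT.nd (nat_lit 312) (nat_lit 2052) (nat_lit 0) (XT.nd (nat_lit 156) (nat_lit 532) (nat_lit 0) (XT.nd (nat_lit 78) (nat_lit 532) (nat_lit 0) (XT.lf (nat_lit 0) (nat_lit 3374037688) (nat_lit 608) (nat_lit 9006193887) (nat_lit 76) (nat_lit 3349409934) (nat_lit 191) (nat_lit 5) (nat_lit 199) (nat_lit 5) (nat_lit 192) (nat_lit 5) (nat_lit 363) (nat_lit 322) (nat_lit 215)) (XT.lf (nat_lit 0) (nat_lit 3529552873) (nat_lit 532) (nat_lit 3942975086) (nat_lit 608) (nat_lit 8540065600) (nat_lit 184) (nat_lit 5) (nat_lit 191) (nat_lit 5) (nat_lit 192) (nat_lit 5) (nat_lit 364) (nat_lit 322) (nat_lit 214))) (XT.nd (nat_lit 78) (nat_lit 0) (nat_lit 0) (XT.lf (nat_lit 0) (nat_lit 204962232) (nat_lit 532) (nat_lit 11560692942) (nat_lit 608) (nat_lit 4536955027) (nat_lit 177) (nat_lit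 5) (nat_lit 184) (nat_lit 5) (nat_lit 185) (nat_lit 5) (nat_lit 365) (nat_lit 322) (nat_lit 213)) (XT.lf (nat_lit 0) (nat_lit 13389880830) (nat_lit 532) (nat_lit 2887031606) (nat_lit 608) (nat_lit 322637574) (nat_lit 177) (nat_lit 5) (nat_lit 184) (nat_lit 5) (nat_lit 185) (nat_lit 5) (nat_lit 366) (nat_lit 322) (nat_lit 212)))) (XT.nd (nat_lit 156) (nat_lit 988) (nat_lit 0) (XT.nd (nat_lit 78) (nat_lit 456) (nat_lit 0) (XT.lf (nat_lit 0) (nat_lit 4050134045) (nat_lit 608) (nat_lit 6799257589) (nat_lit 76) (nat_lit 6053799098) (nat_lit 169) (nat_lit 5) (nat_lit 177) (nat_lit 5) (nat_lit 170) (nat_lit 5) (nat_lit 367) (nat_lit 322) (nat_lit 211)) (XT.lf (nat_lit 0) (nat_lit 6684142175) (nat_lit 456) (nat_lit 1929611504) (nat_lit 532) (nat_lit 8600872059) (nat_lit 163) (nat_lit 5) (nat_lit 169) (nat_lit 5) (nat_lit 170) (nat_lit 5) (nat_lit 368) (nat_lit 322) (nat_lit 210))) (XT.nd (nat_lit 78) (nat_lit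 532) (nat_lit 0) (XT.lf (nat_lit 0) (nat_lit 3096605478) (nat_lit 456) (nat_lit 10311089180) (nat_lit 532) (nat_lit 4125849307) (nat_lit 157) (nat_lit 5) (nat_lit 163) (nat_lit 5) (nat_lit 164) (nat_lit 5) (nat_lit 369) (nat_lit 322) (nat_lit 209)) (XT.nd (nat_lit 78) (nat_lit 456) (nat_lit 0) (XT.lf (nat_lit 0) (nat_lit 541900141) (nat_lit 532) (nat_lit 627509837) (nat_lit 76) (nat_lit 16691268685) (nat_lit 156) (nat_lit 5) (nat_lit 163) (nat_lit 5) (nat_lit 157) (nat_lit 5) (nat_lit 370) (nat_lit 322) (nat_lit 208)) (XT.lf (nat_lit 0) (nat_lit 5417973392) (nat_lit 532) (nat_lit 4527631182) (nat_lit 76) (nat_lit 8248998268) (nat_lit 150) (nat_lit 5) (nat_lit 157) (nat_lit 5) (nat_lit 151) (nat_lit 5) (nat_lit 371) (nat_lit 322) (nat_lit 207)))))) (XT.nd (nat_lit 390) (nat_lit 1596) (nat_lit 0) (XT.nd (nat_lit 156) (nat_lit 912) (nat_lit 0) (XT.nd (nat_lit 78) (nat_lit 380) (nat_lit 0) (XT.lf (nat_lit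 0) (nat_lit 9956986440) (nat_lit 456) (nat_lit 541103076) (nat_lit 532) (nat_lit 8039307578) (nat_lit 144) (nat_lit 5) (nat_lit 150) (nat_lit 5) (nat_lit 151) (nat_lit 5) (nat_lit 372) (nat_lit 322) (nat_lit 206)) (XT.lf (nat_lit 0) (nat_lit 6041835196) (nat_lit 380) (nat_lit 9799616322) (nat_lit 456) (nat_lit 3046814148) (nat_lit 139) (nat_lit 5) (nat_lit 144) (nat_lit 5) (nat_lit 145) (nat_lit 5) (nat_lit 373) (nat_lit 322) (nat_lit 205))) (XT.nd (nat_lit 78) (nat_lit 380) (nat_lit 0) (XT.lf (nat_lit 0) (nat_lit 1953809973) (nat_lit 456) (nat_lit 170595125) (nat_lit 532) (nat_lit 17123861418) (nat_lit 132) (nat_lit 5) (nat_lit 138) (nat_lit 5) (nat_lit 139) (nat_lit 5) (nat_lit 374) (nat_lit 322) (nat_lit 204)) (XT.nd (nat_lit 78) (nat_lit 380) (nat_lit 0) (XT.lf (nat_lit 0) (nat_lit 7542439131) (nat_lit 532) (nat_lit 2353468089) (nat_lit 76) (nat_lit 9720102715) (nat_lit 132) (nat_lit 5) (nat_lit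 139) (nat_lit 5) (nat_lit 133) (nat_lit 5) (nat_lit 375) (nat_lit 322) (nat_lit 203)) (XT.lf (nat_lit 0) (nat_lit 13182445418) (nat_lit 380) (nat_lit 9747942) (nat_lit 456) (nat_lit 6801215300) (nat_lit 127) (nat_lit 5) (nat_lit 132) (nat_lit 5) (nat_lit 133) (nat_lit 5) (nat_lit 376) (nat_lit 322) (nat_lit 202))))) (XT.nd (nat_lit 156) (nat_lit 760) (nat_lit 0) (XT.nd (nat_lit 78) (nat_lit 456) (nat_lit 0) (XT.lf (nat_lit 0) (nat_lit 8859935314) (nat_lit 380) (nat_lit 10273884732) (nat_lit 456) (nat_lit 1245868098) (nat_lit 122) (nat_lit 5) (nat_lit 127) (nat_lit 5) (nat_lit 128) (nat_lit 5) (nat_lit 377) (nat_lit 322) (nat_lit 201)) (XT.lf (nat_lit 0) (nat_lit 4320005160) (nat_lit 380) (nat_lit 154978287) (nat_lit 456) (nat_lit 16300846423) (nat_lit 116) (nat_lit 5) (nat_lit 121) (nat_lit 5) (nat_lit 122) (nat_lit 5) (nat_lit 378) (nat_lit 322) (nat_lit 200))) (XT.nd (nat_lit 78) (nat_lit 760) (nat_lit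 0) (XT.lf (nat_lit 0) (nat_lit 10479136921) (nat_lit 456) (nat_lit 489831275) (nat_lit 76) (nat_lit 10212156801) (nat_lit 116) (nat_lit 5) (nat_lit 122) (nat_lit 5) (nat_lit 117) (nat_lit 5) (nat_lit 379) (nat_lit 322) (nat_lit 199)) (XT.nd (nat_lit 78) (nat_lit 380) (nat_lit 0) (XT.lf (nat_lit 0) (nat_lit 16141862659) (nat_lit 380) (nat_lit 611144389) (nat_lit 456) (nat_lit 4843785826) (nat_lit 111) (nat_lit 5) (nat_lit 116) (nat_lit 5) (nat_lit 117) (nat_lit 5) (nat_lit 380) (nat_lit 322) (nat_lit 198)) (XT.lf (nat_lit 0) (nat_lit 1301501598) (nat_lit 380) (nat_lit 10717402842) (nat_lit 76) (nat_lit 10003338295) (nat_lit 106) (nat_lit 5) (nat_lit 111) (nat_lit 5) (nat_lit 107) (nat_lit 5) (nat_lit 381) (nat_lit 322) (nat_lit 197))))))) (XT.nd (nat_lit 702) (nat_lit 4408) (nat_lit 0) (XT.nd (nat_lit 312) (nat_lit 1368) (nat_lit 0) (XT.nd (nat_lit 156) (nat_lit 0) (nat_lit 0) (XT.nd (nat_lit 78) (nat_lit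 0) (nat_lit 0) (XT.lf (nat_lit 0) (nat_lit 486387864) (nat_lit 0) (nat_lit 486387864) (nat_lit 1444) (nat_lit 3389240548) (nat_lit 454) (nat_lit 5) (nat_lit 454) (nat_lit 3) (nat_lit 473) (nat_lit 3) (nat_lit 323) (nat_lit 323) (nat_lit 254)) (XT.lf (nat_lit 0) (nat_lit 3405557055) (nat_lit 1444) (nat_lit 1661820334) (nat_lit 1520) (nat_lit 3757979381) (nat_lit 454) (nat_lit 5) (nat_lit 473) (nat_lit 3) (nat_lit 474) (nat_lit 5) (nat_lit 324) (nat_lit 323) (nat_lit 253))) (XT.nd (nat_lit 78) (nat_lit 0) (nat_lit 76) (XT.lf (nat_lit 76) (nat_lit 4635844180) (nat_lit 0) (nat_lit 255425041) (nat_lit 1520) (nat_lit 4038849262) (nat_lit 455) (nat_lit 5) (nat_lit 454) (nat_lit 5) (nat_lit 474) (nat_lit 5) (nat_lit 325) (nat_lit 323) (nat_lit 252)) (XT.lf (nat_lit 76) (nat_lit 2074452875) (nat_lit 0) (nat_lit 4349299372) (nat_lit 1520) (nat_lit 2614261665) (nat_lit 456) (nat_lit 5) (nat_lit 455) (nat_lit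 5) (nat_lit 475) (nat_lit 5) (nat_lit 326) (nat_lit 323) (nat_lit 251)))) (XT.nd (nat_lit 156) (nat_lit 0) (nat_lit 76) (XT.nd (nat_lit 78) (nat_lit 1520) (nat_lit 0) (XT.lf (nat_lit 0) (nat_lit 7985659986) (nat_lit 1444) (nat_lit 491795956) (nat_lit 1520) (nat_lit 672055094) (nat_lit 456) (nat_lit 5) (nat_lit 475) (nat_lit 5) (nat_lit 476) (nat_lit 5) (nat_lit 327) (nat_lit 323) (nat_lit 250)) (XT.lf (nat_lit 0) (nat_lit 345041247) (nat_lit 1520) (nat_lit 3069363253) (nat_lit 1596) (nat_lit 5849551954) (nat_lit 436) (nat_lit 5) (nat_lit 456) (nat_lit 5) (nat_lit 457) (nat_lit 5) (nat_lit 328) (nat_lit 323) (nat_lit 249))) (XT.nd (nat_lit 78) (nat_lit 0) (nat_lit 0) (XT.lf (nat_lit 0) (nat_lit 1873823367) (nat_lit 1520) (nat_lit 5676312834) (nat_lit 1596) (nat_lit 1831767739) (nat_lit 437) (nat_lit 5) (nat_lit 457) (nat_lit 5) (nat_lit 458) (nat_lit 5) (nat_lit 329) (nat_lit 323) (nat_lit 248)) (XT.nd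 (nat_lit 78) (nat_lit 0) (nat_lit 76) (XT.lf (nat_lit 76) (nat_lit 1185165658) (nat_lit 0) (nat_lit 2266935023) (nat_lit 1596) (nat_lit 6051246893) (nat_lit 438) (nat_lit 5) (nat_lit 437) (nat_lit 5) (nat_lit 458) (nat_lit 5) (nat_lit 330) (nat_lit 323) (nat_lit 247)) (XT.lf (nat_lit 0) (nat_lit 5090534363) (nat_lit 1520) (nat_lit 1349167769) (nat_lit 1596) (nat_lit 3188505698) (nat_lit 438) (nat_lit 5) (nat_lit 458) (nat_lit 5) (nat_lit 459) (nat_lit 5) (nat_lit 331) (nat_lit 323) (nat_lit 246)))))) (XT.nd (nat_lit 390) (nat_lit 3116) (nat_lit 0) (XT.nd (nat_lit 156) (nat_lit 1444) (nat_lit 0) (XT.nd (nat_lit 78) (nat_lit 0) (nat_lit 76) (XT.lf (nat_lit 76) (nat_lit 5860696699) (nat_lit 0) (nat_lit 925467113) (nat_lit 1596) (nat_lit 2970517843) (nat_lit 439) (nat_lit 5) (nat_lit 438) (nat_lit 5) (nat_lit 459) (nat_lit 5) (nat_lit 332) (nat_lit 323) (nat_lit 245)) (XT.lf (nat_lit 76) (nat_lit 3399715615)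 (nat_lit 0) (nat_lit 5151140577) (nat_lit 1596) (nat_lit 1337817405) (nat_lit 440) (nat_lit 5) (nat_lit 439) (nat_lit 5) (nat_lit 460) (nat_lit 5) (nat_lit 333) (nat_lit 323) (nat_lit 244))) (XT.nd (nat_lit 78) (nat_lit 0) (nat_lit 0) (XT.lf (nat_lit 0) (nat_lit 338669447) (nat_lit 1596) (nat_lit 9112079312) (nat_lit 1672) (nat_lit 573872026) (nat_lit 419) (nat_lit 5) (nat_lit 440) (nat_lit 5) (nat_lit 441) (nat_lit 5) (nat_lit 334) (nat_lit 323) (nat_lit 243)) (XT.nd (nat_lit 78) (nat_lit 0) (nat_lit 76) (XT.lf (nat_lit 0) (nat_lit 2084055553) (nat_lit 1596) (nat_lit 1613544031) (nat_lit 1672) (nat_lit 6466160013) (nat_lit 419) (nat_lit 5) (nat_lit 440) (nat_lit 5) (nat_lit 441) (nat_lit 5) (nat_lit 335) (nat_lit 323) (nat_lit 242)) (XT.lf (nat_lit 0) (nat_lit 3895793929) (nat_lit 1596) (nat_lit 4161265654) (nat_lit 1672) (nat_lit 2249758102) (nat_lit 420) (nat_lit 5) (nat_lit 441) (nat_lit 5) (nat_lit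 442) (nat_lit 5) (nat_lit 336) (nat_lit 323) (nat_lit 241))))) (XT.nd (nat_lit 156) (nat_lit 3192) (nat_lit 0) (XT.nd (nat_lit 78) (nat_lit 0) (nat_lit 76) (XT.lf (nat_lit 76) (nat_lit 3698774094) (nat_lit 0) (nat_lit 2083112311) (nat_lit 1672) (nat_lit 4671905274) (nat_lit 421) (nat_lit 5) (nat_lit 420) (nat_lit 5) (nat_lit 442) (nat_lit 5) (nat_lit 337) (nat_lit 323) (nat_lit 240)) (XT.lf (nat_lit 76) (nat_lit 1205303567) (nat_lit 0) (nat_lit 6543167192) (nat_lit 1672) (nat_lit 2856249446) (nat_lit 422) (nat_lit 5) (nat_lit 421) (nat_lit 5) (nat_lit 443) (nat_lit 5) (nat_lit 338) (nat_lit 323) (nat_lit 239))) (XT.nd (nat_lit 78) (nat_lit 3268) (nat_lit 0) (XT.lf (nat_lit 76) (nat_lit 9452426739) (nat_lit 0) (nat_lit 343443156) (nat_lit 1672) (nat_lit 963893159) (nat_lit 422) (nat_lit 5) (nat_lit 421) (nat_lit 5) (nat_lit 443) (nat_lit 5) (nat_lit 339) (nat_lit 323) (nat_lit 238)) (XT.nd (nat_lit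 78) (nat_lit 1672) (nat_lit 0) (XT.lf (nat_lit 0) (nat_lit 1020969290) (nat_lit 1672) (nat_lit 3874759258) (nat_lit 76) (nat_lit 6022649277) (nat_lit 400) (nat_lit 5) (nat_lit 422) (nat_lit 5) (nat_lit 401) (nat_lit 5) (nat_lit 340) (nat_lit 323) (nat_lit 237)) (XT.lf (nat_lit 0) (nat_lit 3067455623) (nat_lit 1748) (nat_lit 6488870837) (nat_lit 76) (nat_lit 1525014762) (nat_lit 378) (nat_lit 5) (nat_lit 401) (nat_lit 5) (nat_lit 379) (nat_lit 5) (nat_lit 341) (nat_lit 323) (nat_lit 236))))))))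
noncomputable def xc93 : XT := (XT.nd (nat_lit 1482) (nat_lit 7828) (nat_lit 0) (XT.nd (nat_lit 702) (nat_lit 5548) (nat_lit 0) (XT.nd (nat_lit 312) (nat_lit 3268) (nat_lit 0) (XT.nd (nat_lit 156) (nat_lit 1900) (nat_lit 0) (XT.nd (nat_lit 78) (nat_lit 0) (nat_lit 0) (XT.lf (nat_lit 0) (nat_lit 2081927151) (nat_lit 1748) (nat_lit 3130955785) (nat_lit 1824) (nat_lit 6035580124) (nat_lit 355) (nat_lit 5) (nat_lit 378) (nat_lit 5) (nat_lit 379) (nat_lit 5) (nat_lit 342) (nat_lit 323) (nat_lit 235)) (XT.lf (nat_lit 0) (nat_lit 7455290757) (nat_lit 1824) (nat_lit 474770501) (nat_lit 76) (nat_lit 3489904811) (nat_lit 355) (nat_lit 5) (nat_lit 379) (nat_lit 5) (nat_lit 356) (nat_lit 5) (nat_lit 343) (nat_lit 323) (nat_lit 234))) (XT.nd (nat_lit 78) (nat_lit 988) (nat_lit 0) (XT.lf (nat_lit 0) (nat_lit 8538906970) (nat_lit 912) (nat_lit 1269155571) (nat_lit 988) (nat_lit 1787709084) (nat_lit 343) (nat_lit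 5) (nat_lit 355) (nat_lit 5) (nat_lit 356) (nat_lit 5) (nat_lit 344) (nat_lit 323) (nat_lit 233)) (XT.lf (nat_lit 0) (nat_lit 495331757) (nat_lit 988) (nat_lit 5713360709) (nat_lit 76) (nat_lit 5567183671) (nat_lit 330) (nat_lit 5) (nat_lit 343) (nat_lit 5) (nat_lit 331) (nat_lit 5) (nat_lit 345) (nat_lit 323) (nat_lit 232)))) (XT.nd (nat_lit 156) (nat_lit 1596) (nat_lit 0) (XT.nd (nat_lit 78) (nat_lit 836) (nat_lit 0) (XT.lf (nat_lit 0) (nat_lit 2847497141) (nat_lit 912) (nat_lit 8433186519) (nat_lit 76) (nat_lit 679983191) (nat_lit 319) (nat_lit 5) (nat_lit 331) (nat_lit 5) (nat_lit 320) (nat_lit 5) (nat_lit 346) (nat_lit 323) (nat_lit 231)) (XT.lf (nat_lit 0) (nat_lit 913513745) (nat_lit 836) (nat_lit 4411924873) (nat_lit 912) (nat_lit 6824475753) (nat_lit 308) (nat_lit 5) (nat_lit 319) (nat_lit 5) (nat_lit 320) (nat_lit 5) (nat_lit 347) (nat_lit 323) (nat_lit 230))) (XT.nd (nat_lit 78) (nat_lit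 1596) (nat_lit 0) (XT.lf (nat_lit 0) (nat_lit 7922040905) (nat_lit 912) (nat_lit 1735671349) (nat_lit 76) (nat_lit 2686257416) (nat_lit 308) (nat_lit 5) (nat_lit 320) (nat_lit 5) (nat_lit 309) (nat_lit 5) (nat_lit 348) (nat_lit 323) (nat_lit 229)) (XT.nd (nat_lit 78) (nat_lit 836) (nat_lit 0) (XT.lf (nat_lit 0) (nat_lit 8097300027) (nat_lit 760) (nat_lit 2551715750) (nat_lit 836) (nat_lit 1893797674) (nat_lit 298) (nat_lit 5) (nat_lit 308) (nat_lit 5) (nat_lit 309) (nat_lit 5) (nat_lit 349) (nat_lit 323) (nat_lit 228)) (XT.lf (nat_lit 0) (nat_lit 750835999) (nat_lit 836) (nat_lit 7238265432) (nat_lit 76) (nat_lit 4757444972) (nat_lit 287) (nat_lit 5) (nat_lit 298) (nat_lit 5) (nat_lit 288) (nat_lit 5) (nat_lit 350) (nat_lit 323) (nat_lit 227)))))) (XT.nd (nat_lit 390) (nat_lit 2584) (nat_lit 0) (XT.nd (nat_lit 156) (nat_lit 1444) (nat_lit 0) (XT.nd (nat_lit 78) (nat_lit 760) (nat_lit 0) (XT.lf (nat_lit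 0) (nat_lit 2843614978) (nat_lit 760) (nat_lit 642983577) (nat_lit 836) (nat_lit 9468807121) (nat_lit 277) (nat_lit 5) (nat_lit 287) (nat_lit 5) (nat_lit 288) (nat_lit 5) (nat_lit 351) (nat_lit 323) (nat_lit 226)) (XT.lf (nat_lit 0) (nat_lit 83714400) (nat_lit 760) (nat_lit 6287743813) (nat_lit 836) (nat_lit 6797746667) (nat_lit 267) (nat_lit 5) (nat_lit 277) (nat_lit 5) (nat_lit 278) (nat_lit 5) (nat_lit 352) (nat_lit 323) (nat_lit 225))) (XT.nd (nat_lit 78) (nat_lit 1444) (nat_lit 0) (XT.lf (nat_lit 0) (nat_lit 9396883882) (nat_lit 836) (nat_lit 2706939535) (nat_lit 76) (nat_lit 1284528450) (nat_lit 267) (nat_lit 5) (nat_lit 278) (nat_lit 5) (nat_lit 268) (nat_lit 5) (nat_lit 353) (nat_lit 323) (nat_lit 224)) (XT.nd (nat_lit 78) (nat_lit 760) (nat_lit 0) (XT.lf (nat_lit 0) (nat_lit 8017277117) (nat_lit 684) (nat_lit 4563455701) (nat_lit 760) (nat_lit 1032001033) (nat_lit 258) (nat_lit 5) (nat_lit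 267) (nat_lit 5) (nat_lit 268) (nat_lit 5) (nat_lit 354) (nat_lit 323) (nat_lit 223)) (XT.lf (nat_lit 0) (nat_lit 2037755274) (nat_lit 760) (nat_lit 8580078016) (nat_lit 76) (nat_lit 3224806343) (nat_lit 248) (nat_lit 5) (nat_lit 258) (nat_lit 5) (nat_lit 249) (nat_lit 5) (nat_lit 355) (nat_lit 323) (nat_lit 222))))) (XT.nd (nat_lit 156) (nat_lit 1976) (nat_lit 0) (XT.nd (nat_lit 78) (nat_lit 0) (nat_lit 0) (XT.lf (nat_lit 0) (nat_lit 2409436668) (nat_lit 608) (nat_lit 2835073153) (nat_lit 684) (nat_lit 8833630559) (nat_lit 240) (nat_lit 5) (nat_lit 248) (nat_lit 5) (nat_lit 249) (nat_lit 5) (nat_lit 356) (nat_lit 323) (nat_lit 221)) (XT.lf (nat_lit 0) (nat_lit 8614687376) (nat_lit 684) (nat_lit 536229852) (nat_lit 76) (nat_lit 5168456894) (nat_lit 240) (nat_lit 5) (nat_lit 249) (nat_lit 5) (nat_lit 241) (nat_lit 5) (nat_lit 357) (nat_lit 323) (nat_lit 220))) (XT.nd (nat_lit 78) (nat_lit 1292) (nat_lit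 0) (XT.lf (nat_lit 0) (nat_lit 11027985910) (nat_lit 684) (nat_lit 1124325726) (nat_lit 760) (nat_lit 2414218431) (nat_lit 231) (nat_lit 5) (nat_lit 240) (nat_lit 5) (nat_lit 241) (nat_lit 5) (nat_lit 358) (nat_lit 323) (nat_lit 219)) (XT.nd (nat_lit 78) (nat_lit 608) (nat_lit 0) (XT.lf (nat_lit 0) (nat_lit 1041977537) (nat_lit 684) (nat_lit 6668263254) (nat_lit 76) (nat_lit 7109148728) (nat_lit 222) (nat_lit 5) (nat_lit 231) (nat_lit 5) (nat_lit 223) (nat_lit 5) (nat_lit 359) (nat_lit 323) (nat_lit 218)) (XT.lf (nat_lit 0) (nat_lit 4614818433) (nat_lit 684) (nat_lit 9905501432) (nat_lit 76) (nat_lit 558291659) (nat_lit 214) (nat_lit 5) (nat_lit 223) (nat_lit 5) (nat_lit 215) (nat_lit 5) (nat_lit 360) (nat_lit 323) (nat_lit 217))))))) (XT.nd (nat_lit 780) (nat_lit 3496) (nat_lit 0) (XT.nd (nat_lit 390) (nat_lit 2052) (nat_lit 0) (XT.nd (nat_lit 156) (nat_lit 1748) (nat_lit 0) (XT.nd (nat_lit 78) (nat_lit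 0) (nat_lit 0) (XT.lf (nat_lit 0) (nat_lit 2063727167) (nat_lit 532) (nat_lit 6318669276) (nat_lit 608) (nat_lit 6961473492) (nat_lit 207) (nat_lit 5) (nat_lit 214) (nat_lit 5) (nat_lit 215) (nat_lit 5) (nat_lit 361) (nat_lit 323) (nat_lit 216)) (XT.lf (nat_lit 0) (nat_lit 12321955219) (nat_lit 608) (nat_lit 1130138982) (nat_lit 76) (nat_lit 2163823297) (nat_lit 207) (nat_lit 5) (nat_lit 215) (nat_lit 5) (nat_lit 208) (nat_lit 5) (nat_lit 362) (nat_lit 323) (nat_lit 215))) (XT.nd (nat_lit 78) (nat_lit 1064) (nat_lit 0) (XT.lf (nat_lit 0) (nat_lit 572764808) (nat_lit 684) (nat_lit 4432464968) (nat_lit 76) (nat_lit 10888933230) (nat_lit 198) (nat_lit 5) (nat_lit 207) (nat_lit 5) (nat_lit 199) (nat_lit 5) (nat_lit 363) (nat_lit 323) (nat_lit 214)) (XT.nd (nat_lit 78) (nat_lit 532) (nat_lit 0) (XT.lf (nat_lit 0) (nat_lit 4575805727) (nat_lit 608) (nat_lit 7877546837) (nat_lit 76) (nat_lit 3725676245)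 (nat_lit 191) (nat_lit 5) (nat_lit 199) (nat_lit 5) (nat_lit 192) (nat_lit 5) (nat_lit 364) (nat_lit 323) (nat_lit 213)) (XT.lf (nat_lit 0) (nat_lit 5011577924) (nat_lit 532) (nat_lit 3762552822) (nat_lit 608) (nat_lit 7696815377) (nat_lit 184) (nat_lit 5) (nat_lit 191) (nat_lit 5) (nat_lit 192) (nat_lit 5) (nat_lit 365) (nat_lit 323) (nat_lit 212))))) (XT.nd (nat_lit 156) (nat_lit 1444) (nat_lit 0) (XT.nd (nat_lit 78) (nat_lit 76) (nat_lit 0) (XT.lf (nat_lit 0) (nat_lit 1584683294) (nat_lit 532) (nat_lit 11590788202) (nat_lit 608) (nat_lit 3594617257) (nat_lit 177) (nat_lit 5) (nat_lit 184) (nat_lit 5) (nat_lit 185) (nat_lit 5) (nat_lit 366) (nat_lit 323) (nat_lit 211)) (XT.lf (nat_lit 0) (nat_lit 705344994) (nat_lit 608) (nat_lit 1956063811) (nat_lit 76) (nat_lit 14415064263) (nat_lit 176) (nat_lit 5) (nat_lit 184) (nat_lit 5) (nat_lit 177) (nat_lit 5) (nat_lit 367) (nat_lit 323) (nat_lit 210)))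 (XT.nd (nat_lit 78) (nat_lit 912) (nat_lit 0) (XT.lf (nat_lit 0) (nat_lit 5185492665) (nat_lit 608) (nat_lit 5658737993) (nat_lit 76) (nat_lit 6545351005) (nat_lit 169) (nat_lit 5) (nat_lit 177) (nat_lit 5) (nat_lit 170) (nat_lit 5) (nat_lit 368) (nat_lit 323) (nat_lit 209)) (XT.nd (nat_lit 78) (nat_lit 456) (nat_lit 0) (XT.lf (nat_lit 0) (nat_lit 8207350892) (nat_lit 456) (nat_lit 1657727996) (nat_lit 532) (nat_lit 7845712129) (nat_lit 163) (nat_lit 5) (nat_lit 169) (nat_lit 5) (nat_lit 170) (nat_lit 5) (nat_lit 369) (nat_lit 323) (nat_lit 208)) (XT.lf (nat_lit 0) (nat_lit 4508567330) (nat_lit 456) (nat_lit 10275993953) (nat_lit 532) (nat_lit 3255093139) (nat_lit 157) (nat_lit 5) (nat_lit 163) (nat_lit 5) (nat_lit 164) (nat_lit 5) (nat_lit 370) (nat_lit 323) (nat_lit 207)))))) (XT.nd (nat_lit 390) (nat_lit 1596) (nat_lit 0) (XT.nd (nat_lit 156) (nat_lit 1368) (nat_lit 0) (XT.nd (nat_lit 78) (nat_lit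 0) (nat_lit 0) (XT.lf (nat_lit 0) (nat_lit 655959536) (nat_lit 456) (nat_lit 859357685) (nat_lit 532) (nat_lit 16861654870) (nat_lit 150) (nat_lit 5) (nat_lit 156) (nat_lit 5) (nat_lit 157) (nat_lit 5) (nat_lit 371) (nat_lit 323) (nat_lit 206)) (XT.lf (nat_lit 0) (nat_lit 6516125491) (nat_lit 532) (nat_lit 3373919248) (nat_lit 76) (nat_lit 8831311377) (nat_lit 150) (nat_lit 5) (nat_lit 157) (nat_lit 5) (nat_lit 151) (nat_lit 5) (nat_lit 372) (nat_lit 323) (nat_lit 205))) (XT.nd (nat_lit 78) (nat_lit 912) (nat_lit 0) (XT.lf (nat_lit 0) (nat_lit 11524315634) (nat_lit 456) (nat_lit 205315324) (nat_lit 532) (nat_lit 7345194371) (nat_lit 144) (nat_lit 5) (nat_lit 150) (nat_lit 5) (nat_lit 151) (nat_lit 5) (nat_lit 373) (nat_lit 323) (nat_lit 204)) (XT.nd (nat_lit 78) (nat_lit 532) (nat_lit 0) (XT.lf (nat_lit 0) (nat_lit 7487269929) (nat_lit 380) (nat_lit 9729753716) (nat_lit 456) (nat_lit 2219532252) (nat_lit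 139) (nat_lit 5) (nat_lit 144) (nat_lit 5) (nat_lit 145) (nat_lit 5) (nat_lit 374) (nat_lit 323) (nat_lit 203)) (XT.lf (nat_lit 0) (nat_lit 3077766864) (nat_lit 532) (nat_lit 16540571535) (nat_lit 76) (nat_lit 189249265) (nat_lit 132) (nat_lit 5) (nat_lit 139) (nat_lit 5) (nat_lit 133) (nat_lit 5) (nat_lit 375) (nat_lit 323) (nat_lit 202))))) (XT.nd (nat_lit 156) (nat_lit 1216) (nat_lit 0) (XT.nd (nat_lit 78) (nat_lit 380) (nat_lit 0) (XT.lf (nat_lit 0) (nat_lit 8633537993) (nat_lit 532) (nat_lit 1189530521) (nat_lit 76) (nat_lit 10363800687) (nat_lit 132) (nat_lit 5) (nat_lit 139) (nat_lit 5) (nat_lit 133) (nat_lit 5) (nat_lit 376) (nat_lit 323) (nat_lit 201)) (XT.lf (nat_lit 0) (nat_lit 14437798730) (nat_lit 456) (nat_lit 5785831551) (nat_lit 76) (nat_lit 352268780) (nat_lit 127) (nat_lit 5) (nat_lit 133) (nat_lit 5) (nat_lit 128) (nat_lit 5) (nat_lit 377) (nat_lit 323) (nat_lit 200))) (XT.nd (nat_lit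 78) (nat_lit 836) (nat_lit 0) (XT.lf (nat_lit 0) (nat_lit 10335183294) (nat_lit 380) (nat_lit 10205654155) (nat_lit 456) (nat_lit 433275393) (nat_lit 122) (nat_lit 5) (nat_lit 127) (nat_lit 5) (nat_lit 128) (nat_lit 5) (nat_lit 378) (nat_lit 323) (nat_lit 199)) (XT.nd (nat_lit 78) (nat_lit 380) (nat_lit 0) (XT.lf (nat_lit 0) (nat_lit 5432844464) (nat_lit 456) (nat_lit 15733098515) (nat_lit 76) (nat_lit 216398401) (nat_lit 116) (nat_lit 5) (nat_lit 122) (nat_lit 5) (nat_lit 117) (nat_lit 5) (nat_lit 379) (nat_lit 323) (nat_lit 198)) (XT.lf (nat_lit 0) (nat_lit 684415581) (nat_lit 380) (nat_lit 10914168177) (nat_lit 456) (nat_lit 10201590859) (nat_lit 111) (nat_lit 5) (nat_lit 116) (nat_lit 5) (nat_lit 117) (nat_lit 5) (nat_lit 380) (nat_lit 323) (nat_lit 197))))))))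
noncomputable def xc94 : XT := (XT.nd (nat_lit 43836) (nat_lit 0) (nat_lit 7828) (XT.nd (nat_lit 43056) (nat_lit 0) (nat_lit 21888) (XT.nd (nat_lit 42666) (nat_lit 0) (nat_lit 24624) (XT.nd (nat_lit 42510) (nat_lit 0) (nat_lit 26068) (XT.nd (nat_lit 42432) (nat_lit 0) (nat_lit 26068) (XT.lf (nat_lit 0) (nat_lit 17786940562) (nat_lit 380) (nat_lit 253503282) (nat_lit 456) (nat_lit 4188281442) (nat_lit 111) (nat_lit 5) (nat_lit 116) (nat_lit 5) (nat_lit 117) (nat_lit 5) (nat_lit 381) (nat_lit 323) (nat_lit 196)) (XT.lf (nat_lit 0) (nat_lit 1197270748) (nat_lit 0) (nat_lit 1197270748) (nat_lit 1444) (nat_lit 2069572635) (nat_lit 454) (nat_lit 5) (nat_lit 454) (nat_lit 3) (nat_lit 473) (nat_lit 3) (nat_lit 324) (nat_lit 324) (nat_lit 252))) (XT.nd (nat_lit 78) (nat_lit 0) (nat_lit 0) (XT.lf (nat_lit 0) (nat_lit 6202989227) (nat_lit 1444) (nat_lit 295025108) (nat_lit 1520) (nat_lit 2536428930) (nat_lit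 454) (nat_lit 5) (nat_lit 473) (nat_lit 3) (nat_lit 474) (nat_lit 5) (nat_lit 325) (nat_lit 324) (nat_lit 251)) (XT.lf (nat_lit 76) (nat_lit 6168585881) (nat_lit 0) (nat_lit 1495232607) (nat_lit 1520) (nat_lit 1479969950) (nat_lit 455) (nat_lit 5) (nat_lit 454) (nat_lit 5) (nat_lit 474) (nat_lit 5) (nat_lit 326) (nat_lit 324) (nat_lit 250)))) (XT.nd (nat_lit 156) (nat_lit 0) (nat_lit 76) (XT.nd (nat_lit 78) (nat_lit 1520) (nat_lit 0) (XT.lf (nat_lit 76) (nat_lit 3568966092) (nat_lit 0) (nat_lit 5598362389) (nat_lit 1520) (nat_lit 89141219) (nat_lit 456) (nat_lit 5) (nat_lit 455) (nat_lit 5) (nat_lit 475) (nat_lit 5) (nat_lit 327) (nat_lit 324) (nat_lit 249)) (XT.lf (nat_lit 76) (nat_lit 943492908) (nat_lit 0) (nat_lit 369569445) (nat_lit 1596) (nat_lit 8059580490) (nat_lit 436) (nat_lit 5) (nat_lit 435) (nat_lit 5) (nat_lit 456) (nat_lit 5) (nat_lit 328) (nat_lit 324) (nat_lit 248))) (XT.nd (nat_lit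 78) (nat_lit 0) (nat_lit 76) (XT.lf (nat_lit 0) (nat_lit 2779724564) (nat_lit 1520) (nat_lit 1702425769) (nat_lit 1596) (nat_lit 5009697348) (nat_lit 436) (nat_lit 5) (nat_lit 456) (nat_lit 5) (nat_lit 457) (nat_lit 5) (nat_lit 329) (nat_lit 324) (nat_lit 247)) (XT.nd (nat_lit 78) (nat_lit 0) (nat_lit 0) (XT.lf (nat_lit 0) (nat_lit 4287054569) (nat_lit 1520) (nat_lit 4356474743) (nat_lit 1596) (nat_lit 971195469) (nat_lit 437) (nat_lit 5) (nat_lit 457) (nat_lit 5) (nat_lit 458) (nat_lit 5) (nat_lit 330) (nat_lit 324) (nat_lit 246)) (XT.lf (nat_lit 76) (nat_lit 2686672556) (nat_lit 0) (nat_lit 3166874612) (nat_lit 1596) (nat_lit 3887490787) (nat_lit 438) (nat_lit 5) (nat_lit 437) (nat_lit 5) (nat_lit 458) (nat_lit 5) (nat_lit 331) (nat_lit 324) (nat_lit 245)))))) (XT.nd (nat_lit 390) (nat_lit 1444) (nat_lit 0) (XT.nd (nat_lit 156) (nat_lit 1520) (nat_lit 0) (XT.nd (nat_lit 78) (nat_lit 0) (nat_lit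 0) (XT.lf (nat_lit 76) (nat_lit 86012869) (nat_lit 0) (nat_lit 7383506672) (nat_lit 1596) (nat_lit 2401599067) (nat_lit 439) (nat_lit 5) (nat_lit 438) (nat_lit 5) (nat_lit 459) (nat_lit 5) (nat_lit 332) (nat_lit 324) (nat_lit 244)) (XT.lf (nat_lit 76) (nat_lit 7487122739) (nat_lit 0) (nat_lit 1672928448) (nat_lit 1596) (nat_lit 844555865) (nat_lit 439) (nat_lit 5) (nat_lit 438) (nat_lit 5) (nat_lit 459) (nat_lit 5) (nat_lit 333) (nat_lit 324) (nat_lit 243))) (XT.nd (nat_lit 78) (nat_lit 0) (nat_lit 76) (XT.lf (nat_lit 0) (nat_lit 767553947) (nat_lit 1596) (nat_lit 5169388232) (nat_lit 1672) (nat_lit 4204718813) (nat_lit 418) (nat_lit 5) (nat_lit 439) (nat_lit 5) (nat_lit 440) (nat_lit 5) (nat_lit 334) (nat_lit 324) (nat_lit 242)) (XT.nd (nat_lit 78) (nat_lit 0) (nat_lit 0) (XT.lf (nat_lit 0) (nat_lit 2420055987) (nat_lit 1596) (nat_lit 7857946515) (nat_lit 1672) (nat_lit 4667262) (nat_lit 419) (nat_lit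 5) (nat_lit 440) (nat_lit 5) (nat_lit 441) (nat_lit 5) (nat_lit 335) (nat_lit 324) (nat_lit 241)) (XT.lf (nat_lit 0) (nat_lit 4157476692) (nat_lit 1596) (nat_lit 178945326) (nat_lit 1672) (nat_lit 6090804110) (nat_lit 419) (nat_lit 5) (nat_lit 440) (nat_lit 5) (nat_lit 441) (nat_lit 5) (nat_lit 336) (nat_lit 324) (nat_lit 240))))) (XT.nd (nat_lit 156) (nat_lit 1596) (nat_lit 0) (XT.nd (nat_lit 78) (nat_lit 0) (nat_lit 0) (XT.lf (nat_lit 0) (nat_lit 5971204890) (nat_lit 1596) (nat_lit 2783465179) (nat_lit 1672) (nat_lit 1820988913) (nat_lit 420) (nat_lit 5) (nat_lit 441) (nat_lit 5) (nat_lit 442) (nat_lit 5) (nat_lit 337) (nat_lit 324) (nat_lit 239)) (XT.lf (nat_lit 76) (nat_lit 5287997239) (nat_lit 0) (nat_lit 2578435974) (nat_lit 1672) (nat_lit 2861592653) (nat_lit 421) (nat_lit 5) (nat_lit 420) (nat_lit 5) (nat_lit 442) (nat_lit 5) (nat_lit 338) (nat_lit 324) (nat_lit 238))) (XT.nd (nat_lit 78)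 (nat_lit 1672) (nat_lit 0) (XT.lf (nat_lit 76) (nat_lit 2737244892) (nat_lit 0) (nat_lit 7106090624) (nat_lit 1672) (nat_lit 1041154045) (nat_lit 422) (nat_lit 5) (nat_lit 421) (nat_lit 5) (nat_lit 443) (nat_lit 5) (nat_lit 339) (nat_lit 324) (nat_lit 237)) (XT.nd (nat_lit 78) (nat_lit 0) (nat_lit 76) (XT.lf (nat_lit 76) (nat_lit 139203924) (nat_lit 0) (nat_lit 703128064) (nat_lit 1748) (nat_lit 10202840554) (nat_lit 400) (nat_lit 5) (nat_lit 399) (nat_lit 5) (nat_lit 422) (nat_lit 5) (nat_lit 340) (nat_lit 324) (nat_lit 236)) (XT.lf (nat_lit 0) (nat_lit 2827103454) (nat_lit 1672) (nat_lit 2498788729) (nat_lit 76) (nat_lit 5883488136) (nat_lit 400) (nat_lit 5) (nat_lit 422) (nat_lit 5) (nat_lit 401) (nat_lit 5) (nat_lit 341) (nat_lit 324) (nat_lit 235))))))) (XT.nd (nat_lit 780) (nat_lit 5548) (nat_lit 0) (XT.nd (nat_lit 390) (nat_lit 3268) (nat_lit 0) (XT.nd (nat_lit 156) (nat_lit 1900) (nat_lit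 0) (XT.nd (nat_lit 78) (nat_lit 1748) (nat_lit 0) (XT.lf (nat_lit 0) (nat_lit 4891079266) (nat_lit 1748) (nat_lit 5178135482) (nat_lit 76) (nat_lit 1308926227) (nat_lit 378) (nat_lit 5) (nat_lit 401) (nat_lit 5) (nat_lit 379) (nat_lit 5) (nat_lit 342) (nat_lit 324) (nat_lit 234)) (XT.lf (nat_lit 0) (nat_lit 3625363096) (nat_lit 1748) (nat_lit 3434686845) (nat_lit 1824) (nat_lit 4491072289) (nat_lit 355) (nat_lit 5) (nat_lit 378) (nat_lit 5) (nat_lit 379) (nat_lit 5) (nat_lit 343) (nat_lit 324) (nat_lit 233))) (XT.nd (nat_lit 78) (nat_lit 988) (nat_lit 0) (XT.lf (nat_lit 0) (nat_lit 997008964) (nat_lit 912) (nat_lit 8328625740) (nat_lit 988) (nat_lit 2403046049) (nat_lit 343) (nat_lit 5) (nat_lit 355) (nat_lit 5) (nat_lit 356) (nat_lit 5) (nat_lit 344) (nat_lit 324) (nat_lit 232)) (XT.nd (nat_lit 78) (nat_lit 988) (nat_lit 0) (XT.lf (nat_lit 0) (nat_lit 10244124000) (nat_lit 912) (nat_lit 1460027426)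 (nat_lit 988) (nat_lit 206533501) (nat_lit 343) (nat_lit 5) (nat_lit 355) (nat_lit 5) (nat_lit 356) (nat_lit 5) (nat_lit 345) (nat_lit 324) (nat_lit 231)) (XT.lf (nat_lit 0) (nat_lit 2085132139) (nat_lit 988) (nat_lit 4404011157) (nat_lit 76) (nat_lit 5607631859) (nat_lit 330) (nat_lit 5) (nat_lit 343) (nat_lit 5) (nat_lit 331) (nat_lit 5) (nat_lit 346) (nat_lit 324) (nat_lit 230))))) (XT.nd (nat_lit 156) (nat_lit 1596) (nat_lit 0) (XT.nd (nat_lit 78) (nat_lit 836) (nat_lit 0) (XT.lf (nat_lit 0) (nat_lit 4470917374) (nat_lit 912) (nat_lit 7197300662) (nat_lit 76) (nat_lit 619656042) (nat_lit 319) (nat_lit 5) (nat_lit 331) (nat_lit 5) (nat_lit 320) (nat_lit 5) (nat_lit 347) (nat_lit 324) (nat_lit 229)) (XT.lf (nat_lit 0) (nat_lit 2405645276) (nat_lit 836) (nat_lit 4582265813) (nat_lit 912) (nat_lit 5495618497) (nat_lit 308) (nat_lit 5) (nat_lit 319) (nat_lit 5) (nat_lit 320) (nat_lit 5) (nat_lit 348)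 (nat_lit 324) (nat_lit 228))) (XT.nd (nat_lit 78) (nat_lit 1596) (nat_lit 0) (XT.lf (nat_lit 0) (nat_lit 9618403783) (nat_lit 912) (nat_lit 335455132) (nat_lit 76) (nat_lit 2730451899) (nat_lit 308) (nat_lit 5) (nat_lit 320) (nat_lit 5) (nat_lit 309) (nat_lit 5) (nat_lit 349) (nat_lit 324) (nat_lit 227)) (XT.nd (nat_lit 78) (nat_lit 836) (nat_lit 0) (XT.lf (nat_lit 0) (nat_lit 9768943764) (nat_lit 760) (nat_lit 2625033911) (nat_lit 836) (nat_lit 495829855) (nat_lit 298) (nat_lit 5) (nat_lit 308) (nat_lit 5) (nat_lit 309) (nat_lit 5) (nat_lit 350) (nat_lit 324) (nat_lit 226)) (XT.lf (nat_lit 0) (nat_lit 2176641416) (nat_lit 836) (nat_lit 6001681784) (nat_lit 76) (nat_lit 4921811082) (nat_lit 287) (nat_lit 5) (nat_lit 298) (nat_lit 5) (nat_lit 288) (nat_lit 5) (nat_lit 351) (nat_lit 324) (nat_lit 225)))))) (XT.nd (nat_lit 390) (nat_lit 2584) (nat_lit 0) (XT.nd (nat_lit 156) (nat_lit 1444) (nat_lit 0)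 (XT.nd (nat_lit 78) (nat_lit 760) (nat_lit 0) (XT.lf (nat_lit 0) (nat_lit 4359069970) (nat_lit 760) (nat_lit 603820096) (nat_lit 836) (nat_lit 8353022641) (nat_lit 277) (nat_lit 5) (nat_lit 287) (nat_lit 5) (nat_lit 288) (nat_lit 5) (nat_lit 352) (nat_lit 324) (nat_lit 224)) (XT.lf (nat_lit 0) (nat_lit 1520494943) (nat_lit 760) (nat_lit 6383529019) (nat_lit 836) (nat_lit 5632728364) (nat_lit 267) (nat_lit 5) (nat_lit 277) (nat_lit 5) (nat_lit 278) (nat_lit 5) (nat_lit 353) (nat_lit 324) (nat_lit 223))) (XT.nd (nat_lit 78) (nat_lit 1444) (nat_lit 0) (XT.lf (nat_lit 0) (nat_lit 10981727125) (nat_lit 836) (nat_lit 1369511811) (nat_lit 76) (nat_lit 1412024887) (nat_lit 267) (nat_lit 5) (nat_lit 278) (nat_lit 5) (nat_lit 268) (nat_lit 5) (nat_lit 354) (nat_lit 324) (nat_lit 222)) (XT.nd (nat_lit 78) (nat_lit 684) (nat_lit 0) (XT.lf (nat_lit 0) (nat_lit 234117078) (nat_lit 760) (nat_lit 4343099422) (nat_lit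 76) (nat_lit 9417727530) (nat_lit 257) (nat_lit 5) (nat_lit 267) (nat_lit 5) (nat_lit 258) (nat_lit 5) (nat_lit 355) (nat_lit 324) (nat_lit 221)) (XT.lf (nat_lit 0) (nat_lit 3354559951) (nat_lit 760) (nat_lit 7422246512) (nat_lit 76) (nat_lit 3455370646) (nat_lit 248) (nat_lit 5) (nat_lit 258) (nat_lit 5) (nat_lit 249) (nat_lit 5) (nat_lit 356) (nat_lit 324) (nat_lit 220))))) (XT.nd (nat_lit 156) (nat_lit 1292) (nat_lit 0) (XT.nd (nat_lit 78) (nat_lit 684) (nat_lit 0) (XT.lf (nat_lit 0) (nat_lit 3873993125) (nat_lit 608) (nat_lit 2755990602) (nat_lit 684) (nat_lit 7845328121) (nat_lit 240) (nat_lit 5) (nat_lit 248) (nat_lit 5) (nat_lit 249) (nat_lit 5) (nat_lit 357) (nat_lit 324) (nat_lit 219)) (XT.lf (nat_lit 0) (nat_lit 833744592) (nat_lit 684) (nat_lit 9238198843) (nat_lit 760) (nat_lit 4652443396) (nat_lit 231) (nat_lit 5) (nat_lit 240) (nat_lit 5) (nat_lit 241) (nat_lit 5) (nat_lit 358) (nat_lit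 324) (nat_lit 218))) (XT.nd (nat_lit 78) (nat_lit 1292) (nat_lit 0) (XT.lf (nat_lit 0) (nat_lit 12711642321) (nat_lit 684) (nat_lit 972664975) (nat_lit 760) (nat_lit 1295295189) (nat_lit 231) (nat_lit 5) (nat_lit 240) (nat_lit 5) (nat_lit 241) (nat_lit 5) (nat_lit 359) (nat_lit 324) (nat_lit 217)) (XT.nd (nat_lit 78) (nat_lit 608) (nat_lit 0) (XT.lf (nat_lit 0) (nat_lit 2224738021) (nat_lit 684) (nat_lit 5499240848) (nat_lit 76) (nat_lit 7516415046) (nat_lit 222) (nat_lit 5) (nat_lit 231) (nat_lit 5) (nat_lit 223) (nat_lit 5) (nat_lit 360) (nat_lit 324) (nat_lit 216)) (XT.lf (nat_lit 0) (nat_lit 5881399347) (nat_lit 684) (nat_lit 8834171616) (nat_lit 76) (nat_lit 792304853) (nat_lit 214) (nat_lit 5) (nat_lit 223) (nat_lit 5) (nat_lit 215) (nat_lit 5) (nat_lit 361) (nat_lit 324) (nat_lit 215))))))))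
noncomputable def xc95 : XT := (XT.nd (nat_lit 1482) (nat_lit 380) (nat_lit 0) (XT.nd (nat_lit 702) (nat_lit 3572) (nat_lit 0) (XT.nd (nat_lit 312) (nat_lit 2128) (nat_lit 0) (XT.nd (nat_lit 156) (nat_lit 608) (nat_lit 0) (XT.nd (nat_lit 78) (nat_lit 608) (nat_lit 0) (XT.lf (nat_lit 0) (nat_lit 3471931638) (nat_lit 532) (nat_lit 6265955744) (nat_lit 608) (nat_lit 6043702420) (nat_lit 207) (nat_lit 5) (nat_lit 214) (nat_lit 5) (nat_lit 215) (nat_lit 5) (nat_lit 362) (nat_lit 324) (nat_lit 214)) (XT.lf (nat_lit 0) (nat_lit 165620137) (nat_lit 608) (nat_lit 13600459390) (nat_lit 684) (nat_lit 2296325357) (nat_lit 199) (nat_lit 5) (nat_lit 207) (nat_lit 5) (nat_lit 208) (nat_lit 5) (nat_lit 363) (nat_lit 324) (nat_lit 213))) (XT.nd (nat_lit 78) (nat_lit 532) (nat_lit 0) (XT.lf (nat_lit 0) (nat_lit 1647990928) (nat_lit 684) (nat_lit 3244947190) (nat_lit 76) (nat_lit 11456412209) (nat_lit 198) (nat_lit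 5) (nat_lit 207) (nat_lit 5) (nat_lit 199) (nat_lit 5) (nat_lit 364) (nat_lit 324) (nat_lit 212)) (XT.lf (nat_lit 0) (nat_lit 5750450913) (nat_lit 608) (nat_lit 6795339105) (nat_lit 76) (nat_lit 4097399416) (nat_lit 191) (nat_lit 5) (nat_lit 199) (nat_lit 5) (nat_lit 192) (nat_lit 5) (nat_lit 365) (nat_lit 324) (nat_lit 211)))) (XT.nd (nat_lit 156) (nat_lit 1064) (nat_lit 0) (XT.nd (nat_lit 78) (nat_lit 532) (nat_lit 0) (XT.lf (nat_lit 0) (nat_lit 6459067749) (nat_lit 532) (nat_lit 3593865152) (nat_lit 608) (nat_lit 6891380699) (nat_lit 184) (nat_lit 5) (nat_lit 191) (nat_lit 5) (nat_lit 192) (nat_lit 5) (nat_lit 366) (nat_lit 324) (nat_lit 210)) (XT.lf (nat_lit 0) (nat_lit 2926947326) (nat_lit 532) (nat_lit 11639967661) (nat_lit 608) (nat_lit 2685916590) (nat_lit 177) (nat_lit 5) (nat_lit 184) (nat_lit 5) (nat_lit 185) (nat_lit 5) (nat_lit 367) (nat_lit 324) (nat_lit 209))) (XT.nd (nat_lit 78) (nat_lit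 988) (nat_lit 0) (XT.lf (nat_lit 0) (nat_lit 1700492810) (nat_lit 608) (nat_lit 744373565) (nat_lit 76) (nat_lit 15124005894) (nat_lit 176) (nat_lit 5) (nat_lit 184) (nat_lit 5) (nat_lit 177) (nat_lit 5) (nat_lit 368) (nat_lit 324) (nat_lit 208)) (XT.nd (nat_lit 78) (nat_lit 456) (nat_lit 0) (XT.lf (nat_lit 0) (nat_lit 6296712642) (nat_lit 608) (nat_lit 4561182456) (nat_lit 76) (nat_lit 7033857765) (nat_lit 169) (nat_lit 5) (nat_lit 177) (nat_lit 5) (nat_lit 170) (nat_lit 5) (nat_lit 369) (nat_lit 324) (nat_lit 207)) (XT.lf (nat_lit 0) (nat_lit 9700328372) (nat_lit 456) (nat_lit 1396618235) (nat_lit 532) (nat_lit 7126058429) (nat_lit 163) (nat_lit 5) (nat_lit 169) (nat_lit 5) (nat_lit 170) (nat_lit 5) (nat_lit 370) (nat_lit 324) (nat_lit 206)))))) (XT.nd (nat_lit 390) (nat_lit 1748) (nat_lit 0) (XT.nd (nat_lit 156) (nat_lit 836) (nat_lit 0) (XT.nd (nat_lit 78) (nat_lit 532) (nat_lit 0) (XT.lf (nat_lit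 0) (nat_lit 5887168385) (nat_lit 456) (nat_lit 10259617441) (nat_lit 532) (nat_lit 2415304470) (nat_lit 157) (nat_lit 5) (nat_lit 163) (nat_lit 5) (nat_lit 164) (nat_lit 5) (nat_lit 371) (nat_lit 324) (nat_lit 205)) (XT.lf (nat_lit 0) (nat_lit 1911272333) (nat_lit 456) (nat_lit 555727687) (nat_lit 532) (nat_lit 16442795065) (nat_lit 150) (nat_lit 5) (nat_lit 156) (nat_lit 5) (nat_lit 157) (nat_lit 5) (nat_lit 372) (nat_lit 324) (nat_lit 204))) (XT.nd (nat_lit 78) (nat_lit 836) (nat_lit 0) (XT.lf (nat_lit 0) (nat_lit 7593514145) (nat_lit 532) (nat_lit 2259620878) (nat_lit 76) (nat_lit 9411872511) (nat_lit 150) (nat_lit 5) (nat_lit 157) (nat_lit 5) (nat_lit 151) (nat_lit 5) (nat_lit 373) (nat_lit 324) (nat_lit 203)) (XT.nd (nat_lit 78) (nat_lit 380) (nat_lit 0) (XT.lf (nat_lit 0) (nat_lit 12946283443) (nat_lit 532) (nat_lit 6564390075) (nat_lit 76) (nat_lit 118760360) (nat_lit 144) (nat_lit 5) (nat_lit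 151) (nat_lit 5) (nat_lit 145) (nat_lit 5) (nat_lit 374) (nat_lit 324) (nat_lit 202)) (XT.lf (nat_lit 0) (nat_lit 8903498619) (nat_lit 380) (nat_lit 9678681773) (nat_lit 456) (nat_lit 1420168252) (nat_lit 139) (nat_lit 5) (nat_lit 144) (nat_lit 5) (nat_lit 145) (nat_lit 5) (nat_lit 375) (nat_lit 324) (nat_lit 201))))) (XT.nd (nat_lit 156) (nat_lit 1216) (nat_lit 0) (XT.nd (nat_lit 78) (nat_lit 0) (nat_lit 0) (XT.lf (nat_lit 0) (nat_lit 4009736460) (nat_lit 532) (nat_lit 15838204593) (nat_lit 76) (nat_lit 536766443) (nat_lit 132) (nat_lit 5) (nat_lit 139) (nat_lit 5) (nat_lit 133) (nat_lit 5) (nat_lit 376) (nat_lit 324) (nat_lit 200)) (XT.lf (nat_lit 0) (nat_lit 9707725288) (nat_lit 532) (nat_lit 61542565) (nat_lit 76) (nat_lit 11006597911) (nat_lit 132) (nat_lit 5) (nat_lit 139) (nat_lit 5) (nat_lit 133) (nat_lit 5) (nat_lit 377) (nat_lit 324) (nat_lit 199))) (XT.nd (nat_lit 78) (nat_lit 836) (nat_lit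 0) (XT.lf (nat_lit 0) (nat_lit 15672049441) (nat_lit 456) (nat_lit 4800583423) (nat_lit 76) (nat_lit 704223855) (nat_lit 127) (nat_lit 5) (nat_lit 133) (nat_lit 5) (nat_lit 128) (nat_lit 5) (nat_lit 378) (nat_lit 324) (nat_lit 198)) (XT.nd (nat_lit 78) (nat_lit 380) (nat_lit 0) (XT.lf (nat_lit 0) (nat_lit 350248787) (nat_lit 456) (nat_lit 9804387125) (nat_lit 76) (nat_lit 11432662199) (nat_lit 121) (nat_lit 5) (nat_lit 127) (nat_lit 5) (nat_lit 122) (nat_lit 5) (nat_lit 379) (nat_lit 324) (nat_lit 197)) (XT.lf (nat_lit 0) (nat_lit 6373139554) (nat_lit 456) (nat_lit 15059493837) (nat_lit 76) (nat_lit 575357590) (nat_lit 116) (nat_lit 5) (nat_lit 122) (nat_lit 5) (nat_lit 117) (nat_lit 5) (nat_lit 380) (nat_lit 324) (nat_lit 196))))))) (XT.nd (nat_lit 43212) (nat_lit 0) (nat_lit 20292) (XT.nd (nat_lit 42822) (nat_lit 0) (nat_lit 24624) (XT.nd (nat_lit 42588) (nat_lit 0) (nat_lit 24548) (XT.nd (nat_lit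 42510) (nat_lit 0) (nat_lit 26068) (XT.lf (nat_lit 0) (nat_lit 1831959721) (nat_lit 380) (nat_lit 10876568524) (nat_lit 456) (nat_lit 9730145421) (nat_lit 111) (nat_lit 5) (nat_lit 116) (nat_lit 5) (nat_lit 117) (nat_lit 5) (nat_lit 381) (nat_lit 324) (nat_lit 195)) (XT.lf (nat_lit 0) (nat_lit 1889510153) (nat_lit 0) (nat_lit 1889510153) (nat_lit 1444) (nat_lit 791905710) (nat_lit 454) (nat_lit 5) (nat_lit 454) (nat_lit 3) (nat_lit 473) (nat_lit 3) (nat_lit 325) (nat_lit 325) (nat_lit 250))) (XT.nd (nat_lit 78) (nat_lit 1520) (nat_lit 0) (XT.lf (nat_lit 76) (nat_lit 1045159938) (nat_lit 0) (nat_lit 7891251034) (nat_lit 1520) (nat_lit 316451594) (nat_lit 455) (nat_lit 5) (nat_lit 454) (nat_lit 5) (nat_lit 474) (nat_lit 5) (nat_lit 326) (nat_lit 325) (nat_lit 249)) (XT.nd (nat_lit 78) (nat_lit 0) (nat_lit 76) (XT.lf (nat_lit 0) (nat_lit 988691022) (nat_lit 1520) (nat_lit 1706178587) (nat_lit 1596) (nat_lit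 6671982021) (nat_lit 434) (nat_lit 5) (nat_lit 454) (nat_lit 5) (nat_lit 455) (nat_lit 5) (nat_lit 327) (nat_lit 325) (nat_lit 248)) (XT.lf (nat_lit 0) (nat_lit 2331296809) (nat_lit 1520) (nat_lit 4473744959) (nat_lit 1596) (nat_lit 2679154958) (nat_lit 435) (nat_lit 5) (nat_lit 455) (nat_lit 5) (nat_lit 456) (nat_lit 5) (nat_lit 328) (nat_lit 325) (nat_lit 247))))) (XT.nd (nat_lit 156) (nat_lit 0) (nat_lit 152) (XT.nd (nat_lit 78) (nat_lit 0) (nat_lit 76) (XT.lf (nat_lit 76) (nat_lit 2333135015) (nat_lit 0) (nat_lit 1379524989) (nat_lit 1596) (nat_lit 5892462059) (nat_lit 436) (nat_lit 5) (nat_lit 435) (nat_lit 5) (nat_lit 456) (nat_lit 5) (nat_lit 329) (nat_lit 325) (nat_lit 246)) (XT.lf (nat_lit 0) (nat_lit 5148281801) (nat_lit 1520) (nat_lit 378233784) (nat_lit 1596) (nat_lit 4202931839) (nat_lit 436) (nat_lit 5) (nat_lit 456) (nat_lit 5) (nat_lit 457) (nat_lit 5) (nat_lit 330) (nat_lit 325) (nat_lit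 245))) (XT.nd (nat_lit 78) (nat_lit 0) (nat_lit 0) (XT.lf (nat_lit 0) (nat_lit 6637380317) (nat_lit 1520) (nat_lit 3082580922) (nat_lit 1596) (nat_lit 137360928) (nat_lit 437) (nat_lit 5) (nat_lit 457) (nat_lit 5) (nat_lit 458) (nat_lit 5) (nat_lit 331) (nat_lit 325) (nat_lit 244)) (XT.nd (nat_lit 78) (nat_lit 0) (nat_lit 76) (XT.lf (nat_lit 76) (nat_lit 4149073023) (nat_lit 0) (nat_lit 4046056116) (nat_lit 1596) (nat_lit 1793451440) (nat_lit 438) (nat_lit 5) (nat_lit 437) (nat_lit 5) (nat_lit 458) (nat_lit 5) (nat_lit 332) (nat_lit 325) (nat_lit 243)) (XT.lf (nat_lit 76) (nat_lit 1496947758) (nat_lit 0) (nat_lit 8303747135) (nat_lit 1596) (nat_lit 323086347) (nat_lit 439) (nat_lit 5) (nat_lit 438) (nat_lit 5) (nat_lit 459) (nat_lit 5) (nat_lit 333) (nat_lit 325) (nat_lit 242)))))) (XT.nd (nat_lit 390) (nat_lit 2964) (nat_lit 0) (XT.nd (nat_lit 156) (nat_lit 0) (nat_lit 76) (XT.nd (nat_lit 78) (nat_lit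 0) (nat_lit 76) (XT.lf (nat_lit 0) (nat_lit 1202055773) (nat_lit 1596) (nat_lit 1191377853) (nat_lit 1672) (nat_lit 7868948691) (nat_lit 417) (nat_lit 5) (nat_lit 438) (nat_lit 5) (nat_lit 439) (nat_lit 5) (nat_lit 334) (nat_lit 325) (nat_lit 241)) (XT.lf (nat_lit 0) (nat_lit 2795890950) (nat_lit 1596) (nat_lit 3905587881) (nat_lit 1672) (nat_lit 3703097515) (nat_lit 418) (nat_lit 5) (nat_lit 439) (nat_lit 5) (nat_lit 440) (nat_lit 5) (nat_lit 335) (nat_lit 325) (nat_lit 240))) (XT.nd (nat_lit 78) (nat_lit 0) (nat_lit 76) (XT.lf (nat_lit 76) (nat_lit 3893359530) (nat_lit 0) (nat_lit 555232660) (nat_lit 1672) (nat_lit 6102246484) (nat_lit 419) (nat_lit 5) (nat_lit 418) (nat_lit 5) (nat_lit 440) (nat_lit 5) (nat_lit 336) (nat_lit 325) (nat_lit 239)) (XT.nd (nat_lit 78) (nat_lit 0) (nat_lit 76) (XT.lf (nat_lit 76) (nat_lit 1229688368) (nat_lit 0) (nat_lit 4955962194) (nat_lit 1672) (nat_lit 4515165599)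 (nat_lit 420) (nat_lit 5) (nat_lit 419) (nat_lit 5) (nat_lit 441) (nat_lit 5) (nat_lit 337) (nat_lit 325) (nat_lit 238)) (XT.lf (nat_lit 0) (nat_lit 7996450135) (nat_lit 1596) (nat_lit 1450588282) (nat_lit 1672) (nat_lit 1407844112) (nat_lit 420) (nat_lit 5) (nat_lit 441) (nat_lit 5) (nat_lit 442) (nat_lit 5) (nat_lit 338) (nat_lit 325) (nat_lit 237))))) (XT.nd (nat_lit 156) (nat_lit 1596) (nat_lit 0) (XT.nd (nat_lit 78) (nat_lit 1596) (nat_lit 0) (XT.lf (nat_lit 76) (nat_lit 6840038911) (nat_lit 0) (nat_lit 3063773117) (nat_lit 1672) (nat_lit 1108935597) (nat_lit 421) (nat_lit 5) (nat_lit 420) (nat_lit 5) (nat_lit 442) (nat_lit 5) (nat_lit 339) (nat_lit 325) (nat_lit 236)) (XT.lf (nat_lit 0) (nat_lit 709847999) (nat_lit 1672) (nat_lit 6950244336) (nat_lit 1748) (nat_lit 3514668985) (nat_lit 399) (nat_lit 5) (nat_lit 421) (nat_lit 5) (nat_lit 422) (nat_lit 5) (nat_lit 340) (nat_lit 325) (nat_lit 235)))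 (XT.nd (nat_lit 78) (nat_lit 1596) (nat_lit 0) (XT.lf (nat_lit 76) (nat_lit 1554562728) (nat_lit 0) (nat_lit 1038873491) (nat_lit 1748) (nat_lit 8747566330) (nat_lit 400) (nat_lit 5) (nat_lit 399) (nat_lit 5) (nat_lit 422) (nat_lit 5) (nat_lit 341) (nat_lit 325) (nat_lit 234)) (XT.nd (nat_lit 78) (nat_lit 1672) (nat_lit 0) (XT.lf (nat_lit 0) (nat_lit 4585500387) (nat_lit 1672) (nat_lit 1167198232) (nat_lit 76) (nat_lit 5758512321) (nat_lit 400) (nat_lit 5) (nat_lit 422) (nat_lit 5) (nat_lit 401) (nat_lit 5) (nat_lit 342) (nat_lit 325) (nat_lit 233)) (XT.lf (nat_lit 0) (nat_lit 6670010697) (nat_lit 1748) (nat_lit 3914494269) (nat_lit 76) (nat_lit 1101385664) (nat_lit 378) (nat_lit 5) (nat_lit 401) (nat_lit 5) (nat_lit 379) (nat_lit 5) (nat_lit 343) (nat_lit 325) (nat_lit 232))))))))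
noncomputable def xc96 : XT := (XT.nd (nat_lit 1482) (nat_lit 7448) (nat_lit 0) (XT.nd (nat_lit 702) (nat_lit 5548) (nat_lit 0) (XT.nd (nat_lit 312) (nat_lit 3268) (nat_lit 0) (XT.nd (nat_lit 156) (nat_lit 988) (nat_lit 0) (XT.nd (nat_lit 78) (nat_lit 912) (nat_lit 0) (XT.lf (nat_lit 0) (nat_lit 5130087916) (nat_lit 1748) (nat_lit 3735486321) (nat_lit 1824) (nat_lit 2999284298) (nat_lit 355) (nat_lit 5) (nat_lit 378) (nat_lit 5) (nat_lit 379) (nat_lit 5) (nat_lit 344) (nat_lit 325) (nat_lit 231)) (XT.lf (nat_lit 0) (nat_lit 2433763719) (nat_lit 912) (nat_lit 8726831297) (nat_lit 988) (nat_lit 887946309) (nat_lit 343) (nat_lit 5) (nat_lit 355) (nat_lit 5) (nat_lit 356) (nat_lit 5) (nat_lit 345) (nat_lit 325) (nat_lit 230))) (XT.nd (nat_lit 78) (nat_lit 912) (nat_lit 0) (XT.lf (nat_lit 0) (nat_lit 1310812736) (nat_lit 988) (nat_lit 328245275) (nat_lit 76) (nat_lit 10597707173) (nat_lit 342) (nat_lit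 5) (nat_lit 355) (nat_lit 5) (nat_lit 343) (nat_lit 5) (nat_lit 346) (nat_lit 325) (nat_lit 229)) (XT.lf (nat_lit 0) (nat_lit 3632218509) (nat_lit 988) (nat_lit 3140382249) (nat_lit 76) (nat_lit 5656558975) (nat_lit 330) (nat_lit 5) (nat_lit 343) (nat_lit 5) (nat_lit 331) (nat_lit 5) (nat_lit 347) (nat_lit 325) (nat_lit 228)))) (XT.nd (nat_lit 156) (nat_lit 1596) (nat_lit 0) (XT.nd (nat_lit 78) (nat_lit 836) (nat_lit 0) (XT.lf (nat_lit 0) (nat_lit 6054752992) (nat_lit 912) (nat_lit 6009806116) (nat_lit 76) (nat_lit 562153119) (nat_lit 319) (nat_lit 5) (nat_lit 331) (nat_lit 5) (nat_lit 320) (nat_lit 5) (nat_lit 348) (nat_lit 325) (nat_lit 227)) (XT.lf (nat_lit 0) (nat_lit 3858459483) (nat_lit 836) (nat_lit 4755536590) (nat_lit 912) (nat_lit 4214929951) (nat_lit 308) (nat_lit 5) (nat_lit 319) (nat_lit 5) (nat_lit 320) (nat_lit 5) (nat_lit 349) (nat_lit 325) (nat_lit 226))) (XT.nd (nat_lit 78) (nat_lit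 836) (nat_lit 0) (XT.lf (nat_lit 0) (nat_lit 1037000844) (nat_lit 760) (nat_lit 10251654159) (nat_lit 836) (nat_lit 1747793390) (nat_lit 298) (nat_lit 5) (nat_lit 308) (nat_lit 5) (nat_lit 309) (nat_lit 5) (nat_lit 350) (nat_lit 325) (nat_lit 225)) (XT.nd (nat_lit 78) (nat_lit 760) (nat_lit 0) (XT.lf (nat_lit 0) (nat_lit 849280089) (nat_lit 836) (nat_lit 1845758016) (nat_lit 76) (nat_lit 10553742963) (nat_lit 297) (nat_lit 5) (nat_lit 308) (nat_lit 5) (nat_lit 298) (nat_lit 5) (nat_lit 351) (nat_lit 325) (nat_lit 224)) (XT.lf (nat_lit 0) (nat_lit 3564666964) (nat_lit 836) (nat_lit 4811450768) (nat_lit 76) (nat_lit 5089865792) (nat_lit 287) (nat_lit 5) (nat_lit 298) (nat_lit 5) (nat_lit 288) (nat_lit 5) (nat_lit 352) (nat_lit 325) (nat_lit 223)))))) (XT.nd (nat_lit 390) (nat_lit 2584) (nat_lit 0) (XT.nd (nat_lit 156) (nat_lit 1444) (nat_lit 0) (XT.nd (nat_lit 78) (nat_lit 760) (nat_lit 0) (XT.lf (nat_lit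 0) (nat_lit 5837892349) (nat_lit 760) (nat_lit 566837151) (nat_lit 836) (nat_lit 7284121668) (nat_lit 277) (nat_lit 5) (nat_lit 287) (nat_lit 5) (nat_lit 288) (nat_lit 5) (nat_lit 353) (nat_lit 325) (nat_lit 222)) (XT.lf (nat_lit 0) (nat_lit 2918045988) (nat_lit 760) (nat_lit 6487517585) (nat_lit 836) (nat_lit 4511342882) (nat_lit 267) (nat_lit 5) (nat_lit 277) (nat_lit 5) (nat_lit 278) (nat_lit 5) (nat_lit 354) (nat_lit 325) (nat_lit 221))) (XT.nd (nat_lit 78) (nat_lit 1444) (nat_lit 0) (XT.lf (nat_lit 0) (nat_lit 12539321767) (nat_lit 836) (nat_lit 73396761) (nat_lit 76) (nat_lit 1538239517) (nat_lit 267) (nat_lit 5) (nat_lit 278) (nat_lit 5) (nat_lit 268) (nat_lit 5) (nat_lit 355) (nat_lit 325) (nat_lit 220)) (XT.nd (nat_lit 78) (nat_lit 684) (nat_lit 0) (XT.lf (nat_lit 0) (nat_lit 1450620483) (nat_lit 760) (nat_lit 3141203164) (nat_lit 76) (nat_lit 9798169134) (nat_lit 257) (nat_lit 5) (nat_lit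 267) (nat_lit 5) (nat_lit 258) (nat_lit 5) (nat_lit 356) (nat_lit 325) (nat_lit 219)) (XT.lf (nat_lit 0) (nat_lit 4638788058) (nat_lit 760) (nat_lit 6310920276) (nat_lit 76) (nat_lit 3685170055) (nat_lit 248) (nat_lit 5) (nat_lit 258) (nat_lit 5) (nat_lit 249) (nat_lit 5) (nat_lit 357) (nat_lit 325) (nat_lit 218))))) (XT.nd (nat_lit 156) (nat_lit 1292) (nat_lit 0) (XT.nd (nat_lit 78) (nat_lit 684) (nat_lit 0) (XT.lf (nat_lit 0) (nat_lit 5302564088) (nat_lit 608) (nat_lit 2683957579) (nat_lit 684) (nat_lit 6899321809) (nat_lit 240) (nat_lit 5) (nat_lit 248) (nat_lit 5) (nat_lit 249) (nat_lit 5) (nat_lit 358) (nat_lit 325) (nat_lit 217)) (XT.lf (nat_lit 0) (nat_lit 2172171333) (nat_lit 684) (nat_lit 9335354009) (nat_lit 760) (nat_lit 3635366411) (nat_lit 231) (nat_lit 5) (nat_lit 240) (nat_lit 5) (nat_lit 241) (nat_lit 5) (nat_lit 359) (nat_lit 325) (nat_lit 216))) (XT.nd (nat_lit 78) (nat_lit 1292)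 (nat_lit 0) (XT.lf (nat_lit 0) (nat_lit 14368151205) (nat_lit 684) (nat_lit 827096575) (nat_lit 760) (nat_lit 211192601) (nat_lit 231) (nat_lit 5) (nat_lit 240) (nat_lit 5) (nat_lit 241) (nat_lit 5) (nat_lit 360) (nat_lit 325) (nat_lit 215)) (XT.nd (nat_lit 78) (nat_lit 608) (nat_lit 0) (XT.lf (nat_lit 0) (nat_lit 3376880442) (nat_lit 684) (nat_lit 4373738007) (nat_lit 76) (nat_lit 7924763427) (nat_lit 222) (nat_lit 5) (nat_lit 231) (nat_lit 5) (nat_lit 223) (nat_lit 5) (nat_lit 361) (nat_lit 325) (nat_lit 214)) (XT.lf (nat_lit 0) (nat_lit 7121218046) (nat_lit 684) (nat_lit 7809259109) (nat_lit 76) (nat_lit 1020866576) (nat_lit 214) (nat_lit 5) (nat_lit 223) (nat_lit 5) (nat_lit 215) (nat_lit 5) (nat_lit 362) (nat_lit 325) (nat_lit 213))))))) (XT.nd (nat_lit 702) (nat_lit 3572) (nat_lit 0) (XT.nd (nat_lit 312) (nat_lit 2128) (nat_lit 0) (XT.nd (nat_lit 156) (nat_lit 608) (nat_lit 0) (XT.nd (nat_lit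 78) (nat_lit 608) (nat_lit 0) (XT.lf (nat_lit 0) (nat_lit 4845099537) (nat_lit 532) (nat_lit 6225568302) (nat_lit 608) (nat_lit 5163070541) (nat_lit 207) (nat_lit 5) (nat_lit 214) (nat_lit 5) (nat_lit 215) (nat_lit 5) (nat_lit 363) (nat_lit 325) (nat_lit 212)) (XT.lf (nat_lit 0) (nat_lit 1438505426) (nat_lit 608) (nat_lit 13760561983) (nat_lit 684) (nat_lit 1324337435) (nat_lit 199) (nat_lit 5) (nat_lit 207) (nat_lit 5) (nat_lit 208) (nat_lit 5) (nat_lit 364) (nat_lit 325) (nat_lit 211))) (XT.nd (nat_lit 78) (nat_lit 532) (nat_lit 0) (XT.lf (nat_lit 0) (nat_lit 2694737825) (nat_lit 684) (nat_lit 2097605506) (nat_lit 76) (nat_lit 12027092023) (nat_lit 198) (nat_lit 5) (nat_lit 207) (nat_lit 5) (nat_lit 199) (nat_lit 5) (nat_lit 365) (nat_lit 325) (nat_lit 210)) (XT.lf (nat_lit 0) (nat_lit 6900786114) (nat_lit 608) (nat_lit 5756354394) (nat_lit 76) (nat_lit 4465351922) (nat_lit 191) (nat_lit 5) (nat_lit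 199) (nat_lit 5) (nat_lit 192) (nat_lit 5) (nat_lit 366) (nat_lit 325) (nat_lit 209)))) (XT.nd (nat_lit 156) (nat_lit 1064) (nat_lit 0) (XT.nd (nat_lit 78) (nat_lit 532) (nat_lit 0) (XT.lf (nat_lit 0) (nat_lit 7875520984) (nat_lit 532) (nat_lit 3436279793) (nat_lit 608) (nat_lit 6121273088) (nat_lit 184) (nat_lit 5) (nat_lit 191) (nat_lit 5) (nat_lit 192) (nat_lit 5) (nat_lit 367) (nat_lit 325) (nat_lit 208)) (XT.lf (nat_lit 0) (nat_lit 4235156850) (nat_lit 532) (nat_lit 11707760162) (nat_lit 608) (nat_lit 1808308411) (nat_lit 177) (nat_lit 5) (nat_lit 184) (nat_lit 5) (nat_lit 185) (nat_lit 5) (nat_lit 368) (nat_lit 325) (nat_lit 207))) (XT.nd (nat_lit 78) (nat_lit 456) (nat_lit 0) (XT.lf (nat_lit 0) (nat_lit 436467174) (nat_lit 532) (nat_lit 2235950856) (nat_lit 608) (nat_lit 15404710794) (nat_lit 169) (nat_lit 5) (nat_lit 176) (nat_lit 5) (nat_lit 177) (nat_lit 5) (nat_lit 369) (nat_lit 325) (nat_lit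 206)) (XT.nd (nat_lit 78) (nat_lit 456) (nat_lit 0) (XT.lf (nat_lit 0) (nat_lit 7386410701) (nat_lit 608) (nat_lit 3503449472) (nat_lit 76) (nat_lit 7520249338) (nat_lit 169) (nat_lit 5) (nat_lit 177) (nat_lit 5) (nat_lit 170) (nat_lit 5) (nat_lit 370) (nat_lit 325) (nat_lit 205)) (XT.lf (nat_lit 0) (nat_lit 11166526227) (nat_lit 456) (nat_lit 1145518761) (nat_lit 532) (nat_lit 6439637462) (nat_lit 163) (nat_lit 5) (nat_lit 169) (nat_lit 5) (nat_lit 170) (nat_lit 5) (nat_lit 371) (nat_lit 325) (nat_lit 204)))))) (XT.nd (nat_lit 390) (nat_lit 1748) (nat_lit 0) (XT.nd (nat_lit 156) (nat_lit 836) (nat_lit 0) (XT.nd (nat_lit 78) (nat_lit 532) (nat_lit 0) (XT.lf (nat_lit 0) (nat_lit 7235754438) (nat_lit 456) (nat_lit 10261386234) (nat_lit 532) (nat_lit 1604135116) (nat_lit 157) (nat_lit 5) (nat_lit 163) (nat_lit 5) (nat_lit 164) (nat_lit 5) (nat_lit 372) (nat_lit 325) (nat_lit 203)) (XT.lf (nat_lit 0)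 (nat_lit 3133314067) (nat_lit 456) (nat_lit 261898314) (nat_lit 532) (nat_lit 16064451571) (nat_lit 150) (nat_lit 5) (nat_lit 156) (nat_lit 5) (nat_lit 157) (nat_lit 5) (nat_lit 373) (nat_lit 325) (nat_lit 202))) (XT.nd (nat_lit 78) (nat_lit 836) (nat_lit 0) (XT.lf (nat_lit 0) (nat_lit 8652599510) (nat_lit 532) (nat_lit 1181669145) (nat_lit 76) (nat_lit 9991732497) (nat_lit 150) (nat_lit 5) (nat_lit 157) (nat_lit 5) (nat_lit 151) (nat_lit 5) (nat_lit 374) (nat_lit 325) (nat_lit 201)) (XT.nd (nat_lit 78) (nat_lit 380) (nat_lit 0) (XT.lf (nat_lit 0) (nat_lit 14151088753) (nat_lit 532) (nat_lit 5619591287) (nat_lit 76) (nat_lit 430987150) (nat_lit 144) (nat_lit 5) (nat_lit 151) (nat_lit 5) (nat_lit 145) (nat_lit 5) (nat_lit 375) (nat_lit 325) (nat_lit 200)) (XT.lf (nat_lit 0) (nat_lit 10293810847) (nat_lit 380) (nat_lit 9645765240) (nat_lit 456) (nat_lit 646532403) (nat_lit 139) (nat_lit 5) (nat_lit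 144) (nat_lit 5) (nat_lit 145) (nat_lit 5) (nat_lit 376) (nat_lit 325) (nat_lit 199))))) (XT.nd (nat_lit 156) (nat_lit 836) (nat_lit 0) (XT.nd (nat_lit 78) (nat_lit 380) (nat_lit 0) (XT.lf (nat_lit 0) (nat_lit 4921466568) (nat_lit 532) (nat_lit 15183570273) (nat_lit 76) (nat_lit 875086138) (nat_lit 132) (nat_lit 5) (nat_lit 139) (nat_lit 5) (nat_lit 133) (nat_lit 5) (nat_lit 377) (nat_lit 325) (nat_lit 198)) (XT.lf (nat_lit 0) (nat_lit 1047219865) (nat_lit 380) (nat_lit 9726922849) (nat_lit 456) (nat_lit 10609206979) (nat_lit 127) (nat_lit 5) (nat_lit 132) (nat_lit 5) (nat_lit 133) (nat_lit 5) (nat_lit 378) (nat_lit 325) (nat_lit 197))) (XT.nd (nat_lit 78) (nat_lit 836) (nat_lit 0) (XT.lf (nat_lit 0) (nat_lit 16897340293) (nat_lit 456) (nat_lit 3852299036) (nat_lit 76) (nat_lit 1047140570) (nat_lit 127) (nat_lit 5) (nat_lit 133) (nat_lit 5) (nat_lit 128) (nat_lit 5) (nat_lit 379) (nat_lit 325) (nat_lit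 196)) (XT.nd (nat_lit 78) (nat_lit 380) (nat_lit 0) (XT.lf (nat_lit 0) (nat_lit 1106038070) (nat_lit 456) (nat_lit 9013767296) (nat_lit 76) (nat_lit 12099939601) (nat_lit 121) (nat_lit 5) (nat_lit 127) (nat_lit 5) (nat_lit 122) (nat_lit 5) (nat_lit 380) (nat_lit 325) (nat_lit 195)) (XT.lf (nat_lit 0) (nat_lit 7297022737) (nat_lit 456) (nat_lit 14431443010) (nat_lit 76) (nat_lit 924852494) (nat_lit 116) (nat_lit 5) (nat_lit 122) (nat_lit 5) (nat_lit 117) (nat_lit 5) (nat_lit 381) (nat_lit 325) (nat_lit 194))))))))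
noncomputable def xc97 : XT := (XT.nd (nat_lit 1482) (nat_lit 12996) (nat_lit 0) (XT.nd (nat_lit 702) (nat_lit 2888) (nat_lit 0) (XT.nd (nat_lit 312) (nat_lit 1292) (nat_lit 0) (XT.nd (nat_lit 156) (nat_lit 0) (nat_lit 76) (XT.nd (nat_lit 78) (nat_lit 0) (nat_lit 76) (XT.lf (nat_lit 0) (nat_lit 441318959) (nat_lit 1596) (nat_lit 2120560771) (nat_lit 1596) (nat_lit 2120560771) (nat_lit 433) (nat_lit 3) (nat_lit 454) (nat_lit 3) (nat_lit 454) (nat_lit 5) (nat_lit 326) (nat_lit 326) (nat_lit 248)) (XT.lf (nat_lit 0) (nat_lit 2098783762) (nat_lit 1520) (nat_lit 7142707910) (nat_lit 1596) (nat_lit 239049189) (nat_lit 434) (nat_lit 5) (nat_lit 454) (nat_lit 5) (nat_lit 455) (nat_lit 5) (nat_lit 327) (nat_lit 326) (nat_lit 247))) (XT.nd (nat_lit 78) (nat_lit 0) (nat_lit 76) (XT.lf (nat_lit 0) (nat_lit 3368307166) (nat_lit 1520) (nat_lit 486383803) (nat_lit 1596) (nat_lit 5744671154) (nat_lit 434) (nat_lit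 5) (nat_lit 454) (nat_lit 5) (nat_lit 455) (nat_lit 5) (nat_lit 328) (nat_lit 326) (nat_lit 246)) (XT.lf (nat_lit 0) (nat_lit 4684116371) (nat_lit 1520) (nat_lit 3303604748) (nat_lit 1596) (nat_lit 1733891519) (nat_lit 435) (nat_lit 5) (nat_lit 455) (nat_lit 5) (nat_lit 456) (nat_lit 5) (nat_lit 329) (nat_lit 326) (nat_lit 245)))) (XT.nd (nat_lit 156) (nat_lit 1444) (nat_lit 0) (XT.nd (nat_lit 78) (nat_lit 0) (nat_lit 76) (XT.lf (nat_lit 76) (nat_lit 3686320055) (nat_lit 0) (nat_lit 2362440064) (nat_lit 1596) (nat_lit 3798611126) (nat_lit 436) (nat_lit 5) (nat_lit 435) (nat_lit 5) (nat_lit 456) (nat_lit 5) (nat_lit 330) (nat_lit 326) (nat_lit 244)) (XT.lf (nat_lit 76) (nat_lit 918788209) (nat_lit 0) (nat_lit 6543895080) (nat_lit 1596) (nat_lit 2514079493) (nat_lit 437) (nat_lit 5) (nat_lit 436) (nat_lit 5) (nat_lit 457) (nat_lit 5) (nat_lit 331) (nat_lit 326) (nat_lit 243))) (XT.nd (nat_lit 78) (nat_lit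 1520) (nat_lit 0) (XT.lf (nat_lit 76) (nat_lit 8254220600) (nat_lit 0) (nat_lit 680880486) (nat_lit 1596) (nat_lit 1174639628) (nat_lit 437) (nat_lit 5) (nat_lit 436) (nat_lit 5) (nat_lit 457) (nat_lit 5) (nat_lit 332) (nat_lit 326) (nat_lit 242)) (XT.nd (nat_lit 78) (nat_lit 0) (nat_lit 76) (XT.lf (nat_lit 0) (nat_lit 233406082) (nat_lit 1596) (nat_lit 4671625836) (nat_lit 1672) (nat_lit 5341052155) (nat_lit 416) (nat_lit 5) (nat_lit 437) (nat_lit 5) (nat_lit 438) (nat_lit 5) (nat_lit 333) (nat_lit 326) (nat_lit 241)) (XT.lf (nat_lit 0) (nat_lit 1672109321) (nat_lit 1596) (nat_lit 7528154496) (nat_lit 1672) (nat_lit 1186035330) (nat_lit 417) (nat_lit 5) (nat_lit 438) (nat_lit 5) (nat_lit 439) (nat_lit 5) (nat_lit 334) (nat_lit 326) (nat_lit 240)))))) (XT.nd (nat_lit 390) (nat_lit 2964) (nat_lit 0) (XT.nd (nat_lit 156) (nat_lit 0) (nat_lit 76) (XT.nd (nat_lit 78) (nat_lit 0) (nat_lit 76) (XT.lf (nat_lit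 76) (nat_lit 89907901) (nat_lit 0) (nat_lit 3091049405) (nat_lit 1672) (nat_lit 7349247189) (nat_lit 418) (nat_lit 5) (nat_lit 417) (nat_lit 5) (nat_lit 439) (nat_lit 5) (nat_lit 335) (nat_lit 326) (nat_lit 239)) (XT.lf (nat_lit 0) (nat_lit 4769965045) (nat_lit 1596) (nat_lit 2685323150) (nat_lit 1672) (nat_lit 3222463735) (nat_lit 418) (nat_lit 5) (nat_lit 439) (nat_lit 5) (nat_lit 440) (nat_lit 5) (nat_lit 336) (nat_lit 326) (nat_lit 238))) (XT.nd (nat_lit 78) (nat_lit 0) (nat_lit 76) (XT.lf (nat_lit 76) (nat_lit 5325894432) (nat_lit 0) (nat_lit 1099841216) (nat_lit 1672) (nat_lit 4403630433) (nat_lit 419) (nat_lit 5) (nat_lit 418) (nat_lit 5) (nat_lit 440) (nat_lit 5) (nat_lit 337) (nat_lit 326) (nat_lit 237)) (XT.nd (nat_lit 78) (nat_lit 0) (nat_lit 76) (XT.lf (nat_lit 76) (nat_lit 2601720396) (nat_lit 0) (nat_lit 5564826442) (nat_lit 1672) (nat_lit 2818295972) (nat_lit 420) (nat_lit 5) (nat_lit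 419) (nat_lit 5) (nat_lit 441) (nat_lit 5) (nat_lit 338) (nat_lit 326) (nat_lit 236)) (XT.lf (nat_lit 0) (nat_lit 9976478524) (nat_lit 1596) (nat_lit 159031134) (nat_lit 1672) (nat_lit 1009157136) (nat_lit 420) (nat_lit 5) (nat_lit 441) (nat_lit 5) (nat_lit 442) (nat_lit 5) (nat_lit 339) (nat_lit 326) (nat_lit 235))))) (XT.nd (nat_lit 156) (nat_lit 1520) (nat_lit 0) (XT.nd (nat_lit 78) (nat_lit 0) (nat_lit 76) (XT.lf (nat_lit 0) (nat_lit 583015501) (nat_lit 1672) (nat_lit 2953322578) (nat_lit 1748) (nat_lit 7771727029) (nat_lit 398) (nat_lit 5) (nat_lit 420) (nat_lit 5) (nat_lit 421) (nat_lit 5) (nat_lit 340) (nat_lit 326) (nat_lit 234)) (XT.lf (nat_lit 0) (nat_lit 2397815222) (nat_lit 1672) (nat_lit 5806640237) (nat_lit 1748) (nat_lit 3271236152) (nat_lit 399) (nat_lit 5) (nat_lit 421) (nat_lit 5) (nat_lit 422) (nat_lit 5) (nat_lit 341) (nat_lit 326) (nat_lit 233))) (XT.nd (nat_lit 78) (nat_lit 1596)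 (nat_lit 0) (XT.lf (nat_lit 76) (nat_lit 2931374638) (nat_lit 0) (nat_lit 1366628992) (nat_lit 1748) (nat_lit 7349743115) (nat_lit 400) (nat_lit 5) (nat_lit 399) (nat_lit 5) (nat_lit 422) (nat_lit 5) (nat_lit 342) (nat_lit 326) (nat_lit 232)) (XT.nd (nat_lit 78) (nat_lit 0) (nat_lit 0) (XT.lf (nat_lit 0) (nat_lit 125240568) (nat_lit 1672) (nat_lit 6176151246) (nat_lit 1748) (nat_lit 5522666020) (nat_lit 378) (nat_lit 5) (nat_lit 400) (nat_lit 5) (nat_lit 401) (nat_lit 5) (nat_lit 343) (nat_lit 326) (nat_lit 231)) (XT.lf (nat_lit 0) (nat_lit 8408615167) (nat_lit 1748) (nat_lit 2694399380) (nat_lit 76) (nat_lit 901786693) (nat_lit 378) (nat_lit 5) (nat_lit 401) (nat_lit 5) (nat_lit 379) (nat_lit 5) (nat_lit 344) (nat_lit 326) (nat_lit 230))))))) (XT.nd (nat_lit 780) (nat_lit 5320) (nat_lit 0) (XT.nd (nat_lit 390) (nat_lit 3192) (nat_lit 0) (XT.nd (nat_lit 156) (nat_lit 1748) (nat_lit 0) (XT.nd (nat_lit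 78) (nat_lit 988) (nat_lit 0) (XT.lf (nat_lit 0) (nat_lit 6599820440) (nat_lit 1748) (nat_lit 4033957614) (nat_lit 1824) (nat_lit 1556111577) (nat_lit 355) (nat_lit 5) (nat_lit 378) (nat_lit 5) (nat_lit 379) (nat_lit 5) (nat_lit 345) (nat_lit 326) (nat_lit 229)) (XT.lf (nat_lit 0) (nat_lit 573868746) (nat_lit 988) (nat_lit 8550747601) (nat_lit 76) (nat_lit 3255142780) (nat_lit 342) (nat_lit 5) (nat_lit 355) (nat_lit 5) (nat_lit 343) (nat_lit 5) (nat_lit 346) (nat_lit 326) (nat_lit 228))) (XT.nd (nat_lit 78) (nat_lit 836) (nat_lit 0) (XT.lf (nat_lit 0) (nat_lit 982103601) (nat_lit 912) (nat_lit 1807864840) (nat_lit 988) (nat_lit 9784299158) (nat_lit 330) (nat_lit 5) (nat_lit 342) (nat_lit 5) (nat_lit 343) (nat_lit 5) (nat_lit 347) (nat_lit 326) (nat_lit 227)) (XT.nd (nat_lit 78) (nat_lit 836) (nat_lit 0) (XT.lf (nat_lit 0) (nat_lit 5140499237) (nat_lit 988) (nat_lit 1918966189) (nat_lit 76) (nat_lit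 5713802318) (nat_lit 330) (nat_lit 5) (nat_lit 343) (nat_lit 5) (nat_lit 331) (nat_lit 5) (nat_lit 348) (nat_lit 326) (nat_lit 226)) (XT.lf (nat_lit 0) (nat_lit 7602884503) (nat_lit 912) (nat_lit 4867248413) (nat_lit 76) (nat_lit 507293135) (nat_lit 319) (nat_lit 5) (nat_lit 331) (nat_lit 5) (nat_lit 320) (nat_lit 5) (nat_lit 349) (nat_lit 326) (nat_lit 225))))) (XT.nd (nat_lit 156) (nat_lit 1596) (nat_lit 0) (XT.nd (nat_lit 78) (nat_lit 760) (nat_lit 0) (XT.lf (nat_lit 0) (nat_lit 5275603453) (nat_lit 836) (nat_lit 4931950263) (nat_lit 912) (nat_lit 2978801639) (nat_lit 308) (nat_lit 5) (nat_lit 319) (nat_lit 5) (nat_lit 320) (nat_lit 5) (nat_lit 350) (nat_lit 326) (nat_lit 224)) (XT.lf (nat_lit 0) (nat_lit 2375596395) (nat_lit 760) (nat_lit 10556244845) (nat_lit 836) (nat_lit 468895807) (nat_lit 298) (nat_lit 5) (nat_lit 308) (nat_lit 5) (nat_lit 309) (nat_lit 5) (nat_lit 351) (nat_lit 326) (nat_lit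 223))) (XT.nd (nat_lit 78) (nat_lit 1520) (nat_lit 0) (XT.lf (nat_lit 0) (nat_lit 2150361146) (nat_lit 836) (nat_lit 614095381) (nat_lit 76) (nat_lit 10855596055) (nat_lit 297) (nat_lit 5) (nat_lit 308) (nat_lit 5) (nat_lit 298) (nat_lit 5) (nat_lit 352) (nat_lit 326) (nat_lit 222)) (XT.nd (nat_lit 78) (nat_lit 760) (nat_lit 0) (XT.lf (nat_lit 0) (nat_lit 4918403377) (nat_lit 836) (nat_lit 3664172584) (nat_lit 76) (nat_lit 5261791078) (nat_lit 287) (nat_lit 5) (nat_lit 298) (nat_lit 5) (nat_lit 288) (nat_lit 5) (nat_lit 353) (nat_lit 326) (nat_lit 221)) (XT.lf (nat_lit 0) (nat_lit 7283695799) (nat_lit 760) (nat_lit 531907543) (nat_lit 836) (nat_lit 6258897885) (nat_lit 277) (nat_lit 5) (nat_lit 287) (nat_lit 5) (nat_lit 288) (nat_lit 5) (nat_lit 354) (nat_lit 326) (nat_lit 220)))))) (XT.nd (nat_lit 390) (nat_lit 2508) (nat_lit 0) (XT.nd (nat_lit 156) (nat_lit 1368) (nat_lit 0) (XT.nd (nat_lit 78)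 (nat_lit 684) (nat_lit 0) (XT.lf (nat_lit 0) (nat_lit 4279916896) (nat_lit 760) (nat_lit 6599649660) (nat_lit 836) (nat_lit 3430388199) (nat_lit 267) (nat_lit 5) (nat_lit 277) (nat_lit 5) (nat_lit 278) (nat_lit 5) (nat_lit 355) (nat_lit 326) (nat_lit 219)) (XT.lf (nat_lit 0) (nat_lit 1200586879) (nat_lit 684) (nat_lit 12880351952) (nat_lit 760) (nat_lit 470635156) (nat_lit 258) (nat_lit 5) (nat_lit 267) (nat_lit 5) (nat_lit 268) (nat_lit 5) (nat_lit 356) (nat_lit 326) (nat_lit 218))) (XT.nd (nat_lit 78) (nat_lit 1292) (nat_lit 0) (XT.lf (nat_lit 0) (nat_lit 2634189895) (nat_lit 760) (nat_lit 1979723130) (nat_lit 76) (nat_lit 10184403564) (nat_lit 257) (nat_lit 5) (nat_lit 267) (nat_lit 5) (nat_lit 258) (nat_lit 5) (nat_lit 357) (nat_lit 326) (nat_lit 217)) (XT.nd (nat_lit 78) (nat_lit 608) (nat_lit 0) (XT.lf (nat_lit 0) (nat_lit 5893600025) (nat_lit 760) (nat_lit 5242830944) (nat_lit 76) (nat_lit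 3914622594) (nat_lit 248) (nat_lit 5) (nat_lit 258) (nat_lit 5) (nat_lit 249) (nat_lit 5) (nat_lit 358) (nat_lit 326) (nat_lit 216)) (XT.lf (nat_lit 0) (nat_lit 6698657855) (nat_lit 608) (nat_lit 2618644711) (nat_lit 684) (nat_lit 5992750557) (nat_lit 240) (nat_lit 5) (nat_lit 248) (nat_lit 5) (nat_lit 249) (nat_lit 5) (nat_lit 359) (nat_lit 326) (nat_lit 215))))) (XT.nd (nat_lit 156) (nat_lit 1140) (nat_lit 0) (XT.nd (nat_lit 78) (nat_lit 684) (nat_lit 0) (XT.lf (nat_lit 0) (nat_lit 3475355516) (nat_lit 684) (nat_lit 9445756038) (nat_lit 760) (nat_lit 2654173574) (nat_lit 231) (nat_lit 5) (nat_lit 240) (nat_lit 5) (nat_lit 241) (nat_lit 5) (nat_lit 360) (nat_lit 326) (nat_lit 214)) (XT.lf (nat_lit 0) (nat_lit 150289018) (nat_lit 608) (nat_lit 680627761) (nat_lit 684) (nat_lit 15016332389) (nat_lit 222) (nat_lit 5) (nat_lit 230) (nat_lit 5) (nat_lit 231) (nat_lit 5) (nat_lit 361) (nat_lit 326) (nat_lit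 213))) (XT.nd (nat_lit 78) (nat_lit 1140) (nat_lit 0) (XT.lf (nat_lit 0) (nat_lit 4501280720) (nat_lit 684) (nat_lit 3288548915) (nat_lit 76) (nat_lit 8334865582) (nat_lit 222) (nat_lit 5) (nat_lit 231) (nat_lit 5) (nat_lit 223) (nat_lit 5) (nat_lit 362) (nat_lit 326) (nat_lit 212)) (XT.nd (nat_lit 78) (nat_lit 532) (nat_lit 0) (XT.lf (nat_lit 0) (nat_lit 8337189133) (nat_lit 684) (nat_lit 6827646925) (nat_lit 76) (nat_lit 1244529218) (nat_lit 214) (nat_lit 5) (nat_lit 223) (nat_lit 5) (nat_lit 215) (nat_lit 5) (nat_lit 363) (nat_lit 326) (nat_lit 211)) (XT.lf (nat_lit 0) (nat_lit 6186616111) (nat_lit 532) (nat_lit 6197078386) (nat_lit 608) (nat_lit 4316979576) (nat_lit 207) (nat_lit 5) (nat_lit 214) (nat_lit 5) (nat_lit 215) (nat_lit 5) (nat_lit 364) (nat_lit 326) (nat_lit 210))))))))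
noncomputable def xc98 : XT := (XT.nd (nat_lit 44070) (nat_lit 0) (nat_lit 16796) (XT.nd (nat_lit 702) (nat_lit 2736) (nat_lit 0) (XT.nd (nat_lit 312) (nat_lit 2052) (nat_lit 0) (XT.nd (nat_lit 156) (nat_lit 1064) (nat_lit 0) (XT.nd (nat_lit 78) (nat_lit 76) (nat_lit 0) (XT.lf (nat_lit 0) (nat_lit 2676793669) (nat_lit 608) (nat_lit 13939698770) (nat_lit 684) (nat_lit 382940513) (nat_lit 199) (nat_lit 5) (nat_lit 207) (nat_lit 5) (nat_lit 208) (nat_lit 5) (nat_lit 365) (nat_lit 326) (nat_lit 209)) (XT.lf (nat_lit 0) (nat_lit 3715637618) (nat_lit 684) (nat_lit 987293875) (nat_lit 76) (nat_lit 12601862223) (nat_lit 198) (nat_lit 5) (nat_lit 207) (nat_lit 5) (nat_lit 199) (nat_lit 5) (nat_lit 366) (nat_lit 326) (nat_lit 208))) (XT.nd (nat_lit 78) (nat_lit 532) (nat_lit 0) (XT.lf (nat_lit 0) (nat_lit 8029500407) (nat_lit 608) (nat_lit 4757544522) (nat_lit 76) (nat_lit 4830277249) (nat_lit 191) (nat_lit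 5) (nat_lit 199) (nat_lit 5) (nat_lit 192) (nat_lit 5) (nat_lit 367) (nat_lit 326) (nat_lit 207)) (XT.lf (nat_lit 0) (nat_lit 9264280913) (nat_lit 532) (nat_lit 3289201994) (nat_lit 608) (nat_lit 5384137379) (nat_lit 184) (nat_lit 5) (nat_lit 191) (nat_lit 5) (nat_lit 192) (nat_lit 5) (nat_lit 368) (nat_lit 326) (nat_lit 206)))) (XT.nd (nat_lit 156) (nat_lit 912) (nat_lit 0) (XT.nd (nat_lit 78) (nat_lit 608) (nat_lit 0) (XT.lf (nat_lit 0) (nat_lit 5512556645) (nat_lit 532) (nat_lit 11793740323) (nat_lit 608) (nat_lit 959375764) (nat_lit 177) (nat_lit 5) (nat_lit 184) (nat_lit 5) (nat_lit 185) (nat_lit 5) (nat_lit 369) (nat_lit 326) (nat_lit 205)) (XT.lf (nat_lit 0) (nat_lit 1593270351) (nat_lit 532) (nat_lit 2032121187) (nat_lit 608) (nat_lit 14976226195) (nat_lit 169) (nat_lit 5) (nat_lit 176) (nat_lit 5) (nat_lit 177) (nat_lit 5) (nat_lit 370) (nat_lit 326) (nat_lit 204))) (XT.nd (nat_lit 78) (nat_lit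 912) (nat_lit 0) (XT.lf (nat_lit 0) (nat_lit 8457090287) (nat_lit 608) (nat_lit 2482557614) (nat_lit 76) (nat_lit 8005424959) (nat_lit 169) (nat_lit 5) (nat_lit 177) (nat_lit 5) (nat_lit 170) (nat_lit 5) (nat_lit 371) (nat_lit 326) (nat_lit 203)) (XT.nd (nat_lit 78) (nat_lit 456) (nat_lit 0) (XT.lf (nat_lit 0) (nat_lit 12609249419) (nat_lit 456) (nat_lit 903705588) (nat_lit 532) (nat_lit 5784299186) (nat_lit 163) (nat_lit 5) (nat_lit 169) (nat_lit 5) (nat_lit 170) (nat_lit 5) (nat_lit 372) (nat_lit 326) (nat_lit 202)) (XT.lf (nat_lit 0) (nat_lit 8557522143) (nat_lit 456) (nat_lit 10280774876) (nat_lit 532) (nat_lit 819354572) (nat_lit 157) (nat_lit 5) (nat_lit 163) (nat_lit 5) (nat_lit 164) (nat_lit 5) (nat_lit 373) (nat_lit 326) (nat_lit 201)))))) (XT.nd (nat_lit 390) (nat_lit 836) (nat_lit 0) (XT.nd (nat_lit 156) (nat_lit 1368) (nat_lit 0) (XT.nd (nat_lit 78) (nat_lit 0) (nat_lit 0) (XT.lf (nat_lit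 0) (nat_lit 4302385227) (nat_lit 532) (nat_lit 15702019670) (nat_lit 76) (nat_lit 22621276) (nat_lit 150) (nat_lit 5) (nat_lit 157) (nat_lit 5) (nat_lit 151) (nat_lit 5) (nat_lit 374) (nat_lit 326) (nat_lit 200)) (XT.lf (nat_lit 0) (nat_lit 9695738567) (nat_lit 532) (nat_lit 137149043) (nat_lit 76) (nat_lit 10571910348) (nat_lit 150) (nat_lit 5) (nat_lit 157) (nat_lit 5) (nat_lit 151) (nat_lit 5) (nat_lit 375) (nat_lit 326) (nat_lit 199))) (XT.nd (nat_lit 78) (nat_lit 912) (nat_lit 0) (XT.lf (nat_lit 0) (nat_lit 15345172559) (nat_lit 532) (nat_lit 4711988537) (nat_lit 76) (nat_lit 734862169) (nat_lit 144) (nat_lit 5) (nat_lit 151) (nat_lit 5) (nat_lit 145) (nat_lit 5) (nat_lit 376) (nat_lit 326) (nat_lit 198)) (XT.nd (nat_lit 78) (nat_lit 456) (nat_lit 0) (XT.lf (nat_lit 0) (nat_lit 102100097) (nat_lit 456) (nat_lit 9527633389) (nat_lit 76) (nat_lit 11558570507) (nat_lit 138) (nat_lit 5) (nat_lit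 144) (nat_lit 5) (nat_lit 139) (nat_lit 5) (nat_lit 377) (nat_lit 326) (nat_lit 197)) (XT.lf (nat_lit 0) (nat_lit 5815116800) (nat_lit 532) (nat_lit 14574150943) (nat_lit 76) (nat_lit 1205058868) (nat_lit 132) (nat_lit 5) (nat_lit 139) (nat_lit 5) (nat_lit 133) (nat_lit 5) (nat_lit 378) (nat_lit 326) (nat_lit 196))))) (XT.nd (nat_lit 156) (nat_lit 456) (nat_lit 0) (XT.nd (nat_lit 78) (nat_lit 0) (nat_lit 0) (XT.lf (nat_lit 0) (nat_lit 2126285733) (nat_lit 380) (nat_lit 9702161195) (nat_lit 456) (nat_lit 10181509878) (nat_lit 127) (nat_lit 5) (nat_lit 132) (nat_lit 5) (nat_lit 133) (nat_lit 5) (nat_lit 379) (nat_lit 326) (nat_lit 195)) (XT.lf (nat_lit 0) (nat_lit 18116042357) (nat_lit 456) (nat_lit 2938268715) (nat_lit 76) (nat_lit 1381872725) (nat_lit 127) (nat_lit 5) (nat_lit 133) (nat_lit 5) (nat_lit 128) (nat_lit 5) (nat_lit 380) (nat_lit 326) (nat_lit 194))) (XT.nd (nat_lit 42666) (nat_lit 0)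 (nat_lit 23712) (XT.lf (nat_lit 0) (nat_lit 1841718808) (nat_lit 456) (nat_lit 8261698043) (nat_lit 76) (nat_lit 12768619319) (nat_lit 121) (nat_lit 5) (nat_lit 127) (nat_lit 5) (nat_lit 122) (nat_lit 5) (nat_lit 381) (nat_lit 326) (nat_lit 193)) (XT.nd (nat_lit 78) (nat_lit 0) (nat_lit 0) (XT.lf (nat_lit 0) (nat_lit 1629300987) (nat_lit 1596) (nat_lit 1584684953) (nat_lit 1596) (nat_lit 1584684953) (nat_lit 433) (nat_lit 3) (nat_lit 454) (nat_lit 3) (nat_lit 454) (nat_lit 5) (nat_lit 327) (nat_lit 327) (nat_lit 246)) (XT.lf (nat_lit 76) (nat_lit 3589153381) (nat_lit 0) (nat_lit 859685652) (nat_lit 1596) (nat_lit 5268923842) (nat_lit 434) (nat_lit 5) (nat_lit 433) (nat_lit 3) (nat_lit 454) (nat_lit 5) (nat_lit 328) (nat_lit 327) (nat_lit 245))))))) (XT.nd (nat_lit 702) (nat_lit 5548) (nat_lit 0) (XT.nd (nat_lit 312) (nat_lit 1444) (nat_lit 0) (XT.nd (nat_lit 156) (nat_lit 0) (nat_lit 76) (XT.nd (nat_lit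 78) (nat_lit 0) (nat_lit 76) (XT.lf (nat_lit 76) (nat_lit 706308730) (nat_lit 0) (nat_lit 4982691834) (nat_lit 1596) (nat_lit 4152539465) (nat_lit 435) (nat_lit 5) (nat_lit 434) (nat_lit 5) (nat_lit 455) (nat_lit 5) (nat_lit 329) (nat_lit 327) (nat_lit 244)) (XT.lf (nat_lit 0) (nat_lit 6976473830) (nat_lit 1520) (nat_lit 2173235503) (nat_lit 1596) (nat_lit 819146000) (nat_lit 435) (nat_lit 5) (nat_lit 455) (nat_lit 5) (nat_lit 456) (nat_lit 5) (nat_lit 330) (nat_lit 327) (nat_lit 243))) (XT.nd (nat_lit 78) (nat_lit 0) (nat_lit 76) (XT.lf (nat_lit 76) (nat_lit 5006440234) (nat_lit 0) (nat_lit 3320794957) (nat_lit 1596) (nat_lit 1772287816) (nat_lit 436) (nat_lit 5) (nat_lit 435) (nat_lit 5) (nat_lit 456) (nat_lit 5) (nat_lit 331) (nat_lit 327) (nat_lit 242)) (XT.lf (nat_lit 76) (nat_lit 2184495253) (nat_lit 0) (nat_lit 7540447332) (nat_lit 1596) (nat_lit 509065087) (nat_lit 437) (nat_lit 5) (nat_lit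 436) (nat_lit 5) (nat_lit 457) (nat_lit 5) (nat_lit 332) (nat_lit 327) (nat_lit 241)))) (XT.nd (nat_lit 156) (nat_lit 0) (nat_lit 152) (XT.nd (nat_lit 78) (nat_lit 0) (nat_lit 76) (XT.lf (nat_lit 0) (nat_lit 799339920) (nat_lit 1596) (nat_lit 673530561) (nat_lit 1672) (nat_lit 8899224275) (nat_lit 415) (nat_lit 5) (nat_lit 436) (nat_lit 5) (nat_lit 437) (nat_lit 5) (nat_lit 333) (nat_lit 327) (nat_lit 240)) (XT.lf (nat_lit 0) (nat_lit 2178794525) (nat_lit 1596) (nat_lit 3557110324) (nat_lit 1672) (nat_lit 4777601527) (nat_lit 416) (nat_lit 5) (nat_lit 437) (nat_lit 5) (nat_lit 438) (nat_lit 5) (nat_lit 334) (nat_lit 327) (nat_lit 239))) (XT.nd (nat_lit 78) (nat_lit 0) (nat_lit 0) (XT.lf (nat_lit 0) (nat_lit 3607958153) (nat_lit 1596) (nat_lit 6476476867) (nat_lit 1672) (nat_lit 574581631) (nat_lit 417) (nat_lit 5) (nat_lit 438) (nat_lit 5) (nat_lit 439) (nat_lit 5) (nat_lit 335) (nat_lit 327) (nat_lit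 238)) (XT.nd (nat_lit 78) (nat_lit 0) (nat_lit 76) (XT.lf (nat_lit 76) (nat_lit 1349401121) (nat_lit 0) (nat_lit 3765907531) (nat_lit 1672) (nat_lit 5692899488) (nat_lit 418) (nat_lit 5) (nat_lit 417) (nat_lit 5) (nat_lit 439) (nat_lit 5) (nat_lit 336) (nat_lit 327) (nat_lit 237)) (XT.lf (nat_lit 0) (nat_lit 6694756300) (nat_lit 1596) (nat_lit 1505224567) (nat_lit 1672) (nat_lit 2761378475) (nat_lit 418) (nat_lit 5) (nat_lit 439) (nat_lit 5) (nat_lit 440) (nat_lit 5) (nat_lit 337) (nat_lit 327) (nat_lit 236)))))) (XT.nd (nat_lit 390) (nat_lit 4256) (nat_lit 0) (XT.nd (nat_lit 156) (nat_lit 1520) (nat_lit 0) (XT.nd (nat_lit 78) (nat_lit 0) (nat_lit 76) (XT.lf (nat_lit 76) (nat_lit 6725876860) (nat_lit 0) (nat_lit 1630481449) (nat_lit 1672) (nat_lit 2762072229) (nat_lit 419) (nat_lit 5) (nat_lit 418) (nat_lit 5) (nat_lit 440) (nat_lit 5) (nat_lit 338) (nat_lit 327) (nat_lit 235)) (XT.lf (nat_lit 76)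 (nat_lit 3938270808) (nat_lit 0) (nat_lit 6165540095) (nat_lit 1672) (nat_lit 1175703185) (nat_lit 420) (nat_lit 5) (nat_lit 419) (nat_lit 5) (nat_lit 441) (nat_lit 5) (nat_lit 339) (nat_lit 327) (nat_lit 234))) (XT.nd (nat_lit 78) (nat_lit 0) (nat_lit 0) (XT.lf (nat_lit 0) (nat_lit 471888104) (nat_lit 1672) (nat_lit 10338982639) (nat_lit 1748) (nat_lit 634126360) (nat_lit 398) (nat_lit 5) (nat_lit 420) (nat_lit 5) (nat_lit 421) (nat_lit 5) (nat_lit 340) (nat_lit 327) (nat_lit 233)) (XT.nd (nat_lit 78) (nat_lit 0) (nat_lit 76) (XT.lf (nat_lit 0) (nat_lit 2212570215) (nat_lit 1672) (nat_lit 1781528764) (nat_lit 1748) (nat_lit 7620016204) (nat_lit 398) (nat_lit 5) (nat_lit 420) (nat_lit 5) (nat_lit 421) (nat_lit 5) (nat_lit 341) (nat_lit 327) (nat_lit 232)) (XT.lf (nat_lit 0) (nat_lit 4040747684) (nat_lit 1672) (nat_lit 4706344743) (nat_lit 1748) (nat_lit 3040527066) (nat_lit 399) (nat_lit 5) (nat_lit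 421) (nat_lit 5) (nat_lit 422) (nat_lit 5) (nat_lit 342) (nat_lit 327) (nat_lit 231))))) (XT.nd (nat_lit 156) (nat_lit 2736) (nat_lit 0) (XT.nd (nat_lit 78) (nat_lit 1596) (nat_lit 0) (XT.lf (nat_lit 76) (nat_lit 4273133416) (nat_lit 0) (nat_lit 1687191719) (nat_lit 1748) (nat_lit 6005290358) (nat_lit 400) (nat_lit 5) (nat_lit 399) (nat_lit 5) (nat_lit 422) (nat_lit 5) (nat_lit 343) (nat_lit 327) (nat_lit 230)) (XT.lf (nat_lit 0) (nat_lit 1395310861) (nat_lit 1672) (nat_lit 6590302008) (nat_lit 1748) (nat_lit 4162393186) (nat_lit 378) (nat_lit 5) (nat_lit 400) (nat_lit 5) (nat_lit 401) (nat_lit 5) (nat_lit 344) (nat_lit 327) (nat_lit 229))) (XT.nd (nat_lit 78) (nat_lit 2736) (nat_lit 0) (XT.lf (nat_lit 0) (nat_lit 10111061340) (nat_lit 1748) (nat_lit 1514481321) (nat_lit 76) (nat_lit 709554271) (nat_lit 378) (nat_lit 5) (nat_lit 401) (nat_lit 5) (nat_lit 379) (nat_lit 5) (nat_lit 345) (nat_lit 327)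 (nat_lit 228)) (XT.nd (nat_lit 78) (nat_lit 988) (nat_lit 0) (XT.lf (nat_lit 0) (nat_lit 8038110922) (nat_lit 1748) (nat_lit 4330682537) (nat_lit 1824) (nat_lit 157652829) (nat_lit 355) (nat_lit 5) (nat_lit 378) (nat_lit 5) (nat_lit 379) (nat_lit 5) (nat_lit 346) (nat_lit 327) (nat_lit 227)) (XT.lf (nat_lit 0) (nat_lit 1982788552) (nat_lit 988) (nat_lit 7538031417) (nat_lit 76) (nat_lit 3201717359) (nat_lit 342) (nat_lit 5) (nat_lit 355) (nat_lit 5) (nat_lit 343) (nat_lit 5) (nat_lit 347) (nat_lit 327) (nat_lit 226))))))))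
noncomputable def xc99 : XT := (XT.nd (nat_lit 1482) (nat_lit 5396) (nat_lit 0) (XT.nd (nat_lit 702) (nat_lit 5244) (nat_lit 0) (XT.nd (nat_lit 312) (nat_lit 3116) (nat_lit 0) (XT.nd (nat_lit 156) (nat_lit 1672) (nat_lit 0) (XT.nd (nat_lit 78) (nat_lit 0) (nat_lit 0) (XT.lf (nat_lit 0) (nat_lit 2260213433) (nat_lit 912) (nat_lit 1972729788) (nat_lit 988) (nat_lit 8690609128) (nat_lit 330) (nat_lit 5) (nat_lit 342) (nat_lit 5) (nat_lit 343) (nat_lit 5) (nat_lit 348) (nat_lit 327) (nat_lit 225)) (XT.lf (nat_lit 0) (nat_lit 6613702029) (nat_lit 988) (nat_lit 736430050) (nat_lit 76) (nat_lit 5779218248) (nat_lit 330) (nat_lit 5) (nat_lit 343) (nat_lit 5) (nat_lit 331) (nat_lit 5) (nat_lit 349) (nat_lit 327) (nat_lit 224))) (XT.nd (nat_lit 78) (nat_lit 836) (nat_lit 0) (XT.lf (nat_lit 0) (nat_lit 9119017905) (nat_lit 912) (nat_lit 3766351090) (nat_lit 76) (nat_lit 454904635) (nat_lit 319) (nat_lit 5) (nat_lit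 331) (nat_lit 5) (nat_lit 320) (nat_lit 5) (nat_lit 350) (nat_lit 327) (nat_lit 223)) (XT.lf (nat_lit 0) (nat_lit 6660556622) (nat_lit 836) (nat_lit 5111719097) (nat_lit 912) (nat_lit 1783806927) (nat_lit 308) (nat_lit 5) (nat_lit 319) (nat_lit 5) (nat_lit 320) (nat_lit 5) (nat_lit 351) (nat_lit 327) (nat_lit 222)))) (XT.nd (nat_lit 156) (nat_lit 1520) (nat_lit 0) (XT.nd (nat_lit 78) (nat_lit 760) (nat_lit 0) (XT.lf (nat_lit 0) (nat_lit 761820639) (nat_lit 836) (nat_lit 10103210250) (nat_lit 76) (nat_lit 2912361938) (nat_lit 297) (nat_lit 5) (nat_lit 308) (nat_lit 5) (nat_lit 298) (nat_lit 5) (nat_lit 352) (nat_lit 327) (nat_lit 221)) (XT.lf (nat_lit 0) (nat_lit 588352383) (nat_lit 760) (nat_lit 2832717414) (nat_lit 836) (nat_lit 10582819568) (nat_lit 287) (nat_lit 5) (nat_lit 297) (nat_lit 5) (nat_lit 298) (nat_lit 5) (nat_lit 353) (nat_lit 327) (nat_lit 220))) (XT.nd (nat_lit 78) (nat_lit 1520)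 (nat_lit 0) (XT.lf (nat_lit 0) (nat_lit 6241180668) (nat_lit 836) (nat_lit 2556620424) (nat_lit 76) (nat_lit 5437770282) (nat_lit 287) (nat_lit 5) (nat_lit 298) (nat_lit 5) (nat_lit 288) (nat_lit 5) (nat_lit 354) (nat_lit 327) (nat_lit 219)) (XT.nd (nat_lit 78) (nat_lit 760) (nat_lit 0) (XT.lf (nat_lit 0) (nat_lit 8699931888) (nat_lit 760) (nat_lit 498911311) (nat_lit 836) (nat_lit 5274313579) (nat_lit 277) (nat_lit 5) (nat_lit 287) (nat_lit 5) (nat_lit 288) (nat_lit 5) (nat_lit 355) (nat_lit 327) (nat_lit 218)) (XT.lf (nat_lit 0) (nat_lit 5609492203) (nat_lit 760) (nat_lit 6719881158) (nat_lit 836) (nat_lit 2386825183) (nat_lit 267) (nat_lit 5) (nat_lit 277) (nat_lit 5) (nat_lit 278) (nat_lit 5) (nat_lit 356) (nat_lit 327) (nat_lit 217)))))) (XT.nd (nat_lit 390) (nat_lit 2508) (nat_lit 0) (XT.nd (nat_lit 156) (nat_lit 1976) (nat_lit 0) (XT.nd (nat_lit 78) (nat_lit 0) (nat_lit 0) (XT.lf (nat_lit 0)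 (nat_lit 628448863) (nat_lit 760) (nat_lit 12529227503) (nat_lit 76) (nat_lit 1807812667) (nat_lit 257) (nat_lit 5) (nat_lit 267) (nat_lit 5) (nat_lit 258) (nat_lit 5) (nat_lit 357) (nat_lit 327) (nat_lit 216)) (XT.lf (nat_lit 0) (nat_lit 3787822811) (nat_lit 760) (nat_lit 855481938) (nat_lit 76) (nat_lit 10576927241) (nat_lit 257) (nat_lit 5) (nat_lit 267) (nat_lit 5) (nat_lit 258) (nat_lit 5) (nat_lit 358) (nat_lit 327) (nat_lit 215))) (XT.nd (nat_lit 78) (nat_lit 1292) (nat_lit 0) (XT.lf (nat_lit 0) (nat_lit 7122013574) (nat_lit 760) (nat_lit 4214879809) (nat_lit 76) (nat_lit 4144133509) (nat_lit 248) (nat_lit 5) (nat_lit 258) (nat_lit 5) (nat_lit 249) (nat_lit 5) (nat_lit 359) (nat_lit 327) (nat_lit 214)) (XT.nd (nat_lit 78) (nat_lit 684) (nat_lit 0) (XT.lf (nat_lit 0) (nat_lit 8065624607) (nat_lit 608) (nat_lit 2559743786) (nat_lit 684) (nat_lit 5122904545) (nat_lit 240) (nat_lit 5) (nat_lit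 248) (nat_lit 5) (nat_lit 249) (nat_lit 5) (nat_lit 360) (nat_lit 327) (nat_lit 213)) (XT.lf (nat_lit 0) (nat_lit 4746567866) (nat_lit 684) (nat_lit 9569209225) (nat_lit 760) (nat_lit 1706129982) (nat_lit 231) (nat_lit 5) (nat_lit 240) (nat_lit 5) (nat_lit 241) (nat_lit 5) (nat_lit 361) (nat_lit 327) (nat_lit 212))))) (XT.nd (nat_lit 156) (nat_lit 1824) (nat_lit 0) (XT.nd (nat_lit 78) (nat_lit 0) (nat_lit 0) (XT.lf (nat_lit 0) (nat_lit 1316554715) (nat_lit 608) (nat_lit 531483667) (nat_lit 684) (nat_lit 14454312303) (nat_lit 222) (nat_lit 5) (nat_lit 230) (nat_lit 5) (nat_lit 231) (nat_lit 5) (nat_lit 362) (nat_lit 327) (nat_lit 211)) (XT.lf (nat_lit 0) (nat_lit 5600683232) (nat_lit 684) (nat_lit 2240630557) (nat_lit 76) (nat_lit 8747376674) (nat_lit 222) (nat_lit 5) (nat_lit 231) (nat_lit 5) (nat_lit 223) (nat_lit 5) (nat_lit 363) (nat_lit 327) (nat_lit 210))) (XT.nd (nat_lit 78) (nat_lit 1216) (nat_lit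 0) (XT.lf (nat_lit 0) (nat_lit 9532101248) (nat_lit 684) (nat_lit 5886383433) (nat_lit 76) (nat_lit 1463820646) (nat_lit 214) (nat_lit 5) (nat_lit 223) (nat_lit 5) (nat_lit 215) (nat_lit 5) (nat_lit 364) (nat_lit 327) (nat_lit 209)) (XT.nd (nat_lit 78) (nat_lit 684) (nat_lit 0) (XT.lf (nat_lit 0) (nat_lit 7499713498) (nat_lit 532) (nat_lit 6180090403) (nat_lit 608) (nat_lit 3502966405) (nat_lit 207) (nat_lit 5) (nat_lit 214) (nat_lit 5) (nat_lit 215) (nat_lit 5) (nat_lit 365) (nat_lit 327) (nat_lit 208)) (XT.lf (nat_lit 0) (nat_lit 523421612) (nat_lit 684) (nat_lit 13610689805) (nat_lit 76) (nat_lit 3356690985) (nat_lit 198) (nat_lit 5) (nat_lit 207) (nat_lit 5) (nat_lit 199) (nat_lit 5) (nat_lit 366) (nat_lit 327) (nat_lit 207))))))) (XT.nd (nat_lit 780) (nat_lit 1292) (nat_lit 0) (XT.nd (nat_lit 390) (nat_lit 1900) (nat_lit 0) (XT.nd (nat_lit 156) (nat_lit 1672) (nat_lit 0) (XT.nd (nat_lit 78) (nat_lit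 0) (nat_lit 0) (XT.lf (nat_lit 0) (nat_lit 90160816) (nat_lit 532) (nat_lit 4623625817) (nat_lit 608) (nat_lit 13092018063) (nat_lit 191) (nat_lit 5) (nat_lit 198) (nat_lit 5) (nat_lit 199) (nat_lit 5) (nat_lit 367) (nat_lit 327) (nat_lit 206)) (XT.lf (nat_lit 0) (nat_lit 9139167312) (nat_lit 608) (nat_lit 3796019276) (nat_lit 76) (nat_lit 5192892014) (nat_lit 191) (nat_lit 5) (nat_lit 199) (nat_lit 5) (nat_lit 192) (nat_lit 5) (nat_lit 368) (nat_lit 327) (nat_lit 205))) (XT.nd (nat_lit 78) (nat_lit 1140) (nat_lit 0) (XT.lf (nat_lit 0) (nat_lit 10628545753) (nat_lit 532) (nat_lit 3152072424) (nat_lit 608) (nat_lit 4677743788) (nat_lit 184) (nat_lit 5) (nat_lit 191) (nat_lit 5) (nat_lit 192) (nat_lit 5) (nat_lit 369) (nat_lit 327) (nat_lit 204)) (XT.nd (nat_lit 78) (nat_lit 608) (nat_lit 0) (XT.lf (nat_lit 0) (nat_lit 6762243920) (nat_lit 532) (nat_lit 11897526476) (nat_lit 608) (nat_lit 136821474)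 (nat_lit 177) (nat_lit 5) (nat_lit 184) (nat_lit 5) (nat_lit 185) (nat_lit 5) (nat_lit 370) (nat_lit 327) (nat_lit 203)) (XT.lf (nat_lit 0) (nat_lit 2719124039) (nat_lit 532) (nat_lit 1837727867) (nat_lit 608) (nat_lit 14586012629) (nat_lit 169) (nat_lit 5) (nat_lit 176) (nat_lit 5) (nat_lit 177) (nat_lit 5) (nat_lit 371) (nat_lit 327) (nat_lit 202))))) (XT.nd (nat_lit 156) (nat_lit 1444) (nat_lit 0) (XT.nd (nat_lit 78) (nat_lit 456) (nat_lit 0) (XT.lf (nat_lit 0) (nat_lit 9511149178) (nat_lit 608) (nat_lit 1495675740) (nat_lit 76) (nat_lit 8490255575) (nat_lit 169) (nat_lit 5) (nat_lit 177) (nat_lit 5) (nat_lit 170) (nat_lit 5) (nat_lit 372) (nat_lit 327) (nat_lit 201)) (XT.lf (nat_lit 0) (nat_lit 14031666222) (nat_lit 456) (nat_lit 670491808) (nat_lit 532) (nat_lit 5158009705) (nat_lit 163) (nat_lit 5) (nat_lit 169) (nat_lit 5) (nat_lit 170) (nat_lit 5) (nat_lit 373) (nat_lit 327) (nat_lit 200)))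 (XT.nd (nat_lit 78) (nat_lit 988) (nat_lit 0) (XT.lf (nat_lit 0) (nat_lit 9855528862) (nat_lit 456) (nat_lit 10317303556) (nat_lit 532) (nat_lit 58842742) (nat_lit 157) (nat_lit 5) (nat_lit 163) (nat_lit 5) (nat_lit 164) (nat_lit 5) (nat_lit 374) (nat_lit 327) (nat_lit 199)) (XT.nd (nat_lit 78) (nat_lit 456) (nat_lit 0) (XT.lf (nat_lit 0) (nat_lit 5192195688) (nat_lit 532) (nat_lit 15124565526) (nat_lit 76) (nat_lit 295558046) (nat_lit 150) (nat_lit 5) (nat_lit 157) (nat_lit 5) (nat_lit 151) (nat_lit 5) (nat_lit 375) (nat_lit 327) (nat_lit 198)) (XT.lf (nat_lit 0) (nat_lit 888362996) (nat_lit 456) (nat_lit 9842597031) (nat_lit 532) (nat_lit 10270800787) (nat_lit 144) (nat_lit 5) (nat_lit 150) (nat_lit 5) (nat_lit 151) (nat_lit 5) (nat_lit 376) (nat_lit 327) (nat_lit 197)))))) (XT.nd (nat_lit 43134) (nat_lit 0) (nat_lit 21812) (XT.nd (nat_lit 156) (nat_lit 836) (nat_lit 0) (XT.nd (nat_lit 78) (nat_lit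 456) (nat_lit 0) (XT.lf (nat_lit 0) (nat_lit 16530903494) (nat_lit 532) (nat_lit 3838935440) (nat_lit 76) (nat_lit 1031151981) (nat_lit 144) (nat_lit 5) (nat_lit 151) (nat_lit 5) (nat_lit 145) (nat_lit 5) (nat_lit 377) (nat_lit 327) (nat_lit 196)) (XT.lf (nat_lit 0) (nat_lit 820871181) (nat_lit 456) (nat_lit 8805724117) (nat_lit 76) (nat_lit 12182771874) (nat_lit 138) (nat_lit 5) (nat_lit 144) (nat_lit 5) (nat_lit 139) (nat_lit 5) (nat_lit 378) (nat_lit 327) (nat_lit 195))) (XT.nd (nat_lit 78) (nat_lit 380) (nat_lit 0) (XT.lf (nat_lit 0) (nat_lit 6692752730) (nat_lit 532) (nat_lit 14007580168) (nat_lit 76) (nat_lit 1527496001) (nat_lit 132) (nat_lit 5) (nat_lit 139) (nat_lit 5) (nat_lit 133) (nat_lit 5) (nat_lit 379) (nat_lit 327) (nat_lit 194)) (XT.nd (nat_lit 42822) (nat_lit 0) (nat_lit 23256) (XT.lf (nat_lit 0) (nat_lit 3177584223) (nat_lit 380) (nat_lit 9694829066) (nat_lit 456) (nat_lit 9783803785)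 (nat_lit 127) (nat_lit 5) (nat_lit 132) (nat_lit 5) (nat_lit 133) (nat_lit 5) (nat_lit 380) (nat_lit 327) (nat_lit 193)) (XT.lf (nat_lit 0) (nat_lit 2785487454) (nat_lit 1596) (nat_lit 1067146190) (nat_lit 1596) (nat_lit 1067146190) (nat_lit 433) (nat_lit 3) (nat_lit 454) (nat_lit 3) (nat_lit 454) (nat_lit 5) (nat_lit 328) (nat_lit 328) (nat_lit 244))))) (XT.nd (nat_lit 156) (nat_lit 1444) (nat_lit 0) (XT.nd (nat_lit 78) (nat_lit 0) (nat_lit 76) (XT.lf (nat_lit 76) (nat_lit 4808651125) (nat_lit 0) (nat_lit 1930983301) (nat_lit 1596) (nat_lit 3225145727) (nat_lit 434) (nat_lit 5) (nat_lit 433) (nat_lit 3) (nat_lit 454) (nat_lit 5) (nat_lit 329) (nat_lit 328) (nat_lit 243)) (XT.lf (nat_lit 76) (nat_lit 1871754516) (nat_lit 0) (nat_lit 6083250285) (nat_lit 1596) (nat_lit 2138545614) (nat_lit 435) (nat_lit 5) (nat_lit 434) (nat_lit 5) (nat_lit 455) (nat_lit 5) (nat_lit 330) (nat_lit 328) (nat_lit 242)))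 (XT.nd (nat_lit 78) (nat_lit 1520) (nat_lit 0) (XT.lf (nat_lit 76) (nat_lit 9146078898) (nat_lit 0) (nat_lit 68443423) (nat_lit 1596) (nat_lit 1011533170) (nat_lit 435) (nat_lit 5) (nat_lit 434) (nat_lit 5) (nat_lit 455) (nat_lit 5) (nat_lit 331) (nat_lit 328) (nat_lit 241)) (XT.nd (nat_lit 78) (nat_lit 0) (nat_lit 76) (XT.lf (nat_lit 0) (nat_lit 189446623) (nat_lit 1596) (nat_lit 4066237506) (nat_lit 1672) (nat_lit 6106014105) (nat_lit 414) (nat_lit 5) (nat_lit 435) (nat_lit 5) (nat_lit 436) (nat_lit 5) (nat_lit 332) (nat_lit 328) (nat_lit 240)) (XT.lf (nat_lit 0) (nat_lit 1417831928) (nat_lit 1596) (nat_lit 7093613039) (nat_lit 1672) (nat_lit 1989752686) (nat_lit 415) (nat_lit 5) (nat_lit 436) (nat_lit 5) (nat_lit 437) (nat_lit 5) (nat_lit 333) (nat_lit 328) (nat_lit 239))))))))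
noncomputable def xc100 : XT := (XT.nd (nat_lit 1482) (nat_lit 10032) (nat_lit 0) (XT.nd (nat_lit 702) (nat_lit 6764) (nat_lit 0) (XT.nd (nat_lit 312) (nat_lit 1368) (nat_lit 0) (XT.nd (nat_lit 156) (nat_lit 0) (nat_lit 76) (XT.nd (nat_lit 78) (nat_lit 0) (nat_lit 76) (XT.lf (nat_lit 76) (nat_lit 471653624) (nat_lit 0) (nat_lit 2233653241) (nat_lit 1672) (nat_lit 7939153239) (nat_lit 416) (nat_lit 5) (nat_lit 415) (nat_lit 5) (nat_lit 437) (nat_lit 5) (nat_lit 334) (nat_lit 328) (nat_lit 238)) (XT.lf (nat_lit 0) (nat_lit 4071273321) (nat_lit 1596) (nat_lit 2481182210) (nat_lit 1672) (nat_lit 4238789699) (nat_lit 416) (nat_lit 5) (nat_lit 437) (nat_lit 5) (nat_lit 438) (nat_lit 5) (nat_lit 335) (nat_lit 328) (nat_lit 237))) (XT.nd (nat_lit 78) (nat_lit 0) (nat_lit 76) (XT.lf (nat_lit 76) (nat_lit 5475441867) (nat_lit 0) (nat_lit 18313421) (nat_lit 1672) (nat_lit 5448389394) (nat_lit 417) (nat_lit 5)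 (nat_lit 416) (nat_lit 5) (nat_lit 438) (nat_lit 5) (nat_lit 336) (nat_lit 328) (nat_lit 236)) (XT.lf (nat_lit 76) (nat_lit 2574533907) (nat_lit 0) (nat_lit 4427594949) (nat_lit 1672) (nat_lit 4094598795) (nat_lit 418) (nat_lit 5) (nat_lit 417) (nat_lit 5) (nat_lit 439) (nat_lit 5) (nat_lit 337) (nat_lit 328) (nat_lit 235)))) (XT.nd (nat_lit 156) (nat_lit 1596) (nat_lit 0) (XT.nd (nat_lit 78) (nat_lit 0) (nat_lit 0) (XT.lf (nat_lit 0) (nat_lit 8575014867) (nat_lit 1596) (nat_lit 362089968) (nat_lit 1672) (nat_lit 2318478315) (nat_lit 418) (nat_lit 5) (nat_lit 439) (nat_lit 5) (nat_lit 440) (nat_lit 5) (nat_lit 338) (nat_lit 328) (nat_lit 234)) (XT.lf (nat_lit 76) (nat_lit 8096665886) (nat_lit 0) (nat_lit 2148474030) (nat_lit 1672) (nat_lit 1173083027) (nat_lit 419) (nat_lit 5) (nat_lit 418) (nat_lit 5) (nat_lit 440) (nat_lit 5) (nat_lit 339) (nat_lit 328) (nat_lit 233))) (XT.nd (nat_lit 78) (nat_lit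 0) (nat_lit 76) (XT.lf (nat_lit 0) (nat_lit 411553065) (nat_lit 1672) (nat_lit 6345060247) (nat_lit 1748) (nat_lit 4828359949) (nat_lit 397) (nat_lit 5) (nat_lit 419) (nat_lit 5) (nat_lit 420) (nat_lit 5) (nat_lit 340) (nat_lit 328) (nat_lit 232)) (XT.nd (nat_lit 78) (nat_lit 0) (nat_lit 0) (XT.lf (nat_lit 0) (nat_lit 2051155667) (nat_lit 1672) (nat_lit 9425469117) (nat_lit 1748) (nat_lit 279497106) (nat_lit 398) (nat_lit 5) (nat_lit 420) (nat_lit 5) (nat_lit 421) (nat_lit 5) (nat_lit 341) (nat_lit 328) (nat_lit 231)) (XT.lf (nat_lit 0) (nat_lit 3798472487) (nat_lit 1672) (nat_lit 646932879) (nat_lit 1748) (nat_lit 7485846744) (nat_lit 398) (nat_lit 5) (nat_lit 420) (nat_lit 5) (nat_lit 421) (nat_lit 5) (nat_lit 342) (nat_lit 328) (nat_lit 230)))))) (XT.nd (nat_lit 390) (nat_lit 3496) (nat_lit 0) (XT.nd (nat_lit 156) (nat_lit 3420) (nat_lit 0) (XT.nd (nat_lit 78) (nat_lit 0) (nat_lit 0) (XT.lf (nat_lit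 0) (nat_lit 5642786407) (nat_lit 1672) (nat_lit 3646201593) (nat_lit 1748) (nat_lit 2821773824) (nat_lit 399) (nat_lit 5) (nat_lit 421) (nat_lit 5) (nat_lit 422) (nat_lit 5) (nat_lit 343) (nat_lit 328) (nat_lit 229)) (XT.lf (nat_lit 76) (nat_lit 5583170702) (nat_lit 0) (nat_lit 2001323219) (nat_lit 1748) (nat_lit 4710338267) (nat_lit 400) (nat_lit 5) (nat_lit 399) (nat_lit 5) (nat_lit 422) (nat_lit 5) (nat_lit 344) (nat_lit 328) (nat_lit 228))) (XT.nd (nat_lit 78) (nat_lit 1824) (nat_lit 0) (XT.lf (nat_lit 0) (nat_lit 2630791712) (nat_lit 1672) (nat_lit 7003739435) (nat_lit 1748) (nat_lit 2848908101) (nat_lit 378) (nat_lit 5) (nat_lit 400) (nat_lit 5) (nat_lit 401) (nat_lit 5) (nat_lit 345) (nat_lit 328) (nat_lit 227)) (XT.nd (nat_lit 78) (nat_lit 1824) (nat_lit 0) (XT.lf (nat_lit 0) (nat_lit 11781334190) (nat_lit 1748) (nat_lit 371537930) (nat_lit 76) (nat_lit 524142792) (nat_lit 378) (nat_lit 5)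 (nat_lit 401) (nat_lit 5) (nat_lit 379) (nat_lit 5) (nat_lit 346) (nat_lit 328) (nat_lit 226)) (XT.lf (nat_lit 0) (nat_lit 1184066986) (nat_lit 1824) (nat_lit 3434210256) (nat_lit 76) (nat_lit 8256339362) (nat_lit 354) (nat_lit 5) (nat_lit 378) (nat_lit 5) (nat_lit 355) (nat_lit 5) (nat_lit 347) (nat_lit 328) (nat_lit 225))))) (XT.nd (nat_lit 156) (nat_lit 1672) (nat_lit 0) (XT.nd (nat_lit 78) (nat_lit 912) (nat_lit 0) (XT.lf (nat_lit 0) (nat_lit 3354086464) (nat_lit 988) (nat_lit 6567793237) (nat_lit 76) (nat_lit 3155361768) (nat_lit 342) (nat_lit 5) (nat_lit 355) (nat_lit 5) (nat_lit 343) (nat_lit 5) (nat_lit 348) (nat_lit 328) (nat_lit 224)) (XT.lf (nat_lit 0) (nat_lit 3504989129) (nat_lit 912) (nat_lit 2136190128) (nat_lit 988) (nat_lit 7643740443) (nat_lit 330) (nat_lit 5) (nat_lit 342) (nat_lit 5) (nat_lit 343) (nat_lit 5) (nat_lit 349) (nat_lit 328) (nat_lit 223))) (XT.nd (nat_lit 78) (nat_lit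 836) (nat_lit 0) (XT.lf (nat_lit 0) (nat_lit 415849000) (nat_lit 836) (nat_lit 7642236575) (nat_lit 912) (nat_lit 5439532349) (nat_lit 319) (nat_lit 5) (nat_lit 330) (nat_lit 5) (nat_lit 331) (nat_lit 5) (nat_lit 350) (nat_lit 328) (nat_lit 222)) (XT.nd (nat_lit 78) (nat_lit 836) (nat_lit 0) (XT.lf (nat_lit 0) (nat_lit 10606696149) (nat_lit 912) (nat_lit 2704004855) (nat_lit 76) (nat_lit 404825416) (nat_lit 319) (nat_lit 5) (nat_lit 331) (nat_lit 5) (nat_lit 320) (nat_lit 5) (nat_lit 351) (nat_lit 328) (nat_lit 221)) (XT.lf (nat_lit 0) (nat_lit 8016641645) (nat_lit 836) (nat_lit 5295054954) (nat_lit 912) (nat_lit 626689820) (nat_lit 308) (nat_lit 5) (nat_lit 319) (nat_lit 5) (nat_lit 320) (nat_lit 5) (nat_lit 352) (nat_lit 328) (nat_lit 220))))))) (XT.nd (nat_lit 702) (nat_lit 4864) (nat_lit 0) (XT.nd (nat_lit 312) (nat_lit 2812) (nat_lit 0) (XT.nd (nat_lit 156) (nat_lit 760) (nat_lit 0) (XT.nd (nat_lit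 78) (nat_lit 760) (nat_lit 0) (XT.lf (nat_lit 0) (nat_lit 1952032388) (nat_lit 836) (nat_lit 9228486869) (nat_lit 76) (nat_lit 2986226040) (nat_lit 297) (nat_lit 5) (nat_lit 308) (nat_lit 5) (nat_lit 298) (nat_lit 5) (nat_lit 353) (nat_lit 328) (nat_lit 219)) (XT.lf (nat_lit 0) (nat_lit 1764713919) (nat_lit 760) (nat_lit 2899867529) (nat_lit 836) (nat_lit 9736002957) (nat_lit 287) (nat_lit 5) (nat_lit 297) (nat_lit 5) (nat_lit 298) (nat_lit 5) (nat_lit 354) (nat_lit 328) (nat_lit 218))) (XT.nd (nat_lit 78) (nat_lit 760) (nat_lit 0) (XT.lf (nat_lit 0) (nat_lit 7536178544) (nat_lit 836) (nat_lit 1485729879) (nat_lit 76) (nat_lit 5617988386) (nat_lit 287) (nat_lit 5) (nat_lit 298) (nat_lit 5) (nat_lit 288) (nat_lit 5) (nat_lit 355) (nat_lit 328) (nat_lit 217)) (XT.lf (nat_lit 0) (nat_lit 10089900731) (nat_lit 760) (nat_lit 467735322) (nat_lit 836) (nat_lit 4327489501) (nat_lit 277) (nat_lit 5) (nat_lit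 287) (nat_lit 5) (nat_lit 288) (nat_lit 5) (nat_lit 356) (nat_lit 328) (nat_lit 216)))) (XT.nd (nat_lit 156) (nat_lit 1292) (nat_lit 0) (XT.nd (nat_lit 78) (nat_lit 760) (nat_lit 0) (XT.lf (nat_lit 0) (nat_lit 6910002250) (nat_lit 760) (nat_lit 6848183228) (nat_lit 836) (nat_lit 1377767612) (nat_lit 267) (nat_lit 5) (nat_lit 277) (nat_lit 5) (nat_lit 278) (nat_lit 5) (nat_lit 357) (nat_lit 328) (nat_lit 215)) (XT.lf (nat_lit 0) (nat_lit 1690610308) (nat_lit 760) (nat_lit 11755946186) (nat_lit 76) (nat_lit 1946504882) (nat_lit 257) (nat_lit 5) (nat_lit 267) (nat_lit 5) (nat_lit 258) (nat_lit 5) (nat_lit 358) (nat_lit 328) (nat_lit 214))) (XT.nd (nat_lit 78) (nat_lit 608) (nat_lit 0) (XT.lf (nat_lit 0) (nat_lit 237658047) (nat_lit 684) (nat_lit 4678262850) (nat_lit 760) (nat_lit 10740117943) (nat_lit 248) (nat_lit 5) (nat_lit 257) (nat_lit 5) (nat_lit 258) (nat_lit 5) (nat_lit 359) (nat_lit 328) (nat_lit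 213)) (XT.nd (nat_lit 78) (nat_lit 608) (nat_lit 0) (XT.lf (nat_lit 0) (nat_lit 8326913068) (nat_lit 760) (nat_lit 3224127539) (nat_lit 76) (nat_lit 4374096346) (nat_lit 248) (nat_lit 5) (nat_lit 258) (nat_lit 5) (nat_lit 249) (nat_lit 5) (nat_lit 360) (nat_lit 328) (nat_lit 212)) (XT.lf (nat_lit 0) (nat_lit 9406666789) (nat_lit 608) (nat_lit 2506966615) (nat_lit 684) (nat_lit 4287216125) (nat_lit 240) (nat_lit 5) (nat_lit 248) (nat_lit 5) (nat_lit 249) (nat_lit 5) (nat_lit 361) (nat_lit 328) (nat_lit 211)))))) (XT.nd (nat_lit 390) (nat_lit 2356) (nat_lit 0) (XT.nd (nat_lit 156) (nat_lit 1140) (nat_lit 0) (XT.nd (nat_lit 78) (nat_lit 684) (nat_lit 0) (XT.lf (nat_lit 0) (nat_lit 5988928787) (nat_lit 684) (nat_lit 9705546041) (nat_lit 760) (nat_lit 788637476) (nat_lit 231) (nat_lit 5) (nat_lit 240) (nat_lit 5) (nat_lit 241) (nat_lit 5) (nat_lit 362) (nat_lit 328) (nat_lit 210)) (XT.lf (nat_lit 0) (nat_lit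 2451118777) (nat_lit 608) (nat_lit 387598855) (nat_lit 684) (nat_lit 13933553834) (nat_lit 222) (nat_lit 5) (nat_lit 230) (nat_lit 5) (nat_lit 231) (nat_lit 5) (nat_lit 363) (nat_lit 328) (nat_lit 209))) (XT.nd (nat_lit 78) (nat_lit 1140) (nat_lit 0) (XT.lf (nat_lit 0) (nat_lit 6677709377) (nat_lit 684) (nat_lit 1227092734) (nat_lit 76) (nat_lit 9162936937) (nat_lit 222) (nat_lit 5) (nat_lit 231) (nat_lit 5) (nat_lit 223) (nat_lit 5) (nat_lit 364) (nat_lit 328) (nat_lit 208)) (XT.nd (nat_lit 78) (nat_lit 532) (nat_lit 0) (XT.lf (nat_lit 0) (nat_lit 10708625547) (nat_lit 684) (nat_lit 4982672457) (nat_lit 76) (nat_lit 1679245824) (nat_lit 214) (nat_lit 5) (nat_lit 223) (nat_lit 5) (nat_lit 215) (nat_lit 5) (nat_lit 365) (nat_lit 328) (nat_lit 207)) (XT.lf (nat_lit 0) (nat_lit 8787480758) (nat_lit 532) (nat_lit 6174240089) (nat_lit 608) (nat_lit 2718694894) (nat_lit 207) (nat_lit 5) (nat_lit 214) (nat_lit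 5) (nat_lit 215) (nat_lit 5) (nat_lit 366) (nat_lit 328) (nat_lit 206))))) (XT.nd (nat_lit 156) (nat_lit 1140) (nat_lit 0) (XT.nd (nat_lit 78) (nat_lit 532) (nat_lit 0) (XT.lf (nat_lit 0) (nat_lit 1399410185) (nat_lit 684) (nat_lit 12945329885) (nat_lit 76) (nat_lit 3653193080) (nat_lit 198) (nat_lit 5) (nat_lit 207) (nat_lit 5) (nat_lit 199) (nat_lit 5) (nat_lit 367) (nat_lit 328) (nat_lit 205)) (XT.lf (nat_lit 0) (nat_lit 1149127062) (nat_lit 532) (nat_lit 4548160173) (nat_lit 608) (nat_lit 12625473547) (nat_lit 191) (nat_lit 5) (nat_lit 198) (nat_lit 5) (nat_lit 199) (nat_lit 5) (nat_lit 368) (nat_lit 328) (nat_lit 204))) (XT.nd (nat_lit 78) (nat_lit 1140) (nat_lit 0) (XT.lf (nat_lit 0) (nat_lit 10232252589) (nat_lit 608) (nat_lit 2869036831) (nat_lit 76) (nat_lit 5553887981) (nat_lit 191) (nat_lit 5) (nat_lit 199) (nat_lit 5) (nat_lit 192) (nat_lit 5) (nat_lit 369) (nat_lit 328) (nat_lit 203))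 (XT.nd (nat_lit 78) (nat_lit 608) (nat_lit 0) (XT.lf (nat_lit 0) (nat_lit 11971378383) (nat_lit 532) (nat_lit 3024365175) (nat_lit 608) (nat_lit 3999980416) (nat_lit 184) (nat_lit 5) (nat_lit 191) (nat_lit 5) (nat_lit 192) (nat_lit 5) (nat_lit 370) (nat_lit 328) (nat_lit 202)) (XT.lf (nat_lit 0) (nat_lit 652863093) (nat_lit 608) (nat_lit 11361534583) (nat_lit 76) (nat_lit 7329933801) (nat_lit 176) (nat_lit 5) (nat_lit 184) (nat_lit 5) (nat_lit 177) (nat_lit 5) (nat_lit 371) (nat_lit 328) (nat_lit 201))))))))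
noncomputable def xc101 : XT := (XT.nd (nat_lit 44304) (nat_lit 0) (nat_lit 10260) (XT.nd (nat_lit 43524) (nat_lit 0) (nat_lit 21356) (XT.nd (nat_lit 312) (nat_lit 1824) (nat_lit 0) (XT.nd (nat_lit 156) (nat_lit 988) (nat_lit 0) (XT.nd (nat_lit 78) (nat_lit 0) (nat_lit 0) (XT.lf (nat_lit 0) (nat_lit 3816868537) (nat_lit 532) (nat_lit 1652161280) (nat_lit 608) (nat_lit 14232283411) (nat_lit 169) (nat_lit 5) (nat_lit 176) (nat_lit 5) (nat_lit 177) (nat_lit 5) (nat_lit 372) (nat_lit 328) (nat_lit 200)) (XT.lf (nat_lit 0) (nat_lit 10550886691) (nat_lit 608) (nat_lit 540113735) (nat_lit 76) (nat_lit 8975586174) (nat_lit 169) (nat_lit 5) (nat_lit 177) (nat_lit 5) (nat_lit 170) (nat_lit 5) (nat_lit 373) (nat_lit 328) (nat_lit 199))) (XT.nd (nat_lit 78) (nat_lit 532) (nat_lit 0) (XT.lf (nat_lit 0) (nat_lit 15436817661) (nat_lit 456) (nat_lit 445225333) (nat_lit 532) (nat_lit 4558844391) (nat_lit 163) (nat_lit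 5) (nat_lit 169) (nat_lit 5) (nat_lit 170) (nat_lit 5) (nat_lit 374) (nat_lit 328) (nat_lit 198)) (XT.lf (nat_lit 0) (nat_lit 670506247) (nat_lit 532) (nat_lit 9695530260) (nat_lit 76) (nat_lit 10457696294) (nat_lit 156) (nat_lit 5) (nat_lit 163) (nat_lit 5) (nat_lit 157) (nat_lit 5) (nat_lit 375) (nat_lit 328) (nat_lit 197)))) (XT.nd (nat_lit 156) (nat_lit 912) (nat_lit 0) (XT.nd (nat_lit 78) (nat_lit 456) (nat_lit 0) (XT.lf (nat_lit 0) (nat_lit 6065030938) (nat_lit 532) (nat_lit 14589976792) (nat_lit 76) (nat_lit 561054188) (nat_lit 150) (nat_lit 5) (nat_lit 157) (nat_lit 5) (nat_lit 151) (nat_lit 5) (nat_lit 376) (nat_lit 328) (nat_lit 196)) (XT.lf (nat_lit 0) (nat_lit 1887305174) (nat_lit 456) (nat_lit 9868080277) (nat_lit 532) (nat_lit 9862101039) (nat_lit 144) (nat_lit 5) (nat_lit 150) (nat_lit 5) (nat_lit 151) (nat_lit 5) (nat_lit 377) (nat_lit 328) (nat_lit 195))) (XT.nd (nat_lit 78) (nat_lit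 912) (nat_lit 0) (XT.lf (nat_lit 0) (nat_lit 17710566822) (nat_lit 532) (nat_lit 2997922192) (nat_lit 76) (nat_lit 1320587764) (nat_lit 144) (nat_lit 5) (nat_lit 151) (nat_lit 5) (nat_lit 145) (nat_lit 5) (nat_lit 378) (nat_lit 328) (nat_lit 194)) (XT.nd (nat_lit 78) (nat_lit 456) (nat_lit 0) (XT.lf (nat_lit 0) (nat_lit 1520120826) (nat_lit 456) (nat_lit 8120005866) (nat_lit 76) (nat_lit 12809772847) (nat_lit 138) (nat_lit 5) (nat_lit 144) (nat_lit 5) (nat_lit 139) (nat_lit 5) (nat_lit 379) (nat_lit 328) (nat_lit 193)) (XT.lf (nat_lit 0) (nat_lit 7556352189) (nat_lit 532) (nat_lit 13481634226) (nat_lit 76) (nat_lit 1843172297) (nat_lit 132) (nat_lit 5) (nat_lit 139) (nat_lit 5) (nat_lit 133) (nat_lit 5) (nat_lit 380) (nat_lit 328) (nat_lit 192)))))) (XT.nd (nat_lit 390) (nat_lit 0) (nat_lit 152) (XT.nd (nat_lit 156) (nat_lit 1520) (nat_lit 0) (XT.nd (nat_lit 78) (nat_lit 0) (nat_lit 0) (XT.lf (nat_lit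 0) (nat_lit 3912795538) (nat_lit 1596) (nat_lit 566519129) (nat_lit 1596) (nat_lit 566519129) (nat_lit 433) (nat_lit 3) (nat_lit 454) (nat_lit 3) (nat_lit 454) (nat_lit 5) (nat_lit 329) (nat_lit 329) (nat_lit 242)) (XT.lf (nat_lit 76) (nat_lit 6000910604) (nat_lit 0) (nat_lit 2974403496) (nat_lit 1596) (nat_lit 1246449227) (nat_lit 434) (nat_lit 5) (nat_lit 433) (nat_lit 3) (nat_lit 454) (nat_lit 5) (nat_lit 330) (nat_lit 329) (nat_lit 241))) (XT.nd (nat_lit 78) (nat_lit 1596) (nat_lit 0) (XT.lf (nat_lit 76) (nat_lit 3006478671) (nat_lit 0) (nat_lit 7162229739) (nat_lit 1596) (nat_lit 186894617) (nat_lit 435) (nat_lit 5) (nat_lit 434) (nat_lit 5) (nat_lit 455) (nat_lit 5) (nat_lit 331) (nat_lit 329) (nat_lit 240)) (XT.nd (nat_lit 78) (nat_lit 0) (nat_lit 76) (XT.lf (nat_lit 0) (nat_lit 903212150) (nat_lit 1596) (nat_lit 31594367) (nat_lit 1672) (nat_lit 9558344899) (nat_lit 413) (nat_lit 5) (nat_lit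 434) (nat_lit 5) (nat_lit 435) (nat_lit 5) (nat_lit 332) (nat_lit 329) (nat_lit 239)) (XT.lf (nat_lit 0) (nat_lit 2071802551) (nat_lit 1596) (nat_lit 3087474629) (nat_lit 1672) (nat_lit 5474580791) (nat_lit 414) (nat_lit 5) (nat_lit 435) (nat_lit 5) (nat_lit 436) (nat_lit 5) (nat_lit 333) (nat_lit 329) (nat_lit 238))))) (XT.nd (nat_lit 156) (nat_lit 0) (nat_lit 76) (XT.nd (nat_lit 78) (nat_lit 0) (nat_lit 0) (XT.lf (nat_lit 0) (nat_lit 3284565391) (nat_lit 1596) (nat_lit 6180980381) (nat_lit 1672) (nat_lit 1313079802) (nat_lit 415) (nat_lit 5) (nat_lit 436) (nat_lit 5) (nat_lit 437) (nat_lit 5) (nat_lit 334) (nat_lit 329) (nat_lit 237)) (XT.lf (nat_lit 76) (nat_lit 1592985338) (nat_lit 0) (nat_lit 2971735803) (nat_lit 1672) (nat_lit 6362416365) (nat_lit 416) (nat_lit 5) (nat_lit 415) (nat_lit 5) (nat_lit 437) (nat_lit 5) (nat_lit 335) (nat_lit 329) (nat_lit 236))) (XT.nd (nat_lit 78) (nat_lit 0) (nat_lit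 0) (XT.lf (nat_lit 0) (nat_lit 5915642607) (nat_lit 1596) (nat_lit 1440864708) (nat_lit 1672) (nat_lit 3722971136) (nat_lit 416) (nat_lit 5) (nat_lit 437) (nat_lit 5) (nat_lit 438) (nat_lit 5) (nat_lit 336) (nat_lit 329) (nat_lit 235)) (XT.nd (nat_lit 78) (nat_lit 0) (nat_lit 76) (XT.lf (nat_lit 76) (nat_lit 6736372549) (nat_lit 0) (nat_lit 601384707) (nat_lit 1672) (nat_lit 3898039327) (nat_lit 417) (nat_lit 5) (nat_lit 416) (nat_lit 5) (nat_lit 438) (nat_lit 5) (nat_lit 337) (nat_lit 329) (nat_lit 234)) (XT.lf (nat_lit 76) (nat_lit 3768416877) (nat_lit 0) (nat_lit 5077634780) (nat_lit 1672) (nat_lit 2549901951) (nat_lit 418) (nat_lit 5) (nat_lit 417) (nat_lit 5) (nat_lit 439) (nat_lit 5) (nat_lit 338) (nat_lit 329) (nat_lit 233))))))) (XT.nd (nat_lit 780) (nat_lit 6612) (nat_lit 0) (XT.nd (nat_lit 390) (nat_lit 3192) (nat_lit 0) (XT.nd (nat_lit 156) (nat_lit 0) (nat_lit 76) (XT.nd (nat_lit 78) (nat_lit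 1672) (nat_lit 0) (XT.lf (nat_lit 76) (nat_lit 757054794) (nat_lit 0) (nat_lit 9663136357) (nat_lit 1672) (nat_lit 1140331372) (nat_lit 419) (nat_lit 5) (nat_lit 418) (nat_lit 5) (nat_lit 440) (nat_lit 5) (nat_lit 339) (nat_lit 329) (nat_lit 232)) (XT.lf (nat_lit 0) (nat_lit 362783539) (nat_lit 1672) (nat_lit 2289861376) (nat_lit 1748) (nat_lit 9076254463) (nat_lit 396) (nat_lit 5) (nat_lit 418) (nat_lit 5) (nat_lit 419) (nat_lit 5) (nat_lit 340) (nat_lit 329) (nat_lit 231))) (XT.nd (nat_lit 78) (nat_lit 0) (nat_lit 0) (XT.lf (nat_lit 0) (nat_lit 1938316850) (nat_lit 1672) (nat_lit 5396230338) (nat_lit 1748) (nat_lit 4566790901) (nat_lit 397) (nat_lit 5) (nat_lit 419) (nat_lit 5) (nat_lit 420) (nat_lit 5) (nat_lit 341) (nat_lit 329) (nat_lit 230)) (XT.nd (nat_lit 78) (nat_lit 0) (nat_lit 76) (XT.lf (nat_lit 76) (nat_lit 3523204044) (nat_lit 0) (nat_lit 65176614) (nat_lit 1748) (nat_lit 8490041155)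 (nat_lit 398) (nat_lit 5) (nat_lit 397) (nat_lit 5) (nat_lit 420) (nat_lit 5) (nat_lit 342) (nat_lit 329) (nat_lit 229)) (XT.lf (nat_lit 76) (nat_lit 459529234) (nat_lit 0) (nat_lit 4888179201) (nat_lit 1748) (nat_lit 6911931013) (nat_lit 399) (nat_lit 5) (nat_lit 398) (nat_lit 5) (nat_lit 421) (nat_lit 5) (nat_lit 343) (nat_lit 329) (nat_lit 228))))) (XT.nd (nat_lit 156) (nat_lit 3420) (nat_lit 0) (XT.nd (nat_lit 78) (nat_lit 0) (nat_lit 0) (XT.lf (nat_lit 0) (nat_lit 7207881379) (nat_lit 1672) (nat_lit 2623215606) (nat_lit 1748) (nat_lit 2614251475) (nat_lit 399) (nat_lit 5) (nat_lit 421) (nat_lit 5) (nat_lit 422) (nat_lit 5) (nat_lit 344) (nat_lit 329) (nat_lit 227)) (XT.lf (nat_lit 76) (nat_lit 6864666467) (nat_lit 0) (nat_lit 2309751783) (nat_lit 1748) (nat_lit 3461215007) (nat_lit 400) (nat_lit 5) (nat_lit 399) (nat_lit 5) (nat_lit 422) (nat_lit 5) (nat_lit 345) (nat_lit 329) (nat_lit 226)))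 (XT.nd (nat_lit 78) (nat_lit 1824) (nat_lit 0) (XT.lf (nat_lit 0) (nat_lit 3834818230) (nat_lit 1672) (nat_lit 7417196294) (nat_lit 1748) (nat_lit 1578586033) (nat_lit 378) (nat_lit 5) (nat_lit 400) (nat_lit 5) (nat_lit 401) (nat_lit 5) (nat_lit 346) (nat_lit 329) (nat_lit 225)) (XT.nd (nat_lit 78) (nat_lit 0) (nat_lit 0) (XT.lf (nat_lit 0) (nat_lit 392178729) (nat_lit 1824) (nat_lit 12286011900) (nat_lit 76) (nat_lit 352466224) (nat_lit 354) (nat_lit 5) (nat_lit 378) (nat_lit 5) (nat_lit 355) (nat_lit 5) (nat_lit 347) (nat_lit 329) (nat_lit 224)) (XT.lf (nat_lit 0) (nat_lit 2486739269) (nat_lit 1824) (nat_lit 2417695723) (nat_lit 76) (nat_lit 8330362838) (nat_lit 354) (nat_lit 5) (nat_lit 378) (nat_lit 5) (nat_lit 355) (nat_lit 5) (nat_lit 348) (nat_lit 329) (nat_lit 223)))))) (XT.nd (nat_lit 390) (nat_lit 3040) (nat_lit 0) (XT.nd (nat_lit 156) (nat_lit 1748) (nat_lit 0) (XT.nd (nat_lit 78) (nat_lit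 912) (nat_lit 0) (XT.lf (nat_lit 0) (nat_lit 4691219809) (nat_lit 988) (nat_lit 5637124967) (nat_lit 76) (nat_lit 3115790260) (nat_lit 342) (nat_lit 5) (nat_lit 355) (nat_lit 5) (nat_lit 343) (nat_lit 5) (nat_lit 349) (nat_lit 329) (nat_lit 222)) (XT.lf (nat_lit 0) (nat_lit 4719545243) (nat_lit 912) (nat_lit 2298568268) (nat_lit 988) (nat_lit 6640526537) (nat_lit 330) (nat_lit 5) (nat_lit 342) (nat_lit 5) (nat_lit 343) (nat_lit 5) (nat_lit 350) (nat_lit 329) (nat_lit 221))) (XT.nd (nat_lit 78) (nat_lit 912) (nat_lit 0) (XT.lf (nat_lit 0) (nat_lit 1544784384) (nat_lit 836) (nat_lit 7934196146) (nat_lit 912) (nat_lit 4399329229) (nat_lit 319) (nat_lit 5) (nat_lit 330) (nat_lit 5) (nat_lit 331) (nat_lit 5) (nat_lit 351) (nat_lit 329) (nat_lit 220)) (XT.nd (nat_lit 78) (nat_lit 912) (nat_lit 0) (XT.lf (nat_lit 0) (nat_lit 12069309992) (nat_lit 912) (nat_lit 1677257372) (nat_lit 76) (nat_lit 356901974)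 (nat_lit 319) (nat_lit 5) (nat_lit 331) (nat_lit 5) (nat_lit 320) (nat_lit 5) (nat_lit 352) (nat_lit 329) (nat_lit 219)) (XT.lf (nat_lit 0) (nat_lit 489145127) (nat_lit 912) (nat_lit 4989742117) (nat_lit 76) (nat_lit 8854607138) (nat_lit 307) (nat_lit 5) (nat_lit 319) (nat_lit 5) (nat_lit 308) (nat_lit 5) (nat_lit 353) (nat_lit 329) (nat_lit 218))))) (XT.nd (nat_lit 156) (nat_lit 1520) (nat_lit 0) (XT.nd (nat_lit 78) (nat_lit 760) (nat_lit 0) (XT.lf (nat_lit 0) (nat_lit 3110939414) (nat_lit 836) (nat_lit 8395133455) (nat_lit 76) (nat_lit 3063081409) (nat_lit 297) (nat_lit 5) (nat_lit 308) (nat_lit 5) (nat_lit 298) (nat_lit 5) (nat_lit 354) (nat_lit 329) (nat_lit 217)) (XT.lf (nat_lit 0) (nat_lit 2909851551) (nat_lit 760) (nat_lit 2970055744) (nat_lit 836) (nat_lit 8930617498) (nat_lit 287) (nat_lit 5) (nat_lit 297) (nat_lit 5) (nat_lit 298) (nat_lit 5) (nat_lit 355) (nat_lit 329) (nat_lit 216))) (XT.nd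 (nat_lit 78) (nat_lit 1520) (nat_lit 0) (XT.lf (nat_lit 0) (nat_lit 8806436260) (nat_lit 836) (nat_lit 448588930) (nat_lit 76) (nat_lit 5802632284) (nat_lit 287) (nat_lit 5) (nat_lit 298) (nat_lit 5) (nat_lit 288) (nat_lit 5) (nat_lit 356) (nat_lit 329) (nat_lit 215)) (XT.nd (nat_lit 78) (nat_lit 760) (nat_lit 0) (XT.lf (nat_lit 0) (nat_lit 11456761093) (nat_lit 760) (nat_lit 438272869) (nat_lit 836) (nat_lit 3415695292) (nat_lit 277) (nat_lit 5) (nat_lit 287) (nat_lit 5) (nat_lit 288) (nat_lit 5) (nat_lit 357) (nat_lit 329) (nat_lit 214)) (XT.lf (nat_lit 0) (nat_lit 8184533236) (nat_lit 760) (nat_lit 6984541757) (nat_lit 836) (nat_lit 400472752) (nat_lit 267) (nat_lit 5) (nat_lit 277) (nat_lit 5) (nat_lit 278) (nat_lit 5) (nat_lit 358) (nat_lit 329) (nat_lit 213))))))))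
noncomputable def xc102 : XT := (XT.nd (nat_lit 1482) (nat_lit 912) (nat_lit 0) (XT.nd (nat_lit 702) (nat_lit 4332) (nat_lit 0) (XT.nd (nat_lit 312) (nat_lit 2508) (nat_lit 0) (XT.nd (nat_lit 156) (nat_lit 608) (nat_lit 0) (XT.nd (nat_lit 78) (nat_lit 684) (nat_lit 0) (XT.lf (nat_lit 0) (nat_lit 2724746450) (nat_lit 760) (nat_lit 11025432809) (nat_lit 76) (nat_lit 2084509638) (nat_lit 257) (nat_lit 5) (nat_lit 267) (nat_lit 5) (nat_lit 258) (nat_lit 5) (nat_lit 359) (nat_lit 329) (nat_lit 212)) (XT.lf (nat_lit 0) (nat_lit 1310406052) (nat_lit 684) (nat_lit 4714685768) (nat_lit 760) (nat_lit 10080912801) (nat_lit 248) (nat_lit 5) (nat_lit 257) (nat_lit 5) (nat_lit 258) (nat_lit 5) (nat_lit 360) (nat_lit 329) (nat_lit 211))) (XT.nd (nat_lit 78) (nat_lit 608) (nat_lit 0) (XT.lf (nat_lit 0) (nat_lit 9511058369) (nat_lit 760) (nat_lit 2267784473) (nat_lit 76) (nat_lit 4604893968) (nat_lit 248) (nat_lit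 5) (nat_lit 258) (nat_lit 5) (nat_lit 249) (nat_lit 5) (nat_lit 361) (nat_lit 329) (nat_lit 210)) (XT.lf (nat_lit 0) (nat_lit 10724848925) (nat_lit 608) (nat_lit 2460043948) (nat_lit 684) (nat_lit 3483251256) (nat_lit 240) (nat_lit 5) (nat_lit 248) (nat_lit 5) (nat_lit 249) (nat_lit 5) (nat_lit 362) (nat_lit 329) (nat_lit 209)))) (XT.nd (nat_lit 156) (nat_lit 1140) (nat_lit 0) (XT.nd (nat_lit 78) (nat_lit 608) (nat_lit 0) (XT.lf (nat_lit 0) (nat_lit 99452149) (nat_lit 760) (nat_lit 9754506498) (nat_lit 76) (nat_lit 7105298582) (nat_lit 230) (nat_lit 5) (nat_lit 240) (nat_lit 5) (nat_lit 231) (nat_lit 5) (nat_lit 363) (nat_lit 329) (nat_lit 208)) (XT.lf (nat_lit 0) (nat_lit 3556858411) (nat_lit 608) (nat_lit 248572356) (nat_lit 684) (nat_lit 13451958377) (nat_lit 222) (nat_lit 5) (nat_lit 230) (nat_lit 5) (nat_lit 231) (nat_lit 5) (nat_lit 364) (nat_lit 329) (nat_lit 207))) (XT.nd (nat_lit 78) (nat_lit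 1140) (nat_lit 0) (XT.lf (nat_lit 0) (nat_lit 7734865662) (nat_lit 684) (nat_lit 245188634) (nat_lit 76) (nat_lit 9582173205) (nat_lit 222) (nat_lit 5) (nat_lit 231) (nat_lit 5) (nat_lit 223) (nat_lit 5) (nat_lit 365) (nat_lit 329) (nat_lit 206)) (XT.nd (nat_lit 78) (nat_lit 532) (nat_lit 0) (XT.lf (nat_lit 0) (nat_lit 11869323714) (nat_lit 684) (nat_lit 4113863933) (nat_lit 76) (nat_lit 1891288350) (nat_lit 214) (nat_lit 5) (nat_lit 223) (nat_lit 5) (nat_lit 215) (nat_lit 5) (nat_lit 366) (nat_lit 329) (nat_lit 205)) (XT.lf (nat_lit 0) (nat_lit 10052873353) (nat_lit 532) (nat_lit 6179192973) (nat_lit 608) (nat_lit 1961948169) (nat_lit 207) (nat_lit 5) (nat_lit 214) (nat_lit 5) (nat_lit 215) (nat_lit 5) (nat_lit 367) (nat_lit 329) (nat_lit 204)))))) (XT.nd (nat_lit 390) (nat_lit 1976) (nat_lit 0) (XT.nd (nat_lit 156) (nat_lit 1140) (nat_lit 0) (XT.nd (nat_lit 78) (nat_lit 532) (nat_lit 0) (XT.lf (nat_lit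 0) (nat_lit 2252294484) (nat_lit 684) (nat_lit 12321642828) (nat_lit 76) (nat_lit 3947350439) (nat_lit 198) (nat_lit 5) (nat_lit 207) (nat_lit 5) (nat_lit 199) (nat_lit 5) (nat_lit 368) (nat_lit 329) (nat_lit 203)) (XT.lf (nat_lit 0) (nat_lit 2179228569) (nat_lit 532) (nat_lit 4482725047) (nat_lit 608) (nat_lit 12194260320) (nat_lit 191) (nat_lit 5) (nat_lit 198) (nat_lit 5) (nat_lit 199) (nat_lit 5) (nat_lit 369) (nat_lit 329) (nat_lit 202))) (XT.nd (nat_lit 78) (nat_lit 1140) (nat_lit 0) (XT.lf (nat_lit 0) (nat_lit 11311121626) (nat_lit 608) (nat_lit 1973994707) (nat_lit 76) (nat_lit 5913933979) (nat_lit 191) (nat_lit 5) (nat_lit 199) (nat_lit 5) (nat_lit 192) (nat_lit 5) (nat_lit 370) (nat_lit 329) (nat_lit 201)) (XT.nd (nat_lit 78) (nat_lit 608) (nat_lit 0) (XT.lf (nat_lit 0) (nat_lit 13295715566) (nat_lit 532) (nat_lit 2905585882) (nat_lit 608) (nat_lit 3348846181) (nat_lit 184) (nat_lit 5) (nat_lit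 191) (nat_lit 5) (nat_lit 192) (nat_lit 5) (nat_lit 371) (nat_lit 329) (nat_lit 200)) (XT.lf (nat_lit 0) (nat_lit 1418929278) (nat_lit 608) (nat_lit 10728746141) (nat_lit 76) (nat_lit 7761738150) (nat_lit 176) (nat_lit 5) (nat_lit 184) (nat_lit 5) (nat_lit 177) (nat_lit 5) (nat_lit 372) (nat_lit 329) (nat_lit 199))))) (XT.nd (nat_lit 156) (nat_lit 988) (nat_lit 0) (XT.nd (nat_lit 78) (nat_lit 456) (nat_lit 0) (XT.lf (nat_lit 0) (nat_lit 4889213010) (nat_lit 532) (nat_lit 1474844771) (nat_lit 608) (nat_lit 13913366724) (nat_lit 169) (nat_lit 5) (nat_lit 176) (nat_lit 5) (nat_lit 177) (nat_lit 5) (nat_lit 373) (nat_lit 329) (nat_lit 198)) (XT.lf (nat_lit 0) (nat_lit 391825080) (nat_lit 456) (nat_lit 11189229416) (nat_lit 532) (nat_lit 9072956898) (nat_lit 163) (nat_lit 5) (nat_lit 169) (nat_lit 5) (nat_lit 170) (nat_lit 5) (nat_lit 374) (nat_lit 329) (nat_lit 197))) (XT.nd (nat_lit 78) (nat_lit 988)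 (nat_lit 0) (XT.lf (nat_lit 0) (nat_lit 16827626453) (nat_lit 456) (nat_lit 227286749) (nat_lit 532) (nat_lit 3984981384) (nat_lit 163) (nat_lit 5) (nat_lit 169) (nat_lit 5) (nat_lit 170) (nat_lit 5) (nat_lit 375) (nat_lit 329) (nat_lit 196)) (XT.nd (nat_lit 78) (nat_lit 456) (nat_lit 0) (XT.lf (nat_lit 0) (nat_lit 1379017501) (nat_lit 532) (nat_lit 9051805800) (nat_lit 76) (nat_lit 11003576347) (nat_lit 156) (nat_lit 5) (nat_lit 163) (nat_lit 5) (nat_lit 157) (nat_lit 5) (nat_lit 376) (nat_lit 329) (nat_lit 195)) (XT.lf (nat_lit 0) (nat_lit 6922888530) (nat_lit 532) (nat_lit 14096084335) (nat_lit 76) (nat_lit 819783637) (nat_lit 150) (nat_lit 5) (nat_lit 157) (nat_lit 5) (nat_lit 151) (nat_lit 5) (nat_lit 377) (nat_lit 329) (nat_lit 194))))))) (XT.nd (nat_lit 43602) (nat_lit 0) (nat_lit 19608) (XT.nd (nat_lit 43212) (nat_lit 0) (nat_lit 20824) (XT.nd (nat_lit 156) (nat_lit 456) (nat_lit 0) (XT.nd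 (nat_lit 78) (nat_lit 0) (nat_lit 0) (XT.lf (nat_lit 0) (nat_lit 2860402121) (nat_lit 456) (nat_lit 9909815337) (nat_lit 532) (nat_lit 9482288917) (nat_lit 144) (nat_lit 5) (nat_lit 150) (nat_lit 5) (nat_lit 151) (nat_lit 5) (nat_lit 378) (nat_lit 329) (nat_lit 193)) (XT.lf (nat_lit 0) (nat_lit 18886370793) (nat_lit 532) (nat_lit 2186567266) (nat_lit 76) (nat_lit 1603867592) (nat_lit 144) (nat_lit 5) (nat_lit 151) (nat_lit 5) (nat_lit 145) (nat_lit 5) (nat_lit 379) (nat_lit 329) (nat_lit 192))) (XT.nd (nat_lit 42978) (nat_lit 0) (nat_lit 22420) (XT.lf (nat_lit 0) (nat_lit 2201621811) (nat_lit 456) (nat_lit 7468243638) (nat_lit 76) (nat_lit 13440571657) (nat_lit 138) (nat_lit 5) (nat_lit 144) (nat_lit 5) (nat_lit 139) (nat_lit 5) (nat_lit 380) (nat_lit 329) (nat_lit 191)) (XT.lf (nat_lit 0) (nat_lit 5014007720) (nat_lit 1596) (nat_lit 81449053) (nat_lit 1596) (nat_lit 81449053) (nat_lit 433) (nat_lit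 3) (nat_lit 454) (nat_lit 3) (nat_lit 454) (nat_lit 5) (nat_lit 330) (nat_lit 330) (nat_lit 240)))) (XT.nd (nat_lit 156) (nat_lit 0) (nat_lit 76) (XT.nd (nat_lit 78) (nat_lit 0) (nat_lit 76) (XT.lf (nat_lit 0) (nat_lit 663649248) (nat_lit 1596) (nat_lit 3324452416) (nat_lit 1672) (nat_lit 6500675699) (nat_lit 412) (nat_lit 5) (nat_lit 433) (nat_lit 3) (nat_lit 434) (nat_lit 5) (nat_lit 331) (nat_lit 330) (nat_lit 239)) (XT.lf (nat_lit 0) (nat_lit 1685194967) (nat_lit 1596) (nat_lit 6525613333) (nat_lit 1672) (nat_lit 2416826620) (nat_lit 413) (nat_lit 5) (nat_lit 434) (nat_lit 5) (nat_lit 435) (nat_lit 5) (nat_lit 332) (nat_lit 330) (nat_lit 238))) (XT.nd (nat_lit 78) (nat_lit 0) (nat_lit 76) (XT.lf (nat_lit 76) (nat_lit 992843104) (nat_lit 0) (nat_lit 1764466685) (nat_lit 1672) (nat_lit 8012972105) (nat_lit 414) (nat_lit 5) (nat_lit 413) (nat_lit 5) (nat_lit 435) (nat_lit 5) (nat_lit 333) (nat_lit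 330) (nat_lit 237)) (XT.nd (nat_lit 78) (nat_lit 0) (nat_lit 76) (XT.lf (nat_lit 0) (nat_lit 3902900475) (nat_lit 1596) (nat_lit 2142536419) (nat_lit 1672) (nat_lit 4870966638) (nat_lit 414) (nat_lit 5) (nat_lit 435) (nat_lit 5) (nat_lit 436) (nat_lit 5) (nat_lit 334) (nat_lit 330) (nat_lit 236)) (XT.lf (nat_lit 0) (nat_lit 5102584400) (nat_lit 1596) (nat_lit 5305573663) (nat_lit 1672) (nat_lit 658377122) (nat_lit 415) (nat_lit 5) (nat_lit 436) (nat_lit 5) (nat_lit 437) (nat_lit 5) (nat_lit 335) (nat_lit 330) (nat_lit 235)))))) (XT.nd (nat_lit 390) (nat_lit 0) (nat_lit 0) (XT.nd (nat_lit 156) (nat_lit 1444) (nat_lit 0) (XT.nd (nat_lit 78) (nat_lit 0) (nat_lit 76) (XT.lf (nat_lit 76) (nat_lit 2684400221) (nat_lit 0) (nat_lit 3693438509) (nat_lit 1672) (nat_lit 4842560728) (nat_lit 416) (nat_lit 5) (nat_lit 415) (nat_lit 5) (nat_lit 437) (nat_lit 5) (nat_lit 336) (nat_lit 330) (nat_lit 234)) (XT.lf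 (nat_lit 0) (nat_lit 7716479863) (nat_lit 1596) (nat_lit 433329062) (nat_lit 1672) (nat_lit 3228587827) (nat_lit 416) (nat_lit 5) (nat_lit 437) (nat_lit 5) (nat_lit 438) (nat_lit 5) (nat_lit 337) (nat_lit 330) (nat_lit 233))) (XT.nd (nat_lit 78) (nat_lit 1520) (nat_lit 0) (XT.lf (nat_lit 76) (nat_lit 7972177954) (nat_lit 0) (nat_lit 1168508992) (nat_lit 1672) (nat_lit 2399557988) (nat_lit 417) (nat_lit 5) (nat_lit 416) (nat_lit 5) (nat_lit 438) (nat_lit 5) (nat_lit 338) (nat_lit 330) (nat_lit 232)) (XT.nd (nat_lit 78) (nat_lit 1596) (nat_lit 0) (XT.lf (nat_lit 76) (nat_lit 4934016232) (nat_lit 0) (nat_lit 5717485722) (nat_lit 1672) (nat_lit 1054587522) (nat_lit 418) (nat_lit 5) (nat_lit 417) (nat_lit 5) (nat_lit 439) (nat_lit 5) (nat_lit 339) (nat_lit 330) (nat_lit 231)) (XT.lf (nat_lit 0) (nat_lit 350777868) (nat_lit 1672) (nat_lit 10029171620) (nat_lit 1748) (nat_lit 1496446906) (nat_lit 396) (nat_lit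 5) (nat_lit 418) (nat_lit 5) (nat_lit 419) (nat_lit 5) (nat_lit 340) (nat_lit 330) (nat_lit 230))))) (XT.nd (nat_lit 156) (nat_lit 0) (nat_lit 76) (XT.nd (nat_lit 78) (nat_lit 0) (nat_lit 76) (XT.lf (nat_lit 0) (nat_lit 1839603805) (nat_lit 1672) (nat_lit 1299553100) (nat_lit 1748) (nat_lit 8911420791) (nat_lit 396) (nat_lit 5) (nat_lit 418) (nat_lit 5) (nat_lit 419) (nat_lit 5) (nat_lit 341) (nat_lit 330) (nat_lit 229)) (XT.lf (nat_lit 0) (nat_lit 3423949807) (nat_lit 1672) (nat_lit 4484329222) (nat_lit 1748) (nat_lit 4320704944) (nat_lit 397) (nat_lit 5) (nat_lit 419) (nat_lit 5) (nat_lit 420) (nat_lit 5) (nat_lit 342) (nat_lit 330) (nat_lit 228))) (XT.nd (nat_lit 78) (nat_lit 0) (nat_lit 76) (XT.lf (nat_lit 76) (nat_lit 4685267256) (nat_lit 0) (nat_lit 403529721) (nat_lit 1748) (nat_lit 7323302202) (nat_lit 398) (nat_lit 5) (nat_lit 397) (nat_lit 5) (nat_lit 420) (nat_lit 5) (nat_lit 343) (nat_lit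 330) (nat_lit 227)) (XT.nd (nat_lit 78) (nat_lit 0) (nat_lit 76) (XT.lf (nat_lit 76) (nat_lit 1542902650) (nat_lit 0) (nat_lit 5322259938) (nat_lit 1748) (nat_lit 5734329477) (nat_lit 399) (nat_lit 5) (nat_lit 398) (nat_lit 5) (nat_lit 421) (nat_lit 5) (nat_lit 344) (nat_lit 330) (nat_lit 226)) (XT.lf (nat_lit 0) (nat_lit 8739803917) (nat_lit 1672) (nat_lit 1634542827) (nat_lit 1748) (nat_lit 2417275529) (nat_lit 399) (nat_lit 5) (nat_lit 421) (nat_lit 5) (nat_lit 422) (nat_lit 5) (nat_lit 345) (nat_lit 330) (nat_lit 225))))))))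
noncomputable def xc103 : XT := (XT.nd (nat_lit 1482) (nat_lit 6536) (nat_lit 0) (XT.nd (nat_lit 702) (nat_lit 5852) (nat_lit 0) (XT.nd (nat_lit 312) (nat_lit 3572) (nat_lit 0) (XT.nd (nat_lit 156) (nat_lit 1824) (nat_lit 0) (XT.nd (nat_lit 78) (nat_lit 1596) (nat_lit 0) (XT.lf (nat_lit 76) (nat_lit 8120658910) (nat_lit 0) (nat_lit 2613174666) (nat_lit 1748) (nat_lit 2254434614) (nat_lit 400) (nat_lit 5) (nat_lit 399) (nat_lit 5) (nat_lit 422) (nat_lit 5) (nat_lit 346) (nat_lit 330) (nat_lit 224)) (XT.lf (nat_lit 0) (nat_lit 5010380043) (nat_lit 1672) (nat_lit 7831384043) (nat_lit 1748) (nat_lit 347982155) (nat_lit 378) (nat_lit 5) (nat_lit 400) (nat_lit 5) (nat_lit 401) (nat_lit 5) (nat_lit 347) (nat_lit 330) (nat_lit 223))) (XT.nd (nat_lit 78) (nat_lit 0) (nat_lit 0) (XT.lf (nat_lit 0) (nat_lit 1634187076) (nat_lit 1824) (nat_lit 11567659402) (nat_lit 76) (nat_lit 194431760) (nat_lit 354) (nat_lit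 5) (nat_lit 378) (nat_lit 5) (nat_lit 355) (nat_lit 5) (nat_lit 348) (nat_lit 330) (nat_lit 222)) (XT.lf (nat_lit 0) (nat_lit 3755752112) (nat_lit 1824) (nat_lit 1434951978) (nat_lit 76) (nat_lit 8416576198) (nat_lit 354) (nat_lit 5) (nat_lit 378) (nat_lit 5) (nat_lit 355) (nat_lit 5) (nat_lit 349) (nat_lit 330) (nat_lit 221)))) (XT.nd (nat_lit 156) (nat_lit 1748) (nat_lit 0) (XT.nd (nat_lit 78) (nat_lit 912) (nat_lit 0) (XT.lf (nat_lit 0) (nat_lit 5997486379) (nat_lit 988) (nat_lit 4743271360) (nat_lit 76) (nat_lit 3082737094) (nat_lit 342) (nat_lit 5) (nat_lit 355) (nat_lit 5) (nat_lit 343) (nat_lit 5) (nat_lit 350) (nat_lit 330) (nat_lit 220)) (XT.lf (nat_lit 0) (nat_lit 5906853573) (nat_lit 912) (nat_lit 2460175365) (nat_lit 988) (nat_lit 5677968256) (nat_lit 330) (nat_lit 5) (nat_lit 342) (nat_lit 5) (nat_lit 343) (nat_lit 5) (nat_lit 351) (nat_lit 330) (nat_lit 219))) (XT.nd (nat_lit 78) (nat_lit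 912) (nat_lit 0) (XT.lf (nat_lit 0) (nat_lit 2643498464) (nat_lit 836) (nat_lit 8231315700) (nat_lit 912) (nat_lit 3396999473) (nat_lit 319) (nat_lit 5) (nat_lit 330) (nat_lit 5) (nat_lit 331) (nat_lit 5) (nat_lit 352) (nat_lit 330) (nat_lit 218)) (XT.nd (nat_lit 78) (nat_lit 912) (nat_lit 0) (XT.lf (nat_lit 0) (nat_lit 13510108265) (nat_lit 912) (nat_lit 683303599) (nat_lit 76) (nat_lit 310988989) (nat_lit 319) (nat_lit 5) (nat_lit 331) (nat_lit 5) (nat_lit 320) (nat_lit 5) (nat_lit 353) (nat_lit 330) (nat_lit 217)) (XT.lf (nat_lit 0) (nat_lit 1565342639) (nat_lit 912) (nat_lit 4097428490) (nat_lit 76) (nat_lit 9078928245) (nat_lit 307) (nat_lit 5) (nat_lit 319) (nat_lit 5) (nat_lit 308) (nat_lit 5) (nat_lit 354) (nat_lit 330) (nat_lit 216)))))) (XT.nd (nat_lit 390) (nat_lit 2736) (nat_lit 0) (XT.nd (nat_lit 156) (nat_lit 1596) (nat_lit 0) (XT.nd (nat_lit 78) (nat_lit 760) (nat_lit 0) (XT.lf (nat_lit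 0) (nat_lit 4241449287) (nat_lit 836) (nat_lit 7600509920) (nat_lit 76) (nat_lit 3142973274) (nat_lit 297) (nat_lit 5) (nat_lit 308) (nat_lit 5) (nat_lit 298) (nat_lit 5) (nat_lit 355) (nat_lit 330) (nat_lit 215)) (XT.lf (nat_lit 0) (nat_lit 4026646781) (nat_lit 760) (nat_lit 3043314442) (nat_lit 836) (nat_lit 8164069488) (nat_lit 287) (nat_lit 5) (nat_lit 297) (nat_lit 5) (nat_lit 298) (nat_lit 5) (nat_lit 356) (nat_lit 330) (nat_lit 214))) (XT.nd (nat_lit 78) (nat_lit 836) (nat_lit 0) (XT.lf (nat_lit 0) (nat_lit 564981335) (nat_lit 760) (nat_lit 9493548841) (nat_lit 836) (nat_lit 5430577947) (nat_lit 277) (nat_lit 5) (nat_lit 287) (nat_lit 5) (nat_lit 288) (nat_lit 5) (nat_lit 357) (nat_lit 330) (nat_lit 213)) (XT.nd (nat_lit 78) (nat_lit 836) (nat_lit 0) (XT.lf (nat_lit 0) (nat_lit 12803539936) (nat_lit 760) (nat_lit 410423305) (nat_lit 836) (nat_lit 2536340442) (nat_lit 277) (nat_lit 5) (nat_lit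 287) (nat_lit 5) (nat_lit 288) (nat_lit 5) (nat_lit 358) (nat_lit 330) (nat_lit 212)) (XT.lf (nat_lit 0) (nat_lit 540484786) (nat_lit 836) (nat_lit 6584845192) (nat_lit 76) (nat_lit 8891925006) (nat_lit 266) (nat_lit 5) (nat_lit 277) (nat_lit 5) (nat_lit 267) (nat_lit 5) (nat_lit 359) (nat_lit 330) (nat_lit 211))))) (XT.nd (nat_lit 156) (nat_lit 1368) (nat_lit 0) (XT.nd (nat_lit 78) (nat_lit 684) (nat_lit 0) (XT.lf (nat_lit 0) (nat_lit 3733454470) (nat_lit 760) (nat_lit 10335183668) (nat_lit 76) (nat_lit 2222084619) (nat_lit 257) (nat_lit 5) (nat_lit 267) (nat_lit 5) (nat_lit 258) (nat_lit 5) (nat_lit 360) (nat_lit 330) (nat_lit 210)) (XT.lf (nat_lit 0) (nat_lit 2354165649) (nat_lit 684) (nat_lit 4758167091) (nat_lit 760) (nat_lit 9458268378) (nat_lit 248) (nat_lit 5) (nat_lit 257) (nat_lit 5) (nat_lit 258) (nat_lit 5) (nat_lit 361) (nat_lit 330) (nat_lit 209))) (XT.nd (nat_lit 78) (nat_lit 1368)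 (nat_lit 0) (XT.lf (nat_lit 0) (nat_lit 10677093210) (nat_lit 760) (nat_lit 1343201464) (nat_lit 76) (nat_lit 4836899521) (nat_lit 248) (nat_lit 5) (nat_lit 258) (nat_lit 5) (nat_lit 249) (nat_lit 5) (nat_lit 362) (nat_lit 330) (nat_lit 208)) (XT.nd (nat_lit 78) (nat_lit 760) (nat_lit 0) (XT.lf (nat_lit 0) (nat_lit 12023106912) (nat_lit 608) (nat_lit 2418724458) (nat_lit 684) (nat_lit 2708701426) (nat_lit 240) (nat_lit 5) (nat_lit 248) (nat_lit 5) (nat_lit 249) (nat_lit 5) (nat_lit 363) (nat_lit 330) (nat_lit 207)) (XT.lf (nat_lit 0) (nat_lit 951804490) (nat_lit 760) (nat_lit 9058143146) (nat_lit 76) (nat_lit 7440692717) (nat_lit 230) (nat_lit 5) (nat_lit 240) (nat_lit 5) (nat_lit 231) (nat_lit 5) (nat_lit 364) (nat_lit 330) (nat_lit 206))))))) (XT.nd (nat_lit 780) (nat_lit 1900) (nat_lit 0) (XT.nd (nat_lit 390) (nat_lit 2204) (nat_lit 0) (XT.nd (nat_lit 156) (nat_lit 1216) (nat_lit 0) (XT.nd (nat_lit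 78) (nat_lit 608) (nat_lit 0) (XT.lf (nat_lit 0) (nat_lit 4636517383) (nat_lit 608) (nat_lit 114023244) (nat_lit 684) (nat_lit 13007555896) (nat_lit 222) (nat_lit 5) (nat_lit 230) (nat_lit 5) (nat_lit 231) (nat_lit 5) (nat_lit 365) (nat_lit 330) (nat_lit 205)) (XT.lf (nat_lit 0) (nat_lit 717098953) (nat_lit 608) (nat_lit 8062108305) (nat_lit 684) (nat_lit 9293257315) (nat_lit 214) (nat_lit 5) (nat_lit 222) (nat_lit 5) (nat_lit 223) (nat_lit 5) (nat_lit 366) (nat_lit 330) (nat_lit 204))) (XT.nd (nat_lit 78) (nat_lit 1216) (nat_lit 0) (XT.lf (nat_lit 0) (nat_lit 13016655571) (nat_lit 684) (nat_lit 3277445091) (nat_lit 76) (nat_lit 2100411910) (nat_lit 214) (nat_lit 5) (nat_lit 223) (nat_lit 5) (nat_lit 215) (nat_lit 5) (nat_lit 367) (nat_lit 330) (nat_lit 203)) (XT.nd (nat_lit 78) (nat_lit 684) (nat_lit 0) (XT.lf (nat_lit 0) (nat_lit 11298722135) (nat_lit 532) (nat_lit 6194642926) (nat_lit 608) (nat_lit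 1230621326) (nat_lit 207) (nat_lit 5) (nat_lit 214) (nat_lit 5) (nat_lit 215) (nat_lit 5) (nat_lit 368) (nat_lit 330) (nat_lit 202)) (XT.lf (nat_lit 0) (nat_lit 3084216221) (nat_lit 684) (nat_lit 11737340793) (nat_lit 76) (nat_lit 4239737930) (nat_lit 198) (nat_lit 5) (nat_lit 207) (nat_lit 5) (nat_lit 199) (nat_lit 5) (nat_lit 369) (nat_lit 330) (nat_lit 201))))) (XT.nd (nat_lit 156) (nat_lit 1672) (nat_lit 0) (XT.nd (nat_lit 78) (nat_lit 0) (nat_lit 0) (XT.lf (nat_lit 0) (nat_lit 3183080019) (nat_lit 532) (nat_lit 4426915602) (nat_lit 608) (nat_lit 11796606715) (nat_lit 191) (nat_lit 5) (nat_lit 198) (nat_lit 5) (nat_lit 199) (nat_lit 5) (nat_lit 370) (nat_lit 330) (nat_lit 200)) (XT.lf (nat_lit 0) (nat_lit 12378046432) (nat_lit 608) (nat_lit 1108421233) (nat_lit 76) (nat_lit 6273677720) (nat_lit 191) (nat_lit 5) (nat_lit 199) (nat_lit 5) (nat_lit 192) (nat_lit 5) (nat_lit 371) (nat_lit 330) (nat_lit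 199))) (XT.nd (nat_lit 78) (nat_lit 1140) (nat_lit 0) (XT.lf (nat_lit 0) (nat_lit 14604376676) (nat_lit 532) (nat_lit 2795269956) (nat_lit 608) (nat_lit 2722444146) (nat_lit 184) (nat_lit 5) (nat_lit 191) (nat_lit 5) (nat_lit 192) (nat_lit 5) (nat_lit 372) (nat_lit 330) (nat_lit 198)) (XT.nd (nat_lit 78) (nat_lit 532) (nat_lit 0) (XT.lf (nat_lit 0) (nat_lit 2165126425) (nat_lit 608) (nat_lit 10132864647) (nat_lit 76) (nat_lit 8194332338) (nat_lit 176) (nat_lit 5) (nat_lit 184) (nat_lit 5) (nat_lit 177) (nat_lit 5) (nat_lit 373) (nat_lit 330) (nat_lit 197)) (XT.lf (nat_lit 0) (nat_lit 5938743974) (nat_lit 532) (nat_lit 1305232684) (nat_lit 608) (nat_lit 13627699398) (nat_lit 169) (nat_lit 5) (nat_lit 176) (nat_lit 5) (nat_lit 177) (nat_lit 5) (nat_lit 374) (nat_lit 330) (nat_lit 196)))))) (XT.nd (nat_lit 390) (nat_lit 0) (nat_lit 0) (XT.nd (nat_lit 156) (nat_lit 1444) (nat_lit 0) (XT.nd (nat_lit 78)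 (nat_lit 0) (nat_lit 0) (XT.lf (nat_lit 0) (nat_lit 1304263583) (nat_lit 456) (nat_lit 11300347713) (nat_lit 532) (nat_lit 8655215178) (nat_lit 163) (nat_lit 5) (nat_lit 169) (nat_lit 5) (nat_lit 170) (nat_lit 5) (nat_lit 375) (nat_lit 330) (nat_lit 195)) (XT.lf (nat_lit 0) (nat_lit 18206905489) (nat_lit 456) (nat_lit 16087307) (nat_lit 532) (nat_lit 3434695460) (nat_lit 163) (nat_lit 5) (nat_lit 169) (nat_lit 5) (nat_lit 170) (nat_lit 5) (nat_lit 376) (nat_lit 330) (nat_lit 194))) (XT.nd (nat_lit 78) (nat_lit 912) (nat_lit 0) (XT.lf (nat_lit 0) (nat_lit 2069267343) (nat_lit 532) (nat_lit 8442418918) (nat_lit 76) (nat_lit 11552506490) (nat_lit 156) (nat_lit 5) (nat_lit 163) (nat_lit 5) (nat_lit 157) (nat_lit 5) (nat_lit 377) (nat_lit 330) (nat_lit 193)) (XT.nd (nat_lit 78) (nat_lit 456) (nat_lit 0) (XT.lf (nat_lit 0) (nat_lit 7767682042) (nat_lit 532) (nat_lit 13640852282) (nat_lit 76) (nat_lit 1072389045)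 (nat_lit 150) (nat_lit 5) (nat_lit 157) (nat_lit 5) (nat_lit 151) (nat_lit 5) (nat_lit 378) (nat_lit 330) (nat_lit 192)) (XT.lf (nat_lit 0) (nat_lit 3810082401) (nat_lit 456) (nat_lit 9967400732) (nat_lit 532) (nat_lit 9129868948) (nat_lit 144) (nat_lit 5) (nat_lit 150) (nat_lit 5) (nat_lit 151) (nat_lit 5) (nat_lit 379) (nat_lit 330) (nat_lit 191))))) (XT.nd (nat_lit 43134) (nat_lit 0) (nat_lit 20368) (XT.nd (nat_lit 43056) (nat_lit 0) (nat_lit 20368) (XT.lf (nat_lit 0) (nat_lit 20060452695) (nat_lit 532) (nat_lit 1402609574) (nat_lit 76) (nat_lit 1881658608) (nat_lit 144) (nat_lit 5) (nat_lit 151) (nat_lit 5) (nat_lit 145) (nat_lit 5) (nat_lit 380) (nat_lit 330) (nat_lit 190)) (XT.lf (nat_lit 0) (nat_lit 386790972) (nat_lit 0) (nat_lit 386790972) (nat_lit 1596) (nat_lit 4539290636) (nat_lit 412) (nat_lit 5) (nat_lit 412) (nat_lit 3) (nat_lit 433) (nat_lit 3) (nat_lit 331) (nat_lit 331) (nat_lit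 238))) (XT.nd (nat_lit 78) (nat_lit 0) (nat_lit 76) (XT.lf (nat_lit 0) (nat_lit 2503385405) (nat_lit 1596) (nat_lit 2467743033) (nat_lit 1672) (nat_lit 5794791673) (nat_lit 412) (nat_lit 5) (nat_lit 433) (nat_lit 3) (nat_lit 434) (nat_lit 5) (nat_lit 332) (nat_lit 331) (nat_lit 237)) (XT.nd (nat_lit 78) (nat_lit 0) (nat_lit 0) (XT.lf (nat_lit 0) (nat_lit 3503280019) (nat_lit 1596) (nat_lit 5738504076) (nat_lit 1672) (nat_lit 1668237989) (nat_lit 413) (nat_lit 5) (nat_lit 434) (nat_lit 5) (nat_lit 435) (nat_lit 5) (nat_lit 333) (nat_lit 331) (nat_lit 236)) (XT.lf (nat_lit 76) (nat_lit 1989560032) (nat_lit 0) (nat_lit 2572794782) (nat_lit 1672) (nat_lit 6495529508) (nat_lit 414) (nat_lit 5) (nat_lit 413) (nat_lit 5) (nat_lit 435) (nat_lit 5) (nat_lit 334) (nat_lit 331) (nat_lit 235))))))))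
noncomputable def xc104 : XT := (XT.nd (nat_lit 1482) (nat_lit 9728) (nat_lit 0) (XT.nd (nat_lit 702) (nat_lit 5776) (nat_lit 0) (XT.nd (nat_lit 312) (nat_lit 1444) (nat_lit 0) (XT.nd (nat_lit 156) (nat_lit 0) (nat_lit 76) (XT.nd (nat_lit 78) (nat_lit 0) (nat_lit 76) (XT.lf (nat_lit 0) (nat_lit 5687386724) (nat_lit 1596) (nat_lit 1228810392) (nat_lit 1672) (nat_lit 4293321883) (nat_lit 414) (nat_lit 5) (nat_lit 435) (nat_lit 5) (nat_lit 436) (nat_lit 5) (nat_lit 335) (nat_lit 331) (nat_lit 234)) (XT.lf (nat_lit 0) (nat_lit 6876438677) (nat_lit 1596) (nat_lit 4464801078) (nat_lit 1672) (nat_lit 23877258) (nat_lit 415) (nat_lit 5) (nat_lit 436) (nat_lit 5) (nat_lit 437) (nat_lit 5) (nat_lit 336) (nat_lit 331) (nat_lit 233))) (XT.nd (nat_lit 78) (nat_lit 0) (nat_lit 76) (XT.lf (nat_lit 76) (nat_lit 3748649188) (nat_lit 0) (nat_lit 4400481301) (nat_lit 1672) (nat_lit 3375312214) (nat_lit 416) (nat_lit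 5) (nat_lit 415) (nat_lit 5) (nat_lit 437) (nat_lit 5) (nat_lit 337) (nat_lit 331) (nat_lit 232)) (XT.lf (nat_lit 76) (nat_lit 551345636) (nat_lit 0) (nat_lit 8930388338) (nat_lit 1672) (nat_lit 2206398122) (nat_lit 417) (nat_lit 5) (nat_lit 416) (nat_lit 5) (nat_lit 438) (nat_lit 5) (nat_lit 338) (nat_lit 331) (nat_lit 231)))) (XT.nd (nat_lit 156) (nat_lit 0) (nat_lit 76) (XT.nd (nat_lit 78) (nat_lit 1596) (nat_lit 0) (XT.lf (nat_lit 76) (nat_lit 9185718097) (nat_lit 0) (nat_lit 1721127409) (nat_lit 1672) (nat_lit 948854071) (nat_lit 417) (nat_lit 5) (nat_lit 416) (nat_lit 5) (nat_lit 438) (nat_lit 5) (nat_lit 339) (nat_lit 331) (nat_lit 230)) (XT.lf (nat_lit 0) (nat_lit 390172740) (nat_lit 1672) (nat_lit 5955755436) (nat_lit 1748) (nat_lit 5681372069) (nat_lit 395) (nat_lit 5) (nat_lit 417) (nat_lit 5) (nat_lit 418) (nat_lit 5) (nat_lit 340) (nat_lit 331) (nat_lit 229))) (XT.nd (nat_lit 78) (nat_lit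 0) (nat_lit 0) (XT.lf (nat_lit 0) (nat_lit 1784540776) (nat_lit 1672) (nat_lit 9301887431) (nat_lit 1748) (nat_lit 1116950696) (nat_lit 396) (nat_lit 5) (nat_lit 418) (nat_lit 5) (nat_lit 419) (nat_lit 5) (nat_lit 341) (nat_lit 331) (nat_lit 228)) (XT.nd (nat_lit 78) (nat_lit 0) (nat_lit 76) (XT.lf (nat_lit 0) (nat_lit 3276577911) (nat_lit 1672) (nat_lit 340326745) (nat_lit 1748) (nat_lit 8766734660) (nat_lit 396) (nat_lit 5) (nat_lit 418) (nat_lit 5) (nat_lit 419) (nat_lit 5) (nat_lit 342) (nat_lit 331) (nat_lit 227)) (XT.lf (nat_lit 0) (nat_lit 4872208363) (nat_lit 1672) (nat_lit 3606710898) (nat_lit 1748) (nat_lit 4089227322) (nat_lit 397) (nat_lit 5) (nat_lit 419) (nat_lit 5) (nat_lit 420) (nat_lit 5) (nat_lit 343) (nat_lit 331) (nat_lit 226)))))) (XT.nd (nat_lit 390) (nat_lit 4408) (nat_lit 0) (XT.nd (nat_lit 156) (nat_lit 1520) (nat_lit 0) (XT.nd (nat_lit 78) (nat_lit 0) (nat_lit 76) (XT.lf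 (nat_lit 76) (nat_lit 5821552572) (nat_lit 0) (nat_lit 732722811) (nat_lit 1748) (nat_lit 6203157562) (nat_lit 398) (nat_lit 5) (nat_lit 397) (nat_lit 5) (nat_lit 420) (nat_lit 5) (nat_lit 344) (nat_lit 331) (nat_lit 225)) (XT.lf (nat_lit 76) (nat_lit 2597378568) (nat_lit 0) (nat_lit 5752863132) (nat_lit 1748) (nat_lit 4600902235) (nat_lit 399) (nat_lit 5) (nat_lit 398) (nat_lit 5) (nat_lit 421) (nat_lit 5) (nat_lit 345) (nat_lit 331) (nat_lit 224))) (XT.nd (nat_lit 78) (nat_lit 1672) (nat_lit 0) (XT.lf (nat_lit 0) (nat_lit 10242158367) (nat_lit 1672) (nat_lit 677481225) (nat_lit 1748) (nat_lit 2230199592) (nat_lit 399) (nat_lit 5) (nat_lit 421) (nat_lit 5) (nat_lit 422) (nat_lit 5) (nat_lit 346) (nat_lit 331) (nat_lit 223)) (XT.nd (nat_lit 78) (nat_lit 1672) (nat_lit 0) (XT.lf (nat_lit 76) (nat_lit 9354053821) (nat_lit 0) (nat_lit 2912260196) (nat_lit 1748) (nat_lit 1086685579) (nat_lit 400) (nat_lit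 5) (nat_lit 399) (nat_lit 5) (nat_lit 422) (nat_lit 5) (nat_lit 347) (nat_lit 331) (nat_lit 222)) (XT.lf (nat_lit 0) (nat_lit 835081824) (nat_lit 1748) (nat_lit 7406309012) (nat_lit 76) (nat_lit 5319645016) (nat_lit 377) (nat_lit 5) (nat_lit 400) (nat_lit 5) (nat_lit 378) (nat_lit 5) (nat_lit 348) (nat_lit 331) (nat_lit 221))))) (XT.nd (nat_lit 156) (nat_lit 2660) (nat_lit 0) (XT.nd (nat_lit 78) (nat_lit 0) (nat_lit 0) (XT.lf (nat_lit 0) (nat_lit 2842834693) (nat_lit 1824) (nat_lit 10890150722) (nat_lit 76) (nat_lit 41335076) (nat_lit 354) (nat_lit 5) (nat_lit 378) (nat_lit 5) (nat_lit 355) (nat_lit 5) (nat_lit 349) (nat_lit 331) (nat_lit 220)) (XT.lf (nat_lit 0) (nat_lit 4994271282) (nat_lit 1824) (nat_lit 483303001) (nat_lit 76) (nat_lit 8514772866) (nat_lit 354) (nat_lit 5) (nat_lit 378) (nat_lit 5) (nat_lit 355) (nat_lit 5) (nat_lit 350) (nat_lit 331) (nat_lit 219))) (XT.nd (nat_lit 78) (nat_lit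 1748) (nat_lit 0) (XT.lf (nat_lit 0) (nat_lit 7276034758) (nat_lit 988) (nat_lit 3883620821) (nat_lit 76) (nat_lit 3055955493) (nat_lit 342) (nat_lit 5) (nat_lit 355) (nat_lit 5) (nat_lit 343) (nat_lit 5) (nat_lit 351) (nat_lit 331) (nat_lit 218)) (XT.nd (nat_lit 78) (nat_lit 836) (nat_lit 0) (XT.lf (nat_lit 0) (nat_lit 7069752434) (nat_lit 912) (nat_lit 2621312182) (nat_lit 988) (nat_lit 4753223811) (nat_lit 330) (nat_lit 5) (nat_lit 342) (nat_lit 5) (nat_lit 343) (nat_lit 5) (nat_lit 352) (nat_lit 331) (nat_lit 217)) (XT.lf (nat_lit 0) (nat_lit 3714763591) (nat_lit 836) (nat_lit 8533956622) (nat_lit 912) (nat_lit 2429713837) (nat_lit 319) (nat_lit 5) (nat_lit 330) (nat_lit 5) (nat_lit 331) (nat_lit 5) (nat_lit 353) (nat_lit 331) (nat_lit 216))))))) (XT.nd (nat_lit 702) (nat_lit 4332) (nat_lit 0) (XT.nd (nat_lit 312) (nat_lit 2964) (nat_lit 0) (XT.nd (nat_lit 156) (nat_lit 1520) (nat_lit 0) (XT.nd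 (nat_lit 78) (nat_lit 0) (nat_lit 0) (XT.lf (nat_lit 0) (nat_lit 15254232) (nat_lit 912) (nat_lit 14634445217) (nat_lit 76) (nat_lit 268894742) (nat_lit 307) (nat_lit 5) (nat_lit 319) (nat_lit 5) (nat_lit 308) (nat_lit 5) (nat_lit 354) (nat_lit 331) (nat_lit 215)) (XT.lf (nat_lit 0) (nat_lit 2612890305) (nat_lit 912) (nat_lit 3238160856) (nat_lit 76) (nat_lit 9312350756) (nat_lit 307) (nat_lit 5) (nat_lit 319) (nat_lit 5) (nat_lit 308) (nat_lit 5) (nat_lit 355) (nat_lit 331) (nat_lit 214))) (XT.nd (nat_lit 78) (nat_lit 760) (nat_lit 0) (XT.lf (nat_lit 0) (nat_lit 5346335983) (nat_lit 836) (nat_lit 6842119771) (nat_lit 76) (nat_lit 3225950777) (nat_lit 297) (nat_lit 5) (nat_lit 308) (nat_lit 5) (nat_lit 298) (nat_lit 5) (nat_lit 356) (nat_lit 331) (nat_lit 213)) (XT.lf (nat_lit 0) (nat_lit 5117848375) (nat_lit 760) (nat_lit 3119680352) (nat_lit 836) (nat_lit 7433907649) (nat_lit 287) (nat_lit 5) (nat_lit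 297) (nat_lit 5) (nat_lit 298) (nat_lit 5) (nat_lit 357) (nat_lit 331) (nat_lit 212)))) (XT.nd (nat_lit 156) (nat_lit 2204) (nat_lit 0) (XT.nd (nat_lit 78) (nat_lit 0) (nat_lit 0) (XT.lf (nat_lit 0) (nat_lit 1555790980) (nat_lit 760) (nat_lit 9738551665) (nat_lit 836) (nat_lit 4640266441) (nat_lit 277) (nat_lit 5) (nat_lit 287) (nat_lit 5) (nat_lit 288) (nat_lit 5) (nat_lit 358) (nat_lit 331) (nat_lit 211)) (XT.lf (nat_lit 0) (nat_lit 14133141478) (nat_lit 760) (nat_lit 384091693) (nat_lit 836) (nat_lit 1686965758) (nat_lit 277) (nat_lit 5) (nat_lit 287) (nat_lit 5) (nat_lit 288) (nat_lit 5) (nat_lit 359) (nat_lit 331) (nat_lit 210))) (XT.nd (nat_lit 78) (nat_lit 1368) (nat_lit 0) (XT.lf (nat_lit 0) (nat_lit 1449867283) (nat_lit 836) (nat_lit 5821846091) (nat_lit 76) (nat_lit 9207742023) (nat_lit 266) (nat_lit 5) (nat_lit 277) (nat_lit 5) (nat_lit 267) (nat_lit 5) (nat_lit 360) (nat_lit 331) (nat_lit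 209)) (XT.nd (nat_lit 78) (nat_lit 684) (nat_lit 0) (XT.lf (nat_lit 0) (nat_lit 4719212112) (nat_lit 760) (nat_lit 9682837326) (nat_lit 76) (nat_lit 2359479265) (nat_lit 257) (nat_lit 5) (nat_lit 267) (nat_lit 5) (nat_lit 258) (nat_lit 5) (nat_lit 361) (nat_lit 331) (nat_lit 208)) (XT.lf (nat_lit 0) (nat_lit 3371578644) (nat_lit 684) (nat_lit 4808576116) (nat_lit 760) (nat_lit 8870047528) (nat_lit 248) (nat_lit 5) (nat_lit 257) (nat_lit 5) (nat_lit 258) (nat_lit 5) (nat_lit 362) (nat_lit 331) (nat_lit 207)))))) (XT.nd (nat_lit 390) (nat_lit 1748) (nat_lit 0) (XT.nd (nat_lit 156) (nat_lit 1976) (nat_lit 0) (XT.nd (nat_lit 78) (nat_lit 608) (nat_lit 0) (XT.lf (nat_lit 0) (nat_lit 11827553137) (nat_lit 760) (nat_lit 447861214) (nat_lit 76) (nat_lit 5070477365) (nat_lit 248) (nat_lit 5) (nat_lit 258) (nat_lit 5) (nat_lit 249) (nat_lit 5) (nat_lit 363) (nat_lit 331) (nat_lit 206)) (XT.lf (nat_lit 0) (nat_lit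 13304256826) (nat_lit 608) (nat_lit 2382773788) (nat_lit 684) (nat_lit 1961376016) (nat_lit 240) (nat_lit 5) (nat_lit 248) (nat_lit 5) (nat_lit 249) (nat_lit 5) (nat_lit 364) (nat_lit 331) (nat_lit 205))) (XT.nd (nat_lit 78) (nat_lit 1216) (nat_lit 0) (XT.lf (nat_lit 0) (nat_lit 1780970158) (nat_lit 760) (nat_lit 8397661457) (nat_lit 76) (nat_lit 7779131876) (nat_lit 230) (nat_lit 5) (nat_lit 240) (nat_lit 5) (nat_lit 231) (nat_lit 5) (nat_lit 365) (nat_lit 331) (nat_lit 204)) (XT.nd (nat_lit 78) (nat_lit 608) (nat_lit 0) (XT.lf (nat_lit 0) (nat_lit 5676410579) (nat_lit 684) (nat_lit 12582193733) (nat_lit 76) (nat_lit 16195370) (nat_lit 222) (nat_lit 5) (nat_lit 231) (nat_lit 5) (nat_lit 223) (nat_lit 5) (nat_lit 366) (nat_lit 331) (nat_lit 203)) (XT.lf (nat_lit 0) (nat_lit 1655757202) (nat_lit 608) (nat_lit 8154058908) (nat_lit 684) (nat_lit 8789115940) (nat_lit 214) (nat_lit 5) (nat_lit 222) (nat_lit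 5) (nat_lit 223) (nat_lit 5) (nat_lit 367) (nat_lit 331) (nat_lit 202))))) (XT.nd (nat_lit 156) (nat_lit 1216) (nat_lit 0) (XT.nd (nat_lit 78) (nat_lit 532) (nat_lit 0) (XT.lf (nat_lit 0) (nat_lit 14152986274) (nat_lit 684) (nat_lit 2471032125) (nat_lit 76) (nat_lit 2307061661) (nat_lit 214) (nat_lit 5) (nat_lit 223) (nat_lit 5) (nat_lit 215) (nat_lit 5) (nat_lit 368) (nat_lit 331) (nat_lit 201)) (XT.lf (nat_lit 0) (nat_lit 12527741846) (nat_lit 532) (nat_lit 6220310816) (nat_lit 608) (nat_lit 522714546) (nat_lit 207) (nat_lit 5) (nat_lit 214) (nat_lit 5) (nat_lit 215) (nat_lit 5) (nat_lit 369) (nat_lit 331) (nat_lit 200))) (XT.nd (nat_lit 78) (nat_lit 532) (nat_lit 0) (XT.lf (nat_lit 0) (nat_lit 3897218626) (nat_lit 684) (nat_lit 11190270406) (nat_lit 76) (nat_lit 4530910629) (nat_lit 198) (nat_lit 5) (nat_lit 207) (nat_lit 5) (nat_lit 199) (nat_lit 5) (nat_lit 370) (nat_lit 331) (nat_lit 199)) (XT.nd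 (nat_lit 78) (nat_lit 0) (nat_lit 0) (XT.lf (nat_lit 0) (nat_lit 4163174731) (nat_lit 532) (nat_lit 4380355366) (nat_lit 608) (nat_lit 11430850459) (nat_lit 191) (nat_lit 5) (nat_lit 198) (nat_lit 5) (nat_lit 199) (nat_lit 5) (nat_lit 371) (nat_lit 331) (nat_lit 198)) (XT.lf (nat_lit 0) (nat_lit 13435212273) (nat_lit 608) (nat_lit 269967474) (nat_lit 76) (nat_lit 6633747531) (nat_lit 191) (nat_lit 5) (nat_lit 199) (nat_lit 5) (nat_lit 192) (nat_lit 5) (nat_lit 372) (nat_lit 331) (nat_lit 197))))))))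
noncomputable def xc105 : XT := (XT.nd (nat_lit 44616) (nat_lit 0) (nat_lit 7448) (XT.nd (nat_lit 43836) (nat_lit 0) (nat_lit 18544) (XT.nd (nat_lit 312) (nat_lit 988) (nat_lit 0) (XT.nd (nat_lit 156) (nat_lit 988) (nat_lit 0) (XT.nd (nat_lit 78) (nat_lit 608) (nat_lit 0) (XT.lf (nat_lit 0) (nat_lit 15900071971) (nat_lit 532) (nat_lit 2692980912) (nat_lit 608) (nat_lit 2118975213) (nat_lit 184) (nat_lit 5) (nat_lit 191) (nat_lit 5) (nat_lit 192) (nat_lit 5) (nat_lit 373) (nat_lit 331) (nat_lit 196)) (XT.lf (nat_lit 0) (nat_lit 2893318288) (nat_lit 608) (nat_lit 9571788962) (nat_lit 76) (nat_lit 8628438343) (nat_lit 176) (nat_lit 5) (nat_lit 184) (nat_lit 5) (nat_lit 177) (nat_lit 5) (nat_lit 374) (nat_lit 331) (nat_lit 195))) (XT.nd (nat_lit 78) (nat_lit 456) (nat_lit 0) (XT.lf (nat_lit 0) (nat_lit 6967933321) (nat_lit 532) (nat_lit 1142808525) (nat_lit 608) (nat_lit 13373821050) (nat_lit 169) (nat_lit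 5) (nat_lit 176) (nat_lit 5) (nat_lit 177) (nat_lit 5) (nat_lit 375) (nat_lit 331) (nat_lit 194)) (XT.lf (nat_lit 0) (nat_lit 2192372308) (nat_lit 456) (nat_lit 11427690140) (nat_lit 532) (nat_lit 8264546036) (nat_lit 163) (nat_lit 5) (nat_lit 169) (nat_lit 5) (nat_lit 170) (nat_lit 5) (nat_lit 376) (nat_lit 331) (nat_lit 193)))) (XT.nd (nat_lit 156) (nat_lit 456) (nat_lit 0) (XT.nd (nat_lit 78) (nat_lit 532) (nat_lit 0) (XT.lf (nat_lit 0) (nat_lit 19389659564) (nat_lit 532) (nat_lit 2718645937) (nat_lit 76) (nat_lit 186455099) (nat_lit 163) (nat_lit 5) (nat_lit 170) (nat_lit 5) (nat_lit 164) (nat_lit 5) (nat_lit 377) (nat_lit 331) (nat_lit 192)) (XT.lf (nat_lit 0) (nat_lit 2742976352) (nat_lit 532) (nat_lit 7865320049) (nat_lit 76) (nat_lit 12105343210) (nat_lit 156) (nat_lit 5) (nat_lit 163) (nat_lit 5) (nat_lit 157) (nat_lit 5) (nat_lit 378) (nat_lit 331) (nat_lit 191))) (XT.nd (nat_lit 43212)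 (nat_lit 0) (nat_lit 19912) (XT.lf (nat_lit 0) (nat_lit 8601246820) (nat_lit 532) (nat_lit 13222370637) (nat_lit 76) (nat_lit 1319483799) (nat_lit 150) (nat_lit 5) (nat_lit 157) (nat_lit 5) (nat_lit 151) (nat_lit 5) (nat_lit 379) (nat_lit 331) (nat_lit 190)) (XT.nd (nat_lit 78) (nat_lit 0) (nat_lit 0) (XT.lf (nat_lit 0) (nat_lit 841538798) (nat_lit 0) (nat_lit 841538798) (nat_lit 1596) (nat_lit 3770909747) (nat_lit 412) (nat_lit 5) (nat_lit 412) (nat_lit 3) (nat_lit 433) (nat_lit 3) (nat_lit 332) (nat_lit 332) (nat_lit 236)) (XT.lf (nat_lit 0) (nat_lit 4293848150) (nat_lit 1596) (nat_lit 1640236108) (nat_lit 1672) (nat_lit 5119446719) (nat_lit 412) (nat_lit 5) (nat_lit 433) (nat_lit 3) (nat_lit 434) (nat_lit 5) (nat_lit 333) (nat_lit 332) (nat_lit 235)))))) (XT.nd (nat_lit 390) (nat_lit 1444) (nat_lit 0) (XT.nd (nat_lit 156) (nat_lit 0) (nat_lit 76) (XT.nd (nat_lit 78) (nat_lit 0) (nat_lit 0) (XT.lf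 (nat_lit 0) (nat_lit 5274444215) (nat_lit 1596) (nat_lit 4984202739) (nat_lit 1672) (nat_lit 944325821) (nat_lit 413) (nat_lit 5) (nat_lit 434) (nat_lit 5) (nat_lit 435) (nat_lit 5) (nat_lit 334) (nat_lit 332) (nat_lit 234)) (XT.lf (nat_lit 76) (nat_lit 2960672636) (nat_lit 0) (nat_lit 3362010011) (nat_lit 1672) (nat_lit 5033470368) (nat_lit 414) (nat_lit 5) (nat_lit 413) (nat_lit 5) (nat_lit 435) (nat_lit 5) (nat_lit 335) (nat_lit 332) (nat_lit 233))) (XT.nd (nat_lit 78) (nat_lit 0) (nat_lit 0) (XT.lf (nat_lit 0) (nat_lit 7429692024) (nat_lit 1596) (nat_lit 343813907) (nat_lit 1672) (nat_lit 3739895359) (nat_lit 414) (nat_lit 5) (nat_lit 435) (nat_lit 5) (nat_lit 436) (nat_lit 5) (nat_lit 336) (nat_lit 332) (nat_lit 232)) (XT.nd (nat_lit 78) (nat_lit 0) (nat_lit 76) (XT.lf (nat_lit 76) (nat_lit 8014395150) (nat_lit 0) (nat_lit 599969616) (nat_lit 1672) (nat_lit 3060131733) (nat_lit 415) (nat_lit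 5) (nat_lit 414) (nat_lit 5) (nat_lit 436) (nat_lit 5) (nat_lit 337) (nat_lit 332) (nat_lit 231)) (XT.lf (nat_lit 76) (nat_lit 4788356247) (nat_lit 0) (nat_lit 5094508784) (nat_lit 1672) (nat_lit 1956611796) (nat_lit 416) (nat_lit 5) (nat_lit 415) (nat_lit 5) (nat_lit 437) (nat_lit 5) (nat_lit 338) (nat_lit 332) (nat_lit 230))))) (XT.nd (nat_lit 156) (nat_lit 0) (nat_lit 76) (XT.nd (nat_lit 78) (nat_lit 1672) (nat_lit 0) (XT.lf (nat_lit 76) (nat_lit 1513880960) (nat_lit 0) (nat_lit 9700788481) (nat_lit 1672) (nat_lit 794249622) (nat_lit 417) (nat_lit 5) (nat_lit 416) (nat_lit 5) (nat_lit 438) (nat_lit 5) (nat_lit 339) (nat_lit 332) (nat_lit 229)) (XT.lf (nat_lit 0) (nat_lit 451956032) (nat_lit 1672) (nat_lit 1805625242) (nat_lit 1748) (nat_lit 9924742448) (nat_lit 394) (nat_lit 5) (nat_lit 416) (nat_lit 5) (nat_lit 417) (nat_lit 5) (nat_lit 340) (nat_lit 332) (nat_lit 228))) (XT.nd (nat_lit 78) (nat_lit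 0) (nat_lit 76) (XT.lf (nat_lit 0) (nat_lit 1780096274) (nat_lit 1672) (nat_lit 5180118069) (nat_lit 1748) (nat_lit 5399520552) (nat_lit 395) (nat_lit 5) (nat_lit 417) (nat_lit 5) (nat_lit 418) (nat_lit 5) (nat_lit 341) (nat_lit 332) (nat_lit 227)) (XT.nd (nat_lit 78) (nat_lit 0) (nat_lit 0) (XT.lf (nat_lit 0) (nat_lit 3179616798) (nat_lit 1672) (nat_lit 8611805270) (nat_lit 1748) (nat_lit 750431300) (nat_lit 396) (nat_lit 5) (nat_lit 418) (nat_lit 5) (nat_lit 419) (nat_lit 5) (nat_lit 342) (nat_lit 332) (nat_lit 226)) (XT.lf (nat_lit 76) (nat_lit 598220665) (nat_lit 0) (nat_lit 4083004452) (nat_lit 1748) (nat_lit 8047023462) (nat_lit 397) (nat_lit 5) (nat_lit 396) (nat_lit 5) (nat_lit 419) (nat_lit 5) (nat_lit 343) (nat_lit 332) (nat_lit 225))))))) (XT.nd (nat_lit 780) (nat_lit 6232) (nat_lit 0) (XT.nd (nat_lit 390) (nat_lit 3496) (nat_lit 0) (XT.nd (nat_lit 156) (nat_lit 1596) (nat_lit 0) (XT.nd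 (nat_lit 78) (nat_lit 0) (nat_lit 0) (XT.lf (nat_lit 0) (nat_lit 6286675172) (nat_lit 1672) (nat_lit 2760865472) (nat_lit 1748) (nat_lit 3871533919) (nat_lit 397) (nat_lit 5) (nat_lit 419) (nat_lit 5) (nat_lit 420) (nat_lit 5) (nat_lit 344) (nat_lit 332) (nat_lit 224)) (XT.lf (nat_lit 76) (nat_lit 6934767627) (nat_lit 0) (nat_lit 1053589591) (nat_lit 1748) (nat_lit 5126321092) (nat_lit 398) (nat_lit 5) (nat_lit 397) (nat_lit 5) (nat_lit 420) (nat_lit 5) (nat_lit 345) (nat_lit 332) (nat_lit 223))) (XT.nd (nat_lit 78) (nat_lit 1672) (nat_lit 0) (XT.lf (nat_lit 76) (nat_lit 3625614600) (nat_lit 0) (nat_lit 6180831622) (nat_lit 1748) (nat_lit 3508410755) (nat_lit 399) (nat_lit 5) (nat_lit 398) (nat_lit 5) (nat_lit 421) (nat_lit 5) (nat_lit 346) (nat_lit 332) (nat_lit 222)) (XT.nd (nat_lit 78) (nat_lit 1748) (nat_lit 0) (XT.lf (nat_lit 76) (nat_lit 253867609) (nat_lit 0) (nat_lit 11466173842) (nat_lit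 1748) (nat_lit 1800193813) (nat_lit 400) (nat_lit 5) (nat_lit 399) (nat_lit 5) (nat_lit 422) (nat_lit 5) (nat_lit 347) (nat_lit 332) (nat_lit 221)) (XT.lf (nat_lit 0) (nat_lit 44587399) (nat_lit 1748) (nat_lit 3162763163) (nat_lit 1824) (nat_lit 10522746833) (nat_lit 376) (nat_lit 5) (nat_lit 399) (nat_lit 5) (nat_lit 400) (nat_lit 5) (nat_lit 348) (nat_lit 332) (nat_lit 220))))) (XT.nd (nat_lit 156) (nat_lit 1824) (nat_lit 0) (XT.nd (nat_lit 78) (nat_lit 1748) (nat_lit 0) (XT.lf (nat_lit 0) (nat_lit 1980694823) (nat_lit 1748) (nat_lit 6670716153) (nat_lit 76) (nat_lit 5293410126) (nat_lit 377) (nat_lit 5) (nat_lit 400) (nat_lit 5) (nat_lit 378) (nat_lit 5) (nat_lit 349) (nat_lit 332) (nat_lit 219)) (XT.lf (nat_lit 0) (nat_lit 3913223817) (nat_lit 1748) (nat_lit 108656343) (nat_lit 1824) (nat_lit 10143178605) (nat_lit 354) (nat_lit 5) (nat_lit 377) (nat_lit 5) (nat_lit 378) (nat_lit 5) (nat_lit 350)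 (nat_lit 332) (nat_lit 218))) (XT.nd (nat_lit 78) (nat_lit 912) (nat_lit 0) (XT.lf (nat_lit 0) (nat_lit 445640391) (nat_lit 912) (nat_lit 5762570828) (nat_lit 988) (nat_lit 8182025923) (nat_lit 342) (nat_lit 5) (nat_lit 354) (nat_lit 5) (nat_lit 355) (nat_lit 5) (nat_lit 351) (nat_lit 332) (nat_lit 217)) (XT.nd (nat_lit 78) (nat_lit 912) (nat_lit 0) (XT.lf (nat_lit 0) (nat_lit 8529874088) (nat_lit 988) (nat_lit 3055696718) (nat_lit 76) (nat_lit 3035216669) (nat_lit 342) (nat_lit 5) (nat_lit 355) (nat_lit 5) (nat_lit 343) (nat_lit 5) (nat_lit 352) (nat_lit 332) (nat_lit 216)) (XT.lf (nat_lit 0) (nat_lit 8210955436) (nat_lit 912) (nat_lit 2782269916) (nat_lit 988) (nat_lit 3863599305) (nat_lit 330) (nat_lit 5) (nat_lit 342) (nat_lit 5) (nat_lit 343) (nat_lit 5) (nat_lit 353) (nat_lit 332) (nat_lit 215)))))) (XT.nd (nat_lit 390) (nat_lit 2964) (nat_lit 0) (XT.nd (nat_lit 156) (nat_lit 1520) (nat_lit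 0) (XT.nd (nat_lit 78) (nat_lit 912) (nat_lit 0) (XT.lf (nat_lit 0) (nat_lit 4761224100) (nat_lit 836) (nat_lit 8842479281) (nat_lit 912) (nat_lit 1494785834) (nat_lit 319) (nat_lit 5) (nat_lit 330) (nat_lit 5) (nat_lit 331) (nat_lit 5) (nat_lit 354) (nat_lit 332) (nat_lit 214)) (XT.lf (nat_lit 0) (nat_lit 987155924) (nat_lit 912) (nat_lit 14119895574) (nat_lit 76) (nat_lit 239150578) (nat_lit 307) (nat_lit 5) (nat_lit 319) (nat_lit 5) (nat_lit 308) (nat_lit 5) (nat_lit 355) (nat_lit 332) (nat_lit 213))) (XT.nd (nat_lit 78) (nat_lit 1520) (nat_lit 0) (XT.lf (nat_lit 0) (nat_lit 3634426592) (nat_lit 912) (nat_lit 2409496944) (nat_lit 76) (nat_lit 9555011563) (nat_lit 307) (nat_lit 5) (nat_lit 319) (nat_lit 5) (nat_lit 308) (nat_lit 5) (nat_lit 356) (nat_lit 332) (nat_lit 212)) (XT.nd (nat_lit 78) (nat_lit 760) (nat_lit 0) (XT.lf (nat_lit 0) (nat_lit 6428248561) (nat_lit 836) (nat_lit 6117601625) (nat_lit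 76) (nat_lit 3312066942) (nat_lit 297) (nat_lit 5) (nat_lit 308) (nat_lit 5) (nat_lit 298) (nat_lit 5) (nat_lit 357) (nat_lit 332) (nat_lit 211)) (XT.lf (nat_lit 0) (nat_lit 6186080961) (nat_lit 760) (nat_lit 3199194486) (nat_lit 836) (nat_lit 6737814761) (nat_lit 287) (nat_lit 5) (nat_lit 297) (nat_lit 5) (nat_lit 298) (nat_lit 5) (nat_lit 358) (nat_lit 332) (nat_lit 210))))) (XT.nd (nat_lit 156) (nat_lit 2204) (nat_lit 0) (XT.nd (nat_lit 78) (nat_lit 0) (nat_lit 0) (XT.lf (nat_lit 0) (nat_lit 2520421354) (nat_lit 760) (nat_lit 9993189466) (nat_lit 836) (nat_lit 3880964826) (nat_lit 277) (nat_lit 5) (nat_lit 287) (nat_lit 5) (nat_lit 288) (nat_lit 5) (nat_lit 359) (nat_lit 332) (nat_lit 209)) (XT.lf (nat_lit 0) (nat_lit 15448355766) (nat_lit 760) (nat_lit 359188474) (nat_lit 836) (nat_lit 865235305) (nat_lit 277) (nat_lit 5) (nat_lit 287) (nat_lit 5) (nat_lit 288) (nat_lit 5) (nat_lit 360) (nat_lit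 332) (nat_lit 208))) (XT.nd (nat_lit 78) (nat_lit 1368) (nat_lit 0) (XT.lf (nat_lit 0) (nat_lit 2335259760) (nat_lit 836) (nat_lit 5091096198) (nat_lit 76) (nat_lit 9530217349) (nat_lit 266) (nat_lit 5) (nat_lit 277) (nat_lit 5) (nat_lit 267) (nat_lit 5) (nat_lit 361) (nat_lit 332) (nat_lit 207)) (XT.nd (nat_lit 78) (nat_lit 684) (nat_lit 0) (XT.lf (nat_lit 0) (nat_lit 5684385428) (nat_lit 760) (nat_lit 9066166398) (nat_lit 76) (nat_lit 2496935438) (nat_lit 257) (nat_lit 5) (nat_lit 267) (nat_lit 5) (nat_lit 258) (nat_lit 5) (nat_lit 362) (nat_lit 332) (nat_lit 206)) (XT.lf (nat_lit 0) (nat_lit 4365164523) (nat_lit 684) (nat_lit 4865797876) (nat_lit 760) (nat_lit 8314234635) (nat_lit 248) (nat_lit 5) (nat_lit 257) (nat_lit 5) (nat_lit 258) (nat_lit 5) (nat_lit 363) (nat_lit 332) (nat_lit 205))))))))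
noncomputable def xc106 : XT := (XT.nd (nat_lit 44694) (nat_lit 0) (nat_lit 13224) (XT.nd (nat_lit 702) (nat_lit 2660) (nat_lit 0) (XT.nd (nat_lit 312) (nat_lit 2356) (nat_lit 0) (XT.nd (nat_lit 156) (nat_lit 1368) (nat_lit 0) (XT.nd (nat_lit 78) (nat_lit 0) (nat_lit 0) (XT.lf (nat_lit 0) (nat_lit 426219841) (nat_lit 608) (nat_lit 12541420480) (nat_lit 684) (nat_lit 4882531417) (nat_lit 240) (nat_lit 5) (nat_lit 248) (nat_lit 5) (nat_lit 249) (nat_lit 5) (nat_lit 364) (nat_lit 332) (nat_lit 204)) (XT.lf (nat_lit 0) (nat_lit 14571003256) (nat_lit 608) (nat_lit 2351973655) (nat_lit 684) (nat_lit 1239195095) (nat_lit 240) (nat_lit 5) (nat_lit 248) (nat_lit 5) (nat_lit 249) (nat_lit 5) (nat_lit 365) (nat_lit 332) (nat_lit 203))) (XT.nd (nat_lit 78) (nat_lit 608) (nat_lit 0) (XT.lf (nat_lit 0) (nat_lit 2589052420) (nat_lit 760) (nat_lit 7770878902) (nat_lit 76) (nat_lit 8121110204) (nat_lit 230) (nat_lit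 5) (nat_lit 240) (nat_lit 5) (nat_lit 231) (nat_lit 5) (nat_lit 366) (nat_lit 332) (nat_lit 202)) (XT.lf (nat_lit 0) (nat_lit 6585807672) (nat_lit 684) (nat_lit 12080905414) (nat_lit 76) (nat_lit 141197222) (nat_lit 222) (nat_lit 5) (nat_lit 231) (nat_lit 5) (nat_lit 223) (nat_lit 5) (nat_lit 367) (nat_lit 332) (nat_lit 201)))) (XT.nd (nat_lit 156) (nat_lit 1748) (nat_lit 0) (XT.nd (nat_lit 78) (nat_lit 0) (nat_lit 0) (XT.lf (nat_lit 0) (nat_lit 2569927307) (nat_lit 608) (nat_lit 8257373629) (nat_lit 684) (nat_lit 8314794230) (nat_lit 214) (nat_lit 5) (nat_lit 222) (nat_lit 5) (nat_lit 223) (nat_lit 5) (nat_lit 368) (nat_lit 332) (nat_lit 200)) (XT.lf (nat_lit 0) (nat_lit 15280593145) (nat_lit 684) (nat_lit 1692362336) (nat_lit 76) (nat_lit 2511665529) (nat_lit 214) (nat_lit 5) (nat_lit 223) (nat_lit 5) (nat_lit 215) (nat_lit 5) (nat_lit 369) (nat_lit 332) (nat_lit 199))) (XT.nd (nat_lit 78) (nat_lit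 1140) (nat_lit 0) (XT.lf (nat_lit 0) (nat_lit 161526805) (nat_lit 608) (nat_lit 6093332501) (nat_lit 76) (nat_lit 13579928440) (nat_lit 206) (nat_lit 5) (nat_lit 214) (nat_lit 5) (nat_lit 207) (nat_lit 5) (nat_lit 370) (nat_lit 332) (nat_lit 198)) (XT.nd (nat_lit 78) (nat_lit 532) (nat_lit 0) (XT.lf (nat_lit 0) (nat_lit 4693252838) (nat_lit 684) (nat_lit 10678405127) (nat_lit 76) (nat_lit 4821405354) (nat_lit 198) (nat_lit 5) (nat_lit 207) (nat_lit 5) (nat_lit 199) (nat_lit 5) (nat_lit 371) (nat_lit 332) (nat_lit 197)) (XT.lf (nat_lit 0) (nat_lit 5121892493) (nat_lit 532) (nat_lit 4342694763) (nat_lit 608) (nat_lit 11095432624) (nat_lit 191) (nat_lit 5) (nat_lit 198) (nat_lit 5) (nat_lit 199) (nat_lit 5) (nat_lit 372) (nat_lit 332) (nat_lit 196)))))) (XT.nd (nat_lit 390) (nat_lit 532) (nat_lit 0) (XT.nd (nat_lit 156) (nat_lit 1596) (nat_lit 0) (XT.nd (nat_lit 78) (nat_lit 0) (nat_lit 0) (XT.lf (nat_lit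 0) (nat_lit 550824546) (nat_lit 532) (nat_lit 13937475733) (nat_lit 608) (nat_lit 6447505771) (nat_lit 184) (nat_lit 5) (nat_lit 191) (nat_lit 5) (nat_lit 192) (nat_lit 5) (nat_lit 373) (nat_lit 332) (nat_lit 195)) (XT.lf (nat_lit 0) (nat_lit 17185410444) (nat_lit 532) (nat_lit 2598308805) (nat_lit 608) (nat_lit 1536732181) (nat_lit 184) (nat_lit 5) (nat_lit 191) (nat_lit 5) (nat_lit 192) (nat_lit 5) (nat_lit 374) (nat_lit 332) (nat_lit 194))) (XT.nd (nat_lit 78) (nat_lit 988) (nat_lit 0) (XT.lf (nat_lit 0) (nat_lit 3605283329) (nat_lit 608) (nat_lit 9043539082) (nat_lit 76) (nat_lit 9064759712) (nat_lit 176) (nat_lit 5) (nat_lit 184) (nat_lit 5) (nat_lit 177) (nat_lit 5) (nat_lit 375) (nat_lit 332) (nat_lit 193)) (XT.nd (nat_lit 78) (nat_lit 456) (nat_lit 0) (XT.lf (nat_lit 0) (nat_lit 7979145916) (nat_lit 532) (nat_lit 987083224) (nat_lit 608) (nat_lit 13150368578) (nat_lit 169) (nat_lit 5) (nat_lit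 176) (nat_lit 5) (nat_lit 177) (nat_lit 5) (nat_lit 376) (nat_lit 332) (nat_lit 192)) (XT.lf (nat_lit 0) (nat_lit 3058389324) (nat_lit 456) (nat_lit 11571003449) (nat_lit 532) (nat_lit 7899488169) (nat_lit 163) (nat_lit 5) (nat_lit 169) (nat_lit 5) (nat_lit 170) (nat_lit 5) (nat_lit 377) (nat_lit 332) (nat_lit 191))))) (XT.nd (nat_lit 43368) (nat_lit 0) (nat_lit 19456) (XT.nd (nat_lit 78) (nat_lit 532) (nat_lit 0) (XT.lf (nat_lit 0) (nat_lit 20555838526) (nat_lit 532) (nat_lit 2012616729) (nat_lit 76) (nat_lit 383214469) (nat_lit 163) (nat_lit 5) (nat_lit 170) (nat_lit 5) (nat_lit 164) (nat_lit 5) (nat_lit 378) (nat_lit 332) (nat_lit 190)) (XT.lf (nat_lit 0) (nat_lit 3401786511) (nat_lit 532) (nat_lit 7318574932) (nat_lit 76) (nat_lit 12662924777) (nat_lit 156) (nat_lit 5) (nat_lit 163) (nat_lit 5) (nat_lit 157) (nat_lit 5) (nat_lit 379) (nat_lit 332) (nat_lit 189))) (XT.nd (nat_lit 78) (nat_lit 0)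 (nat_lit 0) (XT.lf (nat_lit 0) (nat_lit 1284490776) (nat_lit 0) (nat_lit 1284490776) (nat_lit 1596) (nat_lit 3031402853) (nat_lit 412) (nat_lit 5) (nat_lit 412) (nat_lit 3) (nat_lit 433) (nat_lit 3) (nat_lit 333) (nat_lit 333) (nat_lit 234)) (XT.nd (nat_lit 78) (nat_lit 0) (nat_lit 76) (XT.lf (nat_lit 0) (nat_lit 6039556029) (nat_lit 1596) (nat_lit 839656013) (nat_lit 1672) (nat_lit 4472588321) (nat_lit 412) (nat_lit 5) (nat_lit 433) (nat_lit 3) (nat_lit 434) (nat_lit 5) (nat_lit 334) (nat_lit 333) (nat_lit 233)) (XT.lf (nat_lit 0) (nat_lit 7003104345) (nat_lit 1596) (nat_lit 4260454753) (nat_lit 1672) (nat_lit 243124718) (nat_lit 413) (nat_lit 5) (nat_lit 434) (nat_lit 5) (nat_lit 435) (nat_lit 5) (nat_lit 335) (nat_lit 333) (nat_lit 232))))))) (XT.nd (nat_lit 702) (nat_lit 4864) (nat_lit 0) (XT.nd (nat_lit 312) (nat_lit 1444) (nat_lit 0) (XT.nd (nat_lit 156) (nat_lit 0) (nat_lit 76) (XT.nd (nat_lit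 78) (nat_lit 0) (nat_lit 76) (XT.lf (nat_lit 76) (nat_lit 3908599049) (nat_lit 0) (nat_lit 4134028182) (nat_lit 1672) (nat_lit 3622663727) (nat_lit 414) (nat_lit 5) (nat_lit 413) (nat_lit 5) (nat_lit 435) (nat_lit 5) (nat_lit 336) (nat_lit 333) (nat_lit 231)) (XT.lf (nat_lit 76) (nat_lit 521655497) (nat_lit 0) (nat_lit 8615776845) (nat_lit 1672) (nat_lit 2690760050) (nat_lit 415) (nat_lit 5) (nat_lit 414) (nat_lit 5) (nat_lit 436) (nat_lit 5) (nat_lit 337) (nat_lit 333) (nat_lit 230))) (XT.nd (nat_lit 78) (nat_lit 0) (nat_lit 76) (XT.lf (nat_lit 76) (nat_lit 9109671666) (nat_lit 0) (nat_lit 1206987489) (nat_lit 1672) (nat_lit 1678307645) (nat_lit 415) (nat_lit 5) (nat_lit 414) (nat_lit 5) (nat_lit 436) (nat_lit 5) (nat_lit 338) (nat_lit 333) (nat_lit 229)) (XT.lf (nat_lit 76) (nat_lit 5806026712) (nat_lit 0) (nat_lit 5777095242) (nat_lit 1672) (nat_lit 582602275) (nat_lit 416) (nat_lit 5) (nat_lit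 415) (nat_lit 5) (nat_lit 437) (nat_lit 5) (nat_lit 339) (nat_lit 333) (nat_lit 228)))) (XT.nd (nat_lit 156) (nat_lit 0) (nat_lit 76) (XT.nd (nat_lit 78) (nat_lit 0) (nat_lit 0) (XT.lf (nat_lit 0) (nat_lit 567854062) (nat_lit 1672) (nat_lit 9893791072) (nat_lit 1748) (nat_lit 1879323702) (nat_lit 394) (nat_lit 5) (nat_lit 416) (nat_lit 5) (nat_lit 417) (nat_lit 5) (nat_lit 340) (nat_lit 333) (nat_lit 227)) (XT.lf (nat_lit 0) (nat_lit 1800662232) (nat_lit 1672) (nat_lit 975535092) (nat_lit 1748) (nat_lit 9744097053) (nat_lit 394) (nat_lit 5) (nat_lit 416) (nat_lit 5) (nat_lit 417) (nat_lit 5) (nat_lit 341) (nat_lit 333) (nat_lit 226))) (XT.nd (nat_lit 78) (nat_lit 0) (nat_lit 76) (XT.lf (nat_lit 0) (nat_lit 3132602143) (nat_lit 1672) (nat_lit 4435992881) (nat_lit 1748) (nat_lit 5135176939) (nat_lit 395) (nat_lit 5) (nat_lit 417) (nat_lit 5) (nat_lit 418) (nat_lit 5) (nat_lit 342) (nat_lit 333) (nat_lit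 225)) (XT.nd (nat_lit 78) (nat_lit 0) (nat_lit 0) (XT.lf (nat_lit 0) (nat_lit 4539535228) (nat_lit 1672) (nat_lit 7956653174) (nat_lit 1748) (nat_lit 395879561) (nat_lit 396) (nat_lit 5) (nat_lit 418) (nat_lit 5) (nat_lit 419) (nat_lit 5) (nat_lit 343) (nat_lit 333) (nat_lit 224)) (XT.lf (nat_lit 76) (nat_lit 1514852985) (nat_lit 0) (nat_lit 4540342706) (nat_lit 1748) (nat_lit 7029501117) (nat_lit 397) (nat_lit 5) (nat_lit 396) (nat_lit 5) (nat_lit 419) (nat_lit 5) (nat_lit 344) (nat_lit 333) (nat_lit 223)))))) (XT.nd (nat_lit 390) (nat_lit 3496) (nat_lit 0) (XT.nd (nat_lit 156) (nat_lit 1596) (nat_lit 0) (XT.nd (nat_lit 78) (nat_lit 0) (nat_lit 0) (XT.lf (nat_lit 0) (nat_lit 7670770344) (nat_lit 1672) (nat_lit 1944410869) (nat_lit 1748) (nat_lit 3666848357) (nat_lit 397) (nat_lit 5) (nat_lit 419) (nat_lit 5) (nat_lit 420) (nat_lit 5) (nat_lit 345) (nat_lit 333) (nat_lit 222)) (XT.lf (nat_lit 76)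 (nat_lit 8027501464) (nat_lit 0) (nat_lit 1366925147) (nat_lit 1748) (nat_lit 4089676946) (nat_lit 398) (nat_lit 5) (nat_lit 397) (nat_lit 5) (nat_lit 420) (nat_lit 5) (nat_lit 346) (nat_lit 333) (nat_lit 221))) (XT.nd (nat_lit 78) (nat_lit 1672) (nat_lit 0) (XT.lf (nat_lit 76) (nat_lit 4630145763) (nat_lit 0) (nat_lit 6606979161) (nat_lit 1748) (nat_lit 2453781328) (nat_lit 399) (nat_lit 5) (nat_lit 398) (nat_lit 5) (nat_lit 421) (nat_lit 5) (nat_lit 347) (nat_lit 333) (nat_lit 220)) (XT.nd (nat_lit 78) (nat_lit 1748) (nat_lit 0) (XT.lf (nat_lit 76) (nat_lit 1167268104) (nat_lit 0) (nat_lit 12012121936) (nat_lit 1748) (nat_lit 723650026) (nat_lit 400) (nat_lit 5) (nat_lit 399) (nat_lit 5) (nat_lit 422) (nat_lit 5) (nat_lit 348) (nat_lit 333) (nat_lit 219)) (XT.lf (nat_lit 0) (nat_lit 1129150497) (nat_lit 1748) (nat_lit 2363232035) (nat_lit 1824) (nat_lit 10627337145) (nat_lit 376) (nat_lit 5) (nat_lit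 399) (nat_lit 5) (nat_lit 400) (nat_lit 5) (nat_lit 349) (nat_lit 333) (nat_lit 218))))) (XT.nd (nat_lit 156) (nat_lit 1824) (nat_lit 0) (XT.nd (nat_lit 78) (nat_lit 1748) (nat_lit 0) (XT.lf (nat_lit 0) (nat_lit 3096351452) (nat_lit 1748) (nat_lit 5968036120) (nat_lit 76) (nat_lit 5277055261) (nat_lit 377) (nat_lit 5) (nat_lit 400) (nat_lit 5) (nat_lit 378) (nat_lit 5) (nat_lit 350) (nat_lit 333) (nat_lit 217)) (XT.lf (nat_lit 0) (nat_lit 4918775167) (nat_lit 1748) (nat_lit 254999522) (nat_lit 1824) (nat_lit 9395030313) (nat_lit 354) (nat_lit 5) (nat_lit 377) (nat_lit 5) (nat_lit 378) (nat_lit 5) (nat_lit 351) (nat_lit 333) (nat_lit 216))) (XT.nd (nat_lit 78) (nat_lit 912) (nat_lit 0) (XT.lf (nat_lit 0) (nat_lit 1354530396) (nat_lit 912) (nat_lit 6046041601) (nat_lit 988) (nat_lit 7400686121) (nat_lit 342) (nat_lit 5) (nat_lit 354) (nat_lit 5) (nat_lit 355) (nat_lit 5) (nat_lit 352) (nat_lit 333)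 (nat_lit 215)) (XT.nd (nat_lit 78) (nat_lit 912) (nat_lit 0) (XT.lf (nat_lit 0) (nat_lit 9761883315) (nat_lit 988) (nat_lit 2257149194) (nat_lit 76) (nat_lit 3020308904) (nat_lit 342) (nat_lit 5) (nat_lit 355) (nat_lit 5) (nat_lit 343) (nat_lit 5) (nat_lit 353) (nat_lit 333) (nat_lit 214)) (XT.lf (nat_lit 0) (nat_lit 9333059788) (nat_lit 912) (nat_lit 2943330970) (nat_lit 988) (nat_lit 3006539785) (nat_lit 330) (nat_lit 5) (nat_lit 342) (nat_lit 5) (nat_lit 343) (nat_lit 5) (nat_lit 354) (nat_lit 333) (nat_lit 213))))))))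
noncomputable def xc107 : XT := (XT.nd (nat_lit 1482) (nat_lit 2128) (nat_lit 0) (XT.nd (nat_lit 702) (nat_lit 5016) (nat_lit 0) (XT.nd (nat_lit 312) (nat_lit 3040) (nat_lit 0) (XT.nd (nat_lit 156) (nat_lit 760) (nat_lit 0) (XT.nd (nat_lit 78) (nat_lit 912) (nat_lit 0) (XT.lf (nat_lit 0) (nat_lit 5785404589) (nat_lit 836) (nat_lit 9157243677) (nat_lit 912) (nat_lit 589662949) (nat_lit 319) (nat_lit 5) (nat_lit 330) (nat_lit 5) (nat_lit 331) (nat_lit 5) (nat_lit 355) (nat_lit 333) (nat_lit 212)) (XT.lf (nat_lit 0) (nat_lit 1932449803) (nat_lit 912) (nat_lit 13644649007) (nat_lit 76) (nat_lit 210684595) (nat_lit 307) (nat_lit 5) (nat_lit 319) (nat_lit 5) (nat_lit 308) (nat_lit 5) (nat_lit 356) (nat_lit 333) (nat_lit 211))) (XT.nd (nat_lit 78) (nat_lit 760) (nat_lit 0) (XT.lf (nat_lit 0) (nat_lit 4632468323) (nat_lit 912) (nat_lit 1609118324) (nat_lit 76) (nat_lit 9807059483) (nat_lit 307) (nat_lit 5)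 (nat_lit 319) (nat_lit 5) (nat_lit 308) (nat_lit 5) (nat_lit 357) (nat_lit 333) (nat_lit 210)) (XT.lf (nat_lit 0) (nat_lit 7489719354) (nat_lit 836) (nat_lit 5424721210) (nat_lit 76) (nat_lit 3401378656) (nat_lit 297) (nat_lit 5) (nat_lit 308) (nat_lit 5) (nat_lit 298) (nat_lit 5) (nat_lit 358) (nat_lit 333) (nat_lit 209)))) (XT.nd (nat_lit 156) (nat_lit 1520) (nat_lit 0) (XT.nd (nat_lit 78) (nat_lit 760) (nat_lit 0) (XT.lf (nat_lit 0) (nat_lit 7233853167) (nat_lit 760) (nat_lit 3281902079) (nat_lit 836) (nat_lit 6073599767) (nat_lit 287) (nat_lit 5) (nat_lit 297) (nat_lit 5) (nat_lit 298) (nat_lit 5) (nat_lit 359) (nat_lit 333) (nat_lit 208)) (XT.lf (nat_lit 0) (nat_lit 3461296173) (nat_lit 760) (nat_lit 10257620131) (nat_lit 836) (nat_lit 3150462290) (nat_lit 277) (nat_lit 5) (nat_lit 287) (nat_lit 5) (nat_lit 288) (nat_lit 5) (nat_lit 360) (nat_lit 333) (nat_lit 207))) (XT.nd (nat_lit 78) (nat_lit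 1520) (nat_lit 0) (XT.lf (nat_lit 0) (nat_lit 16751866806) (nat_lit 760) (nat_lit 335629158) (nat_lit 836) (nat_lit 68928790) (nat_lit 277) (nat_lit 5) (nat_lit 287) (nat_lit 5) (nat_lit 288) (nat_lit 5) (nat_lit 361) (nat_lit 333) (nat_lit 206)) (XT.nd (nat_lit 78) (nat_lit 684) (nat_lit 0) (XT.lf (nat_lit 0) (nat_lit 3198885711) (nat_lit 836) (nat_lit 4390397775) (nat_lit 76) (nat_lit 9859712393) (nat_lit 266) (nat_lit 5) (nat_lit 277) (nat_lit 5) (nat_lit 267) (nat_lit 5) (nat_lit 362) (nat_lit 333) (nat_lit 205)) (XT.lf (nat_lit 0) (nat_lit 6631236110) (nat_lit 760) (nat_lit 8483069809) (nat_lit 76) (nat_lit 2634688062) (nat_lit 257) (nat_lit 5) (nat_lit 267) (nat_lit 5) (nat_lit 258) (nat_lit 5) (nat_lit 363) (nat_lit 333) (nat_lit 204)))))) (XT.nd (nat_lit 390) (nat_lit 2356) (nat_lit 0) (XT.nd (nat_lit 156) (nat_lit 1368) (nat_lit 0) (XT.nd (nat_lit 78) (nat_lit 608) (nat_lit 0) (XT.lf (nat_lit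 0) (nat_lit 5337328356) (nat_lit 684) (nat_lit 4929732483) (nat_lit 760) (nat_lit 7788928599) (nat_lit 248) (nat_lit 5) (nat_lit 257) (nat_lit 5) (nat_lit 258) (nat_lit 5) (nat_lit 364) (nat_lit 333) (nat_lit 203)) (XT.lf (nat_lit 0) (nat_lit 1281354713) (nat_lit 608) (nat_lit 12818358874) (nat_lit 684) (nat_lit 4270733378) (nat_lit 240) (nat_lit 5) (nat_lit 248) (nat_lit 5) (nat_lit 249) (nat_lit 5) (nat_lit 365) (nat_lit 333) (nat_lit 202))) (XT.nd (nat_lit 78) (nat_lit 1368) (nat_lit 0) (XT.lf (nat_lit 0) (nat_lit 15825947216) (nat_lit 608) (nat_lit 2326121000) (nat_lit 684) (nat_lit 540182616) (nat_lit 240) (nat_lit 5) (nat_lit 248) (nat_lit 5) (nat_lit 249) (nat_lit 5) (nat_lit 366) (nat_lit 333) (nat_lit 201)) (XT.nd (nat_lit 78) (nat_lit 608) (nat_lit 0) (XT.lf (nat_lit 0) (nat_lit 3378056970) (nat_lit 760) (nat_lit 7175734557) (nat_lit 76) (nat_lit 8467113546) (nat_lit 230) (nat_lit 5) (nat_lit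 240) (nat_lit 5) (nat_lit 231) (nat_lit 5) (nat_lit 367) (nat_lit 333) (nat_lit 200)) (XT.lf (nat_lit 0) (nat_lit 7480059040) (nat_lit 684) (nat_lit 11615022528) (nat_lit 76) (nat_lit 262801402) (nat_lit 222) (nat_lit 5) (nat_lit 231) (nat_lit 5) (nat_lit 223) (nat_lit 5) (nat_lit 368) (nat_lit 333) (nat_lit 199))))) (XT.nd (nat_lit 156) (nat_lit 1748) (nat_lit 0) (XT.nd (nat_lit 78) (nat_lit 0) (nat_lit 0) (XT.lf (nat_lit 0) (nat_lit 3461896829) (nat_lit 608) (nat_lit 8371899394) (nat_lit 684) (nat_lit 7868606813) (nat_lit 214) (nat_lit 5) (nat_lit 222) (nat_lit 5) (nat_lit 223) (nat_lit 5) (nat_lit 369) (nat_lit 333) (nat_lit 198)) (XT.lf (nat_lit 0) (nat_lit 16401672155) (nat_lit 684) (nat_lit 939286706) (nat_lit 76) (nat_lit 2714635458) (nat_lit 214) (nat_lit 5) (nat_lit 223) (nat_lit 5) (nat_lit 215) (nat_lit 5) (nat_lit 370) (nat_lit 333) (nat_lit 197))) (XT.nd (nat_lit 78) (nat_lit 1140) (nat_lit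 0) (XT.lf (nat_lit 0) (nat_lit 819461145) (nat_lit 608) (nat_lit 5476351160) (nat_lit 76) (nat_lit 14120660236) (nat_lit 206) (nat_lit 5) (nat_lit 214) (nat_lit 5) (nat_lit 207) (nat_lit 5) (nat_lit 371) (nat_lit 333) (nat_lit 196)) (XT.nd (nat_lit 78) (nat_lit 532) (nat_lit 0) (XT.lf (nat_lit 0) (nat_lit 5474183945) (nat_lit 684) (nat_lit 10199838069) (nat_lit 76) (nat_lit 5111742120) (nat_lit 198) (nat_lit 5) (nat_lit 207) (nat_lit 5) (nat_lit 199) (nat_lit 5) (nat_lit 372) (nat_lit 333) (nat_lit 195)) (XT.lf (nat_lit 0) (nat_lit 6061506964) (nat_lit 532) (nat_lit 4313609725) (nat_lit 608) (nat_lit 10788891938) (nat_lit 191) (nat_lit 5) (nat_lit 198) (nat_lit 5) (nat_lit 199) (nat_lit 5) (nat_lit 373) (nat_lit 333) (nat_lit 194))))))) (XT.nd (nat_lit 44070) (nat_lit 0) (nat_lit 17480) (XT.nd (nat_lit 390) (nat_lit 0) (nat_lit 0) (XT.nd (nat_lit 156) (nat_lit 1596) (nat_lit 0) (XT.nd (nat_lit 78)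 (nat_lit 0) (nat_lit 0) (XT.lf (nat_lit 0) (nat_lit 1352141820) (nat_lit 532) (nat_lit 14185249001) (nat_lit 608) (nat_lit 6013928722) (nat_lit 184) (nat_lit 5) (nat_lit 191) (nat_lit 5) (nat_lit 192) (nat_lit 5) (nat_lit 374) (nat_lit 333) (nat_lit 193)) (XT.lf (nat_lit 0) (nat_lit 18462907260) (nat_lit 532) (nat_lit 2510868745) (nat_lit 608) (nat_lit 974094125) (nat_lit 184) (nat_lit 5) (nat_lit 191) (nat_lit 5) (nat_lit 192) (nat_lit 5) (nat_lit 375) (nat_lit 333) (nat_lit 192))) (XT.nd (nat_lit 78) (nat_lit 988) (nat_lit 0) (XT.lf (nat_lit 0) (nat_lit 4302720264) (nat_lit 608) (nat_lit 8546249205) (nat_lit 76) (nat_lit 9503983321) (nat_lit 176) (nat_lit 5) (nat_lit 184) (nat_lit 5) (nat_lit 177) (nat_lit 5) (nat_lit 376) (nat_lit 333) (nat_lit 191)) (XT.nd (nat_lit 78) (nat_lit 456) (nat_lit 0) (XT.lf (nat_lit 0) (nat_lit 8974646785) (nat_lit 532) (nat_lit 837593489) (nat_lit 608) (nat_lit 12956070980)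 (nat_lit 169) (nat_lit 5) (nat_lit 176) (nat_lit 5) (nat_lit 177) (nat_lit 5) (nat_lit 377) (nat_lit 333) (nat_lit 190)) (XT.lf (nat_lit 0) (nat_lit 3904449464) (nat_lit 456) (nat_lit 11730069272) (nat_lit 532) (nat_lit 7558666944) (nat_lit 163) (nat_lit 5) (nat_lit 169) (nat_lit 5) (nat_lit 170) (nat_lit 5) (nat_lit 378) (nat_lit 333) (nat_lit 189))))) (XT.nd (nat_lit 43446) (nat_lit 0) (nat_lit 18924) (XT.nd (nat_lit 43368) (nat_lit 0) (nat_lit 18924) (XT.lf (nat_lit 0) (nat_lit 21723450787) (nat_lit 532) (nat_lit 1330617451) (nat_lit 76) (nat_lit 574902926) (nat_lit 163) (nat_lit 5) (nat_lit 170) (nat_lit 5) (nat_lit 164) (nat_lit 5) (nat_lit 379) (nat_lit 333) (nat_lit 188)) (XT.lf (nat_lit 0) (nat_lit 1716753290) (nat_lit 0) (nat_lit 1716753290) (nat_lit 1596) (nat_lit 2318655442) (nat_lit 412) (nat_lit 5) (nat_lit 412) (nat_lit 3) (nat_lit 433) (nat_lit 3) (nat_lit 334) (nat_lit 334) (nat_lit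 232))) (XT.nd (nat_lit 78) (nat_lit 0) (nat_lit 0) (XT.lf (nat_lit 0) (nat_lit 7744818904) (nat_lit 1596) (nat_lit 63839777) (nat_lit 1672) (nat_lit 3852272805) (nat_lit 412) (nat_lit 5) (nat_lit 433) (nat_lit 3) (nat_lit 434) (nat_lit 5) (nat_lit 335) (nat_lit 334) (nat_lit 231)) (XT.nd (nat_lit 78) (nat_lit 0) (nat_lit 76) (XT.lf (nat_lit 76) (nat_lit 8253306923) (nat_lit 0) (nat_lit 443044974) (nat_lit 1672) (nat_lit 3124955399) (nat_lit 413) (nat_lit 5) (nat_lit 412) (nat_lit 5) (nat_lit 434) (nat_lit 5) (nat_lit 336) (nat_lit 334) (nat_lit 230)) (XT.lf (nat_lit 76) (nat_lit 4835647042) (nat_lit 0) (nat_lit 4890679691) (nat_lit 1672) (nat_lit 2259187214) (nat_lit 414) (nat_lit 5) (nat_lit 413) (nat_lit 5) (nat_lit 435) (nat_lit 5) (nat_lit 337) (nat_lit 334) (nat_lit 229)))))) (XT.nd (nat_lit 390) (nat_lit 0) (nat_lit 152) (XT.nd (nat_lit 156) (nat_lit 1596) (nat_lit 0) (XT.nd (nat_lit 78) (nat_lit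 0) (nat_lit 0) (XT.lf (nat_lit 76) (nat_lit 1367251434) (nat_lit 0) (nat_lit 9446113048) (nat_lit 1672) (nat_lit 1340776016) (nat_lit 415) (nat_lit 5) (nat_lit 414) (nat_lit 5) (nat_lit 436) (nat_lit 5) (nat_lit 338) (nat_lit 334) (nat_lit 228)) (XT.lf (nat_lit 76) (nat_lit 10188734896) (nat_lit 0) (nat_lit 1798403810) (nat_lit 1672) (nat_lit 339621111) (nat_lit 415) (nat_lit 5) (nat_lit 414) (nat_lit 5) (nat_lit 436) (nat_lit 5) (nat_lit 339) (nat_lit 334) (nat_lit 227))) (XT.nd (nat_lit 78) (nat_lit 0) (nat_lit 76) (XT.lf (nat_lit 0) (nat_lit 740542813) (nat_lit 1672) (nat_lit 5704237164) (nat_lit 1748) (nat_lit 6058542735) (nat_lit 393) (nat_lit 5) (nat_lit 415) (nat_lit 5) (nat_lit 416) (nat_lit 5) (nat_lit 340) (nat_lit 334) (nat_lit 226)) (XT.nd (nat_lit 78) (nat_lit 0) (nat_lit 0) (XT.lf (nat_lit 0) (nat_lit 1881149411) (nat_lit 1672) (nat_lit 9332101010) (nat_lit 1748) (nat_lit 1471249366)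 (nat_lit 394) (nat_lit 5) (nat_lit 416) (nat_lit 5) (nat_lit 417) (nat_lit 5) (nat_lit 341) (nat_lit 334) (nat_lit 225)) (XT.lf (nat_lit 0) (nat_lit 3113186688) (nat_lit 1672) (nat_lit 171302315) (nat_lit 1748) (nat_lit 9585493705) (nat_lit 394) (nat_lit 5) (nat_lit 416) (nat_lit 5) (nat_lit 417) (nat_lit 5) (nat_lit 342) (nat_lit 334) (nat_lit 224))))) (XT.nd (nat_lit 156) (nat_lit 0) (nat_lit 76) (XT.nd (nat_lit 78) (nat_lit 0) (nat_lit 76) (XT.lf (nat_lit 0) (nat_lit 4451109363) (nat_lit 1672) (nat_lit 3721180566) (nat_lit 1748) (nat_lit 4887376059) (nat_lit 395) (nat_lit 5) (nat_lit 417) (nat_lit 5) (nat_lit 418) (nat_lit 5) (nat_lit 343) (nat_lit 334) (nat_lit 223)) (XT.lf (nat_lit 0) (nat_lit 5867662020) (nat_lit 1672) (nat_lit 7334285511) (nat_lit 1748) (nat_lit 52336325) (nat_lit 396) (nat_lit 5) (nat_lit 418) (nat_lit 5) (nat_lit 419) (nat_lit 5) (nat_lit 344) (nat_lit 334) (nat_lit 222)))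 (XT.nd (nat_lit 78) (nat_lit 0) (nat_lit 76) (XT.lf (nat_lit 76) (nat_lit 2407396040) (nat_lit 0) (nat_lit 4992179456) (nat_lit 1748) (nat_lit 6053721010) (nat_lit 397) (nat_lit 5) (nat_lit 396) (nat_lit 5) (nat_lit 419) (nat_lit 5) (nat_lit 345) (nat_lit 334) (nat_lit 221)) (XT.nd (nat_lit 78) (nat_lit 0) (nat_lit 0) (XT.lf (nat_lit 0) (nat_lit 9027762073) (nat_lit 1672) (nat_lit 1155085012) (nat_lit 1748) (nat_lit 3474439273) (nat_lit 397) (nat_lit 5) (nat_lit 419) (nat_lit 5) (nat_lit 420) (nat_lit 5) (nat_lit 346) (nat_lit 334) (nat_lit 220)) (XT.lf (nat_lit 76) (nat_lit 9102232444) (nat_lit 0) (nat_lit 1673488438) (nat_lit 1748) (nat_lit 3090269244) (nat_lit 398) (nat_lit 5) (nat_lit 397) (nat_lit 5) (nat_lit 420) (nat_lit 5) (nat_lit 347) (nat_lit 334) (nat_lit 219))))))))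
noncomputable def xc108 : XT := (XT.nd (nat_lit 1482) (nat_lit 5852) (nat_lit 0) (XT.nd (nat_lit 702) (nat_lit 5928) (nat_lit 0) (XT.nd (nat_lit 312) (nat_lit 4408) (nat_lit 0) (XT.nd (nat_lit 156) (nat_lit 0) (nat_lit 0) (XT.nd (nat_lit 78) (nat_lit 1672) (nat_lit 0) (XT.lf (nat_lit 76) (nat_lit 5613392416) (nat_lit 0) (nat_lit 7032092665) (nat_lit 1748) (nat_lit 1434094977) (nat_lit 399) (nat_lit 5) (nat_lit 398) (nat_lit 5) (nat_lit 421) (nat_lit 5) (nat_lit 348) (nat_lit 334) (nat_lit 218)) (XT.lf (nat_lit 0) (nat_lit 316091215) (nat_lit 1748) (nat_lit 12244642624) (nat_lit 1824) (nat_lit 1737862526) (nat_lit 376) (nat_lit 5) (nat_lit 399) (nat_lit 5) (nat_lit 400) (nat_lit 5) (nat_lit 349) (nat_lit 334) (nat_lit 217))) (XT.nd (nat_lit 78) (nat_lit 0) (nat_lit 76) (XT.lf (nat_lit 0) (nat_lit 2184068913) (nat_lit 1748) (nat_lit 1591057996) (nat_lit 1824) (nat_lit 10747182715) (nat_lit 376) (nat_lit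 5) (nat_lit 399) (nat_lit 5) (nat_lit 400) (nat_lit 5) (nat_lit 350) (nat_lit 334) (nat_lit 216)) (XT.lf (nat_lit 0) (nat_lit 4184845525) (nat_lit 1748) (nat_lit 5296100186) (nat_lit 76) (nat_lit 5270264488) (nat_lit 377) (nat_lit 5) (nat_lit 400) (nat_lit 5) (nat_lit 378) (nat_lit 5) (nat_lit 351) (nat_lit 334) (nat_lit 215)))) (XT.nd (nat_lit 156) (nat_lit 1824) (nat_lit 0) (XT.nd (nat_lit 78) (nat_lit 912) (nat_lit 0) (XT.lf (nat_lit 0) (nat_lit 5903509348) (nat_lit 1748) (nat_lit 397519419) (nat_lit 1824) (nat_lit 8684852143) (nat_lit 354) (nat_lit 5) (nat_lit 377) (nat_lit 5) (nat_lit 378) (nat_lit 5) (nat_lit 352) (nat_lit 334) (nat_lit 214)) (XT.lf (nat_lit 0) (nat_lit 2239280545) (nat_lit 912) (nat_lit 6331667970) (nat_lit 988) (nat_lit 6654848679) (nat_lit 342) (nat_lit 5) (nat_lit 354) (nat_lit 5) (nat_lit 355) (nat_lit 5) (nat_lit 353) (nat_lit 334) (nat_lit 213))) (XT.nd (nat_lit 78) (nat_lit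 1824) (nat_lit 0) (XT.lf (nat_lit 0) (nat_lit 10974819941) (nat_lit 988) (nat_lit 1485747424) (nat_lit 76) (nat_lit 3011036688) (nat_lit 342) (nat_lit 5) (nat_lit 355) (nat_lit 5) (nat_lit 343) (nat_lit 5) (nat_lit 354) (nat_lit 334) (nat_lit 212)) (XT.nd (nat_lit 78) (nat_lit 912) (nat_lit 0) (XT.lf (nat_lit 0) (nat_lit 10438554163) (nat_lit 912) (nat_lit 3104769703) (nat_lit 988) (nat_lit 2179620793) (nat_lit 330) (nat_lit 5) (nat_lit 342) (nat_lit 5) (nat_lit 343) (nat_lit 5) (nat_lit 355) (nat_lit 334) (nat_lit 211)) (XT.lf (nat_lit 0) (nat_lit 284303418) (nat_lit 912) (nat_lit 9192398832) (nat_lit 76) (nat_lit 6503506511) (nat_lit 318) (nat_lit 5) (nat_lit 330) (nat_lit 5) (nat_lit 319) (nat_lit 5) (nat_lit 356) (nat_lit 334) (nat_lit 210)))))) (XT.nd (nat_lit 390) (nat_lit 2812) (nat_lit 0) (XT.nd (nat_lit 156) (nat_lit 2280) (nat_lit 0) (XT.nd (nat_lit 78) (nat_lit 0) (nat_lit 0) (XT.lf (nat_lit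 0) (nat_lit 2853538766) (nat_lit 912) (nat_lit 13206742334) (nat_lit 76) (nat_lit 183410544) (nat_lit 307) (nat_lit 5) (nat_lit 319) (nat_lit 5) (nat_lit 308) (nat_lit 5) (nat_lit 357) (nat_lit 334) (nat_lit 209)) (XT.lf (nat_lit 0) (nat_lit 5609418557) (nat_lit 912) (nat_lit 834822802) (nat_lit 76) (nat_lit 10068655162) (nat_lit 307) (nat_lit 5) (nat_lit 319) (nat_lit 5) (nat_lit 308) (nat_lit 5) (nat_lit 358) (nat_lit 334) (nat_lit 208))) (XT.nd (nat_lit 78) (nat_lit 1520) (nat_lit 0) (XT.lf (nat_lit 0) (nat_lit 8533171739) (nat_lit 836) (nat_lit 4761363814) (nat_lit 76) (nat_lit 3493946649) (nat_lit 297) (nat_lit 5) (nat_lit 308) (nat_lit 5) (nat_lit 298) (nat_lit 5) (nat_lit 359) (nat_lit 334) (nat_lit 207)) (XT.nd (nat_lit 78) (nat_lit 760) (nat_lit 0) (XT.lf (nat_lit 0) (nat_lit 8263565319) (nat_lit 760) (nat_lit 3367852551) (nat_lit 836) (nat_lit 5439190324) (nat_lit 287) (nat_lit 5) (nat_lit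 297) (nat_lit 5) (nat_lit 298) (nat_lit 5) (nat_lit 360) (nat_lit 334) (nat_lit 206)) (XT.lf (nat_lit 0) (nat_lit 4380727648) (nat_lit 760) (nat_lit 10532013813) (nat_lit 836) (nat_lit 2446662009) (nat_lit 277) (nat_lit 5) (nat_lit 287) (nat_lit 5) (nat_lit 288) (nat_lit 5) (nat_lit 361) (nat_lit 334) (nat_lit 205))))) (XT.nd (nat_lit 156) (nat_lit 1976) (nat_lit 0) (XT.nd (nat_lit 78) (nat_lit 0) (nat_lit 0) (XT.lf (nat_lit 0) (nat_lit 391292201) (nat_lit 760) (nat_lit 306080005) (nat_lit 836) (nat_lit 16958014237) (nat_lit 266) (nat_lit 5) (nat_lit 276) (nat_lit 5) (nat_lit 277) (nat_lit 5) (nat_lit 362) (nat_lit 334) (nat_lit 204)) (XT.lf (nat_lit 0) (nat_lit 4042866382) (nat_lit 836) (nat_lit 3717668848) (nat_lit 76) (nat_lit 10196590129) (nat_lit 266) (nat_lit 5) (nat_lit 277) (nat_lit 5) (nat_lit 267) (nat_lit 5) (nat_lit 363) (nat_lit 334) (nat_lit 203))) (XT.nd (nat_lit 78) (nat_lit 1292)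 (nat_lit 0) (XT.lf (nat_lit 0) (nat_lit 7561928419) (nat_lit 760) (nat_lit 7931565504) (nat_lit 76) (nat_lit 2772965729) (nat_lit 257) (nat_lit 5) (nat_lit 267) (nat_lit 5) (nat_lit 258) (nat_lit 5) (nat_lit 364) (nat_lit 334) (nat_lit 202)) (XT.nd (nat_lit 78) (nat_lit 608) (nat_lit 0) (XT.lf (nat_lit 0) (nat_lit 6290368273) (nat_lit 684) (nat_lit 5000294521) (nat_lit 760) (nat_lit 7292336230) (nat_lit 248) (nat_lit 5) (nat_lit 257) (nat_lit 5) (nat_lit 258) (nat_lit 5) (nat_lit 365) (nat_lit 334) (nat_lit 201)) (XT.lf (nat_lit 0) (nat_lit 2113789395) (nat_lit 608) (nat_lit 13109305888) (nat_lit 684) (nat_lit 3684109426) (nat_lit 240) (nat_lit 5) (nat_lit 248) (nat_lit 5) (nat_lit 249) (nat_lit 5) (nat_lit 366) (nat_lit 334) (nat_lit 200))))))) (XT.nd (nat_lit 702) (nat_lit 1596) (nat_lit 0) (XT.nd (nat_lit 312) (nat_lit 2280) (nat_lit 0) (XT.nd (nat_lit 156) (nat_lit 1216) (nat_lit 0) (XT.nd (nat_lit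 78) (nat_lit 684) (nat_lit 0) (XT.lf (nat_lit 0) (nat_lit 135736152) (nat_lit 684) (nat_lit 2168380187) (nat_lit 76) (nat_lit 16934946619) (nat_lit 239) (nat_lit 5) (nat_lit 248) (nat_lit 5) (nat_lit 240) (nat_lit 5) (nat_lit 367) (nat_lit 334) (nat_lit 199)) (XT.lf (nat_lit 0) (nat_lit 4149898235) (nat_lit 760) (nat_lit 6610282009) (nat_lit 76) (nat_lit 8817620530) (nat_lit 230) (nat_lit 5) (nat_lit 240) (nat_lit 5) (nat_lit 231) (nat_lit 5) (nat_lit 368) (nat_lit 334) (nat_lit 198))) (XT.nd (nat_lit 78) (nat_lit 608) (nat_lit 0) (XT.lf (nat_lit 0) (nat_lit 8361145831) (nat_lit 684) (nat_lit 11182711540) (nat_lit 76) (nat_lit 381316289) (nat_lit 222) (nat_lit 5) (nat_lit 231) (nat_lit 5) (nat_lit 223) (nat_lit 5) (nat_lit 369) (nat_lit 334) (nat_lit 197)) (XT.lf (nat_lit 0) (nat_lit 4333848467) (nat_lit 608) (nat_lit 8497506895) (nat_lit 684) (nat_lit 7448965851) (nat_lit 214) (nat_lit 5) (nat_lit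 222) (nat_lit 5) (nat_lit 223) (nat_lit 5) (nat_lit 370) (nat_lit 334) (nat_lit 196)))) (XT.nd (nat_lit 156) (nat_lit 1672) (nat_lit 0) (XT.nd (nat_lit 78) (nat_lit 608) (nat_lit 0) (XT.lf (nat_lit 0) (nat_lit 17518344070) (nat_lit 684) (nat_lit 209762884) (nat_lit 76) (nat_lit 2916368577) (nat_lit 214) (nat_lit 5) (nat_lit 223) (nat_lit 5) (nat_lit 215) (nat_lit 5) (nat_lit 371) (nat_lit 334) (nat_lit 195)) (XT.lf (nat_lit 0) (nat_lit 1459643561) (nat_lit 608) (nat_lit 4886771098) (nat_lit 76) (nat_lit 14669960072) (nat_lit 206) (nat_lit 5) (nat_lit 214) (nat_lit 5) (nat_lit 207) (nat_lit 5) (nat_lit 372) (nat_lit 334) (nat_lit 194))) (XT.nd (nat_lit 78) (nat_lit 1064) (nat_lit 0) (XT.lf (nat_lit 0) (nat_lit 6241796702) (nat_lit 684) (nat_lit 9752775231) (nat_lit 76) (nat_lit 5402425522) (nat_lit 198) (nat_lit 5) (nat_lit 207) (nat_lit 5) (nat_lit 199) (nat_lit 5) (nat_lit 373) (nat_lit 334) (nat_lit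 193)) (XT.nd (nat_lit 78) (nat_lit 532) (nat_lit 0) (XT.lf (nat_lit 0) (nat_lit 6984192682) (nat_lit 532) (nat_lit 4292800388) (nat_lit 608) (nat_lit 10509859417) (nat_lit 191) (nat_lit 5) (nat_lit 198) (nat_lit 5) (nat_lit 199) (nat_lit 5) (nat_lit 374) (nat_lit 334) (nat_lit 192)) (XT.lf (nat_lit 0) (nat_lit 2132448310) (nat_lit 532) (nat_lit 14450234311) (nat_lit 608) (nat_lit 5603336854) (nat_lit 184) (nat_lit 5) (nat_lit 191) (nat_lit 5) (nat_lit 192) (nat_lit 5) (nat_lit 375) (nat_lit 334) (nat_lit 191)))))) (XT.nd (nat_lit 43758) (nat_lit 0) (nat_lit 17404) (XT.nd (nat_lit 156) (nat_lit 988) (nat_lit 0) (XT.nd (nat_lit 78) (nat_lit 608) (nat_lit 0) (XT.lf (nat_lit 0) (nat_lit 19734990823) (nat_lit 532) (nat_lit 2430299507) (nat_lit 608) (nat_lit 429521095) (nat_lit 184) (nat_lit 5) (nat_lit 191) (nat_lit 5) (nat_lit 192) (nat_lit 5) (nat_lit 376) (nat_lit 334) (nat_lit 190)) (XT.lf (nat_lit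 0) (nat_lit 4987253314) (nat_lit 608) (nat_lit 8078161189) (nat_lit 76) (nat_lit 9946781035) (nat_lit 176) (nat_lit 5) (nat_lit 184) (nat_lit 5) (nat_lit 177) (nat_lit 5) (nat_lit 377) (nat_lit 334) (nat_lit 189))) (XT.nd (nat_lit 78) (nat_lit 456) (nat_lit 0) (XT.lf (nat_lit 0) (nat_lit 9956607926) (nat_lit 532) (nat_lit 693900263) (nat_lit 608) (nat_lit 12789744479) (nat_lit 169) (nat_lit 5) (nat_lit 176) (nat_lit 5) (nat_lit 177) (nat_lit 5) (nat_lit 378) (nat_lit 334) (nat_lit 188)) (XT.nd (nat_lit 43446) (nat_lit 0) (nat_lit 18924) (XT.lf (nat_lit 0) (nat_lit 4732591018) (nat_lit 456) (nat_lit 11904702729) (nat_lit 532) (nat_lit 7240789503) (nat_lit 163) (nat_lit 5) (nat_lit 169) (nat_lit 5) (nat_lit 170) (nat_lit 5) (nat_lit 379) (nat_lit 334) (nat_lit 187)) (XT.lf (nat_lit 0) (nat_lit 2139382094) (nat_lit 0) (nat_lit 2139382094) (nat_lit 1596) (nat_lit 1630660674) (nat_lit 412) (nat_lit 5)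 (nat_lit 412) (nat_lit 3) (nat_lit 433) (nat_lit 3) (nat_lit 335) (nat_lit 335) (nat_lit 230))))) (XT.nd (nat_lit 156) (nat_lit 1520) (nat_lit 0) (XT.nd (nat_lit 78) (nat_lit 0) (nat_lit 0) (XT.lf (nat_lit 76) (nat_lit 698429964) (nat_lit 0) (nat_lit 8719856162) (nat_lit 1672) (nat_lit 2562763524) (nat_lit 413) (nat_lit 5) (nat_lit 412) (nat_lit 5) (nat_lit 434) (nat_lit 5) (nat_lit 336) (nat_lit 335) (nat_lit 229)) (XT.lf (nat_lit 76) (nat_lit 9243681650) (nat_lit 0) (nat_lit 1113129013) (nat_lit 1672) (nat_lit 1790283006) (nat_lit 413) (nat_lit 5) (nat_lit 412) (nat_lit 5) (nat_lit 434) (nat_lit 5) (nat_lit 337) (nat_lit 335) (nat_lit 228))) (XT.nd (nat_lit 78) (nat_lit 1596) (nat_lit 0) (XT.lf (nat_lit 76) (nat_lit 5744021215) (nat_lit 0) (nat_lit 5633715157) (nat_lit 1672) (nat_lit 939314206) (nat_lit 414) (nat_lit 5) (nat_lit 413) (nat_lit 5) (nat_lit 435) (nat_lit 5) (nat_lit 338) (nat_lit 335)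 (nat_lit 227)) (XT.nd (nat_lit 78) (nat_lit 1672) (nat_lit 0) (XT.lf (nat_lit 76) (nat_lit 2190572939) (nat_lit 0) (nat_lit 10268532067) (nat_lit 1672) (nat_lit 32420886) (nat_lit 415) (nat_lit 5) (nat_lit 414) (nat_lit 5) (nat_lit 436) (nat_lit 5) (nat_lit 339) (nat_lit 335) (nat_lit 226)) (XT.lf (nat_lit 0) (nat_lit 946905803) (nat_lit 1672) (nat_lit 1422431446) (nat_lit 1748) (nat_lit 10300655313) (nat_lit 392) (nat_lit 5) (nat_lit 414) (nat_lit 5) (nat_lit 415) (nat_lit 5) (nat_lit 340) (nat_lit 335) (nat_lit 225))))))))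
noncomputable def xc109 : XT := (XT.nd (nat_lit 1482) (nat_lit 9956) (nat_lit 0) (XT.nd (nat_lit 702) (nat_lit 6536) (nat_lit 0) (XT.nd (nat_lit 312) (nat_lit 0) (nat_lit 152) (XT.nd (nat_lit 156) (nat_lit 0) (nat_lit 76) (XT.nd (nat_lit 78) (nat_lit 0) (nat_lit 76) (XT.lf (nat_lit 0) (nat_lit 2019006619) (nat_lit 1672) (nat_lit 5081363750) (nat_lit 1748) (nat_lit 5752176666) (nat_lit 393) (nat_lit 5) (nat_lit 415) (nat_lit 5) (nat_lit 416) (nat_lit 5) (nat_lit 341) (nat_lit 335) (nat_lit 224)) (XT.lf (nat_lit 0) (nat_lit 3159433009) (nat_lit 1672) (nat_lit 8802841876) (nat_lit 1748) (nat_lit 1077594362) (nat_lit 394) (nat_lit 5) (nat_lit 416) (nat_lit 5) (nat_lit 417) (nat_lit 5) (nat_lit 342) (nat_lit 335) (nat_lit 223))) (XT.nd (nat_lit 78) (nat_lit 0) (nat_lit 76) (XT.lf (nat_lit 76) (nat_lit 617307297) (nat_lit 0) (nat_lit 3779544238) (nat_lit 1748) (nat_lit 8834717939) (nat_lit 395) (nat_lit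 5) (nat_lit 394) (nat_lit 5) (nat_lit 417) (nat_lit 5) (nat_lit 343) (nat_lit 335) (nat_lit 222)) (XT.lf (nat_lit 0) (nat_lit 5738878816) (nat_lit 1672) (nat_lit 3033596357) (nat_lit 1748) (nat_lit 4655209342) (nat_lit 395) (nat_lit 5) (nat_lit 417) (nat_lit 5) (nat_lit 418) (nat_lit 5) (nat_lit 344) (nat_lit 335) (nat_lit 221)))) (XT.nd (nat_lit 156) (nat_lit 0) (nat_lit 152) (XT.nd (nat_lit 78) (nat_lit 0) (nat_lit 76) (XT.lf (nat_lit 76) (nat_lit 6884213273) (nat_lit 0) (nat_lit 284846480) (nat_lit 1748) (nat_lit 6459678534) (nat_lit 396) (nat_lit 5) (nat_lit 395) (nat_lit 5) (nat_lit 418) (nat_lit 5) (nat_lit 345) (nat_lit 335) (nat_lit 220)) (XT.lf (nat_lit 76) (nat_lit 3278088526) (nat_lit 0) (nat_lit 5439453058) (nat_lit 1748) (nat_lit 5116786933) (nat_lit 397) (nat_lit 5) (nat_lit 396) (nat_lit 5) (nat_lit 419) (nat_lit 5) (nat_lit 346) (nat_lit 335) (nat_lit 219))) (XT.nd (nat_lit 78) (nat_lit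 0) (nat_lit 0) (XT.lf (nat_lit 0) (nat_lit 10360776685) (nat_lit 1672) (nat_lit 390738426) (nat_lit 1748) (nat_lit 3293617748) (nat_lit 397) (nat_lit 5) (nat_lit 419) (nat_lit 5) (nat_lit 420) (nat_lit 5) (nat_lit 347) (nat_lit 335) (nat_lit 218)) (XT.nd (nat_lit 78) (nat_lit 0) (nat_lit 76) (XT.lf (nat_lit 76) (nat_lit 10161335742) (nat_lit 0) (nat_lit 1974004653) (nat_lit 1748) (nat_lit 2125292327) (nat_lit 398) (nat_lit 5) (nat_lit 397) (nat_lit 5) (nat_lit 420) (nat_lit 5) (nat_lit 348) (nat_lit 335) (nat_lit 217)) (XT.lf (nat_lit 76) (nat_lit 6577667768) (nat_lit 0) (nat_lit 7456934348) (nat_lit 1748) (nat_lit 446577915) (nat_lit 399) (nat_lit 5) (nat_lit 398) (nat_lit 5) (nat_lit 421) (nat_lit 5) (nat_lit 349) (nat_lit 335) (nat_lit 216)))))) (XT.nd (nat_lit 390) (nat_lit 2660) (nat_lit 0) (XT.nd (nat_lit 156) (nat_lit 2584) (nat_lit 0) (XT.nd (nat_lit 78) (nat_lit 0) (nat_lit 0) (XT.lf (nat_lit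 0) (nat_lit 1316878711) (nat_lit 1748) (nat_lit 11793466369) (nat_lit 1824) (nat_lit 1596819234) (nat_lit 376) (nat_lit 5) (nat_lit 399) (nat_lit 5) (nat_lit 400) (nat_lit 5) (nat_lit 350) (nat_lit 335) (nat_lit 215)) (XT.lf (nat_lit 0) (nat_lit 3212022786) (nat_lit 1748) (nat_lit 844114460) (nat_lit 1824) (nat_lit 10882045606) (nat_lit 376) (nat_lit 5) (nat_lit 399) (nat_lit 5) (nat_lit 400) (nat_lit 5) (nat_lit 351) (nat_lit 335) (nat_lit 214))) (XT.nd (nat_lit 78) (nat_lit 2660) (nat_lit 0) (XT.lf (nat_lit 0) (nat_lit 5248842705) (nat_lit 1748) (nat_lit 4652855737) (nat_lit 76) (nat_lit 5272747547) (nat_lit 377) (nat_lit 5) (nat_lit 400) (nat_lit 5) (nat_lit 378) (nat_lit 5) (nat_lit 352) (nat_lit 335) (nat_lit 213)) (XT.nd (nat_lit 78) (nat_lit 912) (nat_lit 0) (XT.lf (nat_lit 0) (nat_lit 6869728518) (nat_lit 1748) (nat_lit 536572829) (nat_lit 1824) (nat_lit 8010315156) (nat_lit 354) (nat_lit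 5) (nat_lit 377) (nat_lit 5) (nat_lit 378) (nat_lit 5) (nat_lit 353) (nat_lit 335) (nat_lit 212)) (XT.lf (nat_lit 0) (nat_lit 3102117588) (nat_lit 912) (nat_lit 6619879034) (nat_lit 988) (nat_lit 5942195124) (nat_lit 342) (nat_lit 5) (nat_lit 354) (nat_lit 5) (nat_lit 355) (nat_lit 5) (nat_lit 354) (nat_lit 335) (nat_lit 211))))) (XT.nd (nat_lit 156) (nat_lit 1748) (nat_lit 0) (XT.nd (nat_lit 78) (nat_lit 912) (nat_lit 0) (XT.lf (nat_lit 0) (nat_lit 12171328301) (nat_lit 988) (nat_lit 739372306) (nat_lit 76) (nat_lit 3007219912) (nat_lit 342) (nat_lit 5) (nat_lit 355) (nat_lit 5) (nat_lit 343) (nat_lit 5) (nat_lit 355) (nat_lit 335) (nat_lit 210)) (XT.lf (nat_lit 0) (nat_lit 11529826145) (nat_lit 912) (nat_lit 3266853132) (nat_lit 988) (nat_lit 1380540396) (nat_lit 330) (nat_lit 5) (nat_lit 342) (nat_lit 5) (nat_lit 343) (nat_lit 5) (nat_lit 356) (nat_lit 335) (nat_lit 209))) (XT.nd (nat_lit 78) (nat_lit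 836) (nat_lit 0) (XT.lf (nat_lit 0) (nat_lit 1125795773) (nat_lit 912) (nat_lit 8673589162) (nat_lit 76) (nat_lit 6643121353) (nat_lit 318) (nat_lit 5) (nat_lit 330) (nat_lit 5) (nat_lit 319) (nat_lit 5) (nat_lit 357) (nat_lit 335) (nat_lit 208)) (XT.nd (nat_lit 78) (nat_lit 0) (nat_lit 0) (XT.lf (nat_lit 0) (nat_lit 3752714040) (nat_lit 912) (nat_lit 12804333854) (nat_lit 76) (nat_lit 157246737) (nat_lit 307) (nat_lit 5) (nat_lit 319) (nat_lit 5) (nat_lit 308) (nat_lit 5) (nat_lit 358) (nat_lit 335) (nat_lit 207)) (XT.lf (nat_lit 0) (nat_lit 6567574036) (nat_lit 912) (nat_lit 84517244) (nat_lit 76) (nat_lit 10339971008) (nat_lit 307) (nat_lit 5) (nat_lit 319) (nat_lit 5) (nat_lit 308) (nat_lit 5) (nat_lit 359) (nat_lit 335) (nat_lit 206))))))) (XT.nd (nat_lit 780) (nat_lit 4104) (nat_lit 0) (XT.nd (nat_lit 390) (nat_lit 2736) (nat_lit 0) (XT.nd (nat_lit 156) (nat_lit 1596) (nat_lit 0) (XT.nd (nat_lit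 78) (nat_lit 760) (nat_lit 0) (XT.lf (nat_lit 0) (nat_lit 9560927475) (nat_lit 836) (nat_lit 4125527160) (nat_lit 76) (nat_lit 3589835492) (nat_lit 297) (nat_lit 5) (nat_lit 308) (nat_lit 5) (nat_lit 298) (nat_lit 5) (nat_lit 360) (nat_lit 335) (nat_lit 205)) (XT.lf (nat_lit 0) (nat_lit 9277516728) (nat_lit 760) (nat_lit 3457099467) (nat_lit 836) (nat_lit 4832625780) (nat_lit 287) (nat_lit 5) (nat_lit 297) (nat_lit 5) (nat_lit 298) (nat_lit 5) (nat_lit 361) (nat_lit 335) (nat_lit 204))) (XT.nd (nat_lit 78) (nat_lit 836) (nat_lit 0) (XT.lf (nat_lit 0) (nat_lit 5280923715) (nat_lit 760) (nat_lit 10816552865) (nat_lit 836) (nat_lit 1767574218) (nat_lit 277) (nat_lit 5) (nat_lit 287) (nat_lit 5) (nat_lit 288) (nat_lit 5) (nat_lit 362) (nat_lit 335) (nat_lit 203)) (XT.nd (nat_lit 78) (nat_lit 0) (nat_lit 0) (XT.lf (nat_lit 0) (nat_lit 1169415603) (nat_lit 760) (nat_lit 274842619) (nat_lit 836) (nat_lit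 16725901475) (nat_lit 266) (nat_lit 5) (nat_lit 276) (nat_lit 5) (nat_lit 277) (nat_lit 5) (nat_lit 363) (nat_lit 335) (nat_lit 202)) (XT.lf (nat_lit 0) (nat_lit 4869227404) (nat_lit 836) (nat_lit 3070936249) (nat_lit 76) (nat_lit 10541215671) (nat_lit 266) (nat_lit 5) (nat_lit 277) (nat_lit 5) (nat_lit 267) (nat_lit 5) (nat_lit 364) (nat_lit 335) (nat_lit 201))))) (XT.nd (nat_lit 156) (nat_lit 1368) (nat_lit 0) (XT.nd (nat_lit 78) (nat_lit 684) (nat_lit 0) (XT.lf (nat_lit 0) (nat_lit 8478535754) (nat_lit 760) (nat_lit 7409783560) (nat_lit 76) (nat_lit 2911991280) (nat_lit 257) (nat_lit 5) (nat_lit 267) (nat_lit 5) (nat_lit 258) (nat_lit 5) (nat_lit 365) (nat_lit 335) (nat_lit 200)) (XT.lf (nat_lit 0) (nat_lit 7226482531) (nat_lit 684) (nat_lit 5077412475) (nat_lit 760) (nat_lit 6822766015) (nat_lit 248) (nat_lit 5) (nat_lit 257) (nat_lit 5) (nat_lit 258) (nat_lit 5) (nat_lit 366) (nat_lit 335) (nat_lit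 199))) (XT.nd (nat_lit 78) (nat_lit 760) (nat_lit 0) (XT.lf (nat_lit 0) (nat_lit 2925618612) (nat_lit 608) (nat_lit 13414354551) (nat_lit 684) (nat_lit 3120916098) (nat_lit 240) (nat_lit 5) (nat_lit 248) (nat_lit 5) (nat_lit 249) (nat_lit 5) (nat_lit 367) (nat_lit 335) (nat_lit 198)) (XT.nd (nat_lit 78) (nat_lit 684) (nat_lit 0) (XT.lf (nat_lit 0) (nat_lit 785323476) (nat_lit 684) (nat_lit 1497923913) (nat_lit 76) (nat_lit 17519765055) (nat_lit 239) (nat_lit 5) (nat_lit 248) (nat_lit 5) (nat_lit 240) (nat_lit 5) (nat_lit 368) (nat_lit 335) (nat_lit 197)) (XT.lf (nat_lit 0) (nat_lit 4906405320) (nat_lit 760) (nat_lit 6072682669) (nat_lit 76) (nat_lit 9173103597) (nat_lit 230) (nat_lit 5) (nat_lit 240) (nat_lit 5) (nat_lit 231) (nat_lit 5) (nat_lit 369) (nat_lit 335) (nat_lit 196)))))) (XT.nd (nat_lit 390) (nat_lit 1672) (nat_lit 0) (XT.nd (nat_lit 156) (nat_lit 1216) (nat_lit 0) (XT.nd (nat_lit 78)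 (nat_lit 608) (nat_lit 0) (XT.lf (nat_lit 0) (nat_lit 9230968820) (nat_lit 684) (nat_lit 10782250136) (nat_lit 76) (nat_lit 497035959) (nat_lit 222) (nat_lit 5) (nat_lit 231) (nat_lit 5) (nat_lit 223) (nat_lit 5) (nat_lit 370) (nat_lit 335) (nat_lit 195)) (XT.lf (nat_lit 0) (nat_lit 5187866874) (nat_lit 608) (nat_lit 8634089674) (nat_lit 684) (nat_lit 7054375476) (nat_lit 214) (nat_lit 5) (nat_lit 222) (nat_lit 5) (nat_lit 223) (nat_lit 5) (nat_lit 371) (nat_lit 335) (nat_lit 194))) (XT.nd (nat_lit 78) (nat_lit 684) (nat_lit 0) (XT.lf (nat_lit 0) (nat_lit 504771604) (nat_lit 532) (nat_lit 18131166007) (nat_lit 608) (nat_lit 2615754027) (nat_lit 207) (nat_lit 5) (nat_lit 214) (nat_lit 5) (nat_lit 215) (nat_lit 5) (nat_lit 372) (nat_lit 335) (nat_lit 193)) (XT.nd (nat_lit 78) (nat_lit 608) (nat_lit 0) (XT.lf (nat_lit 0) (nat_lit 2083693573) (nat_lit 608) (nat_lit 4322778891) (nat_lit 76) (nat_lit 15228524355)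 (nat_lit 206) (nat_lit 5) (nat_lit 214) (nat_lit 5) (nat_lit 207) (nat_lit 5) (nat_lit 373) (nat_lit 335) (nat_lit 192)) (XT.lf (nat_lit 0) (nat_lit 6997800947) (nat_lit 684) (nat_lit 9335529116) (nat_lit 76) (nat_lit 5693946057) (nat_lit 198) (nat_lit 5) (nat_lit 207) (nat_lit 5) (nat_lit 199) (nat_lit 5) (nat_lit 374) (nat_lit 335) (nat_lit 191))))) (XT.nd (nat_lit 156) (nat_lit 608) (nat_lit 0) (XT.nd (nat_lit 78) (nat_lit 532) (nat_lit 0) (XT.lf (nat_lit 0) (nat_lit 7892031696) (nat_lit 532) (nat_lit 4279989878) (nat_lit 608) (nat_lit 10257053325) (nat_lit 191) (nat_lit 5) (nat_lit 198) (nat_lit 5) (nat_lit 199) (nat_lit 5) (nat_lit 375) (nat_lit 335) (nat_lit 190)) (XT.lf (nat_lit 0) (nat_lit 2893699765) (nat_lit 532) (nat_lit 14732386679) (nat_lit 608) (nat_lit 5214353606) (nat_lit 184) (nat_lit 5) (nat_lit 191) (nat_lit 5) (nat_lit 192) (nat_lit 5) (nat_lit 376) (nat_lit 335) (nat_lit 189)))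 (XT.nd (nat_lit 78) (nat_lit 532) (nat_lit 0) (XT.lf (nat_lit 0) (nat_lit 97159695) (nat_lit 608) (nat_lit 2258450531) (nat_lit 76) (nat_lit 20906197796) (nat_lit 183) (nat_lit 5) (nat_lit 191) (nat_lit 5) (nat_lit 184) (nat_lit 5) (nat_lit 377) (nat_lit 335) (nat_lit 188)) (XT.nd (nat_lit 43602) (nat_lit 0) (nat_lit 17936) (XT.lf (nat_lit 0) (nat_lit 5660437171) (nat_lit 608) (nat_lit 7637618390) (nat_lit 76) (nat_lit 10393811306) (nat_lit 176) (nat_lit 5) (nat_lit 184) (nat_lit 5) (nat_lit 177) (nat_lit 5) (nat_lit 378) (nat_lit 335) (nat_lit 187)) (XT.lf (nat_lit 0) (nat_lit 2553385599) (nat_lit 0) (nat_lit 2553385599) (nat_lit 1596) (nat_lit 965512786) (nat_lit 412) (nat_lit 5) (nat_lit 412) (nat_lit 3) (nat_lit 433) (nat_lit 3) (nat_lit 336) (nat_lit 336) (nat_lit 228))))))))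
noncomputable def xc110 : XT := (XT.nd (nat_lit 1482) (nat_lit 10944) (nat_lit 0) (XT.nd (nat_lit 702) (nat_lit 3724) (nat_lit 0) (XT.nd (nat_lit 312) (nat_lit 0) (nat_lit 76) (XT.nd (nat_lit 156) (nat_lit 1596) (nat_lit 0) (XT.nd (nat_lit 78) (nat_lit 0) (nat_lit 0) (XT.lf (nat_lit 76) (nat_lit 1440524144) (nat_lit 0) (nat_lit 9619114653) (nat_lit 1672) (nat_lit 1252829872) (nat_lit 413) (nat_lit 5) (nat_lit 412) (nat_lit 5) (nat_lit 434) (nat_lit 5) (nat_lit 337) (nat_lit 336) (nat_lit 227)) (XT.lf (nat_lit 76) (nat_lit 10221129265) (nat_lit 0) (nat_lit 1765612986) (nat_lit 1672) (nat_lit 497567654) (nat_lit 413) (nat_lit 5) (nat_lit 412) (nat_lit 5) (nat_lit 434) (nat_lit 5) (nat_lit 338) (nat_lit 336) (nat_lit 226))) (XT.nd (nat_lit 78) (nat_lit 0) (nat_lit 76) (XT.lf (nat_lit 0) (nat_lit 336032586) (nat_lit 1672) (nat_lit 6026523220) (nat_lit 1748) (nat_lit 6297542255) (nat_lit 391) (nat_lit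 5) (nat_lit 413) (nat_lit 5) (nat_lit 414) (nat_lit 5) (nat_lit 339) (nat_lit 336) (nat_lit 225)) (XT.lf (nat_lit 0) (nat_lit 1221537391) (nat_lit 1672) (nat_lit 9854946257) (nat_lit 1748) (nat_lit 1763952091) (nat_lit 392) (nat_lit 5) (nat_lit 414) (nat_lit 5) (nat_lit 415) (nat_lit 5) (nat_lit 340) (nat_lit 336) (nat_lit 224)))) (XT.nd (nat_lit 156) (nat_lit 0) (nat_lit 152) (XT.nd (nat_lit 78) (nat_lit 0) (nat_lit 76) (XT.lf (nat_lit 0) (nat_lit 2193267290) (nat_lit 1672) (nat_lit 732270921) (nat_lit 1748) (nat_lit 10099466490) (nat_lit 392) (nat_lit 5) (nat_lit 414) (nat_lit 5) (nat_lit 415) (nat_lit 5) (nat_lit 341) (nat_lit 336) (nat_lit 223)) (XT.lf (nat_lit 0) (nat_lit 3263710593) (nat_lit 1672) (nat_lit 4485383013) (nat_lit 1748) (nat_lit 5464639834) (nat_lit 393) (nat_lit 5) (nat_lit 415) (nat_lit 5) (nat_lit 416) (nat_lit 5) (nat_lit 342) (nat_lit 336) (nat_lit 222))) (XT.nd (nat_lit 78)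 (nat_lit 0) (nat_lit 0) (XT.lf (nat_lit 0) (nat_lit 4405925977) (nat_lit 1672) (nat_lit 8304157631) (nat_lit 1748) (nat_lit 697260787) (nat_lit 394) (nat_lit 5) (nat_lit 416) (nat_lit 5) (nat_lit 417) (nat_lit 5) (nat_lit 343) (nat_lit 336) (nat_lit 221)) (XT.nd (nat_lit 78) (nat_lit 0) (nat_lit 76) (XT.lf (nat_lit 76) (nat_lit 1386220989) (nat_lit 0) (nat_lit 4265573178) (nat_lit 1748) (nat_lit 7953594922) (nat_lit 395) (nat_lit 5) (nat_lit 394) (nat_lit 5) (nat_lit 417) (nat_lit 5) (nat_lit 344) (nat_lit 336) (nat_lit 220)) (XT.lf (nat_lit 0) (nat_lit 6999023475) (nat_lit 1672) (nat_lit 2371263097) (nat_lit 1748) (nat_lit 4437821604) (nat_lit 395) (nat_lit 5) (nat_lit 417) (nat_lit 5) (nat_lit 418) (nat_lit 5) (nat_lit 345) (nat_lit 336) (nat_lit 219)))))) (XT.nd (nat_lit 390) (nat_lit 2508) (nat_lit 0) (XT.nd (nat_lit 156) (nat_lit 1520) (nat_lit 0) (XT.nd (nat_lit 78) (nat_lit 0) (nat_lit 76)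 (XT.lf (nat_lit 76) (nat_lit 7831858757) (nat_lit 0) (nat_lit 613374232) (nat_lit 1748) (nat_lit 5570516964) (nat_lit 396) (nat_lit 5) (nat_lit 395) (nat_lit 5) (nat_lit 418) (nat_lit 5) (nat_lit 346) (nat_lit 336) (nat_lit 218)) (XT.lf (nat_lit 76) (nat_lit 4129066307) (nat_lit 0) (nat_lit 5883066679) (nat_lit 1748) (nat_lit 4215953933) (nat_lit 397) (nat_lit 5) (nat_lit 396) (nat_lit 5) (nat_lit 419) (nat_lit 5) (nat_lit 347) (nat_lit 336) (nat_lit 217))) (XT.nd (nat_lit 78) (nat_lit 1672) (nat_lit 0) (XT.lf (nat_lit 76) (nat_lit 355332993) (nat_lit 0) (nat_lit 11319782222) (nat_lit 1748) (nat_lit 2770708947) (nat_lit 398) (nat_lit 5) (nat_lit 397) (nat_lit 5) (nat_lit 420) (nat_lit 5) (nat_lit 348) (nat_lit 336) (nat_lit 216)) (XT.nd (nat_lit 78) (nat_lit 1672) (nat_lit 0) (XT.lf (nat_lit 76) (nat_lit 11207090438) (nat_lit 0) (nat_lit 2269167447) (nat_lit 1748) (nat_lit 1192081548) (nat_lit 398)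 (nat_lit 5) (nat_lit 397) (nat_lit 5) (nat_lit 420) (nat_lit 5) (nat_lit 349) (nat_lit 336) (nat_lit 215)) (XT.lf (nat_lit 0) (nat_lit 504700250) (nat_lit 1748) (nat_lit 7374156704) (nat_lit 1824) (nat_lit 7017097926) (nat_lit 375) (nat_lit 5) (nat_lit 398) (nat_lit 5) (nat_lit 399) (nat_lit 5) (nat_lit 350) (nat_lit 336) (nat_lit 214))))) (XT.nd (nat_lit 156) (nat_lit 2584) (nat_lit 0) (XT.nd (nat_lit 78) (nat_lit 0) (nat_lit 0) (XT.lf (nat_lit 0) (nat_lit 2290784883) (nat_lit 1748) (nat_lit 11375740966) (nat_lit 1824) (nat_lit 1462633917) (nat_lit 376) (nat_lit 5) (nat_lit 399) (nat_lit 5) (nat_lit 400) (nat_lit 5) (nat_lit 351) (nat_lit 336) (nat_lit 213)) (XT.lf (nat_lit 0) (nat_lit 4215567752) (nat_lit 1748) (nat_lit 120380230) (nat_lit 1824) (nat_lit 11031720669) (nat_lit 376) (nat_lit 5) (nat_lit 399) (nat_lit 5) (nat_lit 400) (nat_lit 5) (nat_lit 352) (nat_lit 336) (nat_lit 212))) (XT.nd (nat_lit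 78) (nat_lit 2660) (nat_lit 0) (XT.lf (nat_lit 0) (nat_lit 6290888827) (nat_lit 1748) (nat_lit 4036359351) (nat_lit 76) (nat_lit 5284238601) (nat_lit 377) (nat_lit 5) (nat_lit 400) (nat_lit 5) (nat_lit 378) (nat_lit 5) (nat_lit 353) (nat_lit 336) (nat_lit 211)) (XT.nd (nat_lit 78) (nat_lit 912) (nat_lit 0) (XT.lf (nat_lit 0) (nat_lit 7819635899) (nat_lit 1748) (nat_lit 672500183) (nat_lit 1824) (nat_lit 7369219622) (nat_lit 354) (nat_lit 5) (nat_lit 377) (nat_lit 5) (nat_lit 378) (nat_lit 5) (nat_lit 354) (nat_lit 336) (nat_lit 210)) (XT.lf (nat_lit 0) (nat_lit 3945165682) (nat_lit 912) (nat_lit 6911095844) (nat_lit 988) (nat_lit 5260531658) (nat_lit 342) (nat_lit 5) (nat_lit 354) (nat_lit 5) (nat_lit 355) (nat_lit 5) (nat_lit 355) (nat_lit 336) (nat_lit 209))))))) (XT.nd (nat_lit 780) (nat_lit 5168) (nat_lit 0) (XT.nd (nat_lit 390) (nat_lit 2356) (nat_lit 0) (XT.nd (nat_lit 156) (nat_lit 2508) (nat_lit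 0) (XT.nd (nat_lit 78) (nat_lit 912) (nat_lit 0) (XT.lf (nat_lit 0) (nat_lit 13353947425) (nat_lit 988) (nat_lit 16009559) (nat_lit 76) (nat_lit 3008693105) (nat_lit 342) (nat_lit 5) (nat_lit 355) (nat_lit 5) (nat_lit 343) (nat_lit 5) (nat_lit 356) (nat_lit 336) (nat_lit 208)) (XT.lf (nat_lit 0) (nat_lit 12609169281) (nat_lit 912) (nat_lit 3429841606) (nat_lit 988) (nat_lit 607111644) (nat_lit 330) (nat_lit 5) (nat_lit 342) (nat_lit 5) (nat_lit 343) (nat_lit 5) (nat_lit 357) (nat_lit 336) (nat_lit 207))) (XT.nd (nat_lit 78) (nat_lit 1596) (nat_lit 0) (XT.lf (nat_lit 0) (nat_lit 1944717401) (nat_lit 912) (nat_lit 8184827439) (nat_lit 76) (nat_lit 6790110013) (nat_lit 318) (nat_lit 5) (nat_lit 330) (nat_lit 5) (nat_lit 319) (nat_lit 5) (nat_lit 358) (nat_lit 336) (nat_lit 206)) (XT.nd (nat_lit 78) (nat_lit 760) (nat_lit 0) (XT.lf (nat_lit 0) (nat_lit 4632162376) (nat_lit 912) (nat_lit 12435696645) (nat_lit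 76) (nat_lit 132115782) (nat_lit 307) (nat_lit 5) (nat_lit 319) (nat_lit 5) (nat_lit 308) (nat_lit 5) (nat_lit 359) (nat_lit 336) (nat_lit 205)) (XT.lf (nat_lit 0) (nat_lit 652344823) (nat_lit 760) (nat_lit 6861022875) (nat_lit 836) (nat_lit 9973081782) (nat_lit 297) (nat_lit 5) (nat_lit 307) (nat_lit 5) (nat_lit 308) (nat_lit 5) (nat_lit 360) (nat_lit 336) (nat_lit 204))))) (XT.nd (nat_lit 156) (nat_lit 1596) (nat_lit 0) (XT.nd (nat_lit 78) (nat_lit 760) (nat_lit 0) (XT.lf (nat_lit 0) (nat_lit 10575213669) (nat_lit 836) (nat_lit 3515314685) (nat_lit 76) (nat_lit 3689113593) (nat_lit 297) (nat_lit 5) (nat_lit 308) (nat_lit 5) (nat_lit 298) (nat_lit 5) (nat_lit 361) (nat_lit 336) (nat_lit 203)) (XT.lf (nat_lit 0) (nat_lit 10277912595) (nat_lit 760) (nat_lit 3549700507) (nat_lit 836) (nat_lit 4252050540) (nat_lit 287) (nat_lit 5) (nat_lit 297) (nat_lit 5) (nat_lit 298) (nat_lit 5) (nat_lit 362) (nat_lit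 336) (nat_lit 202))) (XT.nd (nat_lit 78) (nat_lit 836) (nat_lit 0) (XT.lf (nat_lit 0) (nat_lit 6163994879) (nat_lit 760) (nat_lit 11111431805) (nat_lit 836) (nat_lit 1111309662) (nat_lit 277) (nat_lit 5) (nat_lit 287) (nat_lit 5) (nat_lit 288) (nat_lit 5) (nat_lit 363) (nat_lit 336) (nat_lit 201)) (XT.nd (nat_lit 78) (nat_lit 0) (nat_lit 0) (XT.lf (nat_lit 0) (nat_lit 1926889093) (nat_lit 760) (nat_lit 244988372) (nat_lit 836) (nat_lit 16529353333) (nat_lit 266) (nat_lit 5) (nat_lit 276) (nat_lit 5) (nat_lit 277) (nat_lit 5) (nat_lit 364) (nat_lit 336) (nat_lit 200)) (XT.lf (nat_lit 0) (nat_lit 5679905065) (nat_lit 836) (nat_lit 2448329052) (nat_lit 76) (nat_lit 10893956844) (nat_lit 266) (nat_lit 5) (nat_lit 277) (nat_lit 5) (nat_lit 267) (nat_lit 5) (nat_lit 365) (nat_lit 336) (nat_lit 199)))))) (XT.nd (nat_lit 390) (nat_lit 2432) (nat_lit 0) (XT.nd (nat_lit 156) (nat_lit 1368) (nat_lit 0) (XT.nd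 (nat_lit 78) (nat_lit 684) (nat_lit 0) (XT.lf (nat_lit 0) (nat_lit 9383046866) (nat_lit 760) (nat_lit 6915959705) (nat_lit 76) (nat_lit 3051982349) (nat_lit 257) (nat_lit 5) (nat_lit 267) (nat_lit 5) (nat_lit 258) (nat_lit 5) (nat_lit 366) (nat_lit 336) (nat_lit 198)) (XT.lf (nat_lit 0) (nat_lit 8147776215) (nat_lit 684) (nat_lit 5161028203) (nat_lit 760) (nat_lit 6378622242) (nat_lit 248) (nat_lit 5) (nat_lit 257) (nat_lit 5) (nat_lit 258) (nat_lit 5) (nat_lit 367) (nat_lit 336) (nat_lit 197))) (XT.nd (nat_lit 78) (nat_lit 760) (nat_lit 0) (XT.lf (nat_lit 0) (nat_lit 3718840591) (nat_lit 608) (nat_lit 13733619466) (nat_lit 684) (nat_lit 2579501059) (nat_lit 240) (nat_lit 5) (nat_lit 248) (nat_lit 5) (nat_lit 249) (nat_lit 5) (nat_lit 368) (nat_lit 336) (nat_lit 196)) (XT.nd (nat_lit 78) (nat_lit 684) (nat_lit 0) (XT.lf (nat_lit 0) (nat_lit 1417343204) (nat_lit 684) (nat_lit 849575100) (nat_lit 76)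 (nat_lit 18117721129) (nat_lit 239) (nat_lit 5) (nat_lit 248) (nat_lit 5) (nat_lit 240) (nat_lit 5) (nat_lit 369) (nat_lit 336) (nat_lit 195)) (XT.lf (nat_lit 0) (nat_lit 5649327650) (nat_lit 760) (nat_lit 5561199467) (nat_lit 76) (nat_lit 9534029999) (nat_lit 230) (nat_lit 5) (nat_lit 240) (nat_lit 5) (nat_lit 231) (nat_lit 5) (nat_lit 370) (nat_lit 336) (nat_lit 194))))) (XT.nd (nat_lit 156) (nat_lit 1216) (nat_lit 0) (XT.nd (nat_lit 78) (nat_lit 608) (nat_lit 0) (XT.lf (nat_lit 0) (nat_lit 10091354020) (nat_lit 684) (nat_lit 10412021014) (nat_lit 76) (nat_lit 610241111) (nat_lit 222) (nat_lit 5) (nat_lit 231) (nat_lit 5) (nat_lit 223) (nat_lit 5) (nat_lit 371) (nat_lit 336) (nat_lit 193)) (XT.lf (nat_lit 0) (nat_lit 6025945103) (nat_lit 608) (nat_lit 8781563277) (nat_lit 684) (nat_lit 6683426524) (nat_lit 214) (nat_lit 5) (nat_lit 222) (nat_lit 5) (nat_lit 223) (nat_lit 5) (nat_lit 372) (nat_lit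 336) (nat_lit 192))) (XT.nd (nat_lit 78) (nat_lit 684) (nat_lit 0) (XT.lf (nat_lit 0) (nat_lit 1202070131) (nat_lit 532) (nat_lit 18552342948) (nat_lit 608) (nat_lit 2123379983) (nat_lit 207) (nat_lit 5) (nat_lit 214) (nat_lit 5) (nat_lit 215) (nat_lit 5) (nat_lit 373) (nat_lit 336) (nat_lit 191)) (XT.nd (nat_lit 78) (nat_lit 608) (nat_lit 0) (XT.lf (nat_lit 0) (nat_lit 2693155747) (nat_lit 608) (nat_lit 3782657997) (nat_lit 76) (nat_lit 15797045164) (nat_lit 206) (nat_lit 5) (nat_lit 214) (nat_lit 5) (nat_lit 207) (nat_lit 5) (nat_lit 374) (nat_lit 336) (nat_lit 190)) (XT.lf (nat_lit 0) (nat_lit 7743836722) (nat_lit 684) (nat_lit 8946512727) (nat_lit 76) (nat_lit 5986781376) (nat_lit 198) (nat_lit 5) (nat_lit 207) (nat_lit 5) (nat_lit 199) (nat_lit 5) (nat_lit 375) (nat_lit 336) (nat_lit 189))))))))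
noncomputable def xc111 : XT := (XT.nd (nat_lit 45084) (nat_lit 0) (nat_lit 2964) (XT.nd (nat_lit 44304) (nat_lit 0) (nat_lit 14592) (XT.nd (nat_lit 43914) (nat_lit 0) (nat_lit 15732) (XT.nd (nat_lit 156) (nat_lit 76) (nat_lit 0) (XT.nd (nat_lit 78) (nat_lit 532) (nat_lit 0) (XT.lf (nat_lit 0) (nat_lit 8787019844) (nat_lit 532) (nat_lit 4274923158) (nat_lit 608) (nat_lit 10029274422) (nat_lit 191) (nat_lit 5) (nat_lit 198) (nat_lit 5) (nat_lit 199) (nat_lit 5) (nat_lit 376) (nat_lit 336) (nat_lit 188)) (XT.lf (nat_lit 0) (nat_lit 3637762153) (nat_lit 532) (nat_lit 15031691996) (nat_lit 608) (nat_lit 4845679724) (nat_lit 184) (nat_lit 5) (nat_lit 191) (nat_lit 5) (nat_lit 192) (nat_lit 5) (nat_lit 377) (nat_lit 336) (nat_lit 187))) (XT.nd (nat_lit 43680) (nat_lit 0) (nat_lit 17404) (XT.lf (nat_lit 0) (nat_lit 603198418) (nat_lit 608) (nat_lit 1681192933) (nat_lit 76) (nat_lit 21664991722) (nat_lit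 183) (nat_lit 5) (nat_lit 191) (nat_lit 5) (nat_lit 184) (nat_lit 5) (nat_lit 378) (nat_lit 336) (nat_lit 186)) (XT.lf (nat_lit 0) (nat_lit 2959727993) (nat_lit 0) (nat_lit 2959727993) (nat_lit 1596) (nat_lit 321400869) (nat_lit 412) (nat_lit 5) (nat_lit 412) (nat_lit 3) (nat_lit 433) (nat_lit 3) (nat_lit 337) (nat_lit 337) (nat_lit 226)))) (XT.nd (nat_lit 156) (nat_lit 0) (nat_lit 76) (XT.nd (nat_lit 78) (nat_lit 0) (nat_lit 0) (XT.lf (nat_lit 0) (nat_lit 16572604) (nat_lit 1672) (nat_lit 10492062629) (nat_lit 1748) (nat_lit 2146800873) (nat_lit 390) (nat_lit 5) (nat_lit 412) (nat_lit 5) (nat_lit 413) (nat_lit 5) (nat_lit 338) (nat_lit 337) (nat_lit 225)) (XT.lf (nat_lit 0) (nat_lit 746715466) (nat_lit 1672) (nat_lit 1650406853) (nat_lit 1748) (nat_lit 10435983250) (nat_lit 390) (nat_lit 5) (nat_lit 412) (nat_lit 5) (nat_lit 413) (nat_lit 5) (nat_lit 339) (nat_lit 337) (nat_lit 224))) (XT.nd (nat_lit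 78) (nat_lit 0) (nat_lit 76) (XT.lf (nat_lit 0) (nat_lit 1562851585) (nat_lit 1672) (nat_lit 5512234164) (nat_lit 1748) (nat_lit 5939751943) (nat_lit 391) (nat_lit 5) (nat_lit 413) (nat_lit 5) (nat_lit 414) (nat_lit 5) (nat_lit 340) (nat_lit 337) (nat_lit 223)) (XT.nd (nat_lit 78) (nat_lit 0) (nat_lit 0) (XT.lf (nat_lit 0) (nat_lit 2440663428) (nat_lit 1672) (nat_lit 9439105840) (nat_lit 1748) (nat_lit 1321522613) (nat_lit 392) (nat_lit 5) (nat_lit 414) (nat_lit 5) (nat_lit 415) (nat_lit 5) (nat_lit 341) (nat_lit 337) (nat_lit 222)) (XT.lf (nat_lit 0) (nat_lit 3407104061) (nat_lit 1672) (nat_lit 63473220) (nat_lit 1748) (nat_lit 9921530057) (nat_lit 392) (nat_lit 5) (nat_lit 414) (nat_lit 5) (nat_lit 415) (nat_lit 5) (nat_lit 342) (nat_lit 337) (nat_lit 221)))))) (XT.nd (nat_lit 390) (nat_lit 1368) (nat_lit 0) (XT.nd (nat_lit 156) (nat_lit 0) (nat_lit 76) (XT.nd (nat_lit 78) (nat_lit 0) (nat_lit 76)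 (XT.lf (nat_lit 0) (nat_lit 4477781563) (nat_lit 1672) (nat_lit 3914485318) (nat_lit 1748) (nat_lit 5194888642) (nat_lit 393) (nat_lit 5) (nat_lit 415) (nat_lit 5) (nat_lit 416) (nat_lit 5) (nat_lit 343) (nat_lit 337) (nat_lit 220)) (XT.lf (nat_lit 0) (nat_lit 5623700871) (nat_lit 1672) (nat_lit 7834298948) (nat_lit 1748) (nat_lit 329205658) (nat_lit 394) (nat_lit 5) (nat_lit 416) (nat_lit 5) (nat_lit 417) (nat_lit 5) (nat_lit 344) (nat_lit 337) (nat_lit 219))) (XT.nd (nat_lit 78) (nat_lit 0) (nat_lit 76) (XT.lf (nat_lit 76) (nat_lit 2135126378) (nat_lit 0) (nat_lit 4744791776) (nat_lit 1748) (nat_lit 7111832749) (nat_lit 395) (nat_lit 5) (nat_lit 394) (nat_lit 5) (nat_lit 417) (nat_lit 5) (nat_lit 345) (nat_lit 337) (nat_lit 218)) (XT.nd (nat_lit 78) (nat_lit 0) (nat_lit 0) (XT.lf (nat_lit 0) (nat_lit 8234518069) (nat_lit 1672) (nat_lit 1732304704) (nat_lit 1748) (nat_lit 4234408022) (nat_lit 395)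 (nat_lit 5) (nat_lit 417) (nat_lit 5) (nat_lit 418) (nat_lit 5) (nat_lit 346) (nat_lit 337) (nat_lit 217)) (XT.lf (nat_lit 76) (nat_lit 8765390337) (nat_lit 0) (nat_lit 933389520) (nat_lit 1748) (nat_lit 4716846417) (nat_lit 396) (nat_lit 5) (nat_lit 395) (nat_lit 5) (nat_lit 418) (nat_lit 5) (nat_lit 347) (nat_lit 337) (nat_lit 216))))) (XT.nd (nat_lit 156) (nat_lit 1596) (nat_lit 0) (XT.nd (nat_lit 78) (nat_lit 0) (nat_lit 76) (XT.lf (nat_lit 76) (nat_lit 4962369087) (nat_lit 0) (nat_lit 6323890878) (nat_lit 1748) (nat_lit 3348619177) (nat_lit 397) (nat_lit 5) (nat_lit 396) (nat_lit 5) (nat_lit 419) (nat_lit 5) (nat_lit 348) (nat_lit 337) (nat_lit 215)) (XT.lf (nat_lit 76) (nat_lit 1085327569) (nat_lit 0) (nat_lit 11888446227) (nat_lit 1748) (nat_lit 1885898615) (nat_lit 398) (nat_lit 5) (nat_lit 397) (nat_lit 5) (nat_lit 420) (nat_lit 5) (nat_lit 349) (nat_lit 337) (nat_lit 214))) (XT.nd (nat_lit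 78) (nat_lit 1672) (nat_lit 0) (XT.lf (nat_lit 76) (nat_lit 12241686244) (nat_lit 0) (nat_lit 2559641052) (nat_lit 1748) (nat_lit 288104577) (nat_lit 398) (nat_lit 5) (nat_lit 397) (nat_lit 5) (nat_lit 420) (nat_lit 5) (nat_lit 350) (nat_lit 337) (nat_lit 213)) (XT.nd (nat_lit 78) (nat_lit 0) (nat_lit 76) (XT.lf (nat_lit 0) (nat_lit 1423454081) (nat_lit 1748) (nat_lit 6875733499) (nat_lit 1824) (nat_lit 7025057689) (nat_lit 375) (nat_lit 5) (nat_lit 398) (nat_lit 5) (nat_lit 399) (nat_lit 5) (nat_lit 351) (nat_lit 337) (nat_lit 212)) (XT.lf (nat_lit 0) (nat_lit 3240269869) (nat_lit 1748) (nat_lit 10989772745) (nat_lit 1824) (nat_lit 1334875745) (nat_lit 376) (nat_lit 5) (nat_lit 399) (nat_lit 5) (nat_lit 400) (nat_lit 5) (nat_lit 352) (nat_lit 337) (nat_lit 211))))))) (XT.nd (nat_lit 780) (nat_lit 5700) (nat_lit 0) (XT.nd (nat_lit 390) (nat_lit 2508) (nat_lit 0) (XT.nd (nat_lit 156) (nat_lit 3496)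 (nat_lit 0) (XT.nd (nat_lit 78) (nat_lit 0) (nat_lit 76) (XT.lf (nat_lit 76) (nat_lit 589802416) (nat_lit 0) (nat_lit 4611169949) (nat_lit 1824) (nat_lit 10610061214) (nat_lit 377) (nat_lit 5) (nat_lit 376) (nat_lit 5) (nat_lit 400) (nat_lit 5) (nat_lit 353) (nat_lit 337) (nat_lit 210)) (XT.lf (nat_lit 0) (nat_lit 7313417774) (nat_lit 1748) (nat_lit 3444770277) (nat_lit 76) (nat_lit 5304495073) (nat_lit 377) (nat_lit 5) (nat_lit 400) (nat_lit 5) (nat_lit 378) (nat_lit 5) (nat_lit 354) (nat_lit 337) (nat_lit 209))) (XT.nd (nat_lit 78) (nat_lit 1824) (nat_lit 0) (XT.lf (nat_lit 0) (nat_lit 8755342446) (nat_lit 1748) (nat_lit 805626616) (nat_lit 1824) (nat_lit 6759487475) (nat_lit 354) (nat_lit 5) (nat_lit 377) (nat_lit 5) (nat_lit 378) (nat_lit 5) (nat_lit 355) (nat_lit 337) (nat_lit 208)) (XT.nd (nat_lit 78) (nat_lit 912) (nat_lit 0) (XT.lf (nat_lit 0) (nat_lit 4770453037) (nat_lit 912) (nat_lit 7205732367)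 (nat_lit 988) (nat_lit 4607781748) (nat_lit 342) (nat_lit 5) (nat_lit 354) (nat_lit 5) (nat_lit 355) (nat_lit 5) (nat_lit 356) (nat_lit 337) (nat_lit 207)) (XT.lf (nat_lit 0) (nat_lit 695376790) (nat_lit 912) (nat_lit 13834256524) (nat_lit 988) (nat_lit 2324442785) (nat_lit 330) (nat_lit 5) (nat_lit 342) (nat_lit 5) (nat_lit 343) (nat_lit 5) (nat_lit 357) (nat_lit 337) (nat_lit 206))))) (XT.nd (nat_lit 156) (nat_lit 1596) (nat_lit 0) (XT.nd (nat_lit 78) (nat_lit 836) (nat_lit 0) (XT.lf (nat_lit 0) (nat_lit 140872414) (nat_lit 988) (nat_lit 3452171708) (nat_lit 76) (nat_lit 13536972033) (nat_lit 329) (nat_lit 5) (nat_lit 342) (nat_lit 5) (nat_lit 330) (nat_lit 5) (nat_lit 358) (nat_lit 337) (nat_lit 205)) (XT.lf (nat_lit 0) (nat_lit 2743135984) (nat_lit 912) (nat_lit 7724396771) (nat_lit 76) (nat_lit 6944510853) (nat_lit 318) (nat_lit 5) (nat_lit 330) (nat_lit 5) (nat_lit 319) (nat_lit 5) (nat_lit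 359) (nat_lit 337) (nat_lit 204))) (XT.nd (nat_lit 78) (nat_lit 760) (nat_lit 0) (XT.lf (nat_lit 0) (nat_lit 5493972865) (nat_lit 912) (nat_lit 12099212237) (nat_lit 76) (nat_lit 107944316) (nat_lit 307) (nat_lit 5) (nat_lit 319) (nat_lit 5) (nat_lit 308) (nat_lit 5) (nat_lit 360) (nat_lit 337) (nat_lit 203)) (XT.nd (nat_lit 78) (nat_lit 0) (nat_lit 0) (XT.lf (nat_lit 0) (nat_lit 1369958783) (nat_lit 760) (nat_lit 7075133969) (nat_lit 836) (nat_lit 9551447307) (nat_lit 297) (nat_lit 5) (nat_lit 307) (nat_lit 5) (nat_lit 308) (nat_lit 5) (nat_lit 361) (nat_lit 337) (nat_lit 202)) (XT.lf (nat_lit 0) (nat_lit 11578169362) (nat_lit 836) (nat_lit 2928929191) (nat_lit 76) (nat_lit 3791853205) (nat_lit 297) (nat_lit 5) (nat_lit 308) (nat_lit 5) (nat_lit 298) (nat_lit 5) (nat_lit 362) (nat_lit 337) (nat_lit 201)))))) (XT.nd (nat_lit 390) (nat_lit 2660) (nat_lit 0) (XT.nd (nat_lit 156) (nat_lit 1520) (nat_lit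 0) (XT.nd (nat_lit 78) (nat_lit 760) (nat_lit 0) (XT.lf (nat_lit 0) (nat_lit 11266870545) (nat_lit 760) (nat_lit 3645717450) (nat_lit 836) (nat_lit 3695707810) (nat_lit 287) (nat_lit 5) (nat_lit 297) (nat_lit 5) (nat_lit 298) (nat_lit 5) (nat_lit 363) (nat_lit 337) (nat_lit 200)) (XT.lf (nat_lit 0) (nat_lit 7031960679) (nat_lit 760) (nat_lit 11416857286) (nat_lit 836) (nat_lit 476073420) (nat_lit 277) (nat_lit 5) (nat_lit 287) (nat_lit 5) (nat_lit 288) (nat_lit 5) (nat_lit 364) (nat_lit 337) (nat_lit 199))) (XT.nd (nat_lit 78) (nat_lit 684) (nat_lit 0) (XT.lf (nat_lit 0) (nat_lit 2665618589) (nat_lit 760) (nat_lit 216425566) (nat_lit 836) (nat_lit 16366995470) (nat_lit 266) (nat_lit 5) (nat_lit 276) (nat_lit 5) (nat_lit 277) (nat_lit 5) (nat_lit 365) (nat_lit 337) (nat_lit 198)) (XT.nd (nat_lit 78) (nat_lit 684) (nat_lit 0) (XT.lf (nat_lit 0) (nat_lit 6476752249) (nat_lit 836) (nat_lit 1848072367)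 (nat_lit 76) (nat_lit 11255184732) (nat_lit 266) (nat_lit 5) (nat_lit 277) (nat_lit 5) (nat_lit 267) (nat_lit 5) (nat_lit 366) (nat_lit 337) (nat_lit 197)) (XT.lf (nat_lit 0) (nat_lit 10277371753) (nat_lit 760) (nat_lit 6448429200) (nat_lit 76) (nat_lit 3193151896) (nat_lit 257) (nat_lit 5) (nat_lit 267) (nat_lit 5) (nat_lit 258) (nat_lit 5) (nat_lit 367) (nat_lit 337) (nat_lit 196))))) (XT.nd (nat_lit 156) (nat_lit 1368) (nat_lit 0) (XT.nd (nat_lit 78) (nat_lit 608) (nat_lit 0) (XT.lf (nat_lit 0) (nat_lit 9056267574) (nat_lit 684) (nat_lit 5251096445) (nat_lit 760) (nat_lit 5958399466) (nat_lit 248) (nat_lit 5) (nat_lit 257) (nat_lit 5) (nat_lit 258) (nat_lit 5) (nat_lit 368) (nat_lit 337) (nat_lit 195)) (XT.lf (nat_lit 0) (nat_lit 4495363317) (nat_lit 608) (nat_lit 14067236381) (nat_lit 684) (nat_lit 2058297608) (nat_lit 240) (nat_lit 5) (nat_lit 248) (nat_lit 5) (nat_lit 249) (nat_lit 5) (nat_lit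 369) (nat_lit 337) (nat_lit 194))) (XT.nd (nat_lit 78) (nat_lit 1292) (nat_lit 0) (XT.lf (nat_lit 0) (nat_lit 2033395430) (nat_lit 684) (nat_lit 221573306) (nat_lit 76) (nat_lit 18729461947) (nat_lit 239) (nat_lit 5) (nat_lit 248) (nat_lit 5) (nat_lit 240) (nat_lit 5) (nat_lit 370) (nat_lit 337) (nat_lit 193)) (XT.nd (nat_lit 78) (nat_lit 608) (nat_lit 0) (XT.lf (nat_lit 0) (nat_lit 6380340301) (nat_lit 760) (nat_lit 5074190902) (nat_lit 76) (nat_lit 9900862751) (nat_lit 230) (nat_lit 5) (nat_lit 240) (nat_lit 5) (nat_lit 231) (nat_lit 5) (nat_lit 371) (nat_lit 337) (nat_lit 192)) (XT.lf (nat_lit 0) (nat_lit 10944058006) (nat_lit 684) (nat_lit 10070506043) (nat_lit 76) (nat_lit 721199935) (nat_lit 222) (nat_lit 5) (nat_lit 231) (nat_lit 5) (nat_lit 223) (nat_lit 5) (nat_lit 372) (nat_lit 337) (nat_lit 191))))))))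
noncomputable def xc112 : XT := (XT.nd (nat_lit 45162) (nat_lit 0) (nat_lit 4864) (XT.nd (nat_lit 44382) (nat_lit 0) (nat_lit 15732) (XT.nd (nat_lit 312) (nat_lit 1064) (nat_lit 0) (XT.nd (nat_lit 156) (nat_lit 684) (nat_lit 0) (XT.nd (nat_lit 78) (nat_lit 532) (nat_lit 0) (XT.lf (nat_lit 0) (nat_lit 6849990703) (nat_lit 608) (nat_lit 8939864462) (nat_lit 684) (nat_lit 6334791592) (nat_lit 214) (nat_lit 5) (nat_lit 222) (nat_lit 5) (nat_lit 223) (nat_lit 5) (nat_lit 373) (nat_lit 337) (nat_lit 190)) (XT.lf (nat_lit 0) (nat_lit 1881129105) (nat_lit 532) (nat_lit 18993202010) (nat_lit 608) (nat_lit 1649003652) (nat_lit 207) (nat_lit 5) (nat_lit 214) (nat_lit 5) (nat_lit 215) (nat_lit 5) (nat_lit 374) (nat_lit 337) (nat_lit 189))) (XT.nd (nat_lit 78) (nat_lit 608) (nat_lit 0) (XT.lf (nat_lit 0) (nat_lit 3289504540) (nat_lit 608) (nat_lit 3264782981) (nat_lit 76) (nat_lit 16376211565) (nat_lit 206) (nat_lit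 5) (nat_lit 214) (nat_lit 5) (nat_lit 207) (nat_lit 5) (nat_lit 375) (nat_lit 337) (nat_lit 188)) (XT.lf (nat_lit 0) (nat_lit 8481479137) (nat_lit 684) (nat_lit 8584233906) (nat_lit 76) (nat_lit 6281397484) (nat_lit 198) (nat_lit 5) (nat_lit 207) (nat_lit 5) (nat_lit 199) (nat_lit 5) (nat_lit 376) (nat_lit 337) (nat_lit 187)))) (XT.nd (nat_lit 43836) (nat_lit 0) (nat_lit 15580) (XT.nd (nat_lit 78) (nat_lit 532) (nat_lit 0) (XT.lf (nat_lit 0) (nat_lit 9671072703) (nat_lit 532) (nat_lit 4277365954) (nat_lit 608) (nat_lit 9825401497) (nat_lit 191) (nat_lit 5) (nat_lit 198) (nat_lit 5) (nat_lit 199) (nat_lit 5) (nat_lit 377) (nat_lit 337) (nat_lit 186)) (XT.lf (nat_lit 0) (nat_lit 4366417493) (nat_lit 532) (nat_lit 15348166100) (nat_lit 608) (nat_lit 4496088772) (nat_lit 184) (nat_lit 5) (nat_lit 191) (nat_lit 5) (nat_lit 192) (nat_lit 5) (nat_lit 378) (nat_lit 337) (nat_lit 185))) (XT.nd (nat_lit 78)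 (nat_lit 0) (nat_lit 76) (XT.lf (nat_lit 0) (nat_lit 299417907) (nat_lit 1748) (nat_lit 3057905028) (nat_lit 1748) (nat_lit 3057905028) (nat_lit 389) (nat_lit 3) (nat_lit 412) (nat_lit 3) (nat_lit 412) (nat_lit 5) (nat_lit 338) (nat_lit 338) (nat_lit 224)) (XT.nd (nat_lit 78) (nat_lit 0) (nat_lit 0) (XT.lf (nat_lit 0) (nat_lit 1233078220) (nat_lit 1672) (nat_lit 10149211158) (nat_lit 1748) (nat_lit 1627761093) (nat_lit 390) (nat_lit 5) (nat_lit 412) (nat_lit 5) (nat_lit 413) (nat_lit 5) (nat_lit 339) (nat_lit 338) (nat_lit 223)) (XT.lf (nat_lit 0) (nat_lit 1949707646) (nat_lit 1672) (nat_lit 1061459495) (nat_lit 1748) (nat_lit 10182612449) (nat_lit 390) (nat_lit 5) (nat_lit 412) (nat_lit 5) (nat_lit 413) (nat_lit 5) (nat_lit 340) (nat_lit 338) (nat_lit 222)))))) (XT.nd (nat_lit 390) (nat_lit 0) (nat_lit 228) (XT.nd (nat_lit 156) (nat_lit 0) (nat_lit 76) (XT.nd (nat_lit 78) (nat_lit 0) (nat_lit 76)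 (XT.lf (nat_lit 0) (nat_lit 2756629414) (nat_lit 1672) (nat_lit 5022417144) (nat_lit 1748) (nat_lit 5602611689) (nat_lit 391) (nat_lit 5) (nat_lit 413) (nat_lit 5) (nat_lit 414) (nat_lit 5) (nat_lit 341) (nat_lit 338) (nat_lit 221)) (XT.lf (nat_lit 0) (nat_lit 3628484062) (nat_lit 1672) (nat_lit 9051632579) (nat_lit 1748) (nat_lit 894255255) (nat_lit 392) (nat_lit 5) (nat_lit 414) (nat_lit 5) (nat_lit 415) (nat_lit 5) (nat_lit 342) (nat_lit 338) (nat_lit 220))) (XT.nd (nat_lit 78) (nat_lit 0) (nat_lit 76) (XT.lf (nat_lit 76) (nat_lit 593519746) (nat_lit 0) (nat_lit 4001787593) (nat_lit 1748) (nat_lit 9176196109) (nat_lit 393) (nat_lit 5) (nat_lit 392) (nat_lit 5) (nat_lit 415) (nat_lit 5) (nat_lit 343) (nat_lit 338) (nat_lit 219)) (XT.nd (nat_lit 78) (nat_lit 0) (nat_lit 0) (XT.lf (nat_lit 0) (nat_lit 5664202532) (nat_lit 1672) (nat_lit 3366956935) (nat_lit 1748) (nat_lit 4941940516) (nat_lit 393)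 (nat_lit 5) (nat_lit 415) (nat_lit 5) (nat_lit 416) (nat_lit 5) (nat_lit 344) (nat_lit 338) (nat_lit 218)) (XT.lf (nat_lit 76) (nat_lit 6787943852) (nat_lit 0) (nat_lit 27928776) (nat_lit 1748) (nat_lit 7363869649) (nat_lit 394) (nat_lit 5) (nat_lit 393) (nat_lit 5) (nat_lit 416) (nat_lit 5) (nat_lit 345) (nat_lit 338) (nat_lit 217))))) (XT.nd (nat_lit 156) (nat_lit 0) (nat_lit 76) (XT.nd (nat_lit 78) (nat_lit 0) (nat_lit 76) (XT.lf (nat_lit 76) (nat_lit 2865895940) (nat_lit 0) (nat_lit 5218223665) (nat_lit 1748) (nat_lit 6306835370) (nat_lit 395) (nat_lit 5) (nat_lit 394) (nat_lit 5) (nat_lit 417) (nat_lit 5) (nat_lit 346) (nat_lit 338) (nat_lit 216)) (XT.lf (nat_lit 0) (nat_lit 9448208233) (nat_lit 1672) (nat_lit 1114939990) (nat_lit 1748) (nat_lit 4044211277) (nat_lit 395) (nat_lit 5) (nat_lit 417) (nat_lit 5) (nat_lit 418) (nat_lit 5) (nat_lit 347) (nat_lit 338) (nat_lit 215))) (XT.nd (nat_lit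 78) (nat_lit 0) (nat_lit 76) (XT.lf (nat_lit 76) (nat_lit 9686826755) (nat_lit 0) (nat_lit 1245691386) (nat_lit 1748) (nat_lit 3896163050) (nat_lit 396) (nat_lit 5) (nat_lit 395) (nat_lit 5) (nat_lit 418) (nat_lit 5) (nat_lit 348) (nat_lit 338) (nat_lit 214)) (XT.nd (nat_lit 78) (nat_lit 0) (nat_lit 76) (XT.lf (nat_lit 76) (nat_lit 5779946720) (nat_lit 0) (nat_lit 6762766053) (nat_lit 1748) (nat_lit 2512313332) (nat_lit 397) (nat_lit 5) (nat_lit 396) (nat_lit 5) (nat_lit 419) (nat_lit 5) (nat_lit 349) (nat_lit 338) (nat_lit 213)) (XT.lf (nat_lit 76) (nat_lit 1795929234) (nat_lit 0) (nat_lit 12461020566) (nat_lit 1748) (nat_lit 1030107206) (nat_lit 398) (nat_lit 5) (nat_lit 397) (nat_lit 5) (nat_lit 420) (nat_lit 5) (nat_lit 350) (nat_lit 338) (nat_lit 212))))))) (XT.nd (nat_lit 702) (nat_lit 6156) (nat_lit 0) (XT.nd (nat_lit 312) (nat_lit 3420) (nat_lit 0) (XT.nd (nat_lit 156) (nat_lit 0) (nat_lit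 152) (XT.nd (nat_lit 78) (nat_lit 0) (nat_lit 76) (XT.lf (nat_lit 0) (nat_lit 581321361) (nat_lit 1748) (nat_lit 2260839942) (nat_lit 1824) (nat_lit 12682007545) (nat_lit 374) (nat_lit 5) (nat_lit 397) (nat_lit 5) (nat_lit 398) (nat_lit 5) (nat_lit 351) (nat_lit 338) (nat_lit 211)) (XT.lf (nat_lit 0) (nat_lit 2317899456) (nat_lit 1748) (nat_lit 6403668331) (nat_lit 1824) (nat_lit 7044883625) (nat_lit 375) (nat_lit 5) (nat_lit 398) (nat_lit 5) (nat_lit 399) (nat_lit 5) (nat_lit 352) (nat_lit 338) (nat_lit 210))) (XT.nd (nat_lit 78) (nat_lit 0) (nat_lit 0) (XT.lf (nat_lit 0) (nat_lit 4167680094) (nat_lit 1748) (nat_lit 10633972054) (nat_lit 1824) (nat_lit 1213137505) (nat_lit 376) (nat_lit 5) (nat_lit 399) (nat_lit 5) (nat_lit 400) (nat_lit 5) (nat_lit 353) (nat_lit 338) (nat_lit 209)) (XT.lf (nat_lit 76) (nat_lit 1281869038) (nat_lit 0) (nat_lit 4885532457) (nat_lit 1824) (nat_lit 10101296632) (nat_lit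 377) (nat_lit 5) (nat_lit 376) (nat_lit 5) (nat_lit 400) (nat_lit 5) (nat_lit 354) (nat_lit 338) (nat_lit 208)))) (XT.nd (nat_lit 156) (nat_lit 1900) (nat_lit 0) (XT.nd (nat_lit 78) (nat_lit 1748) (nat_lit 0) (XT.lf (nat_lit 0) (nat_lit 8318758927) (nat_lit 1748) (nat_lit 2876344270) (nat_lit 76) (nat_lit 5333296541) (nat_lit 377) (nat_lit 5) (nat_lit 400) (nat_lit 5) (nat_lit 378) (nat_lit 5) (nat_lit 355) (nat_lit 338) (nat_lit 207)) (XT.lf (nat_lit 0) (nat_lit 9678873179) (nat_lit 1748) (nat_lit 936262968) (nat_lit 1824) (nat_lit 6179155183) (nat_lit 354) (nat_lit 5) (nat_lit 377) (nat_lit 5) (nat_lit 378) (nat_lit 5) (nat_lit 356) (nat_lit 338) (nat_lit 206))) (XT.nd (nat_lit 78) (nat_lit 988) (nat_lit 0) (XT.lf (nat_lit 0) (nat_lit 5579918202) (nat_lit 912) (nat_lit 7504196399) (nat_lit 988) (nat_lit 3981979138) (nat_lit 342) (nat_lit 5) (nat_lit 354) (nat_lit 5) (nat_lit 355) (nat_lit 5) (nat_lit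 357) (nat_lit 338) (nat_lit 205)) (XT.nd (nat_lit 78) (nat_lit 76) (nat_lit 0) (XT.lf (nat_lit 0) (nat_lit 1387447236) (nat_lit 912) (nat_lit 14308752761) (nat_lit 988) (nat_lit 1648477497) (nat_lit 330) (nat_lit 5) (nat_lit 342) (nat_lit 5) (nat_lit 343) (nat_lit 5) (nat_lit 358) (nat_lit 338) (nat_lit 204)) (XT.lf (nat_lit 0) (nat_lit 859582665) (nat_lit 988) (nat_lit 2894194664) (nat_lit 76) (nat_lit 13875461912) (nat_lit 329) (nat_lit 5) (nat_lit 342) (nat_lit 5) (nat_lit 330) (nat_lit 5) (nat_lit 359) (nat_lit 338) (nat_lit 203)))))) (XT.nd (nat_lit 390) (nat_lit 2964) (nat_lit 0) (XT.nd (nat_lit 156) (nat_lit 1520) (nat_lit 0) (XT.nd (nat_lit 78) (nat_lit 836) (nat_lit 0) (XT.lf (nat_lit 0) (nat_lit 3523023675) (nat_lit 912) (nat_lit 7290679065) (nat_lit 76) (nat_lit 7106373881) (nat_lit 318) (nat_lit 5) (nat_lit 330) (nat_lit 5) (nat_lit 319) (nat_lit 5) (nat_lit 360) (nat_lit 338) (nat_lit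 202)) (XT.lf (nat_lit 0) (nat_lit 6340143373) (nat_lit 912) (nat_lit 11793364674) (nat_lit 76) (nat_lit 84662766) (nat_lit 307) (nat_lit 5) (nat_lit 319) (nat_lit 5) (nat_lit 308) (nat_lit 5) (nat_lit 361) (nat_lit 338) (nat_lit 201))) (XT.nd (nat_lit 78) (nat_lit 760) (nat_lit 0) (XT.lf (nat_lit 0) (nat_lit 2069030603) (nat_lit 760) (nat_lit 7295193067) (nat_lit 836) (nat_lit 9158542212) (nat_lit 297) (nat_lit 5) (nat_lit 307) (nat_lit 5) (nat_lit 308) (nat_lit 5) (nat_lit 362) (nat_lit 338) (nat_lit 200)) (XT.nd (nat_lit 78) (nat_lit 760) (nat_lit 0) (XT.lf (nat_lit 0) (nat_lit 12571851782) (nat_lit 836) (nat_lit 2364666862) (nat_lit 76) (nat_lit 3898130438) (nat_lit 297) (nat_lit 5) (nat_lit 308) (nat_lit 5) (nat_lit 298) (nat_lit 5) (nat_lit 363) (nat_lit 338) (nat_lit 199)) (XT.lf (nat_lit 0) (nat_lit 12246426828) (nat_lit 760) (nat_lit 3745216156) (nat_lit 836) (nat_lit 3161933700) (nat_lit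 287) (nat_lit 5) (nat_lit 297) (nat_lit 5) (nat_lit 298) (nat_lit 5) (nat_lit 364) (nat_lit 338) (nat_lit 198))))) (XT.nd (nat_lit 156) (nat_lit 1368) (nat_lit 0) (XT.nd (nat_lit 78) (nat_lit 760) (nat_lit 0) (XT.lf (nat_lit 0) (nat_lit 138006899) (nat_lit 836) (nat_lit 11594115111) (nat_lit 76) (nat_lit 7747822822) (nat_lit 276) (nat_lit 5) (nat_lit 287) (nat_lit 5) (nat_lit 277) (nat_lit 5) (nat_lit 365) (nat_lit 338) (nat_lit 197)) (XT.lf (nat_lit 0) (nat_lit 3387422213) (nat_lit 760) (nat_lit 189067398) (nat_lit 836) (nat_lit 16237552451) (nat_lit 266) (nat_lit 5) (nat_lit 276) (nat_lit 5) (nat_lit 277) (nat_lit 5) (nat_lit 366) (nat_lit 338) (nat_lit 196))) (XT.nd (nat_lit 78) (nat_lit 1368) (nat_lit 0) (XT.lf (nat_lit 0) (nat_lit 7261544054) (nat_lit 836) (nat_lit 1268481494) (nat_lit 76) (nat_lit 11625274229) (nat_lit 266) (nat_lit 5) (nat_lit 277) (nat_lit 5) (nat_lit 267) (nat_lit 5) (nat_lit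 367) (nat_lit 338) (nat_lit 195)) (XT.nd (nat_lit 78) (nat_lit 684) (nat_lit 0) (XT.lf (nat_lit 0) (nat_lit 11163347238) (nat_lit 760) (nat_lit 6005621076) (nat_lit 76) (nat_lit 3335708708) (nat_lit 257) (nat_lit 5) (nat_lit 267) (nat_lit 5) (nat_lit 258) (nat_lit 5) (nat_lit 368) (nat_lit 338) (nat_lit 194)) (XT.lf (nat_lit 0) (nat_lit 9953894023) (nat_lit 684) (nat_lit 5347584373) (nat_lit 760) (nat_lit 5560677284) (nat_lit 248) (nat_lit 5) (nat_lit 257) (nat_lit 5) (nat_lit 258) (nat_lit 5) (nat_lit 369) (nat_lit 338) (nat_lit 193))))))))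
noncomputable def xc113 : XT := (XT.nd (nat_lit 45240) (nat_lit 0) (nat_lit 5700) (XT.nd (nat_lit 44460) (nat_lit 0) (nat_lit 15048) (XT.nd (nat_lit 312) (nat_lit 2356) (nat_lit 0) (XT.nd (nat_lit 156) (nat_lit 608) (nat_lit 0) (XT.nd (nat_lit 78) (nat_lit 760) (nat_lit 0) (XT.lf (nat_lit 0) (nat_lit 5257010444) (nat_lit 608) (nat_lit 14415361806) (nat_lit 684) (nat_lit 1555819480) (nat_lit 240) (nat_lit 5) (nat_lit 248) (nat_lit 5) (nat_lit 249) (nat_lit 5) (nat_lit 370) (nat_lit 338) (nat_lit 192)) (XT.lf (nat_lit 0) (nat_lit 392908664) (nat_lit 684) (nat_lit 2244648503) (nat_lit 760) (nat_lit 18965281862) (nat_lit 230) (nat_lit 5) (nat_lit 239) (nat_lit 5) (nat_lit 240) (nat_lit 5) (nat_lit 371) (nat_lit 338) (nat_lit 191))) (XT.nd (nat_lit 78) (nat_lit 608) (nat_lit 0) (XT.lf (nat_lit 0) (nat_lit 7101049050) (nat_lit 760) (nat_lit 4610105433) (nat_lit 76) (nat_lit 10274061555) (nat_lit 230) (nat_lit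 5) (nat_lit 240) (nat_lit 5) (nat_lit 231) (nat_lit 5) (nat_lit 372) (nat_lit 338) (nat_lit 190)) (XT.lf (nat_lit 0) (nat_lit 11790772965) (nat_lit 684) (nat_lit 9756280757) (nat_lit 76) (nat_lit 830168943) (nat_lit 222) (nat_lit 5) (nat_lit 231) (nat_lit 5) (nat_lit 223) (nat_lit 5) (nat_lit 373) (nat_lit 338) (nat_lit 189)))) (XT.nd (nat_lit 156) (nat_lit 1216) (nat_lit 0) (XT.nd (nat_lit 78) (nat_lit 532) (nat_lit 0) (XT.lf (nat_lit 0) (nat_lit 7661831499) (nat_lit 608) (nat_lit 9108950476) (nat_lit 684) (nat_lit 6007220363) (nat_lit 214) (nat_lit 5) (nat_lit 222) (nat_lit 5) (nat_lit 223) (nat_lit 5) (nat_lit 374) (nat_lit 338) (nat_lit 188)) (XT.lf (nat_lit 0) (nat_lit 2543649198) (nat_lit 532) (nat_lit 19453929143) (nat_lit 608) (nat_lit 1191283894) (nat_lit 207) (nat_lit 5) (nat_lit 214) (nat_lit 5) (nat_lit 215) (nat_lit 5) (nat_lit 375) (nat_lit 338) (nat_lit 187))) (XT.nd (nat_lit 78) (nat_lit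 1140) (nat_lit 0) (XT.lf (nat_lit 0) (nat_lit 3874148882) (nat_lit 608) (nat_lit 2767614060) (nat_lit 76) (nat_lit 16966710887) (nat_lit 206) (nat_lit 5) (nat_lit 214) (nat_lit 5) (nat_lit 207) (nat_lit 5) (nat_lit 376) (nat_lit 338) (nat_lit 186)) (XT.nd (nat_lit 78) (nat_lit 532) (nat_lit 0) (XT.lf (nat_lit 0) (nat_lit 9212242969) (nat_lit 684) (nat_lit 8247290000) (nat_lit 76) (nat_lit 6578249878) (nat_lit 198) (nat_lit 5) (nat_lit 207) (nat_lit 5) (nat_lit 199) (nat_lit 5) (nat_lit 377) (nat_lit 338) (nat_lit 185)) (XT.lf (nat_lit 0) (nat_lit 10546031224) (nat_lit 532) (nat_lit 4287103750) (nat_lit 608) (nat_lit 9644387165) (nat_lit 191) (nat_lit 5) (nat_lit 198) (nat_lit 5) (nat_lit 199) (nat_lit 5) (nat_lit 378) (nat_lit 338) (nat_lit 184)))))) (XT.nd (nat_lit 390) (nat_lit 0) (nat_lit 228) (XT.nd (nat_lit 156) (nat_lit 0) (nat_lit 76) (XT.nd (nat_lit 78) (nat_lit 0) (nat_lit 76) (XT.lf (nat_lit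 0) (nat_lit 898577762) (nat_lit 1748) (nat_lit 2848474914) (nat_lit 1748) (nat_lit 2848474914) (nat_lit 389) (nat_lit 3) (nat_lit 412) (nat_lit 3) (nat_lit 412) (nat_lit 5) (nat_lit 339) (nat_lit 339) (nat_lit 222)) (XT.lf (nat_lit 0) (nat_lit 2416275145) (nat_lit 1672) (nat_lit 9833823839) (nat_lit 1748) (nat_lit 1126642180) (nat_lit 390) (nat_lit 5) (nat_lit 412) (nat_lit 5) (nat_lit 413) (nat_lit 5) (nat_lit 340) (nat_lit 339) (nat_lit 221))) (XT.nd (nat_lit 78) (nat_lit 0) (nat_lit 76) (XT.lf (nat_lit 0) (nat_lit 3121018855) (nat_lit 1672) (nat_lit 491493908) (nat_lit 1748) (nat_lit 9954157089) (nat_lit 390) (nat_lit 5) (nat_lit 412) (nat_lit 5) (nat_lit 413) (nat_lit 5) (nat_lit 341) (nat_lit 339) (nat_lit 220)) (XT.nd (nat_lit 78) (nat_lit 0) (nat_lit 76) (XT.lf (nat_lit 0) (nat_lit 3920384270) (nat_lit 1672) (nat_lit 4555515858) (nat_lit 1748) (nat_lit 5284939440) (nat_lit 391) (nat_lit 5)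 (nat_lit 413) (nat_lit 5) (nat_lit 414) (nat_lit 5) (nat_lit 342) (nat_lit 339) (nat_lit 219)) (XT.lf (nat_lit 0) (nat_lit 4787956673) (nat_lit 1672) (nat_lit 8691032969) (nat_lit 1748) (nat_lit 480972594) (nat_lit 392) (nat_lit 5) (nat_lit 414) (nat_lit 5) (nat_lit 415) (nat_lit 5) (nat_lit 343) (nat_lit 339) (nat_lit 218))))) (XT.nd (nat_lit 156) (nat_lit 0) (nat_lit 76) (XT.nd (nat_lit 78) (nat_lit 0) (nat_lit 76) (XT.lf (nat_lit 76) (nat_lit 1233218065) (nat_lit 0) (nat_lit 4524003795) (nat_lit 1748) (nat_lit 8406335434) (nat_lit 393) (nat_lit 5) (nat_lit 392) (nat_lit 5) (nat_lit 415) (nat_lit 5) (nat_lit 344) (nat_lit 339) (nat_lit 217)) (XT.lf (nat_lit 0) (nat_lit 6825822002) (nat_lit 1672) (nat_lit 2841174294) (nat_lit 1748) (nat_lit 4704870440) (nat_lit 393) (nat_lit 5) (nat_lit 415) (nat_lit 5) (nat_lit 416) (nat_lit 5) (nat_lit 345) (nat_lit 339) (nat_lit 216))) (XT.nd (nat_lit 78) (nat_lit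 0) (nat_lit 76) (XT.lf (nat_lit 76) (nat_lit 7608204571) (nat_lit 0) (nat_lit 378956877) (nat_lit 1748) (nat_lit 6598061719) (nat_lit 394) (nat_lit 5) (nat_lit 393) (nat_lit 5) (nat_lit 416) (nat_lit 5) (nat_lit 346) (nat_lit 339) (nat_lit 215)) (XT.nd (nat_lit 78) (nat_lit 0) (nat_lit 76) (XT.lf (nat_lit 76) (nat_lit 3580316375) (nat_lit 0) (nat_lit 5686852697) (nat_lit 1748) (nat_lit 5536145660) (nat_lit 395) (nat_lit 5) (nat_lit 394) (nat_lit 5) (nat_lit 417) (nat_lit 5) (nat_lit 347) (nat_lit 339) (nat_lit 214)) (XT.lf (nat_lit 0) (nat_lit 10642819173) (nat_lit 1672) (nat_lit 517476837) (nat_lit 1748) (nat_lit 3866518871) (nat_lit 395) (nat_lit 5) (nat_lit 417) (nat_lit 5) (nat_lit 418) (nat_lit 5) (nat_lit 348) (nat_lit 339) (nat_lit 213))))))) (XT.nd (nat_lit 780) (nat_lit 5776) (nat_lit 0) (XT.nd (nat_lit 390) (nat_lit 2432) (nat_lit 0) (XT.nd (nat_lit 156) (nat_lit 1596) (nat_lit 0) (XT.nd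 (nat_lit 78) (nat_lit 0) (nat_lit 76) (XT.lf (nat_lit 76) (nat_lit 10598107124) (nat_lit 0) (nat_lit 1551042314) (nat_lit 1748) (nat_lit 3106092753) (nat_lit 396) (nat_lit 5) (nat_lit 395) (nat_lit 5) (nat_lit 418) (nat_lit 5) (nat_lit 349) (nat_lit 339) (nat_lit 212)) (XT.lf (nat_lit 76) (nat_lit 6583665191) (nat_lit 0) (nat_lit 7200504769) (nat_lit 1748) (nat_lit 1704692421) (nat_lit 397) (nat_lit 5) (nat_lit 396) (nat_lit 5) (nat_lit 419) (nat_lit 5) (nat_lit 350) (nat_lit 339) (nat_lit 211))) (XT.nd (nat_lit 78) (nat_lit 1748) (nat_lit 0) (XT.lf (nat_lit 76) (nat_lit 2488926574) (nat_lit 0) (nat_lit 13038377389) (nat_lit 1748) (nat_lit 201015732) (nat_lit 398) (nat_lit 5) (nat_lit 397) (nat_lit 5) (nat_lit 420) (nat_lit 5) (nat_lit 351) (nat_lit 339) (nat_lit 210)) (XT.nd (nat_lit 78) (nat_lit 0) (nat_lit 76) (XT.lf (nat_lit 0) (nat_lit 1422756832) (nat_lit 1748) (nat_lit 1696738123) (nat_lit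 1824) (nat_lit 12853446828) (nat_lit 374) (nat_lit 5) (nat_lit 397) (nat_lit 5) (nat_lit 398) (nat_lit 5) (nat_lit 352) (nat_lit 339) (nat_lit 209)) (XT.lf (nat_lit 0) (nat_lit 3190284730) (nat_lit 1748) (nat_lit 5956380537) (nat_lit 1824) (nat_lit 7076264261) (nat_lit 375) (nat_lit 5) (nat_lit 398) (nat_lit 5) (nat_lit 399) (nat_lit 5) (nat_lit 353) (nat_lit 339) (nat_lit 208))))) (XT.nd (nat_lit 156) (nat_lit 2584) (nat_lit 0) (XT.nd (nat_lit 78) (nat_lit 0) (nat_lit 0) (XT.lf (nat_lit 0) (nat_lit 5075255628) (nat_lit 1748) (nat_lit 10306847495) (nat_lit 1824) (nat_lit 1097034211) (nat_lit 376) (nat_lit 5) (nat_lit 399) (nat_lit 5) (nat_lit 400) (nat_lit 5) (nat_lit 354) (nat_lit 339) (nat_lit 207)) (XT.lf (nat_lit 76) (nat_lit 1955985916) (nat_lit 0) (nat_lit 5160317310) (nat_lit 1824) (nat_lit 9624746109) (nat_lit 377) (nat_lit 5) (nat_lit 376) (nat_lit 5) (nat_lit 400) (nat_lit 5) (nat_lit 355)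 (nat_lit 339) (nat_lit 206))) (XT.nd (nat_lit 78) (nat_lit 2660) (nat_lit 0) (XT.lf (nat_lit 0) (nat_lit 9309144223) (nat_lit 1748) (nat_lit 2329427778) (nat_lit 76) (nat_lit 5370443723) (nat_lit 377) (nat_lit 5) (nat_lit 400) (nat_lit 5) (nat_lit 378) (nat_lit 5) (nat_lit 356) (nat_lit 339) (nat_lit 205)) (XT.nd (nat_lit 78) (nat_lit 912) (nat_lit 0) (XT.lf (nat_lit 0) (nat_lit 10592173166) (nat_lit 1748) (nat_lit 1064706738) (nat_lit 1824) (nat_lit 5626367037) (nat_lit 354) (nat_lit 5) (nat_lit 377) (nat_lit 5) (nat_lit 378) (nat_lit 5) (nat_lit 357) (nat_lit 339) (nat_lit 204)) (XT.lf (nat_lit 0) (nat_lit 6375416015) (nat_lit 912) (nat_lit 7806890451) (nat_lit 988) (nat_lit 3381261245) (nat_lit 342) (nat_lit 5) (nat_lit 354) (nat_lit 5) (nat_lit 355) (nat_lit 5) (nat_lit 358) (nat_lit 339) (nat_lit 203)))))) (XT.nd (nat_lit 390) (nat_lit 2356) (nat_lit 0) (XT.nd (nat_lit 156) (nat_lit 2432) (nat_lit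 0) (XT.nd (nat_lit 78) (nat_lit 76) (nat_lit 0) (XT.lf (nat_lit 0) (nat_lit 2061749644) (nat_lit 912) (nat_lit 14794070146) (nat_lit 988) (nat_lit 995039399) (nat_lit 330) (nat_lit 5) (nat_lit 342) (nat_lit 5) (nat_lit 343) (nat_lit 5) (nat_lit 359) (nat_lit 339) (nat_lit 202)) (XT.lf (nat_lit 0) (nat_lit 1558839915) (nat_lit 988) (nat_lit 2357453536) (nat_lit 76) (nat_lit 14227988111) (nat_lit 329) (nat_lit 5) (nat_lit 342) (nat_lit 5) (nat_lit 330) (nat_lit 5) (nat_lit 360) (nat_lit 339) (nat_lit 201))) (XT.nd (nat_lit 78) (nat_lit 1596) (nat_lit 0) (XT.lf (nat_lit 0) (nat_lit 4286263268) (nat_lit 912) (nat_lit 6882149357) (nat_lit 76) (nat_lit 7275760500) (nat_lit 318) (nat_lit 5) (nat_lit 330) (nat_lit 5) (nat_lit 319) (nat_lit 5) (nat_lit 361) (nat_lit 339) (nat_lit 200)) (XT.nd (nat_lit 78) (nat_lit 760) (nat_lit 0) (XT.lf (nat_lit 0) (nat_lit 7172586642) (nat_lit 912) (nat_lit 11516734915)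 (nat_lit 76) (nat_lit 62205120) (nat_lit 307) (nat_lit 5) (nat_lit 319) (nat_lit 5) (nat_lit 308) (nat_lit 5) (nat_lit 362) (nat_lit 339) (nat_lit 199)) (XT.lf (nat_lit 0) (nat_lit 2751304232) (nat_lit 760) (nat_lit 7521405895) (nat_lit 836) (nat_lit 8792853089) (nat_lit 297) (nat_lit 5) (nat_lit 307) (nat_lit 5) (nat_lit 308) (nat_lit 5) (nat_lit 363) (nat_lit 339) (nat_lit 198))))) (XT.nd (nat_lit 156) (nat_lit 1596) (nat_lit 0) (XT.nd (nat_lit 78) (nat_lit 760) (nat_lit 0) (XT.lf (nat_lit 0) (nat_lit 13558242268) (nat_lit 836) (nat_lit 1820911605) (nat_lit 76) (nat_lit 4008025277) (nat_lit 297) (nat_lit 5) (nat_lit 308) (nat_lit 5) (nat_lit 298) (nat_lit 5) (nat_lit 364) (nat_lit 339) (nat_lit 197)) (XT.lf (nat_lit 0) (nat_lit 13218542195) (nat_lit 760) (nat_lit 3848266563) (nat_lit 836) (nat_lit 2649151647) (nat_lit 287) (nat_lit 5) (nat_lit 297) (nat_lit 5) (nat_lit 298) (nat_lit 5) (nat_lit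 365) (nat_lit 339) (nat_lit 196))) (XT.nd (nat_lit 78) (nat_lit 760) (nat_lit 0) (XT.lf (nat_lit 0) (nat_lit 728377119) (nat_lit 836) (nat_lit 11326970327) (nat_lit 76) (nat_lit 7996971065) (nat_lit 276) (nat_lit 5) (nat_lit 287) (nat_lit 5) (nat_lit 277) (nat_lit 5) (nat_lit 366) (nat_lit 339) (nat_lit 195)) (XT.nd (nat_lit 78) (nat_lit 0) (nat_lit 0) (XT.lf (nat_lit 0) (nat_lit 4094035988) (nat_lit 760) (nat_lit 162831667) (nat_lit 836) (nat_lit 16139842676) (nat_lit 266) (nat_lit 5) (nat_lit 276) (nat_lit 5) (nat_lit 277) (nat_lit 5) (nat_lit 367) (nat_lit 339) (nat_lit 194)) (XT.lf (nat_lit 0) (nat_lit 8035983115) (nat_lit 836) (nat_lit 707956390) (nat_lit 76) (nat_lit 12004604570) (nat_lit 266) (nat_lit 5) (nat_lit 277) (nat_lit 5) (nat_lit 267) (nat_lit 5) (nat_lit 368) (nat_lit 339) (nat_lit 193))))))))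
noncomputable def xc114 : XT := (XT.nd (nat_lit 45396) (nat_lit 0) (nat_lit 4560) (XT.nd (nat_lit 44616) (nat_lit 0) (nat_lit 13908) (XT.nd (nat_lit 312) (nat_lit 1824) (nat_lit 0) (XT.nd (nat_lit 156) (nat_lit 1368) (nat_lit 0) (XT.nd (nat_lit 78) (nat_lit 684) (nat_lit 0) (XT.lf (nat_lit 0) (nat_lit 12042742266) (nat_lit 760) (nat_lit 5586052692) (nat_lit 76) (nat_lit 3479857880) (nat_lit 257) (nat_lit 5) (nat_lit 267) (nat_lit 5) (nat_lit 258) (nat_lit 5) (nat_lit 369) (nat_lit 339) (nat_lit 192)) (XT.lf (nat_lit 0) (nat_lit 10842517839) (nat_lit 684) (nat_lit 5450471169) (nat_lit 760) (nat_lit 5184115411) (nat_lit 248) (nat_lit 5) (nat_lit 257) (nat_lit 5) (nat_lit 258) (nat_lit 5) (nat_lit 370) (nat_lit 339) (nat_lit 191))) (XT.nd (nat_lit 78) (nat_lit 760) (nat_lit 0) (XT.lf (nat_lit 0) (nat_lit 6005526892) (nat_lit 608) (nat_lit 14778172678) (nat_lit 684) (nat_lit 1070655951) (nat_lit 240)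 (nat_lit 5) (nat_lit 248) (nat_lit 5) (nat_lit 249) (nat_lit 5) (nat_lit 371) (nat_lit 339) (nat_lit 190)) (XT.lf (nat_lit 0) (nat_lit 993028566) (nat_lit 684) (nat_lit 2237050852) (nat_lit 760) (nat_lit 19010330497) (nat_lit 230) (nat_lit 5) (nat_lit 239) (nat_lit 5) (nat_lit 240) (nat_lit 5) (nat_lit 372) (nat_lit 339) (nat_lit 189)))) (XT.nd (nat_lit 156) (nat_lit 1216) (nat_lit 0) (XT.nd (nat_lit 78) (nat_lit 608) (nat_lit 0) (XT.lf (nat_lit 0) (nat_lit 7812995161) (nat_lit 760) (nat_lit 4167476183) (nat_lit 76) (nat_lit 10654083685) (nat_lit 230) (nat_lit 5) (nat_lit 240) (nat_lit 5) (nat_lit 231) (nat_lit 5) (nat_lit 373) (nat_lit 339) (nat_lit 188)) (XT.lf (nat_lit 0) (nat_lit 12633131482) (nat_lit 684) (nat_lit 9468009177) (nat_lit 76) (nat_lit 937393750) (nat_lit 222) (nat_lit 5) (nat_lit 231) (nat_lit 5) (nat_lit 223) (nat_lit 5) (nat_lit 374) (nat_lit 339) (nat_lit 187))) (XT.nd (nat_lit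 78) (nat_lit 608) (nat_lit 0) (XT.lf (nat_lit 0) (nat_lit 8463221061) (nat_lit 608) (nat_lit 9288798386) (nat_lit 684) (nat_lit 5699535215) (nat_lit 214) (nat_lit 5) (nat_lit 222) (nat_lit 5) (nat_lit 223) (nat_lit 5) (nat_lit 375) (nat_lit 339) (nat_lit 186)) (XT.nd (nat_lit 78) (nat_lit 76) (nat_lit 0) (XT.lf (nat_lit 0) (nat_lit 3191253065) (nat_lit 532) (nat_lit 19934739092) (nat_lit 608) (nat_lit 748947316) (nat_lit 207) (nat_lit 5) (nat_lit 214) (nat_lit 5) (nat_lit 215) (nat_lit 5) (nat_lit 376) (nat_lit 339) (nat_lit 185)) (XT.lf (nat_lit 0) (nat_lit 4448436507) (nat_lit 608) (nat_lit 2289691958) (nat_lit 76) (nat_lit 17569229959) (nat_lit 206) (nat_lit 5) (nat_lit 214) (nat_lit 5) (nat_lit 207) (nat_lit 5) (nat_lit 377) (nat_lit 339) (nat_lit 184)))))) (XT.nd (nat_lit 390) (nat_lit 0) (nat_lit 228) (XT.nd (nat_lit 156) (nat_lit 0) (nat_lit 76) (XT.nd (nat_lit 78) (nat_lit 0) (nat_lit 76)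 (XT.lf (nat_lit 0) (nat_lit 1481833820) (nat_lit 1748) (nat_lit 2650050129) (nat_lit 1748) (nat_lit 2650050129) (nat_lit 389) (nat_lit 3) (nat_lit 412) (nat_lit 3) (nat_lit 412) (nat_lit 5) (nat_lit 340) (nat_lit 340) (nat_lit 220)) (XT.lf (nat_lit 0) (nat_lit 3569171146) (nat_lit 1672) (nat_lit 9544557609) (nat_lit 1748) (nat_lit 642059180) (nat_lit 390) (nat_lit 5) (nat_lit 412) (nat_lit 5) (nat_lit 413) (nat_lit 5) (nat_lit 341) (nat_lit 340) (nat_lit 219))) (XT.nd (nat_lit 78) (nat_lit 0) (nat_lit 76) (XT.lf (nat_lit 76) (nat_lit 61835308) (nat_lit 0) (nat_lit 4202155148) (nat_lit 1748) (nat_lit 9688064217) (nat_lit 391) (nat_lit 5) (nat_lit 390) (nat_lit 5) (nat_lit 413) (nat_lit 5) (nat_lit 342) (nat_lit 340) (nat_lit 218)) (XT.nd (nat_lit 78) (nat_lit 0) (nat_lit 76) (XT.lf (nat_lit 0) (nat_lit 5056994735) (nat_lit 1672) (nat_lit 4110058796) (nat_lit 1748) (nat_lit 4985621095) (nat_lit 391)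 (nat_lit 5) (nat_lit 413) (nat_lit 5) (nat_lit 414) (nat_lit 5) (nat_lit 343) (nat_lit 340) (nat_lit 217)) (XT.lf (nat_lit 0) (nat_lit 5921903686) (nat_lit 1672) (nat_lit 8355903286) (nat_lit 1748) (nat_lit 80555587) (nat_lit 392) (nat_lit 5) (nat_lit 414) (nat_lit 5) (nat_lit 415) (nat_lit 5) (nat_lit 344) (nat_lit 340) (nat_lit 216))))) (XT.nd (nat_lit 156) (nat_lit 0) (nat_lit 76) (XT.nd (nat_lit 78) (nat_lit 0) (nat_lit 76) (XT.lf (nat_lit 76) (nat_lit 1856408148) (nat_lit 0) (nat_lit 5038800707) (nat_lit 1748) (nat_lit 7673374627) (nat_lit 393) (nat_lit 5) (nat_lit 392) (nat_lit 5) (nat_lit 415) (nat_lit 5) (nat_lit 345) (nat_lit 340) (nat_lit 215)) (XT.lf (nat_lit 0) (nat_lit 7965362799) (nat_lit 1672) (nat_lit 2335598561) (nat_lit 1748) (nat_lit 4482807682) (nat_lit 393) (nat_lit 5) (nat_lit 415) (nat_lit 5) (nat_lit 416) (nat_lit 5) (nat_lit 346) (nat_lit 340) (nat_lit 214))) (XT.nd (nat_lit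 78) (nat_lit 0) (nat_lit 76) (XT.lf (nat_lit 76) (nat_lit 8417676464) (nat_lit 0) (nat_lit 720413469) (nat_lit 1748) (nat_lit 5865921546) (nat_lit 394) (nat_lit 5) (nat_lit 393) (nat_lit 5) (nat_lit 416) (nat_lit 5) (nat_lit 347) (nat_lit 340) (nat_lit 213)) (XT.nd (nat_lit 78) (nat_lit 0) (nat_lit 76) (XT.lf (nat_lit 76) (nat_lit 4280094192) (nat_lit 0) (nat_lit 6151625798) (nat_lit 1748) (nat_lit 4797437146) (nat_lit 395) (nat_lit 5) (nat_lit 394) (nat_lit 5) (nat_lit 417) (nat_lit 5) (nat_lit 348) (nat_lit 340) (nat_lit 212)) (XT.lf (nat_lit 76) (nat_lit 62513190) (nat_lit 0) (nat_lit 11758856548) (nat_lit 1748) (nat_lit 3638553280) (nat_lit 396) (nat_lit 5) (nat_lit 395) (nat_lit 5) (nat_lit 418) (nat_lit 5) (nat_lit 349) (nat_lit 340) (nat_lit 211))))))) (XT.nd (nat_lit 702) (nat_lit 6688) (nat_lit 0) (XT.nd (nat_lit 312) (nat_lit 1520) (nat_lit 0) (XT.nd (nat_lit 156) (nat_lit 1596) (nat_lit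 0) (XT.nd (nat_lit 78) (nat_lit 0) (nat_lit 76) (XT.lf (nat_lit 76) (nat_lit 11501096587) (nat_lit 0) (nat_lit 1850170612) (nat_lit 1748) (nat_lit 2344383285) (nat_lit 396) (nat_lit 5) (nat_lit 395) (nat_lit 5) (nat_lit 418) (nat_lit 5) (nat_lit 350) (nat_lit 340) (nat_lit 210)) (XT.lf (nat_lit 76) (nat_lit 7375312265) (nat_lit 0) (nat_lit 7637893967) (nat_lit 1748) (nat_lit 923530140) (nat_lit 397) (nat_lit 5) (nat_lit 396) (nat_lit 5) (nat_lit 419) (nat_lit 5) (nat_lit 351) (nat_lit 340) (nat_lit 209))) (XT.nd (nat_lit 78) (nat_lit 0) (nat_lit 0) (XT.lf (nat_lit 0) (nat_lit 595665195) (nat_lit 1748) (nat_lit 13021709258) (nat_lit 1824) (nat_lit 2566363340) (nat_lit 374) (nat_lit 5) (nat_lit 397) (nat_lit 5) (nat_lit 398) (nat_lit 5) (nat_lit 352) (nat_lit 340) (nat_lit 208)) (XT.lf (nat_lit 0) (nat_lit 2242134636) (nat_lit 1748) (nat_lit 1151988445) (nat_lit 1824) (nat_lit 13042027946) (nat_lit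 374) (nat_lit 5) (nat_lit 397) (nat_lit 5) (nat_lit 398) (nat_lit 5) (nat_lit 353) (nat_lit 340) (nat_lit 207)))) (XT.nd (nat_lit 156) (nat_lit 1596) (nat_lit 0) (XT.nd (nat_lit 78) (nat_lit 0) (nat_lit 76) (XT.lf (nat_lit 0) (nat_lit 4042754786) (nat_lit 1748) (nat_lit 5532378161) (nat_lit 1824) (nat_lit 7118917094) (nat_lit 375) (nat_lit 5) (nat_lit 398) (nat_lit 5) (nat_lit 399) (nat_lit 5) (nat_lit 354) (nat_lit 340) (nat_lit 206)) (XT.lf (nat_lit 0) (nat_lit 5965137136) (nat_lit 1748) (nat_lit 10007000492) (nat_lit 1824) (nat_lit 986201793) (nat_lit 376) (nat_lit 5) (nat_lit 399) (nat_lit 5) (nat_lit 400) (nat_lit 5) (nat_lit 355) (nat_lit 340) (nat_lit 205))) (XT.nd (nat_lit 78) (nat_lit 1672) (nat_lit 0) (XT.lf (nat_lit 76) (nat_lit 2613836769) (nat_lit 0) (nat_lit 5435985420) (nat_lit 1824) (nat_lit 9178650693) (nat_lit 377) (nat_lit 5) (nat_lit 376) (nat_lit 5) (nat_lit 400) (nat_lit 5) (nat_lit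 356) (nat_lit 340) (nat_lit 204)) (XT.nd (nat_lit 78) (nat_lit 1748) (nat_lit 0) (XT.lf (nat_lit 0) (nat_lit 10286714834) (nat_lit 1748) (nat_lit 1802452453) (nat_lit 76) (nat_lit 5415757512) (nat_lit 377) (nat_lit 5) (nat_lit 400) (nat_lit 5) (nat_lit 378) (nat_lit 5) (nat_lit 357) (nat_lit 340) (nat_lit 203)) (XT.lf (nat_lit 0) (nat_lit 11497113205) (nat_lit 1748) (nat_lit 1191242982) (nat_lit 1824) (nat_lit 5099368812) (nat_lit 354) (nat_lit 5) (nat_lit 377) (nat_lit 5) (nat_lit 378) (nat_lit 5) (nat_lit 358) (nat_lit 340) (nat_lit 202)))))) (XT.nd (nat_lit 390) (nat_lit 3116) (nat_lit 0) (XT.nd (nat_lit 156) (nat_lit 1748) (nat_lit 0) (XT.nd (nat_lit 78) (nat_lit 912) (nat_lit 0) (XT.lf (nat_lit 0) (nat_lit 7158723238) (nat_lit 912) (nat_lit 8114212595) (nat_lit 988) (nat_lit 2803862936) (nat_lit 342) (nat_lit 5) (nat_lit 354) (nat_lit 5) (nat_lit 355) (nat_lit 5) (nat_lit 359) (nat_lit 340) (nat_lit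 201)) (XT.lf (nat_lit 0) (nat_lit 2719962762) (nat_lit 912) (nat_lit 15290729279) (nat_lit 988) (nat_lit 362347058) (nat_lit 330) (nat_lit 5) (nat_lit 342) (nat_lit 5) (nat_lit 343) (nat_lit 5) (nat_lit 360) (nat_lit 340) (nat_lit 200))) (XT.nd (nat_lit 78) (nat_lit 1672) (nat_lit 0) (XT.lf (nat_lit 0) (nat_lit 2240414962) (nat_lit 988) (nat_lit 1840405470) (nat_lit 76) (nat_lit 14594748898) (nat_lit 329) (nat_lit 5) (nat_lit 342) (nat_lit 5) (nat_lit 330) (nat_lit 5) (nat_lit 361) (nat_lit 340) (nat_lit 199)) (XT.nd (nat_lit 78) (nat_lit 836) (nat_lit 0) (XT.lf (nat_lit 0) (nat_lit 5034654054) (nat_lit 912) (nat_lit 6497370478) (nat_lit 76) (nat_lit 7452743281) (nat_lit 318) (nat_lit 5) (nat_lit 330) (nat_lit 5) (nat_lit 319) (nat_lit 5) (nat_lit 362) (nat_lit 340) (nat_lit 198)) (XT.lf (nat_lit 0) (nat_lit 7993136066) (nat_lit 912) (nat_lit 11267995563) (nat_lit 76) (nat_lit 40508704) (nat_lit 307)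 (nat_lit 5) (nat_lit 319) (nat_lit 5) (nat_lit 308) (nat_lit 5) (nat_lit 363) (nat_lit 340) (nat_lit 197))))) (XT.nd (nat_lit 156) (nat_lit 2356) (nat_lit 0) (XT.nd (nat_lit 78) (nat_lit 0) (nat_lit 0) (XT.lf (nat_lit 0) (nat_lit 3418443897) (nat_lit 760) (nat_lit 7753982783) (nat_lit 836) (nat_lit 8452957477) (nat_lit 297) (nat_lit 5) (nat_lit 307) (nat_lit 5) (nat_lit 308) (nat_lit 5) (nat_lit 364) (nat_lit 340) (nat_lit 196)) (XT.lf (nat_lit 0) (nat_lit 14539251890) (nat_lit 836) (nat_lit 1296129713) (nat_lit 76) (nat_lit 4121621607) (nat_lit 297) (nat_lit 5) (nat_lit 308) (nat_lit 5) (nat_lit 298) (nat_lit 5) (nat_lit 365) (nat_lit 340) (nat_lit 195))) (XT.nd (nat_lit 78) (nat_lit 1596) (nat_lit 0) (XT.lf (nat_lit 0) (nat_lit 14185107475) (nat_lit 760) (nat_lit 3954942689) (nat_lit 836) (nat_lit 2155867157) (nat_lit 287) (nat_lit 5) (nat_lit 297) (nat_lit 5) (nat_lit 298) (nat_lit 5) (nat_lit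 366) (nat_lit 340) (nat_lit 194)) (XT.nd (nat_lit 78) (nat_lit 760) (nat_lit 0) (XT.lf (nat_lit 0) (nat_lit 1302806444) (nat_lit 836) (nat_lit 11087112892) (nat_lit 76) (nat_lit 8252634329) (nat_lit 276) (nat_lit 5) (nat_lit 287) (nat_lit 5) (nat_lit 277) (nat_lit 5) (nat_lit 367) (nat_lit 340) (nat_lit 193)) (XT.lf (nat_lit 0) (nat_lit 4787119211) (nat_lit 760) (nat_lit 137640500) (nat_lit 836) (nat_lit 16072773606) (nat_lit 266) (nat_lit 5) (nat_lit 276) (nat_lit 5) (nat_lit 277) (nat_lit 5) (nat_lit 368) (nat_lit 340) (nat_lit 192))))))))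
noncomputable def xc115 : XT := (XT.nd (nat_lit 45474) (nat_lit 0) (nat_lit 3800) (XT.nd (nat_lit 44694) (nat_lit 0) (nat_lit 13832) (XT.nd (nat_lit 312) (nat_lit 2508) (nat_lit 0) (XT.nd (nat_lit 156) (nat_lit 1292) (nat_lit 0) (XT.nd (nat_lit 78) (nat_lit 684) (nat_lit 0) (XT.lf (nat_lit 0) (nat_lit 8801704648) (nat_lit 836) (nat_lit 164976448) (nat_lit 76) (nat_lit 12393559856) (nat_lit 266) (nat_lit 5) (nat_lit 277) (nat_lit 5) (nat_lit 267) (nat_lit 5) (nat_lit 369) (nat_lit 340) (nat_lit 191)) (XT.lf (nat_lit 0) (nat_lit 12917262926) (nat_lit 760) (nat_lit 5188324614) (nat_lit 76) (nat_lit 3625801274) (nat_lit 257) (nat_lit 5) (nat_lit 267) (nat_lit 5) (nat_lit 258) (nat_lit 5) (nat_lit 370) (nat_lit 340) (nat_lit 190))) (XT.nd (nat_lit 78) (nat_lit 608) (nat_lit 0) (XT.lf (nat_lit 0) (nat_lit 11723931555) (nat_lit 684) (nat_lit 5559747643) (nat_lit 760) (nat_lit 4827449043) (nat_lit 248) (nat_lit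 5) (nat_lit 257) (nat_lit 5) (nat_lit 258) (nat_lit 5) (nat_lit 371) (nat_lit 340) (nat_lit 189)) (XT.lf (nat_lit 0) (nat_lit 6742584143) (nat_lit 608) (nat_lit 15155866069) (nat_lit 684) (nat_lit 601467198) (nat_lit 240) (nat_lit 5) (nat_lit 248) (nat_lit 5) (nat_lit 249) (nat_lit 5) (nat_lit 372) (nat_lit 340) (nat_lit 188)))) (XT.nd (nat_lit 156) (nat_lit 1748) (nat_lit 0) (XT.nd (nat_lit 78) (nat_lit 0) (nat_lit 0) (XT.lf (nat_lit 0) (nat_lit 1577379366) (nat_lit 684) (nat_lit 2233526968) (nat_lit 760) (nat_lit 19086805158) (nat_lit 230) (nat_lit 5) (nat_lit 239) (nat_lit 5) (nat_lit 240) (nat_lit 5) (nat_lit 373) (nat_lit 340) (nat_lit 187)) (XT.lf (nat_lit 0) (nat_lit 8517659914) (nat_lit 760) (nat_lit 3744915952) (nat_lit 76) (nat_lit 11041384850) (nat_lit 230) (nat_lit 5) (nat_lit 240) (nat_lit 5) (nat_lit 231) (nat_lit 5) (nat_lit 374) (nat_lit 340) (nat_lit 186))) (XT.nd (nat_lit 78) (nat_lit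 1140) (nat_lit 0) (XT.lf (nat_lit 0) (nat_lit 13472711087) (nat_lit 684) (nat_lit 9204438930) (nat_lit 76) (nat_lit 1043109811) (nat_lit 222) (nat_lit 5) (nat_lit 231) (nat_lit 5) (nat_lit 223) (nat_lit 5) (nat_lit 375) (nat_lit 340) (nat_lit 185)) (XT.nd (nat_lit 78) (nat_lit 532) (nat_lit 0) (XT.lf (nat_lit 0) (nat_lit 9255843885) (nat_lit 608) (nat_lit 9479404458) (nat_lit 684) (nat_lit 5410627069) (nat_lit 214) (nat_lit 5) (nat_lit 222) (nat_lit 5) (nat_lit 223) (nat_lit 5) (nat_lit 376) (nat_lit 340) (nat_lit 184)) (XT.lf (nat_lit 0) (nat_lit 3825490413) (nat_lit 532) (nat_lit 20435874935) (nat_lit 608) (nat_lit 320784107) (nat_lit 207) (nat_lit 5) (nat_lit 214) (nat_lit 5) (nat_lit 215) (nat_lit 5) (nat_lit 377) (nat_lit 340) (nat_lit 183)))))) (XT.nd (nat_lit 390) (nat_lit 0) (nat_lit 228) (XT.nd (nat_lit 156) (nat_lit 0) (nat_lit 76) (XT.nd (nat_lit 78) (nat_lit 0) (nat_lit 76) (XT.lf (nat_lit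 0) (nat_lit 2050653738) (nat_lit 1748) (nat_lit 2461968419) (nat_lit 1748) (nat_lit 2461968419) (nat_lit 389) (nat_lit 3) (nat_lit 412) (nat_lit 3) (nat_lit 412) (nat_lit 5) (nat_lit 341) (nat_lit 341) (nat_lit 218)) (XT.lf (nat_lit 0) (nat_lit 4694634203) (nat_lit 1672) (nat_lit 9280153510) (nat_lit 1748) (nat_lit 172695952) (nat_lit 390) (nat_lit 5) (nat_lit 412) (nat_lit 5) (nat_lit 413) (nat_lit 5) (nat_lit 342) (nat_lit 341) (nat_lit 217))) (XT.nd (nat_lit 78) (nat_lit 0) (nat_lit 76) (XT.lf (nat_lit 76) (nat_lit 605496080) (nat_lit 0) (nat_lit 4778657990) (nat_lit 1748) (nat_lit 8966024986) (nat_lit 391) (nat_lit 5) (nat_lit 390) (nat_lit 5) (nat_lit 413) (nat_lit 5) (nat_lit 343) (nat_lit 341) (nat_lit 216)) (XT.nd (nat_lit 78) (nat_lit 0) (nat_lit 0) (XT.lf (nat_lit 0) (nat_lit 6169208807) (nat_lit 1672) (nat_lit 3684654237) (nat_lit 1748) (nat_lit 4703606611) (nat_lit 391) (nat_lit 5) (nat_lit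 413) (nat_lit 5) (nat_lit 414) (nat_lit 5) (nat_lit 344) (nat_lit 341) (nat_lit 215)) (XT.lf (nat_lit 76) (nat_lit 6722894053) (nat_lit 0) (nat_lit 312154018) (nat_lit 1748) (nat_lit 7734797245) (nat_lit 392) (nat_lit 5) (nat_lit 391) (nat_lit 5) (nat_lit 414) (nat_lit 5) (nat_lit 345) (nat_lit 341) (nat_lit 214))))) (XT.nd (nat_lit 156) (nat_lit 0) (nat_lit 76) (XT.nd (nat_lit 78) (nat_lit 0) (nat_lit 76) (XT.lf (nat_lit 76) (nat_lit 2464644026) (nat_lit 0) (nat_lit 5547280967) (nat_lit 1748) (nat_lit 6974976685) (nat_lit 393) (nat_lit 5) (nat_lit 392) (nat_lit 5) (nat_lit 415) (nat_lit 5) (nat_lit 346) (nat_lit 341) (nat_lit 213)) (XT.lf (nat_lit 0) (nat_lit 9085430419) (nat_lit 1672) (nat_lit 1848770523) (nat_lit 1748) (nat_lit 4274932716) (nat_lit 393) (nat_lit 5) (nat_lit 415) (nat_lit 5) (nat_lit 416) (nat_lit 5) (nat_lit 347) (nat_lit 341) (nat_lit 212))) (XT.nd (nat_lit 78) (nat_lit 0) (nat_lit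 76) (XT.lf (nat_lit 76) (nat_lit 9218067777) (nat_lit 0) (nat_lit 1053165365) (nat_lit 1748) (nat_lit 5165207680) (nat_lit 394) (nat_lit 5) (nat_lit 393) (nat_lit 5) (nat_lit 416) (nat_lit 5) (nat_lit 348) (nat_lit 341) (nat_lit 211)) (XT.nd (nat_lit 78) (nat_lit 0) (nat_lit 76) (XT.lf (nat_lit 76) (nat_lit 4966860979) (nat_lit 0) (nat_lit 6613455673) (nat_lit 1748) (nat_lit 4088506190) (nat_lit 395) (nat_lit 5) (nat_lit 394) (nat_lit 5) (nat_lit 417) (nat_lit 5) (nat_lit 349) (nat_lit 341) (nat_lit 210)) (XT.lf (nat_lit 76) (nat_lit 632394653) (nat_lit 0) (nat_lit 12356862077) (nat_lit 1748) (nat_lit 2917717401) (nat_lit 396) (nat_lit 5) (nat_lit 395) (nat_lit 5) (nat_lit 418) (nat_lit 5) (nat_lit 350) (nat_lit 341) (nat_lit 209))))))) (XT.nd (nat_lit 780) (nat_lit 6460) (nat_lit 0) (XT.nd (nat_lit 390) (nat_lit 2432) (nat_lit 0) (XT.nd (nat_lit 156) (nat_lit 1596) (nat_lit 0) (XT.nd (nat_lit 78)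 (nat_lit 0) (nat_lit 76) (XT.lf (nat_lit 76) (nat_lit 12397591686) (nat_lit 0) (nat_lit 2143772655) (nat_lit 1748) (nat_lit 1608896845) (nat_lit 396) (nat_lit 5) (nat_lit 395) (nat_lit 5) (nat_lit 418) (nat_lit 5) (nat_lit 351) (nat_lit 341) (nat_lit 208)) (XT.lf (nat_lit 76) (nat_lit 8156602850) (nat_lit 0) (nat_lit 8075697065) (nat_lit 1748) (nat_lit 166710590) (nat_lit 397) (nat_lit 5) (nat_lit 396) (nat_lit 5) (nat_lit 419) (nat_lit 5) (nat_lit 352) (nat_lit 341) (nat_lit 207))) (XT.nd (nat_lit 78) (nat_lit 0) (nat_lit 0) (XT.lf (nat_lit 0) (nat_lit 1367608063) (nat_lit 1748) (nat_lit 12834057796) (nat_lit 1824) (nat_lit 2452070467) (nat_lit 374) (nat_lit 5) (nat_lit 397) (nat_lit 5) (nat_lit 398) (nat_lit 5) (nat_lit 353) (nat_lit 341) (nat_lit 206)) (XT.nd (nat_lit 78) (nat_lit 0) (nat_lit 76) (XT.lf (nat_lit 0) (nat_lit 3041508298) (nat_lit 1748) (nat_lit 625089128) (nat_lit 1824) (nat_lit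 13247576384) (nat_lit 374) (nat_lit 5) (nat_lit 397) (nat_lit 5) (nat_lit 398) (nat_lit 5) (nat_lit 354) (nat_lit 341) (nat_lit 205)) (XT.lf (nat_lit 0) (nat_lit 4877357738) (nat_lit 1748) (nat_lit 5130252803) (nat_lit 1824) (nat_lit 7172587260) (nat_lit 375) (nat_lit 5) (nat_lit 398) (nat_lit 5) (nat_lit 399) (nat_lit 5) (nat_lit 355) (nat_lit 341) (nat_lit 204))))) (XT.nd (nat_lit 156) (nat_lit 2584) (nat_lit 0) (XT.nd (nat_lit 78) (nat_lit 0) (nat_lit 0) (XT.lf (nat_lit 0) (nat_lit 6839372463) (nat_lit 1748) (nat_lit 9733120179) (nat_lit 1824) (nat_lit 880295865) (nat_lit 376) (nat_lit 5) (nat_lit 399) (nat_lit 5) (nat_lit 400) (nat_lit 5) (nat_lit 356) (nat_lit 341) (nat_lit 203)) (XT.lf (nat_lit 76) (nat_lit 3257028266) (nat_lit 0) (nat_lit 5712985797) (nat_lit 1824) (nat_lit 8761355109) (nat_lit 377) (nat_lit 5) (nat_lit 376) (nat_lit 5) (nat_lit 400) (nat_lit 5) (nat_lit 357) (nat_lit 341)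 (nat_lit 202))) (XT.nd (nat_lit 78) (nat_lit 2660) (nat_lit 0) (XT.lf (nat_lit 0) (nat_lit 11253527500) (nat_lit 1748) (nat_lit 1293929968) (nat_lit 76) (nat_lit 5469078080) (nat_lit 377) (nat_lit 5) (nat_lit 400) (nat_lit 5) (nat_lit 378) (nat_lit 5) (nat_lit 358) (nat_lit 341) (nat_lit 201)) (XT.nd (nat_lit 78) (nat_lit 912) (nat_lit 0) (XT.lf (nat_lit 0) (nat_lit 12395495207) (nat_lit 1748) (nat_lit 1316145172) (nat_lit 1824) (nat_lit 4596501788) (nat_lit 354) (nat_lit 5) (nat_lit 377) (nat_lit 5) (nat_lit 378) (nat_lit 5) (nat_lit 359) (nat_lit 341) (nat_lit 200)) (XT.lf (nat_lit 0) (nat_lit 7931543887) (nat_lit 912) (nat_lit 8426557279) (nat_lit 988) (nat_lit 2248110650) (nat_lit 342) (nat_lit 5) (nat_lit 354) (nat_lit 5) (nat_lit 355) (nat_lit 5) (nat_lit 360) (nat_lit 341) (nat_lit 199)))))) (XT.nd (nat_lit 390) (nat_lit 3040) (nat_lit 0) (XT.nd (nat_lit 156) (nat_lit 2432) (nat_lit 0) (XT.nd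 (nat_lit 78) (nat_lit 0) (nat_lit 0) (XT.lf (nat_lit 0) (nat_lit 247997585) (nat_lit 988) (nat_lit 15549593343) (nat_lit 76) (nat_lit 3114026954) (nat_lit 329) (nat_lit 5) (nat_lit 342) (nat_lit 5) (nat_lit 330) (nat_lit 5) (nat_lit 361) (nat_lit 341) (nat_lit 198)) (XT.lf (nat_lit 0) (nat_lit 2905996578) (nat_lit 988) (nat_lit 1341586460) (nat_lit 76) (nat_lit 14975961281) (nat_lit 329) (nat_lit 5) (nat_lit 342) (nat_lit 5) (nat_lit 330) (nat_lit 5) (nat_lit 362) (nat_lit 341) (nat_lit 197))) (XT.nd (nat_lit 78) (nat_lit 1596) (nat_lit 0) (XT.lf (nat_lit 0) (nat_lit 5769917342) (nat_lit 912) (nat_lit 6134988021) (nat_lit 76) (nat_lit 7637405762) (nat_lit 318) (nat_lit 5) (nat_lit 330) (nat_lit 5) (nat_lit 319) (nat_lit 5) (nat_lit 363) (nat_lit 341) (nat_lit 196)) (XT.nd (nat_lit 78) (nat_lit 760) (nat_lit 0) (XT.lf (nat_lit 0) (nat_lit 8803551153) (nat_lit 912) (nat_lit 11045905918) (nat_lit 76)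 (nat_lit 19513984) (nat_lit 307) (nat_lit 5) (nat_lit 319) (nat_lit 5) (nat_lit 308) (nat_lit 5) (nat_lit 364) (nat_lit 341) (nat_lit 195)) (XT.lf (nat_lit 0) (nat_lit 4072039290) (nat_lit 760) (nat_lit 7993138898) (nat_lit 836) (nat_lit 8137518768) (nat_lit 297) (nat_lit 5) (nat_lit 307) (nat_lit 5) (nat_lit 308) (nat_lit 5) (nat_lit 365) (nat_lit 341) (nat_lit 194))))) (XT.nd (nat_lit 156) (nat_lit 2280) (nat_lit 0) (XT.nd (nat_lit 78) (nat_lit 760) (nat_lit 0) (XT.lf (nat_lit 0) (nat_lit 15516726793) (nat_lit 836) (nat_lit 788864825) (nat_lit 76) (nat_lit 4239007243) (nat_lit 297) (nat_lit 5) (nat_lit 308) (nat_lit 5) (nat_lit 298) (nat_lit 5) (nat_lit 366) (nat_lit 341) (nat_lit 193)) (XT.lf (nat_lit 0) (nat_lit 15147948864) (nat_lit 760) (nat_lit 4065322641) (nat_lit 836) (nat_lit 1680662845) (nat_lit 287) (nat_lit 5) (nat_lit 297) (nat_lit 5) (nat_lit 298) (nat_lit 5) (nat_lit 367) (nat_lit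 341) (nat_lit 192))) (XT.nd (nat_lit 78) (nat_lit 1444) (nat_lit 0) (XT.lf (nat_lit 0) (nat_lit 1862748410) (nat_lit 836) (nat_lit 10873334964) (nat_lit 76) (nat_lit 8515063139) (nat_lit 276) (nat_lit 5) (nat_lit 287) (nat_lit 5) (nat_lit 277) (nat_lit 5) (nat_lit 368) (nat_lit 341) (nat_lit 191)) (XT.nd (nat_lit 78) (nat_lit 684) (nat_lit 0) (XT.lf (nat_lit 0) (nat_lit 5468259552) (nat_lit 760) (nat_lit 113420090) (nat_lit 836) (nat_lit 16035337293) (nat_lit 266) (nat_lit 5) (nat_lit 276) (nat_lit 5) (nat_lit 277) (nat_lit 5) (nat_lit 369) (nat_lit 341) (nat_lit 190)) (XT.lf (nat_lit 0) (nat_lit 366713954) (nat_lit 684) (nat_lit 9195948223) (nat_lit 760) (nat_lit 12428196574) (nat_lit 257) (nat_lit 5) (nat_lit 266) (nat_lit 5) (nat_lit 267) (nat_lit 5) (nat_lit 370) (nat_lit 341) (nat_lit 189))))))))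
noncomputable def xc116 : XT := (XT.nd (nat_lit 45552) (nat_lit 0) (nat_lit 3268) (XT.nd (nat_lit 44772) (nat_lit 0) (nat_lit 12084) (XT.nd (nat_lit 312) (nat_lit 1216) (nat_lit 0) (XT.nd (nat_lit 156) (nat_lit 1368) (nat_lit 0) (XT.nd (nat_lit 78) (nat_lit 684) (nat_lit 0) (XT.lf (nat_lit 0) (nat_lit 13788557223) (nat_lit 760) (nat_lit 4811115781) (nat_lit 76) (nat_lit 3773737965) (nat_lit 257) (nat_lit 5) (nat_lit 267) (nat_lit 5) (nat_lit 258) (nat_lit 5) (nat_lit 371) (nat_lit 341) (nat_lit 188)) (XT.lf (nat_lit 0) (nat_lit 12599863076) (nat_lit 684) (nat_lit 5675415874) (nat_lit 760) (nat_lit 4489484475) (nat_lit 248) (nat_lit 5) (nat_lit 257) (nat_lit 5) (nat_lit 258) (nat_lit 5) (nat_lit 372) (nat_lit 341) (nat_lit 187))) (XT.nd (nat_lit 78) (nat_lit 760) (nat_lit 0) (XT.lf (nat_lit 0) (nat_lit 7469785266) (nat_lit 608) (nat_lit 15548658944) (nat_lit 684) (nat_lit 146979938) (nat_lit 240) (nat_lit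 5) (nat_lit 248) (nat_lit 5) (nat_lit 249) (nat_lit 5) (nat_lit 373) (nat_lit 341) (nat_lit 186)) (XT.lf (nat_lit 0) (nat_lit 2147426680) (nat_lit 684) (nat_lit 2233952129) (nat_lit 760) (nat_lit 19193922223) (nat_lit 230) (nat_lit 5) (nat_lit 239) (nat_lit 5) (nat_lit 240) (nat_lit 5) (nat_lit 374) (nat_lit 341) (nat_lit 185)))) (XT.nd (nat_lit 156) (nat_lit 608) (nat_lit 0) (XT.nd (nat_lit 78) (nat_lit 608) (nat_lit 0) (XT.lf (nat_lit 0) (nat_lit 9216468906) (nat_lit 760) (nat_lit 3341112506) (nat_lit 76) (nat_lit 11436420017) (nat_lit 230) (nat_lit 5) (nat_lit 240) (nat_lit 5) (nat_lit 231) (nat_lit 5) (nat_lit 375) (nat_lit 341) (nat_lit 184)) (XT.lf (nat_lit 0) (nat_lit 14311038579) (nat_lit 684) (nat_lit 8964396660) (nat_lit 76) (nat_lit 1147543127) (nat_lit 222) (nat_lit 5) (nat_lit 231) (nat_lit 5) (nat_lit 223) (nat_lit 5) (nat_lit 376) (nat_lit 341) (nat_lit 183))) (XT.nd (nat_lit 44148)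 (nat_lit 0) (nat_lit 13300) (XT.lf (nat_lit 0) (nat_lit 10041320306) (nat_lit 608) (nat_lit 9680783594) (nat_lit 684) (nat_lit 5139451488) (nat_lit 214) (nat_lit 5) (nat_lit 222) (nat_lit 5) (nat_lit 223) (nat_lit 5) (nat_lit 377) (nat_lit 341) (nat_lit 182)) (XT.nd (nat_lit 78) (nat_lit 0) (nat_lit 0) (XT.lf (nat_lit 0) (nat_lit 2606437562) (nat_lit 1748) (nat_lit 2283604629) (nat_lit 1748) (nat_lit 2283604629) (nat_lit 389) (nat_lit 3) (nat_lit 412) (nat_lit 3) (nat_lit 412) (nat_lit 5) (nat_lit 342) (nat_lit 342) (nat_lit 216)) (XT.lf (nat_lit 76) (nat_lit 5510805361) (nat_lit 0) (nat_lit 286456019) (nat_lit 1748) (nat_lit 8754835907) (nat_lit 390) (nat_lit 5) (nat_lit 389) (nat_lit 3) (nat_lit 412) (nat_lit 5) (nat_lit 343) (nat_lit 342) (nat_lit 215)))))) (XT.nd (nat_lit 390) (nat_lit 1292) (nat_lit 0) (XT.nd (nat_lit 156) (nat_lit 0) (nat_lit 76) (XT.nd (nat_lit 78) (nat_lit 0) (nat_lit 76)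 (XT.lf (nat_lit 76) (nat_lit 1134364810) (nat_lit 0) (nat_lit 5346598923) (nat_lit 1748) (nat_lit 8280456620) (nat_lit 391) (nat_lit 5) (nat_lit 390) (nat_lit 5) (nat_lit 413) (nat_lit 5) (nat_lit 344) (nat_lit 342) (nat_lit 214)) (XT.lf (nat_lit 0) (nat_lit 7259652429) (nat_lit 1672) (nat_lit 3277985529) (nat_lit 1748) (nat_lit 4437906329) (nat_lit 391) (nat_lit 5) (nat_lit 413) (nat_lit 5) (nat_lit 414) (nat_lit 5) (nat_lit 345) (nat_lit 342) (nat_lit 213))) (XT.nd (nat_lit 78) (nat_lit 0) (nat_lit 76) (XT.lf (nat_lit 76) (nat_lit 7433398119) (nat_lit 0) (nat_lit 695002408) (nat_lit 1748) (nat_lit 7066367808) (nat_lit 392) (nat_lit 5) (nat_lit 391) (nat_lit 5) (nat_lit 414) (nat_lit 5) (nat_lit 346) (nat_lit 342) (nat_lit 212)) (XT.nd (nat_lit 78) (nat_lit 0) (nat_lit 76) (XT.lf (nat_lit 76) (nat_lit 3059408715) (nat_lit 0) (nat_lit 6050504222) (nat_lit 1748) (nat_lit 6308932197) (nat_lit 393) (nat_lit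 5) (nat_lit 392) (nat_lit 5) (nat_lit 415) (nat_lit 5) (nat_lit 347) (nat_lit 342) (nat_lit 211)) (XT.lf (nat_lit 0) (nat_lit 10188520937) (nat_lit 1672) (nat_lit 1379305752) (nat_lit 1748) (nat_lit 4080474320) (nat_lit 393) (nat_lit 5) (nat_lit 415) (nat_lit 5) (nat_lit 416) (nat_lit 5) (nat_lit 348) (nat_lit 342) (nat_lit 210))))) (XT.nd (nat_lit 156) (nat_lit 1520) (nat_lit 0) (XT.nd (nat_lit 78) (nat_lit 0) (nat_lit 76) (XT.lf (nat_lit 76) (nat_lit 10011021366) (nat_lit 0) (nat_lit 1378039137) (nat_lit 1748) (nat_lit 4493798078) (nat_lit 394) (nat_lit 5) (nat_lit 393) (nat_lit 5) (nat_lit 416) (nat_lit 5) (nat_lit 349) (nat_lit 342) (nat_lit 209)) (XT.lf (nat_lit 76) (nat_lit 5642178394) (nat_lit 0) (nat_lit 7073223375) (nat_lit 1748) (nat_lit 3407264617) (nat_lit 395) (nat_lit 5) (nat_lit 394) (nat_lit 5) (nat_lit 417) (nat_lit 5) (nat_lit 350) (nat_lit 342) (nat_lit 208))) (XT.nd (nat_lit 78)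 (nat_lit 1672) (nat_lit 0) (XT.lf (nat_lit 76) (nat_lit 1186766688) (nat_lit 0) (nat_lit 12958730003) (nat_lit 1748) (nat_lit 2222901411) (nat_lit 396) (nat_lit 5) (nat_lit 395) (nat_lit 5) (nat_lit 418) (nat_lit 5) (nat_lit 351) (nat_lit 342) (nat_lit 207)) (XT.nd (nat_lit 78) (nat_lit 1672) (nat_lit 0) (XT.lf (nat_lit 76) (nat_lit 13289325452) (nat_lit 0) (nat_lit 2432515023) (nat_lit 1748) (nat_lit 897603058) (nat_lit 396) (nat_lit 5) (nat_lit 395) (nat_lit 5) (nat_lit 418) (nat_lit 5) (nat_lit 352) (nat_lit 342) (nat_lit 206)) (XT.lf (nat_lit 0) (nat_lit 560332058) (nat_lit 1748) (nat_lit 7950563776) (nat_lit 1824) (nat_lit 8365091889) (nat_lit 373) (nat_lit 5) (nat_lit 396) (nat_lit 5) (nat_lit 397) (nat_lit 5) (nat_lit 353) (nat_lit 342) (nat_lit 205))))))) (XT.nd (nat_lit 702) (nat_lit 5472) (nat_lit 0) (XT.nd (nat_lit 312) (nat_lit 3420) (nat_lit 0) (XT.nd (nat_lit 156) (nat_lit 0) (nat_lit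 76) (XT.nd (nat_lit 78) (nat_lit 0) (nat_lit 0) (XT.lf (nat_lit 0) (nat_lit 2119422346) (nat_lit 1748) (nat_lit 12673973734) (nat_lit 1824) (nat_lit 2345329279) (nat_lit 374) (nat_lit 5) (nat_lit 397) (nat_lit 5) (nat_lit 398) (nat_lit 5) (nat_lit 354) (nat_lit 342) (nat_lit 204)) (XT.lf (nat_lit 0) (nat_lit 3822837083) (nat_lit 1748) (nat_lit 114612873) (nat_lit 1824) (nat_lit 13469951926) (nat_lit 374) (nat_lit 5) (nat_lit 397) (nat_lit 5) (nat_lit 398) (nat_lit 5) (nat_lit 355) (nat_lit 342) (nat_lit 203))) (XT.nd (nat_lit 78) (nat_lit 0) (nat_lit 76) (XT.lf (nat_lit 0) (nat_lit 5696051274) (nat_lit 1748) (nat_lit 4748674759) (nat_lit 1824) (nat_lit 7237046293) (nat_lit 375) (nat_lit 5) (nat_lit 398) (nat_lit 5) (nat_lit 399) (nat_lit 5) (nat_lit 356) (nat_lit 342) (nat_lit 202)) (XT.lf (nat_lit 0) (nat_lit 7699922864) (nat_lit 1748) (nat_lit 9483978591) (nat_lit 1824) (nat_lit 778990553) (nat_lit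 376) (nat_lit 5) (nat_lit 399) (nat_lit 5) (nat_lit 400) (nat_lit 5) (nat_lit 357) (nat_lit 342) (nat_lit 201)))) (XT.nd (nat_lit 156) (nat_lit 3572) (nat_lit 0) (XT.nd (nat_lit 78) (nat_lit 0) (nat_lit 76) (XT.lf (nat_lit 76) (nat_lit 3887095032) (nat_lit 0) (nat_lit 5991756663) (nat_lit 1824) (nat_lit 8371301895) (nat_lit 377) (nat_lit 5) (nat_lit 376) (nat_lit 5) (nat_lit 400) (nat_lit 5) (nat_lit 358) (nat_lit 342) (nat_lit 200)) (XT.lf (nat_lit 0) (nat_lit 12211560529) (nat_lit 1748) (nat_lit 802447124) (nat_lit 76) (nat_lit 5530264046) (nat_lit 377) (nat_lit 5) (nat_lit 400) (nat_lit 5) (nat_lit 378) (nat_lit 5) (nat_lit 359) (nat_lit 342) (nat_lit 199))) (XT.nd (nat_lit 78) (nat_lit 1900) (nat_lit 0) (XT.lf (nat_lit 0) (nat_lit 13289057307) (nat_lit 1748) (nat_lit 1439675997) (nat_lit 1824) (nat_lit 4116197116) (nat_lit 354) (nat_lit 5) (nat_lit 377) (nat_lit 5) (nat_lit 378) (nat_lit 5) (nat_lit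 360) (nat_lit 342) (nat_lit 198)) (XT.nd (nat_lit 78) (nat_lit 988) (nat_lit 0) (XT.lf (nat_lit 0) (nat_lit 8695514290) (nat_lit 912) (nat_lit 8744316110) (nat_lit 988) (nat_lit 1712416846) (nat_lit 342) (nat_lit 5) (nat_lit 354) (nat_lit 5) (nat_lit 355) (nat_lit 5) (nat_lit 361) (nat_lit 342) (nat_lit 197)) (XT.lf (nat_lit 0) (nat_lit 836378452) (nat_lit 988) (nat_lit 15478186800) (nat_lit 76) (nat_lit 3152467099) (nat_lit 329) (nat_lit 5) (nat_lit 342) (nat_lit 5) (nat_lit 330) (nat_lit 5) (nat_lit 362) (nat_lit 342) (nat_lit 196)))))) (XT.nd (nat_lit 390) (nat_lit 3040) (nat_lit 0) (XT.nd (nat_lit 156) (nat_lit 1596) (nat_lit 0) (XT.nd (nat_lit 78) (nat_lit 836) (nat_lit 0) (XT.lf (nat_lit 0) (nat_lit 3557196805) (nat_lit 988) (nat_lit 859606536) (nat_lit 76) (nat_lit 15371860834) (nat_lit 329) (nat_lit 5) (nat_lit 342) (nat_lit 5) (nat_lit 330) (nat_lit 5) (nat_lit 363) (nat_lit 342) (nat_lit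 195)) (XT.lf (nat_lit 0) (nat_lit 6493701700) (nat_lit 912) (nat_lit 5793725595) (nat_lit 76) (nat_lit 7829842274) (nat_lit 318) (nat_lit 5) (nat_lit 330) (nat_lit 5) (nat_lit 319) (nat_lit 5) (nat_lit 364) (nat_lit 342) (nat_lit 194))) (XT.nd (nat_lit 78) (nat_lit 760) (nat_lit 0) (XT.lf (nat_lit 0) (nat_lit 9604681472) (nat_lit 836) (nat_lit 846738) (nat_lit 912) (nat_lit 10848466069) (nat_lit 307) (nat_lit 5) (nat_lit 318) (nat_lit 5) (nat_lit 319) (nat_lit 5) (nat_lit 365) (nat_lit 342) (nat_lit 193)) (XT.nd (nat_lit 78) (nat_lit 0) (nat_lit 0) (XT.lf (nat_lit 0) (nat_lit 4713610475) (nat_lit 760) (nat_lit 8239094466) (nat_lit 836) (nat_lit 7845281400) (nat_lit 297) (nat_lit 5) (nat_lit 307) (nat_lit 5) (nat_lit 308) (nat_lit 5) (nat_lit 366) (nat_lit 342) (nat_lit 192)) (XT.lf (nat_lit 0) (nat_lit 16492453261) (nat_lit 836) (nat_lit 297733164) (nat_lit 76) (nat_lit 4360273972) (nat_lit 297) (nat_lit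 5) (nat_lit 308) (nat_lit 5) (nat_lit 298) (nat_lit 5) (nat_lit 367) (nat_lit 342) (nat_lit 191))))) (XT.nd (nat_lit 156) (nat_lit 1444) (nat_lit 0) (XT.nd (nat_lit 78) (nat_lit 836) (nat_lit 0) (XT.lf (nat_lit 0) (nat_lit 16108832956) (nat_lit 760) (nat_lit 4179488626) (nat_lit 836) (nat_lit 1222193743) (nat_lit 287) (nat_lit 5) (nat_lit 297) (nat_lit 5) (nat_lit 298) (nat_lit 5) (nat_lit 368) (nat_lit 342) (nat_lit 190)) (XT.lf (nat_lit 0) (nat_lit 2409589269) (nat_lit 836) (nat_lit 10684508796) (nat_lit 76) (nat_lit 8784512375) (nat_lit 276) (nat_lit 5) (nat_lit 287) (nat_lit 5) (nat_lit 277) (nat_lit 5) (nat_lit 369) (nat_lit 342) (nat_lit 189))) (XT.nd (nat_lit 78) (nat_lit 684) (nat_lit 0) (XT.lf (nat_lit 0) (nat_lit 6138977867) (nat_lit 760) (nat_lit 90100452) (nat_lit 836) (nat_lit 16026606177) (nat_lit 266) (nat_lit 5) (nat_lit 276) (nat_lit 5) (nat_lit 277) (nat_lit 5) (nat_lit 370) (nat_lit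 342) (nat_lit 188)) (XT.nd (nat_lit 78) (nat_lit 0) (nat_lit 0) (XT.lf (nat_lit 0) (nat_lit 885678347) (nat_lit 684) (nat_lit 9433299385) (nat_lit 760) (nat_lit 12321981193) (nat_lit 257) (nat_lit 5) (nat_lit 266) (nat_lit 5) (nat_lit 267) (nat_lit 5) (nat_lit 371) (nat_lit 342) (nat_lit 187)) (XT.lf (nat_lit 0) (nat_lit 14658219604) (nat_lit 760) (nat_lit 4453178945) (nat_lit 76) (nat_lit 3923864660) (nat_lit 257) (nat_lit 5) (nat_lit 267) (nat_lit 5) (nat_lit 258) (nat_lit 5) (nat_lit 372) (nat_lit 342) (nat_lit 186))))))))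
noncomputable def xc117 : XT := (XT.nd (nat_lit 45708) (nat_lit 0) (nat_lit 0) (XT.nd (nat_lit 44928) (nat_lit 0) (nat_lit 10868) (XT.nd (nat_lit 44538) (nat_lit 0) (nat_lit 12084) (XT.nd (nat_lit 156) (nat_lit 684) (nat_lit 0) (XT.nd (nat_lit 78) (nat_lit 684) (nat_lit 0) (XT.lf (nat_lit 0) (nat_lit 13471980538) (nat_lit 684) (nat_lit 5797488891) (nat_lit 760) (nat_lit 4169094979) (nat_lit 248) (nat_lit 5) (nat_lit 257) (nat_lit 5) (nat_lit 258) (nat_lit 5) (nat_lit 373) (nat_lit 342) (nat_lit 185)) (XT.lf (nat_lit 0) (nat_lit 290160628) (nat_lit 684) (nat_lit 15664680189) (nat_lit 76) (nat_lit 7896561900) (nat_lit 239) (nat_lit 5) (nat_lit 248) (nat_lit 5) (nat_lit 240) (nat_lit 5) (nat_lit 374) (nat_lit 342) (nat_lit 184))) (XT.nd (nat_lit 78) (nat_lit 0) (nat_lit 0) (XT.lf (nat_lit 0) (nat_lit 2704568806) (nat_lit 684) (nat_lit 2238212047) (nat_lit 760) (nat_lit 19330973663) (nat_lit 230) (nat_lit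 5) (nat_lit 239) (nat_lit 5) (nat_lit 240) (nat_lit 5) (nat_lit 375) (nat_lit 342) (nat_lit 183)) (XT.lf (nat_lit 0) (nat_lit 9910796129) (nat_lit 760) (nat_lit 2954824131) (nat_lit 76) (nat_lit 11839644225) (nat_lit 230) (nat_lit 5) (nat_lit 240) (nat_lit 5) (nat_lit 231) (nat_lit 5) (nat_lit 376) (nat_lit 342) (nat_lit 182)))) (XT.nd (nat_lit 156) (nat_lit 0) (nat_lit 76) (XT.nd (nat_lit 78) (nat_lit 0) (nat_lit 0) (XT.lf (nat_lit 0) (nat_lit 3150522114) (nat_lit 1748) (nat_lit 2114368548) (nat_lit 1748) (nat_lit 2114368548) (nat_lit 389) (nat_lit 3) (nat_lit 412) (nat_lit 3) (nat_lit 412) (nat_lit 5) (nat_lit 343) (nat_lit 343) (nat_lit 214)) (XT.lf (nat_lit 76) (nat_lit 6143903727) (nat_lit 0) (nat_lit 734956138) (nat_lit 1748) (nat_lit 8091104618) (nat_lit 390) (nat_lit 5) (nat_lit 389) (nat_lit 3) (nat_lit 412) (nat_lit 5) (nat_lit 344) (nat_lit 343) (nat_lit 213))) (XT.nd (nat_lit 78) (nat_lit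 0) (nat_lit 76) (XT.lf (nat_lit 76) (nat_lit 1649783112) (nat_lit 0) (nat_lit 5907205387) (nat_lit 1748) (nat_lit 7629116227) (nat_lit 391) (nat_lit 5) (nat_lit 390) (nat_lit 5) (nat_lit 413) (nat_lit 5) (nat_lit 345) (nat_lit 343) (nat_lit 212)) (XT.nd (nat_lit 78) (nat_lit 0) (nat_lit 0) (XT.lf (nat_lit 0) (nat_lit 8330837570) (nat_lit 1672) (nat_lit 2888806634) (nat_lit 1748) (nat_lit 4187587510) (nat_lit 391) (nat_lit 5) (nat_lit 413) (nat_lit 5) (nat_lit 414) (nat_lit 5) (nat_lit 346) (nat_lit 343) (nat_lit 211)) (XT.lf (nat_lit 76) (nat_lit 8136009115) (nat_lit 0) (nat_lit 1067896754) (nat_lit 1748) (nat_lit 6429576341) (nat_lit 392) (nat_lit 5) (nat_lit 391) (nat_lit 5) (nat_lit 414) (nat_lit 5) (nat_lit 347) (nat_lit 343) (nat_lit 210)))))) (XT.nd (nat_lit 390) (nat_lit 1444) (nat_lit 0) (XT.nd (nat_lit 156) (nat_lit 0) (nat_lit 76) (XT.nd (nat_lit 78) (nat_lit 0) (nat_lit 76) (XT.lf (nat_lit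 76) (nat_lit 3642118838) (nat_lit 0) (nat_lit 6549490199) (nat_lit 1748) (nat_lit 5673151819) (nat_lit 393) (nat_lit 5) (nat_lit 392) (nat_lit 5) (nat_lit 415) (nat_lit 5) (nat_lit 348) (nat_lit 343) (nat_lit 209)) (XT.lf (nat_lit 0) (nat_lit 11277028488) (nat_lit 1672) (nat_lit 925890045) (nat_lit 1748) (nat_lit 3898706837) (nat_lit 393) (nat_lit 5) (nat_lit 415) (nat_lit 5) (nat_lit 416) (nat_lit 5) (nat_lit 349) (nat_lit 343) (nat_lit 208))) (XT.nd (nat_lit 78) (nat_lit 0) (nat_lit 76) (XT.lf (nat_lit 76) (nat_lit 10798119427) (nat_lit 0) (nat_lit 1695823719) (nat_lit 1748) (nat_lit 3849682968) (nat_lit 394) (nat_lit 5) (nat_lit 393) (nat_lit 5) (nat_lit 416) (nat_lit 5) (nat_lit 350) (nat_lit 343) (nat_lit 207)) (XT.nd (nat_lit 78) (nat_lit 0) (nat_lit 76) (XT.lf (nat_lit 76) (nat_lit 6307542893) (nat_lit 0) (nat_lit 7531780743) (nat_lit 1748) (nat_lit 2751732760) (nat_lit 395) (nat_lit 5) (nat_lit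 394) (nat_lit 5) (nat_lit 417) (nat_lit 5) (nat_lit 351) (nat_lit 343) (nat_lit 206)) (XT.lf (nat_lit 76) (nat_lit 1727035723) (nat_lit 0) (nat_lit 13565384318) (nat_lit 1748) (nat_lit 1552150888) (nat_lit 396) (nat_lit 5) (nat_lit 395) (nat_lit 5) (nat_lit 418) (nat_lit 5) (nat_lit 352) (nat_lit 343) (nat_lit 205))))) (XT.nd (nat_lit 156) (nat_lit 0) (nat_lit 76) (XT.nd (nat_lit 78) (nat_lit 1672) (nat_lit 0) (XT.lf (nat_lit 76) (nat_lit 14177972239) (nat_lit 0) (nat_lit 2717036508) (nat_lit 1748) (nat_lit 208572349) (nat_lit 396) (nat_lit 5) (nat_lit 395) (nat_lit 5) (nat_lit 418) (nat_lit 5) (nat_lit 353) (nat_lit 343) (nat_lit 204)) (XT.lf (nat_lit 0) (nat_lit 1265040910) (nat_lit 1748) (nat_lit 7681962921) (nat_lit 1824) (nat_lit 8421110074) (nat_lit 373) (nat_lit 5) (nat_lit 396) (nat_lit 5) (nat_lit 397) (nat_lit 5) (nat_lit 354) (nat_lit 343) (nat_lit 203))) (XT.nd (nat_lit 78) (nat_lit 0)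 (nat_lit 0) (XT.lf (nat_lit 0) (nat_lit 2852989032) (nat_lit 1748) (nat_lit 12540378452) (nat_lit 1824) (nat_lit 2245736003) (nat_lit 374) (nat_lit 5) (nat_lit 397) (nat_lit 5) (nat_lit 398) (nat_lit 5) (nat_lit 355) (nat_lit 343) (nat_lit 202)) (XT.nd (nat_lit 78) (nat_lit 0) (nat_lit 76) (XT.lf (nat_lit 76) (nat_lit 385858364) (nat_lit 0) (nat_lit 4204638997) (nat_lit 1824) (nat_lit 13325694305) (nat_lit 375) (nat_lit 5) (nat_lit 374) (nat_lit 5) (nat_lit 398) (nat_lit 5) (nat_lit 356) (nat_lit 343) (nat_lit 201)) (XT.lf (nat_lit 0) (nat_lit 6500708667) (nat_lit 1748) (nat_lit 4386388440) (nat_lit 1824) (nat_lit 7312090960) (nat_lit 375) (nat_lit 5) (nat_lit 398) (nat_lit 5) (nat_lit 399) (nat_lit 5) (nat_lit 357) (nat_lit 343) (nat_lit 200))))))) (XT.nd (nat_lit 780) (nat_lit 5092) (nat_lit 0) (XT.nd (nat_lit 390) (nat_lit 3420) (nat_lit 0) (XT.nd (nat_lit 156) (nat_lit 2584) (nat_lit 0) (XT.nd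 (nat_lit 78) (nat_lit 0) (nat_lit 0) (XT.lf (nat_lit 0) (nat_lit 8548668903) (nat_lit 1748) (nat_lit 9258426129) (nat_lit 1824) (nat_lit 681977399) (nat_lit 376) (nat_lit 5) (nat_lit 399) (nat_lit 5) (nat_lit 400) (nat_lit 5) (nat_lit 358) (nat_lit 343) (nat_lit 199)) (XT.lf (nat_lit 76) (nat_lit 4505504394) (nat_lit 0) (nat_lit 6272726531) (nat_lit 1824) (nat_lit 8007025863) (nat_lit 377) (nat_lit 5) (nat_lit 376) (nat_lit 5) (nat_lit 400) (nat_lit 5) (nat_lit 359) (nat_lit 343) (nat_lit 198))) (XT.nd (nat_lit 78) (nat_lit 2660) (nat_lit 0) (XT.lf (nat_lit 0) (nat_lit 13162719489) (nat_lit 1748) (nat_lit 326661227) (nat_lit 76) (nat_lit 5599191690) (nat_lit 377) (nat_lit 5) (nat_lit 400) (nat_lit 5) (nat_lit 378) (nat_lit 5) (nat_lit 360) (nat_lit 343) (nat_lit 197)) (XT.nd (nat_lit 78) (nat_lit 912) (nat_lit 0) (XT.lf (nat_lit 0) (nat_lit 14179478713) (nat_lit 1748) (nat_lit 1562088136) (nat_lit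 1824) (nat_lit 3656970498) (nat_lit 354) (nat_lit 5) (nat_lit 377) (nat_lit 5) (nat_lit 378) (nat_lit 5) (nat_lit 361) (nat_lit 343) (nat_lit 196)) (XT.lf (nat_lit 0) (nat_lit 9452207869) (nat_lit 912) (nat_lit 9067878615) (nat_lit 988) (nat_lit 1195274766) (nat_lit 342) (nat_lit 5) (nat_lit 354) (nat_lit 5) (nat_lit 355) (nat_lit 5) (nat_lit 362) (nat_lit 343) (nat_lit 195))))) (XT.nd (nat_lit 156) (nat_lit 2432) (nat_lit 0) (XT.nd (nat_lit 78) (nat_lit 0) (nat_lit 0) (XT.lf (nat_lit 0) (nat_lit 1409062359) (nat_lit 988) (nat_lit 15435515396) (nat_lit 76) (nat_lit 3195216563) (nat_lit 329) (nat_lit 5) (nat_lit 342) (nat_lit 5) (nat_lit 330) (nat_lit 5) (nat_lit 363) (nat_lit 343) (nat_lit 194)) (XT.lf (nat_lit 0) (nat_lit 4195555964) (nat_lit 988) (nat_lit 393145210) (nat_lit 76) (nat_lit 15782701563) (nat_lit 329) (nat_lit 5) (nat_lit 342) (nat_lit 5) (nat_lit 330) (nat_lit 5) (nat_lit 364) (nat_lit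 343) (nat_lit 193))) (XT.nd (nat_lit 78) (nat_lit 1596) (nat_lit 0) (XT.lf (nat_lit 0) (nat_lit 7207587912) (nat_lit 912) (nat_lit 5472380357) (nat_lit 76) (nat_lit 8030157788) (nat_lit 318) (nat_lit 5) (nat_lit 330) (nat_lit 5) (nat_lit 319) (nat_lit 5) (nat_lit 365) (nat_lit 343) (nat_lit 192)) (XT.nd (nat_lit 78) (nat_lit 760) (nat_lit 0) (XT.lf (nat_lit 0) (nat_lit 10379945587) (nat_lit 836) (nat_lit 20867666) (nat_lit 912) (nat_lit 10656386533) (nat_lit 307) (nat_lit 5) (nat_lit 318) (nat_lit 5) (nat_lit 319) (nat_lit 5) (nat_lit 366) (nat_lit 343) (nat_lit 191)) (XT.lf (nat_lit 0) (nat_lit 5344612536) (nat_lit 760) (nat_lit 8492075012) (nat_lit 836) (nat_lit 7575066337) (nat_lit 297) (nat_lit 5) (nat_lit 307) (nat_lit 5) (nat_lit 308) (nat_lit 5) (nat_lit 367) (nat_lit 343) (nat_lit 190)))))) (XT.nd (nat_lit 390) (nat_lit 2052) (nat_lit 0) (XT.nd (nat_lit 156) (nat_lit 2280) (nat_lit 0) (XT.nd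 (nat_lit 78) (nat_lit 0) (nat_lit 0) (XT.lf (nat_lit 0) (nat_lit 180954204) (nat_lit 760) (nat_lit 17288383210) (nat_lit 836) (nat_lit 4305738257) (nat_lit 287) (nat_lit 5) (nat_lit 297) (nat_lit 5) (nat_lit 298) (nat_lit 5) (nat_lit 368) (nat_lit 343) (nat_lit 189)) (XT.lf (nat_lit 0) (nat_lit 17069471520) (nat_lit 760) (nat_lit 4297526981) (nat_lit 836) (nat_lit 779182877) (nat_lit 287) (nat_lit 5) (nat_lit 297) (nat_lit 5) (nat_lit 298) (nat_lit 5) (nat_lit 369) (nat_lit 343) (nat_lit 188))) (XT.nd (nat_lit 78) (nat_lit 1444) (nat_lit 0) (XT.lf (nat_lit 0) (nat_lit 2944652332) (nat_lit 836) (nat_lit 10519582455) (nat_lit 76) (nat_lit 9061241584) (nat_lit 276) (nat_lit 5) (nat_lit 287) (nat_lit 5) (nat_lit 277) (nat_lit 5) (nat_lit 370) (nat_lit 343) (nat_lit 187)) (XT.nd (nat_lit 78) (nat_lit 684) (nat_lit 0) (XT.lf (nat_lit 0) (nat_lit 6800732770) (nat_lit 760) (nat_lit 67615191) (nat_lit 836)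 (nat_lit 16045729148) (nat_lit 266) (nat_lit 5) (nat_lit 276) (nat_lit 5) (nat_lit 277) (nat_lit 5) (nat_lit 371) (nat_lit 343) (nat_lit 186)) (XT.lf (nat_lit 0) (nat_lit 1391052519) (nat_lit 684) (nat_lit 9679982705) (nat_lit 760) (nat_lit 12240079428) (nat_lit 257) (nat_lit 5) (nat_lit 266) (nat_lit 5) (nat_lit 267) (nat_lit 5) (nat_lit 372) (nat_lit 343) (nat_lit 185))))) (XT.nd (nat_lit 156) (nat_lit 1368) (nat_lit 0) (XT.nd (nat_lit 78) (nat_lit 684) (nat_lit 0) (XT.lf (nat_lit 0) (nat_lit 15527795266) (nat_lit 760) (nat_lit 4113336375) (nat_lit 76) (nat_lit 4076376110) (nat_lit 257) (nat_lit 5) (nat_lit 267) (nat_lit 5) (nat_lit 258) (nat_lit 5) (nat_lit 373) (nat_lit 343) (nat_lit 184)) (XT.lf (nat_lit 0) (nat_lit 14341896925) (nat_lit 684) (nat_lit 5925990370) (nat_lit 760) (nat_lit 3865216909) (nat_lit 248) (nat_lit 5) (nat_lit 257) (nat_lit 5) (nat_lit 258) (nat_lit 5) (nat_lit 374) (nat_lit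 343) (nat_lit 183))) (XT.nd (nat_lit 78) (nat_lit 684) (nat_lit 0) (XT.lf (nat_lit 0) (nat_lit 713197116) (nat_lit 684) (nat_lit 15662526203) (nat_lit 76) (nat_lit 8182734522) (nat_lit 239) (nat_lit 5) (nat_lit 248) (nat_lit 5) (nat_lit 240) (nat_lit 5) (nat_lit 375) (nat_lit 343) (nat_lit 182)) (XT.nd (nat_lit 44382) (nat_lit 0) (nat_lit 12084) (XT.lf (nat_lit 0) (nat_lit 3250141091) (nat_lit 684) (nat_lit 2246202364) (nat_lit 760) (nat_lit 19497323622) (nat_lit 230) (nat_lit 5) (nat_lit 239) (nat_lit 5) (nat_lit 240) (nat_lit 5) (nat_lit 376) (nat_lit 343) (nat_lit 181)) (XT.lf (nat_lit 0) (nat_lit 3684185128) (nat_lit 1748) (nat_lit 1953702875) (nat_lit 1748) (nat_lit 1953702875) (nat_lit 389) (nat_lit 3) (nat_lit 412) (nat_lit 3) (nat_lit 412) (nat_lit 5) (nat_lit 344) (nat_lit 344) (nat_lit 212))))))))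
noncomputable def xc118 : XT := (XT.nd (nat_lit 1482) (nat_lit 7828) (nat_lit 0) (XT.nd (nat_lit 702) (nat_lit 3572) (nat_lit 0) (XT.nd (nat_lit 312) (nat_lit 0) (nat_lit 228) (XT.nd (nat_lit 156) (nat_lit 0) (nat_lit 152) (XT.nd (nat_lit 78) (nat_lit 0) (nat_lit 76) (XT.lf (nat_lit 76) (nat_lit 6769142891) (nat_lit 0) (nat_lit 1171658831) (nat_lit 1748) (nat_lit 7460639183) (nat_lit 390) (nat_lit 5) (nat_lit 389) (nat_lit 3) (nat_lit 412) (nat_lit 5) (nat_lit 345) (nat_lit 344) (nat_lit 211)) (XT.lf (nat_lit 76) (nat_lit 2153030360) (nat_lit 0) (nat_lit 6461656440) (nat_lit 1748) (nat_lit 7009885188) (nat_lit 391) (nat_lit 5) (nat_lit 390) (nat_lit 5) (nat_lit 413) (nat_lit 5) (nat_lit 346) (nat_lit 344) (nat_lit 210))) (XT.nd (nat_lit 78) (nat_lit 0) (nat_lit 0) (XT.lf (nat_lit 0) (nat_lit 9385169868) (nat_lit 1672) (nat_lit 2515937926) (nat_lit 1748) (nat_lit 3951771069) (nat_lit 391) (nat_lit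 5) (nat_lit 413) (nat_lit 5) (nat_lit 414) (nat_lit 5) (nat_lit 347) (nat_lit 344) (nat_lit 209)) (XT.lf (nat_lit 76) (nat_lit 8832166920) (nat_lit 0) (nat_lit 1431769148) (nat_lit 1748) (nat_lit 5822404719) (nat_lit 392) (nat_lit 5) (nat_lit 391) (nat_lit 5) (nat_lit 414) (nat_lit 5) (nat_lit 348) (nat_lit 344) (nat_lit 208)))) (XT.nd (nat_lit 156) (nat_lit 0) (nat_lit 76) (XT.nd (nat_lit 78) (nat_lit 0) (nat_lit 76) (XT.lf (nat_lit 76) (nat_lit 4214128998) (nat_lit 0) (nat_lit 7045221630) (nat_lit 1748) (nat_lit 5065659179) (nat_lit 393) (nat_lit 5) (nat_lit 392) (nat_lit 5) (nat_lit 415) (nat_lit 5) (nat_lit 349) (nat_lit 344) (nat_lit 207)) (XT.lf (nat_lit 0) (nat_lit 12353252363) (nat_lit 1672) (nat_lit 487275118) (nat_lit 1748) (nat_lit 3728947606) (nat_lit 393) (nat_lit 5) (nat_lit 415) (nat_lit 5) (nat_lit 416) (nat_lit 5) (nat_lit 350) (nat_lit 344) (nat_lit 206))) (XT.nd (nat_lit 78) (nat_lit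 0) (nat_lit 76) (XT.lf (nat_lit 76) (nat_lit 11580887989) (nat_lit 0) (nat_lit 2007272856) (nat_lit 1748) (nat_lit 3230958118) (nat_lit 394) (nat_lit 5) (nat_lit 393) (nat_lit 5) (nat_lit 416) (nat_lit 5) (nat_lit 351) (nat_lit 344) (nat_lit 205)) (XT.nd (nat_lit 78) (nat_lit 0) (nat_lit 76) (XT.lf (nat_lit 76) (nat_lit 6964390206) (nat_lit 0) (nat_lit 7989952723) (nat_lit 1748) (nat_lit 2120032885) (nat_lit 395) (nat_lit 5) (nat_lit 394) (nat_lit 5) (nat_lit 417) (nat_lit 5) (nat_lit 352) (nat_lit 344) (nat_lit 204)) (XT.lf (nat_lit 76) (nat_lit 2254542933) (nat_lit 0) (nat_lit 14177730347) (nat_lit 1748) (nat_lit 903609782) (nat_lit 396) (nat_lit 5) (nat_lit 395) (nat_lit 5) (nat_lit 418) (nat_lit 5) (nat_lit 353) (nat_lit 344) (nat_lit 203)))))) (XT.nd (nat_lit 390) (nat_lit 2280) (nat_lit 0) (XT.nd (nat_lit 156) (nat_lit 0) (nat_lit 152) (XT.nd (nat_lit 78) (nat_lit 0) (nat_lit 76) (XT.lf (nat_lit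 0) (nat_lit 453996936) (nat_lit 1748) (nat_lit 2540906534) (nat_lit 1824) (nat_lit 14608108822) (nat_lit 372) (nat_lit 5) (nat_lit 395) (nat_lit 5) (nat_lit 396) (nat_lit 5) (nat_lit 354) (nat_lit 344) (nat_lit 202)) (XT.lf (nat_lit 0) (nat_lit 1951402818) (nat_lit 1748) (nat_lit 7434414674) (nat_lit 1824) (nat_lit 8489998846) (nat_lit 373) (nat_lit 5) (nat_lit 396) (nat_lit 5) (nat_lit 397) (nat_lit 5) (nat_lit 355) (nat_lit 344) (nat_lit 201))) (XT.nd (nat_lit 78) (nat_lit 0) (nat_lit 0) (XT.lf (nat_lit 0) (nat_lit 3570102894) (nat_lit 1748) (nat_lit 12432270366) (nat_lit 1824) (nat_lit 2152910935) (nat_lit 374) (nat_lit 5) (nat_lit 397) (nat_lit 5) (nat_lit 398) (nat_lit 5) (nat_lit 356) (nat_lit 344) (nat_lit 200)) (XT.nd (nat_lit 78) (nat_lit 0) (nat_lit 76) (XT.lf (nat_lit 76) (nat_lit 873896048) (nat_lit 0) (nat_lit 4470540024) (nat_lit 1824) (nat_lit 13096565497) (nat_lit 375) (nat_lit 5)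 (nat_lit 374) (nat_lit 5) (nat_lit 398) (nat_lit 5) (nat_lit 357) (nat_lit 344) (nat_lit 199)) (XT.lf (nat_lit 0) (nat_lit 7293124454) (nat_lit 1748) (nat_lit 4042208048) (nat_lit 1824) (nat_lit 7397542178) (nat_lit 375) (nat_lit 5) (nat_lit 398) (nat_lit 5) (nat_lit 399) (nat_lit 5) (nat_lit 358) (nat_lit 344) (nat_lit 198))))) (XT.nd (nat_lit 156) (nat_lit 2584) (nat_lit 0) (XT.nd (nat_lit 78) (nat_lit 0) (nat_lit 0) (XT.lf (nat_lit 0) (nat_lit 9387416040) (nat_lit 1748) (nat_lit 9055387302) (nat_lit 1824) (nat_lit 588964319) (nat_lit 376) (nat_lit 5) (nat_lit 399) (nat_lit 5) (nat_lit 400) (nat_lit 5) (nat_lit 359) (nat_lit 344) (nat_lit 197)) (XT.lf (nat_lit 76) (nat_lit 5113660863) (nat_lit 0) (nat_lit 6556315214) (nat_lit 1824) (nat_lit 7667148894) (nat_lit 377) (nat_lit 5) (nat_lit 376) (nat_lit 5) (nat_lit 400) (nat_lit 5) (nat_lit 360) (nat_lit 344) (nat_lit 196))) (XT.nd (nat_lit 78) (nat_lit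 912) (nat_lit 0) (XT.lf (nat_lit 0) (nat_lit 136494426) (nat_lit 1748) (nat_lit 13973234395) (nat_lit 1824) (nat_lit 5540146014) (nat_lit 354) (nat_lit 5) (nat_lit 377) (nat_lit 5) (nat_lit 378) (nat_lit 5) (nat_lit 361) (nat_lit 344) (nat_lit 195)) (XT.nd (nat_lit 78) (nat_lit 912) (nat_lit 0) (XT.lf (nat_lit 0) (nat_lit 15068384319) (nat_lit 1748) (nat_lit 1683624980) (nat_lit 1824) (nat_lit 3217417164) (nat_lit 354) (nat_lit 5) (nat_lit 377) (nat_lit 5) (nat_lit 378) (nat_lit 5) (nat_lit 362) (nat_lit 344) (nat_lit 194)) (XT.lf (nat_lit 0) (nat_lit 10203139692) (nat_lit 912) (nat_lit 9397632969) (nat_lit 988) (nat_lit 695253487) (nat_lit 342) (nat_lit 5) (nat_lit 354) (nat_lit 5) (nat_lit 355) (nat_lit 5) (nat_lit 363) (nat_lit 344) (nat_lit 193))))))) (XT.nd (nat_lit 780) (nat_lit 1368) (nat_lit 0) (XT.nd (nat_lit 390) (nat_lit 3040) (nat_lit 0) (XT.nd (nat_lit 156) (nat_lit 1596) (nat_lit 0)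 (XT.nd (nat_lit 78) (nat_lit 836) (nat_lit 0) (XT.lf (nat_lit 0) (nat_lit 1967492730) (nat_lit 988) (nat_lit 15420668701) (nat_lit 76) (nat_lit 3242223452) (nat_lit 329) (nat_lit 5) (nat_lit 342) (nat_lit 5) (nat_lit 330) (nat_lit 5) (nat_lit 364) (nat_lit 344) (nat_lit 192)) (XT.lf (nat_lit 0) (nat_lit 59837599) (nat_lit 836) (nat_lit 4763098306) (nat_lit 912) (nat_lit 16149306712) (nat_lit 318) (nat_lit 5) (nat_lit 329) (nat_lit 5) (nat_lit 330) (nat_lit 5) (nat_lit 365) (nat_lit 344) (nat_lit 191))) (XT.nd (nat_lit 78) (nat_lit 1596) (nat_lit 0) (XT.lf (nat_lit 0) (nat_lit 7913093672) (nat_lit 912) (nat_lit 5169818801) (nat_lit 76) (nat_lit 8238467787) (nat_lit 318) (nat_lit 5) (nat_lit 330) (nat_lit 5) (nat_lit 319) (nat_lit 5) (nat_lit 366) (nat_lit 344) (nat_lit 190)) (XT.nd (nat_lit 78) (nat_lit 760) (nat_lit 0) (XT.lf (nat_lit 0) (nat_lit 11150504735) (nat_lit 836) (nat_lit 40341396) (nat_lit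 912) (nat_lit 10488253153) (nat_lit 307) (nat_lit 5) (nat_lit 318) (nat_lit 5) (nat_lit 319) (nat_lit 5) (nat_lit 367) (nat_lit 344) (nat_lit 189)) (XT.lf (nat_lit 0) (nat_lit 5966439976) (nat_lit 760) (nat_lit 8752311588) (nat_lit 836) (nat_lit 7325766810) (nat_lit 297) (nat_lit 5) (nat_lit 307) (nat_lit 5) (nat_lit 308) (nat_lit 5) (nat_lit 368) (nat_lit 344) (nat_lit 188))))) (XT.nd (nat_lit 156) (nat_lit 2280) (nat_lit 0) (XT.nd (nat_lit 78) (nat_lit 0) (nat_lit 0) (XT.lf (nat_lit 0) (nat_lit 649852321) (nat_lit 760) (nat_lit 17799902372) (nat_lit 836) (nat_lit 3969204892) (nat_lit 287) (nat_lit 5) (nat_lit 297) (nat_lit 5) (nat_lit 298) (nat_lit 5) (nat_lit 369) (nat_lit 344) (nat_lit 187)) (XT.lf (nat_lit 0) (nat_lit 18031526044) (nat_lit 760) (nat_lit 4419528195) (nat_lit 836) (nat_lit 350417089) (nat_lit 287) (nat_lit 5) (nat_lit 297) (nat_lit 5) (nat_lit 298) (nat_lit 5) (nat_lit 370) (nat_lit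 344) (nat_lit 186))) (XT.nd (nat_lit 78) (nat_lit 1444) (nat_lit 0) (XT.lf (nat_lit 0) (nat_lit 3469202087) (nat_lit 836) (nat_lit 10377575805) (nat_lit 76) (nat_lit 9345515289) (nat_lit 276) (nat_lit 5) (nat_lit 287) (nat_lit 5) (nat_lit 277) (nat_lit 5) (nat_lit 371) (nat_lit 344) (nat_lit 185)) (XT.nd (nat_lit 78) (nat_lit 684) (nat_lit 0) (XT.lf (nat_lit 0) (nat_lit 7454924956) (nat_lit 760) (nat_lit 45901282) (nat_lit 836) (nat_lit 16091927853) (nat_lit 266) (nat_lit 5) (nat_lit 276) (nat_lit 5) (nat_lit 277) (nat_lit 5) (nat_lit 372) (nat_lit 344) (nat_lit 184)) (XT.lf (nat_lit 0) (nat_lit 1884102619) (nat_lit 684) (nat_lit 9936151193) (nat_lit 760) (nat_lit 12181642070) (nat_lit 257) (nat_lit 5) (nat_lit 266) (nat_lit 5) (nat_lit 267) (nat_lit 5) (nat_lit 373) (nat_lit 344) (nat_lit 183)))))) (XT.nd (nat_lit 44772) (nat_lit 0) (nat_lit 11476) (XT.nd (nat_lit 156) (nat_lit 684) (nat_lit 0) (XT.nd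 (nat_lit 78) (nat_lit 684) (nat_lit 0) (XT.lf (nat_lit 0) (nat_lit 16398784250) (nat_lit 760) (nat_lit 3790475802) (nat_lit 76) (nat_lit 4231465498) (nat_lit 257) (nat_lit 5) (nat_lit 267) (nat_lit 5) (nat_lit 258) (nat_lit 5) (nat_lit 374) (nat_lit 344) (nat_lit 182)) (XT.lf (nat_lit 0) (nat_lit 15211174448) (nat_lit 684) (nat_lit 6060954371) (nat_lit 760) (nat_lit 3576846035) (nat_lit 248) (nat_lit 5) (nat_lit 257) (nat_lit 5) (nat_lit 258) (nat_lit 5) (nat_lit 375) (nat_lit 344) (nat_lit 181))) (XT.nd (nat_lit 44460) (nat_lit 0) (nat_lit 11400) (XT.lf (nat_lit 0) (nat_lit 1125140366) (nat_lit 684) (nat_lit 15687407747) (nat_lit 76) (nat_lit 8474663693) (nat_lit 239) (nat_lit 5) (nat_lit 248) (nat_lit 5) (nat_lit 240) (nat_lit 5) (nat_lit 376) (nat_lit 344) (nat_lit 180)) (XT.nd (nat_lit 78) (nat_lit 0) (nat_lit 0) (XT.lf (nat_lit 0) (nat_lit 4208649178) (nat_lit 1748) (nat_lit 1801081301) (nat_lit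 1748) (nat_lit 1801081301) (nat_lit 389) (nat_lit 3) (nat_lit 412) (nat_lit 3) (nat_lit 412) (nat_lit 5) (nat_lit 345) (nat_lit 345) (nat_lit 210)) (XT.lf (nat_lit 76) (nat_lit 7387828500) (nat_lit 0) (nat_lit 1597659769) (nat_lit 1748) (nat_lit 6861384955) (nat_lit 390) (nat_lit 5) (nat_lit 389) (nat_lit 3) (nat_lit 412) (nat_lit 5) (nat_lit 346) (nat_lit 345) (nat_lit 209))))) (XT.nd (nat_lit 156) (nat_lit 0) (nat_lit 76) (XT.nd (nat_lit 78) (nat_lit 0) (nat_lit 76) (XT.lf (nat_lit 76) (nat_lit 2645327703) (nat_lit 0) (nat_lit 7011086198) (nat_lit 1748) (nat_lit 6420761887) (nat_lit 391) (nat_lit 5) (nat_lit 390) (nat_lit 5) (nat_lit 413) (nat_lit 5) (nat_lit 347) (nat_lit 345) (nat_lit 208)) (XT.lf (nat_lit 0) (nat_lit 10424955873) (nat_lit 1672) (nat_lit 2158262226) (nat_lit 1748) (nat_lit 3729628504) (nat_lit 391) (nat_lit 5) (nat_lit 413) (nat_lit 5) (nat_lit 414) (nat_lit 5) (nat_lit 348) (nat_lit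 345) (nat_lit 207))) (XT.nd (nat_lit 78) (nat_lit 0) (nat_lit 76) (XT.lf (nat_lit 76) (nat_lit 9523258359) (nat_lit 0) (nat_lit 1787509000) (nat_lit 1748) (nat_lit 5242944602) (nat_lit 392) (nat_lit 5) (nat_lit 391) (nat_lit 5) (nat_lit 414) (nat_lit 5) (nat_lit 349) (nat_lit 345) (nat_lit 206)) (XT.nd (nat_lit 78) (nat_lit 0) (nat_lit 76) (XT.lf (nat_lit 76) (nat_lit 4776735914) (nat_lit 0) (nat_lit 7538647017) (nat_lit 1748) (nat_lit 4484584187) (nat_lit 393) (nat_lit 5) (nat_lit 392) (nat_lit 5) (nat_lit 415) (nat_lit 5) (nat_lit 350) (nat_lit 345) (nat_lit 205)) (XT.lf (nat_lit 0) (nat_lit 13419403728) (nat_lit 1672) (nat_lit 62274530) (nat_lit 1748) (nat_lit 3570554523) (nat_lit 393) (nat_lit 5) (nat_lit 415) (nat_lit 5) (nat_lit 416) (nat_lit 5) (nat_lit 351) (nat_lit 345) (nat_lit 204))))))))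
noncomputable def xc119 : XT := (XT.nd (nat_lit 1482) (nat_lit 2280) (nat_lit 0) (XT.nd (nat_lit 702) (nat_lit 6460) (nat_lit 0) (XT.nd (nat_lit 312) (nat_lit 0) (nat_lit 76) (XT.nd (nat_lit 156) (nat_lit 1596) (nat_lit 0) (XT.nd (nat_lit 78) (nat_lit 0) (nat_lit 76) (XT.lf (nat_lit 76) (nat_lit 12360801176) (nat_lit 0) (nat_lit 2313107429) (nat_lit 1748) (nat_lit 2635818486) (nat_lit 394) (nat_lit 5) (nat_lit 393) (nat_lit 5) (nat_lit 416) (nat_lit 5) (nat_lit 352) (nat_lit 345) (nat_lit 203)) (XT.lf (nat_lit 76) (nat_lit 7614099579) (nat_lit 0) (nat_lit 8448539566) (nat_lit 1748) (nat_lit 1510382992) (nat_lit 395) (nat_lit 5) (nat_lit 394) (nat_lit 5) (nat_lit 417) (nat_lit 5) (nat_lit 353) (nat_lit 345) (nat_lit 202))) (XT.nd (nat_lit 78) (nat_lit 1748) (nat_lit 0) (XT.lf (nat_lit 76) (nat_lit 2770568456) (nat_lit 0) (nat_lit 14796656846) (nat_lit 1748) (nat_lit 275514350) (nat_lit 396) (nat_lit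 5) (nat_lit 395) (nat_lit 5) (nat_lit 418) (nat_lit 5) (nat_lit 354) (nat_lit 345) (nat_lit 201)) (XT.lf (nat_lit 0) (nat_lit 1095394136) (nat_lit 1748) (nat_lit 2173099634) (nat_lit 1824) (nat_lit 14849691433) (nat_lit 372) (nat_lit 5) (nat_lit 395) (nat_lit 5) (nat_lit 396) (nat_lit 5) (nat_lit 355) (nat_lit 345) (nat_lit 200)))) (XT.nd (nat_lit 156) (nat_lit 0) (nat_lit 76) (XT.nd (nat_lit 78) (nat_lit 0) (nat_lit 76) (XT.lf (nat_lit 0) (nat_lit 2621134157) (nat_lit 1748) (nat_lit 7206879545) (nat_lit 1824) (nat_lit 8571501970) (nat_lit 373) (nat_lit 5) (nat_lit 396) (nat_lit 5) (nat_lit 397) (nat_lit 5) (nat_lit 356) (nat_lit 345) (nat_lit 199)) (XT.lf (nat_lit 0) (nat_lit 4272478101) (nat_lit 1748) (nat_lit 12348720954) (nat_lit 1824) (nat_lit 2066497086) (nat_lit 374) (nat_lit 5) (nat_lit 397) (nat_lit 5) (nat_lit 398) (nat_lit 5) (nat_lit 357) (nat_lit 345) (nat_lit 198))) (XT.nd (nat_lit 78)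 (nat_lit 0) (nat_lit 76) (XT.lf (nat_lit 76) (nat_lit 1349223997) (nat_lit 0) (nat_lit 4736395181) (nat_lit 1824) (nat_lit 12896664236) (nat_lit 375) (nat_lit 5) (nat_lit 374) (nat_lit 5) (nat_lit 398) (nat_lit 5) (nat_lit 358) (nat_lit 345) (nat_lit 197)) (XT.nd (nat_lit 78) (nat_lit 0) (nat_lit 76) (XT.lf (nat_lit 0) (nat_lit 8075019826) (nat_lit 1748) (nat_lit 3715013507) (nat_lit 1824) (nat_lit 7493244001) (nat_lit 375) (nat_lit 5) (nat_lit 398) (nat_lit 5) (nat_lit 399) (nat_lit 5) (nat_lit 359) (nat_lit 345) (nat_lit 196)) (XT.lf (nat_lit 0) (nat_lit 10217899931) (nat_lit 1748) (nat_lit 8873856716) (nat_lit 1824) (nat_lit 499674627) (nat_lit 376) (nat_lit 5) (nat_lit 399) (nat_lit 5) (nat_lit 400) (nat_lit 5) (nat_lit 360) (nat_lit 345) (nat_lit 195)))))) (XT.nd (nat_lit 390) (nat_lit 3192) (nat_lit 0) (XT.nd (nat_lit 156) (nat_lit 1900) (nat_lit 0) (XT.nd (nat_lit 78) (nat_lit 1672) (nat_lit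 0) (XT.lf (nat_lit 76) (nat_lit 5712910390) (nat_lit 0) (nat_lit 6842934813) (nat_lit 1824) (nat_lit 7350375025) (nat_lit 377) (nat_lit 5) (nat_lit 376) (nat_lit 5) (nat_lit 400) (nat_lit 5) (nat_lit 361) (nat_lit 345) (nat_lit 194)) (XT.lf (nat_lit 0) (nat_lit 590609884) (nat_lit 1748) (nat_lit 14464930650) (nat_lit 1824) (nat_lit 5173085881) (nat_lit 354) (nat_lit 5) (nat_lit 377) (nat_lit 5) (nat_lit 378) (nat_lit 5) (nat_lit 362) (nat_lit 345) (nat_lit 193))) (XT.nd (nat_lit 78) (nat_lit 1900) (nat_lit 0) (XT.lf (nat_lit 0) (nat_lit 15957349076) (nat_lit 1748) (nat_lit 1804521324) (nat_lit 1824) (nat_lit 2796207142) (nat_lit 354) (nat_lit 5) (nat_lit 377) (nat_lit 5) (nat_lit 378) (nat_lit 5) (nat_lit 363) (nat_lit 345) (nat_lit 192)) (XT.nd (nat_lit 78) (nat_lit 988) (nat_lit 0) (XT.lf (nat_lit 0) (nat_lit 10949770773) (nat_lit 912) (nat_lit 9733966705) (nat_lit 988) (nat_lit 210993246) (nat_lit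 342) (nat_lit 5) (nat_lit 354) (nat_lit 5) (nat_lit 355) (nat_lit 5) (nat_lit 364) (nat_lit 345) (nat_lit 191)) (XT.lf (nat_lit 0) (nat_lit 2513046402) (nat_lit 988) (nat_lit 15432810717) (nat_lit 76) (nat_lit 3293444715) (nat_lit 329) (nat_lit 5) (nat_lit 342) (nat_lit 5) (nat_lit 330) (nat_lit 5) (nat_lit 365) (nat_lit 345) (nat_lit 190))))) (XT.nd (nat_lit 156) (nat_lit 2356) (nat_lit 0) (XT.nd (nat_lit 78) (nat_lit 0) (nat_lit 0) (XT.lf (nat_lit 0) (nat_lit 504802301) (nat_lit 836) (nat_lit 4938057179) (nat_lit 912) (nat_lit 16148789380) (nat_lit 318) (nat_lit 5) (nat_lit 329) (nat_lit 5) (nat_lit 330) (nat_lit 5) (nat_lit 366) (nat_lit 345) (nat_lit 189)) (XT.lf (nat_lit 0) (nat_lit 8611678040) (nat_lit 912) (nat_lit 4884972779) (nat_lit 76) (nat_lit 8454898157) (nat_lit 318) (nat_lit 5) (nat_lit 330) (nat_lit 5) (nat_lit 319) (nat_lit 5) (nat_lit 367) (nat_lit 345) (nat_lit 188))) (XT.nd (nat_lit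 78) (nat_lit 1520) (nat_lit 0) (XT.lf (nat_lit 0) (nat_lit 11917822949) (nat_lit 836) (nat_lit 59317404) (nat_lit 912) (nat_lit 10343078920) (nat_lit 307) (nat_lit 5) (nat_lit 318) (nat_lit 5) (nat_lit 319) (nat_lit 5) (nat_lit 368) (nat_lit 345) (nat_lit 187)) (XT.nd (nat_lit 78) (nat_lit 760) (nat_lit 0) (XT.lf (nat_lit 0) (nat_lit 6580430878) (nat_lit 760) (nat_lit 9020041012) (nat_lit 836) (nat_lit 7096344303) (nat_lit 297) (nat_lit 5) (nat_lit 307) (nat_lit 5) (nat_lit 308) (nat_lit 5) (nat_lit 369) (nat_lit 345) (nat_lit 186)) (XT.lf (nat_lit 0) (nat_lit 1106212336) (nat_lit 760) (nat_lit 18327176535) (nat_lit 836) (nat_lit 3649308928) (nat_lit 287) (nat_lit 5) (nat_lit 297) (nat_lit 5) (nat_lit 298) (nat_lit 5) (nat_lit 370) (nat_lit 345) (nat_lit 185))))))) (XT.nd (nat_lit 45318) (nat_lit 0) (nat_lit 8740) (XT.nd (nat_lit 44928) (nat_lit 0) (nat_lit 10032) (XT.nd (nat_lit 156) (nat_lit 1444)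 (nat_lit 0) (XT.nd (nat_lit 78) (nat_lit 760) (nat_lit 0) (XT.lf (nat_lit 0) (nat_lit 64401057) (nat_lit 836) (nat_lit 4480753723) (nat_lit 76) (nat_lit 18931778842) (nat_lit 286) (nat_lit 5) (nat_lit 297) (nat_lit 5) (nat_lit 287) (nat_lit 5) (nat_lit 371) (nat_lit 345) (nat_lit 184)) (XT.lf (nat_lit 0) (nat_lit 3984448086) (nat_lit 836) (nat_lit 10257576731) (nat_lit 76) (nat_lit 9637603301) (nat_lit 276) (nat_lit 5) (nat_lit 287) (nat_lit 5) (nat_lit 277) (nat_lit 5) (nat_lit 372) (nat_lit 345) (nat_lit 183))) (XT.nd (nat_lit 78) (nat_lit 684) (nat_lit 0) (XT.lf (nat_lit 0) (nat_lit 8102901296) (nat_lit 760) (nat_lit 24898865) (nat_lit 836) (nat_lit 16164493241) (nat_lit 266) (nat_lit 5) (nat_lit 276) (nat_lit 5) (nat_lit 277) (nat_lit 5) (nat_lit 373) (nat_lit 345) (nat_lit 182)) (XT.nd (nat_lit 78) (nat_lit 0) (nat_lit 0) (XT.lf (nat_lit 0) (nat_lit 2366036691) (nat_lit 684) (nat_lit 10201969734)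 (nat_lit 760) (nat_lit 12145885054) (nat_lit 257) (nat_lit 5) (nat_lit 266) (nat_lit 5) (nat_lit 267) (nat_lit 5) (nat_lit 374) (nat_lit 345) (nat_lit 181)) (XT.lf (nat_lit 0) (nat_lit 17272645343) (nat_lit 760) (nat_lit 3483546599) (nat_lit 76) (nat_lit 4389324823) (nat_lit 257) (nat_lit 5) (nat_lit 267) (nat_lit 5) (nat_lit 258) (nat_lit 5) (nat_lit 375) (nat_lit 345) (nat_lit 180))))) (XT.nd (nat_lit 156) (nat_lit 0) (nat_lit 76) (XT.nd (nat_lit 78) (nat_lit 0) (nat_lit 0) (XT.lf (nat_lit 0) (nat_lit 4725085387) (nat_lit 1748) (nat_lit 1656006699) (nat_lit 1748) (nat_lit 1656006699) (nat_lit 389) (nat_lit 3) (nat_lit 412) (nat_lit 3) (nat_lit 412) (nat_lit 5) (nat_lit 346) (nat_lit 346) (nat_lit 208)) (XT.lf (nat_lit 76) (nat_lit 8001216887) (nat_lit 0) (nat_lit 2014004279) (nat_lit 1748) (nat_lit 6291400882) (nat_lit 390) (nat_lit 5) (nat_lit 389) (nat_lit 3) (nat_lit 412) (nat_lit 5) (nat_lit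 347) (nat_lit 346) (nat_lit 207))) (XT.nd (nat_lit 78) (nat_lit 0) (nat_lit 76) (XT.lf (nat_lit 76) (nat_lit 3127841868) (nat_lit 0) (nat_lit 7556587099) (nat_lit 1748) (nat_lit 5859854857) (nat_lit 391) (nat_lit 5) (nat_lit 390) (nat_lit 5) (nat_lit 413) (nat_lit 5) (nat_lit 348) (nat_lit 346) (nat_lit 206)) (XT.nd (nat_lit 78) (nat_lit 0) (nat_lit 0) (XT.lf (nat_lit 0) (nat_lit 11452409902) (nat_lit 1672) (nat_lit 1814721057) (nat_lit 1748) (nat_lit 3520378988) (nat_lit 391) (nat_lit 5) (nat_lit 413) (nat_lit 5) (nat_lit 414) (nat_lit 5) (nat_lit 349) (nat_lit 346) (nat_lit 205)) (XT.lf (nat_lit 76) (nat_lit 10210621142) (nat_lit 0) (nat_lit 2135965806) (nat_lit 1748) (nat_lit 4689390959) (nat_lit 392) (nat_lit 5) (nat_lit 391) (nat_lit 5) (nat_lit 414) (nat_lit 5) (nat_lit 350) (nat_lit 346) (nat_lit 204)))))) (XT.nd (nat_lit 390) (nat_lit 0) (nat_lit 0) (XT.nd (nat_lit 156) (nat_lit 1520) (nat_lit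 0) (XT.nd (nat_lit 78) (nat_lit 0) (nat_lit 76) (XT.lf (nat_lit 76) (nat_lit 5331182347) (nat_lit 0) (nat_lit 8030683267) (nat_lit 1748) (nat_lit 3928156713) (nat_lit 393) (nat_lit 5) (nat_lit 392) (nat_lit 5) (nat_lit 415) (nat_lit 5) (nat_lit 351) (nat_lit 346) (nat_lit 203)) (XT.lf (nat_lit 76) (nat_lit 354894662) (nat_lit 0) (nat_lit 14125021550) (nat_lit 1748) (nat_lit 3070333313) (nat_lit 394) (nat_lit 5) (nat_lit 393) (nat_lit 5) (nat_lit 416) (nat_lit 5) (nat_lit 352) (nat_lit 346) (nat_lit 202))) (XT.nd (nat_lit 78) (nat_lit 1596) (nat_lit 0) (XT.lf (nat_lit 76) (nat_lit 13139285263) (nat_lit 0) (nat_lit 2614017654) (nat_lit 1748) (nat_lit 2062552222) (nat_lit 394) (nat_lit 5) (nat_lit 393) (nat_lit 5) (nat_lit 416) (nat_lit 5) (nat_lit 353) (nat_lit 346) (nat_lit 201)) (XT.nd (nat_lit 78) (nat_lit 1672) (nat_lit 0) (XT.lf (nat_lit 76) (nat_lit 8257997792) (nat_lit 0) (nat_lit 8908318933)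 (nat_lit 1748) (nat_lit 921090958) (nat_lit 395) (nat_lit 5) (nat_lit 394) (nat_lit 5) (nat_lit 417) (nat_lit 5) (nat_lit 354) (nat_lit 346) (nat_lit 200)) (XT.lf (nat_lit 0) (nat_lit 329434557) (nat_lit 1748) (nat_lit 15091392782) (nat_lit 1824) (nat_lit 2944690131) (nat_lit 372) (nat_lit 5) (nat_lit 395) (nat_lit 5) (nat_lit 396) (nat_lit 5) (nat_lit 355) (nat_lit 346) (nat_lit 199))))) (XT.nd (nat_lit 156) (nat_lit 0) (nat_lit 152) (XT.nd (nat_lit 78) (nat_lit 0) (nat_lit 76) (XT.lf (nat_lit 0) (nat_lit 1719996268) (nat_lit 1748) (nat_lit 1819747900) (nat_lit 1824) (nat_lit 15109810649) (nat_lit 372) (nat_lit 5) (nat_lit 395) (nat_lit 5) (nat_lit 396) (nat_lit 5) (nat_lit 356) (nat_lit 346) (nat_lit 198)) (XT.lf (nat_lit 0) (nat_lit 3275872673) (nat_lit 1748) (nat_lit 6998382784) (nat_lit 1824) (nat_lit 8665392394) (nat_lit 373) (nat_lit 5) (nat_lit 396) (nat_lit 5) (nat_lit 397) (nat_lit 5) (nat_lit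 357) (nat_lit 346) (nat_lit 197))) (XT.nd (nat_lit 78) (nat_lit 0) (nat_lit 0) (XT.lf (nat_lit 0) (nat_lit 4961753509) (nat_lit 1748) (nat_lit 12288871034) (nat_lit 1824) (nat_lit 1986158907) (nat_lit 374) (nat_lit 5) (nat_lit 397) (nat_lit 5) (nat_lit 398) (nat_lit 5) (nat_lit 358) (nat_lit 346) (nat_lit 196)) (XT.nd (nat_lit 78) (nat_lit 0) (nat_lit 76) (XT.lf (nat_lit 76) (nat_lit 1813030973) (nat_lit 0) (nat_lit 5002663637) (nat_lit 1824) (nat_lit 12724794981) (nat_lit 375) (nat_lit 5) (nat_lit 374) (nat_lit 5) (nat_lit 398) (nat_lit 5) (nat_lit 359) (nat_lit 346) (nat_lit 195)) (XT.lf (nat_lit 0) (nat_lit 8848047721) (nat_lit 1748) (nat_lit 3403746612) (nat_lit 1824) (nat_lit 7599062678) (nat_lit 375) (nat_lit 5) (nat_lit 398) (nat_lit 5) (nat_lit 399) (nat_lit 5) (nat_lit 360) (nat_lit 346) (nat_lit 194))))))))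
noncomputable def xc120 : XT := (XT.nd (nat_lit 46098) (nat_lit 0) (nat_lit 4636) (XT.nd (nat_lit 702) (nat_lit 3800) (nat_lit 0) (XT.nd (nat_lit 312) (nat_lit 3572) (nat_lit 0) (XT.nd (nat_lit 156) (nat_lit 1672) (nat_lit 0) (XT.nd (nat_lit 78) (nat_lit 0) (nat_lit 0) (XT.lf (nat_lit 0) (nat_lit 11041791449) (nat_lit 1748) (nat_lit 8712895298) (nat_lit 1824) (nat_lit 413846106) (nat_lit 376) (nat_lit 5) (nat_lit 399) (nat_lit 5) (nat_lit 400) (nat_lit 5) (nat_lit 361) (nat_lit 346) (nat_lit 193)) (XT.lf (nat_lit 76) (nat_lit 6304544379) (nat_lit 0) (nat_lit 7132990642) (nat_lit 1824) (nat_lit 7055485828) (nat_lit 377) (nat_lit 5) (nat_lit 376) (nat_lit 5) (nat_lit 400) (nat_lit 5) (nat_lit 362) (nat_lit 346) (nat_lit 192))) (XT.nd (nat_lit 78) (nat_lit 0) (nat_lit 0) (XT.lf (nat_lit 0) (nat_lit 1032515780) (nat_lit 1748) (nat_lit 14967216041) (nat_lit 1824) (nat_lit 4825625509) (nat_lit 354) (nat_lit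 5) (nat_lit 377) (nat_lit 5) (nat_lit 378) (nat_lit 5) (nat_lit 363) (nat_lit 346) (nat_lit 191)) (XT.lf (nat_lit 0) (nat_lit 16847902170) (nat_lit 1748) (nat_lit 1925004024) (nat_lit 1824) (nat_lit 2392080785) (nat_lit 354) (nat_lit 5) (nat_lit 377) (nat_lit 5) (nat_lit 378) (nat_lit 5) (nat_lit 364) (nat_lit 346) (nat_lit 190)))) (XT.nd (nat_lit 156) (nat_lit 1672) (nat_lit 0) (XT.nd (nat_lit 78) (nat_lit 912) (nat_lit 0) (XT.lf (nat_lit 0) (nat_lit 255404776) (nat_lit 988) (nat_lit 9820148722) (nat_lit 76) (nat_lit 11436393490) (nat_lit 341) (nat_lit 5) (nat_lit 354) (nat_lit 5) (nat_lit 342) (nat_lit 5) (nat_lit 365) (nat_lit 346) (nat_lit 189)) (XT.lf (nat_lit 0) (nat_lit 3047037936) (nat_lit 988) (nat_lit 15471176277) (nat_lit 76) (nat_lit 3348845813) (nat_lit 329) (nat_lit 5) (nat_lit 342) (nat_lit 5) (nat_lit 330) (nat_lit 5) (nat_lit 366) (nat_lit 346) (nat_lit 188))) (XT.nd (nat_lit 78)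 (nat_lit 836) (nat_lit 0) (XT.lf (nat_lit 0) (nat_lit 937676197) (nat_lit 836) (nat_lit 5116424102) (nat_lit 912) (nat_lit 16176097312) (nat_lit 318) (nat_lit 5) (nat_lit 329) (nat_lit 5) (nat_lit 330) (nat_lit 5) (nat_lit 367) (nat_lit 346) (nat_lit 187)) (XT.nd (nat_lit 78) (nat_lit 836) (nat_lit 0) (XT.lf (nat_lit 0) (nat_lit 9304745656) (nat_lit 912) (nat_lit 4616835766) (nat_lit 76) (nat_lit 8679585103) (nat_lit 318) (nat_lit 5) (nat_lit 330) (nat_lit 5) (nat_lit 319) (nat_lit 5) (nat_lit 368) (nat_lit 346) (nat_lit 186)) (XT.lf (nat_lit 0) (nat_lit 12683316043) (nat_lit 836) (nat_lit 77842864) (nat_lit 912) (nat_lit 10219945114) (nat_lit 307) (nat_lit 5) (nat_lit 318) (nat_lit 5) (nat_lit 319) (nat_lit 5) (nat_lit 369) (nat_lit 346) (nat_lit 185)))))) (XT.nd (nat_lit 390) (nat_lit 684) (nat_lit 0) (XT.nd (nat_lit 156) (nat_lit 1596) (nat_lit 0) (XT.nd (nat_lit 78) (nat_lit 760) (nat_lit 0) (XT.lf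 (nat_lit 0) (nat_lit 7187870860) (nat_lit 760) (nat_lit 9295506110) (nat_lit 836) (nat_lit 6885824781) (nat_lit 297) (nat_lit 5) (nat_lit 307) (nat_lit 5) (nat_lit 308) (nat_lit 5) (nat_lit 370) (nat_lit 346) (nat_lit 184)) (XT.lf (nat_lit 0) (nat_lit 1551185346) (nat_lit 760) (nat_lit 18870654845) (nat_lit 836) (nat_lit 3345014879) (nat_lit 287) (nat_lit 5) (nat_lit 297) (nat_lit 5) (nat_lit 298) (nat_lit 5) (nat_lit 371) (nat_lit 346) (nat_lit 183))) (XT.nd (nat_lit 78) (nat_lit 1520) (nat_lit 0) (XT.lf (nat_lit 0) (nat_lit 462786103) (nat_lit 836) (nat_lit 4209910499) (nat_lit 76) (nat_lit 19500411639) (nat_lit 286) (nat_lit 5) (nat_lit 297) (nat_lit 5) (nat_lit 287) (nat_lit 5) (nat_lit 372) (nat_lit 346) (nat_lit 182)) (XT.nd (nat_lit 78) (nat_lit 760) (nat_lit 0) (XT.lf (nat_lit 0) (nat_lit 4491548628) (nat_lit 836) (nat_lit 10158737581) (nat_lit 76) (nat_lit 9937781031) (nat_lit 276) (nat_lit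 5) (nat_lit 287) (nat_lit 5) (nat_lit 277) (nat_lit 5) (nat_lit 373) (nat_lit 346) (nat_lit 181)) (XT.lf (nat_lit 0) (nat_lit 8745958729) (nat_lit 760) (nat_lit 4551047) (nat_lit 836) (nat_lit 16262782314) (nat_lit 266) (nat_lit 5) (nat_lit 276) (nat_lit 5) (nat_lit 277) (nat_lit 5) (nat_lit 374) (nat_lit 346) (nat_lit 180))))) (XT.nd (nat_lit 44772) (nat_lit 0) (nat_lit 10032) (XT.nd (nat_lit 44694) (nat_lit 0) (nat_lit 10032) (XT.lf (nat_lit 0) (nat_lit 2838008455) (nat_lit 684) (nat_lit 10477615031) (nat_lit 760) (nat_lit 12132086209) (nat_lit 257) (nat_lit 5) (nat_lit 266) (nat_lit 5) (nat_lit 267) (nat_lit 5) (nat_lit 375) (nat_lit 346) (nat_lit 179)) (XT.lf (nat_lit 0) (nat_lit 5234616941) (nat_lit 1748) (nat_lit 1518009417) (nat_lit 1748) (nat_lit 1518009417) (nat_lit 389) (nat_lit 3) (nat_lit 412) (nat_lit 3) (nat_lit 412) (nat_lit 5) (nat_lit 347) (nat_lit 347) (nat_lit 206))) (XT.nd (nat_lit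 78) (nat_lit 0) (nat_lit 76) (XT.lf (nat_lit 76) (nat_lit 8610518670) (nat_lit 0) (nat_lit 2421690612) (nat_lit 1748) (nat_lit 5748852850) (nat_lit 390) (nat_lit 5) (nat_lit 389) (nat_lit 3) (nat_lit 412) (nat_lit 5) (nat_lit 348) (nat_lit 347) (nat_lit 205)) (XT.nd (nat_lit 78) (nat_lit 0) (nat_lit 76) (XT.lf (nat_lit 76) (nat_lit 3601688749) (nat_lit 0) (nat_lit 8099212994) (nat_lit 1748) (nat_lit 5325376314) (nat_lit 391) (nat_lit 5) (nat_lit 390) (nat_lit 5) (nat_lit 413) (nat_lit 5) (nat_lit 349) (nat_lit 347) (nat_lit 204)) (XT.lf (nat_lit 0) (nat_lit 12469660540) (nat_lit 1672) (nat_lit 1484311114) (nat_lit 1748) (nat_lit 3323286643) (nat_lit 391) (nat_lit 5) (nat_lit 413) (nat_lit 5) (nat_lit 414) (nat_lit 5) (nat_lit 350) (nat_lit 347) (nat_lit 203))))))) (XT.nd (nat_lit 702) (nat_lit 4104) (nat_lit 0) (XT.nd (nat_lit 312) (nat_lit 1444) (nat_lit 0) (XT.nd (nat_lit 156) (nat_lit 0) (nat_lit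 152) (XT.nd (nat_lit 78) (nat_lit 0) (nat_lit 76) (XT.lf (nat_lit 76) (nat_lit 10895547591) (nat_lit 0) (nat_lit 2477951781) (nat_lit 1748) (nat_lit 4160035944) (nat_lit 392) (nat_lit 5) (nat_lit 391) (nat_lit 5) (nat_lit 414) (nat_lit 5) (nat_lit 351) (nat_lit 347) (nat_lit 202)) (XT.lf (nat_lit 76) (nat_lit 5878660805) (nat_lit 0) (nat_lit 8522218186) (nat_lit 1748) (nat_lit 3394700633) (nat_lit 393) (nat_lit 5) (nat_lit 392) (nat_lit 5) (nat_lit 415) (nat_lit 5) (nat_lit 352) (nat_lit 347) (nat_lit 201))) (XT.nd (nat_lit 78) (nat_lit 0) (nat_lit 0) (XT.lf (nat_lit 76) (nat_lit 761327959) (nat_lit 0) (nat_lit 14773545985) (nat_lit 1748) (nat_lit 2529102711) (nat_lit 394) (nat_lit 5) (nat_lit 393) (nat_lit 5) (nat_lit 416) (nat_lit 5) (nat_lit 353) (nat_lit 347) (nat_lit 200)) (XT.lf (nat_lit 76) (nat_lit 13917722517) (nat_lit 0) (nat_lit 2910665162) (nat_lit 1748) (nat_lit 1509535001) (nat_lit 394)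 (nat_lit 5) (nat_lit 393) (nat_lit 5) (nat_lit 416) (nat_lit 5) (nat_lit 354) (nat_lit 347) (nat_lit 199)))) (XT.nd (nat_lit 156) (nat_lit 0) (nat_lit 0) (XT.nd (nat_lit 78) (nat_lit 1672) (nat_lit 0) (XT.lf (nat_lit 76) (nat_lit 8897362974) (nat_lit 0) (nat_lit 9370047886) (nat_lit 1748) (nat_lit 350549000) (nat_lit 395) (nat_lit 5) (nat_lit 394) (nat_lit 5) (nat_lit 417) (nat_lit 5) (nat_lit 355) (nat_lit 347) (nat_lit 198)) (XT.lf (nat_lit 0) (nat_lit 913822747) (nat_lit 1748) (nat_lit 15137780466) (nat_lit 1824) (nat_lit 2853058478) (nat_lit 372) (nat_lit 5) (nat_lit 395) (nat_lit 5) (nat_lit 396) (nat_lit 5) (nat_lit 356) (nat_lit 347) (nat_lit 197))) (XT.nd (nat_lit 78) (nat_lit 0) (nat_lit 76) (XT.lf (nat_lit 0) (nat_lit 2329368148) (nat_lit 1748) (nat_lit 1479821793) (nat_lit 1824) (nat_lit 15388374525) (nat_lit 372) (nat_lit 5) (nat_lit 395) (nat_lit 5) (nat_lit 396) (nat_lit 5) (nat_lit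 357) (nat_lit 347) (nat_lit 196)) (XT.nd (nat_lit 78) (nat_lit 0) (nat_lit 76) (XT.lf (nat_lit 0) (nat_lit 3917182589) (nat_lit 1748) (nat_lit 6808010818) (nat_lit 1824) (nat_lit 8771471015) (nat_lit 373) (nat_lit 5) (nat_lit 396) (nat_lit 5) (nat_lit 397) (nat_lit 5) (nat_lit 358) (nat_lit 347) (nat_lit 195)) (XT.lf (nat_lit 0) (nat_lit 5639497683) (nat_lit 1748) (nat_lit 12251927258) (nat_lit 1824) (nat_lit 1911581085) (nat_lit 374) (nat_lit 5) (nat_lit 397) (nat_lit 5) (nat_lit 398) (nat_lit 5) (nat_lit 359) (nat_lit 347) (nat_lit 194)))))) (XT.nd (nat_lit 390) (nat_lit 2736) (nat_lit 0) (XT.nd (nat_lit 156) (nat_lit 1520) (nat_lit 0) (XT.nd (nat_lit 78) (nat_lit 0) (nat_lit 76) (XT.lf (nat_lit 76) (nat_lit 2266451269) (nat_lit 0) (nat_lit 5269791902) (nat_lit 1824) (nat_lit 12579845285) (nat_lit 375) (nat_lit 5) (nat_lit 374) (nat_lit 5) (nat_lit 398) (nat_lit 5) (nat_lit 360) (nat_lit 347) (nat_lit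 193)) (XT.lf (nat_lit 0) (nat_lit 9613797665) (nat_lit 1748) (nat_lit 3107407413) (nat_lit 1824) (nat_lit 7714885777) (nat_lit 375) (nat_lit 5) (nat_lit 398) (nat_lit 5) (nat_lit 399) (nat_lit 5) (nat_lit 361) (nat_lit 347) (nat_lit 192))) (XT.nd (nat_lit 78) (nat_lit 1672) (nat_lit 0) (XT.lf (nat_lit 0) (nat_lit 11860701447) (nat_lit 1748) (nat_lit 8571626752) (nat_lit 1824) (nat_lit 331230139) (nat_lit 376) (nat_lit 5) (nat_lit 399) (nat_lit 5) (nat_lit 400) (nat_lit 5) (nat_lit 362) (nat_lit 347) (nat_lit 191)) (XT.nd (nat_lit 78) (nat_lit 1672) (nat_lit 0) (XT.lf (nat_lit 76) (nat_lit 6889803510) (nat_lit 0) (nat_lit 7426882127) (nat_lit 1824) (nat_lit 6781336049) (nat_lit 377) (nat_lit 5) (nat_lit 376) (nat_lit 5) (nat_lit 400) (nat_lit 5) (nat_lit 363) (nat_lit 347) (nat_lit 190)) (XT.lf (nat_lit 0) (nat_lit 1463328750) (nat_lit 1748) (nat_lit 15480647143) (nat_lit 1824) (nat_lit 4496595661)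 (nat_lit 354) (nat_lit 5) (nat_lit 377) (nat_lit 5) (nat_lit 378) (nat_lit 5) (nat_lit 364) (nat_lit 347) (nat_lit 189))))) (XT.nd (nat_lit 156) (nat_lit 1748) (nat_lit 0) (XT.nd (nat_lit 78) (nat_lit 988) (nat_lit 0) (XT.lf (nat_lit 0) (nat_lit 17741530980) (nat_lit 1748) (nat_lit 2045292611) (nat_lit 1824) (nat_lit 2003844555) (nat_lit 354) (nat_lit 5) (nat_lit 377) (nat_lit 5) (nat_lit 378) (nat_lit 5) (nat_lit 365) (nat_lit 347) (nat_lit 188)) (XT.lf (nat_lit 0) (nat_lit 705971612) (nat_lit 988) (nat_lit 9717214279) (nat_lit 76) (nat_lit 11725019799) (nat_lit 341) (nat_lit 5) (nat_lit 354) (nat_lit 5) (nat_lit 342) (nat_lit 5) (nat_lit 366) (nat_lit 347) (nat_lit 187))) (XT.nd (nat_lit 78) (nat_lit 836) (nat_lit 0) (XT.lf (nat_lit 0) (nat_lit 3570723692) (nat_lit 988) (nat_lit 15535067657) (nat_lit 76) (nat_lit 3408400410) (nat_lit 329) (nat_lit 5) (nat_lit 342) (nat_lit 5) (nat_lit 330) (nat_lit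 5) (nat_lit 367) (nat_lit 347) (nat_lit 186)) (XT.nd (nat_lit 78) (nat_lit 0) (nat_lit 0) (XT.lf (nat_lit 0) (nat_lit 1359556909) (nat_lit 836) (nat_lit 5298406983) (nat_lit 912) (nat_lit 16230467093) (nat_lit 318) (nat_lit 5) (nat_lit 329) (nat_lit 5) (nat_lit 330) (nat_lit 5) (nat_lit 368) (nat_lit 347) (nat_lit 185)) (XT.lf (nat_lit 0) (nat_lit 9993650751) (nat_lit 912) (nat_lit 4364459326) (nat_lit 76) (nat_lit 8912675079) (nat_lit 318) (nat_lit 5) (nat_lit 330) (nat_lit 5) (nat_lit 319) (nat_lit 5) (nat_lit 369) (nat_lit 347) (nat_lit 184))))))))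
noncomputable def xc121 : XT := (XT.nd (nat_lit 46176) (nat_lit 0) (nat_lit 1520) (XT.nd (nat_lit 45396) (nat_lit 0) (nat_lit 7980) (XT.nd (nat_lit 312) (nat_lit 1520) (nat_lit 0) (XT.nd (nat_lit 156) (nat_lit 836) (nat_lit 0) (XT.nd (nat_lit 78) (nat_lit 760) (nat_lit 0) (XT.lf (nat_lit 0) (nat_lit 13448355449) (nat_lit 836) (nat_lit 95962802) (nat_lit 912) (nat_lit 10117997730) (nat_lit 307) (nat_lit 5) (nat_lit 318) (nat_lit 5) (nat_lit 319) (nat_lit 5) (nat_lit 370) (nat_lit 347) (nat_lit 183)) (XT.lf (nat_lit 0) (nat_lit 7789996811) (nat_lit 760) (nat_lit 9578955954) (nat_lit 836) (nat_lit 6693295132) (nat_lit 297) (nat_lit 5) (nat_lit 307) (nat_lit 5) (nat_lit 308) (nat_lit 5) (nat_lit 371) (nat_lit 347) (nat_lit 182))) (XT.nd (nat_lit 78) (nat_lit 76) (nat_lit 0) (XT.lf (nat_lit 0) (nat_lit 1985869308) (nat_lit 760) (nat_lit 19430801273) (nat_lit 836) (nat_lit 3055344291) (nat_lit 287) (nat_lit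 5) (nat_lit 297) (nat_lit 5) (nat_lit 298) (nat_lit 5) (nat_lit 372) (nat_lit 347) (nat_lit 181)) (XT.lf (nat_lit 0) (nat_lit 850364675) (nat_lit 836) (nat_lit 3954205894) (nat_lit 76) (nat_lit 20086064417) (nat_lit 286) (nat_lit 5) (nat_lit 297) (nat_lit 5) (nat_lit 287) (nat_lit 5) (nat_lit 373) (nat_lit 347) (nat_lit 180)))) (XT.nd (nat_lit 44850) (nat_lit 0) (nat_lit 9348) (XT.nd (nat_lit 78) (nat_lit 760) (nat_lit 0) (XT.lf (nat_lit 0) (nat_lit 4991614250) (nat_lit 836) (nat_lit 10080271834) (nat_lit 76) (nat_lit 10246329799) (nat_lit 276) (nat_lit 5) (nat_lit 287) (nat_lit 5) (nat_lit 277) (nat_lit 5) (nat_lit 374) (nat_lit 347) (nat_lit 179)) (XT.lf (nat_lit 0) (nat_lit 9370250334) (nat_lit 836) (nat_lit 16371117492) (nat_lit 76) (nat_lit 14996975) (nat_lit 266) (nat_lit 5) (nat_lit 277) (nat_lit 5) (nat_lit 267) (nat_lit 5) (nat_lit 375) (nat_lit 347) (nat_lit 178))) (XT.nd (nat_lit 78) (nat_lit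 0) (nat_lit 0) (XT.lf (nat_lit 0) (nat_lit 5738322424) (nat_lit 1748) (nat_lit 1386645673) (nat_lit 1748) (nat_lit 1386645673) (nat_lit 389) (nat_lit 3) (nat_lit 412) (nat_lit 3) (nat_lit 412) (nat_lit 5) (nat_lit 348) (nat_lit 348) (nat_lit 204)) (XT.nd (nat_lit 78) (nat_lit 0) (nat_lit 76) (XT.lf (nat_lit 76) (nat_lit 9216902170) (nat_lit 0) (nat_lit 2821673034) (nat_lit 1748) (nat_lit 5232007418) (nat_lit 390) (nat_lit 5) (nat_lit 389) (nat_lit 3) (nat_lit 412) (nat_lit 5) (nat_lit 349) (nat_lit 348) (nat_lit 203)) (XT.lf (nat_lit 76) (nat_lit 4067936815) (nat_lit 0) (nat_lit 8639982090) (nat_lit 1748) (nat_lit 4815636059) (nat_lit 391) (nat_lit 5) (nat_lit 390) (nat_lit 5) (nat_lit 413) (nat_lit 5) (nat_lit 350) (nat_lit 348) (nat_lit 202)))))) (XT.nd (nat_lit 390) (nat_lit 1520) (nat_lit 0) (XT.nd (nat_lit 156) (nat_lit 0) (nat_lit 76) (XT.nd (nat_lit 78) (nat_lit 0) (nat_lit 0) (XT.lf (nat_lit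 0) (nat_lit 13478756806) (nat_lit 1672) (nat_lit 1166080927) (nat_lit 1748) (nat_lit 3137657959) (nat_lit 391) (nat_lit 5) (nat_lit 413) (nat_lit 5) (nat_lit 414) (nat_lit 5) (nat_lit 351) (nat_lit 348) (nat_lit 201)) (XT.lf (nat_lit 76) (nat_lit 11579288197) (nat_lit 0) (nat_lit 2814244336) (nat_lit 1748) (nat_lit 3653263129) (nat_lit 392) (nat_lit 5) (nat_lit 391) (nat_lit 5) (nat_lit 414) (nat_lit 5) (nat_lit 352) (nat_lit 348) (nat_lit 200))) (XT.nd (nat_lit 78) (nat_lit 0) (nat_lit 76) (XT.lf (nat_lit 76) (nat_lit 6420317064) (nat_lit 0) (nat_lit 9014112859) (nat_lit 1748) (nat_lit 2882628199) (nat_lit 393) (nat_lit 5) (nat_lit 392) (nat_lit 5) (nat_lit 415) (nat_lit 5) (nat_lit 353) (nat_lit 348) (nat_lit 199)) (XT.nd (nat_lit 78) (nat_lit 0) (nat_lit 0) (XT.lf (nat_lit 76) (nat_lit 1157234493) (nat_lit 0) (nat_lit 15428623218) (nat_lit 1748) (nat_lit 2007991533) (nat_lit 394) (nat_lit 5) (nat_lit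 393) (nat_lit 5) (nat_lit 416) (nat_lit 5) (nat_lit 354) (nat_lit 348) (nat_lit 198)) (XT.lf (nat_lit 76) (nat_lit 14697454867) (nat_lit 0) (nat_lit 3203684975) (nat_lit 1748) (nat_lit 975224682) (nat_lit 394) (nat_lit 5) (nat_lit 393) (nat_lit 5) (nat_lit 416) (nat_lit 5) (nat_lit 355) (nat_lit 348) (nat_lit 197))))) (XT.nd (nat_lit 156) (nat_lit 0) (nat_lit 76) (XT.nd (nat_lit 78) (nat_lit 0) (nat_lit 76) (XT.lf (nat_lit 0) (nat_lit 200112155) (nat_lit 1748) (nat_lit 9633009782) (nat_lit 1824) (nat_lit 9331973206) (nat_lit 371) (nat_lit 5) (nat_lit 394) (nat_lit 5) (nat_lit 395) (nat_lit 5) (nat_lit 356) (nat_lit 348) (nat_lit 196)) (XT.lf (nat_lit 0) (nat_lit 1482763636) (nat_lit 1748) (nat_lit 15208886168) (nat_lit 1824) (nat_lit 2769009025) (nat_lit 372) (nat_lit 5) (nat_lit 395) (nat_lit 5) (nat_lit 396) (nat_lit 5) (nat_lit 357) (nat_lit 348) (nat_lit 195))) (XT.nd (nat_lit 78) (nat_lit 0)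 (nat_lit 76) (XT.lf (nat_lit 0) (nat_lit 2925002792) (nat_lit 1748) (nat_lit 1152344882) (nat_lit 1824) (nat_lit 15685325559) (nat_lit 372) (nat_lit 5) (nat_lit 395) (nat_lit 5) (nat_lit 396) (nat_lit 5) (nat_lit 358) (nat_lit 348) (nat_lit 194)) (XT.nd (nat_lit 78) (nat_lit 0) (nat_lit 76) (XT.lf (nat_lit 0) (nat_lit 4546559446) (nat_lit 1748) (nat_lit 6634907897) (nat_lit 1824) (nat_lit 8889565518) (nat_lit 373) (nat_lit 5) (nat_lit 396) (nat_lit 5) (nat_lit 397) (nat_lit 5) (nat_lit 359) (nat_lit 348) (nat_lit 193)) (XT.lf (nat_lit 0) (nat_lit 6307213642) (nat_lit 1748) (nat_lit 12237158838) (nat_lit 1824) (nat_lit 1842467409) (nat_lit 374) (nat_lit 5) (nat_lit 397) (nat_lit 5) (nat_lit 398) (nat_lit 5) (nat_lit 360) (nat_lit 348) (nat_lit 192))))))) (XT.nd (nat_lit 780) (nat_lit 2432) (nat_lit 0) (XT.nd (nat_lit 390) (nat_lit 2736) (nat_lit 0) (XT.nd (nat_lit 156) (nat_lit 1520) (nat_lit 0) (XT.nd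 (nat_lit 78) (nat_lit 0) (nat_lit 76) (XT.lf (nat_lit 76) (nat_lit 2710568257) (nat_lit 0) (nat_lit 5538214960) (nat_lit 1824) (nat_lit 12460781462) (nat_lit 375) (nat_lit 5) (nat_lit 374) (nat_lit 5) (nat_lit 398) (nat_lit 5) (nat_lit 361) (nat_lit 348) (nat_lit 191)) (XT.lf (nat_lit 0) (nat_lit 10373800351) (nat_lit 1748) (nat_lit 2825050790) (nat_lit 1824) (nat_lit 7840621367) (nat_lit 375) (nat_lit 5) (nat_lit 398) (nat_lit 5) (nat_lit 399) (nat_lit 5) (nat_lit 362) (nat_lit 348) (nat_lit 190))) (XT.nd (nat_lit 78) (nat_lit 1672) (nat_lit 0) (XT.lf (nat_lit 0) (nat_lit 12676185280) (nat_lit 1748) (nat_lit 8449234218) (nat_lit 1824) (nat_lit 251590881) (nat_lit 376) (nat_lit 5) (nat_lit 399) (nat_lit 5) (nat_lit 400) (nat_lit 5) (nat_lit 363) (nat_lit 348) (nat_lit 189)) (XT.nd (nat_lit 78) (nat_lit 1672) (nat_lit 0) (XT.lf (nat_lit 76) (nat_lit 7469881345) (nat_lit 0) (nat_lit 7725003670) (nat_lit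 1824) (nat_lit 6526849508) (nat_lit 377) (nat_lit 5) (nat_lit 376) (nat_lit 5) (nat_lit 400) (nat_lit 5) (nat_lit 364) (nat_lit 348) (nat_lit 188)) (XT.lf (nat_lit 0) (nat_lit 1884113802) (nat_lit 1748) (nat_lit 16005783516) (nat_lit 1824) (nat_lit 4184892896) (nat_lit 354) (nat_lit 5) (nat_lit 377) (nat_lit 5) (nat_lit 378) (nat_lit 5) (nat_lit 365) (nat_lit 348) (nat_lit 187))))) (XT.nd (nat_lit 156) (nat_lit 1748) (nat_lit 0) (XT.nd (nat_lit 78) (nat_lit 988) (nat_lit 0) (XT.lf (nat_lit 0) (nat_lit 18639684859) (nat_lit 1748) (nat_lit 2165599893) (nat_lit 1824) (nat_lit 1630367043) (nat_lit 354) (nat_lit 5) (nat_lit 377) (nat_lit 5) (nat_lit 378) (nat_lit 5) (nat_lit 366) (nat_lit 348) (nat_lit 186)) (XT.lf (nat_lit 0) (nat_lit 1144630912) (nat_lit 988) (nat_lit 9634012163) (nat_lit 76) (nat_lit 12025431440) (nat_lit 341) (nat_lit 5) (nat_lit 354) (nat_lit 5) (nat_lit 342) (nat_lit 5) (nat_lit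 367) (nat_lit 348) (nat_lit 185))) (XT.nd (nat_lit 78) (nat_lit 836) (nat_lit 0) (XT.lf (nat_lit 0) (nat_lit 4085305689) (nat_lit 988) (nat_lit 15623851417) (nat_lit 76) (nat_lit 3472090090) (nat_lit 329) (nat_lit 5) (nat_lit 342) (nat_lit 5) (nat_lit 330) (nat_lit 5) (nat_lit 368) (nat_lit 348) (nat_lit 184)) (XT.nd (nat_lit 78) (nat_lit 0) (nat_lit 0) (XT.lf (nat_lit 0) (nat_lit 1771491157) (nat_lit 836) (nat_lit 5484213899) (nat_lit 912) (nat_lit 16311204144) (nat_lit 318) (nat_lit 5) (nat_lit 329) (nat_lit 5) (nat_lit 330) (nat_lit 5) (nat_lit 369) (nat_lit 348) (nat_lit 183)) (XT.lf (nat_lit 0) (nat_lit 10679700942) (nat_lit 912) (nat_lit 4126949792) (nat_lit 76) (nat_lit 9154324747) (nat_lit 318) (nat_lit 5) (nat_lit 330) (nat_lit 5) (nat_lit 319) (nat_lit 5) (nat_lit 370) (nat_lit 348) (nat_lit 182)))))) (XT.nd (nat_lit 45240) (nat_lit 0) (nat_lit 7828) (XT.nd (nat_lit 156) (nat_lit 836) (nat_lit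 0) (XT.nd (nat_lit 78) (nat_lit 760) (nat_lit 0) (XT.lf (nat_lit 0) (nat_lit 14214271872) (nat_lit 836) (nat_lit 113720235) (nat_lit 912) (nat_lit 10036444121) (nat_lit 307) (nat_lit 5) (nat_lit 318) (nat_lit 5) (nat_lit 319) (nat_lit 5) (nat_lit 371) (nat_lit 348) (nat_lit 181)) (XT.lf (nat_lit 0) (nat_lit 8388000443) (nat_lit 760) (nat_lit 9870646116) (nat_lit 836) (nat_lit 6517899817) (nat_lit 297) (nat_lit 5) (nat_lit 307) (nat_lit 5) (nat_lit 308) (nat_lit 5) (nat_lit 372) (nat_lit 348) (nat_lit 180))) (XT.nd (nat_lit 78) (nat_lit 76) (nat_lit 0) (XT.lf (nat_lit 0) (nat_lit 2411312483) (nat_lit 760) (nat_lit 20008094982) (nat_lit 836) (nat_lit 2779372387) (nat_lit 287) (nat_lit 5) (nat_lit 297) (nat_lit 5) (nat_lit 298) (nat_lit 5) (nat_lit 373) (nat_lit 348) (nat_lit 179)) (XT.nd (nat_lit 44928) (nat_lit 0) (nat_lit 7828) (XT.lf (nat_lit 0) (nat_lit 1228118984) (nat_lit 836) (nat_lit 3712758625)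 (nat_lit 76) (nat_lit 20689250015) (nat_lit 286) (nat_lit 5) (nat_lit 297) (nat_lit 5) (nat_lit 287) (nat_lit 5) (nat_lit 374) (nat_lit 348) (nat_lit 178)) (XT.lf (nat_lit 0) (nat_lit 6237238968) (nat_lit 1748) (nat_lit 1261496030) (nat_lit 1748) (nat_lit 1261496030) (nat_lit 389) (nat_lit 3) (nat_lit 412) (nat_lit 3) (nat_lit 412) (nat_lit 5) (nat_lit 349) (nat_lit 349) (nat_lit 202))))) (XT.nd (nat_lit 156) (nat_lit 0) (nat_lit 152) (XT.nd (nat_lit 78) (nat_lit 0) (nat_lit 76) (XT.lf (nat_lit 76) (nat_lit 9821496651) (nat_lit 0) (nat_lit 3214864750) (nat_lit 1748) (nat_lit 4739225896) (nat_lit 390) (nat_lit 5) (nat_lit 389) (nat_lit 3) (nat_lit 412) (nat_lit 5) (nat_lit 350) (nat_lit 349) (nat_lit 201)) (XT.lf (nat_lit 76) (nat_lit 4527610327) (nat_lit 0) (nat_lit 9179879740) (nat_lit 1748) (nat_lit 4329035724) (nat_lit 391) (nat_lit 5) (nat_lit 390) (nat_lit 5) (nat_lit 413) (nat_lit 5) (nat_lit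 351) (nat_lit 349) (nat_lit 200))) (XT.nd (nat_lit 78) (nat_lit 0) (nat_lit 0) (XT.lf (nat_lit 0) (nat_lit 14481673991) (nat_lit 1672) (nat_lit 859127716) (nat_lit 1748) (nat_lit 2962839368) (nat_lit 391) (nat_lit 5) (nat_lit 413) (nat_lit 5) (nat_lit 414) (nat_lit 5) (nat_lit 352) (nat_lit 349) (nat_lit 199)) (XT.nd (nat_lit 78) (nat_lit 0) (nat_lit 76) (XT.lf (nat_lit 76) (nat_lit 12263054983) (nat_lit 0) (nat_lit 3145588436) (nat_lit 1748) (nat_lit 3167542054) (nat_lit 392) (nat_lit 5) (nat_lit 391) (nat_lit 5) (nat_lit 414) (nat_lit 5) (nat_lit 353) (nat_lit 349) (nat_lit 198)) (XT.lf (nat_lit 76) (nat_lit 6957253501) (nat_lit 0) (nat_lit 9507203912) (nat_lit 1748) (nat_lit 2390434736) (nat_lit 393) (nat_lit 5) (nat_lit 392) (nat_lit 5) (nat_lit 415) (nat_lit 5) (nat_lit 354) (nat_lit 349) (nat_lit 197))))))))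
noncomputable def xc122 : XT := (XT.nd (nat_lit 1482) (nat_lit 760) (nat_lit 0) (XT.nd (nat_lit 702) (nat_lit 5624) (nat_lit 0) (XT.nd (nat_lit 312) (nat_lit 0) (nat_lit 76) (XT.nd (nat_lit 156) (nat_lit 1672) (nat_lit 0) (XT.nd (nat_lit 78) (nat_lit 0) (nat_lit 0) (XT.lf (nat_lit 76) (nat_lit 1543602669) (nat_lit 0) (nat_lit 16091190514) (nat_lit 1748) (nat_lit 1505516358) (nat_lit 394) (nat_lit 5) (nat_lit 393) (nat_lit 5) (nat_lit 416) (nat_lit 5) (nat_lit 355) (nat_lit 349) (nat_lit 196)) (XT.lf (nat_lit 76) (nat_lit 15479787388) (nat_lit 0) (nat_lit 3493687368) (nat_lit 1748) (nat_lit 458156257) (nat_lit 394) (nat_lit 5) (nat_lit 393) (nat_lit 5) (nat_lit 416) (nat_lit 5) (nat_lit 356) (nat_lit 349) (nat_lit 195))) (XT.nd (nat_lit 78) (nat_lit 0) (nat_lit 76) (XT.lf (nat_lit 0) (nat_lit 730615650) (nat_lit 1748) (nat_lit 9566772689) (nat_lit 1824) (nat_lit 9431866561) (nat_lit 371) (nat_lit 5)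 (nat_lit 394) (nat_lit 5) (nat_lit 395) (nat_lit 5) (nat_lit 357) (nat_lit 349) (nat_lit 194)) (XT.lf (nat_lit 0) (nat_lit 2037686932) (nat_lit 1748) (nat_lit 15304112398) (nat_lit 1824) (nat_lit 2692176188) (nat_lit 372) (nat_lit 5) (nat_lit 395) (nat_lit 5) (nat_lit 396) (nat_lit 5) (nat_lit 358) (nat_lit 349) (nat_lit 193)))) (XT.nd (nat_lit 156) (nat_lit 0) (nat_lit 152) (XT.nd (nat_lit 78) (nat_lit 0) (nat_lit 76) (XT.lf (nat_lit 0) (nat_lit 3508326067) (nat_lit 1748) (nat_lit 836390612) (nat_lit 1824) (nat_lit 16000639590) (nat_lit 372) (nat_lit 5) (nat_lit 395) (nat_lit 5) (nat_lit 396) (nat_lit 5) (nat_lit 359) (nat_lit 349) (nat_lit 192)) (XT.lf (nat_lit 0) (nat_lit 5165434671) (nat_lit 1748) (nat_lit 6478272934) (nat_lit 1824) (nat_lit 9019529297) (nat_lit 373) (nat_lit 5) (nat_lit 396) (nat_lit 5) (nat_lit 397) (nat_lit 5) (nat_lit 360) (nat_lit 349) (nat_lit 191))) (XT.nd (nat_lit 78)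 (nat_lit 0) (nat_lit 0) (XT.lf (nat_lit 0) (nat_lit 6966343359) (nat_lit 1748) (nat_lit 12243894455) (nat_lit 1824) (nat_lit 1778539708) (nat_lit 374) (nat_lit 5) (nat_lit 397) (nat_lit 5) (nat_lit 398) (nat_lit 5) (nat_lit 361) (nat_lit 349) (nat_lit 190)) (XT.nd (nat_lit 78) (nat_lit 0) (nat_lit 76) (XT.lf (nat_lit 76) (nat_lit 3146417729) (nat_lit 0) (nat_lit 5808357357) (nat_lit 1824) (nat_lit 12366644513) (nat_lit 375) (nat_lit 5) (nat_lit 374) (nat_lit 5) (nat_lit 398) (nat_lit 5) (nat_lit 362) (nat_lit 349) (nat_lit 189)) (XT.lf (nat_lit 0) (nat_lit 11129531995) (nat_lit 1748) (nat_lit 2555783231) (nat_lit 1824) (nat_lit 7976197268) (nat_lit 375) (nat_lit 5) (nat_lit 398) (nat_lit 5) (nat_lit 399) (nat_lit 5) (nat_lit 363) (nat_lit 349) (nat_lit 188)))))) (XT.nd (nat_lit 390) (nat_lit 3344) (nat_lit 0) (XT.nd (nat_lit 156) (nat_lit 2660) (nat_lit 0) (XT.nd (nat_lit 78) (nat_lit 0) (nat_lit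 0) (XT.lf (nat_lit 0) (nat_lit 13489747104) (nat_lit 1748) (nat_lit 8344957132) (nat_lit 1824) (nat_lit 174704484) (nat_lit 376) (nat_lit 5) (nat_lit 399) (nat_lit 5) (nat_lit 400) (nat_lit 5) (nat_lit 364) (nat_lit 349) (nat_lit 187)) (XT.lf (nat_lit 76) (nat_lit 8045927762) (nat_lit 0) (nat_lit 8027745464) (nat_lit 1824) (nat_lit 6291015232) (nat_lit 377) (nat_lit 5) (nat_lit 376) (nat_lit 5) (nat_lit 400) (nat_lit 5) (nat_lit 365) (nat_lit 349) (nat_lit 186))) (XT.nd (nat_lit 78) (nat_lit 988) (nat_lit 0) (XT.lf (nat_lit 0) (nat_lit 2295887653) (nat_lit 1748) (nat_lit 16543188578) (nat_lit 1824) (nat_lit 3889475752) (nat_lit 354) (nat_lit 5) (nat_lit 377) (nat_lit 5) (nat_lit 378) (nat_lit 5) (nat_lit 366) (nat_lit 349) (nat_lit 185)) (XT.nd (nat_lit 78) (nat_lit 988) (nat_lit 0) (XT.lf (nat_lit 0) (nat_lit 19543778742) (nat_lit 1748) (nat_lit 2286132507) (nat_lit 1824) (nat_lit 1270575208) (nat_lit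 354) (nat_lit 5) (nat_lit 377) (nat_lit 5) (nat_lit 378) (nat_lit 5) (nat_lit 367) (nat_lit 349) (nat_lit 184)) (XT.lf (nat_lit 0) (nat_lit 1572484923) (nat_lit 988) (nat_lit 9569824361) (nat_lit 76) (nat_lit 12337802495) (nat_lit 341) (nat_lit 5) (nat_lit 354) (nat_lit 5) (nat_lit 342) (nat_lit 5) (nat_lit 368) (nat_lit 349) (nat_lit 183))))) (XT.nd (nat_lit 156) (nat_lit 1596) (nat_lit 0) (XT.nd (nat_lit 78) (nat_lit 836) (nat_lit 0) (XT.lf (nat_lit 0) (nat_lit 4591935259) (nat_lit 988) (nat_lit 15736955431) (nat_lit 76) (nat_lit 3539904097) (nat_lit 329) (nat_lit 5) (nat_lit 342) (nat_lit 5) (nat_lit 330) (nat_lit 5) (nat_lit 369) (nat_lit 349) (nat_lit 182)) (XT.lf (nat_lit 0) (nat_lit 2174478045) (nat_lit 836) (nat_lit 5674053452) (nat_lit 912) (nat_lit 16417679526) (nat_lit 318) (nat_lit 5) (nat_lit 329) (nat_lit 5) (nat_lit 330) (nat_lit 5) (nat_lit 370) (nat_lit 349) (nat_lit 181))) (XT.nd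 (nat_lit 78) (nat_lit 1596) (nat_lit 0) (XT.lf (nat_lit 0) (nat_lit 11364160844) (nat_lit 912) (nat_lit 3903465125) (nat_lit 76) (nat_lit 9404700946) (nat_lit 318) (nat_lit 5) (nat_lit 330) (nat_lit 5) (nat_lit 319) (nat_lit 5) (nat_lit 371) (nat_lit 349) (nat_lit 180)) (XT.nd (nat_lit 78) (nat_lit 760) (nat_lit 0) (XT.lf (nat_lit 0) (nat_lit 14982358770) (nat_lit 836) (nat_lit 131156301) (nat_lit 912) (nat_lit 9974549848) (nat_lit 307) (nat_lit 5) (nat_lit 318) (nat_lit 5) (nat_lit 319) (nat_lit 5) (nat_lit 372) (nat_lit 349) (nat_lit 179)) (XT.lf (nat_lit 0) (nat_lit 8983031660) (nat_lit 760) (nat_lit 10170838912) (nat_lit 836) (nat_lit 6358837728) (nat_lit 297) (nat_lit 5) (nat_lit 307) (nat_lit 5) (nat_lit 308) (nat_lit 5) (nat_lit 373) (nat_lit 349) (nat_lit 178))))))) (XT.nd (nat_lit 45630) (nat_lit 0) (nat_lit 5092) (XT.nd (nat_lit 45240) (nat_lit 0) (nat_lit 6308) (XT.nd (nat_lit 45084) (nat_lit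 0) (nat_lit 7752) (XT.nd (nat_lit 45006) (nat_lit 0) (nat_lit 7752) (XT.lf (nat_lit 0) (nat_lit 2828516685) (nat_lit 760) (nat_lit 20603030705) (nat_lit 836) (nat_lit 2516224921) (nat_lit 287) (nat_lit 5) (nat_lit 297) (nat_lit 5) (nat_lit 298) (nat_lit 5) (nat_lit 374) (nat_lit 349) (nat_lit 177)) (XT.lf (nat_lit 0) (nat_lit 6732365253) (nat_lit 1748) (nat_lit 1142163974) (nat_lit 1748) (nat_lit 1142163974) (nat_lit 389) (nat_lit 3) (nat_lit 412) (nat_lit 3) (nat_lit 412) (nat_lit 5) (nat_lit 350) (nat_lit 350) (nat_lit 200))) (XT.nd (nat_lit 78) (nat_lit 0) (nat_lit 76) (XT.lf (nat_lit 76) (nat_lit 10425395406) (nat_lit 0) (nat_lit 3602140672) (nat_lit 1748) (nat_lit 4268958762) (nat_lit 390) (nat_lit 5) (nat_lit 389) (nat_lit 3) (nat_lit 412) (nat_lit 5) (nat_lit 351) (nat_lit 350) (nat_lit 199)) (XT.lf (nat_lit 76) (nat_lit 4981692391) (nat_lit 0) (nat_lit 9719861095) (nat_lit 1748) (nat_lit 3864063345)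 (nat_lit 391) (nat_lit 5) (nat_lit 390) (nat_lit 5) (nat_lit 413) (nat_lit 5) (nat_lit 352) (nat_lit 350) (nat_lit 198)))) (XT.nd (nat_lit 156) (nat_lit 1596) (nat_lit 0) (XT.nd (nat_lit 78) (nat_lit 0) (nat_lit 0) (XT.lf (nat_lit 0) (nat_lit 15480319216) (nat_lit 1672) (nat_lit 562594412) (nat_lit 1748) (nat_lit 2798214954) (nat_lit 391) (nat_lit 5) (nat_lit 413) (nat_lit 5) (nat_lit 414) (nat_lit 5) (nat_lit 353) (nat_lit 350) (nat_lit 197)) (XT.lf (nat_lit 76) (nat_lit 12948024717) (nat_lit 0) (nat_lit 3472698826) (nat_lit 1748) (nat_lit 2701423091) (nat_lit 392) (nat_lit 5) (nat_lit 391) (nat_lit 5) (nat_lit 414) (nat_lit 5) (nat_lit 354) (nat_lit 350) (nat_lit 196))) (XT.nd (nat_lit 78) (nat_lit 1672) (nat_lit 0) (XT.lf (nat_lit 76) (nat_lit 7490532256) (nat_lit 0) (nat_lit 10002305661) (nat_lit 1748) (nat_lit 1916693627) (nat_lit 393) (nat_lit 5) (nat_lit 392) (nat_lit 5) (nat_lit 415) (nat_lit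 5) (nat_lit 355) (nat_lit 350) (nat_lit 195)) (XT.nd (nat_lit 78) (nat_lit 1748) (nat_lit 0) (XT.lf (nat_lit 76) (nat_lit 1921375675) (nat_lit 0) (nat_lit 16762170738) (nat_lit 1748) (nat_lit 1020269066) (nat_lit 394) (nat_lit 5) (nat_lit 393) (nat_lit 5) (nat_lit 416) (nat_lit 5) (nat_lit 356) (nat_lit 350) (nat_lit 194)) (XT.lf (nat_lit 0) (nat_lit 42498143) (nat_lit 1748) (nat_lit 3738476320) (nat_lit 1824) (nat_lit 16223208290) (nat_lit 370) (nat_lit 5) (nat_lit 393) (nat_lit 5) (nat_lit 394) (nat_lit 5) (nat_lit 357) (nat_lit 350) (nat_lit 193)))))) (XT.nd (nat_lit 390) (nat_lit 1292) (nat_lit 0) (XT.nd (nat_lit 156) (nat_lit 0) (nat_lit 76) (XT.nd (nat_lit 78) (nat_lit 0) (nat_lit 76) (XT.lf (nat_lit 0) (nat_lit 1246925797) (nat_lit 1748) (nat_lit 9518939987) (nat_lit 1824) (nat_lit 9545093232) (nat_lit 371) (nat_lit 5) (nat_lit 394) (nat_lit 5) (nat_lit 395) (nat_lit 5) (nat_lit 358) (nat_lit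 350) (nat_lit 192)) (XT.lf (nat_lit 0) (nat_lit 2579956560) (nat_lit 1748) (nat_lit 15422920609) (nat_lit 1824) (nat_lit 2622217458) (nat_lit 372) (nat_lit 5) (nat_lit 395) (nat_lit 5) (nat_lit 396) (nat_lit 5) (nat_lit 359) (nat_lit 350) (nat_lit 191))) (XT.nd (nat_lit 78) (nat_lit 0) (nat_lit 76) (XT.lf (nat_lit 0) (nat_lit 4080701111) (nat_lit 1748) (nat_lit 531079262) (nat_lit 1824) (nat_lit 16334324782) (nat_lit 372) (nat_lit 5) (nat_lit 395) (nat_lit 5) (nat_lit 396) (nat_lit 5) (nat_lit 360) (nat_lit 350) (nat_lit 190)) (XT.nd (nat_lit 78) (nat_lit 0) (nat_lit 76) (XT.lf (nat_lit 0) (nat_lit 5775179916) (nat_lit 1748) (nat_lit 6337356535) (nat_lit 1824) (nat_lit 9161240459) (nat_lit 373) (nat_lit 5) (nat_lit 396) (nat_lit 5) (nat_lit 397) (nat_lit 5) (nat_lit 361) (nat_lit 350) (nat_lit 189)) (XT.lf (nat_lit 0) (nat_lit 7618272022) (nat_lit 1748) (nat_lit 12271519378) (nat_lit 1824) (nat_lit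 1719536843) (nat_lit 374) (nat_lit 5) (nat_lit 397) (nat_lit 5) (nat_lit 398) (nat_lit 5) (nat_lit 362) (nat_lit 350) (nat_lit 188))))) (XT.nd (nat_lit 156) (nat_lit 1520) (nat_lit 0) (XT.nd (nat_lit 78) (nat_lit 0) (nat_lit 76) (XT.lf (nat_lit 76) (nat_lit 3574991074) (nat_lit 0) (nat_lit 6080634233) (nat_lit 1824) (nat_lit 12296546296) (nat_lit 375) (nat_lit 5) (nat_lit 374) (nat_lit 5) (nat_lit 398) (nat_lit 5) (nat_lit 363) (nat_lit 350) (nat_lit 187)) (XT.lf (nat_lit 0) (nat_lit 11882418457) (nat_lit 1748) (nat_lit 2298759788) (nat_lit 1824) (nat_lit 8121560346) (nat_lit 375) (nat_lit 5) (nat_lit 398) (nat_lit 5) (nat_lit 399) (nat_lit 5) (nat_lit 364) (nat_lit 350) (nat_lit 186))) (XT.nd (nat_lit 78) (nat_lit 1672) (nat_lit 0) (XT.lf (nat_lit 0) (nat_lit 14302843953) (nat_lit 1748) (nat_lit 8258088284) (nat_lit 1824) (nat_lit 100358359) (nat_lit 376) (nat_lit 5) (nat_lit 399) (nat_lit 5) (nat_lit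 400) (nat_lit 5) (nat_lit 365) (nat_lit 350) (nat_lit 185)) (XT.nd (nat_lit 78) (nat_lit 1672) (nat_lit 0) (XT.lf (nat_lit 76) (nat_lit 8619052203) (nat_lit 0) (nat_lit 8335494300) (nat_lit 1824) (nat_lit 6072883815) (nat_lit 377) (nat_lit 5) (nat_lit 376) (nat_lit 5) (nat_lit 400) (nat_lit 5) (nat_lit 366) (nat_lit 350) (nat_lit 184)) (XT.lf (nat_lit 0) (nat_lit 2699621891) (nat_lit 1748) (nat_lit 17093430466) (nat_lit 1824) (nat_lit 3609361145) (nat_lit 354) (nat_lit 5) (nat_lit 377) (nat_lit 5) (nat_lit 378) (nat_lit 5) (nat_lit 367) (nat_lit 350) (nat_lit 183))))))))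
noncomputable def xc123 : XT := (XT.nd (nat_lit 46566) (nat_lit 0) (nat_lit 836) (XT.nd (nat_lit 45786) (nat_lit 0) (nat_lit 4788) (XT.nd (nat_lit 312) (nat_lit 836) (nat_lit 0) (XT.nd (nat_lit 156) (nat_lit 1748) (nat_lit 0) (XT.nd (nat_lit 78) (nat_lit 988) (nat_lit 0) (XT.lf (nat_lit 0) (nat_lit 20455196579) (nat_lit 1748) (nat_lit 2407091464) (nat_lit 1824) (nat_lit 923450834) (nat_lit 354) (nat_lit 5) (nat_lit 377) (nat_lit 5) (nat_lit 378) (nat_lit 5) (nat_lit 368) (nat_lit 350) (nat_lit 182)) (XT.lf (nat_lit 0) (nat_lit 1990585179) (nat_lit 988) (nat_lit 9523986519) (nat_lit 76) (nat_lit 12662322575) (nat_lit 341) (nat_lit 5) (nat_lit 354) (nat_lit 5) (nat_lit 342) (nat_lit 5) (nat_lit 369) (nat_lit 350) (nat_lit 181))) (XT.nd (nat_lit 78) (nat_lit 836) (nat_lit 0) (XT.lf (nat_lit 0) (nat_lit 5091716504) (nat_lit 988) (nat_lit 15873866122) (nat_lit 76) (nat_lit 3611839088) (nat_lit 329) (nat_lit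 5) (nat_lit 342) (nat_lit 5) (nat_lit 330) (nat_lit 5) (nat_lit 370) (nat_lit 350) (nat_lit 180)) (XT.lf (nat_lit 0) (nat_lit 2569472170) (nat_lit 836) (nat_lit 5868135115) (nat_lit 912) (nat_lit 16549326943) (nat_lit 318) (nat_lit 5) (nat_lit 329) (nat_lit 5) (nat_lit 330) (nat_lit 5) (nat_lit 371) (nat_lit 350) (nat_lit 179)))) (XT.nd (nat_lit 45240) (nat_lit 0) (nat_lit 6232) (XT.nd (nat_lit 78) (nat_lit 836) (nat_lit 0) (XT.lf (nat_lit 0) (nat_lit 12048255500) (nat_lit 912) (nat_lit 3693211965) (nat_lit 76) (nat_lit 9663980683) (nat_lit 318) (nat_lit 5) (nat_lit 330) (nat_lit 5) (nat_lit 319) (nat_lit 5) (nat_lit 372) (nat_lit 350) (nat_lit 178)) (XT.lf (nat_lit 0) (nat_lit 15753875666) (nat_lit 836) (nat_lit 148310388) (nat_lit 912) (nat_lit 9931635719) (nat_lit 307) (nat_lit 5) (nat_lit 318) (nat_lit 5) (nat_lit 319) (nat_lit 5) (nat_lit 373) (nat_lit 350) (nat_lit 177))) (XT.nd (nat_lit 78)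 (nat_lit 0) (nat_lit 0) (XT.lf (nat_lit 0) (nat_lit 7224664344) (nat_lit 1748) (nat_lit 1028274556) (nat_lit 1748) (nat_lit 1028274556) (nat_lit 389) (nat_lit 3) (nat_lit 412) (nat_lit 3) (nat_lit 412) (nat_lit 5) (nat_lit 351) (nat_lit 351) (nat_lit 198)) (XT.nd (nat_lit 78) (nat_lit 0) (nat_lit 76) (XT.lf (nat_lit 76) (nat_lit 11029658688) (nat_lit 0) (nat_lit 3984340041) (nat_lit 1748) (nat_lit 3819740400) (nat_lit 390) (nat_lit 5) (nat_lit 389) (nat_lit 3) (nat_lit 412) (nat_lit 5) (nat_lit 352) (nat_lit 351) (nat_lit 197)) (XT.lf (nat_lit 76) (nat_lit 5431127849) (nat_lit 0) (nat_lit 10260853631) (nat_lit 1748) (nat_lit 3419288242) (nat_lit 391) (nat_lit 5) (nat_lit 390) (nat_lit 5) (nat_lit 413) (nat_lit 5) (nat_lit 353) (nat_lit 351) (nat_lit 196)))))) (XT.nd (nat_lit 390) (nat_lit 0) (nat_lit 76) (XT.nd (nat_lit 156) (nat_lit 1596) (nat_lit 0) (XT.nd (nat_lit 78) (nat_lit 0) (nat_lit 0) (XT.lf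 (nat_lit 0) (nat_lit 16476536696) (nat_lit 1672) (nat_lit 275666857) (nat_lit 1748) (nat_lit 2643204295) (nat_lit 391) (nat_lit 5) (nat_lit 413) (nat_lit 5) (nat_lit 414) (nat_lit 5) (nat_lit 354) (nat_lit 351) (nat_lit 195)) (XT.lf (nat_lit 76) (nat_lit 13635341964) (nat_lit 0) (nat_lit 3796262143) (nat_lit 1748) (nat_lit 2253532591) (nat_lit 392) (nat_lit 5) (nat_lit 391) (nat_lit 5) (nat_lit 414) (nat_lit 5) (nat_lit 355) (nat_lit 351) (nat_lit 194))) (XT.nd (nat_lit 78) (nat_lit 1672) (nat_lit 0) (XT.lf (nat_lit 76) (nat_lit 8021178237) (nat_lit 0) (nat_lit 10500212169) (nat_lit 1748) (nat_lit 1460051584) (nat_lit 393) (nat_lit 5) (nat_lit 392) (nat_lit 5) (nat_lit 415) (nat_lit 5) (nat_lit 356) (nat_lit 351) (nat_lit 193)) (XT.nd (nat_lit 78) (nat_lit 1748) (nat_lit 0) (XT.lf (nat_lit 76) (nat_lit 2291454430) (nat_lit 0) (nat_lit 17442474365) (nat_lit 1748) (nat_lit 550912219) (nat_lit 394) (nat_lit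 5) (nat_lit 393) (nat_lit 5) (nat_lit 416) (nat_lit 5) (nat_lit 357) (nat_lit 351) (nat_lit 192)) (XT.lf (nat_lit 0) (nat_lit 522809776) (nat_lit 1748) (nat_lit 3540649725) (nat_lit 1824) (nat_lit 16530990625) (nat_lit 370) (nat_lit 5) (nat_lit 393) (nat_lit 5) (nat_lit 394) (nat_lit 5) (nat_lit 358) (nat_lit 351) (nat_lit 191))))) (XT.nd (nat_lit 156) (nat_lit 0) (nat_lit 76) (XT.nd (nat_lit 78) (nat_lit 0) (nat_lit 76) (XT.lf (nat_lit 0) (nat_lit 1750345143) (nat_lit 1748) (nat_lit 9488893254) (nat_lit 1824) (nat_lit 9671459861) (nat_lit 371) (nat_lit 5) (nat_lit 394) (nat_lit 5) (nat_lit 395) (nat_lit 5) (nat_lit 359) (nat_lit 351) (nat_lit 190)) (XT.lf (nat_lit 0) (nat_lit 3110874930) (nat_lit 1748) (nat_lit 15564828548) (nat_lit 1824) (nat_lit 2558812141) (nat_lit 372) (nat_lit 5) (nat_lit 395) (nat_lit 5) (nat_lit 396) (nat_lit 5) (nat_lit 360) (nat_lit 351) (nat_lit 189))) (XT.nd (nat_lit 78)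 (nat_lit 0) (nat_lit 76) (XT.lf (nat_lit 0) (nat_lit 4643432506) (nat_lit 1748) (nat_lit 235575058) (nat_lit 1824) (nat_lit 16686420699) (nat_lit 372) (nat_lit 5) (nat_lit 395) (nat_lit 5) (nat_lit 396) (nat_lit 5) (nat_lit 361) (nat_lit 351) (nat_lit 188)) (XT.nd (nat_lit 78) (nat_lit 0) (nat_lit 76) (XT.lf (nat_lit 0) (nat_lit 6377111160) (nat_lit 1748) (nat_lit 6211458204) (nat_lit 1824) (nat_lit 9314600893) (nat_lit 373) (nat_lit 5) (nat_lit 396) (nat_lit 5) (nat_lit 397) (nat_lit 5) (nat_lit 362) (nat_lit 351) (nat_lit 187)) (XT.lf (nat_lit 0) (nat_lit 8264332071) (nat_lit 1748) (nat_lit 12319472754) (nat_lit 1824) (nat_lit 1665213761) (nat_lit 374) (nat_lit 5) (nat_lit 397) (nat_lit 5) (nat_lit 398) (nat_lit 5) (nat_lit 363) (nat_lit 351) (nat_lit 186))))))) (XT.nd (nat_lit 45942) (nat_lit 0) (nat_lit 3952) (XT.nd (nat_lit 390) (nat_lit 2736) (nat_lit 0) (XT.nd (nat_lit 156) (nat_lit 1520) (nat_lit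 0) (XT.nd (nat_lit 78) (nat_lit 0) (nat_lit 76) (XT.lf (nat_lit 76) (nat_lit 3997238273) (nat_lit 0) (nat_lit 6355452312) (nat_lit 1824) (nat_lit 12249665936) (nat_lit 375) (nat_lit 5) (nat_lit 374) (nat_lit 5) (nat_lit 398) (nat_lit 5) (nat_lit 364) (nat_lit 351) (nat_lit 185)) (XT.lf (nat_lit 0) (nat_lit 12633839170) (nat_lit 1748) (nat_lit 2053181211) (nat_lit 1824) (nat_lit 8276675873) (nat_lit 375) (nat_lit 5) (nat_lit 398) (nat_lit 5) (nat_lit 399) (nat_lit 5) (nat_lit 365) (nat_lit 351) (nat_lit 184))) (XT.nd (nat_lit 78) (nat_lit 1672) (nat_lit 0) (XT.lf (nat_lit 0) (nat_lit 15116889621) (nat_lit 1748) (nat_lit 8187971038) (nat_lit 1824) (nat_lit 28350484) (nat_lit 376) (nat_lit 5) (nat_lit 399) (nat_lit 5) (nat_lit 400) (nat_lit 5) (nat_lit 366) (nat_lit 351) (nat_lit 183)) (XT.nd (nat_lit 78) (nat_lit 1672) (nat_lit 0) (XT.lf (nat_lit 76) (nat_lit 9190326764) (nat_lit 0) (nat_lit 8648634321)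 (nat_lit 1824) (nat_lit 5871563993) (nat_lit 377) (nat_lit 5) (nat_lit 376) (nat_lit 5) (nat_lit 400) (nat_lit 5) (nat_lit 367) (nat_lit 351) (nat_lit 182)) (XT.lf (nat_lit 0) (nat_lit 3096245960) (nat_lit 1748) (nat_lit 17657082876) (nat_lit 1824) (nat_lit 3343620979) (nat_lit 354) (nat_lit 5) (nat_lit 377) (nat_lit 5) (nat_lit 378) (nat_lit 5) (nat_lit 368) (nat_lit 351) (nat_lit 181))))) (XT.nd (nat_lit 156) (nat_lit 1748) (nat_lit 0) (XT.nd (nat_lit 78) (nat_lit 988) (nat_lit 0) (XT.lf (nat_lit 0) (nat_lit 21375294624) (nat_lit 1748) (nat_lit 2528672651) (nat_lit 1824) (nat_lit 588027174) (nat_lit 354) (nat_lit 5) (nat_lit 377) (nat_lit 5) (nat_lit 378) (nat_lit 5) (nat_lit 369) (nat_lit 351) (nat_lit 180)) (XT.lf (nat_lit 0) (nat_lit 2399935789) (nat_lit 988) (nat_lit 9495885232) (nat_lit 76) (nat_lit 12999196687) (nat_lit 341) (nat_lit 5) (nat_lit 354) (nat_lit 5) (nat_lit 342) (nat_lit 5) (nat_lit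 370) (nat_lit 351) (nat_lit 179))) (XT.nd (nat_lit 78) (nat_lit 836) (nat_lit 0) (XT.lf (nat_lit 0) (nat_lit 5585709574) (nat_lit 988) (nat_lit 16034125869) (nat_lit 76) (nat_lit 3687898915) (nat_lit 329) (nat_lit 5) (nat_lit 342) (nat_lit 5) (nat_lit 330) (nat_lit 5) (nat_lit 371) (nat_lit 351) (nat_lit 178)) (XT.nd (nat_lit 78) (nat_lit 0) (nat_lit 0) (XT.lf (nat_lit 0) (nat_lit 2957386557) (nat_lit 836) (nat_lit 6066669562) (nat_lit 912) (nat_lit 16705639940) (nat_lit 318) (nat_lit 5) (nat_lit 329) (nat_lit 5) (nat_lit 330) (nat_lit 5) (nat_lit 372) (nat_lit 351) (nat_lit 177)) (XT.lf (nat_lit 0) (nat_lit 12733173645) (nat_lit 912) (nat_lit 3495442849) (nat_lit 76) (nat_lit 9932351144) (nat_lit 318) (nat_lit 5) (nat_lit 330) (nat_lit 5) (nat_lit 319) (nat_lit 5) (nat_lit 373) (nat_lit 351) (nat_lit 176)))))) (XT.nd (nat_lit 390) (nat_lit 1444) (nat_lit 0) (XT.nd (nat_lit 156) (nat_lit 0) (nat_lit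 76) (XT.nd (nat_lit 78) (nat_lit 0) (nat_lit 0) (XT.lf (nat_lit 0) (nat_lit 7715066385) (nat_lit 1748) (nat_lit 919473120) (nat_lit 1748) (nat_lit 919473120) (nat_lit 389) (nat_lit 3) (nat_lit 412) (nat_lit 3) (nat_lit 412) (nat_lit 5) (nat_lit 352) (nat_lit 352) (nat_lit 196)) (XT.lf (nat_lit 76) (nat_lit 11635316494) (nat_lit 0) (nat_lit 4362268912) (nat_lit 1748) (nat_lit 3390184130) (nat_lit 390) (nat_lit 5) (nat_lit 389) (nat_lit 3) (nat_lit 412) (nat_lit 5) (nat_lit 353) (nat_lit 352) (nat_lit 195))) (XT.nd (nat_lit 78) (nat_lit 0) (nat_lit 76) (XT.lf (nat_lit 76) (nat_lit 5876826023) (nat_lit 0) (nat_lit 10803759553) (nat_lit 1748) (nat_lit 2993356188) (nat_lit 391) (nat_lit 5) (nat_lit 390) (nat_lit 5) (nat_lit 413) (nat_lit 5) (nat_lit 354) (nat_lit 352) (nat_lit 194)) (XT.nd (nat_lit 78) (nat_lit 0) (nat_lit 0) (XT.lf (nat_lit 76) (nat_lit 2461129) (nat_lit 0) (nat_lit 17469667601) (nat_lit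 1748) (nat_lit 2494815281) (nat_lit 392) (nat_lit 5) (nat_lit 391) (nat_lit 5) (nat_lit 414) (nat_lit 5) (nat_lit 355) (nat_lit 352) (nat_lit 193)) (XT.lf (nat_lit 76) (nat_lit 14326121994) (nat_lit 0) (nat_lit 4116938916) (nat_lit 1748) (nat_lit 1822568305) (nat_lit 392) (nat_lit 5) (nat_lit 391) (nat_lit 5) (nat_lit 414) (nat_lit 5) (nat_lit 356) (nat_lit 352) (nat_lit 192))))) (XT.nd (nat_lit 156) (nat_lit 1672) (nat_lit 0) (XT.nd (nat_lit 78) (nat_lit 0) (nat_lit 76) (XT.lf (nat_lit 76) (nat_lit 8550181963) (nat_lit 0) (nat_lit 11001699200) (nat_lit 1748) (nat_lit 1019224183) (nat_lit 393) (nat_lit 5) (nat_lit 392) (nat_lit 5) (nat_lit 415) (nat_lit 5) (nat_lit 357) (nat_lit 352) (nat_lit 191)) (XT.lf (nat_lit 76) (nat_lit 2654700357) (nat_lit 0) (nat_lit 18133001404) (nat_lit 1748) (nat_lit 96174698) (nat_lit 394) (nat_lit 5) (nat_lit 393) (nat_lit 5) (nat_lit 416) (nat_lit 5) (nat_lit 358) (nat_lit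 352) (nat_lit 190))) (XT.nd (nat_lit 78) (nat_lit 0) (nat_lit 76) (XT.lf (nat_lit 0) (nat_lit 990032092) (nat_lit 1748) (nat_lit 3354682504) (nat_lit 1824) (nat_lit 16858276821) (nat_lit 370) (nat_lit 5) (nat_lit 393) (nat_lit 5) (nat_lit 394) (nat_lit 5) (nat_lit 359) (nat_lit 352) (nat_lit 189)) (XT.nd (nat_lit 78) (nat_lit 0) (nat_lit 76) (XT.lf (nat_lit 0) (nat_lit 2242116100) (nat_lit 1748) (nat_lit 9476062708) (nat_lit 1824) (nat_lit 9810801349) (nat_lit 371) (nat_lit 5) (nat_lit 394) (nat_lit 5) (nat_lit 395) (nat_lit 5) (nat_lit 360) (nat_lit 352) (nat_lit 188)) (XT.lf (nat_lit 0) (nat_lit 3631686966) (nat_lit 1748) (nat_lit 15729407792) (nat_lit 1824) (nat_lit 2501660170) (nat_lit 372) (nat_lit 5) (nat_lit 395) (nat_lit 5) (nat_lit 396) (nat_lit 5) (nat_lit 361) (nat_lit 352) (nat_lit 187))))))))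
noncomputable def xc124 : XT := (XT.nd (nat_lit 46722) (nat_lit 0) (nat_lit 1748) (XT.nd (nat_lit 702) (nat_lit 2736) (nat_lit 0) (XT.nd (nat_lit 312) (nat_lit 1368) (nat_lit 0) (XT.nd (nat_lit 156) (nat_lit 0) (nat_lit 152) (XT.nd (nat_lit 78) (nat_lit 0) (nat_lit 76) (XT.lf (nat_lit 76) (nat_lit 51593191) (nat_lit 0) (nat_lit 5146512013) (nat_lit 1824) (nat_lit 17005739246) (nat_lit 373) (nat_lit 5) (nat_lit 372) (nat_lit 5) (nat_lit 396) (nat_lit 5) (nat_lit 362) (nat_lit 352) (nat_lit 186)) (XT.lf (nat_lit 0) (nat_lit 6972492594) (nat_lit 1748) (nat_lit 6099923707) (nat_lit 1824) (nat_lit 9479535404) (nat_lit 373) (nat_lit 5) (nat_lit 396) (nat_lit 5) (nat_lit 397) (nat_lit 5) (nat_lit 363) (nat_lit 352) (nat_lit 185))) (XT.nd (nat_lit 78) (nat_lit 0) (nat_lit 0) (XT.lf (nat_lit 0) (nat_lit 8905807031) (nat_lit 1748) (nat_lit 12387245074) (nat_lit 1824) (nat_lit 1615340607) (nat_lit 374) (nat_lit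 5) (nat_lit 397) (nat_lit 5) (nat_lit 398) (nat_lit 5) (nat_lit 364) (nat_lit 352) (nat_lit 184)) (XT.lf (nat_lit 76) (nat_lit 4414070745) (nat_lit 0) (nat_lit 6633210851) (nat_lit 1824) (nat_lit 12225246452) (nat_lit 375) (nat_lit 5) (nat_lit 374) (nat_lit 5) (nat_lit 398) (nat_lit 5) (nat_lit 365) (nat_lit 352) (nat_lit 183)))) (XT.nd (nat_lit 156) (nat_lit 1596) (nat_lit 0) (XT.nd (nat_lit 78) (nat_lit 0) (nat_lit 0) (XT.lf (nat_lit 0) (nat_lit 13385130865) (nat_lit 1748) (nat_lit 1818291238) (nat_lit 1824) (nat_lit 8441526923) (nat_lit 375) (nat_lit 5) (nat_lit 398) (nat_lit 5) (nat_lit 399) (nat_lit 5) (nat_lit 366) (nat_lit 352) (nat_lit 182)) (XT.lf (nat_lit 76) (nat_lit 15891468549) (nat_lit 0) (nat_lit 42062912) (nat_lit 1824) (nat_lit 8092206920) (nat_lit 376) (nat_lit 5) (nat_lit 375) (nat_lit 5) (nat_lit 399) (nat_lit 5) (nat_lit 367) (nat_lit 352) (nat_lit 181))) (XT.nd (nat_lit 78) (nat_lit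 1672) (nat_lit 0) (XT.lf (nat_lit 76) (nat_lit 9760789132) (nat_lit 0) (nat_lit 8967547769) (nat_lit 1824) (nat_lit 5686219408) (nat_lit 377) (nat_lit 5) (nat_lit 376) (nat_lit 5) (nat_lit 400) (nat_lit 5) (nat_lit 368) (nat_lit 352) (nat_lit 180)) (XT.nd (nat_lit 78) (nat_lit 0) (nat_lit 0) (XT.lf (nat_lit 0) (nat_lit 3486649987) (nat_lit 1748) (nat_lit 18234725890) (nat_lit 1824) (nat_lit 3091378943) (nat_lit 354) (nat_lit 5) (nat_lit 377) (nat_lit 5) (nat_lit 378) (nat_lit 5) (nat_lit 369) (nat_lit 352) (nat_lit 179)) (XT.lf (nat_lit 0) (nat_lit 22305404577) (nat_lit 1748) (nat_lit 2651067323) (nat_lit 1824) (nat_lit 263385790) (nat_lit 354) (nat_lit 5) (nat_lit 377) (nat_lit 5) (nat_lit 378) (nat_lit 5) (nat_lit 370) (nat_lit 352) (nat_lit 178)))))) (XT.nd (nat_lit 45630) (nat_lit 0) (nat_lit 3952) (XT.nd (nat_lit 156) (nat_lit 836) (nat_lit 0) (XT.nd (nat_lit 78) (nat_lit 912) (nat_lit 0) (XT.lf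 (nat_lit 0) (nat_lit 2801496549) (nat_lit 988) (nat_lit 9484955510) (nat_lit 76) (nat_lit 13348645144) (nat_lit 341) (nat_lit 5) (nat_lit 354) (nat_lit 5) (nat_lit 342) (nat_lit 5) (nat_lit 371) (nat_lit 352) (nat_lit 177)) (XT.lf (nat_lit 0) (nat_lit 6074933774) (nat_lit 988) (nat_lit 16217330589) (nat_lit 76) (nat_lit 3768094422) (nat_lit 329) (nat_lit 5) (nat_lit 342) (nat_lit 5) (nat_lit 330) (nat_lit 5) (nat_lit 372) (nat_lit 352) (nat_lit 176))) (XT.nd (nat_lit 45318) (nat_lit 0) (nat_lit 5396) (XT.lf (nat_lit 0) (nat_lit 3339095450) (nat_lit 836) (nat_lit 6269869002) (nat_lit 912) (nat_lit 16886169294) (nat_lit 318) (nat_lit 5) (nat_lit 329) (nat_lit 5) (nat_lit 330) (nat_lit 5) (nat_lit 373) (nat_lit 352) (nat_lit 175)) (XT.nd (nat_lit 78) (nat_lit 0) (nat_lit 0) (XT.lf (nat_lit 0) (nat_lit 8204471162) (nat_lit 1748) (nat_lit 815424103) (nat_lit 1748) (nat_lit 815424103) (nat_lit 389) (nat_lit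 3) (nat_lit 412) (nat_lit 3) (nat_lit 412) (nat_lit 5) (nat_lit 353) (nat_lit 353) (nat_lit 194)) (XT.lf (nat_lit 76) (nat_lit 12243371224) (nat_lit 0) (nat_lit 4736702508) (nat_lit 1748) (nat_lit 2978977521) (nat_lit 390) (nat_lit 5) (nat_lit 389) (nat_lit 3) (nat_lit 412) (nat_lit 5) (nat_lit 354) (nat_lit 353) (nat_lit 193))))) (XT.nd (nat_lit 156) (nat_lit 1520) (nat_lit 0) (XT.nd (nat_lit 78) (nat_lit 0) (nat_lit 76) (XT.lf (nat_lit 76) (nat_lit 6319663312) (nat_lit 0) (nat_lit 11349458080) (nat_lit 1748) (nat_lit 2584984848) (nat_lit 391) (nat_lit 5) (nat_lit 390) (nat_lit 5) (nat_lit 413) (nat_lit 5) (nat_lit 355) (nat_lit 353) (nat_lit 192)) (XT.lf (nat_lit 76) (nat_lit 276049304) (nat_lit 0) (nat_lit 18194523559) (nat_lit 1748) (nat_lit 2085610940) (nat_lit 392) (nat_lit 5) (nat_lit 391) (nat_lit 5) (nat_lit 414) (nat_lit 5) (nat_lit 356) (nat_lit 353) (nat_lit 191))) (XT.nd (nat_lit 78)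 (nat_lit 1596) (nat_lit 0) (XT.lf (nat_lit 76) (nat_lit 15021453558) (nat_lit 0) (nat_lit 4435365462) (nat_lit 1748) (nat_lit 1407295063) (nat_lit 392) (nat_lit 5) (nat_lit 391) (nat_lit 5) (nat_lit 414) (nat_lit 5) (nat_lit 357) (nat_lit 353) (nat_lit 190)) (XT.nd (nat_lit 78) (nat_lit 1672) (nat_lit 0) (XT.lf (nat_lit 76) (nat_lit 9078502276) (nat_lit 0) (nat_lit 11507526089) (nat_lit 1748) (nat_lit 592991645) (nat_lit 393) (nat_lit 5) (nat_lit 392) (nat_lit 5) (nat_lit 415) (nat_lit 5) (nat_lit 358) (nat_lit 353) (nat_lit 189)) (XT.lf (nat_lit 0) (nat_lit 340625678) (nat_lit 1748) (nat_lit 18491731802) (nat_lit 1824) (nat_lit 2669026569) (nat_lit 370) (nat_lit 5) (nat_lit 393) (nat_lit 5) (nat_lit 394) (nat_lit 5) (nat_lit 359) (nat_lit 353) (nat_lit 188))))))) (XT.nd (nat_lit 702) (nat_lit 2204) (nat_lit 0) (XT.nd (nat_lit 312) (nat_lit 0) (nat_lit 228) (XT.nd (nat_lit 156) (nat_lit 0) (nat_lit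 152) (XT.nd (nat_lit 78) (nat_lit 0) (nat_lit 76) (XT.lf (nat_lit 0) (nat_lit 1445350948) (nat_lit 1748) (nat_lit 3179908978) (nat_lit 1824) (nat_lit 17205062430) (nat_lit 370) (nat_lit 5) (nat_lit 393) (nat_lit 5) (nat_lit 394) (nat_lit 5) (nat_lit 360) (nat_lit 353) (nat_lit 187)) (XT.lf (nat_lit 0) (nat_lit 2723424829) (nat_lit 1748) (nat_lit 9479924809) (nat_lit 1824) (nat_lit 9962979751) (nat_lit 371) (nat_lit 5) (nat_lit 394) (nat_lit 5) (nat_lit 395) (nat_lit 5) (nat_lit 361) (nat_lit 353) (nat_lit 186))) (XT.nd (nat_lit 78) (nat_lit 0) (nat_lit 0) (XT.lf (nat_lit 0) (nat_lit 4143583930) (nat_lit 1748) (nat_lit 15916281436) (nat_lit 1824) (nat_lit 2450480985) (nat_lit 372) (nat_lit 5) (nat_lit 395) (nat_lit 5) (nat_lit 396) (nat_lit 5) (nat_lit 362) (nat_lit 353) (nat_lit 185)) (XT.lf (nat_lit 76) (nat_lit 333525651) (nat_lit 0) (nat_lit 5413553206) (nat_lit 1824) (nat_lit 17114794785) (nat_lit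 373) (nat_lit 5) (nat_lit 372) (nat_lit 5) (nat_lit 396) (nat_lit 5) (nat_lit 363) (nat_lit 353) (nat_lit 184)))) (XT.nd (nat_lit 156) (nat_lit 0) (nat_lit 76) (XT.nd (nat_lit 78) (nat_lit 0) (nat_lit 76) (XT.lf (nat_lit 0) (nat_lit 7562540309) (nat_lit 1748) (nat_lit 6002142605) (nat_lit 1824) (nat_lit 9655990920) (nat_lit 373) (nat_lit 5) (nat_lit 396) (nat_lit 5) (nat_lit 397) (nat_lit 5) (nat_lit 364) (nat_lit 353) (nat_lit 183)) (XT.lf (nat_lit 0) (nat_lit 9543935146) (nat_lit 1748) (nat_lit 12474375799) (nat_lit 1824) (nat_lit 1569701884) (nat_lit 374) (nat_lit 5) (nat_lit 397) (nat_lit 5) (nat_lit 398) (nat_lit 5) (nat_lit 365) (nat_lit 353) (nat_lit 182))) (XT.nd (nat_lit 78) (nat_lit 0) (nat_lit 76) (XT.lf (nat_lit 76) (nat_lit 4826364037) (nat_lit 0) (nat_lit 6914302538) (nat_lit 1824) (nat_lit 12222591590) (nat_lit 375) (nat_lit 5) (nat_lit 374) (nat_lit 5) (nat_lit 398) (nat_lit 5) (nat_lit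 366) (nat_lit 353) (nat_lit 181)) (XT.nd (nat_lit 78) (nat_lit 0) (nat_lit 0) (XT.lf (nat_lit 0) (nat_lit 14137591115) (nat_lit 1748) (nat_lit 1593374042) (nat_lit 1824) (nat_lit 8616113831) (nat_lit 375) (nat_lit 5) (nat_lit 398) (nat_lit 5) (nat_lit 399) (nat_lit 5) (nat_lit 367) (nat_lit 353) (nat_lit 180)) (XT.lf (nat_lit 76) (nat_lit 16643144536) (nat_lit 0) (nat_lit 110863661) (nat_lit 1824) (nat_lit 7985458374) (nat_lit 376) (nat_lit 5) (nat_lit 375) (nat_lit 5) (nat_lit 399) (nat_lit 5) (nat_lit 368) (nat_lit 353) (nat_lit 179)))))) (XT.nd (nat_lit 45786) (nat_lit 0) (nat_lit 3648) (XT.nd (nat_lit 156) (nat_lit 988) (nat_lit 0) (XT.nd (nat_lit 78) (nat_lit 1672) (nat_lit 0) (XT.lf (nat_lit 76) (nat_lit 10331445367) (nat_lit 0) (nat_lit 9292615694) (nat_lit 1824) (nat_lit 5516065577) (nat_lit 377) (nat_lit 5) (nat_lit 376) (nat_lit 5) (nat_lit 400) (nat_lit 5) (nat_lit 369) (nat_lit 353) (nat_lit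 178)) (XT.lf (nat_lit 0) (nat_lit 3871687462) (nat_lit 1748) (nat_lit 18826946786) (nat_lit 1824) (nat_lit 2851807497) (nat_lit 354) (nat_lit 5) (nat_lit 377) (nat_lit 5) (nat_lit 378) (nat_lit 5) (nat_lit 370) (nat_lit 353) (nat_lit 177))) (XT.nd (nat_lit 78) (nat_lit 912) (nat_lit 0) (XT.lf (nat_lit 0) (nat_lit 50673018) (nat_lit 1824) (nat_lit 2723449504) (nat_lit 76) (nat_lit 23195823533) (nat_lit 353) (nat_lit 5) (nat_lit 377) (nat_lit 5) (nat_lit 354) (nat_lit 5) (nat_lit 371) (nat_lit 353) (nat_lit 176)) (XT.nd (nat_lit 45474) (nat_lit 0) (nat_lit 3648) (XT.lf (nat_lit 0) (nat_lit 3196185886) (nat_lit 988) (nat_lit 9490678387) (nat_lit 76) (nat_lit 13710903495) (nat_lit 341) (nat_lit 5) (nat_lit 354) (nat_lit 5) (nat_lit 342) (nat_lit 5) (nat_lit 372) (nat_lit 353) (nat_lit 175)) (XT.lf (nat_lit 0) (nat_lit 8693750538) (nat_lit 1748) (nat_lit 715809901) (nat_lit 1748) (nat_lit 715809901) (nat_lit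 389) (nat_lit 3) (nat_lit 412) (nat_lit 3) (nat_lit 412) (nat_lit 5) (nat_lit 354) (nat_lit 354) (nat_lit 192))))) (XT.nd (nat_lit 156) (nat_lit 0) (nat_lit 152) (XT.nd (nat_lit 78) (nat_lit 0) (nat_lit 76) (XT.lf (nat_lit 76) (nat_lit 12854800211) (nat_lit 0) (nat_lit 5108387455) (nat_lit 1748) (nat_lit 2584877968) (nat_lit 390) (nat_lit 5) (nat_lit 389) (nat_lit 3) (nat_lit 412) (nat_lit 5) (nat_lit 355) (nat_lit 354) (nat_lit 191)) (XT.lf (nat_lit 76) (nat_lit 6760485663) (nat_lit 0) (nat_lit 11898807635) (nat_lit 1748) (nat_lit 2192959481) (nat_lit 391) (nat_lit 5) (nat_lit 390) (nat_lit 5) (nat_lit 413) (nat_lit 5) (nat_lit 356) (nat_lit 354) (nat_lit 190))) (XT.nd (nat_lit 78) (nat_lit 0) (nat_lit 0) (XT.lf (nat_lit 76) (nat_lit 542144283) (nat_lit 0) (nat_lit 18929600410) (nat_lit 1748) (nat_lit 1691916850) (nat_lit 392) (nat_lit 5) (nat_lit 391) (nat_lit 5) (nat_lit 414) (nat_lit 5) (nat_lit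 357) (nat_lit 354) (nat_lit 189)) (XT.nd (nat_lit 78) (nat_lit 0) (nat_lit 76) (XT.lf (nat_lit 76) (nat_lit 15722401533) (nat_lit 0) (nat_lit 4752155692) (nat_lit 1748) (nat_lit 1006540693) (nat_lit 392) (nat_lit 5) (nat_lit 391) (nat_lit 5) (nat_lit 414) (nat_lit 5) (nat_lit 358) (nat_lit 354) (nat_lit 188)) (XT.lf (nat_lit 76) (nat_lit 9607068914) (nat_lit 0) (nat_lit 12018437527) (nat_lit 1748) (nat_lit 180194850) (nat_lit 393) (nat_lit 5) (nat_lit 392) (nat_lit 5) (nat_lit 415) (nat_lit 5) (nat_lit 359) (nat_lit 354) (nat_lit 187))))))))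
noncomputable def xc125 : XT := (XT.nd (nat_lit 46956) (nat_lit 0) (nat_lit 76) (XT.nd (nat_lit 702) (nat_lit 1292) (nat_lit 0) (XT.nd (nat_lit 312) (nat_lit 0) (nat_lit 152) (XT.nd (nat_lit 156) (nat_lit 0) (nat_lit 76) (XT.nd (nat_lit 78) (nat_lit 0) (nat_lit 0) (XT.lf (nat_lit 0) (nat_lit 764065704) (nat_lit 1748) (nat_lit 18779091522) (nat_lit 1824) (nat_lit 2594764653) (nat_lit 370) (nat_lit 5) (nat_lit 393) (nat_lit 5) (nat_lit 394) (nat_lit 5) (nat_lit 360) (nat_lit 354) (nat_lit 186)) (XT.lf (nat_lit 0) (nat_lit 1889897161) (nat_lit 1748) (nat_lit 3015702137) (nat_lit 1824) (nat_lit 17571376717) (nat_lit 370) (nat_lit 5) (nat_lit 393) (nat_lit 5) (nat_lit 394) (nat_lit 5) (nat_lit 361) (nat_lit 354) (nat_lit 185))) (XT.nd (nat_lit 78) (nat_lit 0) (nat_lit 76) (XT.lf (nat_lit 0) (nat_lit 3195404929) (nat_lit 1748) (nat_lit 9500000016) (nat_lit 1824) (nat_lit 10127883246) (nat_lit 371) (nat_lit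 5) (nat_lit 394) (nat_lit 5) (nat_lit 395) (nat_lit 5) (nat_lit 362) (nat_lit 354) (nat_lit 184)) (XT.lf (nat_lit 0) (nat_lit 4647707034) (nat_lit 1748) (nat_lit 16125121948) (nat_lit 1824) (nat_lit 2405012484) (nat_lit 372) (nat_lit 5) (nat_lit 395) (nat_lit 5) (nat_lit 396) (nat_lit 5) (nat_lit 363) (nat_lit 354) (nat_lit 183)))) (XT.nd (nat_lit 156) (nat_lit 0) (nat_lit 152) (XT.nd (nat_lit 78) (nat_lit 0) (nat_lit 76) (XT.lf (nat_lit 76) (nat_lit 607820857) (nat_lit 0) (nat_lit 5682139304) (nat_lit 1824) (nat_lit 17250147726) (nat_lit 373) (nat_lit 5) (nat_lit 372) (nat_lit 5) (nat_lit 396) (nat_lit 5) (nat_lit 364) (nat_lit 354) (nat_lit 182)) (XT.lf (nat_lit 0) (nat_lit 8148425790) (nat_lit 1748) (nat_lit 5917545923) (nat_lit 1824) (nat_lit 9843935757) (nat_lit 373) (nat_lit 5) (nat_lit 396) (nat_lit 5) (nat_lit 397) (nat_lit 5) (nat_lit 365) (nat_lit 354) (nat_lit 181))) (XT.nd (nat_lit 78)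 (nat_lit 0) (nat_lit 0) (XT.lf (nat_lit 0) (nat_lit 10179912834) (nat_lit 1748) (nat_lit 12580451142) (nat_lit 1824) (nat_lit 1528095664) (nat_lit 374) (nat_lit 5) (nat_lit 397) (nat_lit 5) (nat_lit 398) (nat_lit 5) (nat_lit 366) (nat_lit 354) (nat_lit 180)) (XT.nd (nat_lit 78) (nat_lit 0) (nat_lit 76) (XT.lf (nat_lit 76) (nat_lit 5234960378) (nat_lit 0) (nat_lit 7199114367) (nat_lit 1824) (nat_lit 12241062857) (nat_lit 375) (nat_lit 5) (nat_lit 374) (nat_lit 5) (nat_lit 398) (nat_lit 5) (nat_lit 367) (nat_lit 354) (nat_lit 179)) (XT.lf (nat_lit 0) (nat_lit 14892481714) (nat_lit 1748) (nat_lit 1377751818) (nat_lit 1824) (nat_lit 8800453689) (nat_lit 375) (nat_lit 5) (nat_lit 398) (nat_lit 5) (nat_lit 399) (nat_lit 5) (nat_lit 368) (nat_lit 354) (nat_lit 178)))))) (XT.nd (nat_lit 45864) (nat_lit 0) (nat_lit 1216) (XT.nd (nat_lit 156) (nat_lit 1672) (nat_lit 0) (XT.nd (nat_lit 78) (nat_lit 0) (nat_lit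 76) (XT.lf (nat_lit 76) (nat_lit 17401588586) (nat_lit 0) (nat_lit 177851425) (nat_lit 1824) (nat_lit 7895570948) (nat_lit 376) (nat_lit 5) (nat_lit 375) (nat_lit 5) (nat_lit 399) (nat_lit 5) (nat_lit 369) (nat_lit 354) (nat_lit 177)) (XT.lf (nat_lit 76) (nat_lit 10903272564) (nat_lit 0) (nat_lit 9624218645) (nat_lit 1824) (nat_lit 5360367024) (nat_lit 377) (nat_lit 5) (nat_lit 376) (nat_lit 5) (nat_lit 400) (nat_lit 5) (nat_lit 370) (nat_lit 354) (nat_lit 176))) (XT.nd (nat_lit 78) (nat_lit 76) (nat_lit 0) (XT.lf (nat_lit 0) (nat_lit 4252177774) (nat_lit 1748) (nat_lit 19434340842) (nat_lit 1824) (nat_lit 2624125023) (nat_lit 354) (nat_lit 5) (nat_lit 377) (nat_lit 5) (nat_lit 378) (nat_lit 5) (nat_lit 371) (nat_lit 354) (nat_lit 175)) (XT.nd (nat_lit 45552) (nat_lit 0) (nat_lit 2736) (XT.lf (nat_lit 0) (nat_lit 352318008) (nat_lit 1824) (nat_lit 2544359488) (nat_lit 76) (nat_lit 23846199918) (nat_lit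 353) (nat_lit 5) (nat_lit 377) (nat_lit 5) (nat_lit 354) (nat_lit 5) (nat_lit 372) (nat_lit 354) (nat_lit 174)) (XT.lf (nat_lit 0) (nat_lit 9183750763) (nat_lit 1748) (nat_lit 620329795) (nat_lit 1748) (nat_lit 620329795) (nat_lit 389) (nat_lit 3) (nat_lit 412) (nat_lit 3) (nat_lit 412) (nat_lit 5) (nat_lit 355) (nat_lit 355) (nat_lit 190))))) (XT.nd (nat_lit 156) (nat_lit 1520) (nat_lit 0) (XT.nd (nat_lit 78) (nat_lit 0) (nat_lit 76) (XT.lf (nat_lit 76) (nat_lit 13470558129) (nat_lit 0) (nat_lit 5478043896) (nat_lit 1748) (nat_lit 2206708520) (nat_lit 390) (nat_lit 5) (nat_lit 389) (nat_lit 3) (nat_lit 412) (nat_lit 5) (nat_lit 356) (nat_lit 355) (nat_lit 189)) (XT.lf (nat_lit 76) (nat_lit 7200110915) (nat_lit 0) (nat_lit 12452647925) (nat_lit 1748) (nat_lit 1816128873) (nat_lit 391) (nat_lit 5) (nat_lit 390) (nat_lit 5) (nat_lit 413) (nat_lit 5) (nat_lit 357) (nat_lit 355) (nat_lit 188))) (XT.nd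 (nat_lit 78) (nat_lit 1672) (nat_lit 0) (XT.lf (nat_lit 76) (nat_lit 801422561) (nat_lit 0) (nat_lit 19675866351) (nat_lit 1748) (nat_lit 1312603266) (nat_lit 392) (nat_lit 5) (nat_lit 391) (nat_lit 5) (nat_lit 414) (nat_lit 5) (nat_lit 358) (nat_lit 355) (nat_lit 187)) (XT.nd (nat_lit 78) (nat_lit 1672) (nat_lit 0) (XT.lf (nat_lit 76) (nat_lit 16430009453) (nat_lit 0) (nat_lit 5067902817) (nat_lit 1748) (nat_lit 619192167) (nat_lit 392) (nat_lit 5) (nat_lit 391) (nat_lit 5) (nat_lit 414) (nat_lit 5) (nat_lit 359) (nat_lit 355) (nat_lit 186)) (XT.lf (nat_lit 0) (nat_lit 217379558) (nat_lit 1748) (nat_lit 12316326985) (nat_lit 1824) (nat_lit 9917946669) (nat_lit 369) (nat_lit 5) (nat_lit 392) (nat_lit 5) (nat_lit 393) (nat_lit 5) (nat_lit 360) (nat_lit 355) (nat_lit 185))))))) (XT.nd (nat_lit 780) (nat_lit 1216) (nat_lit 0) (XT.nd (nat_lit 390) (nat_lit 0) (nat_lit 228) (XT.nd (nat_lit 156) (nat_lit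 0) (nat_lit 76) (XT.nd (nat_lit 78) (nat_lit 0) (nat_lit 0) (XT.lf (nat_lit 0) (nat_lit 1176488340) (nat_lit 1748) (nat_lit 19090421442) (nat_lit 1824) (nat_lit 2527134208) (nat_lit 370) (nat_lit 5) (nat_lit 393) (nat_lit 5) (nat_lit 394) (nat_lit 5) (nat_lit 361) (nat_lit 355) (nat_lit 184)) (XT.lf (nat_lit 0) (nat_lit 2324750061) (nat_lit 1748) (nat_lit 2861471428) (nat_lit 1824) (nat_lit 17957281723) (nat_lit 370) (nat_lit 5) (nat_lit 393) (nat_lit 5) (nat_lit 394) (nat_lit 5) (nat_lit 362) (nat_lit 355) (nat_lit 183))) (XT.nd (nat_lit 78) (nat_lit 0) (nat_lit 76) (XT.lf (nat_lit 0) (nat_lit 3659140915) (nat_lit 1748) (nat_lit 9535850675) (nat_lit 1824) (nat_lit 10305425185) (nat_lit 371) (nat_lit 5) (nat_lit 394) (nat_lit 5) (nat_lit 395) (nat_lit 5) (nat_lit 363) (nat_lit 355) (nat_lit 182)) (XT.nd (nat_lit 78) (nat_lit 0) (nat_lit 0) (XT.lf (nat_lit 0) (nat_lit 5145150862) (nat_lit 1748) (nat_lit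 16355649166) (nat_lit 1824) (nat_lit 2365010036) (nat_lit 372) (nat_lit 5) (nat_lit 395) (nat_lit 5) (nat_lit 396) (nat_lit 5) (nat_lit 364) (nat_lit 355) (nat_lit 181)) (XT.lf (nat_lit 76) (nat_lit 875173626) (nat_lit 0) (nat_lit 5952687846) (nat_lit 1824) (nat_lit 17411265220) (nat_lit 373) (nat_lit 5) (nat_lit 372) (nat_lit 5) (nat_lit 396) (nat_lit 5) (nat_lit 365) (nat_lit 355) (nat_lit 180))))) (XT.nd (nat_lit 156) (nat_lit 0) (nat_lit 76) (XT.nd (nat_lit 78) (nat_lit 0) (nat_lit 76) (XT.lf (nat_lit 0) (nat_lit 8731279236) (nat_lit 1748) (nat_lit 5845603962) (nat_lit 1824) (nat_lit 10043358937) (nat_lit 373) (nat_lit 5) (nat_lit 396) (nat_lit 5) (nat_lit 397) (nat_lit 5) (nat_lit 366) (nat_lit 355) (nat_lit 179)) (XT.lf (nat_lit 0) (nat_lit 10814897959) (nat_lit 1748) (nat_lit 12705101992) (nat_lit 1824) (nat_lit 1490332843) (nat_lit 374) (nat_lit 5) (nat_lit 397) (nat_lit 5) (nat_lit 398) (nat_lit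 5) (nat_lit 367) (nat_lit 355) (nat_lit 178))) (XT.nd (nat_lit 78) (nat_lit 0) (nat_lit 76) (XT.lf (nat_lit 76) (nat_lit 5640671099) (nat_lit 0) (nat_lit 7488028463) (nat_lit 1824) (nat_lit 12280076738) (nat_lit 375) (nat_lit 5) (nat_lit 374) (nat_lit 5) (nat_lit 398) (nat_lit 5) (nat_lit 368) (nat_lit 355) (nat_lit 177)) (XT.nd (nat_lit 78) (nat_lit 0) (nat_lit 0) (XT.lf (nat_lit 0) (nat_lit 15651031889) (nat_lit 1748) (nat_lit 1170782510) (nat_lit 1824) (nat_lit 8994579887) (nat_lit 375) (nat_lit 5) (nat_lit 398) (nat_lit 5) (nat_lit 399) (nat_lit 5) (nat_lit 369) (nat_lit 355) (nat_lit 176)) (XT.lf (nat_lit 76) (nat_lit 18167909703) (nat_lit 0) (nat_lit 243194371) (nat_lit 1824) (nat_lit 7821898745) (nat_lit 376) (nat_lit 5) (nat_lit 375) (nat_lit 5) (nat_lit 399) (nat_lit 5) (nat_lit 370) (nat_lit 355) (nat_lit 175)))))) (XT.nd (nat_lit 45942) (nat_lit 0) (nat_lit 1140) (XT.nd (nat_lit 45708)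 (nat_lit 0) (nat_lit 2660) (XT.nd (nat_lit 78) (nat_lit 1672) (nat_lit 0) (XT.lf (nat_lit 76) (nat_lit 11477221373) (nat_lit 0) (nat_lit 9962737344) (nat_lit 1824) (nat_lit 5218434591) (nat_lit 377) (nat_lit 5) (nat_lit 376) (nat_lit 5) (nat_lit 400) (nat_lit 5) (nat_lit 371) (nat_lit 355) (nat_lit 174)) (XT.lf (nat_lit 0) (nat_lit 4628908617) (nat_lit 1748) (nat_lit 20057512130) (nat_lit 1824) (nat_lit 2407593142) (nat_lit 354) (nat_lit 5) (nat_lit 377) (nat_lit 5) (nat_lit 378) (nat_lit 5) (nat_lit 372) (nat_lit 355) (nat_lit 173))) (XT.nd (nat_lit 78) (nat_lit 0) (nat_lit 0) (XT.lf (nat_lit 0) (nat_lit 9675294683) (nat_lit 1748) (nat_lit 528698948) (nat_lit 1748) (nat_lit 528698948) (nat_lit 389) (nat_lit 3) (nat_lit 412) (nat_lit 3) (nat_lit 412) (nat_lit 5) (nat_lit 356) (nat_lit 356) (nat_lit 188)) (XT.nd (nat_lit 78) (nat_lit 0) (nat_lit 76) (XT.lf (nat_lit 76) (nat_lit 14091579306) (nat_lit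 0) (nat_lit 5846367509) (nat_lit 1748) (nat_lit 1843353939) (nat_lit 390) (nat_lit 5) (nat_lit 389) (nat_lit 3) (nat_lit 412) (nat_lit 5) (nat_lit 357) (nat_lit 356) (nat_lit 187)) (XT.lf (nat_lit 76) (nat_lit 7639331022) (nat_lit 0) (nat_lit 13011801932) (nat_lit 1748) (nat_lit 1453401511) (nat_lit 391) (nat_lit 5) (nat_lit 390) (nat_lit 5) (nat_lit 413) (nat_lit 5) (nat_lit 358) (nat_lit 356) (nat_lit 186))))) (XT.nd (nat_lit 156) (nat_lit 1672) (nat_lit 0) (XT.nd (nat_lit 78) (nat_lit 0) (nat_lit 0) (XT.lf (nat_lit 76) (nat_lit 1054529192) (nat_lit 0) (nat_lit 20434280647) (nat_lit 1748) (nat_lit 946598115) (nat_lit 392) (nat_lit 5) (nat_lit 391) (nat_lit 5) (nat_lit 414) (nat_lit 5) (nat_lit 359) (nat_lit 356) (nat_lit 185)) (XT.lf (nat_lit 76) (nat_lit 17145301925) (nat_lit 0) (nat_lit 5383180975) (nat_lit 1748) (nat_lit 244191962) (nat_lit 392) (nat_lit 5) (nat_lit 391) (nat_lit 5) (nat_lit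 414) (nat_lit 5) (nat_lit 360) (nat_lit 356) (nat_lit 184))) (XT.nd (nat_lit 78) (nat_lit 0) (nat_lit 76) (XT.lf (nat_lit 0) (nat_lit 601454030) (nat_lit 1748) (nat_lit 12452939689) (nat_lit 1824) (nat_lit 10063039064) (nat_lit 369) (nat_lit 5) (nat_lit 392) (nat_lit 5) (nat_lit 393) (nat_lit 5) (nat_lit 361) (nat_lit 356) (nat_lit 183)) (XT.nd (nat_lit 78) (nat_lit 0) (nat_lit 0) (XT.lf (nat_lit 0) (nat_lit 1578924724) (nat_lit 1748) (nat_lit 19425559549) (nat_lit 1824) (nat_lit 2465825617) (nat_lit 370) (nat_lit 5) (nat_lit 393) (nat_lit 5) (nat_lit 394) (nat_lit 5) (nat_lit 362) (nat_lit 356) (nat_lit 182)) (XT.lf (nat_lit 0) (nat_lit 2750940848) (nat_lit 1748) (nat_lit 2716660681) (nat_lit 1824) (nat_lit 18362871421) (nat_lit 370) (nat_lit 5) (nat_lit 393) (nat_lit 5) (nat_lit 394) (nat_lit 5) (nat_lit 363) (nat_lit 356) (nat_lit 181))))))))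
noncomputable def xc126 : XT := (XT.nd (nat_lit 47268) (nat_lit 0) (nat_lit 0) (XT.nd (nat_lit 46488) (nat_lit 228) (nat_lit 0) (XT.nd (nat_lit 312) (nat_lit 0) (nat_lit 228) (XT.nd (nat_lit 156) (nat_lit 0) (nat_lit 76) (XT.nd (nat_lit 78) (nat_lit 0) (nat_lit 76) (XT.lf (nat_lit 0) (nat_lit 4115671518) (nat_lit 1748) (nat_lit 9587079044) (nat_lit 1824) (nat_lit 10495543207) (nat_lit 371) (nat_lit 5) (nat_lit 394) (nat_lit 5) (nat_lit 395) (nat_lit 5) (nat_lit 364) (nat_lit 356) (nat_lit 180)) (XT.lf (nat_lit 0) (nat_lit 5636966617) (nat_lit 1748) (nat_lit 16607628433) (nat_lit 1824) (nat_lit 2330245545) (nat_lit 372) (nat_lit 5) (nat_lit 395) (nat_lit 5) (nat_lit 396) (nat_lit 5) (nat_lit 365) (nat_lit 356) (nat_lit 179))) (XT.nd (nat_lit 78) (nat_lit 0) (nat_lit 76) (XT.lf (nat_lit 76) (nat_lit 1136246576) (nat_lit 0) (nat_lit 6225607593) (nat_lit 1824) (nat_lit 17597674307) (nat_lit 373) (nat_lit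 5) (nat_lit 372) (nat_lit 5) (nat_lit 396) (nat_lit 5) (nat_lit 366) (nat_lit 356) (nat_lit 178)) (XT.lf (nat_lit 0) (nat_lit 9312192701) (nat_lit 1748) (nat_lit 5785824246) (nat_lit 1824) (nat_lit 10254269572) (nat_lit 373) (nat_lit 5) (nat_lit 396) (nat_lit 5) (nat_lit 397) (nat_lit 5) (nat_lit 367) (nat_lit 356) (nat_lit 177)))) (XT.nd (nat_lit 156) (nat_lit 0) (nat_lit 76) (XT.nd (nat_lit 78) (nat_lit 0) (nat_lit 0) (XT.lf (nat_lit 0) (nat_lit 11450012953) (nat_lit 1748) (nat_lit 12848001980) (nat_lit 1824) (nat_lit 1456236447) (nat_lit 374) (nat_lit 5) (nat_lit 397) (nat_lit 5) (nat_lit 398) (nat_lit 5) (nat_lit 368) (nat_lit 356) (nat_lit 176)) (XT.lf (nat_lit 76) (nat_lit 6044278931) (nat_lit 0) (nat_lit 7781422890) (nat_lit 1824) (nat_lit 12339102092) (nat_lit 375) (nat_lit 5) (nat_lit 374) (nat_lit 5) (nat_lit 398) (nat_lit 5) (nat_lit 369) (nat_lit 356) (nat_lit 175))) (XT.nd (nat_lit 45864)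 (nat_lit 0) (nat_lit 1064) (XT.lf (nat_lit 0) (nat_lit 16414441368) (nat_lit 1748) (nat_lit 971857665) (nat_lit 1824) (nat_lit 9198541693) (nat_lit 375) (nat_lit 5) (nat_lit 398) (nat_lit 5) (nat_lit 399) (nat_lit 5) (nat_lit 370) (nat_lit 356) (nat_lit 174)) (XT.nd (nat_lit 78) (nat_lit 0) (nat_lit 0) (XT.lf (nat_lit 0) (nat_lit 10169183835) (nat_lit 1748) (nat_lit 440647445) (nat_lit 1748) (nat_lit 440647445) (nat_lit 389) (nat_lit 3) (nat_lit 412) (nat_lit 3) (nat_lit 412) (nat_lit 5) (nat_lit 357) (nat_lit 357) (nat_lit 186)) (XT.lf (nat_lit 76) (nat_lit 14718779916) (nat_lit 0) (nat_lit 6214031412) (nat_lit 1748) (nat_lit 1493756982) (nat_lit 390) (nat_lit 5) (nat_lit 389) (nat_lit 3) (nat_lit 412) (nat_lit 5) (nat_lit 358) (nat_lit 357) (nat_lit 185)))))) (XT.nd (nat_lit 390) (nat_lit 0) (nat_lit 152) (XT.nd (nat_lit 156) (nat_lit 1672) (nat_lit 0) (XT.nd (nat_lit 78) (nat_lit 0) (nat_lit 76)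 (XT.lf (nat_lit 76) (nat_lit 8078914176) (nat_lit 0) (nat_lit 13577077820) (nat_lit 1748) (nat_lit 1103741960) (nat_lit 391) (nat_lit 5) (nat_lit 390) (nat_lit 5) (nat_lit 413) (nat_lit 5) (nat_lit 359) (nat_lit 357) (nat_lit 184)) (XT.lf (nat_lit 76) (nat_lit 1302079815) (nat_lit 0) (nat_lit 21205795545) (nat_lit 1748) (nat_lit 592883466) (nat_lit 392) (nat_lit 5) (nat_lit 391) (nat_lit 5) (nat_lit 414) (nat_lit 5) (nat_lit 360) (nat_lit 357) (nat_lit 183))) (XT.nd (nat_lit 78) (nat_lit 0) (nat_lit 76) (XT.lf (nat_lit 0) (nat_lit 117898568) (nat_lit 1748) (nat_lit 5579857042) (nat_lit 1824) (nat_lit 17750597221) (nat_lit 368) (nat_lit 5) (nat_lit 391) (nat_lit 5) (nat_lit 392) (nat_lit 5) (nat_lit 361) (nat_lit 357) (nat_lit 182)) (XT.nd (nat_lit 78) (nat_lit 0) (nat_lit 76) (XT.lf (nat_lit 0) (nat_lit 975377645) (nat_lit 1748) (nat_lit 12607018872) (nat_lit 1824) (nat_lit 10221235256) (nat_lit 369)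 (nat_lit 5) (nat_lit 392) (nat_lit 5) (nat_lit 393) (nat_lit 5) (nat_lit 362) (nat_lit 357) (nat_lit 181)) (XT.lf (nat_lit 0) (nat_lit 1972358762) (nat_lit 1748) (nat_lit 19784389549) (nat_lit 1824) (nat_lit 2410549168) (nat_lit 370) (nat_lit 5) (nat_lit 393) (nat_lit 5) (nat_lit 394) (nat_lit 5) (nat_lit 363) (nat_lit 357) (nat_lit 180))))) (XT.nd (nat_lit 156) (nat_lit 0) (nat_lit 152) (XT.nd (nat_lit 78) (nat_lit 0) (nat_lit 76) (XT.lf (nat_lit 0) (nat_lit 3169455769) (nat_lit 1748) (nat_lit 2580746146) (nat_lit 1824) (nat_lit 18788270944) (nat_lit 370) (nat_lit 5) (nat_lit 393) (nat_lit 5) (nat_lit 394) (nat_lit 5) (nat_lit 364) (nat_lit 357) (nat_lit 179)) (XT.lf (nat_lit 0) (nat_lit 4565992805) (nat_lit 1748) (nat_lit 9653325452) (nat_lit 1824) (nat_lit 10698198423) (nat_lit 371) (nat_lit 5) (nat_lit 394) (nat_lit 5) (nat_lit 395) (nat_lit 5) (nat_lit 365) (nat_lit 357) (nat_lit 178))) (XT.nd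 (nat_lit 78) (nat_lit 0) (nat_lit 0) (XT.lf (nat_lit 0) (nat_lit 6124165189) (nat_lit 1748) (nat_lit 16880868874) (nat_lit 1824) (nat_lit 2300506581) (nat_lit 372) (nat_lit 5) (nat_lit 395) (nat_lit 5) (nat_lit 396) (nat_lit 5) (nat_lit 366) (nat_lit 357) (nat_lit 177)) (XT.nd (nat_lit 78) (nat_lit 0) (nat_lit 76) (XT.lf (nat_lit 76) (nat_lit 1391672217) (nat_lit 0) (nat_lit 6501299481) (nat_lit 1824) (nat_lit 17808959357) (nat_lit 373) (nat_lit 5) (nat_lit 372) (nat_lit 5) (nat_lit 396) (nat_lit 5) (nat_lit 367) (nat_lit 357) (nat_lit 176)) (XT.lf (nat_lit 0) (nat_lit 9892223096) (nat_lit 1748) (nat_lit 5737749585) (nat_lit 1824) (nat_lit 10476696290) (nat_lit 373) (nat_lit 5) (nat_lit 396) (nat_lit 5) (nat_lit 397) (nat_lit 5) (nat_lit 368) (nat_lit 357) (nat_lit 175))))))) (XT.nd (nat_lit 46566) (nat_lit 0) (nat_lit 0) (XT.nd (nat_lit 46176) (nat_lit 456) (nat_lit 0) (XT.nd (nat_lit 156) (nat_lit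 0) (nat_lit 76) (XT.nd (nat_lit 78) (nat_lit 0) (nat_lit 0) (XT.lf (nat_lit 0) (nat_lit 12086347780) (nat_lit 1748) (nat_lit 13008865669) (nat_lit 1824) (nat_lit 1425640967) (nat_lit 374) (nat_lit 5) (nat_lit 397) (nat_lit 5) (nat_lit 398) (nat_lit 5) (nat_lit 369) (nat_lit 357) (nat_lit 174)) (XT.lf (nat_lit 76) (nat_lit 6446540184) (nat_lit 0) (nat_lit 8079672413) (nat_lit 1824) (nat_lit 12417657709) (nat_lit 375) (nat_lit 5) (nat_lit 374) (nat_lit 5) (nat_lit 398) (nat_lit 5) (nat_lit 370) (nat_lit 357) (nat_lit 173))) (XT.nd (nat_lit 45864) (nat_lit 0) (nat_lit 1064) (XT.lf (nat_lit 0) (nat_lit 17183883302) (nat_lit 1748) (nat_lit 780400407) (nat_lit 1824) (nat_lit 9412403883) (nat_lit 375) (nat_lit 5) (nat_lit 398) (nat_lit 5) (nat_lit 399) (nat_lit 5) (nat_lit 371) (nat_lit 357) (nat_lit 172)) (XT.nd (nat_lit 78) (nat_lit 0) (nat_lit 0) (XT.lf (nat_lit 0) (nat_lit 10666200448) (nat_lit 1748)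 (nat_lit 355919397) (nat_lit 1748) (nat_lit 355919397) (nat_lit 389) (nat_lit 3) (nat_lit 412) (nat_lit 3) (nat_lit 412) (nat_lit 5) (nat_lit 358) (nat_lit 358) (nat_lit 184)) (XT.lf (nat_lit 76) (nat_lit 15353060092) (nat_lit 0) (nat_lit 6581687983) (nat_lit 1748) (nat_lit 1156914895) (nat_lit 390) (nat_lit 5) (nat_lit 389) (nat_lit 3) (nat_lit 412) (nat_lit 5) (nat_lit 359) (nat_lit 358) (nat_lit 183))))) (XT.nd (nat_lit 156) (nat_lit 1672) (nat_lit 0) (XT.nd (nat_lit 78) (nat_lit 0) (nat_lit 76) (XT.lf (nat_lit 76) (nat_lit 8519606819) (nat_lit 0) (nat_lit 14149270756) (nat_lit 1748) (nat_lit 766167446) (nat_lit 391) (nat_lit 5) (nat_lit 390) (nat_lit 5) (nat_lit 413) (nat_lit 5) (nat_lit 360) (nat_lit 358) (nat_lit 182)) (XT.lf (nat_lit 76) (nat_lit 1544662566) (nat_lit 0) (nat_lit 21991358119) (nat_lit 1748) (nat_lit 250492203) (nat_lit 392) (nat_lit 5) (nat_lit 391) (nat_lit 5) (nat_lit 414)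 (nat_lit 5) (nat_lit 361) (nat_lit 358) (nat_lit 181))) (XT.nd (nat_lit 78) (nat_lit 0) (nat_lit 76) (XT.lf (nat_lit 0) (nat_lit 466536467) (nat_lit 1748) (nat_lit 5544873582) (nat_lit 1824) (nat_lit 18133290966) (nat_lit 368) (nat_lit 5) (nat_lit 391) (nat_lit 5) (nat_lit 392) (nat_lit 5) (nat_lit 362) (nat_lit 358) (nat_lit 180)) (XT.nd (nat_lit 78) (nat_lit 0) (nat_lit 76) (XT.lf (nat_lit 0) (nat_lit 1340090001) (nat_lit 1748) (nat_lit 12778321146) (nat_lit 1824) (nat_lit 10392426014) (nat_lit 369) (nat_lit 5) (nat_lit 392) (nat_lit 5) (nat_lit 393) (nat_lit 5) (nat_lit 363) (nat_lit 358) (nat_lit 179)) (XT.lf (nat_lit 0) (nat_lit 2357730200) (nat_lit 1748) (nat_lit 20166839337) (nat_lit 1824) (nat_lit 2361033974) (nat_lit 370) (nat_lit 5) (nat_lit 393) (nat_lit 5) (nat_lit 394) (nat_lit 5) (nat_lit 364) (nat_lit 358) (nat_lit 178)))))) (XT.nd (nat_lit 390) (nat_lit 152) (nat_lit 0) (XT.nd (nat_lit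 156) (nat_lit 0) (nat_lit 152) (XT.nd (nat_lit 78) (nat_lit 0) (nat_lit 76) (XT.lf (nat_lit 0) (nat_lit 3581239126) (nat_lit 1748) (nat_lit 2453234648) (nat_lit 1824) (nat_lit 19233635898) (nat_lit 370) (nat_lit 5) (nat_lit 393) (nat_lit 5) (nat_lit 394) (nat_lit 5) (nat_lit 365) (nat_lit 358) (nat_lit 177)) (XT.lf (nat_lit 0) (nat_lit 5011061137) (nat_lit 1748) (nat_lit 9734266564) (nat_lit 1824) (nat_lit 10913374672) (nat_lit 371) (nat_lit 5) (nat_lit 394) (nat_lit 5) (nat_lit 395) (nat_lit 5) (nat_lit 366) (nat_lit 358) (nat_lit 176))) (XT.nd (nat_lit 78) (nat_lit 0) (nat_lit 0) (XT.lf (nat_lit 0) (nat_lit 6607720075) (nat_lit 1748) (nat_lit 17175221783) (nat_lit 1824) (nat_lit 2275595555) (nat_lit 372) (nat_lit 5) (nat_lit 395) (nat_lit 5) (nat_lit 396) (nat_lit 5) (nat_lit 367) (nat_lit 358) (nat_lit 175)) (XT.nd (nat_lit 78) (nat_lit 0) (nat_lit 76) (XT.lf (nat_lit 76) (nat_lit 1642054906) (nat_lit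 0) (nat_lit 6780157544) (nat_lit 1824) (nat_lit 18044759688) (nat_lit 373) (nat_lit 5) (nat_lit 372) (nat_lit 5) (nat_lit 396) (nat_lit 5) (nat_lit 368) (nat_lit 358) (nat_lit 174)) (XT.lf (nat_lit 0) (nat_lit 10472395024) (nat_lit 1748) (nat_lit 5700956266) (nat_lit 1824) (nat_lit 10710686716) (nat_lit 373) (nat_lit 5) (nat_lit 396) (nat_lit 5) (nat_lit 397) (nat_lit 5) (nat_lit 369) (nat_lit 358) (nat_lit 173))))) (XT.nd (nat_lit 46098) (nat_lit 456) (nat_lit 0) (XT.nd (nat_lit 46020) (nat_lit 0) (nat_lit 1140) (XT.lf (nat_lit 0) (nat_lit 12724962756) (nat_lit 1748) (nat_lit 13187446871) (nat_lit 1824) (nat_lit 1398391747) (nat_lit 374) (nat_lit 5) (nat_lit 397) (nat_lit 5) (nat_lit 398) (nat_lit 5) (nat_lit 370) (nat_lit 358) (nat_lit 172)) (XT.lf (nat_lit 0) (nat_lit 11167109355) (nat_lit 1748) (nat_lit 274272094) (nat_lit 1748) (nat_lit 274272094) (nat_lit 389) (nat_lit 3) (nat_lit 412) (nat_lit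 3) (nat_lit 412) (nat_lit 5) (nat_lit 359) (nat_lit 359) (nat_lit 182))) (XT.nd (nat_lit 78) (nat_lit 1596) (nat_lit 0) (XT.lf (nat_lit 76) (nat_lit 15995305942) (nat_lit 0) (nat_lit 6949970584) (nat_lit 1748) (nat_lit 831876091) (nat_lit 390) (nat_lit 5) (nat_lit 389) (nat_lit 3) (nat_lit 412) (nat_lit 5) (nat_lit 360) (nat_lit 359) (nat_lit 181)) (XT.nd (nat_lit 78) (nat_lit 1672) (nat_lit 0) (XT.lf (nat_lit 76) (nat_lit 8962135562) (nat_lit 0) (nat_lit 14729164659) (nat_lit 1748) (nat_lit 439744634) (nat_lit 391) (nat_lit 5) (nat_lit 390) (nat_lit 5) (nat_lit 413) (nat_lit 5) (nat_lit 361) (nat_lit 359) (nat_lit 180)) (XT.lf (nat_lit 0) (nat_lit 80426296) (nat_lit 1748) (nat_lit 22710946047) (nat_lit 1824) (nat_lit 1701873900) (nat_lit 368) (nat_lit 5) (nat_lit 391) (nat_lit 5) (nat_lit 392) (nat_lit 5) (nat_lit 362) (nat_lit 359) (nat_lit 179))))))))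
noncomputable def xc127 : XT := (XT.nd (nat_lit 93678) (nat_lit 152) (nat_lit 0) (XT.nd (nat_lit 46722) (nat_lit 0) (nat_lit 0) (XT.nd (nat_lit 312) (nat_lit 0) (nat_lit 228) (XT.nd (nat_lit 156) (nat_lit 0) (nat_lit 152) (XT.nd (nat_lit 78) (nat_lit 0) (nat_lit 76) (XT.lf (nat_lit 0) (nat_lit 805823297) (nat_lit 1748) (nat_lit 5520458010) (nat_lit 1824) (nat_lit 18536066044) (nat_lit 368) (nat_lit 5) (nat_lit 391) (nat_lit 5) (nat_lit 392) (nat_lit 5) (nat_lit 363) (nat_lit 359) (nat_lit 178)) (XT.lf (nat_lit 0) (nat_lit 1696487466) (nat_lit 1748) (nat_lit 12966639870) (nat_lit 1824) (nat_lit 10576527666) (nat_lit 369) (nat_lit 5) (nat_lit 392) (nat_lit 5) (nat_lit 393) (nat_lit 5) (nat_lit 364) (nat_lit 359) (nat_lit 177))) (XT.nd (nat_lit 78) (nat_lit 0) (nat_lit 0) (XT.lf (nat_lit 0) (nat_lit 2735937527) (nat_lit 1748) (nat_lit 20572879583) (nat_lit 1824) (nat_lit 2317026960) (nat_lit 370) (nat_lit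 5) (nat_lit 393) (nat_lit 5) (nat_lit 394) (nat_lit 5) (nat_lit 365) (nat_lit 359) (nat_lit 176)) (XT.lf (nat_lit 0) (nat_lit 3987196127) (nat_lit 1748) (nat_lit 2333661849) (nat_lit 1824) (nat_lit 19699151739) (nat_lit 370) (nat_lit 5) (nat_lit 393) (nat_lit 5) (nat_lit 394) (nat_lit 5) (nat_lit 366) (nat_lit 359) (nat_lit 175)))) (XT.nd (nat_lit 156) (nat_lit 0) (nat_lit 76) (XT.nd (nat_lit 78) (nat_lit 0) (nat_lit 76) (XT.lf (nat_lit 0) (nat_lit 5451795976) (nat_lit 1748) (nat_lit 9829613769) (nat_lit 1824) (nat_lit 11141077821) (nat_lit 371) (nat_lit 5) (nat_lit 394) (nat_lit 5) (nat_lit 395) (nat_lit 5) (nat_lit 367) (nat_lit 359) (nat_lit 174)) (XT.lf (nat_lit 0) (nat_lit 7088570144) (nat_lit 1748) (nat_lit 17490579145) (nat_lit 1824) (nat_lit 2255328948) (nat_lit 372) (nat_lit 5) (nat_lit 395) (nat_lit 5) (nat_lit 396) (nat_lit 5) (nat_lit 368) (nat_lit 359) (nat_lit 173))) (XT.nd (nat_lit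 78) (nat_lit 0) (nat_lit 76) (XT.lf (nat_lit 76) (nat_lit 1887972715) (nat_lit 0) (nat_lit 7062569791) (nat_lit 1824) (nat_lit 18304767339) (nat_lit 373) (nat_lit 5) (nat_lit 372) (nat_lit 5) (nat_lit 396) (nat_lit 5) (nat_lit 369) (nat_lit 359) (nat_lit 172)) (XT.nd (nat_lit 46098) (nat_lit 0) (nat_lit 1216) (XT.lf (nat_lit 0) (nat_lit 11053703489) (nat_lit 1748) (nat_lit 5675052344) (nat_lit 1824) (nat_lit 10956307004) (nat_lit 373) (nat_lit 5) (nat_lit 396) (nat_lit 5) (nat_lit 397) (nat_lit 5) (nat_lit 370) (nat_lit 359) (nat_lit 171)) (XT.lf (nat_lit 0) (nat_lit 11672659816) (nat_lit 1748) (nat_lit 195475198) (nat_lit 1748) (nat_lit 195475198) (nat_lit 389) (nat_lit 3) (nat_lit 412) (nat_lit 3) (nat_lit 412) (nat_lit 5) (nat_lit 360) (nat_lit 360) (nat_lit 180)))))) (XT.nd (nat_lit 390) (nat_lit 0) (nat_lit 152) (XT.nd (nat_lit 156) (nat_lit 1596) (nat_lit 0) (XT.nd (nat_lit 78) (nat_lit 0) (nat_lit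 76) (XT.lf (nat_lit 76) (nat_lit 16646391482) (nat_lit 0) (nat_lit 7319495209) (nat_lit 1748) (nat_lit 517737030) (nat_lit 390) (nat_lit 5) (nat_lit 389) (nat_lit 3) (nat_lit 412) (nat_lit 5) (nat_lit 361) (nat_lit 360) (nat_lit 179)) (XT.lf (nat_lit 76) (nat_lit 9407209016) (nat_lit 0) (nat_lit 15317533878) (nat_lit 1748) (nat_lit 123586577) (nat_lit 391) (nat_lit 5) (nat_lit 390) (nat_lit 5) (nat_lit 413) (nat_lit 5) (nat_lit 362) (nat_lit 360) (nat_lit 178))) (XT.nd (nat_lit 78) (nat_lit 0) (nat_lit 0) (XT.lf (nat_lit 0) (nat_lit 398655334) (nat_lit 1748) (nat_lit 23207068817) (nat_lit 1824) (nat_lit 1615819776) (nat_lit 368) (nat_lit 5) (nat_lit 391) (nat_lit 5) (nat_lit 392) (nat_lit 5) (nat_lit 363) (nat_lit 360) (nat_lit 177)) (XT.nd (nat_lit 78) (nat_lit 0) (nat_lit 76) (XT.lf (nat_lit 0) (nat_lit 1136615713) (nat_lit 1748) (nat_lit 5506260478) (nat_lit 1824) (nat_lit 18959031190) (nat_lit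 368) (nat_lit 5) (nat_lit 391) (nat_lit 5) (nat_lit 392) (nat_lit 5) (nat_lit 364) (nat_lit 360) (nat_lit 176)) (XT.lf (nat_lit 0) (nat_lit 2045425982) (nat_lit 1748) (nat_lit 13171803729) (nat_lit 1824) (nat_lit 10773481212) (nat_lit 369) (nat_lit 5) (nat_lit 392) (nat_lit 5) (nat_lit 393) (nat_lit 5) (nat_lit 365) (nat_lit 360) (nat_lit 175))))) (XT.nd (nat_lit 156) (nat_lit 0) (nat_lit 76) (XT.nd (nat_lit 78) (nat_lit 0) (nat_lit 0) (XT.lf (nat_lit 0) (nat_lit 3107840728) (nat_lit 1748) (nat_lit 21002522437) (nat_lit 1824) (nat_lit 2278291909) (nat_lit 370) (nat_lit 5) (nat_lit 393) (nat_lit 5) (nat_lit 394) (nat_lit 5) (nat_lit 366) (nat_lit 360) (nat_lit 174)) (XT.lf (nat_lit 0) (nat_lit 4388195579) (nat_lit 1748) (nat_lit 2221590604) (nat_lit 1824) (nat_lit 20185033224) (nat_lit 370) (nat_lit 5) (nat_lit 393) (nat_lit 5) (nat_lit 394) (nat_lit 5) (nat_lit 367) (nat_lit 360) (nat_lit 173))) (XT.nd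 (nat_lit 78) (nat_lit 0) (nat_lit 76) (XT.lf (nat_lit 0) (nat_lit 5889082540) (nat_lit 1748) (nat_lit 9939111673) (nat_lit 1824) (nat_lit 11381335143) (nat_lit 371) (nat_lit 5) (nat_lit 394) (nat_lit 5) (nat_lit 395) (nat_lit 5) (nat_lit 368) (nat_lit 360) (nat_lit 172)) (XT.nd (nat_lit 46254) (nat_lit 0) (nat_lit 1292) (XT.lf (nat_lit 0) (nat_lit 7567622258) (nat_lit 1748) (nat_lit 17826872266) (nat_lit 1824) (nat_lit 2239536583) (nat_lit 372) (nat_lit 5) (nat_lit 395) (nat_lit 5) (nat_lit 396) (nat_lit 5) (nat_lit 369) (nat_lit 360) (nat_lit 171)) (XT.lf (nat_lit 0) (nat_lit 12183587258) (nat_lit 1748) (nat_lit 119309989) (nat_lit 1748) (nat_lit 119309989) (nat_lit 389) (nat_lit 3) (nat_lit 412) (nat_lit 3) (nat_lit 412) (nat_lit 5) (nat_lit 361) (nat_lit 361) (nat_lit 178))))))) (XT.nd (nat_lit 47112) (nat_lit 0) (nat_lit 0) (XT.nd (nat_lit 390) (nat_lit 76) (nat_lit 0) (XT.nd (nat_lit 156) (nat_lit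 0) (nat_lit 76) (XT.nd (nat_lit 78) (nat_lit 1672) (nat_lit 0) (XT.lf (nat_lit 76) (nat_lit 17307180495) (nat_lit 0) (nat_lit 7690862051) (nat_lit 1748) (nat_lit 213639256) (nat_lit 390) (nat_lit 5) (nat_lit 389) (nat_lit 3) (nat_lit 412) (nat_lit 5) (nat_lit 362) (nat_lit 361) (nat_lit 177)) (XT.lf (nat_lit 0) (nat_lit 180748114) (nat_lit 1748) (nat_lit 15733183773) (nat_lit 1824) (nat_lit 9673558505) (nat_lit 367) (nat_lit 5) (nat_lit 390) (nat_lit 5) (nat_lit 391) (nat_lit 5) (nat_lit 363) (nat_lit 361) (nat_lit 176))) (XT.nd (nat_lit 78) (nat_lit 0) (nat_lit 0) (XT.lf (nat_lit 0) (nat_lit 708302098) (nat_lit 1748) (nat_lit 23728706831) (nat_lit 1824) (nat_lit 1535054723) (nat_lit 368) (nat_lit 5) (nat_lit 391) (nat_lit 5) (nat_lit 392) (nat_lit 5) (nat_lit 364) (nat_lit 361) (nat_lit 175)) (XT.nd (nat_lit 78) (nat_lit 0) (nat_lit 76) (XT.lf (nat_lit 0) (nat_lit 1459730791) (nat_lit 1748) (nat_lit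 5501958922) (nat_lit 1824) (nat_lit 19402326741) (nat_lit 368) (nat_lit 5) (nat_lit 391) (nat_lit 5) (nat_lit 392) (nat_lit 5) (nat_lit 365) (nat_lit 361) (nat_lit 174)) (XT.lf (nat_lit 0) (nat_lit 2387723714) (nat_lit 1748) (nat_lit 13393675403) (nat_lit 1824) (nat_lit 10983251504) (nat_lit 369) (nat_lit 5) (nat_lit 392) (nat_lit 5) (nat_lit 393) (nat_lit 5) (nat_lit 366) (nat_lit 361) (nat_lit 173))))) (XT.nd (nat_lit 46488) (nat_lit 304) (nat_lit 0) (XT.nd (nat_lit 78) (nat_lit 0) (nat_lit 0) (XT.lf (nat_lit 0) (nat_lit 3474263880) (nat_lit 1748) (nat_lit 21455820344) (nat_lit 1824) (nat_lit 2244608561) (nat_lit 370) (nat_lit 5) (nat_lit 393) (nat_lit 5) (nat_lit 394) (nat_lit 5) (nat_lit 367) (nat_lit 361) (nat_lit 172)) (XT.lf (nat_lit 0) (nat_lit 4785072446) (nat_lit 1748) (nat_lit 2116609422) (nat_lit 1824) (nat_lit 20691523924) (nat_lit 370) (nat_lit 5) (nat_lit 393) (nat_lit 5) (nat_lit 394)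 (nat_lit 5) (nat_lit 368) (nat_lit 361) (nat_lit 171))) (XT.nd (nat_lit 78) (nat_lit 1748) (nat_lit 0) (XT.lf (nat_lit 0) (nat_lit 12700614952) (nat_lit 1748) (nat_lit 45568651) (nat_lit 1748) (nat_lit 45568651) (nat_lit 389) (nat_lit 3) (nat_lit 412) (nat_lit 3) (nat_lit 412) (nat_lit 5) (nat_lit 362) (nat_lit 362) (nat_lit 176)) (XT.nd (nat_lit 78) (nat_lit 0) (nat_lit 76) (XT.lf (nat_lit 0) (nat_lit 80167996) (nat_lit 1748) (nat_lit 7983951025) (nat_lit 1824) (nat_lit 17897822349) (nat_lit 366) (nat_lit 5) (nat_lit 389) (nat_lit 3) (nat_lit 390) (nat_lit 5) (nat_lit 363) (nat_lit 362) (nat_lit 175)) (XT.lf (nat_lit 0) (nat_lit 474956308) (nat_lit 1748) (nat_lit 16044613900) (nat_lit 1824) (nat_lit 9829601363) (nat_lit 367) (nat_lit 5) (nat_lit 390) (nat_lit 5) (nat_lit 391) (nat_lit 5) (nat_lit 364) (nat_lit 362) (nat_lit 174)))))) (XT.nd (nat_lit 46878) (nat_lit 0) (nat_lit 0) (XT.nd (nat_lit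 156) (nat_lit 152) (nat_lit 0) (XT.nd (nat_lit 78) (nat_lit 0) (nat_lit 0) (XT.lf (nat_lit 0) (nat_lit 1010149807) (nat_lit 1748) (nat_lit 24276015249) (nat_lit 1824) (nat_lit 1459285603) (nat_lit 368) (nat_lit 5) (nat_lit 391) (nat_lit 5) (nat_lit 392) (nat_lit 5) (nat_lit 365) (nat_lit 362) (nat_lit 173)) (XT.lf (nat_lit 0) (nat_lit 1775948585) (nat_lit 1748) (nat_lit 5507257703) (nat_lit 1824) (nat_lit 19866123959) (nat_lit 368) (nat_lit 5) (nat_lit 391) (nat_lit 5) (nat_lit 392) (nat_lit 5) (nat_lit 366) (nat_lit 362) (nat_lit 172))) (XT.nd (nat_lit 46566) (nat_lit 228) (nat_lit 0) (XT.lf (nat_lit 0) (nat_lit 2724163564) (nat_lit 1748) (nat_lit 13632150349) (nat_lit 1824) (nat_lit 11205826489) (nat_lit 369) (nat_lit 5) (nat_lit 392) (nat_lit 5) (nat_lit 393) (nat_lit 5) (nat_lit 367) (nat_lit 362) (nat_lit 171)) (XT.nd (nat_lit 78) (nat_lit 0) (nat_lit 0) (XT.lf (nat_lit 0) (nat_lit 25775706)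 (nat_lit 0) (nat_lit 25775706) (nat_lit 1748) (nat_lit 13120997856) (nat_lit 366) (nat_lit 5) (nat_lit 366) (nat_lit 3) (nat_lit 389) (nat_lit 3) (nat_lit 363) (nat_lit 363) (nat_lit 174)) (XT.lf (nat_lit 0) (nat_lit 362835507) (nat_lit 1748) (nat_lit 8076182704) (nat_lit 1824) (nat_lit 18296013221) (nat_lit 366) (nat_lit 5) (nat_lit 389) (nat_lit 3) (nat_lit 390) (nat_lit 5) (nat_lit 364) (nat_lit 363) (nat_lit 173))))) (XT.nd (nat_lit 156) (nat_lit 76) (nat_lit 0) (XT.nd (nat_lit 78) (nat_lit 0) (nat_lit 76) (XT.lf (nat_lit 0) (nat_lit 761413264) (nat_lit 1748) (nat_lit 16374604042) (nat_lit 1824) (nat_lit 9998027064) (nat_lit 367) (nat_lit 5) (nat_lit 390) (nat_lit 5) (nat_lit 391) (nat_lit 5) (nat_lit 365) (nat_lit 363) (nat_lit 172)) (XT.lf (nat_lit 0) (nat_lit 1304945438) (nat_lit 1748) (nat_lit 24849188923) (nat_lit 1824) (nat_lit 1388236419) (nat_lit 368) (nat_lit 5) (nat_lit 391) (nat_lit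 5) (nat_lit 392) (nat_lit 5) (nat_lit 366) (nat_lit 363) (nat_lit 171))) (XT.nd (nat_lit 46722) (nat_lit 152) (nat_lit 0) (XT.lf (nat_lit 0) (nat_lit 2086014553) (nat_lit 1748) (nat_lit 5521886324) (nat_lit 1824) (nat_lit 20350624423) (nat_lit 368) (nat_lit 5) (nat_lit 391) (nat_lit 5) (nat_lit 392) (nat_lit 5) (nat_lit 367) (nat_lit 363) (nat_lit 170)) (XT.nd (nat_lit 78) (nat_lit 0) (nat_lit 76) (XT.lf (nat_lit 0) (nat_lit 637894832) (nat_lit 1748) (nat_lit 8179636200) (nat_lit 1824) (nat_lit 18714114282) (nat_lit 366) (nat_lit 5) (nat_lit 389) (nat_lit 3) (nat_lit 390) (nat_lit 5) (nat_lit 365) (nat_lit 364) (nat_lit 171)) (XT.lf (nat_lit 0) (nat_lit 1040838061) (nat_lit 1748) (nat_lit 16723181897) (nat_lit 1824) (nat_lit 10178764991) (nat_lit 367) (nat_lit 5) (nat_lit 390) (nat_lit 5) (nat_lit 391) (nat_lit 5) (nat_lit 366) (nat_lit 364) (nat_lit 170))))))))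

set_option maxRecDepth 10000000 in
noncomputable def Tp : PT := (PT.nd (nat_lit 7276308) (PT.nd (nat_lit 6574620) (PT.nd (nat_lit 5919498) (PT.nd (nat_lit 5403918) (PT.nd (nat_lit 4982328) pc0 pc1) (PT.nd (nat_lit 281346) pc2 pc3)) (PT.nd (nat_lit 374400) (PT.nd (nat_lit 187512) pc4 pc5) (PT.nd (nat_lit 140478) pc6 pc7))) (PT.nd (nat_lit 376038) (PT.nd (nat_lit 188682) (PT.nd (nat_lit 94458) pc8 pc9) (PT.nd (nat_lit 138528) pc10 pc11)) (PT.nd (nat_lit 185562) (PT.nd (nat_lit 92898) pc12 pc13) (PT.nd (nat_lit 48204) pc14 pc15)))) (PT.nd (nat_lit 421824) (PT.nd (nat_lit 233844) (PT.nd (nat_lit 95706) (PT.nd (nat_lit 47892) pc16 pc17) (PT.nd (nat_lit 47580) pc18 pc19)) (PT.nd (nat_lit 94302) (PT.nd (nat_lit 47190) pc20 pc21) (PT.nd (nat_lit 46878) pc22 pc23))) (PT.nd (nat_lit 190476) (PT.nd (nat_lit 93054) (PT.nd (nat_lit 46566) pc24 pc25) (PT.nd (nat_lit 47112) pc26 pc27)) (PT.nd (nat_lit 188136) (PT.nd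 (nat_lit 93522) pc28 pc29) (PT.nd (nat_lit 181350) pc30 pc31)))))

set_option maxRecDepth 10000000 in
noncomputable def Tx : XT := (XT.nd (nat_lit 12077832) (nat_lit 0) (nat_lit 532) XT.nil (XT.nd (nat_lit 5014386) (nat_lit 0) (nat_lit 0) (XT.nd (nat_lit 2338050) (nat_lit 0) (nat_lit 3876) (XT.nd (nat_lit 1591356) (nat_lit 0) (nat_lit 1444) (XT.nd (nat_lit 1121640) (nat_lit 0) (nat_lit 684) (XT.nd (nat_lit 749346) (nat_lit 0) (nat_lit 304) (XT.nd (nat_lit 514800) (nat_lit 0) (nat_lit 76) (XT.nd (nat_lit 328146) (nat_lit 0) (nat_lit 0) (XT.nd (nat_lit 233844) (nat_lit 0) (nat_lit 0) xc0 xc1) (XT.nd (nat_lit 93600) (nat_lit 0) (nat_lit 0) xc2 xc3)) (XT.nd (nat_lit 139932) (nat_lit 0) (nat_lit 228) (XT.nd (nat_lit 47736) (nat_lit 0) (nat_lit 0) xc4 xc5) (XT.nd (nat_lit 47346) (nat_lit 0) (nat_lit 0) xc6 xc7))) (XT.nd (nat_lit 187356) (nat_lit 0) (nat_lit 76) (XT.nd (nat_lit 93990) (nat_lit 0) (nat_lit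 76) (XT.nd (nat_lit 47034) (nat_lit 0) (nat_lit 76) xc8 xc9) (XT.nd (nat_lit 46722) (nat_lit 0) (nat_lit 0) xc10 xc11)) (XT.nd (nat_lit 92742) (nat_lit 0) (nat_lit 228) (XT.nd (nat_lit 46410) (nat_lit 0) (nat_lit 152) xc12 xc13) (XT.nd (nat_lit 46176) (nat_lit 0) (nat_lit 0) xc14 xc15)))) (XT.nd (nat_lit 236574) (nat_lit 0) (nat_lit 380) (XT.nd (nat_lit 140010) (nat_lit 0) (nat_lit 152) (XT.nd (nat_lit 48828) (nat_lit 0) (nat_lit 0) (XT.nd (nat_lit 2964) (nat_lit 912) (nat_lit 0) xc16 xc17) (XT.nd (nat_lit 45630) (nat_lit 0) (nat_lit 0) xc18 xc19)) (XT.nd (nat_lit 48360) (nat_lit 0) (nat_lit 0) (XT.nd (nat_lit 2964) (nat_lit 2356) (nat_lit 0) xc20 xc21) (XT.nd (nat_lit 45162) (nat_lit 0) (nat_lit 3116) xc22 xc23))) (XT.nd (nat_lit 137904) (nat_lit 0) (nat_lit 304) (XT.nd (nat_lit 90090) (nat_lit 0) (nat_lit 152) (XT.nd (nat_lit 45084) (nat_lit 0) (nat_lit 152) xc24 xc25) (XT.nd (nat_lit 2964) (nat_lit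 5092) (nat_lit 0) xc26 xc27)) (XT.nd (nat_lit 47658) (nat_lit 0) (nat_lit 76) (XT.nd (nat_lit 2964) (nat_lit 2052) (nat_lit 0) xc28 xc29) (XT.nd (nat_lit 3042) (nat_lit 152) (nat_lit 0) xc30 xc31))))) (XT.nd (nat_lit 374634) (nat_lit 0) (nat_lit 1064) (XT.nd (nat_lit 188448) (nat_lit 0) (nat_lit 380) (XT.nd (nat_lit 94536) (nat_lit 0) (nat_lit 152) (XT.nd (nat_lit 47346) (nat_lit 0) (nat_lit 152) (XT.nd (nat_lit 44304) (nat_lit 0) (nat_lit 5776) xc32 xc33) (XT.nd (nat_lit 44148) (nat_lit 0) (nat_lit 4636) xc34 xc35)) (XT.nd (nat_lit 47034) (nat_lit 0) (nat_lit 152) (XT.nd (nat_lit 43992) (nat_lit 0) (nat_lit 4028) xc36 xc37) (XT.nd (nat_lit 43836) (nat_lit 0) (nat_lit 4104) xc38 xc39))) (XT.nd (nat_lit 93288) (nat_lit 0) (nat_lit 380) (XT.nd (nat_lit 46722) (nat_lit 0) (nat_lit 228) (XT.nd (nat_lit 43680) (nat_lit 0) (nat_lit 4712) xc40 xc41) (XT.nd (nat_lit 43524) (nat_lit 0) (nat_lit 5928) xc42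 xc43)) (XT.nd (nat_lit 46488) (nat_lit 0) (nat_lit 228) (XT.nd (nat_lit 43446) (nat_lit 0) (nat_lit 7904) xc44 xc45) (XT.nd (nat_lit 43368) (nat_lit 0) (nat_lit 10564) xc46 xc47)))) (XT.nd (nat_lit 185484) (nat_lit 0) (nat_lit 608) (XT.nd (nat_lit 92508) (nat_lit 0) (nat_lit 380) (XT.nd (nat_lit 46176) (nat_lit 0) (nat_lit 380) (XT.nd (nat_lit 43134) (nat_lit 0) (nat_lit 15428) xc48 xc49) (XT.nd (nat_lit 2964) (nat_lit 988) (nat_lit 0) xc50 xc51)) (XT.nd (nat_lit 46410) (nat_lit 0) (nat_lit 228) (XT.nd (nat_lit 2964) (nat_lit 2736) (nat_lit 0) xc52 xc53) (XT.nd (nat_lit 3042) (nat_lit 4104) (nat_lit 0) xc54 xc55))) (XT.nd (nat_lit 93054) (nat_lit 0) (nat_lit 228) (XT.nd (nat_lit 46488) (nat_lit 0) (nat_lit 0) (XT.nd (nat_lit 2964) (nat_lit 5700) (nat_lit 0) xc56 xc57) (XT.nd (nat_lit 2964) (nat_lit 7828) (nat_lit 0) xc58 xc59)) (XT.nd (nat_lit 46644) (nat_lit 0) (nat_lit 304) (XT.nd (nat_lit 2964)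 (nat_lit 9652) (nat_lit 0) xc60 xc61) (XT.nd (nat_lit 3042) (nat_lit 10488) (nat_lit 0) xc62 xc63)))))) (XT.nd (nat_lit 846300) (nat_lit 0) (nat_lit 4408) (XT.nd (nat_lit 377832) (nat_lit 0) (nat_lit 1672) (XT.nd (nat_lit 188214) (nat_lit 0) (nat_lit 760) (XT.nd (nat_lit 93912) (nat_lit 0) (nat_lit 532) (XT.nd (nat_lit 46878) (nat_lit 0) (nat_lit 228) (XT.nd (nat_lit 2964) (nat_lit 11400) (nat_lit 0) xc64 xc65) (XT.nd (nat_lit 2964) (nat_lit 11172) (nat_lit 0) xc66 xc67)) (XT.nd (nat_lit 47112) (nat_lit 0) (nat_lit 0) (XT.nd (nat_lit 2964) (nat_lit 10260) (nat_lit 0) xc68 xc69) (XT.nd (nat_lit 2964) (nat_lit 9120) (nat_lit 0) xc70 xc71))) (XT.nd (nat_lit 94614) (nat_lit 0) (nat_lit 380) (XT.nd (nat_lit 47268) (nat_lit 0) (nat_lit 304) (XT.nd (nat_lit 2964) (nat_lit 7752) (nat_lit 0) xc72 xc73) (XT.nd (nat_lit 2964) (nat_lit 5472) (nat_lit 0) xc74 xc75)) (XT.nd (nat_lit 47424) (nat_lit 0) (nat_lit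 228) (XT.nd (nat_lit 2964) (nat_lit 3724) (nat_lit 0) xc76 xc77) (XT.nd (nat_lit 3042) (nat_lit 1292) (nat_lit 0) xc78 xc79)))) (XT.nd (nat_lit 233064) (nat_lit 0) (nat_lit 1292) (XT.nd (nat_lit 95394) (nat_lit 0) (nat_lit 608) (XT.nd (nat_lit 47658) (nat_lit 0) (nat_lit 304) (XT.nd (nat_lit 44616) (nat_lit 0) (nat_lit 9044) xc80 xc81) (XT.nd (nat_lit 44694) (nat_lit 0) (nat_lit 4560) xc82 xc83)) (XT.nd (nat_lit 47814) (nat_lit 0) (nat_lit 0) (XT.nd (nat_lit 44772) (nat_lit 0) (nat_lit 684) xc84 xc85) (XT.nd (nat_lit 44850) (nat_lit 0) (nat_lit 304) xc86 xc87))) (XT.nd (nat_lit 96252) (nat_lit 0) (nat_lit 684) (XT.nd (nat_lit 48048) (nat_lit 0) (nat_lit 304) (XT.nd (nat_lit 2964) (nat_lit 4560) (nat_lit 0) xc88 xc89) (XT.nd (nat_lit 45162) (nat_lit 0) (nat_lit 7448) xc90 xc91)) (XT.nd (nat_lit 48282) (nat_lit 0) (nat_lit 380) (XT.nd (nat_lit 45240) (nat_lit 0) (nat_lit 380) xc92 xc93) (XT.nd (nat_lit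 45396) (nat_lit 0) (nat_lit 0) xc94 xc95))))) (XT.nd (nat_lit 564798) (nat_lit 0) (nat_lit 5168) (XT.nd (nat_lit 280566) (nat_lit 0) (nat_lit 2584) (XT.nd (nat_lit 139854) (nat_lit 0) (nat_lit 1216) (XT.nd (nat_lit 48516) (nat_lit 0) (nat_lit 380) (XT.nd (nat_lit 45474) (nat_lit 0) (nat_lit 6916) xc96 xc97) (XT.nd (nat_lit 45552) (nat_lit 0) (nat_lit 456) xc98 xc99)) (XT.nd (nat_lit 48828) (nat_lit 0) (nat_lit 456) (XT.nd (nat_lit 2964) (nat_lit 3344) (nat_lit 0) xc100 xc101) (XT.nd (nat_lit 45864) (nat_lit 0) (nat_lit 456) xc102 xc103))) (XT.nd (nat_lit 141648) (nat_lit 0) (nat_lit 988) (XT.nd (nat_lit 49140) (nat_lit 0) (nat_lit 456) (XT.nd (nat_lit 2964) (nat_lit 3116) (nat_lit 0) xc104 xc105) (XT.nd (nat_lit 46176) (nat_lit 0) (nat_lit 532) xc106 xc107)) (XT.nd (nat_lit 92898) (nat_lit 0) (nat_lit 1520) (XT.nd (nat_lit 46332) (nat_lit 0) (nat_lit 988) xc108 xc109) (XT.nd (nat_lit 3042) (nat_lit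 1140) (nat_lit 0) xc110 xc111)))) (XT.nd (nat_lit 420966) (nat_lit 0) (nat_lit 5548) (XT.nd (nat_lit 187356) (nat_lit 0) (nat_lit 2280) (XT.nd (nat_lit 93444) (nat_lit 0) (nat_lit 1672) (XT.nd (nat_lit 46644) (nat_lit 0) (nat_lit 532) xc112 xc113) (XT.nd (nat_lit 46878) (nat_lit 0) (nat_lit 76) xc114 xc115)) (XT.nd (nat_lit 138606) (nat_lit 0) (nat_lit 1900) (XT.nd (nat_lit 47034) (nat_lit 0) (nat_lit 1216) xc116 xc117) (XT.nd (nat_lit 47424) (nat_lit 0) (nat_lit 1368) xc118 xc119))) (XT.nd (nat_lit 281346) (nat_lit 0) (nat_lit 4636) (XT.nd (nat_lit 140166) (nat_lit 0) (nat_lit 2280) (XT.nd (nat_lit 47580) (nat_lit 0) (nat_lit 684) xc120 xc121) (XT.nd (nat_lit 47892) (nat_lit 0) (nat_lit 1520) xc122 xc123)) (XT.nd (nat_lit 187668) (nat_lit 0) (nat_lit 3648) (XT.nd (nat_lit 93600) (nat_lit 0) (nat_lit 2660) xc124 xc125) (XT.nd (nat_lit 140556) (nat_lit 152) (nat_lit 0) xc126 xc127))))))) XT.nil))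

set_option maxRecDepth 10000000 in
noncomputable def Te : XT := XT.nil

set_option maxRecDepth 10000000 in
noncomputable def Tz : ZL := (ZL.cons (nat_lit 76) (nat_lit 6) (nat_lit 227594281740801796782) (ZL.cons (nat_lit 152) (nat_lit 3) (nat_lit 112205400027701781833) (ZL.cons (nat_lit 1900) (nat_lit 6) (nat_lit 182942007893172546468) (ZL.cons (nat_lit 1976) (nat_lit 6) (nat_lit 180603216129076239606) (ZL.cons (nat_lit 2052) (nat_lit 3) (nat_lit 90263623729873985653) (ZL.cons (nat_lit 2204) (nat_lit 6) (nat_lit 178194260612057043540) (ZL.cons (nat_lit 2280) (nat_lit 6) (nat_lit 175941008817902751688) (ZL.cons (nat_lit 2356) (nat_lit 3) (nat_lit 87933626414131828123) (ZL.cons (nat_lit 2508) (nat_lit 6) (nat_lit 173620159469923831076) (ZL.cons (nat_lit 2584) (nat_lit 6) (nat_lit 171451017057404067214) (ZL.cons (nat_lit 2660) (nat_lit 3) (nat_lit 85689704650236453296) (ZL.cons (nat_lit 2736) (nat_lit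 6) (nat_lit 169357930223547793990) (ZL.cons (nat_lit 2812) (nat_lit 6) (nat_lit 169216800372508710436) (ZL.cons (nat_lit 2964) (nat_lit 6) (nat_lit 167130443027744671946) (ZL.cons (nat_lit 3040) (nat_lit 3) (nat_lit 83530460466818374507) (ZL.cons (nat_lit 3116) (nat_lit 6) (nat_lit 165118514235491191480) (ZL.cons (nat_lit 3192) (nat_lit 6) (nat_lit 164981494962637712304) (ZL.cons (nat_lit 3344) (nat_lit 6) (nat_lit 162976705485362183670) (ZL.cons (nat_lit 3420) (nat_lit 3) (nat_lit 81454604153308313713) (ZL.cons (nat_lit 3496) (nat_lit 6) (nat_lit 161044800744014485468) (ZL.cons (nat_lit 3572) (nat_lit 6) (nat_lit 160911772323768389178) (ZL.cons (nat_lit 3648) (nat_lit 6) (nat_lit 159184092666490527478) (ZL.cons (nat_lit 3724) (nat_lit 6) (nat_lit 158987441681680800076) (ZL.cons (nat_lit 3800) (nat_lit 3) (nat_lit 79460955220090130015) (ZL.cons (nat_lit 3876) (nat_lit 6) (nat_lit 157134534926394754456)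 (ZL.cons (nat_lit 3952) (nat_lit 6) (nat_lit 157005381120330583298) (ZL.cons (nat_lit 4028) (nat_lit 6) (nat_lit 155351433013172623734) (ZL.cons (nat_lit 4104) (nat_lit 6) (nat_lit 155160509726949587420) (ZL.cons (nat_lit 4180) (nat_lit 3) (nat_lit 77548443581192978154) (ZL.cons (nat_lit 4332) (nat_lit 6) (nat_lit 153385684236489657934) (ZL.cons (nat_lit 4408) (nat_lit 6) (nat_lit 153260292191767161666) (ZL.cons (nat_lit 4484) (nat_lit 6) (nat_lit 151679353830561072568) (ZL.cons (nat_lit 4560) (nat_lit 6) (nat_lit 151493991416752299450) (ZL.cons (nat_lit 4636) (nat_lit 3) (nat_lit 75716110968296717147) (ZL.cons (nat_lit 4712) (nat_lit 6) (nat_lit 150040027540847971398) (ZL.cons (nat_lit 4788) (nat_lit 6) (nat_lit 149796441467732133376) (ZL.cons (nat_lit 4864) (nat_lit 6) (nat_lit 149674701618486991370) (ZL.cons (nat_lit 4940) (nat_lit 6) (nat_lit 148166159048634704074) (ZL.cons (nat_lit 5016) (nat_lit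 6) (nat_lit 147986195540082497164) (ZL.cons (nat_lit 5092) (nat_lit 3) (nat_lit 73963112585498110157) (ZL.cons (nat_lit 5168) (nat_lit 6) (nat_lit 146601719640841382722) (ZL.cons (nat_lit 5244) (nat_lit 6) (nat_lit 146365228307719209886) (ZL.cons (nat_lit 5320) (nat_lit 6) (nat_lit 146247034279325868132) (ZL.cons (nat_lit 5472) (nat_lit 6) (nat_lit 144810383542262054820) (ZL.cons (nat_lit 5548) (nat_lit 6) (nat_lit 144635661689298747140) (ZL.cons (nat_lit 5624) (nat_lit 3) (nat_lit 72288719014995841118) (ZL.cons (nat_lit 5700) (nat_lit 6) (nat_lit 143320302641488787850) (ZL.cons (nat_lit 5776) (nat_lit 6) (nat_lit 143090699405447843348) (ZL.cons (nat_lit 5852) (nat_lit 6) (nat_lit 142975947921570812518) (ZL.cons (nat_lit 5928) (nat_lit 6) (nat_lit 141893683592961840102) (ZL.cons (nat_lit 6004) (nat_lit 6) (nat_lit 141610797460729015190) (ZL.cons (nat_lit 6080) (nat_lit 6) (nat_lit 141441164593774347538)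 (ZL.cons (nat_lit 6156) (nat_lit 3) (nat_lit 70692318384602190806) (ZL.cons (nat_lit 6308) (nat_lit 6) (nat_lit 140194662736938139420) (ZL.cons (nat_lit 6384) (nat_lit 6) (nat_lit 139971746973791591358) (ZL.cons (nat_lit 6460) (nat_lit 6) (nat_lit 139860337766143988610) (ZL.cons (nat_lit 6536) (nat_lit 6) (nat_lit 138841057834802000704) (ZL.cons (nat_lit 6612) (nat_lit 6) (nat_lit 138566411104478869722) (ZL.cons (nat_lit 6688) (nat_lit 6) (nat_lit 138401719000639386564) (ZL.cons (nat_lit 6764) (nat_lit 3) (nat_lit 69173418808780874871) (ZL.cons (nat_lit 6840) (nat_lit 6) (nat_lit 137548799992755625720) (ZL.cons (nat_lit 6916) (nat_lit 6) (nat_lit 137223929022455229766) (ZL.cons (nat_lit 6992) (nat_lit 6) (nat_lit 137007505951439163688) (ZL.cons (nat_lit 7068) (nat_lit 6) (nat_lit 136899341672169646456) (ZL.cons (nat_lit 7220) (nat_lit 6) (nat_lit 135943127685124728506) (ZL.cons (nat_lit 7296) (nat_lit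 6) (nat_lit 135676480374131397456) (ZL.cons (nat_lit 7372) (nat_lit 6) (nat_lit 135516585127685297304) (ZL.cons (nat_lit 7448) (nat_lit 3) (nat_lit 67731651115746708447) (ZL.cons (nat_lit 7524) (nat_lit 6) (nat_lit 134722887945687756764) (ZL.cons (nat_lit 7600) (nat_lit 6) (nat_lit 134407479236658246130) (ZL.cons (nat_lit 7676) (nat_lit 6) (nat_lit 134197359750234881006) (ZL.cons (nat_lit 7752) (nat_lit 6) (nat_lit 134092345886866417676) (ZL.cons (nat_lit 7828) (nat_lit 6) (nat_lit 133562143575245777382) (ZL.cons (nat_lit 7904) (nat_lit 6) (nat_lit 133199393703074344820) (ZL.cons (nat_lit 7980) (nat_lit 6) (nat_lit 132940512818614800112) (ZL.cons (nat_lit 8056) (nat_lit 6) (nat_lit 132785274715269071810) (ZL.cons (nat_lit 8132) (nat_lit 3) (nat_lit 66366771874046244445) (ZL.cons (nat_lit 8284) (nat_lit 6) (nat_lit 132051168164661027984) (ZL.cons (nat_lit 8360) (nat_lit 6) (nat_lit 131744946117059561348)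 (ZL.cons (nat_lit 8436) (nat_lit 6) (nat_lit 131540946615677653462) (ZL.cons (nat_lit 8512) (nat_lit 6) (nat_lit 131438991408523805570) (ZL.cons (nat_lit 8588) (nat_lit 6) (nat_lit 130961799317549779132) (ZL.cons (nat_lit 8664) (nat_lit 6) (nat_lit 130609614975635766934) (ZL.cons (nat_lit 8740) (nat_lit 6) (nat_lit 130358274311111937120) (ZL.cons (nat_lit 8816) (nat_lit 6) (nat_lit 130207557705921909644) (ZL.cons (nat_lit 8892) (nat_lit 3) (nat_lit 65078666732972322336) (ZL.cons (nat_lit 8968) (nat_lit 6) (nat_lit 129930335286048947652) (ZL.cons (nat_lit 9044) (nat_lit 6) (nat_lit 129533527357423726176) (ZL.cons (nat_lit 9120) (nat_lit 6) (nat_lit 129236224398587350800) (ZL.cons (nat_lit 9196) (nat_lit 6) (nat_lit 129038166630255401396) (ZL.cons (nat_lit 9272) (nat_lit 6) (nat_lit 128939180992241956840) (ZL.cons (nat_lit 9348) (nat_lit 6) (nat_lit 128955874790907707582) (ZL.cons (nat_lit 9424) (nat_lit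 6) (nat_lit 128515742991689079034) (ZL.cons (nat_lit 9500) (nat_lit 6) (nat_lit 128173816446141494380) (ZL.cons (nat_lit 9576) (nat_lit 6) (nat_lit 127929796383496999414) (ZL.cons (nat_lit 9652) (nat_lit 6) (nat_lit 127783469582341632930) (ZL.cons (nat_lit 9728) (nat_lit 3) (nat_lit 63867354092152726673) (ZL.cons (nat_lit 9804) (nat_lit 6) (nat_lit 127555372552287008832) (ZL.cons (nat_lit 9880) (nat_lit 6) (nat_lit 127170122136146017106) (ZL.cons (nat_lit 9956) (nat_lit 6) (nat_lit 126881478486790312862) (ZL.cons (nat_lit 10032) (nat_lit 6) (nat_lit 126689189391322400816) (ZL.cons (nat_lit 10108) (nat_lit 6) (nat_lit 126593086830144299304) (ZL.cons (nat_lit 10184) (nat_lit 6) (nat_lit 126651576880581144824) (ZL.cons (nat_lit 10260) (nat_lit 6) (nat_lit 126224264454155291866) (ZL.cons (nat_lit 10336) (nat_lit 6) (nat_lit 125892296934206180550) (ZL.cons (nat_lit 10412) (nat_lit 6) (nat_lit 125655384252027059226)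 (ZL.cons (nat_lit 10488) (nat_lit 6) (nat_lit 125513319396536412152) (ZL.cons (nat_lit 10564) (nat_lit 3) (nat_lit 62732989116697245112) (ZL.cons (nat_lit 10640) (nat_lit 6) (nat_lit 125803566252198151792) (ZL.cons (nat_lit 10716) (nat_lit 6) (nat_lit 125335416922583113172) (ZL.cons (nat_lit 10792) (nat_lit 6) (nat_lit 124961387392349140624) (ZL.cons (nat_lit 10868) (nat_lit 6) (nat_lit 124681150839576612228) (ZL.cons (nat_lit 10944) (nat_lit 6) (nat_lit 124494462397374755876) (ZL.cons (nat_lit 11020) (nat_lit 6) (nat_lit 124401158939920288386) (ZL.cons (nat_lit 11172) (nat_lit 6) (nat_lit 124502802878537816010) (ZL.cons (nat_lit 11248) (nat_lit 6) (nat_lit 124087936445114657800) (ZL.cons (nat_lit 11324) (nat_lit 6) (nat_lit 123765637882057268172) (ZL.cons (nat_lit 11400) (nat_lit 6) (nat_lit 123535625569262004748) (ZL.cons (nat_lit 11476) (nat_lit 6) (nat_lit 123397698525096327980) (ZL.cons (nat_lit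 11552) (nat_lit 3) (nat_lit 61675868115391891209) (ZL.cons (nat_lit 11628) (nat_lit 6) (nat_lit 123725694795184797698) (ZL.cons (nat_lit 11704) (nat_lit 6) (nat_lit 123271180882937187386) (ZL.cons (nat_lit 11780) (nat_lit 6) (nat_lit 122908045416690612096) (ZL.cons (nat_lit 11856) (nat_lit 6) (nat_lit 122635971093610487440) (ZL.cons (nat_lit 11932) (nat_lit 6) (nat_lit 122454720178851403600) (ZL.cons (nat_lit 12008) (nat_lit 6) (nat_lit 122364134297827648760) (ZL.cons (nat_lit 12084) (nat_lit 6) (nat_lit 123003413646043458508) (ZL.cons (nat_lit 12160) (nat_lit 6) (nat_lit 122510407035908030626) (ZL.cons (nat_lit 12236) (nat_lit 6) (nat_lit 122107624090837003234) (ZL.cons (nat_lit 12312) (nat_lit 6) (nat_lit 121794712864567692916) (ZL.cons (nat_lit 12388) (nat_lit 6) (nat_lit 121571399939523747844) (ZL.cons (nat_lit 12464) (nat_lit 6) (nat_lit 121437490187906585932) (ZL.cons (nat_lit 12540) (nat_lit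 3) (nat_lit 60696433300597688327) (ZL.cons (nat_lit 12616) (nat_lit 6) (nat_lit 122335328311663092414) (ZL.cons (nat_lit 12692) (nat_lit 6) (nat_lit 121804950150180268830) (ZL.cons (nat_lit 12768) (nat_lit 6) (nat_lit 121363674507221423868) (ZL.cons (nat_lit 12844) (nat_lit 6) (nat_lit 121011115802127661448) (ZL.cons (nat_lit 12920) (nat_lit 6) (nat_lit 120746965973894530714) (ZL.cons (nat_lit 12996) (nat_lit 6) (nat_lit 120570994211992507570) (ZL.cons (nat_lit 13072) (nat_lit 6) (nat_lit 120483046754687891220) (ZL.cons (nat_lit 13148) (nat_lit 6) (nat_lit 121720855028159289394) (ZL.cons (nat_lit 13224) (nat_lit 6) (nat_lit 121154193807115887458) (ZL.cons (nat_lit 13300) (nat_lit 6) (nat_lit 120675546612809646794) (ZL.cons (nat_lit 13376) (nat_lit 6) (nat_lit 120284495209828066804) (ZL.cons (nat_lit 13452) (nat_lit 6) (nat_lit 119980697902770483968) (ZL.cons (nat_lit 13528) (nat_lit 6) (nat_lit 119763889237679275162)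 (ZL.cons (nat_lit 13604) (nat_lit 6) (nat_lit 119633879770089797580) (ZL.cons (nat_lit 13680) (nat_lit 3) (nat_lit 59795277949748195254) (ZL.cons (nat_lit 13756) (nat_lit 6) (nat_lit 120557569384667548696) (ZL.cons (nat_lit 13832) (nat_lit 6) (nat_lit 120042639130800729680) (ZL.cons (nat_lit 13908) (nat_lit 6) (nat_lit 119614216176471753988) (ZL.cons (nat_lit 13984) (nat_lit 6) (nat_lit 119271926171526353582) (ZL.cons (nat_lit 14060) (nat_lit 6) (nat_lit 119015470027610692674) (ZL.cons (nat_lit 14136) (nat_lit 6) (nat_lit 118844623656832029430) (ZL.cons (nat_lit 14212) (nat_lit 6) (nat_lit 118759237775953761126) (ZL.cons (nat_lit 14288) (nat_lit 6) (nat_lit 120014555560524375358) (ZL.cons (nat_lit 14364) (nat_lit 6) (nat_lit 119464399035239519108) (ZL.cons (nat_lit 14440) (nat_lit 6) (nat_lit 118999693021349965064) (ZL.cons (nat_lit 14516) (nat_lit 6) (nat_lit 118620031465057168956) (ZL.cons (nat_lit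 14592) (nat_lit 6) (nat_lit 118325082623253690478) (ZL.cons (nat_lit 14668) (nat_lit 6) (nat_lit 118114588773650575132) (ZL.cons (nat_lit 14744) (nat_lit 6) (nat_lit 117988365989583121166) (ZL.cons (nat_lit 14820) (nat_lit 3) (nat_lit 58973151989649129967) (ZL.cons (nat_lit 14896) (nat_lit 6) (nat_lit 119524677856587601560) (ZL.cons (nat_lit 14972) (nat_lit 6) (nat_lit 118940321067790087802) (ZL.cons (nat_lit 15048) (nat_lit 6) (nat_lit 118440388782482496524) (ZL.cons (nat_lit 15124) (nat_lit 6) (nat_lit 118024444166629122064) (ZL.cons (nat_lit 15200) (nat_lit 6) (nat_lit 117692123773478247884) (ZL.cons (nat_lit 15276) (nat_lit 6) (nat_lit 117443137225987314968) (ZL.cons (nat_lit 15352) (nat_lit 6) (nat_lit 117277266963095408900) (ZL.cons (nat_lit 15428) (nat_lit 6) (nat_lit 117194368049621362006) (ZL.cons (nat_lit 15580) (nat_lit 6) (nat_lit 118369810925427082586) (ZL.cons (nat_lit 15656) (nat_lit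 6) (nat_lit 118702664671013235236) (ZL.cons (nat_lit 15732) (nat_lit 6) (nat_lit 119087508224378059252) (ZL.cons (nat_lit 15808) (nat_lit 6) (nat_lit 118469947296247868300) (ZL.cons (nat_lit 15884) (nat_lit 6) (nat_lit 117935814747427619514) (ZL.cons (nat_lit 15960) (nat_lit 6) (nat_lit 117484643860156207820) (ZL.cons (nat_lit 16036) (nat_lit 6) (nat_lit 117116040407444755288) (ZL.cons (nat_lit 16112) (nat_lit 6) (nat_lit 116829682308606426670) (ZL.cons (nat_lit 16188) (nat_lit 6) (nat_lit 116625319347826703032) (ZL.cons (nat_lit 16264) (nat_lit 6) (nat_lit 116502772955528204036) (ZL.cons (nat_lit 16340) (nat_lit 3) (nat_lit 58230968026169509187) (ZL.cons (nat_lit 16416) (nat_lit 6) (nat_lit 116600694684562950272) (ZL.cons (nat_lit 16492) (nat_lit 6) (nat_lit 116652354546737245160) (ZL.cons (nat_lit 16568) (nat_lit 6) (nat_lit 116755719410771229948) (ZL.cons (nat_lit 16644) (nat_lit 6) (nat_lit 116910879595478138218)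 (ZL.cons (nat_lit 16720) (nat_lit 6) (nat_lit 117117970677718393482) (ZL.cons (nat_lit 16796) (nat_lit 6) (nat_lit 117377173610864827030) (ZL.cons (nat_lit 16872) (nat_lit 6) (nat_lit 117688714882917275552) (ZL.cons (nat_lit 16948) (nat_lit 6) (nat_lit 118052866714404716914) (ZL.cons (nat_lit 17024) (nat_lit 6) (nat_lit 117485530026251790934) (ZL.cons (nat_lit 17100) (nat_lit 6) (nat_lit 117000158875467721732) (ZL.cons (nat_lit 17176) (nat_lit 6) (nat_lit 116596329151338231966) (ZL.cons (nat_lit 17252) (nat_lit 6) (nat_lit 116273687992939324996) (ZL.cons (nat_lit 17328) (nat_lit 6) (nat_lit 116031953480812205656) (ZL.cons (nat_lit 17404) (nat_lit 6) (nat_lit 115870914390625889090) (ZL.cons (nat_lit 17480) (nat_lit 6) (nat_lit 115790430008612251326) (ZL.cons (nat_lit 17556) (nat_lit 3) (nat_lit 57900137579438091228) (ZL.cons (nat_lit 17632) (nat_lit 6) (nat_lit 115826486813082844396) (ZL.cons (nat_lit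 17708) (nat_lit 6) (nat_lit 115905144679090001078) (ZL.cons (nat_lit 17784) (nat_lit 6) (nat_lit 116036317487071833516) (ZL.cons (nat_lit 17860) (nat_lit 6) (nat_lit 116220119854045024868) (ZL.cons (nat_lit 17936) (nat_lit 6) (nat_lit 116456712384019551702) (ZL.cons (nat_lit 18012) (nat_lit 6) (nat_lit 116746301808332284968) (ZL.cons (nat_lit 18088) (nat_lit 6) (nat_lit 117089141166286022202) (ZL.cons (nat_lit 18164) (nat_lit 6) (nat_lit 116570565876169275806) (ZL.cons (nat_lit 18240) (nat_lit 6) (nat_lit 116132535888527128532) (ZL.cons (nat_lit 18316) (nat_lit 6) (nat_lit 115774668458710184328) (ZL.cons (nat_lit 18392) (nat_lit 6) (nat_lit 115496650887022486636) (ZL.cons (nat_lit 18468) (nat_lit 6) (nat_lit 115298240245488774368) (ZL.cons (nat_lit 18544) (nat_lit 6) (nat_lit 115179263165587319034) (ZL.cons (nat_lit 18620) (nat_lit 3) (nat_lit 57569807843381433466) (ZL.cons (nat_lit 18696) (nat_lit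 6) (nat_lit 115074828685432256164) (ZL.cons (nat_lit 18772) (nat_lit 6) (nat_lit 115128038343471779898) (ZL.cons (nat_lit 18848) (nat_lit 6) (nat_lit 115234504153426784230) (ZL.cons (nat_lit 18924) (nat_lit 6) (nat_lit 115394319143674899750) (ZL.cons (nat_lit 19000) (nat_lit 6) (nat_lit 115607622958382362672) (ZL.cons (nat_lit 19076) (nat_lit 6) (nat_lit 115874601979523189224) (ZL.cons (nat_lit 19152) (nat_lit 6) (nat_lit 116195489489737211202) (ZL.cons (nat_lit 19228) (nat_lit 6) (nat_lit 115724255362762386734) (ZL.cons (nat_lit 19304) (nat_lit 6) (nat_lit 115332187669432785022) (ZL.cons (nat_lit 19380) (nat_lit 6) (nat_lit 115018943826327050096) (ZL.cons (nat_lit 19456) (nat_lit 6) (nat_lit 114784250125232759476) (ZL.cons (nat_lit 19532) (nat_lit 6) (nat_lit 114627901493983908440) (ZL.cons (nat_lit 19608) (nat_lit 6) (nat_lit 114549761317271638768) (ZL.cons (nat_lit 19684) (nat_lit 3) (nat_lit 57198361687565125900)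 (ZL.cons (nat_lit 19760) (nat_lit 6) (nat_lit 114423721378963113594) (ZL.cons (nat_lit 19836) (nat_lit 6) (nat_lit 114504738980950484978) (ZL.cons (nat_lit 19912) (nat_lit 6) (nat_lit 114639846973171772392) (ZL.cons (nat_lit 19988) (nat_lit 6) (nat_lit 114829163411154159482) (ZL.cons (nat_lit 20064) (nat_lit 6) (nat_lit 115072853717027922122) (ZL.cons (nat_lit 20140) (nat_lit 6) (nat_lit 115371130824070037386) (ZL.cons (nat_lit 20216) (nat_lit 6) (nat_lit 114945858991407758480) (ZL.cons (nat_lit 20292) (nat_lit 6) (nat_lit 114598414884789366046) (ZL.cons (nat_lit 20368) (nat_lit 6) (nat_lit 114328494912277038192) (ZL.cons (nat_lit 20444) (nat_lit 6) (nat_lit 114135863221467608804) (ZL.cons (nat_lit 20520) (nat_lit 6) (nat_lit 114020351493407943430) (ZL.cons (nat_lit 20596) (nat_lit 3) (nat_lit 56990929397760062930) (ZL.cons (nat_lit 20672) (nat_lit 6) (nat_lit 113791578362973654792) (ZL.cons (nat_lit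 20748) (nat_lit 6) (nat_lit 113846384310754364236) (ZL.cons (nat_lit 20824) (nat_lit 6) (nat_lit 113956044095008018702) (ZL.cons (nat_lit 20900) (nat_lit 6) (nat_lit 114120653534963577686) (ZL.cons (nat_lit 20976) (nat_lit 6) (nat_lit 114340356464112264494) (ZL.cons (nat_lit 21052) (nat_lit 6) (nat_lit 114615344855887315846) (ZL.cons (nat_lit 21128) (nat_lit 6) (nat_lit 114234696609936246218) (ZL.cons (nat_lit 21204) (nat_lit 6) (nat_lit 113930576373911260856) (ZL.cons (nat_lit 21280) (nat_lit 6) (nat_lit 113702718411683794234) (ZL.cons (nat_lit 21356) (nat_lit 6) (nat_lit 113550923624063550508) (ZL.cons (nat_lit 21432) (nat_lit 6) (nat_lit 113475059374828337236) (ZL.cons (nat_lit 21508) (nat_lit 3) (nat_lit 56615528468764133531) (ZL.cons (nat_lit 21584) (nat_lit 6) (nat_lit 113258864881476114712) (ZL.cons (nat_lit 21660) (nat_lit 6) (nat_lit 113342313011523107238) (ZL.cons (nat_lit 21736) (nat_lit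 6) (nat_lit 113481474243511033274) (ZL.cons (nat_lit 21812) (nat_lit 6) (nat_lit 113676470174632891976) (ZL.cons (nat_lit 21888) (nat_lit 6) (nat_lit 113927471189682867496) (ZL.cons (nat_lit 21964) (nat_lit 6) (nat_lit 113590146814325204940) (ZL.cons (nat_lit 22040) (nat_lit 6) (nat_lit 113328088588585080810) (ZL.cons (nat_lit 22116) (nat_lit 6) (nat_lit 113141067529546799850) (ZL.cons (nat_lit 22192) (nat_lit 6) (nat_lit 113028920220751008226) (ZL.cons (nat_lit 22268) (nat_lit 3) (nat_lit 56495774334701806262) (ZL.cons (nat_lit 22344) (nat_lit 6) (nat_lit 112741667326624134054) (ZL.cons (nat_lit 22420) (nat_lit 6) (nat_lit 112798117452838264786) (ZL.cons (nat_lit 22496) (nat_lit 6) (nat_lit 112911067030619528882) (ZL.cons (nat_lit 22572) (nat_lit 6) (nat_lit 113080614753773754636) (ZL.cons (nat_lit 22648) (nat_lit 6) (nat_lit 113306908770796902050) (ZL.cons (nat_lit 22724) (nat_lit 6) (nat_lit 113011646405724100726)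 (ZL.cons (nat_lit 22800) (nat_lit 6) (nat_lit 112790425083173162258) (ZL.cons (nat_lit 22876) (nat_lit 6) (nat_lit 112643051502959333400) (ZL.cons (nat_lit 22952) (nat_lit 6) (nat_lit 112569396892051359346) (ZL.cons (nat_lit 23028) (nat_lit 3) (nat_lit 56147169863002431139) (ZL.cons (nat_lit 23104) (nat_lit 6) (nat_lit 112322981908271145360) (ZL.cons (nat_lit 23180) (nat_lit 6) (nat_lit 112408933482219547662) (ZL.cons (nat_lit 23256) (nat_lit 6) (nat_lit 112552269551167111476) (ZL.cons (nat_lit 23332) (nat_lit 6) (nat_lit 112753115360222625942) (ZL.cons (nat_lit 23408) (nat_lit 6) (nat_lit 112498689898339010280) (ZL.cons (nat_lit 23484) (nat_lit 6) (nat_lit 112317116054612523914) (ZL.cons (nat_lit 23560) (nat_lit 6) (nat_lit 112208235172286512626) (ZL.cons (nat_lit 23636) (nat_lit 3) (nat_lit 56085976056362967137) (ZL.cons (nat_lit 23712) (nat_lit 6) (nat_lit 111916491210841059246) (ZL.cons (nat_lit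 23788) (nat_lit 6) (nat_lit 111974634840841613898) (ZL.cons (nat_lit 23864) (nat_lit 6) (nat_lit 112090972905956315918) (ZL.cons (nat_lit 23940) (nat_lit 6) (nat_lit 112265607060805168444) (ZL.cons (nat_lit 24016) (nat_lit 6) (nat_lit 112050829077746004884) (ZL.cons (nat_lit 24092) (nat_lit 6) (nat_lit 111907747931907336088) (ZL.cons (nat_lit 24168) (nat_lit 6) (nat_lit 111836238600928720502) (ZL.cons (nat_lit 24244) (nat_lit 3) (nat_lit 55789145087250854158) (ZL.cons (nat_lit 24320) (nat_lit 6) (nat_lit 111607791622235979886) (ZL.cons (nat_lit 24396) (nat_lit 6) (nat_lit 111696321743402834256) (ZL.cons (nat_lit 24472) (nat_lit 6) (nat_lit 111843957894418824988) (ZL.cons (nat_lit 24548) (nat_lit 6) (nat_lit 111667672609247478998) (ZL.cons (nat_lit 24624) (nat_lit 6) (nat_lit 111561963014756205904) (ZL.cons (nat_lit 24700) (nat_lit 3) (nat_lit 55763368371669084335) (ZL.cons (nat_lit 24776) (nat_lit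 6) (nat_lit 111308083283784446526) (ZL.cons (nat_lit 24852) (nat_lit 6) (nat_lit 111367971222685017814) (ZL.cons (nat_lit 24928) (nat_lit 6) (nat_lit 111487799429753160896) (ZL.cons (nat_lit 25004) (nat_lit 6) (nat_lit 111348885695929210608) (ZL.cons (nat_lit 25080) (nat_lit 6) (nat_lit 111279459160998515866) (ZL.cons (nat_lit 25156) (nat_lit 3) (nat_lit 55537623972207290219) (ZL.cons (nat_lit 25232) (nat_lit 6) (nat_lit 111105634435580880156) (ZL.cons (nat_lit 25308) (nat_lit 6) (nat_lit 111196820460382740156) (ZL.cons (nat_lit 25384) (nat_lit 6) (nat_lit 111094189786119368220) (ZL.cons (nat_lit 25460) (nat_lit 3) (nat_lit 55529994761303355356) (ZL.cons (nat_lit 25536) (nat_lit 6) (nat_lit 110909082155771592420) (ZL.cons (nat_lit 25612) (nat_lit 6) (nat_lit 110970766732839180850) (ZL.cons (nat_lit 25688) (nat_lit 6) (nat_lit 110903362329993846148) (ZL.cons (nat_lit 25764) (nat_lit 3) (nat_lit 55389071319273320818)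 (ZL.cons (nat_lit 25840) (nat_lit 6) (nat_lit 110809440724447930348) (ZL.cons (nat_lit 25916) (nat_lit 3) (nat_lit 55388118292557626577) (ZL.cons (nat_lit 25992) (nat_lit 6) (nat_lit 110712701470735637072) (ZL.cons (nat_lit 26068) (nat_lit 1) (nat_lit 18446744073709551617) ZL.nil))))))))))))))))))))))))))))))))))))))))))))))))))))))))))))))))))))))))))))))))))))))))))))))))))))))))))))))))))))))))))))))))))))))))))))))))))))))))))))))))))))))))))))))))))))))))))))))))))))))))))))))))))))))))))))))))))))))))))))))))))))))))))))))))))))))))))))))))))))))))))))))))))))))))))))))))))))))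

noncomputable def vl : XL := ⟨(nat_lit 0), (nat_lit 76), (nat_lit 157976847), (nat_lit 152), (nat_lit 183705960), (nat_lit 152), (nat_lit 183705960), (nat_lit 1), (nat_lit 4), (nat_lit 2), (nat_lit 5), (nat_lit 2), (nat_lit 4), (nat_lit 0), (nat_lit 0), (nat_lit 0)⟩

noncomputable def cp0 : Nat := (nat_lit 101107621593668340370654913952784220245926064925057931698888587568816930446537378793254778271788553420008689060485607913819281686128904410366646975282099473781065227666178896781966993682773504494153448936894867367520467503011596330297510955020083363896520232851681577094852055066652373552557559260430536507451405974184878513960870356832967771137216234207213617833530879421107149043290986951266204065911118632808388040133859734098393913202528546554502448575884103311926431358981321047525671153640356464067053328603382662899663221469652548143160452117385691581293868468647245350000065607514104332863927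7462205575765723679751038440395709952836216676755209419851203060040724135240828244440003229278186607285406525552544126525644092027473048791850089813201262036904705542987318984995016508523051301231035595771414554133666443350038867102045114021312995783772329609127976427482454380229827052132959210801966869819883060007228417747708025964917541478309250997728996707735845758968036692946491366234928872243820008498302030468162769321600713778461187478483330200578788998756968810517280278133705296255555251196857683704293175549919509485191578517952067691274966219340320192661824471164797818928557135854210964561930057514545382483672345401461625810891331394023879159114533862219241916337550579232459215799295230860294427060589821535097631763987709782764996826658563515293417087869253810259947985331262645017837509639107561398516580119574790604743271829622113492915731139409133555110456672385582655495776974279313593992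0162466270586013887787728408212343987292564520397775359875311342750443099022397824266521135494104923061770299162634041946983248449947171069522390639239798126233223820827847040208745510792223163829692826788982055735170124570616062982296199828702612181116075949247440743934260661767219999972605708748722536826857021221970663081693799970705474963237504890200034675733061692020303266116130109497274389742826238516349196797377237614373895750066484068338752195425551902256986691694100253895349611024293944970340281415317949127518508392429702120765771742143664721417538020083120900165086636751628123979564678029629645110823955250922575649029687671534356443958128834680772620640639992357952241857509542974841715842091616547214104679154066288404875646234712674087499027082323153160740418483808655716589302516999465989171098429940982991778572610530237545075387633742029543747704262201948011944121593439955051308454139636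3797719225089957067319115741971073568717117529443298952691844161094849420398582199349186195438481484421190186823191626342816271620982081413669310547097778331464326529370221462245236038878438196780774942842287647907882038350501350303579975599964189265041742063358224106816093436057077806611112969591595328595679364901178438509810305983761853691343206165288505273886275802598771072566709399272978998595154964149166638889421691270922478975489142950604770655333139834475606060007089926115837721163847807834753934890805424005359901856814973933747995856696544168654984062795616257597231544948226727268757949754166269347061420421577969181852393576371995731080161257005115034638652883371680046690621397108525838315650378146661124873341778224295107661925039920994568665007601349492183001906988881222650109850671119671967642931033960702676332219161240179270968973621122524189028074883645269835541595555542618461757021292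5622842906276783348300800269694621387887860144546094900339011760706249660306969303047011851488817370586470161099170237522296267677022086539802037595302810441770027698140713192456152643174850874565031849336160021367443262686806612696835612903825451441553690182298600945051224899042352260954219090573705245069416684117045186894693781004070787357367868137604744885400197296623502822171197474675713175785181520439047796240326996071392937706563389809317841376538346746723873289562886952063693568113768432837718740573654918270037237055966927999115333305527737336414490327333903135890138303751381681390052771712657901295539388754755750674506225102377403033061908991796721116012826836764165919090293196580369269229678143594810317987819181788158529406407790759522836906799672049371412916722919521838969466864979916194478793505637421556718536525521587031576724972080390486277140839374458104162053241522457654344966142450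3552948419024362923835617335222787010536806497835057597121771119193422620439315979050159451989117321020804622311469967186865244185472311050757645750090327022942971242674606546083409282306659275916768215839123388486741665841171609039539208600052011421615323082765345548639472596348775880515947403554013829878330326501928851642605563503455075093810119426129982515525491975495514144884203292681827963876998189636051244313744431485177301208281791447472488199587081059011609341651685261264269068384318966600197410411431179225763403543403033083366956278502279254736537680651842209956524126267809648027377052318598190467137330825063822495413340898647633298631815234043707318216036002765682812536079892921277527585465382449797792282781397039417381479181990943560556522950113069803088440914738079817702293637589010065207897936771887903561249052371579193676244831148587139210353275814089756942616466603582681178360768886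5505517277640508547202800527001839109175872589989434157289756641830654138805784071442258765549768274250832940321604517750915071152846038597278788220778099541146425629873086315809803514387847374775398844512822317269278196000680419781256065783029778435787885161725274601619556080457036799483006455710684655621388202279366855548106379769153948210333587362410425703405945920535392333475182364735293984042321899125128873166947486398823342441987867817951948796364371171757576207884568843593414286879150449872375040410208104571976564633601443789560070526500601017186544193967373760994643754378531006213170028634249604371281237544661646475024625286441724476030640204188201457250711650973823857105130282775482838615645602980022969798772251454435405029604731683181713886182899602091857516647116701122920129919281217748529715778152519821165336348770731459324638422941240237612810423190616989169169788223462653828223935936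8601723119231749099800045107060224118514434952291575580566900631919899535110185412146289940342620402869135794147270827148672985042524108377270021804137911894110062205038131768892812393128625287686770056969172173034193750864196030428768951842002641063838612159455950914479767274880161482214975869563281849862592242543955532868829600316348544699684367692511404750820939481850723048960709957262632502957545890216200080454639472319310045453153546581013048046063026001181461545146961208040269552994470261071532088905738929330248629983330511353814003305764746597944884115235768529627651488287037410241642059637534075815389236014497189259787624490437231677635294731422425436567835720678526352258945127151764008580526459077883277874904154009237209415902961486901434963306127588971116789745335336448382692135115225115434106859326098833697843284720651148222161726256131083827669036204288073875483905753290279948697031914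546393354653919454383813703120824059340439229990424468690198167365067752139359847823100167297080681106065542569071427242818737557242116670050205058926258544336605272777635799984130953986439374612665031657598427788628193842190874870041241398627600859415453322363255288688326422314859083585847059840882369774266507303641212925505278184369995242572852366062790681520534669090678225665505480937300508343378639427940749297924294163416614152603456072706943645838635775188571468110813141676005637928120713514099706604613973308341743531560997695389293690177208943543355241167895581521647283123942326871746266521439922129912687289788947800412530933326175697905546495720313698010942173411300169503200574685888790497339056387709260245329962626333397226541927511162687607180821396374207338465832985844040991130666236488809767166540854050901047364051697291297571101734993906532758933977140212754146938750763008)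

noncomputable def cp1 : Nat := (nat_lit 1566180557115702372183139511657199058390481561812668461414759005205047264769693891623012018100372579600948121550806479674379524775966282575401398223994136935844948730470297905740325748317040050668844004823797767209198504378308273455618498995930429184168836621422993906619959635776551216118584740616118190035510477692870959760947685102806209546069399287122885245604364817801574463505320706096625355976565420559448154734276394045558616916748095984670470555835522459622104040765987776600966293380049790712542552634012681671630932067403863819577322192019835773630329570005841423404763327265252015599399751658675921532943154943810889258391743660426882113173416973984325281539386870075124805392878115995140806467071524706391604827379881780272242445141869731943367944037459638520967860100913883818725830788681564597064829735560688552827796849281853034204737634962827550841335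7643152071691568139826844921965047219940778324871675924332158691963240241092108428467785860905636056218306656293883191058881502642096482251840448385538341113532503721146434845979250226318971765904302784938880630945190301150289355864212359881892184107632996646471811352943009606515569253037955572395149885983367035646866686848078186612084127340078876065611730977198013080134880619177791724957019249065129802971581468588364794888167848052785739713030744815260324458169170590296009946808130918316386972752084740028920769244265443512089036105067351057153844107949105079756427217871010197950137817706427986387979407024361302781486288850254100142981748656967386528848643036767564138410583574396445681699915707526890602302269606536332542882859467365445430469908762725612214258783769247024117890910269872626594266972970255682278556371866189952866417515806558158869576472193478957330174955221208227114002461904972884031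2546002525237524385951570726501313906107250256700436418670413528554128597485443746727653720300416459707571631480235399639844191315982810551738030386053125861347625220439173100310303509637735189870207093941073705220038156998203403332410011698267798224655844004582398418602665742763828021122403180576464732840640135555167994470322513325025245201097516552675717939880232205408633086721436043402490942496316132123117949506045426784272353274904032517421131262344900128809787440050172553154864300691666207140292180257485296946197731647285987346009822792557111478660494051184852242407711574091880359655811805048191260929881071008423245036577441332726148800736670479925212492094146674786767159006592933487772746623054379539169595371611894320829313750158225293909270842636237754741659278073331186498485567044417277356433925495881036614663634389496068757950236056285254023774314189117037241936189721903393692657621836628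6113850380767858681444053561504291386785966937643717165267529017691291631819834559175333138663107588372077346717735190091238997730377615164356622601357334733621468310865404989268610467201309313683806874506022748487336464713877964876239397428803986449102259620038357547316935451707010631659419802238320672487872446914806634981659924567658570896591493162690707093293047575340857256875193694048592477901895267941534442033352807264864863508008615726616354261619534971555860858550595035250247020604285131139319931480474649484625521777007086579872372892877143964769418146765211880546846530801271438936147246206989833387227050675179073137331608066593676225795771159659254467828238787888414242607874723815638775129889069268803191357310818364709491106856729880922708664306717848193643935640600679830914902448035773750732276738613766441486836357828198096894290413881615530500560227044681149297094759383535071136502435502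5759595224043609261651705454600275307739837397009820639311446585584172394108307615726803197365808300481720739850663020033683727206671890274526911555841910126292067227950888490617382725925765488514087876841094667541436899405696728365155837091614562849400175360239238643022340171215462941524573724092943830176606659446642803959610500132636336528847015949275508238381801066941765754467407669924196261342699073179635430422550247698460266874182675949173481918627855736075913429844272778125588763707934398158076671272065783960768554287570325287949524864620228656531809742958267107437346880505343020196692626476554708330553415208537206723917438109424247217640752179389697188833121137343698224116422813436231744404338774468520645575529327697561819850213892884809270054769180858842917212746570474038216936275732577500207748396762269563924683105013926973771211890572607471259159403767931807192747941065925917431929335085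6940986389207284488272548689560782536752222135035265722625448063601067145233241678292792441013790327187292956687729451563780048343528186161169023443765870687864067378395355657173156834890006087215758529610606096258019110468063191915791516847673155509700150144627028825552393933528850364563600961708817103386912679503218283376253671023890185818142414833995875971757539759726767939519973698096697686626033266302457442207075570041769068554995291993617757986215575023736587571278458065218098935810913428477671428615900438442344550546967365674964772851312556699264882357530412893678589982267298936299012545524174193658995545866056020842340127469231138494238697524513948385970801306336853760989369727604535147616400619377753013273282848845199693593439072063092948814425241933731253753247315276354969691738789282028340083152632884072493935031653826590307775552602359779327659194371705247137373170441118419816449407860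1467110682820576415322108065393163350718601390466881094289964042168824627320892699118309703312602757060939927725380523869286980137235075760866008314587360365761612127060166528784956860936104587457595159020462697619225985262697300720061827308551429210457323959736118099181300092317615376862890343580002830748701438376223921754971041461860884301826011986720362656585844562052029522693040931892639689256151487939095932181785289098209504542820706415039156131442802232977541511250323637050719825806116670264588954763012136616737337770253784601634820075627629684637505844180011102918172728197477280441913059674731646989706125564989952111036042083824737045395667975377388389426847307251155048108448021489633679882589431846984256162807473175531912636859789909100026113383744645915528180593851619399301876787742076007533137555403889318572313268866018140541417637758976221605196140550663612750792634021547531031481330857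4424238875574966752297341903236390808584777034749280699065383259961559053046141670711133093498680571020469631891828724983298421284063553661955098196455996509513673579067367467635990137294878573346651553378279664733665566200281721573220646459212147410350344199048769732972629473190282574120641500942559944349575532559644989855431760559037671923128446023500419364262311666270107002714598752122758937123455535020098301688046690010169854328571270842525565761583504490378794266941901625614437747838829076883855046564411322057733570092036895767485512051292823396356882051720182763824632162621849512250124335880722787400277965920315672661531656072525899365958051195759176794672390509532549813457250769981034946523670612339852171076754011938492060649155653607957378983050089845114296509715064759135762805223606692294483498962556356411874702110478176519995018697449610187251858000243086550562945615126971128500373032063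6163889242643798466304645770561312068152958515548972532042138225513255492600834198678267303068273322932507840678464081314760005661548369785511109679948682268975131625225003312653425111318572892661993865401123356455065076116352938290409220763404085667937749513687936208210214447596877263893750599348755657712531796493880245642709202747979929188079542646788988031524424631384657697237802589914215102099568074253312703516655021346977149862213679446069460918422774523171135637254921703724339843228728400161444604034666298591123815166714561739420053235964104089529978068138339839373201837086736761607899037826814779614907926431228856966404892055510844128563014987771708036360818187929877756065894337002646028490602716292487399229253131949167146655908780212998825635331751740961552751596207140097379524931138354159133351282613176750239104779509344471462973147918857698053538651247510149898625338085328421286005327847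1427032751803653060349522165988199935766902483397576925421378338215488757515649796606979354694303125240218736269979997828691648604892698357429501612676730575908951079552401645194503291371105452316220351793152205633476127056476295907234352799287841948928906053115398408009248861133371271046866797447017630556232360309369352693145735118394791367514016068967785440970793494846751089937611706141279808635807375366572697339477941961104505142686985655129811339147573245286775723245709665529895491409699453935298764462913181744308550546286750099176992803398218733825044958216156726175706602751169077949210734534669421269799013454587961772342391815109095962047997918438782518538215720114039788171487400640589634773339208333472988291558227532153268579522366369265789943624781109530294139975567894766236718416126517850448880195568963372250922270679521825994897104673787439841956228838961741863090037356752450222215540063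6344312568245789537482856264854882836451227631660352639786196978219818249570376617703725668053712003150911756708406641090302617795717112965108519213402020222837419074014063966418288765757752230770408713166538121522072004904889161830306610198129594297742608013869309015469284005017554936209012599511020087700388957433592441172732388134571368731120870471123026561219681172958900636637495077132213471931657782776222748673170807963485962783809952158380584072239586063764683211520511402189173701269780727063178124871039926808707663201413463952851357212560955949552526014144941969502364409750878104358287224116665327524278487001295133583985216776817776399514143241127529993353535233389444152411053236125876928644542958222195303216292577345528756169551625151725946678861501913454557242683035062159871843834534785263210508854927691787202723001982510483429136036552037462287218056601268460803470918552447687958441201887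3491054914327153379307537556334882686782056556222342369417443066575042520971141707401976960834298500157800154330808261071714228264006521079780503496675903184620891181474475188855915107195738669917858674670316894371076869720973039522537461151816903340142321018760765939788995842009582141216506782299684293082425254837732623415431874688708215902116973638971193178292487813116914253547928771077794481675189960483023184844358911362273502313824392634687792517733748849852447791439202479459809002922484587838849178766164596089664613301564253620382321170135611653190426485463141586569296729418739878390743317813230048436486489490679818946049972112781925636074410715459895769283655384711036463012313254847222952843218598998387620783280403133969954333587553521569525876986535286741874009586980742612122505451579540517589327314219579668129580193402253794279745435960496430474135024086344113984180379098407182463802839316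1183674596550515268763559832390683800461608683565740141370823460682495909502502215976153066444907665621393046620986719818868083159852902960646762524620151970821527746845018082248489889872178614503817227590275100477243319960377568660502008004403647389577880649051542874101034687890578655072631746751787110909651726447340076653349288493318969900735507821449111247210422280724777582425958459097403004805848003700761006070614104366251478590159616463016505184425134746345079626380413452483390888248803523478460878501684533457471720569076934370506635632214997852255172293107562098673738606799121035041501442741619656890970307410097168933482173438595147835924007432191397402936731902169001243327692895941669330976085775930836228902267917950867734462853861664561337892577615769611487599979034848098796197809209717644187563424823784260470933696421913479734875301259705076864829462511921206022985468856270846442002187838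7467963509504659382801431017106255582591749961503793250902206051454212628847789003444265179793317935358994614159344991118421080759068354179169394290835120213702280246062087469275011904103905135133082980530890980004435092130289877663974739307235573900286194707042400829009310278296057761078607906386300588637402261083643151722004698427922471656217125120132749607450218739674338109300645559236345136101629946712715216717589535801688831318638103363800382796217360380699213244460791007164141560778982779573286237914839381764414070071958300520523858104299346831059692147893507250586612907818885885456916668294280326338728975025553427256656427476676803607701219349289958968624257879447077804592630857479294056633554558153127847816785136307355056718548501358144625048413125841399959952888565929114785910681464493308868552329471587968247356259800533508891925320260320974211340414306349899341761625589138069573279577283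0222952358087072715837740974054352349198071668193517339349163443049647505946315983906732502799528575298853083618439553486540428284211138820022772930103289160570887657848463415658212401362998163691824924735729641844814479930921420287432994051164828110148900692175632181431750317654256478465216743231812319472176793237583550279164925966812323234413164879619593205174865133443145065655894859705169012599184936958927969223621911670402394090490374717531036150015778206944851343684494846716116671368908848119036392598047203411752588958940738745527099521429261511087594531108338713258171318508400683957154107532668260683410075088542372620297402804263912245014988525963384777145968511233835897004000357884901656781399791162415728078475207690432275707421271456324855182718788962991938469462554963995651379538386960068957071230181073715729454187879218445249115423060398457806647586274013396984731211386844327866147893592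7794350924108320058139118892669074449881037536564751354831962997564990899642135431309503884174414983396736430001386421557002710270892422846637641550622244866608916210821198872555385490238796179976628928243251553534519321504805313279184750384923531998538914513446291183428471552959896228109511373988649950110837730198276413869295234714153081737587204026043010686323945713314316950642012816155516571800032271252658811770617405144382508203884852726639150780756356076548768286127238943988724478807768924194106117308783033124765130461718137868737923961567918233745801911616920153086776731058979780330611969465641481876737552018521574497825606521760456707219134747177471724378473079421620256907637316541365710401151739661931927140629900347091473860938481952037020859227970314672508851245088954872571058692480386580545057042216398210096260715795112916784427959425558943077021949324849565691967196843712824958011963132619283758040830033944975980876142336420165611522151725475822008471130677538631317161211950444737865260431872366644780952417768499917108345219025906818846628892351528313573201192035331262551550136283516458828475312108052798712876822587230172028387046554885528288745739724977232888449585508497121965975117262914697626836465603003474308393684286505475848025667619992887993604547103122781730662637533293507737575643154441619487371187878231015424)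

noncomputable def rc0 : Nat := (nat_lit 1566180557115702372183139511657199058390481561812668461414759005205047264769693891623012018100372579600948121550806479674379524775966282575401398223994136935844948730470297905740325748317040050668844004823797767209198504378308273455618498995930429184168836621422993906619959635776551216118584740616118190035510477692870959760947685102806209546069399287122885245604364817801574463505320706096625355976565420559448154734276394045558616916748095984670470555835522459622104040765987776600966293380049790712542552634012681671630932067403863819577322192019835773630329570005841423404763327265252015599399751658675921532943154943810889258391743660426882113173416973984325281539386870075124805392878115995140806467071524706391604827379881780272242445141869731943367944037459638520967860100913883818725830788681564597064829735560688552827796849281853034204737634962827550841335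7643152071691568139826844921965047219940778324871675924332158691963240241092108428467785860905636056218306656293883191058881502642096482251840448385538341113532503721146434845979250226318971765904302784938880630945190301150289355864212359881892184107632996646471811352943009606515569253037955572395149885983367035646866686848078186612084127340078876065611730977198013080134880619177791724957019249065129802971581468588364794888167848052785739713030744815260324458169170590296009946808130918316386972752084740028920769244265443512089036105067351057153844107949105079756427217871010197950137817706427986387979407024361302781486288850254100142981748656967386528848643036767564138410583574396445681699915707526890602302269606536332542882859467365445430469908762725612214258783769247024117890910269872626594266972970255682278556371866189952866417515806558158869576472193478957330174955221208227114002461904972884031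2546002525237524385951570726501313906107250256700436418670413528554128597485443746727653720300416459707571631480235399639844191315982810551738030386053125861347625220439173100310303509637735189870207093941073705220038156998203403332410011698267798224655844004582398418602665742763828021122403180576464732840640135555167994470322513325025245201097516552675717939880232205408633086721436043402490942496316132123117949506045426784272353274904032517421131262344900128809787440050172553154864300691666207140292180257485296946197731647285987346009822792557111478660494051184852242407711574091880359655811805048191260929881071008423245036577441332726148800736670479925212492094146674786767159006592933487772746623054379539169595371611894320829313750158225293909270842636237754741659278073331186498485567044417277356433925495881036614663634389496068757950236056285254023774314189117037241936189721903393692657621836628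6113850380767858681444053561504291386785966937643717165267529017691291631819834559175333138663107588372077346717735190091238997730377615164356622601357334733621468310865404989268610467201309313683806874506022748487336464713877964876239397428803986449102259620038357547316935451707010631659419802238320672487872446914806634981659924567658570896591493162690707093293047575340857256875193694048592477901895267941534442033352807264864863508008615726616354261619534971555860858550595035250247020604285131139319931480474649484625521777007086579872372892877143964769418146765211880546846530801271438936147246206989833387227050675179073137331608066593676225795771159659254467828238787888414242607874723815638775129889069268803191357310818364709491106856729880922708664306717848193643935640600679830914902448035773750732276738613766441486836357828198096894290413881615530500560227044681149297094759383535071136502435502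5759595224043609261651705454600275307739837397009820639311446585584172394108307615726803197365808300481720739850663020033683727206671890274526911555841910126292067227950888490617382725925765488514087876841094667541436899405696728365155837091614562849400175360239238643022340171215462941524573724092943830176606659446642803959610500132636336528847015949275508238381801066941765754467407669924196261342699073179635430422550247698460266874182675949173481918627855736075913429844272778125588763707934398158076671272065783960768554287570325287949524864620228656531809742958267107437346880505343020196692626476554708330553415208537206723917438109424247217640752179389697188833121137343698224116422813436231744404338774468520645575529327697561819850213892884809270054769180858842917212746570474038216936275732577500207748396762269563924683105013926973771211890572607471259159403767931807192747941065925917431929335085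6940986389207284488272548689560782536752222135035265722625448063601067145233241678292792441013790327187292956687729451563780048343528186161169023443765870687864067378395355657173156834890006087215758529610606096258019110468063191915791516847673155509700150144627028825552393933528850364563600961708817103386912679503218283376253671023890185818142414833995875971757539759726767939519973698096697686626033266302457442207075570041769068554995291993617757986215575023736587571278458065218098935810913428477671428615900438442344550546967365674964772851312556699264882357530412893678589982267298936299012545524174193658995545866056020842340127469231138494238697524513948385970801306336853760989369727604535147616400619377753013273282848845199693593439072063092948814425241933731253753247315276354969691738789282028340083152632884072493935031653826590307775552602359779327659194371705247137373170441118419816449407860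1467110682820576415322108065393163350718601390466881094289964042168824627320892699118309703312602757060939927725380523869286980137235075760866008314587360365761612127060166528784956860936104587457595159020462697619225985262697300720061827308551429210457323959736118099181300092317615376862890343580002830748701438376223921754971041461860884301826011986720362656585844562052029522693040931892639689256151487939095932181785289098209504542820706415039156131442802232977541511250323637050719825806116670264588954763012136616737337770253784601634820075627629684637505844180011102918172728197477280441913059674731646989706125564989952111036042083824737045395667975377388389426847307251155048108448021489633679882589431846984256162807473175531912636859789909100026113383744645915528180593851619399301876787742076007533137555403889318572313268866018140541417637758976221605196140550663612750792634021547531031481330857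4424238875574966752297341903236390808584777034749280699065383259961559053046141670711133093498680571020469631891828724983298421284063553661955098196455996509513673579067367467635990137294878573346651553378279664733665566200281721573220646459212147410350344199048769732972629473190282574120641500942559944349575532559644989855431760559037671923128446023500419364262311666270107002714598752122758937123455535020098301688046690010169854328571270842525565761583504490378794266941901625614437747838829076883855046564411322057733570092036895767485512051292823396356882051720182763824632162621849512250124335880722787400277965920315672661531656072525899365958051195759176794672390509532549813457250769981034946523670612339852171076754011938492060649155653607957378983050089845114296509715064759135762805223606692294483498962556356411874702110478176519995018697449610187251858000243086550562945615126971128500373032063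6163889242643798466304645770561312068152958515548972532042138225513255492600834198678267303068273322932507840678464081314760005661548369785511109679948682268975131625225003312653425111318572892661993865401123356455065076116352938290409220763404085667937749513687936208210214447596877263893750599348755657712531796493880245642709202747979929188079542646788988031524424631384657697237802589914215102099568074253312703516655021346977149862213679446069460918422774523171135637254921703724339843228728400161444604034666298591123815166714561739420053235964104089529978068138339839373201837086736761607899037826814779614907926431228856966404892055510844128563014987771708036360818187929877756065894337002646028490602716292487399229253131949167146655908780212998825635331751740961552751596207140097379524931138354159133351282613176750239104779509344471462973147918857698053538651247510149898625338085328421286005327847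1427032751803653060349522165988199935766902483397576925421378338215488757515649796606979354694303125240218736269979997828691648604892698357429501612676730575908951079552401645194503291371105452316220351793152205633476127056476295907234352799287841948928906053115398408009248861133371271046866797447017630556232360309369352693145735118394791367514016068967785440970793494846751089937611706141279808635807375366572697339477941961104505142686985655129811339147573245286775723245709665529895491409699453935298764462913181744308550546286750099176992803398218733825044958216156726175706602751169077949210734534669421269799013454587961772342391815109095962047997918438782518538215720114039788171487400640589634773339208333472988291558227532153268579522366369265789943624781109530294139975567894766236718416126517850448880195568963372250922270679521825994897104673787439841956228838961741863090037356752450222215540063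6344312568245789537482856264854882836451227631660352639786196978219818249570376617703725668053712003150911756708406641090302617795717112965108519213402020222837419074014063966418288765757752230770408713166538121522072004904889161830306610198129594297742608013869309015469284005017554936209012599511020087700388957433592441172732388134571368731120870471123026561219681172958900636637495077132213471931657782776222748673170807963485962783809952158380584072239586063764683211520511402189173701269780727063178124871039926808707663201413463952851357212560955949552526014144941969502364409750878104358287224116665327524278487001295133583985216776817776399514143241127529993353535233389444152411053236125876928644542958222195303216292577345528756169551625151725946678861501913454557242683035062159871843834534785263210508854927691787202723001982510483429136036552037462287218056601268460803470918552447687958441201887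3491054914327153379307537556334882686782056556222342369417443066575042520971141707401976960834298500157800154330808261071714228264006521079780503496675903184620891181474475188855915107195738669917858674670316894371076869720973039522537461151816903340142321018760765939788995842009582141216506782299684293082425254837732623415431874688708215902116973638971193178292487813116914253547928771077794481675189960483023184844358911362273502313824392634687792517733748849852447791439202479459809002922484587838849178766164596089664613301564253620382321170135611653190426485463141586569296729418739878390743317813230048436486489490679818946049972112781925636074410715459895769283655384711036463012313254847222952843218598998387620783280403133969954333587553521569525876986535286741874009586980742612122505451579540517589327314219579668129580193402253794279745435960496430474135024086344113984180379098407182463802839316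1183674596550515268763559832390683800461608683565740141370823460682495909502502215976153066444907665621393046620986719818868083159852902960646762524620151970821527746845018082248489889872178614503817227590275100477243319960377568660502008004403647389577880649051542874101034687890578655072631746751787110909651726447340076653349288493318969900735507821449111247210422280724777582425958459097403004805848003700761006070614104366251478590159616463016505184425134746345079626380413452483390888248803523478460878501684533457471720569076934370506635632214997852255172293107562098673738606799121035041501442741619656890970307410097168933482173438595147835924007432191397402936731902169001243327692895941669330976085775930836228902267917950867734462853861664561337892577615769611487599979034848098796197809209717644187563424823784260470933696421913479734875301259705076864829462511921206022985468856270846442002187838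7467963509504659382801431017106255582591749961503793250902206051454212628847789003444265179793317935358994614159344991118421080759068354179169394290835120213702280246062087469275011904103905135133082980530890980004435092130289877663974739307235573900286194707042400829009310278296057761078607906386300588637402261083643151722004698427922471656217125120132749607450218739674338109300645559236345136101629946712715216717589535801688831318638103363800382796217360380699213244460791007164141560778982779573286237914839381764414070071958300520523858104299346831059692147893507250586612907818885885456916668294280326338728975025553427256656427476676803607701219349289958968624257879447077804592630857479294056633554558153127847816785136307355056718548501358144625048413125841399959952888565929114785910681464493308868552329471587968247356259800533508891925320260320974211340414306349899341761625589138069573279577283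0222952358087072715837740974054352349198071668193517339349163443049647505946315983906732502799528575298853083618439553486540428284211138820022772930103289160570887657848463415658212401362998163691824924735729641844814479930921420287432994051164828110148900692175632181431750317654256478465216743231812319472176793237583550279164925966812323234413164879619593205174865133443145065655894859705169012599184936958927969223621911670402394090490374717531036150015778206944851343684494846716116671368908848119036392598047203411752588958940738745527099521429261511087594531108338713258171318508400683957154107532668260683410075088542372620297402804263912245014988525963384777145968511233835897004000357884901656781399791162415728078475207690432275707421271456324855182718788962991938469462554963995651379538386960068957071230181073715729454187879218445249115423060398457806647586274013396984731211386844327866147893592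7794350924108320058139118892669074449881037536564751354831962997564990899642135431309503884174414983396736430001386421557002710270892422846637641550622244866608916210821198872555385490238796179976628928243251553534519321504805313279184750384923531998538914513446291183428471552959896228109511373988649950110837730198276413869295234714153081737587204026043010686323945713314316950642012816155516571800032271252658811770617405144382508203884852726639150780756356076548768286127238943988724478807768924194106117308783033124765130461718137868737923961567918233745801911616920153086776731058979780330611969465641481876737552018521574497825606521760456707219134747177471724378473079421620256907637316541365710401151739661931927140629900347091473860938481952037020859227970314672508851245088954872571058692480386580545057042216398210096260715795112916784427959425558943077021949324849565691967196843712824958011963132619283758040830033944975980876142336420165611522151725475822008471130677538631317161211950444737865260431872366644780952417768499917108345219025906818846628892351528313573201192035331262551550136283516458828475312108052798712876822587230172028387046554885528288745739724977232888449585508497121965975117262914697626836465603003474308393684286505475848025667619992887993604547103122781730662637533293507737575643154441619487371187878231015424)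

end Vale.Agent.Lib.P154.PChain.BK.S7
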